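/-
R182, module GROMOV: common definitions.
-/
import Mathlib

set_option autoImplicit false

namespace Crest.Agent.R182.Gromov

/-- `PolyLen l C d`: `l` is a length function on the group `G` (subadditive, symmetric, zero at
the identity) all of whose balls are finite and grow at most like `C * (n + 1) ^ d`. -/
structure PolyLen {G : Type*} [Group G] (l : G → ℕ) (C d : ℕ) : Prop where
  one : l 1 = 0
  mul : ∀ g h : G, l (g * h) ≤ l g + l h
  inv : ∀ g : G, l g⁻¹ = l g
  fin : ∀ n : ℕ, {g : G | l g ≤ n}.Finite
  card : ∀ n : ℕ, {g : G | l g ≤ n}.ncard ≤ C * (n + 1) ^ d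

namespace PolyLen

variable {G : Type*} [Group G] {l : G → ℕ} {C d : ℕ}

/-- A polynomial length restricts to subgroups. -/
theorem subgroup (h : PolyLen l C d) (H : Subgroup G) :
    PolyLen (fun g : H => l (g : G)) C d where
  one := by simpa using h.one
  mul g k := by simpa using h.mul (g : G) (k : G)
  inv g := by simpa using h.inv (g : G)
  fin n := by
    have := (h.fin n).preimage (f := ((↑) : H → G)) (Subtype.val_injective.injOn)
    exact this
  card n := by
    refine le_trans ?_ (h.card n)
    exact Set.ncard_le_ncard_of_injOn (fun g : H => (g : G)) (fun g hg => hg)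
      (Subtype.val_injective.injOn) (h.fin n)

theorem pow (h : PolyLen l C d) (g : G) (n : ℕ) : l (g ^ n) ≤ n * l g := by
  induction n with
  | zero => simp [h.one]
  | succ n ih =>
    rw [pow_succ]
    calc l (g ^ n * g) ≤ l (g ^ n) + l g := h.mul _ _
      _ ≤ n * l g + l g := by omega
      _ = (n + 1) * l g := by ring

theorem list_prod (h : PolyLen l C d) (L : List G) : l L.prod ≤ (L.map l).sum := by
  induction L with
  | nil => simp [h.one]
  | cons a L ih =>
    simp only [List.prod_cons, List.map_cons, List.sum_cons]
    exact (h.mul _ _).trans (by omega)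

end PolyLen

end Crest.Agent.R182.Gromov
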