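/-
R182, module GROMOV, block GC: a group with a polynomial length acting by isometries on a
finite dimensional normed space has a finite index subgroup with commutative image.
-/
import Mathlib
import Crest.Agent.R182.GromovDefs

set_option autoImplicit false

open scoped commutatorElement

namespace Crest.Agent.R182.Gromov.Compact

variable {W : Type*} [NormedAddCommGroup W] [NormedSpace ℝ W]

/-- the isometry as an operator -/
noncomputable def op (u : W ≃ₗᵢ[ℝ] W) : W →L[ℝ] W :=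
  (u.toContinuousLinearEquiv : W →L[ℝ] W)

@[simp] theorem op_apply (u : W ≃ₗᵢ[ℝ] W) (x : W) : op u x = u x := rfl

theorem op_one : op (1 : W ≃ₗᵢ[ℝ] W) = 1 := by ext x; rfl

theorem op_mul (u v : W ≃ₗᵢ[ℝ] W) : op (u * v) = op u * op v := by ext x; rfl

theorem op_pow (u : W ≃ₗᵢ[ℝ] W) (n : ℕ) : op (u ^ n) = op u ^ n := by
  induction n with
  | zero => simp [op_one]
  | succ n ih => rw [pow_succ, pow_succ, op_mul, ih]

theorem op_inj {u v : W ≃ₗᵢ[ℝ] W} (h : op u = op v) : u = v := by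
  ext x
  have := congrArg (fun T : W →L[ℝ] W => T x) h
  simpa using this

theorem norm_op_le (u : W ≃ₗᵢ[ℝ] W) : ‖op u‖ ≤ 1 := by
  refine ContinuousLinearMap.opNorm_le_bound _ zero_le_one (fun x => ?_)
  simp

theorem norm_one_le : ‖(1 : W →L[ℝ] W)‖ ≤ 1 := by
  rw [← op_one]; exact norm_op_le _

theorem norm_op_mul (u : W ≃ₗᵢ[ℝ] W) (T : W →L[ℝ] W) : ‖op u * T‖ = ‖T‖ := by
  apply le_antisymm
  · calc ‖op u * T‖ ≤ ‖op u‖ * ‖T‖ := norm_mul_le _ _
      _ ≤ 1 * ‖T‖ := by gcongr; exact norm_op_le u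
      _ = ‖T‖ := one_mul _
  · have : T = op u⁻¹ * (op u * T) := by
      rw [← mul_assoc, ← op_mul, inv_mul_cancel, op_one, one_mul]
    calc ‖T‖ = ‖op u⁻¹ * (op u * T)‖ := by rw [← this]
      _ ≤ ‖op u⁻¹‖ * ‖op u * T‖ := norm_mul_le _ _
      _ ≤ 1 * ‖op u * T‖ := by gcongr; exact norm_op_le _
      _ = _ := one_mul _

theorem norm_mul_op (u : W ≃ₗᵢ[ℝ] W) (T : W →L[ℝ] W) : ‖T * op u‖ = ‖T‖ := by
  apply le_antisymm
  · calc ‖T * op u‖ ≤ ‖T‖ * ‖op u‖ := norm_mul_le _ _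
      _ ≤ ‖T‖ * 1 := by gcongr; exact norm_op_le u
      _ = ‖T‖ := mul_one _
  · have : T = (T * op u) * op u⁻¹ := by
      rw [mul_assoc, ← op_mul, mul_inv_cancel, op_one, mul_one]
    calc ‖T‖ = ‖(T * op u) * op u⁻¹‖ := by rw [← this]
      _ ≤ ‖T * op u‖ * ‖op u⁻¹‖ := norm_mul_le _ _
      _ ≤ ‖T * op u‖ * 1 := by gcongr; exact norm_op_le _
      _ = _ := mul_one _

/-- distance to the identity -/
noncomputable def δ (u : W ≃ₗᵢ[ℝ] W) : ℝ := ‖op u - 1‖

theorem δ_nonneg (u : W ≃ₗᵢ[ℝ] W) : 0 ≤ δ u := norm_nonneg _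

theorem δ_eq_zero {u : W ≃ₗᵢ[ℝ] W} (h : δ u = 0) : u = 1 := by
  apply op_inj
  rw [op_one]
  exact sub_eq_zero.1 (norm_eq_zero.1 h)

theorem δ_pos {u : W ≃ₗᵢ[ℝ] W} (h : u ≠ 1) : 0 < δ u :=
  lt_of_le_of_ne (δ_nonneg u) (fun h0 => h (δ_eq_zero h0.symm))

@[simp] theorem δ_one : δ (1 : W ≃ₗᵢ[ℝ] W) = 0 := by simp [δ, op_one]

theorem δ_mul (u v : W ≃ₗᵢ[ℝ] W) : δ (u * v) ≤ δ u + δ v := by
  have : op (u * v) - 1 = op u * (op v - 1) + (op u - 1) := by
    rw [op_mul]; noncomm_ring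
  calc δ (u * v) = ‖op u * (op v - 1) + (op u - 1)‖ := by rw [δ, this]
    _ ≤ ‖op u * (op v - 1)‖ + ‖op u - 1‖ := norm_add_le _ _
    _ = δ v + δ u := by rw [norm_op_mul]; rfl
    _ = _ := add_comm _ _

theorem δ_inv (u : W ≃ₗᵢ[ℝ] W) : δ u⁻¹ = δ u := by
  have : op u⁻¹ - 1 = - (op u⁻¹ * (op u - 1)) := by
    rw [mul_sub, ← op_mul, inv_mul_cancel, op_one]; noncomm_ring
  rw [δ, this, norm_neg, norm_op_mul]; rfl

theorem δ_conj (w u : W ≃ₗᵢ[ℝ] W) : δ (w * u * w⁻¹) = δ u := by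
  have : op (w * u * w⁻¹) - 1 = op w * (op u - 1) * op w⁻¹ := by
    rw [op_mul, op_mul, mul_sub, sub_mul, mul_one, ← op_mul w w⁻¹, mul_inv_cancel, op_one]
  rw [δ, this, norm_mul_op, norm_op_mul]; rfl

theorem δ_comm (u v : W ≃ₗᵢ[ℝ] W) : δ ⁅u, v⁆ ≤ 2 * δ u * δ v := by
  have : op ⁅u, v⁆ - 1 =
      ((op u - 1) * (op v - 1) - (op v - 1) * (op u - 1)) * op (u⁻¹ * v⁻¹) := by
    have h1 : (op u - 1) * (op v - 1) - (op v - 1) * (op u - 1) = op (u * v) - op (v * u) := by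
      rw [op_mul, op_mul]; noncomm_ring
    have ha : u * v * (u⁻¹ * v⁻¹) = u * v * u⁻¹ * v⁻¹ := by group
    have hb : v * u * (u⁻¹ * v⁻¹) = 1 := by group
    rw [h1, sub_mul, ← op_mul, ← op_mul, commutatorElement_def, ha, hb, op_one]
  rw [δ, this, norm_mul_op]
  calc ‖(op u - 1) * (op v - 1) - (op v - 1) * (op u - 1)‖
      ≤ ‖(op u - 1) * (op v - 1)‖ + ‖(op v - 1) * (op u - 1)‖ := norm_sub_le _ _
    _ ≤ ‖op u - 1‖ * ‖op v - 1‖ + ‖op v - 1‖ * ‖op u - 1‖ :=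
        add_le_add (norm_mul_le _ _) (norm_mul_le _ _)
    _ = 2 * δ u * δ v := by simp only [δ]; ring

theorem δ_pow_le (u : W ≃ₗᵢ[ℝ] W) (m : ℕ) : δ (u ^ m) ≤ m * δ u := by
  induction m with
  | zero => simp
  | succ m ih =>
    rw [pow_succ]
    calc δ (u ^ m * u) ≤ δ (u ^ m) + δ u := δ_mul _ _
      _ ≤ m * δ u + δ u := by linarith
      _ = ((m + 1 : ℕ) : ℝ) * δ u := by push_cast; ring

/-- `u^m - 1 - m (u - 1)` is quadratically small. -/
theorem pow_sub_linear (u : W ≃ₗᵢ[ℝ] W) (m : ℕ) :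
    ‖op (u ^ m) - 1 - (m : ℝ) • (op u - 1)‖ ≤ (m : ℝ) ^ 2 * δ u ^ 2 := by
  induction m with
  | zero => simp [op_one]
  | succ m ih =>
    have h1 : op (u ^ (m + 1)) - 1 - ((m + 1 : ℕ) : ℝ) • (op u - 1)
        = (op (u ^ m) - 1 - (m : ℝ) • (op u - 1)) + (op (u ^ m) - 1) * (op u - 1) := by
      rw [pow_succ, op_mul]
      push_cast
      rw [add_smul, one_smul]
      noncomm_ring
    rw [h1]
    calc ‖(op (u ^ m) - 1 - (m : ℝ) • (op u - 1)) + (op (u ^ m) - 1) * (op u - 1)‖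
        ≤ ‖op (u ^ m) - 1 - (m : ℝ) • (op u - 1)‖ + ‖(op (u ^ m) - 1) * (op u - 1)‖ :=
          norm_add_le _ _
      _ ≤ (m : ℝ) ^ 2 * δ u ^ 2 + ‖op (u ^ m) - 1‖ * ‖op u - 1‖ :=
          add_le_add ih (norm_mul_le _ _)
      _ ≤ (m : ℝ) ^ 2 * δ u ^ 2 + (m * δ u) * δ u := by
          have := δ_nonneg u
          refine add_le_add le_rfl (mul_le_mul (δ_pow_le u m) le_rfl (norm_nonneg _) ?_)
          positivity
      _ ≤ ((m + 1 : ℕ) : ℝ) ^ 2 * δ u ^ 2 := by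
          push_cast
          nlinarith [sq_nonneg (δ u), mul_nonneg (Nat.cast_nonneg (α := ℝ) m) (sq_nonneg (δ u))]

theorem δ_pow_ge (u : W ≃ₗᵢ[ℝ] W) {m E : ℕ} (hm : 1 ≤ m) (hE : m ≤ E)
    (h : 2 * (E : ℝ) ^ 2 * δ u ≤ 1) : δ u / 2 ≤ δ (u ^ m) := by
  have h1 := pow_sub_linear u m
  have h2 : ‖(m : ℝ) • (op u - 1)‖ = m * δ u := by
    rw [norm_smul]; simp [δ]
  have h3 : ‖(m : ℝ) • (op u - 1)‖ ≤ ‖op (u ^ m) - 1‖
      + ‖op (u ^ m) - 1 - (m : ℝ) • (op u - 1)‖ := by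
    have := norm_sub_le (op (u ^ m) - 1) (op (u ^ m) - 1 - (m : ℝ) • (op u - 1))
    simpa using this
  have h4 : (m : ℝ) ^ 2 * δ u ^ 2 ≤ δ u / 2 := by
    have hmE : (m : ℝ) ^ 2 ≤ (E : ℝ) ^ 2 := by
      have : (m : ℝ) ≤ E := by exact_mod_cast hE
      gcongr
    have h0 := δ_nonneg u
    have : (m : ℝ) ^ 2 * δ u ≤ 1 / 2 := by nlinarith
    nlinarith
  have h5 : (1 : ℝ) ≤ m := by exact_mod_cast hm
  have h0 := δ_nonneg u
  have h6 : δ u ≤ m * δ u := by nlinarith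
  have h7 : ‖op (u ^ m) - 1‖ = δ (u ^ m) := rfl
  rw [h2, h7] at h3
  linarith

/-- If the commutator `c = ⁅g, t⁆` commutes with `g` and `t` is close to `1`, then `c = 1`. -/
theorem comm_eq_one {g t : W ≃ₗᵢ[ℝ] W} (hg : Commute ⁅g, t⁆ g) (ht : δ t < 1) :
    ⁅g, t⁆ = 1 := by
  set c := ⁅g, t⁆ with hc
  have hct : g * t * g⁻¹ = c * t := by rw [hc, commutatorElement_def]; group
  have hpow : ∀ j : ℕ, g ^ j * t * (g ^ j)⁻¹ = c ^ j * t := by
    intro j
    induction j with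
    | zero => simp
    | succ j ih =>
      have hcomm : g * c ^ j = c ^ j * g := ((hg.pow_left j).eq).symm
      calc g ^ (j + 1) * t * (g ^ (j + 1))⁻¹ = g * (g ^ j * t * (g ^ j)⁻¹) * g⁻¹ := by
            rw [pow_succ']; group
        _ = g * (c ^ j * t) * g⁻¹ := by rw [ih]
        _ = c ^ j * (g * t * g⁻¹) := by
            rw [← mul_assoc, hcomm]; group
        _ = c ^ j * (c * t) := by rw [hct]
        _ = c ^ (j + 1) * t := by rw [pow_succ]; group
  -- norm estimate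
  have key : ∀ j : ℕ, ‖op (c ^ j) * (op c - 1) - op t⁻¹ * (op c - 1)‖ ≤ δ t * δ c := by
    intro j
    have h1 : op (c ^ j) * (op c - 1) - op t⁻¹ * (op c - 1)
        = (op (c ^ j * t) - 1) * (op t⁻¹ * (op c - 1)) := by
      rw [sub_mul, one_mul, ← mul_assoc, ← op_mul, mul_assoc (c ^ j) t t⁻¹, mul_inv_cancel,
        mul_one]
    rw [h1]
    calc ‖(op (c ^ j * t) - 1) * (op t⁻¹ * (op c - 1))‖
        ≤ ‖op (c ^ j * t) - 1‖ * ‖op t⁻¹ * (op c - 1)‖ := norm_mul_le _ _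
      _ = δ (c ^ j * t) * δ c := by rw [norm_op_mul]; rfl
      _ = δ t * δ c := by rw [← hpow j, δ_conj]
  -- average
  have hsum : ∀ J : ℕ, ∑ j ∈ Finset.range J, op (c ^ j) * (op c - 1) = op (c ^ J) - 1 := by
    intro J
    induction J with
    | zero => simp [op_one]
    | succ J ih =>
      rw [Finset.sum_range_succ, ih, pow_succ, op_mul]; noncomm_ring
  have havg : ∀ J : ℕ, (J : ℝ) * δ c ≤ 2 + J * (δ t * δ c) := by
    intro J
    have h1 : ∑ j ∈ Finset.range J, (op (c ^ j) * (op c - 1) - op t⁻¹ * (op c - 1))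
        = (op (c ^ J) - 1) - (J : ℝ) • (op t⁻¹ * (op c - 1)) := by
      rw [Finset.sum_sub_distrib, hsum, Finset.sum_const, Finset.card_range, Nat.cast_smul_eq_nsmul]
    have h2 : ‖∑ j ∈ Finset.range J, (op (c ^ j) * (op c - 1) - op t⁻¹ * (op c - 1))‖
        ≤ J * (δ t * δ c) := by
      calc _ ≤ ∑ j ∈ Finset.range J, ‖op (c ^ j) * (op c - 1) - op t⁻¹ * (op c - 1)‖ :=
            norm_sum_le _ _
        _ ≤ ∑ j ∈ Finset.range J, (δ t * δ c) := Finset.sum_le_sum (fun j _ => key j)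
        _ = J * (δ t * δ c) := by simp
    rw [h1] at h2
    have h3 : ‖(J : ℝ) • (op t⁻¹ * (op c - 1))‖ = J * δ c := by
      rw [norm_smul, norm_op_mul]; simp [δ]
    have h4 : ‖(J : ℝ) • (op t⁻¹ * (op c - 1))‖ ≤ ‖op (c ^ J) - 1‖
        + ‖(op (c ^ J) - 1) - (J : ℝ) • (op t⁻¹ * (op c - 1))‖ := by
      have := norm_sub_le (op (c ^ J) - 1) ((op (c ^ J) - 1) - (J : ℝ) • (op t⁻¹ * (op c - 1)))
      simpa using this
    have h5 : ‖op (c ^ J) - 1‖ ≤ 2 := by
      calc ‖op (c ^ J) - 1‖ ≤ ‖op (c ^ J)‖ + ‖(1 : W →L[ℝ] W)‖ := norm_sub_le _ _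
        _ ≤ 1 + 1 := add_le_add (norm_op_le _) norm_one_le
        _ = 2 := by norm_num
    rw [h3] at h4
    linarith
  by_contra hne
  have hpos := δ_pos hne
  have hgap : 0 < (1 - δ t) * δ c := mul_pos (by linarith) hpos
  obtain ⟨J, hJ⟩ := exists_nat_gt (2 / ((1 - δ t) * δ c))
  have h1 := havg J
  rw [div_lt_iff₀ hgap] at hJ
  nlinarith

/-- `P s K i = s 0 ^ i 0 * s 1 ^ i 1 * ... * s (K-1) ^ i (K-1)`. -/
def P {U : Type*} [Group U] (s : ℕ → U) : (K : ℕ) → (Fin K → ℕ) → U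
  | 0, _ => 1
  | K + 1, i => s 0 ^ i 0 * P (fun k => s (k + 1)) K (fun k => i k.succ)

theorem P_map {U V : Type*} [Group U] [Group V] (f : U →* V) (s : ℕ → U) (K : ℕ)
    (i : Fin K → ℕ) : f (P s K i) = P (fun k => f (s k)) K i := by
  induction K generalizing s with
  | zero => simp [P]
  | succ K ih => simp only [P, map_mul, map_pow, ih]

theorem δ_P_le {s : ℕ → (W ≃ₗᵢ[ℝ] W)} {η : ℝ} (hη : η ≤ 1 / 2)
    (hs : ∀ k, δ (s (k + 1)) ≤ η * δ (s k)) (E : ℕ) (K : ℕ) (i : Fin K → ℕ)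
    (hi : ∀ k, i k ≤ E) : δ (P s K i) ≤ 2 * E * δ (s 0) := by
  induction K generalizing s with
  | zero =>
    have := δ_nonneg (s 0)
    simp only [P, δ_one]; positivity
  | succ K ih =>
    have h1 : δ (P (fun k => s (k + 1)) K (fun k => i k.succ)) ≤ 2 * E * δ (s (0 + 1)) :=
      ih (s := fun k => s (k + 1)) (fun k => hs (k + 1)) (fun k => i k.succ) (fun k => hi _)
    have h2 : δ (s 0 ^ i 0) ≤ E * δ (s 0) := by
      refine (δ_pow_le _ _).trans ?_
      have : (i 0 : ℝ) ≤ E := by exact_mod_cast hi 0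
      have := δ_nonneg (s 0)
      gcongr
    have h3 : δ (s (0 + 1)) ≤ 1 / 2 * δ (s 0) := by
      refine (hs 0).trans ?_
      have := δ_nonneg (s 0)
      gcongr
    have h4 : δ (P s (K + 1) i) ≤ δ (s 0 ^ i 0) + δ (P (fun k => s (k + 1)) K (fun k => i k.succ)) :=
      δ_mul _ _
    have hE : (0 : ℝ) ≤ E := Nat.cast_nonneg _
    have h5 : 2 * (E : ℝ) * δ (s (0 + 1)) ≤ E * δ (s 0) := by nlinarith
    linarith

theorem P_inj {s : ℕ → (W ≃ₗᵢ[ℝ] W)} {η : ℝ} {E : ℕ} (hη : 8 * E * η < 1) (hη2 : η ≤ 1 / 2)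
    (hs : ∀ k, δ (s (k + 1)) ≤ η * δ (s k)) (hpos : ∀ k, 0 < δ (s k))
    (hE : ∀ k, 2 * (E : ℝ) ^ 2 * δ (s k) ≤ 1) (K : ℕ) (i j : Fin K → ℕ)
    (hi : ∀ k, i k ≤ E) (hj : ∀ k, j k ≤ E) (h : P s K i = P s K j) : i = j := by
  induction K generalizing s with
  | zero => funext k; exact k.elim0
  | succ K ih =>
    have tail : ∀ i : Fin (K + 1) → ℕ, (∀ k, i k ≤ E) →
        δ (P (fun k => s (k + 1)) K (fun k => i k.succ)) ≤ 2 * E * (η * δ (s 0)) := by
      intro i hi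
      have h1 : δ (P (fun k => s (k + 1)) K (fun k => i k.succ)) ≤ 2 * E * δ (s (0 + 1)) :=
        δ_P_le (s := fun k => s (k + 1)) hη2 (fun k => hs (k + 1)) E K (fun k => i k.succ)
          (fun k => hi _)
      exact h1.trans (mul_le_mul_of_nonneg_left (hs 0) (by positivity))
    have main : ∀ i j : Fin (K + 1) → ℕ, (∀ k, i k ≤ E) → (∀ k, j k ≤ E) →
        P s (K + 1) i = P s (K + 1) j → ¬ (j 0 < i 0) := by
      intro i j hi hj h hlt
      simp only [P] at h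
      set A := P (fun k => s (k + 1)) K (fun k => i k.succ) with hA
      set B := P (fun k => s (k + 1)) K (fun k => j k.succ) with hB
      have h1 : s 0 ^ (i 0 - j 0) = B * A⁻¹ := by
        have h2 : s 0 ^ i 0 = s 0 ^ j 0 * s 0 ^ (i 0 - j 0) := by
          rw [← pow_add]; congr 1; omega
        rw [h2, mul_assoc] at h
        have h3 := mul_left_cancel h
        rw [← h3]; group
      have h2 : δ (s 0) / 2 ≤ δ (s 0 ^ (i 0 - j 0)) :=
        δ_pow_ge _ (by omega) (le_trans (Nat.sub_le _ _) (hi 0)) (hE 0)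
      have h3 : δ (B * A⁻¹) ≤ δ B + δ A := by
        have := δ_mul B A⁻¹
        rwa [δ_inv] at this
      have h4 := tail i hi
      have h5 := tail j hj
      rw [h1] at h2
      have h6 := hpos 0
      nlinarith
    have h0 : i 0 = j 0 := by
      rcases lt_trichotomy (i 0) (j 0) with h1 | h1 | h1
      · exact absurd h1 (main j i hj hi h.symm)
      · exact h1
      · exact absurd h1 (main i j hi hj h)
    have ht : P (fun k => s (k + 1)) K (fun k => i k.succ)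
        = P (fun k => s (k + 1)) K (fun k => j k.succ) := by
      simp only [P, h0] at h
      exact mul_left_cancel h
    have := ih (s := fun k => s (k + 1)) (fun k => hs (k + 1)) (fun k => hpos (k + 1))
      (fun k => hE (k + 1)) (fun k => i k.succ) (fun k => j k.succ) (fun k => hi _)
      (fun k => hj _) ht
    funext k
    refine Fin.cases h0 (fun k => ?_) k
    exact congrFun this k

theorem l_P_le {G : Type*} [Group G] {l : G → ℕ} {C d : ℕ} (hl : PolyLen l C d)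
    {s : ℕ → G} {M E : ℕ} (hs : ∀ k, l (s k) ≤ M * 4 ^ k) (K : ℕ) (i : Fin K → ℕ)
    (hi : ∀ k, i k ≤ E) : l (P s K i) + E * M ≤ 2 * (E * M) * 4 ^ K := by
  induction K generalizing s M with
  | zero =>
    simp only [P, hl.one, pow_zero]; omega
  | succ K ih =>
    have h1 := ih (s := fun k => s (k + 1)) (M := 4 * M)
      (fun k => by
        have h := hs (k + 1)
        have h' : M * 4 ^ (k + 1) = 4 * M * 4 ^ k := by ring
        rw [h'] at h
        exact h)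
      (fun k => i k.succ) (fun k => hi _)
    have h2 : l (s 0 ^ i 0) ≤ E * M := by
      refine (hl.pow _ _).trans ?_
      have h3 := hs 0
      simp only [pow_zero, mul_one] at h3
      exact Nat.mul_le_mul (hi 0) h3
    have h3 : l (P s (K + 1) i) ≤ l (s 0 ^ i 0) + l (P (fun k => s (k + 1)) K (fun k => i k.succ)) :=
      hl.mul _ _
    have h4 : 2 * (E * (4 * M)) * 4 ^ K = 2 * (E * M) * 4 ^ (K + 1) := by ring
    rw [h4] at h1
    have h5 : E * (4 * M) = 4 * (E * M) := by ring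
    omega

theorem exists_chain {G : Type*} [Group G] (ρ : G →* (W ≃ₗᵢ[ℝ] W)) {g h : G}
    (hg : δ (ρ g) < 1) (hh : δ (ρ h) < 1) (hne : ρ ⁅g, h⁆ ≠ 1) :
    ∃ s : ℕ → G, s 0 = ⁅g, h⁆ ∧ (∀ k, ρ (s k) ≠ 1) ∧
      ∀ k, ∃ t, (t = g ∨ t = h) ∧ s (k + 1) = ⁅s k, t⁆ := by
  classical
  let Good : G → Prop := fun x => ρ x ≠ 1 ∧ ∃ y t : G,
    ρ y ∈ Subgroup.closure {ρ g, ρ h} ∧ (t = g ∨ t = h) ∧ x = ⁅y, t⁆
  have hmem : ∀ x, Good x → ρ x ∈ Subgroup.closure {ρ g, ρ h} := by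
    rintro x ⟨_, y, t, hy, ht, rfl⟩
    have ht' : ρ t ∈ Subgroup.closure {ρ g, ρ h} := by
      apply Subgroup.subset_closure
      rcases ht with rfl | rfl <;> simp
    rw [commutatorElement_def]
    simp only [map_mul, map_inv]
    exact mul_mem (mul_mem (mul_mem hy ht') (inv_mem hy)) (inv_mem ht')
  have step : ∀ x, Good x → ∃ x', Good x' ∧ ∃ t, (t = g ∨ t = h) ∧ x' = ⁅x, t⁆ := by
    intro x hx
    have hx0 := hx
    obtain ⟨hx1, y, t, hy, ht, hxy⟩ := hx
    by_contra hcon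
    push Not at hcon
    have hcomm : ∀ t, (t = g ∨ t = h) → Commute (ρ x) (ρ t) := by
      intro t ht
      have h1 : ρ ⁅x, t⁆ = 1 := by
        by_contra h2
        exact hcon ⁅x, t⁆ ⟨h2, x, t, hmem x hx0, ht, rfl⟩ t ht rfl
      rw [map_commutatorElement, commutatorElement_eq_one_iff_mul_comm] at h1
      exact h1
    have hall : ∀ u ∈ Subgroup.closure {ρ g, ρ h}, Commute (ρ x) u := by
      intro u hu
      have hle : Subgroup.closure {ρ g, ρ h} ≤ Subgroup.centralizer {ρ x} := by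
        rw [Subgroup.closure_le]
        intro v hv
        rw [SetLike.mem_coe, Subgroup.mem_centralizer_singleton_iff]
        simp only [Set.mem_insert_iff, Set.mem_singleton_iff] at hv
        rcases hv with rfl | rfl
        · exact (hcomm g (Or.inl rfl)).symm.eq
        · exact (hcomm h (Or.inr rfl)).symm.eq
      have := hle hu
      rw [Subgroup.mem_centralizer_singleton_iff] at this
      exact Commute.symm this
    have h2 : Commute ⁅ρ y, ρ t⁆ (ρ y) := by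
      have := hall _ hy
      rw [hxy, map_commutatorElement] at this
      exact this
    have h3 : δ (ρ t) < 1 := by rcases ht with rfl | rfl <;> assumption
    have h4 := comm_eq_one h2 h3
    rw [hxy, map_commutatorElement] at hx1
    exact hx1 h4
  choose f hf1 hf2 using step
  let F : {x // Good x} → {x // Good x} := fun x => ⟨f x.1 x.2, hf1 x.1 x.2⟩
  have hgood0 : Good ⁅g, h⁆ :=
    ⟨hne, g, h, Subgroup.subset_closure (by simp), Or.inr rfl, rfl⟩
  refine ⟨fun k => (F^[k] ⟨⁅g, h⁆, hgood0⟩).1, rfl, fun k => (F^[k] ⟨⁅g, h⁆, hgood0⟩).2.1, ?_⟩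
  intro k
  have h1 : (F^[k + 1] ⟨⁅g, h⁆, hgood0⟩) = F (F^[k] ⟨⁅g, h⁆, hgood0⟩) :=
    Function.iterate_succ_apply' F k _
  show ∃ t, (t = g ∨ t = h) ∧ (F^[k + 1] ⟨⁅g, h⁆, hgood0⟩).1 = ⁅(F^[k] ⟨⁅g, h⁆, hgood0⟩).1, t⁆
  rw [h1]
  exact hf2 _ _

theorem l_comm_le {G : Type*} [Group G] {l : G → ℕ} {C d : ℕ} (hl : PolyLen l C d) (x t : G) :
    l ⁅x, t⁆ ≤ 2 * l x + 2 * l t := by
  rw [commutatorElement_def]
  have h1 := hl.mul (x * t * x⁻¹) t⁻¹
  have h2 := hl.mul (x * t) x⁻¹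
  have h3 := hl.mul x t
  rw [hl.inv] at h1 h2
  omega

/-- near-identity elements have commuting images -/
theorem comm_of_small {G : Type*} [Group G] {l : G → ℕ} {C d : ℕ} (hl : PolyLen l C d)
    (ρ : G →* (W ≃ₗᵢ[ℝ] W)) {g h : G}
    (hg : δ (ρ g) < 1 / (32 * ((4 : ℝ) ^ d) ^ 2)) (hh : δ (ρ h) < 1 / (32 * ((4 : ℝ) ^ d) ^ 2)) :
    ρ ⁅g, h⁆ = 1 := by
  by_contra hne
  set E : ℕ := 4 ^ d with hE
  have hE1 : 1 ≤ E := Nat.one_le_pow _ _ (by norm_num)
  have hE1' : (1 : ℝ) ≤ E := by exact_mod_cast hE1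
  have hEr : ((4 : ℝ) ^ d) = (E : ℝ) := by rw [hE]; push_cast; rfl
  rw [hEr] at hg hh
  set ε : ℝ := 1 / (32 * (E : ℝ) ^ 2) with hε
  have hεpos : 0 < ε := by positivity
  have hE2 : (1 : ℝ) ≤ (E : ℝ) ^ 2 := one_le_pow₀ hE1'
  have hε1 : ε * (E : ℝ) ^ 2 = 1 / 32 := by rw [hε]; field_simp
  have hεE : ε * E ≤ 1 / 32 := by nlinarith
  have hε32 : ε ≤ 1 / 32 := by nlinarith
  obtain ⟨s, hs0, hs1, hs2⟩ := exists_chain ρ (hg.trans (by linarith)) (hh.trans (by linarith)) hne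
  have ht : ∀ t, (t = g ∨ t = h) → δ (ρ t) < ε := by
    rintro t (rfl | rfl) <;> assumption
  have hdec : ∀ k, δ (ρ (s (k + 1))) ≤ (2 * ε) * δ (ρ (s k)) := by
    intro k
    obtain ⟨t, ht1, ht2⟩ := hs2 k
    rw [ht2, map_commutatorElement]
    refine (δ_comm _ _).trans ?_
    have h1 := ht t ht1
    have h2 := δ_nonneg (ρ (s k))
    nlinarith
  have hs0' : δ (ρ (s 0)) ≤ 2 * ε ^ 2 := by
    rw [hs0, map_commutatorElement]
    refine (δ_comm _ _).trans ?_
    have := δ_nonneg (ρ g)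
    have := δ_nonneg (ρ h)
    nlinarith
  have hsk : ∀ k, δ (ρ (s k)) ≤ 2 * ε ^ 2 := by
    intro k
    induction k with
    | zero => exact hs0'
    | succ k ih =>
      have := hdec k
      have := δ_nonneg (ρ (s k))
      nlinarith
  have hEk : ∀ k, 2 * (E : ℝ) ^ 2 * δ (ρ (s k)) ≤ 1 := by
    intro k
    have h1 := hsk k
    have h2 : 2 * (E : ℝ) ^ 2 * δ (ρ (s k)) ≤ 2 * (E : ℝ) ^ 2 * (2 * ε ^ 2) := by gcongr
    have h3 : 2 * (E : ℝ) ^ 2 * (2 * ε ^ 2) = 4 * (ε * (E : ℝ) ^ 2) * ε := by ring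
    rw [h3, hε1] at h2
    linarith
  -- lengths
  set L : ℕ := max (l g) (l h) with hL
  have htl : ∀ t, (t = g ∨ t = h) → l t ≤ L := by
    rintro t (rfl | rfl)
    · exact le_max_left _ _
    · exact le_max_right _ _
  have hlen : ∀ k, l (s k) ≤ (4 * L) * 4 ^ k := by
    intro k
    induction k with
    | zero =>
      rw [hs0]
      have h1 := l_comm_le hl g h
      have h2 := htl g (Or.inl rfl)
      have h3 := htl h (Or.inr rfl)
      omega
    | succ k ih =>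
      obtain ⟨t, ht1, ht2⟩ := hs2 k
      rw [ht2]
      have h1 := l_comm_le hl (s k) t
      have h2 := htl t ht1
      have h3 : 1 ≤ 4 ^ k := Nat.one_le_pow _ _ (by norm_num)
      have h4 : L ≤ L * 4 ^ k := by nlinarith
      have h5 : (4 * L) * 4 ^ (k + 1) = 4 * ((4 * L) * 4 ^ k) := by ring
      have h6 : (4 * L) * 4 ^ k = 4 * (L * 4 ^ k) := by ring
      omega
  -- counting
  have hcount : ∀ K : ℕ, (E + 1) ^ K ≤ C * (2 * (E * (4 * L)) * 4 ^ K + 1) ^ d := by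
    intro K
    let f : (Fin K → Fin (E + 1)) → G := fun i => P s K (fun k => (i k : ℕ))
    have hinj : Function.Injective f := by
      intro i j hij
      have h1 : P (fun k => ρ (s k)) K (fun k => (i k : ℕ))
          = P (fun k => ρ (s k)) K (fun k => (j k : ℕ)) := by
        rw [← P_map, ← P_map]; exact congrArg ρ hij
      have h2 := P_inj (s := fun k => ρ (s k)) (η := 2 * ε) (E := E) (by linarith) (by linarith)
        hdec (fun k => δ_pos (hs1 k)) hEk K _ _ (fun k => Nat.le_of_lt_succ (i k).2)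
        (fun k => Nat.le_of_lt_succ (j k).2) h1
      funext k
      exact Fin.ext (congrFun h2 k)
    have hball : ∀ i, l (f i) ≤ 2 * (E * (4 * L)) * 4 ^ K := by
      intro i
      have := l_P_le hl hlen K (fun k => (i k : ℕ)) (fun k => Nat.le_of_lt_succ (i k).2)
      exact le_trans (Nat.le_add_right _ _) this
    have h1 : (Set.range f).ncard = (E + 1) ^ K := by
      rw [← Set.image_univ, Set.ncard_image_of_injective _ hinj, Set.ncard_univ]
      simp [Nat.card_eq_fintype_card]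
    rw [← h1]
    refine le_trans (Set.ncard_le_ncard ?_ (hl.fin _)) (hl.card _)
    rintro _ ⟨i, rfl⟩
    exact hball i
  -- contradiction
  set B : ℝ := C * (2 * (E * (4 * L)) + 1 : ℝ) ^ d with hB
  have hreal : ∀ K : ℕ, ((E : ℝ) + 1) ^ K ≤ B * (E : ℝ) ^ K := by
    intro K
    have h1 : (((E + 1) ^ K : ℕ) : ℝ) ≤ ((C * (2 * (E * (4 * L)) * 4 ^ K + 1) ^ d : ℕ) : ℝ) := by
      exact_mod_cast hcount K
    push_cast at h1
    refine h1.trans ?_
    have h4 : (1 : ℝ) ≤ 4 ^ K := one_le_pow₀ (by norm_num)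
    have h2 : (2 * ((E : ℝ) * (4 * L)) * 4 ^ K + 1) ≤ (2 * (E * (4 * L)) + 1 : ℝ) * 4 ^ K := by
      nlinarith
    calc (C : ℝ) * (2 * ((E : ℝ) * (4 * L)) * 4 ^ K + 1) ^ d
        ≤ C * ((2 * (E * (4 * L)) + 1 : ℝ) * 4 ^ K) ^ d := by gcongr
      _ = B * (E : ℝ) ^ K := by
          rw [hB, mul_pow, ← hEr, ← pow_mul, ← pow_mul, mul_comm K d]; ring
  have htend : Filter.Tendsto (fun K : ℕ => (((E : ℝ) + 1) / E) ^ K) Filter.atTop Filter.atTop := by
    apply tendsto_pow_atTop_atTop_of_one_lt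
    rw [lt_div_iff₀ (by linarith)]
    linarith
  obtain ⟨K, hK⟩ := (htend.eventually_gt_atTop B).exists
  have hKK := hreal K
  rw [div_pow, lt_div_iff₀ (by positivity)] at hK
  linarith

/-- **Compact part.** -/
theorem compact_part {G : Type*} [Group G] {l : G → ℕ} {C d : ℕ} (hl : PolyLen l C d)
    [FiniteDimensional ℝ W] (ρ : G →* (W ≃ₗᵢ[ℝ] W)) :
    ∃ G0 : Subgroup G, G0.FiniteIndex ∧ ∀ g ∈ G0, ∀ h ∈ G0, ρ (g * h) = ρ (h * g) := by
  classical
  set ε : ℝ := 1 / (32 * ((4 : ℝ) ^ d) ^ 2) with hε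
  have hεpos : 0 < ε := by positivity
  set N : Set G := {g | δ (ρ g) < ε} with hN
  refine ⟨Subgroup.closure N, ?_, ?_⟩
  · -- finite index
    have hbdd : Bornology.IsBounded (Set.range (fun g : G => op (ρ g))) := by
      rw [isBounded_iff_forall_norm_le]
      exact ⟨1, by rintro _ ⟨g, rfl⟩; exact norm_op_le _⟩
    have htb : TotallyBounded (Set.range (fun g : G => op (ρ g))) := by
      have hc : IsCompact (closure (Set.range (fun g : G => op (ρ g)))) := hbdd.isCompact_closure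
      exact hc.totallyBounded.subset subset_closure
    obtain ⟨T, hTsub, hTfin, hT⟩ := Metric.finite_approx_of_totallyBounded htb ε hεpos
    have hchoose : ∀ y : T, ∃ g : G, op (ρ g) = y.1 := fun y => hTsub y.2
    choose r hr using hchoose
    have : Finite T := hTfin
    have hsurj : Function.Surjective (fun y : T => (QuotientGroup.mk (r y) : G ⧸ Subgroup.closure N)) := by
      intro q
      obtain ⟨g, rfl⟩ := QuotientGroup.mk_surjective q
      have h1 : op (ρ g) ∈ ⋃ y ∈ T, Metric.ball y ε := hT ⟨g, rfl⟩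
      simp only [Set.mem_iUnion, Metric.mem_ball, exists_prop] at h1
      obtain ⟨y, hyT, hy⟩ := h1
      refine ⟨⟨y, hyT⟩, ?_⟩
      rw [QuotientGroup.eq]
      apply Subgroup.subset_closure
      show δ (ρ ((r ⟨y, hyT⟩)⁻¹ * g)) < ε
      have h2 : op (ρ ((r ⟨y, hyT⟩)⁻¹ * g)) - 1
          = op (ρ (r ⟨y, hyT⟩))⁻¹ * (op (ρ g) - op (ρ (r ⟨y, hyT⟩))) := by
        rw [map_mul, map_inv, op_mul, mul_sub, ← op_mul _ (ρ (r ⟨y, hyT⟩)), inv_mul_cancel, op_one]
      rw [δ, h2, norm_op_mul, hr, ← dist_eq_norm]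
      exact hy
    have : Finite (G ⧸ Subgroup.closure N) := Finite.of_surjective _ hsurj
    exact Subgroup.finiteIndex_of_finite_quotient
  · have hcomm : ∀ g ∈ N, ∀ h ∈ N, ρ g * ρ h = ρ h * ρ g := by
      intro g hg h hh
      have h1 := comm_of_small hl ρ hg hh
      rw [map_commutatorElement, commutatorElement_eq_one_iff_mul_comm] at h1
      exact h1
    intro g hg h hh
    rw [map_mul, map_mul]
    have h1 : ∀ g ∈ N, ∀ h ∈ Subgroup.closure N, ρ g * ρ h = ρ h * ρ g := by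
      intro g hg h hh
      have hle : Subgroup.closure N ≤ (Subgroup.centralizer {ρ g}).comap ρ := by
        rw [Subgroup.closure_le]
        intro v hv
        rw [SetLike.mem_coe, Subgroup.mem_comap, Subgroup.mem_centralizer_singleton_iff]
        exact (hcomm g hg v hv).symm
      have := hle hh
      rw [Subgroup.mem_comap, Subgroup.mem_centralizer_singleton_iff] at this
      exact this.symm
    have hle : Subgroup.closure N ≤ (Subgroup.centralizer {ρ h}).comap ρ := by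
      rw [Subgroup.closure_le]
      intro v hv
      rw [SetLike.mem_coe, Subgroup.mem_comap, Subgroup.mem_centralizer_singleton_iff]
      exact h1 v hv h hh
    have := hle hg
    rw [Subgroup.mem_comap, Subgroup.mem_centralizer_singleton_iff] at this
    exact this

end Crest.Agent.R182.Gromov.Compact
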