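/-
R182, module GROMOV, last step and assembly: an infinite finitely generated group of polynomial
growth virtually surjects onto `ℤ`; induction on the degree of growth.
-/
import Mathlib
import Crest.Prelude.Def_Polycyclic
import Crest.Prelude.Def_WordHyperbolic
import Crest.Agent.R182.GromovDefs
import Crest.Agent.R182.GromovPoly
import Crest.Agent.R182.GromovMilnor

set_option autoImplicit false

namespace Crest.Agent.R182.GromovFinal

open Crest.GroupTheory Crest.Agent.R182.Gromov Crest.Agent.R182.GromovPoly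

universe u

/-- Interface: block GH of helper203. -/
def HarmonicRep : Prop :=
  ∀ (G : Type u) [Group G] [Infinite G] (_ : Group.FG G) (l : G → ℕ) (C d : ℕ)
    (_ : PolyLen l C d),
    ∃ (W : Type u) (_ : NormedAddCommGroup W) (_ : InnerProductSpace ℝ W)
      (_ : FiniteDimensional ℝ W) (ρ : G →* (W ≃ₗᵢ[ℝ] W)),
      ∀ G1 : Subgroup G, G1.FiniteIndex → (∀ g ∈ G1, ρ g = 1) →
        ∃ f : G1 →* Multiplicative ℝ, f ≠ 1

/-- Interface: block GC of helper443. -/
def CompactPart : Prop :=
  ∀ (G : Type u) [Group G] (_ : Group.FG G) (l : G → ℕ) (C d : ℕ) (_ : PolyLen l C d)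
    (W : Type u) [NormedAddCommGroup W] [NormedSpace ℝ W] [FiniteDimensional ℝ W]
    (ρ : G →* (W ≃ₗᵢ[ℝ] W)),
    ∃ G0 : Subgroup G, G0.FiniteIndex ∧ ∀ g ∈ G0, ∀ h ∈ G0, ρ (g * h) = ρ (h * g)

/-- Interface: block GM of helper443. -/
def MilnorStep : Prop :=
  ∀ (G : Type u) [Group G] (_ : Group.FG G) (l : G → ℕ) (C d : ℕ) (_ : PolyLen l C (d + 1))
    (φ : G →* Multiplicative ℤ) (_ : Function.Surjective φ),
    Group.FG φ.ker ∧ ∃ C' : ℕ, PolyLen (fun k : φ.ker => l (k : G)) C' d

theorem milnorStep : MilnorStep.{u} := fun _ _ hfg _ _ _ hl φ hφ =>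
  ⟨GromovMilnor.ker_fg hl hfg φ hφ, GromovMilnor.ker_polyLen hl φ hφ⟩

/-- an infinite finitely generated abelian group surjects onto `ℤ`. -/
theorem onto_int_of_comm (A : Type u) [CommGroup A] [Group.FG A] [Infinite A] :
    ∃ φ : A →* Multiplicative ℤ, Function.Surjective φ := by
  classical
  obtain ⟨n, ι, fι, p, hp, e, ⟨f⟩⟩ :=
    AddCommGroup.equiv_free_prod_directSum_zmod (Additive A)
  rcases n with - | n
  · exfalso
    have h1 : ∀ i, NeZero (p i ^ e i) := fun i => ⟨pow_ne_zero _ (hp i).ne_zero⟩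
    have h2 : Finite (DirectSum ι fun i => ZMod (p i ^ e i)) := by
      have : Finite (∀ i, ZMod (p i ^ e i)) := by
        have : ∀ i, Finite (ZMod (p i ^ e i)) := fun i => inferInstance
        exact inferInstance
      exact Finite.of_equiv _
        (DFinsupp.equivFunOnFintype (β := fun i => ZMod (p i ^ e i))).symm
    have h3 : Finite (Fin 0 →₀ ℤ) := inferInstance
    have h4 : Finite ((Fin 0 →₀ ℤ) × DirectSum ι fun i => ZMod (p i ^ e i)) := inferInstance
    have h5 : Finite (Additive A) := Finite.of_equiv _ f.symm.toEquiv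
    have h6 : Finite A := Finite.of_equiv _ (Additive.toMul (α := A))
    exact not_finite A
  · let ψ : Additive A →+ ℤ :=
      (Finsupp.applyAddHom (0 : Fin (n + 1))).comp
        ((AddMonoidHom.fst _ _).comp f.toAddMonoidHom)
    have hψ : Function.Surjective ψ := by
      intro m
      refine ⟨f.symm (Finsupp.single 0 m, 0), ?_⟩
      simp [ψ]
    refine ⟨⟨⟨fun a => Multiplicative.ofAdd (ψ (Additive.ofMul a)), ?_⟩, ?_⟩, ?_⟩
    · simp
    · intro x y
      simp
    · intro m
      obtain ⟨a, ha⟩ := hψ (Multiplicative.toAdd m)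
      refine ⟨Additive.toMul a, ?_⟩
      show Multiplicative.ofAdd (ψ a) = m
      rw [ha]; rfl

/-- a finitely generated group with an infinite commutative image surjects onto `ℤ`. -/
theorem onto_int_of_range {Γ : Type u} {B : Type*} [Group Γ] [Group.FG Γ] [Group B] (f : Γ →* B)
    (hcomm : ∀ x y, f (x * y) = f (y * x)) (hinf : Infinite f.range) :
    ∃ φ : Γ →* Multiplicative ℤ, Function.Surjective φ := by
  let _ : CommGroup f.range :=
    { (inferInstance : Group f.range) with
      mul_comm := by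
        rintro ⟨_, x, rfl⟩ ⟨_, y, rfl⟩
        apply Subtype.ext
        show f x * f y = f y * f x
        rw [← map_mul, ← map_mul, hcomm] }
  have hfg : Group.FG f.range := Group.fg_range f
  obtain ⟨φ, hφ⟩ := onto_int_of_comm f.range
  exact ⟨φ.comp f.rangeRestrict, hφ.comp f.rangeRestrict_surjective⟩

theorem infinite_range_real {Γ : Type*} [Group Γ] (f : Γ →* Multiplicative ℝ) (hf : f ≠ 1) :
    Infinite f.range := by
  obtain ⟨g, hg⟩ : ∃ g, f g ≠ 1 := by
    by_contra h
    push Not at h
    exact hf (MonoidHom.ext h)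
  refine Infinite.of_injective (fun n : ℕ => (⟨f (g ^ n), g ^ n, rfl⟩ : f.range)) ?_
  intro n m hnm
  have h1 : f (g ^ n) = f (g ^ m) := congrArg Subtype.val hnm
  rw [map_pow, map_pow] at h1
  have h2 : (n : ℝ) * Multiplicative.toAdd (f g) = (m : ℝ) * Multiplicative.toAdd (f g) := by
    have := congrArg Multiplicative.toAdd h1
    rw [toAdd_pow, toAdd_pow] at this
    simpa using this
  have h3 : Multiplicative.toAdd (f g) ≠ 0 := by
    intro h0
    exact hg (by rw [← ofAdd_toAdd (f g), h0]; rfl)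
  exact_mod_cast mul_right_cancel₀ h3 h2

/-- an infinite finitely generated group of polynomial growth virtually surjects onto `ℤ`. -/
theorem onto_int (HR : HarmonicRep.{u}) (CP : CompactPart.{u}) (G : Type u) [Group G] [Infinite G]
    (hfg : Group.FG G) (l : G → ℕ) (C d : ℕ) (hl : PolyLen l C d) :
    ∃ H : Subgroup G, H.FiniteIndex ∧ ∃ φ : H →* Multiplicative ℤ, Function.Surjective φ := by
  obtain ⟨W, i1, i2, i3, ρ, hρ⟩ := HR G hfg l C d hl
  obtain ⟨G0, hG0, hcomm⟩ := CP G hfg l C d hl W ρ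
  have hfg0 : Group.FG G0 := Subgroup.fg_of_index_ne_zero G0
  by_cases hfin : Infinite (ρ.comp G0.subtype).range
  · refine ⟨G0, hG0, ?_⟩
    exact onto_int_of_range (ρ.comp G0.subtype)
      (fun x y => hcomm x x.2 y y.2) hfin
  · have hfin' : Finite (ρ.comp G0.subtype).range := not_infinite_iff_finite.1 hfin
    have hker : (ρ.comp G0.subtype).ker.FiniteIndex := inferInstance
    let G1 : Subgroup G := (ρ.comp G0.subtype).ker.map G0.subtype
    have hG1 : G1.FiniteIndex := by
      rw [Subgroup.finiteIndex_iff]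
      show ((ρ.comp G0.subtype).ker.map G0.subtype).index ≠ 0
      rw [Subgroup.index_map_subtype]
      exact Nat.mul_ne_zero hker.index_ne_zero hG0.index_ne_zero
    obtain ⟨f, hf⟩ := hρ G1 hG1 (by
      rintro _ ⟨g, hg, rfl⟩
      exact hg)
    have hfg1 : Group.FG G1 := Subgroup.fg_of_index_ne_zero G1
    refine ⟨G1, hG1, ?_⟩
    exact onto_int_of_range f (fun x y => by rw [map_mul, map_mul, mul_comm])
      (infinite_range_real f hf)

/-- the main theorem: polynomial growth implies virtually polycyclic. -/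
theorem gromov (HR : HarmonicRep.{u}) (CP : CompactPart.{u}) (d : ℕ) :
    ∀ (G : Type u) [Group G] (_ : Group.FG G) (l : G → ℕ) (C : ℕ) (_ : PolyLen l C d),
      IsVirtuallyPolycyclic G := by
  induction d with
  | zero =>
    intro G _ hfg l C hl
    by_cases hinf : Infinite G
    · exfalso
      obtain ⟨s, hs⟩ := Infinite.exists_subset_card_eq G (C + 1)
      let n := s.sup l
      have h1 : (s : Set G) ⊆ {g | l g ≤ n} := fun g hg => Finset.le_sup (f := l) hg
      have h2 := Set.ncard_le_ncard h1 (hl.fin n)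
      rw [Set.ncard_coe_finset, hs] at h2
      have h3 := hl.card n
      simp only [pow_zero, mul_one] at h3
      omega
    · have : Finite G := not_infinite_iff_finite.1 hinf
      exact isVirtuallyPolycyclic_of_finite
  | succ d ih =>
    intro G _ hfg l C hl
    by_cases hinf : Infinite G
    · obtain ⟨H, hH, φ, hφ⟩ := onto_int HR CP G hfg l C (d + 1) hl
      refine isVirtuallyPolycyclic_of_finiteIndex H hH ?_
      have hfgH : Group.FG H := Subgroup.fg_of_index_ne_zero H
      obtain ⟨hk, C', hC'⟩ := milnorStep H hfgH (fun h : H => l (h : G)) C d (hl.subgroup H) φ hφ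
      exact isVirtuallyPolycyclic_of_ker φ hφ hk (ih φ.ker hk _ C' hC')
    · have : Finite G := not_infinite_iff_finite.1 hinf
      exact isVirtuallyPolycyclic_of_finite

section wordLength

variable {G : Type u} [Group G]

theorem exists_list {S : Set G} (hS : Subgroup.closure S = ⊤) (g : G) :
    ∃ L : List G, (∀ x ∈ L, x ∈ S ∨ x⁻¹ ∈ S) ∧ L.prod = g := by
  have h : g ∈ Submonoid.closure (S ∪ S⁻¹) := by
    rw [← Subgroup.closure_toSubmonoid, hS]; trivial
  obtain ⟨L, h1, h2⟩ := Submonoid.exists_list_of_mem_closure h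
  exact ⟨L, fun x hx => h1 x hx, h2⟩

theorem wordLength_spec {S : Set G} (hS : Subgroup.closure S = ⊤) (g : G) :
    ∃ L : List G, L.length = wordLength S g ∧ (∀ x ∈ L, x ∈ S ∨ x⁻¹ ∈ S) ∧ L.prod = g := by
  have h : ({n : ℕ | ∃ l : List G, l.length = n ∧ (∀ x ∈ l, x ∈ S ∨ x⁻¹ ∈ S) ∧ l.prod = g}).Nonempty := by
    obtain ⟨L, h1, h2⟩ := exists_list hS g
    exact ⟨L.length, L, rfl, h1, h2⟩
  exact Nat.sInf_mem h

theorem wordLength_le {S : Set G} {g : G} (L : List G) (h1 : ∀ x ∈ L, x ∈ S ∨ x⁻¹ ∈ S)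
    (h2 : L.prod = g) : wordLength S g ≤ L.length :=
  Nat.sInf_le ⟨L, rfl, h1, h2⟩

theorem wordLength_one (S : Set G) : wordLength S (1 : G) = 0 :=
  Nat.le_zero.1 (wordLength_le [] (by simp) (by simp))

theorem wordLength_mul {S : Set G} (hS : Subgroup.closure S = ⊤) (g h : G) :
    wordLength S (g * h) ≤ wordLength S g + wordLength S h := by
  obtain ⟨L, h1, h2, h3⟩ := wordLength_spec hS g
  obtain ⟨M, k1, k2, k3⟩ := wordLength_spec hS h
  refine (wordLength_le (L ++ M) ?_ ?_).trans ?_
  · intro x hx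
    rcases List.mem_append.1 hx with hx | hx
    · exact h2 x hx
    · exact k2 x hx
  · rw [List.prod_append, h3, k3]
  · rw [List.length_append, h1, k1]

theorem wordLength_inv_le {S : Set G} (hS : Subgroup.closure S = ⊤) (g : G) :
    wordLength S g⁻¹ ≤ wordLength S g := by
  obtain ⟨L, h1, h2, h3⟩ := wordLength_spec hS g
  refine (wordLength_le ((L.map fun x => x⁻¹).reverse) ?_ ?_).trans ?_
  · intro x hx
    rw [List.mem_reverse, List.mem_map] at hx
    obtain ⟨y, hy, rfl⟩ := hx
    rcases h2 y hy with h | h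
    · right; rwa [inv_inv]
    · left; exact h
  · rw [← List.prod_inv_reverse, h3]
  · simp [h1]

theorem wordLength_inv {S : Set G} (hS : Subgroup.closure S = ⊤) (g : G) :
    wordLength S g⁻¹ = wordLength S g :=
  le_antisymm (wordLength_inv_le hS g) (by simpa using wordLength_inv_le hS g⁻¹)

theorem finite_wordBall {S : Set G} (hS : Subgroup.closure S = ⊤) (hf : S.Finite) (n : ℕ) :
    {g : G | wordLength S g ≤ n}.Finite := by
  have hf2 : Finite (↥(S ∪ S⁻¹)) := (hf.union hf.inv)
  have h1 := (List.finite_length_lt (↥(S ∪ S⁻¹)) (n + 1)).image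
    (fun L => (L.map (fun x : ↥(S ∪ S⁻¹) => (x : G))).prod)
  refine h1.subset ?_
  intro g hg
  obtain ⟨L, h1, h2, h3⟩ := wordLength_spec hS g
  have h4 : ∀ x ∈ L, x ∈ S ∪ S⁻¹ := by
    intro x hx
    rcases h2 x hx with h | h
    · exact Or.inl h
    · exact Or.inr h
  refine ⟨L.attach.map (fun x => ⟨x.1, h4 x.1 x.2⟩), ?_, ?_⟩
  · simp only [Set.mem_ofPred_eq, List.length_map, List.length_attach]
    have : wordLength S g ≤ n := hg
    omega
  · simp only [List.map_map]
    rw [← h3]
    congr 1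
    have : ((fun x : ↥(S ∪ S⁻¹) => (x : G)) ∘ fun x : {x // x ∈ L} => (⟨x.1, h4 x.1 x.2⟩ : ↥(S ∪ S⁻¹)))
        = (fun x : {x // x ∈ L} => x.1) := rfl
    rw [this]
    exact List.attach_map_subtype_val L

theorem polyLen_wordLength {S : Set G} (hS : Subgroup.closure S = ⊤) (hf : S.Finite) {C d : ℕ}
    (h : ∀ n : ℕ, 1 ≤ n → {g : G | wordLength S g ≤ n}.ncard ≤ C * n ^ d) :
    PolyLen (wordLength S) C d where
  one := wordLength_one S
  mul := wordLength_mul hS
  inv := wordLength_inv hS
  fin := finite_wordBall hS hf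
  card n := by
    refine (Set.ncard_le_ncard ?_ (finite_wordBall hS hf (n + 1))).trans (h (n + 1) (by omega))
    intro g (hg : wordLength S g ≤ n)
    show wordLength S g ≤ n + 1
    omega

/-- Gromov's theorem in terms of word balls. -/
theorem gromov_wordLength (HR : HarmonicRep.{u}) (CP : CompactPart.{u})
    (S : Finset G) (hS : Subgroup.closure (S : Set G) = ⊤) (C d : ℕ)
    (h : ∀ n : ℕ, 1 ≤ n → {g : G | wordLength (S : Set G) g ≤ n}.ncard ≤ C * n ^ d) :
    IsVirtuallyPolycyclic G := by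
  have hfg : Group.FG G := ⟨⟨S, hS⟩⟩
  exact gromov HR CP d G hfg _ C (polyLen_wordLength hS S.finite_toSet h)

end wordLength

end Crest.Agent.R182.GromovFinal
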