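/-
R182, module BND (helper658): the logarithmic law for zero-weight moves.
-/
import Mathlib

set_option autoImplicit false

open Filter Topology

namespace Crest.Agent.R182.Bnd

variable {G : Type*} [Group G]

/-- a length function on a group -/
structure IsLen (len : G → ℝ) : Prop where
  one : len 1 = 0
  inv : ∀ g, len g⁻¹ = len g
  mul : ∀ g h, len (g * h) ≤ len g + len h

theorem IsLen.nonneg {len : G → ℝ} (h : IsLen len) (g : G) : 0 ≤ len g := by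
  have h1 := h.mul g g⁻¹
  rw [mul_inv_cancel, h.one, h.inv] at h1
  linarith

/-- A crossed homomorphism `δ` over a character `χ` with weight `ω`. -/
structure Crossed (len ω : G → ℝ) (χ δ : G → ℂ) (c A : ℝ) : Prop where
  c_nonneg : 0 ≤ c
  A_nonneg : 0 ≤ A
  ω_mul : ∀ g h, ω (g * h) = ω g + ω h
  χ_norm : ∀ g, ‖χ g‖ = Real.exp (ω g)
  δ_mul : ∀ g h, δ (g * h) = δ g + χ g * δ h
  ω_le : ∀ g, |ω g| ≤ c * len g
  δ_le : ∀ g, ‖δ g‖ ≤ A * Real.exp (c * len g)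

/-- uniform quasi-isometry in the displacement form -/
structure SelfQI (len : G → ℝ) (Ψ : G → G) (K : ℝ) : Prop where
  lip : ∀ x y, len ((Ψ x)⁻¹ * Ψ (x * y)) ≤ K * len y + K
  onto : ∀ x y, ∃ z, len z ≤ K * len y + K ∧ len (y⁻¹ * ((Ψ x)⁻¹ * Ψ (x * z))) ≤ K

/-- descent along the powers of `b` -/
def Descent (ω : G → ℝ) (b : G) (Ψ : G → G) (η C₁ : ℝ) : Prop :=
  ∀ (x : G) (k : ℕ), ω (Ψ (x * b ^ k)) ≤ ω (Ψ x) - η * k + C₁

/-- a chain of sets `{1} = Z 0, …, Z r = C` along which conjugation by `b⁻ᵏ` is bounded modulo the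
previous term. -/
structure Chain (len : G → ℝ) (b : G) (Z : ℕ → Set G) (r : ℕ) : Prop where
  zero : ∀ v ∈ Z 0, v = 1
  step : ∀ i < r, ∀ v ∈ Z (i + 1), ∃ R : ℝ, ∀ k : ℕ, ∃ y y' : G, len y ≤ R ∧ y' ∈ Z i ∧
    (b ^ k)⁻¹ * v * b ^ k = y * y'

section Limit

variable {len ω : G → ℝ} {χ δ : G → ℂ} {c A : ℝ}

theorem Crossed.δ_diff (h : Crossed len ω χ δ c A) (g k : G) :
    ‖δ k - δ g‖ ≤ Real.exp (ω g) * (A * Real.exp (c * len (g⁻¹ * k))) := by
  have h1 : δ k = δ g + χ g * δ (g⁻¹ * k) := by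
    rw [← h.δ_mul, mul_inv_cancel_left]
  rw [h1, add_sub_cancel_left, norm_mul, h.χ_norm]
  exact mul_le_mul_of_nonneg_left (h.δ_le _) (Real.exp_pos _).le

theorem Crossed.ω_diff (h : Crossed len ω χ δ c A) (g k : G) :
    ω k ≤ ω g + c * len (g⁻¹ * k) := by
  have h1 : ω k = ω g + ω (g⁻¹ * k) := by
    rw [← h.ω_mul, mul_inv_cancel_left]
  rw [h1]
  have := (abs_le.1 (h.ω_le (g⁻¹ * k))).2
  linarith

/-- The limit function: all that is used later. -/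
structure LimFun (ω : G → ℝ) (δ : G → ℂ) (b : G) (Ψ : G → G) (f : G → ℂ) (Cf : ℝ) : Prop where
  close : ∀ x, ‖f x - δ (Ψ x)‖ ≤ Cf * Real.exp (ω (Ψ x))
  inv : ∀ x, f (x * b) = f x

theorem exists_limFun (h : Crossed len ω χ δ c A) (b : G) {K η C₁ : ℝ} (hη : 0 < η) :
    ∃ Cf : ℝ, 0 ≤ Cf ∧ ∀ Ψ : G → G, SelfQI len Ψ K → Descent ω b Ψ η C₁ →
      ∃ f : G → ℂ, LimFun ω δ b Ψ f Cf := by
  set A₁ : ℝ := A * Real.exp (c * (K * len b + K)) with hA₁
  set r : ℝ := Real.exp (-η) with hr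
  have hr1 : r < 1 := by rw [hr]; exact Real.exp_lt_one_iff.2 (by linarith)
  have hA₁0 : 0 ≤ A₁ := mul_nonneg h.A_nonneg (Real.exp_pos _).le
  refine ⟨A₁ * Real.exp C₁ / (1 - r), by
    have : 0 < 1 - r := by linarith
    positivity, fun Ψ hΨ hD => ?_⟩
  have hstep : ∀ x : G, ∀ k : ℕ, dist (δ (Ψ (x * b ^ k))) (δ (Ψ (x * b ^ (k + 1)))) ≤
      (A₁ * Real.exp C₁ * Real.exp (ω (Ψ x))) * r ^ k := by
    intro x k
    rw [dist_comm, dist_eq_norm]
    refine (h.δ_diff _ _).trans ?_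
    have h1 : len ((Ψ (x * b ^ k))⁻¹ * Ψ (x * b ^ (k + 1))) ≤ K * len b + K := by
      have := hΨ.lip (x * b ^ k) b
      rwa [mul_assoc x, ← pow_succ] at this
    have h2 : Real.exp (ω (Ψ (x * b ^ k))) ≤ Real.exp (ω (Ψ x)) * (r ^ k * Real.exp C₁) := by
      rw [hr, ← Real.exp_nat_mul, ← Real.exp_add, ← Real.exp_add]
      refine Real.exp_le_exp.2 ((hD x k).trans_eq ?_)
      ring
    have h3 : A * Real.exp (c * len ((Ψ (x * b ^ k))⁻¹ * Ψ (x * b ^ (k + 1)))) ≤ A₁ := by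
      rw [hA₁]
      refine mul_le_mul_of_nonneg_left (Real.exp_le_exp.2 ?_) h.A_nonneg
      exact mul_le_mul_of_nonneg_left h1 h.c_nonneg
    calc _ ≤ (Real.exp (ω (Ψ x)) * (r ^ k * Real.exp C₁)) * A₁ :=
          mul_le_mul h2 h3 (mul_nonneg h.A_nonneg (Real.exp_pos _).le) (by positivity)
      _ = _ := by ring
  have hlim : ∀ x : G, ∃ l : ℂ, Tendsto (fun k : ℕ => δ (Ψ (x * b ^ k))) atTop (𝓝 l) := fun x =>
    cauchySeq_tendsto_of_complete (cauchySeq_of_le_geometric r _ hr1 (hstep x))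
  choose f hf using hlim
  refine ⟨f, ?_, ?_⟩
  · intro x
    have h1 := dist_le_of_le_geometric_of_tendsto₀ r _ hr1 (hstep x) (hf x)
    rw [pow_zero, mul_one, dist_comm, dist_eq_norm] at h1
    refine h1.trans_eq ?_
    ring
  · intro x
    have h1 := (hf x).comp (tendsto_add_atTop_nat 1)
    refine tendsto_nhds_unique (hf (x * b)) (h1.congr fun k => ?_)
    show δ (Ψ (x * b ^ (k + 1))) = δ (Ψ (x * b * b ^ k))
    rw [mul_assoc, ← pow_succ']

variable {b : G} {Ψ : G → G} {f : G → ℂ} {Cf : ℝ}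

theorem LimFun.inv_pow (hf : LimFun ω δ b Ψ f Cf) (x : G) (k : ℕ) : f (x * b ^ k) = f x := by
  induction k with
  | zero => simp
  | succ k ih => rw [pow_succ, ← mul_assoc, hf.inv, ih]

/-- modulus of continuity of the limit function -/
theorem LimFun.diff (hl : IsLen len) (h : Crossed len ω χ δ c A) {K : ℝ}
    (hCf : 0 ≤ Cf) (hΨ : SelfQI len Ψ K) (hf : LimFun ω δ b Ψ f Cf) (x y : G) :
    ‖f (x * y) - f x‖ ≤ (2 * Cf + A) * Real.exp (ω (Ψ x)) * Real.exp (c * (K * len y + K)) := by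
  have hlen : len ((Ψ x)⁻¹ * Ψ (x * y)) ≤ K * len y + K := hΨ.lip x y
  have hlen' : c * len ((Ψ x)⁻¹ * Ψ (x * y)) ≤ c * (K * len y + K) :=
    mul_le_mul_of_nonneg_left hlen h.c_nonneg
  have hpos : 0 ≤ c * (K * len y + K) :=
    (mul_nonneg h.c_nonneg (hl.nonneg _)).trans hlen'
  have h1 : ‖f (x * y) - δ (Ψ (x * y))‖ ≤
      Cf * (Real.exp (ω (Ψ x)) * Real.exp (c * (K * len y + K))) := by
    refine (hf.close (x * y)).trans (mul_le_mul_of_nonneg_left ?_ hCf)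
    rw [← Real.exp_add]
    refine Real.exp_le_exp.2 ((h.ω_diff (Ψ x) (Ψ (x * y))).trans ?_)
    linarith
  have h2 : ‖δ (Ψ (x * y)) - δ (Ψ x)‖ ≤
      Real.exp (ω (Ψ x)) * (A * Real.exp (c * (K * len y + K))) := by
    refine (h.δ_diff _ _).trans (mul_le_mul_of_nonneg_left ?_ (Real.exp_pos _).le)
    exact mul_le_mul_of_nonneg_left (Real.exp_le_exp.2 hlen') h.A_nonneg
  have h3 : ‖f x - δ (Ψ x)‖ ≤ Cf * (Real.exp (ω (Ψ x)) * Real.exp (c * (K * len y + K))) := by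
    refine (hf.close x).trans (mul_le_mul_of_nonneg_left ?_ hCf)
    exact le_mul_of_one_le_right (Real.exp_pos _).le (Real.one_le_exp hpos)
  have h4 : f (x * y) - f x = (f (x * y) - δ (Ψ (x * y))) + (δ (Ψ (x * y)) - δ (Ψ x))
      - (f x - δ (Ψ x)) := by ring
  rw [h4]
  calc _ ≤ ‖f (x * y) - δ (Ψ (x * y))‖ + ‖δ (Ψ (x * y)) - δ (Ψ x)‖ + ‖f x - δ (Ψ x)‖ :=
        (norm_sub_le _ _).trans (add_le_add_left (norm_add_le _ _) _)
    _ ≤ _ := add_le_add (add_le_add h1 h2) h3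
    _ = _ := by ring

/-- invariance under one more step of the chain -/
theorem LimFun.inv_step (hl : IsLen len) (h : Crossed len ω χ δ c A) {K η C₁ : ℝ}
    (hη : 0 < η) (hCf : 0 ≤ Cf) (hK : 0 ≤ K)
    (hΨ : SelfQI len Ψ K) (hD : Descent ω b Ψ η C₁) (hf : LimFun ω δ b Ψ f Cf)
    {V : Set G} (hV : ∀ y ∈ V, ∀ x, f (x * y) = f x) {v : G} {R : ℝ}
    (hv : ∀ k : ℕ, ∃ y y' : G, len y ≤ R ∧ y' ∈ V ∧ (b ^ k)⁻¹ * v * b ^ k = y * y') (x : G) :
    f (x * v) = f x := by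
  have hb : ∀ k : ℕ, ‖f (x * v) - f x‖ ≤
      ((2 * Cf + A) * Real.exp (c * (K * R + K)) * Real.exp (ω (Ψ x) + C₁)) *
        (Real.exp (-η)) ^ k := by
    intro k
    obtain ⟨y, y', hy, hy', he⟩ := hv k
    have h1 : f (x * v) = f (x * b ^ k * y) := by
      rw [← hf.inv_pow (x * v) k]
      have h2 : x * v * b ^ k = x * b ^ k * y * y' := by
        have h3 : v * b ^ k = b ^ k * (y * y') := by rw [← he]; group
        rw [mul_assoc, h3]; group
      rw [h2, hV y' hy']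
    rw [h1, ← hf.inv_pow x k]
    refine (hf.diff hl h hCf hΨ (x * b ^ k) y).trans ?_
    have h2 : Real.exp (ω (Ψ (x * b ^ k))) ≤ Real.exp (ω (Ψ x) + C₁) * (Real.exp (-η)) ^ k := by
      rw [← Real.exp_nat_mul, ← Real.exp_add]
      refine Real.exp_le_exp.2 ((hD x k).trans_eq ?_)
      ring
    have h3 : Real.exp (c * (K * len y + K)) ≤ Real.exp (c * (K * R + K)) := by
      refine Real.exp_le_exp.2 (mul_le_mul_of_nonneg_left ?_ h.c_nonneg)
      have := mul_le_mul_of_nonneg_left hy hK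
      linarith
    have hA : 0 ≤ 2 * Cf + A := by have := h.A_nonneg; positivity
    calc _ ≤ (2 * Cf + A) * (Real.exp (ω (Ψ x) + C₁) * (Real.exp (-η)) ^ k) *
          Real.exp (c * (K * R + K)) := by gcongr
      _ = _ := by ring
  have h0 : Tendsto (fun k : ℕ => ((2 * Cf + A) * Real.exp (c * (K * R + K)) *
      Real.exp (ω (Ψ x) + C₁)) * (Real.exp (-η)) ^ k) atTop (𝓝 (_ * 0)) :=
    (tendsto_pow_atTop_nhds_zero_of_lt_one (Real.exp_pos _).le
      (Real.exp_lt_one_iff.2 (by linarith))).const_mul _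
  rw [mul_zero] at h0
  have h1 : ‖f (x * v) - f x‖ ≤ 0 := ge_of_tendsto' h0 hb
  exact sub_eq_zero.1 (norm_le_zero_iff.1 h1)

theorem LimFun.inv_chain (hl : IsLen len) (h : Crossed len ω χ δ c A) {K η C₁ : ℝ}
    (hη : 0 < η) (hCf : 0 ≤ Cf) (hK : 0 ≤ K)
    (hΨ : SelfQI len Ψ K) (hD : Descent ω b Ψ η C₁) (hf : LimFun ω δ b Ψ f Cf)
    {Z : ℕ → Set G} {r : ℕ} (hZ : Chain len b Z r) :
    ∀ i ≤ r, ∀ v ∈ Z i, ∀ x, f (x * v) = f x := by
  intro i
  induction i with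
  | zero =>
    intro _ v hv x
    rw [hZ.zero v hv, mul_one]
  | succ i ih =>
    intro hi v hv x
    obtain ⟨R, hR⟩ := hZ.step i hi v hv
    exact hf.inv_step hl h hη hCf hK hΨ hD (ih (Nat.le_of_succ_le hi)) hR x

end Limit

section Main

variable {len ω : G → ℝ} {χ δ : G → ℂ} {c A : ℝ}

/-- pairs of deep points with distant `δ` -/
def Deep (ω : G → ℝ) (δ : G → ℂ) : Prop :=
  ∀ T : ℝ, ∃ y y' : G, ω y ≤ -T ∧ ω y' ≤ -T ∧ 1 ≤ ‖δ y - δ y'‖

/-- decomposition `z = e c` of bounded elements, with logarithmic conjugation growth of `e` under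
`N0`, in terms of a size function `sz`. -/
def Dec (len sz : G → ℝ) (C N0 : Set G) : Prop :=
  ∀ R : ℝ, ∃ CR : ℝ, ∀ z, len z ≤ R → ∃ e c : G, z = e * c ∧ c ∈ C ∧
    ∀ v ∈ N0, len (v * e * v⁻¹) ≤ CR * Real.log (2 + sz v)

/-- **ZL**: the log law for zero-weight moves. -/
theorem log_law (hl : IsLen len) (h : Crossed len ω χ δ c A) (b : G) {Z : ℕ → Set G} {r : ℕ}
    (hZ : Chain len b Z r) (hdeep : Deep ω δ) {N0 : Set G} (hN0 : N0 ⊆ Z r)
    (hN0inv : ∀ v ∈ N0, v⁻¹ ∈ N0) {sz : G → ℝ} (hsz : ∀ v, 0 ≤ sz v)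
    (hszinv : ∀ v ∈ N0, sz v⁻¹ = sz v) (hdec : Dec len sz (Z r) N0) {K η : ℝ} (C₁ : ℝ)
    (hK : 0 ≤ K) (hη : 0 < η) :
    ∃ C₂ : ℝ, 0 ≤ C₂ ∧ ∀ Ψ : G → G, SelfQI len Ψ K → Descent ω b Ψ η C₁ →
      ∀ x : G, ∀ v ∈ N0, |ω (Ψ (x * v)) - ω (Ψ x)| ≤ C₂ * Real.log (2 + sz v) := by
  obtain ⟨Cf, hCf, hlim⟩ := exists_limFun (K := K) (C₁ := C₁) h b hη
  have hA0 := h.A_nonneg
  have hc0 := h.c_nonneg
  -- choice of T
  obtain ⟨T, hT⟩ : ∃ T : ℝ, (Cf + A) * Real.exp (c * K) * Real.exp (-T) ≤ 1 / 4 := by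
    have h0 : Tendsto (fun T : ℝ => (Cf + A) * Real.exp (c * K) * Real.exp (-T)) atTop
        (𝓝 (_ * 0)) := (Real.tendsto_exp_neg_atTop_nhds_zero).const_mul _
    rw [mul_zero] at h0
    obtain ⟨T, hT⟩ := (h0.eventually (ge_mem_nhds (by norm_num : (0:ℝ) < 1 / 4))).exists
    exact ⟨T, hT⟩
  obtain ⟨y, y', hy, hy', hyy⟩ := hdeep T
  set R₀ : ℝ := K * max (len y) (len y') + K with hR₀
  obtain ⟨CR, hCR⟩ := hdec R₀
  set B : ℝ := 4 * (2 * Cf + A) * Real.exp (c * K) with hB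
  have hlog2 : 0 < Real.log 2 := Real.log_pos (by norm_num)
  have hloglen : ∀ v : G, Real.log 2 ≤ Real.log (2 + sz v) := fun v =>
    Real.log_le_log (by norm_num) (by have := hsz v; linarith)
  set C₂ : ℝ := c * K * |CR| + |Real.log B| / Real.log 2 with hC₂
  have hC₂0 : 0 ≤ C₂ := by positivity
  refine ⟨C₂, hC₂0, fun Ψ hΨ hD => ?_⟩
  obtain ⟨f, hf⟩ := hlim Ψ hΨ hD
  have hinv : ∀ v ∈ Z r, ∀ x, f (x * v) = f x :=
    hf.inv_chain hl h hη hCf hK hΨ hD hZ r le_rfl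
  -- lower bound at every base point
  have hlow1 : ∀ x w : G, ω w ≤ -T → ∀ z, len (w⁻¹ * ((Ψ x)⁻¹ * Ψ (x * z))) ≤ K →
      ‖f (x * z) - (δ (Ψ x) + χ (Ψ x) * δ w)‖ ≤ Real.exp (ω (Ψ x)) * (1 / 4) := by
    intro x w hw z hz
    set s := w⁻¹ * ((Ψ x)⁻¹ * Ψ (x * z)) with hs
    have hΨz : Ψ (x * z) = Ψ x * (w * s) := by rw [hs]; group
    have hωs : ω s ≤ c * K := (le_abs_self _).trans
      ((h.ω_le s).trans (mul_le_mul_of_nonneg_left hz hc0))
    have h1 : δ (Ψ (x * z)) = δ (Ψ x) + χ (Ψ x) * δ w + χ (Ψ x) * (χ w * δ s) := by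
      rw [hΨz, h.δ_mul, h.δ_mul]; ring
    have h2 : ω (Ψ (x * z)) = ω (Ψ x) + ω w + ω s := by
      rw [hΨz, h.ω_mul, h.ω_mul]; ring
    have h3 : f (x * z) - (δ (Ψ x) + χ (Ψ x) * δ w) =
        (f (x * z) - δ (Ψ (x * z))) + χ (Ψ x) * (χ w * δ s) := by rw [h1]; ring
    have h4 : ‖f (x * z) - δ (Ψ (x * z))‖ ≤
        Cf * (Real.exp (ω (Ψ x)) * (Real.exp (-T) * Real.exp (c * K))) := by
      refine (hf.close _).trans (mul_le_mul_of_nonneg_left ?_ hCf)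
      rw [h2, ← Real.exp_add, ← Real.exp_add]
      exact Real.exp_le_exp.2 (by linarith)
    have h5 : ‖χ (Ψ x) * (χ w * δ s)‖ ≤
        Real.exp (ω (Ψ x)) * (Real.exp (-T) * (A * Real.exp (c * K))) := by
      rw [norm_mul, norm_mul, h.χ_norm, h.χ_norm]
      refine mul_le_mul_of_nonneg_left ?_ (Real.exp_pos _).le
      refine mul_le_mul (Real.exp_le_exp.2 hw) ?_ (norm_nonneg _) (Real.exp_pos _).le
      exact (h.δ_le s).trans (mul_le_mul_of_nonneg_left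
        (Real.exp_le_exp.2 (mul_le_mul_of_nonneg_left hz hc0)) hA0)
    rw [h3]
    calc _ ≤ _ := norm_add_le _ _
      _ ≤ _ := add_le_add h4 h5
      _ = Real.exp (ω (Ψ x)) * ((Cf + A) * Real.exp (c * K) * Real.exp (-T)) := by ring
      _ ≤ _ := mul_le_mul_of_nonneg_left hT (Real.exp_pos _).le
  have hlow : ∀ x : G, ∃ e : G, (∀ v ∈ N0, len (v * e * v⁻¹) ≤ CR * Real.log (2 + sz v)) ∧
      Real.exp (ω (Ψ x)) * (1 / 4) ≤ ‖f (x * e) - f x‖ := by
    intro x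
    obtain ⟨z, hzl, hz⟩ := hΨ.onto x y
    obtain ⟨z', hzl', hz'⟩ := hΨ.onto x y'
    have h1 := hlow1 x y hy z hz
    have h2 := hlow1 x y' hy' z' hz'
    have hzR : len z ≤ R₀ := hzl.trans (by
      rw [hR₀]; have := mul_le_mul_of_nonneg_left (le_max_left (len y) (len y')) hK; linarith)
    have hzR' : len z' ≤ R₀ := hzl'.trans (by
      rw [hR₀]; have := mul_le_mul_of_nonneg_left (le_max_right (len y) (len y')) hK; linarith)
    obtain ⟨e, g, rfl, hg, he⟩ := hCR z hzR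
    obtain ⟨e', g', rfl, hg', he'⟩ := hCR z' hzR'
    rw [← mul_assoc, hinv g hg] at h1
    rw [← mul_assoc, hinv g' hg'] at h2
    have h3 : Real.exp (ω (Ψ x)) ≤ ‖χ (Ψ x) * (δ y - δ y')‖ := by
      rw [norm_mul, h.χ_norm]
      exact le_mul_of_one_le_right (Real.exp_pos _).le hyy
    have h4 : χ (Ψ x) * (δ y - δ y') = (f (x * e) - f x) - (f (x * e') - f x)
        - (f (x * e) - (δ (Ψ x) + χ (Ψ x) * δ y))
        + (f (x * e') - (δ (Ψ x) + χ (Ψ x) * δ y')) := by ring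
    rw [h4] at h3
    have h5 : ‖(f (x * e) - f x) - (f (x * e') - f x)
        - (f (x * e) - (δ (Ψ x) + χ (Ψ x) * δ y))
        + (f (x * e') - (δ (Ψ x) + χ (Ψ x) * δ y'))‖ ≤
        ‖f (x * e) - f x‖ + ‖f (x * e') - f x‖ + Real.exp (ω (Ψ x)) * (1 / 4)
          + Real.exp (ω (Ψ x)) * (1 / 4) := by
      refine (norm_add_le _ _).trans (add_le_add ((norm_sub_le _ _).trans (add_le_add
        (norm_sub_le _ _) h1)) h2)
    have h6 := h3.trans h5
    by_cases hcase : Real.exp (ω (Ψ x)) * (1 / 4) ≤ ‖f (x * e) - f x‖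
    · exact ⟨e, he, hcase⟩
    · exact ⟨e', he', by
        have := not_le.1 hcase
        linarith⟩
  -- one-sided bound
  have hone : ∀ x : G, ∀ v ∈ N0, ω (Ψ (x * v)) - ω (Ψ x) ≤ C₂ * Real.log (2 + sz v) := by
    intro x v hv
    obtain ⟨e, he, hlo⟩ := hlow (x * v)
    have h1 : f (x * v * e) = f (x * (v * e * v⁻¹)) := by
      rw [← hinv v⁻¹ (hN0 (hN0inv v hv)) (x * v * e)]
      congr 1; group
    have h2 : f (x * v) = f x := hinv v (hN0 hv) x
    rw [h1, h2] at hlo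
    have h3 := hlo.trans (hf.diff hl h hCf hΨ x (v * e * v⁻¹))
    have hL := (hloglen v)
    have hL0 : 0 < Real.log (2 + sz v) := hlog2.trans_le hL
    have h4 : c * (K * len (v * e * v⁻¹) + K) ≤ c * K * |CR| * Real.log (2 + sz v) + c * K := by
      have h5 : len (v * e * v⁻¹) ≤ |CR| * Real.log (2 + sz v) :=
        (he v hv).trans (mul_le_mul_of_nonneg_right (le_abs_self _) hL0.le)
      have h6 := mul_le_mul_of_nonneg_left h5 (mul_nonneg hc0 hK)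
      nlinarith
    have h5 : Real.exp (ω (Ψ (x * v))) ≤
        B * Real.exp (ω (Ψ x)) * Real.exp (c * K * |CR| * Real.log (2 + sz v)) := by
      have h6 : Real.exp (c * (K * len (v * e * v⁻¹) + K)) ≤
          Real.exp (c * K * |CR| * Real.log (2 + sz v)) * Real.exp (c * K) := by
        rw [← Real.exp_add]; exact Real.exp_le_exp.2 h4
      have h7 : (2 * Cf + A) * Real.exp (ω (Ψ x)) * Real.exp (c * (K * len (v * e * v⁻¹) + K)) ≤
          (2 * Cf + A) * Real.exp (ω (Ψ x)) *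
            (Real.exp (c * K * |CR| * Real.log (2 + sz v)) * Real.exp (c * K)) := by
        gcongr
      rw [hB]
      linarith
    have hBpos : 0 < B := by
      by_contra hneg
      have : B * Real.exp (ω (Ψ x)) * Real.exp (c * K * |CR| * Real.log (2 + sz v)) ≤ 0 :=
        mul_nonpos_of_nonpos_of_nonneg (mul_nonpos_of_nonpos_of_nonneg (not_lt.1 hneg)
          (Real.exp_pos _).le) (Real.exp_pos _).le
      have h7 := Real.exp_pos (ω (Ψ (x * v)))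
      linarith
    have h6 : ω (Ψ (x * v)) ≤ Real.log B + ω (Ψ x) + c * K * |CR| * Real.log (2 + sz v) := by
      rw [← Real.exp_log hBpos, ← Real.exp_add, ← Real.exp_add] at h5
      exact Real.exp_le_exp.1 h5
    have h7 : Real.log B ≤ |Real.log B| / Real.log 2 * Real.log (2 + sz v) := by
      rw [div_mul_eq_mul_div, le_div_iff₀ hlog2]
      calc Real.log B * Real.log 2 ≤ |Real.log B| * Real.log 2 :=
            mul_le_mul_of_nonneg_right (le_abs_self _) hlog2.le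
        _ ≤ _ := mul_le_mul_of_nonneg_left hL (abs_nonneg _)
    rw [hC₂, add_mul]
    linarith
  intro x v hv
  rw [abs_le]
  refine ⟨?_, hone x v hv⟩
  have h1 := hone (x * v) v⁻¹ (hN0inv v hv)
  rw [mul_inv_cancel_right, hszinv v hv] at h1
  linarith

end Main

end Crest.Agent.R182.Bnd
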