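import Mathlib

/-!
R182, module GROMOV, block GW (helper203): the random walk of a finite family of group elements,
harmonic functions along it, second and fourth moments, and the Hellinger comparison inequality.
-/

set_option autoImplicit false
set_option linter.unusedSectionVars false
set_option linter.unusedSimpArgs false

namespace Crest.Agent.R182.Gromov.Walk

open Function

variable {G : Type*} [Group G] {ι : Type*} [Fintype ι]

/-- Finite support. -/
def FS (f : G → ℝ) : Prop := (support f).Finite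

lemma FS.summable {f : G → ℝ} (hf : FS f) : Summable f := summable_of_hasFiniteSupport hf

lemma FS.mono {f g : G → ℝ} (hf : FS f) (h : ∀ x, f x = 0 → g x = 0) : FS g :=
  Set.Finite.subset hf (fun x hx => by
    simp only [mem_support] at hx ⊢
    exact fun h0 => hx (h x h0))

lemma FS.mul_left {f : G → ℝ} (hf : FS f) (g : G → ℝ) : FS (fun x => g x * f x) :=
  hf.mono (fun x hx => by simp [hx])

lemma FS.mul_right {f : G → ℝ} (hf : FS f) (g : G → ℝ) : FS (fun x => f x * g x) :=
  hf.mono (fun x hx => by simp [hx])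

lemma FS.add {f g : G → ℝ} (hf : FS f) (hg : FS g) : FS (fun x => f x + g x) :=
  Set.Finite.subset (Set.Finite.union hf hg) (fun x hx => by
    by_contra h
    simp only [Set.mem_union, mem_support, not_or, not_not] at h
    exact hx (by simp [h.1, h.2]))

lemma FS.sub {f g : G → ℝ} (hf : FS f) (hg : FS g) : FS (fun x => f x - g x) :=
  Set.Finite.subset (Set.Finite.union hf hg) (fun x hx => by
    by_contra h
    simp only [Set.mem_union, mem_support, not_or, not_not] at h
    exact hx (by simp [h.1, h.2]))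

lemma FS.sum {κ : Type*} {s : Finset κ} {f : κ → G → ℝ} (hf : ∀ i ∈ s, FS (f i)) :
    FS (fun x => ∑ i ∈ s, f i x) := by
  classical
  refine Set.Finite.subset (Set.Finite.biUnion (s.finite_toSet) (fun i hi => hf i hi)) ?_
  intro x hx
  by_contra h
  simp only [Set.mem_iUnion, mem_support, not_exists] at h
  apply hx
  apply Finset.sum_eq_zero
  intro i hi
  by_contra h0
  exact h i hi h0

lemma FS.const_mul {f : G → ℝ} (hf : FS f) (c : ℝ) : FS (fun x => c * f x) :=
  hf.mono (fun x hx => by simp [hx])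

lemma FS.comp_inj {f : G → ℝ} (hf : FS f) {φ : G → G} (hφ : Injective φ) :
    FS (fun x => f (φ x)) :=
  Set.Finite.preimage (s := support f) (f := φ) hφ.injOn hf

lemma FS.comp_left {f : G → ℝ} (hf : FS f) (y : G) : FS (fun x => f (y * x)) :=
  hf.comp_inj (mul_right_injective y)

lemma FS.comp_right {f : G → ℝ} (hf : FS f) (y : G) : FS (fun x => f (x * y)) :=
  hf.comp_inj (mul_left_injective y)

lemma tsum_left (f : G → ℝ) (y : G) : ∑' x, f (y * x) = ∑' x, f x :=
  (Equiv.mulLeft y).tsum_eq f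

lemma tsum_right (f : G → ℝ) (y : G) : ∑' x, f (x * y) = ∑' x, f x :=
  (Equiv.mulRight y).tsum_eq f

lemma tsum_cs {u v : G → ℝ} (hu : FS u) (hv : FS v) :
    (∑' x, u x * v x) ^ 2 ≤ (∑' x, u x ^ 2) * ∑' x, v x ^ 2 := by
  classical
  set F : Finset G := hu.toFinset ∪ hv.toFinset with hF
  have hu0 : ∀ x ∉ F, u x = 0 := by
    intro x hx
    by_contra h
    exact hx (Finset.mem_union.2 (Or.inl ((Set.Finite.mem_toFinset hu).2 h)))
  have hv0 : ∀ x ∉ F, v x = 0 := by
    intro x hx
    by_contra h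
    exact hx (Finset.mem_union.2 (Or.inr ((Set.Finite.mem_toFinset hv).2 h)))
  rw [tsum_eq_sum (s := F) (fun x hx => by simp [hu0 x hx]),
    tsum_eq_sum (s := F) (fun x hx => by simp [hu0 x hx]),
    tsum_eq_sum (s := F) (fun x hx => by simp [hv0 x hx])]
  exact Finset.sum_mul_sq_le_sq_mul_sq F u v

variable [Nonempty ι]

/-- `avg F` is the average of a finite family. -/
noncomputable def avg (F : ι → ℝ) : ℝ := (Fintype.card ι : ℝ)⁻¹ * ∑ i, F i

lemma card_pos' : (0 : ℝ) < Fintype.card ι := by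
  exact_mod_cast Fintype.card_pos

lemma card_ne' : (Fintype.card ι : ℝ) ≠ 0 := (card_pos' (ι := ι)).ne'

lemma avg_const (c : ℝ) : avg (fun _ : ι => c) = c := by
  have := card_ne' (ι := ι)
  simp [avg]

lemma avg_add (F H : ι → ℝ) : avg (fun i => F i + H i) = avg F + avg H := by
  simp [avg, Finset.sum_add_distrib, mul_add]

lemma avg_sub (F H : ι → ℝ) : avg (fun i => F i - H i) = avg F - avg H := by
  simp [avg, Finset.sum_sub_distrib, mul_sub]

lemma avg_smul (c : ℝ) (F : ι → ℝ) : avg (fun i => c * F i) = c * avg F := by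
  simp only [avg, ← Finset.mul_sum]; ring

lemma avg_mono {F H : ι → ℝ} (h : ∀ i, F i ≤ H i) : avg F ≤ avg H := by
  unfold avg
  exact mul_le_mul_of_nonneg_left (Finset.sum_le_sum fun i _ => h i)
    (inv_nonneg.mpr (card_pos' (ι := ι)).le)

lemma avg_nonneg {F : ι → ℝ} (h : ∀ i, 0 ≤ F i) : 0 ≤ avg F := by
  unfold avg
  exact mul_nonneg (inv_nonneg.mpr (card_pos' (ι := ι)).le) (Finset.sum_nonneg fun i _ => h i)

lemma le_card_mul_avg {F : ι → ℝ} (h : ∀ i, 0 ≤ F i) (i : ι) :
    F i ≤ Fintype.card ι * avg F := by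
  have h1 : F i ≤ ∑ j, F j := Finset.single_le_sum (fun j _ => h j) (Finset.mem_univ i)
  have h2 : (Fintype.card ι : ℝ) * avg F = ∑ j, F j := by
    unfold avg
    rw [← mul_assoc, mul_inv_cancel₀ (card_ne' (ι := ι)), one_mul]
  rw [h2]; exact h1

lemma avg_comm {κ : Type*} [Fintype κ] [Nonempty κ] (F : ι → κ → ℝ) :
    avg (fun i => avg (fun j => F i j)) = avg (fun j => avg (fun i => F i j)) := by
  simp only [avg, Finset.mul_sum]
  rw [Finset.sum_comm]
  refine Finset.sum_congr rfl fun j _ => Finset.sum_congr rfl fun i _ => by ring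

/-- The law of the random walk with step law uniform on the family `a`. -/
noncomputable def walk (a : ι → G) : ℕ → G → ℝ
  | 0, x => by classical exact if x = 1 then 1 else 0
  | n + 1, x => avg fun i => walk a n ((a i)⁻¹ * x)

lemma walk_zero (a : ι → G) (x : G) [Decidable (x = 1)] :
    walk a 0 x = if x = 1 then 1 else 0 := by
  unfold walk
  split_ifs <;> simp_all

lemma walk_succ (a : ι → G) (n : ℕ) (x : G) :
    walk a (n + 1) x = avg fun i => walk a n ((a i)⁻¹ * x) := rfl

lemma walk_succ' (a : ι → G) (n : ℕ) (x : G) :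
    walk a (n + 1) x = avg fun i => walk a n (x * (a i)⁻¹) := by
  classical
  induction n generalizing x with
  | zero =>
    rw [walk_succ]
    congr 1
    ext i
    rw [walk_zero, walk_zero]
    congr 1
    rw [inv_mul_eq_one, mul_inv_eq_one]
    exact propext eq_comm
  | succ n ih =>
    rw [walk_succ]
    simp_rw [ih]
    rw [avg_comm]
    congr 1
    ext j
    rw [← ih, walk_succ]
    congr 1
    ext i
    rw [mul_assoc]

lemma walk_nonneg (a : ι → G) (n : ℕ) (x : G) : 0 ≤ walk a n x := by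
  classical
  induction n generalizing x with
  | zero => rw [walk_zero]; split_ifs <;> norm_num
  | succ n ih => exact avg_nonneg fun i => ih _

lemma walk_fs (a : ι → G) (n : ℕ) : FS (walk a n) := by
  classical
  induction n with
  | zero =>
    refine Set.Finite.subset (Set.finite_singleton (1 : G)) ?_
    intro x hx
    by_contra h
    apply hx
    rw [walk_zero, if_neg (by simpa using h)]
  | succ n ih =>
    have : FS (fun x => ∑ i : ι, walk a n ((a i)⁻¹ * x)) :=
      FS.sum (fun i _ => ih.comp_left _)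
    exact this.const_mul _

/-- Expectation of `f (X n)`. -/
noncomputable def E (a : ι → G) (n : ℕ) (f : G → ℝ) : ℝ := ∑' x, walk a n x * f x

lemma E_summable (a : ι → G) (n : ℕ) (f : G → ℝ) : Summable fun x => walk a n x * f x :=
  ((walk_fs a n).mul_right f).summable

lemma E_add (a : ι → G) (n : ℕ) (f g : G → ℝ) :
    E a n (fun x => f x + g x) = E a n f + E a n g := by
  unfold E
  rw [← (E_summable a n f).tsum_add (E_summable a n g)]
  exact tsum_congr fun x => by ring

lemma E_sub (a : ι → G) (n : ℕ) (f g : G → ℝ) :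
    E a n (fun x => f x - g x) = E a n f - E a n g := by
  unfold E
  rw [← (E_summable a n f).tsum_sub (E_summable a n g)]
  exact tsum_congr fun x => by ring

lemma E_smul (a : ι → G) (n : ℕ) (c : ℝ) (f : G → ℝ) :
    E a n (fun x => c * f x) = c * E a n f := by
  unfold E
  rw [← tsum_mul_left]
  exact tsum_congr fun x => by ring

lemma E_mono (a : ι → G) (n : ℕ) {f g : G → ℝ} (h : ∀ x, f x ≤ g x) : E a n f ≤ E a n g :=
  (E_summable a n f).tsum_le_tsum (fun x => mul_le_mul_of_nonneg_left (h x) (walk_nonneg a n x))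
    (E_summable a n g)

lemma E_nonneg (a : ι → G) (n : ℕ) {f : G → ℝ} (h : ∀ x, 0 ≤ f x) : 0 ≤ E a n f :=
  tsum_nonneg fun x => mul_nonneg (walk_nonneg a n x) (h x)

lemma E_avg {κ : Type*} [Fintype κ] [Nonempty κ] (a : ι → G) (n : ℕ) (f : κ → G → ℝ) :
    E a n (fun x => avg fun i => f i x) = avg fun i => E a n (f i) := by
  unfold E avg
  rw [Finset.mul_sum]
  have : ∀ x, walk a n x * ((Fintype.card κ : ℝ)⁻¹ * ∑ i, f i x)
      = ∑ i, (Fintype.card κ : ℝ)⁻¹ * (walk a n x * f i x) := by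
    intro x
    rw [Finset.mul_sum, Finset.mul_sum]
    exact Finset.sum_congr rfl fun i _ => by ring
  rw [tsum_congr this, Summable.tsum_finsetSum]
  · exact Finset.sum_congr rfl fun i _ => tsum_mul_left
  · intro i _
    exact (E_summable a n (f i)).mul_left _

lemma E_zero (a : ι → G) (f : G → ℝ) : E a 0 f = f 1 := by
  classical
  unfold E
  rw [tsum_eq_single (1 : G)]
  · rw [walk_zero, if_pos rfl, one_mul]
  · intro x hx
    rw [walk_zero, if_neg hx, zero_mul]

lemma tsum_avg {κ : Type*} [Fintype κ] [Nonempty κ] (f : κ → G → ℝ) (hf : ∀ i, FS (f i)) :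
    ∑' x, avg (fun i => f i x) = avg fun i => ∑' x, f i x := by
  unfold avg
  rw [tsum_mul_left, Summable.tsum_finsetSum]
  intro i _
  exact (hf i).summable

lemma E_succ_left (a : ι → G) (n : ℕ) (f : G → ℝ) :
    E a (n + 1) f = avg fun i => E a n (fun x => f (a i * x)) := by
  unfold E
  have h1 : ∀ x, walk a (n + 1) x * f x
      = avg fun i => walk a n ((a i)⁻¹ * x) * f x := by
    intro x
    rw [walk_succ, mul_comm, ← avg_smul]
    congr 1; ext i; ring
  rw [tsum_congr h1, tsum_avg]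
  · congr 1
    ext i
    rw [← tsum_left _ (a i)]
    exact tsum_congr fun x => by simp
  · intro i
    exact ((walk_fs a n).comp_left _).mul_right _

lemma E_succ (a : ι → G) (n : ℕ) (f : G → ℝ) :
    E a (n + 1) f = E a n (fun x => avg fun i => f (x * a i)) := by
  rw [E_avg]
  unfold E
  have h1 : ∀ x, walk a (n + 1) x * f x
      = avg fun i => walk a n (x * (a i)⁻¹) * f x := by
    intro x
    rw [walk_succ', mul_comm, ← avg_smul]
    congr 1; ext i; ring
  rw [tsum_congr h1, tsum_avg]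
  · congr 1
    ext i
    rw [← tsum_right _ (a i)]
    exact tsum_congr fun x => by simp
  · intro i
    exact ((walk_fs a n).comp_right _).mul_right _

lemma E_const (a : ι → G) (n : ℕ) (c : ℝ) : E a n (fun _ => c) = c := by
  induction n with
  | zero => rw [E_zero]
  | succ n ih => rw [E_succ, show (fun _ : G => avg fun _ : ι => c) = fun _ => c from
      funext fun _ => avg_const c, ih]

lemma walk_sum (a : ι → G) (n : ℕ) : ∑' x, walk a n x = 1 := by
  have := E_const a n 1
  simpa [E] using this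

/-- Harmonic functions (right random walk). -/
def Harm (a : ι → G) (h : G → ℝ) : Prop := ∀ x, avg (fun i => h (x * a i)) = h x

lemma Harm.comp_left {a : ι → G} {h : G → ℝ} (hh : Harm a h) (y : G) :
    Harm a (fun x => h (y * x)) := fun x => by
  have := hh (y * x)
  simpa [mul_assoc] using this

lemma Harm.E_eq {a : ι → G} {h : G → ℝ} (hh : Harm a h) (n : ℕ) : E a n h = h 1 := by
  induction n with
  | zero => rw [E_zero]
  | succ n ih => rw [E_succ, show (fun x : G => avg fun i : ι => h (x * a i)) = h from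
      funext fun x => hh x, ih]

lemma Harm.E_left {a : ι → G} {h : G → ℝ} (hh : Harm a h) (n : ℕ) (y : G) :
    E a n (fun x => h (y * x)) = h y := by
  rw [(hh.comp_left y).E_eq, mul_one]

/-- `LipB a L h`: the increments of `h` along the family are bounded by `L`. -/
def LipB (a : ι → G) (L : ℝ) (h : G → ℝ) : Prop := ∀ x i, |h (x * a i) - h x| ≤ L

lemma LipB.comp_left {a : ι → G} {L : ℝ} {h : G → ℝ} (hh : LipB a L h) (y : G) :
    LipB a L (fun x => h (y * x)) := fun x i => by
  have := hh (y * x) i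
  simpa [mul_assoc] using this

lemma Harm.sum_diff {a : ι → G} {h : G → ℝ} (hh : Harm a h) (x : G) :
    avg (fun i => h (x * a i) - h x) = 0 := by
  rw [avg_sub, hh x, avg_const, sub_self]

lemma Harm.E_sq_succ {a : ι → G} {h : G → ℝ} (hh : Harm a h) (n : ℕ) :
    E a (n + 1) (fun x => h x ^ 2) = E a n (fun x => h x ^ 2)
      + E a n (fun x => avg fun i => (h (x * a i) - h x) ^ 2) := by
  rw [E_succ, ← E_add]
  congr 1
  ext x
  have h1 : ∀ i, h (x * a i) ^ 2
      = (h x ^ 2 + 2 * h x * (h (x * a i) - h x)) + (h (x * a i) - h x) ^ 2 := fun i => by ring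
  simp_rw [h1]
  rw [avg_add, avg_add, avg_const, avg_smul, hh.sum_diff, mul_zero, add_zero]

lemma Harm.E_sq {a : ι → G} {h : G → ℝ} (hh : Harm a h) (n : ℕ) :
    E a n (fun x => h x ^ 2) = h 1 ^ 2
      + ∑ k ∈ Finset.range n, E a k (fun x => avg fun i => (h (x * a i) - h x) ^ 2) := by
  induction n with
  | zero => simp [E_zero]
  | succ n ih => rw [hh.E_sq_succ, ih, Finset.sum_range_succ, add_assoc]

lemma Harm.E_sq_le {a : ι → G} {h : G → ℝ} {L : ℝ} (hh : Harm a h) (hL : LipB a L h)
    (h1 : h 1 = 0) (n : ℕ) : E a n (fun x => h x ^ 2) ≤ n * L ^ 2 := by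
  rw [hh.E_sq, h1]
  have : ∀ k ∈ Finset.range n,
      E a k (fun x => avg fun i => (h (x * a i) - h x) ^ 2) ≤ L ^ 2 := by
    intro k _
    calc _ ≤ E a k (fun _ => L ^ 2) := by
            apply E_mono
            intro x
            calc _ ≤ avg (fun _ : ι => L ^ 2) := by
                    apply avg_mono
                    intro i
                    have := hL x i
                    rw [← sq_abs]
                    exact pow_le_pow_left₀ (abs_nonneg _) this 2
              _ = L ^ 2 := avg_const _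
      _ = L ^ 2 := E_const a k _
  calc _ ≤ (0 : ℝ) ^ 2 + ∑ k ∈ Finset.range n, L ^ 2 := by
            gcongr with k hk
            exact this k hk
    _ = n * L ^ 2 := by simp

lemma Harm.E_four_le {a : ι → G} {h : G → ℝ} {L : ℝ} (hh : Harm a h) (hL : LipB a L h)
    (h1 : h 1 = 0) (n : ℕ) : E a n (fun x => h x ^ 4) ≤ 4 * n ^ 2 * L ^ 4 := by
  induction n with
  | zero => simp [E_zero, h1]
  | succ n ih =>
    have key : E a (n + 1) (fun x => h x ^ 4)
        ≤ E a n (fun x => h x ^ 4 + (8 * L ^ 2 * h x ^ 2 + 3 * L ^ 4)) := by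
      rw [E_succ]
      apply E_mono
      intro x
      have e1 : ∀ i, h (x * a i) ^ 4 ≤ (h x ^ 4 + 4 * h x ^ 3 * (h (x * a i) - h x))
          + (8 * L ^ 2 * h x ^ 2 + 3 * L ^ 4) := by
        intro i
        have hd := hL x i
        set t := h (x * a i) - h x with ht
        have hx : h (x * a i) = h x + t := by rw [ht]; ring
        rw [hx]
        have ht2 : t ^ 2 ≤ L ^ 2 := by
          rw [← sq_abs]; exact pow_le_pow_left₀ (abs_nonneg _) hd 2
        have ht2' : 0 ≤ t ^ 2 := sq_nonneg t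
        have hL2 : 0 ≤ L ^ 2 := sq_nonneg L
        have e2 : (h x + t) ^ 4 = h x ^ 4 + 4 * h x ^ 3 * t + 6 * h x ^ 2 * t ^ 2
            + t ^ 2 * (4 * h x * t) + (t ^ 2) ^ 2 := by ring
        have e3 : 4 * h x * t ≤ 2 * h x ^ 2 + 2 * t ^ 2 := by nlinarith [sq_nonneg (h x - t)]
        have e4 : t ^ 2 * (4 * h x * t) ≤ t ^ 2 * (2 * h x ^ 2 + 2 * t ^ 2) :=
          mul_le_mul_of_nonneg_left e3 ht2'
        have e5 : t ^ 2 * h x ^ 2 ≤ L ^ 2 * h x ^ 2 :=
          mul_le_mul_of_nonneg_right ht2 (sq_nonneg _)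
        have e6 : (t ^ 2) ^ 2 ≤ (L ^ 2) ^ 2 := pow_le_pow_left₀ ht2' ht2 2
        rw [e2]
        nlinarith
      calc avg (fun i => h (x * a i) ^ 4)
          ≤ avg (fun i => (h x ^ 4 + 4 * h x ^ 3 * (h (x * a i) - h x))
            + (8 * L ^ 2 * h x ^ 2 + 3 * L ^ 4)) := avg_mono e1
        _ = _ := by
          rw [avg_add, avg_add, avg_const, avg_const, avg_smul, hh.sum_diff, mul_zero, add_zero]
    have h2 := hh.E_sq_le hL h1 n
    rw [E_add, E_add, E_smul, E_const] at key
    have h3 : 8 * L ^ 2 * E a n (fun x => h x ^ 2) ≤ 8 * L ^ 2 * (n * L ^ 2) :=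
      mul_le_mul_of_nonneg_left h2 (by positivity)
    have hn : (0 : ℝ) ≤ n := Nat.cast_nonneg n
    have hL4 : 0 ≤ L ^ 4 := by positivity
    calc _ ≤ 4 * (n : ℝ) ^ 2 * L ^ 4 + (8 * L ^ 2 * (n * L ^ 2) + 3 * L ^ 4) := by linarith
      _ ≤ 4 * ((n + 1 : ℕ) : ℝ) ^ 2 * L ^ 4 := by
        push_cast
        nlinarith

/-- Hellinger distance squared of the law and its left translate. -/
noncomputable def D (a : ι → G) (n : ℕ) (y : G) : ℝ :=
  ∑' x, (Real.sqrt (walk a n (y⁻¹ * x)) - Real.sqrt (walk a n x)) ^ 2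

lemma sqrt_fs {f : G → ℝ} (hf : FS f) : FS (fun x => Real.sqrt (f x)) :=
  hf.mono fun x hx => by simp [hx]

lemma D_nonneg (a : ι → G) (n : ℕ) (y : G) : 0 ≤ D a n y := tsum_nonneg fun _ => sq_nonneg _

lemma D_one (a : ι → G) (n : ℕ) : D a n 1 = 0 := by
  simp [D]

lemma D_mul (a : ι → G) (n : ℕ) (y z : G) :
    D a n (y * z) ≤ 2 * D a n y + 2 * D a n z := by
  have hs := sqrt_fs (walk_fs a n)
  set w := fun x => Real.sqrt (walk a n x) with hw
  have e1 : D a n z = ∑' x, (w (z⁻¹ * (y⁻¹ * x)) - w (y⁻¹ * x)) ^ 2 := by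
    unfold D
    rw [← tsum_left _ (y⁻¹)]
  have e2 : D a n y = ∑' x, (w (y⁻¹ * x) - w x) ^ 2 := rfl
  have e3 : D a n (y * z) = ∑' x, (w (z⁻¹ * (y⁻¹ * x)) - w x) ^ 2 := by
    unfold D
    exact tsum_congr fun x => by simp [hw, mul_assoc]
  have f1 : FS fun x => (w (z⁻¹ * (y⁻¹ * x)) - w (y⁻¹ * x)) ^ 2 := by
    have : FS fun x => w (z⁻¹ * (y⁻¹ * x)) - w (y⁻¹ * x) :=
      ((hs.comp_left z⁻¹).comp_left y⁻¹).sub (hs.comp_left y⁻¹)
    exact this.mono fun x hx => by simp [hx]
  have f2 : FS fun x => (w (y⁻¹ * x) - w x) ^ 2 := by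
    have : FS fun x => w (y⁻¹ * x) - w x := (hs.comp_left y⁻¹).sub hs
    exact this.mono fun x hx => by simp [hx]
  have f3 : FS fun x => (w (z⁻¹ * (y⁻¹ * x)) - w x) ^ 2 := by
    have : FS fun x => w (z⁻¹ * (y⁻¹ * x)) - w x :=
      ((hs.comp_left z⁻¹).comp_left y⁻¹).sub hs
    exact this.mono fun x hx => by simp [hx]
  rw [e1, e2, e3, ← tsum_mul_left, ← tsum_mul_left,
    ← (f2.const_mul 2).summable.tsum_add (f1.const_mul 2).summable]
  apply f3.summable.tsum_le_tsum _ ((f2.const_mul 2).summable.add (f1.const_mul 2).summable)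
  intro x
  nlinarith [sq_nonneg ((w (z⁻¹ * (y⁻¹ * x)) - w (y⁻¹ * x)) - (w (y⁻¹ * x) - w x))]

lemma D_inv (a : ι → G) (n : ℕ) (y : G) : D a n y⁻¹ = D a n y := by
  unfold D
  rw [← tsum_left _ (y⁻¹)]
  refine tsum_congr fun x => ?_
  rw [inv_inv, mul_inv_cancel_left]
  ring

/-- Comparison of expectations of `f` and of its left translate. -/
lemma diff_sq_le (a : ι → G) (n : ℕ) (y : G) (f : G → ℝ) :
    (E a n (fun x => f (y * x)) - E a n f) ^ 2
      ≤ D a n y * (2 * (E a n (fun x => f (y * x) ^ 2) + E a n (fun x => f x ^ 2))) := by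
  have hw := walk_fs a n
  set p := fun x => walk a n (y⁻¹ * x) with hp
  set r := fun x => walk a n x with hr
  have hpf : FS p := hw.comp_left _
  have hrf : FS r := hw
  have hp0 : ∀ x, 0 ≤ p x := fun x => walk_nonneg a n _
  have hr0 : ∀ x, 0 ≤ r x := fun x => walk_nonneg a n _
  have e1 : E a n (fun x => f (y * x)) = ∑' x, p x * f x := by
    unfold E
    rw [← tsum_left _ (y⁻¹)]
    exact tsum_congr fun x => by simp [hp]
  have e2 : E a n (fun x => f (y * x) ^ 2) = ∑' x, p x * f x ^ 2 := by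
    unfold E
    rw [← tsum_left _ (y⁻¹)]
    exact tsum_congr fun x => by simp [hp]
  have e3 : E a n f = ∑' x, r x * f x := rfl
  have e4 : E a n (fun x => f x ^ 2) = ∑' x, r x * f x ^ 2 := rfl
  have e5 : (∑' x, p x * f x) - ∑' x, r x * f x
      = ∑' x, (Real.sqrt (p x) - Real.sqrt (r x)) * ((Real.sqrt (p x) + Real.sqrt (r x)) * f x) := by
    rw [← (hpf.mul_right f).summable.tsum_sub (hrf.mul_right f).summable]
    refine tsum_congr fun x => ?_
    have h1 := Real.mul_self_sqrt (hp0 x)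
    have h2 := Real.mul_self_sqrt (hr0 x)
    have h3 : (Real.sqrt (p x) - Real.sqrt (r x)) * (Real.sqrt (p x) + Real.sqrt (r x))
        = p x - r x := by
      linear_combination h1 - h2
    rw [← mul_assoc, h3]; ring
  have fu : FS fun x => Real.sqrt (p x) - Real.sqrt (r x) := (sqrt_fs hpf).sub (sqrt_fs hrf)
  have fv : FS fun x => (Real.sqrt (p x) + Real.sqrt (r x)) * f x :=
    ((sqrt_fs hpf).add (sqrt_fs hrf)).mul_right f
  rw [e1, e2, e3, e4, e5]
  refine (tsum_cs fu fv).trans ?_
  have hD : D a n y = ∑' x, (Real.sqrt (p x) - Real.sqrt (r x)) ^ 2 := rfl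
  rw [hD]
  apply mul_le_mul_of_nonneg_left _ (tsum_nonneg fun _ => sq_nonneg _)
  have s1 := (hpf.mul_right fun x => f x ^ 2).summable
  have s2 := (hrf.mul_right fun x => f x ^ 2).summable
  rw [← s1.tsum_add s2, ← tsum_mul_left]
  have fv2 : FS fun x => ((Real.sqrt (p x) + Real.sqrt (r x)) * f x) ^ 2 :=
    fv.mono fun x hx => by simp [hx]
  apply fv2.summable.tsum_le_tsum _ ((s1.add s2).mul_left 2)
  intro x
  have h1 := Real.mul_self_sqrt (hp0 x)
  have h2 := Real.mul_self_sqrt (hr0 x)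
  have h3 : (Real.sqrt (p x) + Real.sqrt (r x)) ^ 2 ≤ 2 * (p x + r x) := by
    nlinarith [sq_nonneg (Real.sqrt (p x) - Real.sqrt (r x))]
  calc ((Real.sqrt (p x) + Real.sqrt (r x)) * f x) ^ 2
      = (Real.sqrt (p x) + Real.sqrt (r x)) ^ 2 * f x ^ 2 := by ring
    _ ≤ (2 * (p x + r x)) * f x ^ 2 := mul_le_mul_of_nonneg_right h3 (sq_nonneg _)
    _ = 2 * (p x * f x ^ 2 + r x * f x ^ 2) := by ring

end Crest.Agent.R182.Gromov.Walk
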