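import Crest.Agent.R182.GromovDefs
import Crest.Agent.R182.GromovWalk

/-!
R182, module GROMOV, block GE (helper203): entropy of the random walk and the Hellinger estimate
`D a n (a i) ≤ K / (n + 1)` for infinitely many `n` in a group of polynomial growth.
-/

set_option autoImplicit false
set_option linter.unusedSectionVars false
set_option linter.unusedSimpArgs false

namespace Crest.Agent.R182.Gromov.Ent

open Function Crest.Agent.R182.Gromov.Walk

variable {G : Type*} [Group G] {ι : Type*} [Fintype ι] [Nonempty ι]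

/-- Pointwise entropy inequality. -/
lemma pointwise (p : ι → ℝ) (hp : ∀ i, 0 ≤ p i) :
    avg (fun i => (Real.sqrt (p i) - Real.sqrt (avg p)) ^ 2)
      ≤ Real.negMulLog (avg p) - avg (fun i => Real.negMulLog (p i)) := by
  set r := avg p with hr
  have hr0 : 0 ≤ r := avg_nonneg hp
  have e1 : ∀ i, (Real.sqrt (p i) - Real.sqrt r) ^ 2
      = p i + (r - 2 * (Real.sqrt (p i) * Real.sqrt r)) := by
    intro i
    have h1 := Real.sq_sqrt (hp i)
    have h2 := Real.sq_sqrt hr0
    linear_combination h1 + h2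
  have e2 : avg (fun i => (Real.sqrt (p i) - Real.sqrt r) ^ 2)
      = avg (fun i => 2 * p i - 2 * (Real.sqrt (p i) * Real.sqrt r)) := by
    have ea : avg (fun i => (Real.sqrt (p i) - Real.sqrt r) ^ 2)
        = r + (r - 2 * avg (fun i => Real.sqrt (p i) * Real.sqrt r)) := by
      simp_rw [e1]
      rw [avg_add, avg_sub, avg_const, avg_smul]
    have eb : avg (fun i => 2 * p i - 2 * (Real.sqrt (p i) * Real.sqrt r))
        = 2 * r - 2 * avg (fun i => Real.sqrt (p i) * Real.sqrt r) := by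
      rw [avg_sub, avg_smul, avg_smul]
    rw [ea, eb]
    ring
  rw [e2]
  rcases hr0.eq_or_lt with h0 | hpos
  · have hp0 : ∀ i, p i = 0 := by
      intro i
      have := le_card_mul_avg hp i
      rw [← hr, ← h0, mul_zero] at this
      exact le_antisymm this (hp i)
    have : (fun i => 2 * p i - 2 * (Real.sqrt (p i) * Real.sqrt r)) = fun _ : ι => (0 : ℝ) := by
      ext i; simp [hp0 i]
    rw [this, avg_const]
    have h2 : (fun i => Real.negMulLog (p i)) = fun _ : ι => (0 : ℝ) := by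
      ext i; simp [hp0 i]
    rw [h2, avg_const, ← h0]
    simp
  · have e3 : Real.negMulLog r = avg (fun i => -(Real.log r) * p i) := by
      rw [avg_smul, ← hr, Real.negMulLog]; ring
    rw [e3, ← avg_sub]
    apply avg_mono
    intro i
    rcases (hp i).eq_or_lt with hi | hi
    · rw [← hi]; simp
    · have hs : 0 < Real.sqrt (r / p i) := Real.sqrt_pos.mpr (div_pos hpos hi)
      have h1 := Real.log_le_sub_one_of_pos hs
      rw [Real.log_sqrt (div_pos hpos hi).le, Real.log_div hpos.ne' hi.ne'] at h1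
      have h2 : p i * Real.sqrt (r / p i) = Real.sqrt (p i) * Real.sqrt r := by
        rw [Real.sqrt_div hr0]
        have h3 := Real.mul_self_sqrt (hp i)
        have h4 : Real.sqrt (p i) ≠ 0 := (Real.sqrt_pos.mpr hi).ne'
        field_simp
        rw [sq, h3]
      have h5 : p i * ((Real.log r - Real.log (p i)) / 2) ≤ p i * (Real.sqrt (r / p i) - 1) :=
        mul_le_mul_of_nonneg_left h1 (hp i)
      rw [mul_sub, h2] at h5
      rw [Real.negMulLog]
      nlinarith

/-- Entropy of the walk. -/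
noncomputable def H (a : ι → G) (n : ℕ) : ℝ := ∑' x, Real.negMulLog (walk a n x)

lemma nml_fs {f : G → ℝ} (hf : FS f) : FS (fun x => Real.negMulLog (f x)) :=
  hf.mono fun x hx => by simp [hx]

lemma H_succ_sub (a : ι → G) (n : ℕ) :
    avg (fun i => ∑' x, (Real.sqrt (walk a n ((a i)⁻¹ * x))
        - Real.sqrt (walk a (n + 1) x)) ^ 2) ≤ H a (n + 1) - H a n := by
  have hw := walk_fs a n
  have hw1 := walk_fs a (n + 1)
  have f1 : ∀ i, FS fun x => (Real.sqrt (walk a n ((a i)⁻¹ * x))
        - Real.sqrt (walk a (n + 1) x)) ^ 2 := by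
    intro i
    have : FS fun x => Real.sqrt (walk a n ((a i)⁻¹ * x)) - Real.sqrt (walk a (n + 1) x) :=
      (sqrt_fs (hw.comp_left _)).sub (sqrt_fs hw1)
    exact this.mono fun x hx => by simp [hx]
  rw [← tsum_avg _ f1]
  have f2 : ∀ i, FS fun x => Real.negMulLog (walk a n ((a i)⁻¹ * x)) := fun i =>
    nml_fs (hw.comp_left _)
  have e1 : H a n = ∑' x, avg (fun i => Real.negMulLog (walk a n ((a i)⁻¹ * x))) := by
    rw [tsum_avg _ f2]
    have : ∀ i, ∑' x, Real.negMulLog (walk a n ((a i)⁻¹ * x)) = H a n := by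
      intro i
      exact tsum_left (fun x => Real.negMulLog (walk a n x)) _
    simp_rw [this]
    rw [avg_const]
  have f3 : FS fun x => avg (fun i => Real.negMulLog (walk a n ((a i)⁻¹ * x))) := by
    have : FS (fun x => ∑ i : ι, Real.negMulLog (walk a n ((a i)⁻¹ * x))) :=
      FS.sum (fun i _ => f2 i)
    exact this.const_mul _
  have f4 : FS fun x => avg (fun i => (Real.sqrt (walk a n ((a i)⁻¹ * x))
        - Real.sqrt (walk a (n + 1) x)) ^ 2) := by
    have : FS (fun x => ∑ i : ι, (Real.sqrt (walk a n ((a i)⁻¹ * x))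
        - Real.sqrt (walk a (n + 1) x)) ^ 2) :=
      FS.sum (fun i _ => f1 i)
    exact this.const_mul _
  have f5 : FS fun x => Real.negMulLog (walk a (n + 1) x) := nml_fs hw1
  rw [e1, H, ← f5.summable.tsum_sub f3.summable]
  apply f4.summable.tsum_le_tsum _ (f5.summable.sub f3.summable)
  intro x
  have := pointwise (fun i => walk a n ((a i)⁻¹ * x)) (fun i => walk_nonneg a n _)
  rw [← walk_succ] at this
  exact this

lemma D_le (a : ι → G) {i₀ : ι} (h1 : a i₀ = 1) (n : ℕ) (i : ι) :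
    D a n (a i) ≤ 4 * Fintype.card ι * (H a (n + 1) - H a n) := by
  set T : ι → ℝ := fun i => ∑' x, (Real.sqrt (walk a n ((a i)⁻¹ * x))
        - Real.sqrt (walk a (n + 1) x)) ^ 2 with hT
  have hT0 : ∀ i, 0 ≤ T i := fun i => tsum_nonneg fun _ => sq_nonneg _
  have h2 : ∀ j, T j ≤ Fintype.card ι * (H a (n + 1) - H a n) := fun j =>
    (le_card_mul_avg hT0 j).trans
      (mul_le_mul_of_nonneg_left (H_succ_sub a n) (card_pos' (ι := ι)).le)
  have hw := walk_fs a n
  have hw1 := walk_fs a (n + 1)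
  have f1 : ∀ i, FS fun x => (Real.sqrt (walk a n ((a i)⁻¹ * x))
        - Real.sqrt (walk a (n + 1) x)) ^ 2 := by
    intro i
    have : FS fun x => Real.sqrt (walk a n ((a i)⁻¹ * x)) - Real.sqrt (walk a (n + 1) x) :=
      (sqrt_fs (hw.comp_left _)).sub (sqrt_fs hw1)
    exact this.mono fun x hx => by simp [hx]
  have f2 : FS fun x => (Real.sqrt (walk a n ((a i)⁻¹ * x)) - Real.sqrt (walk a n x)) ^ 2 := by
    have : FS fun x => Real.sqrt (walk a n ((a i)⁻¹ * x)) - Real.sqrt (walk a n x) :=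
      (sqrt_fs (hw.comp_left _)).sub (sqrt_fs hw)
    exact this.mono fun x hx => by simp [hx]
  have h3 : D a n (a i) ≤ 2 * T i + 2 * T i₀ := by
    rw [hT]
    simp only
    rw [← tsum_mul_left, ← tsum_mul_left,
      ← ((f1 i).const_mul 2).summable.tsum_add ((f1 i₀).const_mul 2).summable]
    apply f2.summable.tsum_le_tsum _
      (((f1 i).const_mul 2).summable.add ((f1 i₀).const_mul 2).summable)
    intro x
    rw [h1, inv_one, one_mul]
    nlinarith [sq_nonneg ((Real.sqrt (walk a n ((a i)⁻¹ * x)) - Real.sqrt (walk a (n + 1) x))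
      + (Real.sqrt (walk a n x) - Real.sqrt (walk a (n + 1) x)))]
  nlinarith [h2 i, h2 i₀]

lemma nml_le {w N : ℝ} (hw : 0 ≤ w) (hN : 0 < N) :
    Real.negMulLog w ≤ w * Real.log N + (N⁻¹ - w) := by
  rcases hw.eq_or_lt with h | h
  · rw [← h]; simp; positivity
  · have h1 := Real.log_le_sub_one_of_pos (x := (N * w)⁻¹) (by positivity)
    rw [Real.log_inv, Real.log_mul hN.ne' h.ne'] at h1
    have h2 := mul_le_mul_of_nonneg_left h1 hw
    have h3 : w * ((N * w)⁻¹ - 1) = N⁻¹ - w := by
      field_simp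
    rw [h3] at h2
    rw [Real.negMulLog]
    nlinarith

lemma H_le (a : ι → G) (n : ℕ) (F : Finset G) (hF : ∀ x ∉ F, walk a n x = 0) :
    H a n ≤ Real.log F.card := by
  have hs : ∑ x ∈ F, walk a n x = 1 := by
    rw [← walk_sum a n, tsum_eq_sum (s := F) (fun x hx => hF x hx)]
  have hne : F.Nonempty := by
    rw [Finset.nonempty_iff_ne_empty]
    intro h
    rw [h] at hs
    simp at hs
  have hN : (0 : ℝ) < F.card := by exact_mod_cast hne.card_pos
  unfold H
  rw [tsum_eq_sum (s := F) (fun x hx => by simp [hF x hx])]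
  calc ∑ x ∈ F, Real.negMulLog (walk a n x)
      ≤ ∑ x ∈ F, (walk a n x * Real.log F.card + ((F.card : ℝ)⁻¹ - walk a n x)) :=
        Finset.sum_le_sum fun x _ => nml_le (walk_nonneg a n x) hN
    _ = Real.log F.card := by
      rw [Finset.sum_add_distrib, ← Finset.sum_mul, Finset.sum_sub_distrib, hs,
        Finset.sum_const, nsmul_eq_mul, mul_inv_cancel₀ hN.ne']
      ring

lemma walk_support {l : G → ℕ} {C d : ℕ} (hl : PolyLen l C d) (a : ι → G) {Λ : ℕ}
    (hΛ : ∀ i, l (a i) ≤ Λ) (n : ℕ) : ∀ x, walk a n x ≠ 0 → l x ≤ n * Λ := by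
  classical
  induction n with
  | zero =>
    intro x hx
    rw [walk_zero] at hx
    have : x = 1 := by
      by_contra h
      exact hx (if_neg h)
    rw [this, hl.one]; simp
  | succ n ih =>
    intro x hx
    rw [walk_succ] at hx
    have : ∃ i, walk a n ((a i)⁻¹ * x) ≠ 0 := by
      by_contra h
      push Not at h
      apply hx
      have : (fun i => walk a n ((a i)⁻¹ * x)) = fun _ => 0 := funext h
      rw [this, avg_const]
    obtain ⟨i, hi⟩ := this
    have h1 := ih _ hi
    have h2 : l x ≤ l (a i) + l ((a i)⁻¹ * x) := by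
      have := hl.mul (a i) ((a i)⁻¹ * x)
      rwa [mul_inv_cancel_left] at this
    have h3 := hΛ i
    calc l x ≤ l (a i) + l ((a i)⁻¹ * x) := h2
      _ ≤ Λ + n * Λ := by omega
      _ = (n + 1) * Λ := by ring

lemma H_le_log {l : G → ℕ} {C d : ℕ} (hl : PolyLen l C d) (a : ι → G) :
    ∃ A : ℝ, ∀ n : ℕ, H a n ≤ A + d * Real.log (n + 1) := by
  obtain ⟨Λ, hΛ⟩ : ∃ Λ : ℕ, ∀ i, l (a i) ≤ Λ :=
    ⟨Finset.univ.sup fun i => l (a i), fun i => Finset.le_sup (f := fun i => l (a i))
      (Finset.mem_univ i)⟩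
  refine ⟨Real.log (C * (Λ + 1) ^ d), fun n => ?_⟩
  set F := (hl.fin (n * Λ)).toFinset with hF
  have hF0 : ∀ x ∉ F, walk a n x = 0 := by
    intro x hx
    by_contra h
    apply hx
    rw [hF, Set.Finite.mem_toFinset]
    exact walk_support hl a hΛ n x h
  have h1 := H_le a n F hF0
  have h2 : F.card ≤ C * (n * Λ + 1) ^ d := by
    have := hl.card (n * Λ)
    rwa [Set.ncard_eq_toFinset_card _ (hl.fin (n * Λ))] at this
  have hFpos : (0 : ℝ) < F.card := by
    have : (1 : G) ∈ F := by
      rw [hF, Set.Finite.mem_toFinset]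
      simp [hl.one]
    exact_mod_cast Finset.card_pos.mpr ⟨1, this⟩
  have h3 : (F.card : ℝ) ≤ (C * (Λ + 1) ^ d) * (n + 1) ^ d := by
    have h4 : ((n * Λ + 1 : ℕ) : ℝ) ≤ (Λ + 1) * (n + 1) := by
      push_cast
      have : (0 : ℝ) ≤ n := Nat.cast_nonneg n
      have : (0 : ℝ) ≤ Λ := Nat.cast_nonneg Λ
      nlinarith
    calc (F.card : ℝ) ≤ ((C * (n * Λ + 1) ^ d : ℕ) : ℝ) := by exact_mod_cast h2
      _ = C * ((n * Λ + 1 : ℕ) : ℝ) ^ d := by push_cast; ring
      _ ≤ C * ((Λ + 1) * (n + 1)) ^ d := by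
        gcongr
      _ = _ := by rw [mul_pow]; ring
  have hC : (0 : ℝ) < C * (Λ + 1) ^ d := by
    by_contra h
    push Not at h
    have : (C * (Λ + 1) ^ d : ℝ) * (n + 1) ^ d ≤ 0 :=
      mul_nonpos_of_nonpos_of_nonneg h (by positivity)
    linarith
  calc H a n ≤ Real.log F.card := h1
    _ ≤ Real.log ((C * (Λ + 1) ^ d) * (n + 1) ^ d) := Real.log_le_log hFpos h3
    _ = Real.log (C * (Λ + 1) ^ d) + d * Real.log (n + 1) := by
      rw [Real.log_mul hC.ne' (by positivity), Real.log_pow]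

/-- A sequence with logarithmic growth has small increments infinitely often. -/
lemma exists_small_increment {u : ℕ → ℝ} {A : ℝ} {d : ℕ}
    (hu : ∀ n : ℕ, u n ≤ A + d * Real.log (n + 1)) (N : ℕ) :
    ∃ n ≥ N, u (n + 1) - u n ≤ (d + 1) / (n + 1) := by
  by_contra hcon
  push Not at hcon
  have h1 : ∀ k : ℕ, u N + (d + 1) * (Real.log ((N + k : ℕ) + 1) - Real.log (N + 1)) ≤ u (N + k) := by
    intro k
    induction k with
    | zero => simp
    | succ k ih =>
      have h2 := hcon (N + k) (by omega)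
      have h3 : Real.log (((N + (k + 1) : ℕ) : ℝ) + 1) - Real.log (((N + k : ℕ) : ℝ) + 1)
          ≤ 1 / (((N + k : ℕ) : ℝ) + 1) := by
        have hpos : (0 : ℝ) < ((N + k : ℕ) : ℝ) + 1 := by positivity
        rw [← Real.log_div (by positivity) hpos.ne']
        refine (Real.log_le_sub_one_of_pos (by positivity)).trans (le_of_eq ?_)
        push_cast
        field_simp
        ring
      have h4 : (d + 1 : ℝ) * (Real.log (((N + (k + 1) : ℕ) : ℝ) + 1)
          - Real.log (((N + k : ℕ) : ℝ) + 1)) ≤ (d + 1) / (((N + k : ℕ) : ℝ) + 1) := by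
        have := mul_le_mul_of_nonneg_left h3 (by positivity : (0 : ℝ) ≤ d + 1)
        rwa [mul_one_div] at this
      rw [← add_assoc N k 1]
      rw [← add_assoc N k 1] at h4
      linarith
  have h5 : ∀ k : ℕ, Real.log (((N + k : ℕ) : ℝ) + 1)
      ≤ A - u N + (d + 1) * Real.log (N + 1) := by
    intro k
    have h6 := (h1 k).trans (hu (N + k))
    linarith
  have h7 : Filter.Tendsto (fun k : ℕ => Real.log (((N + k : ℕ) : ℝ) + 1)) Filter.atTop
      Filter.atTop := by
    apply Real.tendsto_log_atTop.comp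
    apply Filter.tendsto_atTop_add_const_right
    apply tendsto_natCast_atTop_atTop.comp
    exact Filter.tendsto_atTop_mono (fun k => Nat.le_add_left k N) Filter.tendsto_id
  obtain ⟨k, hk⟩ := (h7.eventually (Filter.eventually_gt_atTop
    (A - u N + (d + 1) * Real.log (N + 1)))).exists
  exact absurd (h5 k) (not_le.mpr hk)

/-- Main estimate of block GE. -/
theorem exists_good {l : G → ℕ} {C d : ℕ} (hl : PolyLen l C d) (a : ι → G) {i₀ : ι}
    (h1 : a i₀ = 1) :
    ∃ K : ℝ, 0 < K ∧ ∀ N : ℕ, ∃ n ≥ N, ∀ i, D a n (a i) ≤ K / (n + 1) := by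
  obtain ⟨A, hA⟩ := H_le_log hl a
  refine ⟨4 * Fintype.card ι * (d + 1), by
    have := card_pos' (ι := ι)
    positivity, fun N => ?_⟩
  obtain ⟨n, hn, hsmall⟩ := exists_small_increment hA N
  refine ⟨n, hn, fun i => ?_⟩
  calc D a n (a i) ≤ 4 * Fintype.card ι * (H a (n + 1) - H a n) := D_le a h1 n i
    _ ≤ 4 * Fintype.card ι * ((d + 1) / (n + 1)) := by
      have := card_pos' (ι := ι)
      gcongr
    _ = 4 * Fintype.card ι * (d + 1) / (n + 1) := by ring

end Crest.Agent.R182.Gromov.Ent
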