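/-
R182, module GROMOV, block GH1: an infinite group with a polynomial length carries a non-constant
Lipschitz harmonic function (for a symmetric generating family of steps).
-/
import Mathlib
import Crest.Agent.R182.GromovDefs
import Crest.Agent.R182.GromovWalk

set_option autoImplicit false
set_option linter.unusedSectionVars false

namespace Crest.Agent.R182.Gromov.Exist

open Crest.Agent.R182.Gromov Crest.Agent.R182.Gromov.Walk Function

variable {G : Type*} [Group G] {ι : Type*} [Fintype ι] [Nonempty ι]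

/-- scalar product of functions on `G`. -/
noncomputable def ip (u v : G → ℝ) : ℝ := ∑' x, u x * v x

/-- left translation. -/
def tr (g : G) (u : G → ℝ) : G → ℝ := fun x => u (g⁻¹ * x)

/-- the family of steps is symmetric. -/
def SymFam (a : ι → G) : Prop := ∀ F : G → ℝ, avg (fun i => F (a i)⁻¹) = avg (fun i => F (a i))

/-- lazy convolution operator. -/
noncomputable def Q (a : ι → G) (u : G → ℝ) : G → ℝ :=
  fun x => (u x + avg fun i => tr (a i) u x) / 2

lemma tr_fs {u : G → ℝ} (hu : FS u) (g : G) : FS (tr g u) := hu.comp_left _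

lemma Q_fs {a : ι → G} {u : G → ℝ} (hu : FS u) : FS (Q a u) := by
  have h1 : FS (fun x => ∑ i : ι, tr (a i) u x) := FS.sum (fun i _ => tr_fs hu _)
  have h2 : FS (fun x => u x + (Fintype.card ι : ℝ)⁻¹ * ∑ i : ι, tr (a i) u x) :=
    hu.add (h1.const_mul _)
  exact h2.mono fun x hx => by
    show (u x + avg fun i => tr (a i) u x) / 2 = 0
    have : u x + (avg fun i => tr (a i) u x) = 0 := hx
    rw [this]; simp

lemma ip_comm (u v : G → ℝ) : ip u v = ip v u := tsum_congr fun _ => mul_comm _ _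

lemma ip_summable {u v : G → ℝ} (hv : FS v) : Summable fun x => u x * v x :=
  (hv.mul_left u).summable

lemma ip_sub_left {u v w : G → ℝ} (hw : FS w) :
    ip (fun x => u x - v x) w = ip u w - ip v w := by
  unfold ip
  rw [← (ip_summable hw).tsum_sub (ip_summable hw)]
  exact tsum_congr fun x => by ring

lemma ip_add_left {u v w : G → ℝ} (hw : FS w) :
    ip (fun x => u x + v x) w = ip u w + ip v w := by
  unfold ip
  rw [← (ip_summable hw).tsum_add (ip_summable hw)]
  exact tsum_congr fun x => by ring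

lemma ip_smul_left (c : ℝ) (u w : G → ℝ) : ip (fun x => c * u x) w = c * ip u w := by
  unfold ip
  rw [← tsum_mul_left]
  exact tsum_congr fun x => by ring

lemma ip_avg_left {κ : Type*} [Fintype κ] [Nonempty κ] {u : κ → G → ℝ} {w : G → ℝ} (hw : FS w) :
    ip (fun x => avg fun i => u i x) w = avg fun i => ip (u i) w := by
  unfold ip
  rw [← tsum_avg (fun i x => u i x * w x) (fun i => hw.mul_left _)]
  refine tsum_congr fun x => ?_
  rw [mul_comm, ← avg_smul]
  congr 1; ext i; ring

lemma ip_self_nonneg (u : G → ℝ) : 0 ≤ ip u u := tsum_nonneg fun _ => mul_self_nonneg _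

lemma ip_cs {u v : G → ℝ} (hu : FS u) (hv : FS v) : ip u v ^ 2 ≤ ip u u * ip v v := by
  have h := tsum_cs hu hv
  simp only [sq] at h ⊢
  exact h

lemma ip_tr (g : G) (u v : G → ℝ) : ip (tr g u) (tr g v) = ip u v := by
  unfold ip tr
  exact tsum_left (fun x => u x * v x) g⁻¹

lemma tr_one (u : G → ℝ) : tr (1 : G) u = u := by ext x; simp [tr]

lemma tr_mul (g h : G) (u : G → ℝ) : tr (g * h) u = tr g (tr h u) := by
  ext x; simp [tr, mul_assoc]

lemma ip_tr_left (g : G) (u v : G → ℝ) : ip (tr g u) v = ip u (tr g⁻¹ v) := by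
  rw [← ip_tr g u (tr g⁻¹ v), ← tr_mul, mul_inv_cancel, tr_one]

lemma ip_Q_left {a : ι → G} {u v : G → ℝ} (hv : FS v) :
    ip (Q a u) v = (ip u v + avg fun i => ip (tr (a i) u) v) / 2 := by
  have h1 : Q a u = fun x => (2 : ℝ)⁻¹ * (u x + avg fun i => tr (a i) u x) := by
    ext x; simp only [Q]; ring
  rw [h1, ip_smul_left, ip_add_left hv, ip_avg_left hv]
  ring

lemma ip_Q {a : ι → G} (ha : SymFam a) {u v : G → ℝ} (hu : FS u) (hv : FS v) :
    ip (Q a u) v = ip u (Q a v) := by
  rw [ip_comm u (Q a v), ip_Q_left hv, ip_Q_left hu, ip_comm v u]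
  congr 2
  have h1 := ha (fun g => ip (tr g u) v)
  rw [← h1]
  congr 1
  ext i
  rw [ip_tr_left, inv_inv, ip_comm]

lemma sq_sub_tr {u : G → ℝ} (hu : FS u) (g : G) :
    ip (fun x => u x - tr g u x) (fun x => u x - tr g u x) = 2 * ip u u - 2 * ip (tr g u) u := by
  have h1 := hu.sub (tr_fs hu g)
  rw [ip_sub_left h1, ip_comm u, ip_comm (tr g u), ip_sub_left hu, ip_sub_left (tr_fs hu g),
    ip_tr, ip_comm u (tr g u)]
  ring

lemma sq_add_tr {u : G → ℝ} (hu : FS u) (g : G) :
    ip (fun x => u x + tr g u x) (fun x => u x + tr g u x) = 2 * ip u u + 2 * ip (tr g u) u := by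
  have h1 := hu.add (tr_fs hu g)
  rw [ip_add_left h1, ip_comm u, ip_comm (tr g u), ip_add_left hu, ip_add_left (tr_fs hu g),
    ip_tr, ip_comm u (tr g u)]
  ring

lemma avg_sub_tr {a : ι → G} {u : G → ℝ} (hu : FS u) :
    (avg fun i => ip (fun x => u x - tr (a i) u x) (fun x => u x - tr (a i) u x))
      = 4 * (ip u u - ip (Q a u) u) := by
  simp_rw [sq_sub_tr hu]
  rw [avg_sub, avg_const, avg_smul, ip_Q_left hu]
  ring

lemma ip_Q_self_nonneg {a : ι → G} {u : G → ℝ} (hu : FS u) : 0 ≤ ip (Q a u) u := by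
  have h1 : (avg fun i => ip (fun x => u x + tr (a i) u x) (fun x => u x + tr (a i) u x))
      = 4 * ip (Q a u) u := by
    simp_rw [sq_add_tr hu]
    rw [avg_add, avg_const, avg_smul, ip_Q_left hu]
    ring
  have h2 : 0 ≤ (avg fun i => ip (fun x => u x + tr (a i) u x) (fun x => u x + tr (a i) u x)) :=
    avg_nonneg fun i => ip_self_nonneg _
  linarith

/-- law of the lazy walk. -/
noncomputable def lz (a : ι → G) : ℕ → G → ℝ
  | 0 => walk a 0
  | n + 1 => Q a (lz a n)

lemma lz_fs (a : ι → G) (n : ℕ) : FS (lz a n) := by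
  induction n with
  | zero => exact walk_fs a 0
  | succ n ih => exact Q_fs ih

lemma lz_nonneg (a : ι → G) (n : ℕ) (x : G) : 0 ≤ lz a n x := by
  induction n generalizing x with
  | zero => exact walk_nonneg a 0 x
  | succ n ih =>
    show 0 ≤ (lz a n x + avg fun i => tr (a i) (lz a n) x) / 2
    have : 0 ≤ avg fun i => tr (a i) (lz a n) x := avg_nonneg fun i => ih _
    have := ih x
    positivity

lemma tsum_tr (u : G → ℝ) (g : G) : ∑' x, tr g u x = ∑' x, u x := tsum_left u g⁻¹

lemma lz_sum (a : ι → G) (n : ℕ) : ∑' x, lz a n x = 1 := by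
  induction n with
  | zero => exact walk_sum a 0
  | succ n ih =>
    have h1 : ∀ x, lz a (n + 1) x = (2 : ℝ)⁻¹ * (lz a n x + avg fun i => tr (a i) (lz a n) x) := by
      intro x; show (lz a n x + avg fun i => tr (a i) (lz a n) x) / 2 = _; ring
    have hf : FS (fun x => avg fun i => tr (a i) (lz a n) x) := by
      have h1 : FS (fun x => ∑ i : ι, tr (a i) (lz a n) x) := FS.sum (fun i _ => tr_fs (lz_fs a n) _)
      exact h1.const_mul _
    rw [tsum_congr h1, tsum_mul_left, (lz_fs a n).summable.tsum_add hf.summable, ih,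
      tsum_avg _ (fun i => tr_fs (lz_fs a n) _)]
    simp_rw [tsum_tr, ih]
    rw [avg_const]; norm_num

/-- return probabilities. -/
noncomputable def p (a : ι → G) (n : ℕ) : ℝ := ip (lz a n) (lz a 0)

lemma ip_lz {a : ι → G} (ha : SymFam a) (i j : ℕ) : ip (lz a i) (lz a j) = p a (i + j) := by
  induction j generalizing i with
  | zero => rfl
  | succ j ih =>
    have h1 : ip (lz a i) (lz a (j + 1)) = ip (lz a (i + 1)) (lz a j) :=
      (ip_Q ha (lz_fs a i) (lz_fs a j)).symm
    rw [h1, ih]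
    congr 1; omega

lemma p_even {a : ι → G} (ha : SymFam a) (k : ℕ) : p a (2 * k) = ip (lz a k) (lz a k) := by
  rw [ip_lz ha]; congr 1; omega

lemma p_nonneg {a : ι → G} (ha : SymFam a) (n : ℕ) : 0 ≤ p a n := by
  obtain ⟨k, rfl | rfl⟩ := Nat.even_or_odd' n
  · rw [p_even ha]; exact ip_self_nonneg _
  · have h1 := ip_Q_self_nonneg (a := a) (lz_fs a k)
    have h2 : ip (lz a (k + 1)) (lz a k) = p a (2 * k + 1) := by
      rw [ip_lz ha]; congr 1; omega
    rw [← h2]; exact h1

lemma p_zero (a : ι → G) : p a 0 = 1 := by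
  classical
  unfold p ip
  show ∑' x, walk a 0 x * walk a 0 x = 1
  rw [tsum_eq_single (1 : G)]
  · rw [walk_zero, if_pos rfl]; norm_num
  · intro x hx
    rw [walk_zero, if_neg hx]; norm_num

/-- energies. -/
noncomputable def en (a : ι → G) (n : ℕ) : ℝ := p a n - p a (n + 1)

lemma diff_fs (a : ι → G) (k : ℕ) : FS (fun x => lz a k x - lz a (k + 1) x) :=
  (lz_fs a k).sub (lz_fs a (k + 1))

lemma ip_diff {a : ι → G} (ha : SymFam a) (j k : ℕ) :
    ip (fun x => lz a j x - lz a (j + 1) x) (fun x => lz a k x - lz a (k + 1) x)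
      = en a (j + k) - en a (j + k + 1) := by
  rw [ip_sub_left (diff_fs a k), ip_comm (lz a j), ip_comm (lz a (j + 1)),
    ip_sub_left (lz_fs a j), ip_sub_left (lz_fs a (j + 1)), ip_lz ha, ip_lz ha, ip_lz ha,
    ip_lz ha]
  unfold en
  rw [show k + j = j + k by omega, show k + 1 + j = j + k + 1 by omega,
    show k + (j + 1) = j + k + 1 by omega, show k + 1 + (j + 1) = j + k + 1 + 1 by omega]

lemma Q_diff (a : ι → G) (k : ℕ) :
    Q a (fun x => lz a k x - lz a (k + 1) x) = fun x => lz a (k + 1) x - lz a (k + 2) x := by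
  ext x
  show (lz a k x - lz a (k + 1) x + avg fun i => (lz a k ((a i)⁻¹ * x) - lz a (k + 1) ((a i)⁻¹ * x))) / 2
    = (lz a k x + avg fun i => lz a k ((a i)⁻¹ * x)) / 2
      - (lz a (k + 1) x + avg fun i => lz a (k + 1) ((a i)⁻¹ * x)) / 2
  rw [avg_sub]; ring

lemma en_anti {a : ι → G} (ha : SymFam a) (n : ℕ) : en a (n + 1) ≤ en a n := by
  obtain ⟨k, rfl | rfl⟩ := Nat.even_or_odd' n
  · have h1 := ip_diff ha k k
    have h2 := ip_self_nonneg (fun x => lz a k x - lz a (k + 1) x)
    rw [h1, show k + k = 2 * k by omega] at h2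
    linarith
  · have h1 := ip_Q_self_nonneg (a := a) (diff_fs a k)
    rw [Q_diff, ip_diff ha (k + 1) k, show k + 1 + k = 2 * k + 1 by omega] at h1
    linarith

lemma en_even {a : ι → G} (ha : SymFam a) (k : ℕ) :
    (avg fun i => ip (fun x => lz a k x - tr (a i) (lz a k) x)
      (fun x => lz a k x - tr (a i) (lz a k) x)) = 4 * en a (2 * k) := by
  rw [avg_sub_tr (lz_fs a k)]
  have h2 : ip (Q a (lz a k)) (lz a k) = p a (2 * k + 1) := by
    show ip (lz a (k + 1)) (lz a k) = _
    rw [ip_lz ha]; congr 1; omega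
  rw [h2, ← p_even ha]; rfl

lemma en_even_nonneg {a : ι → G} (ha : SymFam a) (k : ℕ) : 0 ≤ en a (2 * k) := by
  have h1 := en_even ha k
  have h2 : 0 ≤ avg fun i => ip (fun x => lz a k x - tr (a i) (lz a k) x)
      (fun x => lz a k x - tr (a i) (lz a k) x) := avg_nonneg fun i => ip_self_nonneg _
  linarith

lemma en_nonneg {a : ι → G} (ha : SymFam a) (n : ℕ) : 0 ≤ en a n := by
  obtain ⟨k, rfl | rfl⟩ := Nat.even_or_odd' n
  · exact en_even_nonneg ha k
  · have h1 := en_even_nonneg ha (k + 1)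
    have h2 := en_anti ha (2 * k + 1)
    rw [show 2 * (k + 1) = 2 * k + 1 + 1 by ring] at h1
    linarith

lemma en_le {a : ι → G} (ha : SymFam a) (n : ℕ) : (n : ℝ) * en a n ≤ 1 := by
  have h1 : ∀ m, ∑ j ∈ Finset.range m, en a j = p a 0 - p a m := by
    intro m
    induction m with
    | zero => simp
    | succ m ih => rw [Finset.sum_range_succ, ih]; unfold en; ring
  have hanti : Antitone (en a) := antitone_nat_of_succ_le (en_anti ha)
  have h2 : ∑ j ∈ Finset.range n, en a n ≤ ∑ j ∈ Finset.range n, en a j :=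
    Finset.sum_le_sum fun j hj => hanti (Finset.mem_range.1 hj).le
  rw [Finset.sum_const, Finset.card_range, nsmul_eq_mul, h1, p_zero] at h2
  have := p_nonneg ha n
  linarith

/-- squared distance between a law and its translate. -/
noncomputable def dst (a : ι → G) (k : ℕ) (g : G) : ℝ :=
  ip (fun x => lz a k x - tr g (lz a k) x) (fun x => lz a k x - tr g (lz a k) x)

lemma dst_mul (a : ι → G) (k : ℕ) (g h : G) :
    dst a k (g * h) ≤ 2 * dst a k g + 2 * dst a k h := by
  set u := lz a k with hu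
  have hfs : FS u := lz_fs a k
  have e1 : dst a k h = ip (fun x => tr g u x - tr (g * h) u x)
      (fun x => tr g u x - tr (g * h) u x) := by
    unfold dst
    rw [← hu, ← ip_tr g]
    have : tr g (fun x => u x - tr h u x) = fun x => tr g u x - tr (g * h) u x := by
      rw [tr_mul]; rfl
    rw [this]
  have f1 : FS (fun x => u x - tr g u x) := hfs.sub (tr_fs hfs g)
  have f2 : FS (fun x => tr g u x - tr (g * h) u x) := (tr_fs hfs g).sub (tr_fs hfs _)
  have f3 : FS (fun x => u x - tr (g * h) u x) := hfs.sub (tr_fs hfs _)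
  rw [e1]
  unfold dst ip
  rw [← hu, ← tsum_mul_left, ← tsum_mul_left,
    ← ((f1.mul_left _).const_mul 2).summable.tsum_add ((f2.mul_left _).const_mul 2).summable]
  apply (f3.mul_left _).summable.tsum_le_tsum _
    (((f1.mul_left _).const_mul 2).summable.add ((f2.mul_left _).const_mul 2).summable)
  intro x
  nlinarith [sq_nonneg ((u x - tr g u x) - (tr g u x - tr (g * h) u x))]

lemma dst_inv (a : ι → G) (k : ℕ) (g : G) : dst a k g⁻¹ = dst a k g := by
  unfold dst
  rw [sq_sub_tr (lz_fs a k), sq_sub_tr (lz_fs a k), ip_tr_left, inv_inv,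
    ip_comm (tr g (lz a k)) (lz a k)]

lemma dst_one (a : ι → G) (k : ℕ) : dst a k 1 = 0 := by
  unfold dst
  rw [tr_one]; simp [ip]

lemma dst_nonneg (a : ι → G) (k : ℕ) (g : G) : 0 ≤ dst a k g := ip_self_nonneg _

lemma dst_le {a : ι → G} (ha : SymFam a) (hgen : Subgroup.closure (Set.range a) = ⊤) (g : G) :
    ∃ C : ℝ, ∀ k, dst a k g ≤ C * en a (2 * k) := by
  have hg : g ∈ Subgroup.closure (Set.range a) := by rw [hgen]; trivial
  induction hg using Subgroup.closure_induction with
  | mem x hx =>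
    obtain ⟨i, rfl⟩ := hx
    refine ⟨Fintype.card ι * 4, fun k => ?_⟩
    have h1 := le_card_mul_avg (F := fun i => dst a k (a i)) (fun i => dst_nonneg a k _) i
    have h2 := en_even ha k
    have h3 : (avg fun i => dst a k (a i)) = 4 * en a (2 * k) := h2
    rw [h3] at h1
    linarith
  | one => exact ⟨0, fun k => by rw [dst_one]; simp⟩
  | mul x y _ _ hx hy =>
    obtain ⟨C1, h1⟩ := hx
    obtain ⟨C2, h2⟩ := hy
    refine ⟨2 * C1 + 2 * C2, fun k => ?_⟩
    have h3 := dst_mul a k x y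
    have h4 := h1 k
    have h5 := h2 k
    linarith
  | inv x _ hx =>
    obtain ⟨C1, h1⟩ := hx
    exact ⟨C1, fun k => by rw [dst_inv]; exact h1 k⟩

lemma card_mul_p_le {a : ι → G} (ha : SymFam a) (k : ℕ) (F : Finset G) :
    F.card * p a (2 * k) ≤ 1 + ∑ x ∈ F, dst a k x := by
  classical
  set u := lz a k with hu
  have hfs : FS u := lz_fs a k
  have h0 : ∀ x, 0 ≤ u x := lz_nonneg a k
  have h1 : ∑ x ∈ F, ip (tr x u) u ≤ 1 := by
    unfold ip
    rw [← Summable.tsum_finsetSum (fun x _ => (hfs.mul_left _).summable)]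
    have h2 : ∀ y, ∑ x ∈ F, tr x u y * u y ≤ u y := by
      intro y
      rw [← Finset.sum_mul]
      have h3 : ∑ x ∈ F, tr x u y ≤ 1 := by
        have e : (fun x => tr x u y) = fun x => u (((Equiv.inv G).trans (Equiv.mulRight y)) x) := by
          ext x; simp [tr]
        have hs : Summable (fun x => tr x u y) := by
          rw [e]
          exact ((Equiv.inv G).trans (Equiv.mulRight y)).summable_iff.2 hfs.summable
        have h4 : ∑ x ∈ F, tr x u y ≤ ∑' x, tr x u y := hs.sum_le_tsum F (fun x _ => h0 _)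
        have h5 : ∑' x, tr x u y = 1 := by
          rw [e, ((Equiv.inv G).trans (Equiv.mulRight y)).tsum_eq u]
          exact lz_sum a k
        linarith
      calc (∑ x ∈ F, tr x u y) * u y ≤ 1 * u y := mul_le_mul_of_nonneg_right h3 (h0 y)
        _ = u y := one_mul _
    have hs1 : FS (fun y => ∑ x ∈ F, tr x u y * u y) := by
      apply FS.sum
      intro x _
      exact hfs.mul_left _
    calc ∑' y, ∑ x ∈ F, tr x u y * u y ≤ ∑' y, u y := hs1.summable.tsum_le_tsum h2 hfs.summable
      _ = 1 := lz_sum a k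
  have h2 : ∀ x ∈ F, ip (tr x u) u = p a (2 * k) - dst a k x / 2 := by
    intro x _
    unfold dst
    rw [sq_sub_tr hfs, p_even ha]; ring
  rw [Finset.sum_congr rfl h2, Finset.sum_sub_distrib, Finset.sum_const, nsmul_eq_mul] at h1
  have h3 : ∑ x ∈ F, dst a k x / 2 ≤ ∑ x ∈ F, dst a k x :=
    Finset.sum_le_sum fun x _ => by have := dst_nonneg a k x; linarith
  linarith

lemma p_anti {a : ι → G} (ha : SymFam a) : Antitone (p a) :=
  antitone_nat_of_succ_le fun n => by
    have := en_nonneg ha n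
    unfold en at this
    linarith

lemma p_small [Infinite G] {a : ι → G} (ha : SymFam a)
    (hgen : Subgroup.closure (Set.range a) = ⊤) {ε : ℝ} (hε : 0 < ε) :
    ∃ k, p a (2 * k) < ε := by
  obtain ⟨N, hN⟩ := exists_nat_gt (2 / ε)
  have hN0 : 0 < (N : ℝ) := lt_trans (by positivity) hN
  obtain ⟨F, hF⟩ := Infinite.exists_subset_card_eq G N
  choose C hC using fun g => dst_le ha hgen g
  -- the sum of the dst is ≤ (∑ C) en
  set D : ℝ := ∑ x ∈ F, |C x| with hD
  have hDn : 0 ≤ D := Finset.sum_nonneg fun _ _ => abs_nonneg _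
  obtain ⟨k, hk⟩ := exists_nat_gt D
  refine ⟨k, ?_⟩
  have hk0 : 0 < (k : ℝ) := lt_of_le_of_lt hDn hk
  have h1 := card_mul_p_le ha k F
  have h2 : ∑ x ∈ F, dst a k x ≤ D * en a (2 * k) := by
    rw [hD, Finset.sum_mul]
    refine Finset.sum_le_sum fun x _ => (hC x k).trans ?_
    exact mul_le_mul_of_nonneg_right (le_abs_self _) (en_nonneg ha _)
  have h3 := en_le ha (2 * k)
  have h4 : D * en a (2 * k) ≤ 1 := by
    have h5 : D * en a (2 * k) ≤ (2 * k : ℕ) * en a (2 * k) := by
      refine mul_le_mul_of_nonneg_right ?_ (en_nonneg ha _)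
      push_cast; linarith
    linarith
  rw [hF] at h1
  have h6 : (N : ℝ) * p a (2 * k) ≤ 2 := by linarith
  have h7 : p a (2 * k) ≤ 2 / N := by
    rw [le_div_iff₀ hN0]; linarith
  have h8 : 2 / (N : ℝ) < ε := by
    rw [div_lt_iff₀ hN0]
    rw [div_lt_iff₀ hε] at hN
    linarith
  linarith

lemma lz_supp {a : ι → G} {l : G → ℕ} {C d : ℕ} (hl : PolyLen l C d) {M : ℕ}
    (hM : ∀ i, l (a i) ≤ M) (k : ℕ) (x : G) (hx : lz a k x ≠ 0) : l x ≤ k * M := by
  classical
  induction k generalizing x with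
  | zero =>
    have h1 : x = 1 := by
      by_contra h
      apply hx
      show walk a 0 x = 0
      rw [walk_zero, if_neg h]
    rw [h1, hl.one]; simp
  | succ k ih =>
    by_contra hcon
    apply hx
    have h1 : lz a k x = 0 := by
      by_contra h
      have := ih x h
      apply hcon
      calc l x ≤ k * M := this
        _ ≤ (k + 1) * M := Nat.mul_le_mul_right _ (by omega)
    have h2 : ∀ i, tr (a i) (lz a k) x = 0 := by
      intro i
      by_contra h
      have h3 := ih _ h
      apply hcon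
      have h4 : x = a i * ((a i)⁻¹ * x) := by group
      calc l x = l (a i * ((a i)⁻¹ * x)) := by rw [← h4]
        _ ≤ l (a i) + l ((a i)⁻¹ * x) := hl.mul _ _
        _ ≤ M + k * M := add_le_add (hM i) h3
        _ = (k + 1) * M := by ring
    show (lz a k x + avg fun i => tr (a i) (lz a k) x) / 2 = 0
    simp_rw [h1, h2]
    rw [avg_const]; norm_num

lemma p_lower {a : ι → G} (ha : SymFam a) {l : G → ℕ} {C d : ℕ} (hl : PolyLen l C d) {M : ℕ}
    (hM : ∀ i, l (a i) ≤ M) (k : ℕ) : 1 ≤ p a (2 * k) * (C * (k * M + 1) ^ d : ℕ) := by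
  classical
  set B : Finset G := (hl.fin (k * M)).toFinset with hB
  have hcard : B.card ≤ C * (k * M + 1) ^ d := by
    have := hl.card (k * M)
    rwa [Set.ncard_eq_toFinset_card _ (hl.fin (k * M))] at this
  have h0 : ∀ x ∉ B, lz a k x = 0 := by
    intro x hx
    by_contra h
    apply hx
    rw [hB, Set.Finite.mem_toFinset]
    exact lz_supp hl hM k x h
  have h1 : ∑ x ∈ B, lz a k x = 1 := by
    rw [← lz_sum a k, tsum_eq_sum (s := B) h0]
  have h2 : p a (2 * k) = ∑ x ∈ B, lz a k x ^ 2 := by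
    rw [p_even ha]
    unfold ip
    rw [tsum_eq_sum (s := B) (fun x hx => by rw [h0 x hx, zero_mul])]
    exact Finset.sum_congr rfl fun x _ => by ring
  have h3 := Finset.sum_mul_sq_le_sq_mul_sq B (fun x => lz a k x) (fun _ => 1)
  simp only [mul_one, one_pow, Finset.sum_const, nsmul_eq_mul] at h3
  rw [h1, one_pow, ← h2] at h3
  refine h3.trans (mul_le_mul_of_nonneg_left ?_ (p_nonneg ha _))
  exact_mod_cast hcard

/-- the key spectral statement: small defect relative to the energy. -/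
lemma exists_good_scale [Infinite G] {a : ι → G} (ha : SymFam a)
    (hgen : Subgroup.closure (Set.range a) = ⊤) {l : G → ℕ} {C d : ℕ} (hl : PolyLen l C d)
    {ε : ℝ} (hε : 0 < ε) (hε1 : ε < 1) :
    ∃ k, 0 < en a (2 * k) ∧ en a (2 * k) - en a (2 * k + 1) ≤ ε * en a (2 * k) := by
  by_contra hcon
  push Not at hcon
  have hstep : ∀ k, en a (2 * (k + 1)) ≤ (1 - ε) * en a (2 * k) := by
    intro k
    have h1 := en_anti ha (2 * k + 1)
    have h2 := en_anti ha (2 * k)
    rw [show 2 * (k + 1) = 2 * k + 1 + 1 by ring]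
    rcases (en_nonneg ha (2 * k)).lt_or_eq with h | h
    · have h3 := hcon k h
      linarith
    · rw [← h] at h2 ⊢
      linarith
  have hgeom : ∀ k, en a (2 * k) ≤ (1 - ε) ^ k * en a 0 := by
    intro k
    induction k with
    | zero => simp
    | succ k ih =>
      have h1 := hstep k
      have h2 : (1 - ε) * en a (2 * k) ≤ (1 - ε) * ((1 - ε) ^ k * en a 0) :=
        mul_le_mul_of_nonneg_left ih (by linarith)
      rw [pow_succ]
      linarith
  have hen0 : en a 0 ≤ 1 := by
    unfold en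
    rw [p_zero]
    have := p_nonneg ha 1
    simp only [zero_add]
    linarith
  -- telescoping
  have htel : ∀ k m, p a (2 * k) - p a (2 * (k + m)) ≤ 2 / ε * ((1 - ε) ^ k - (1 - ε) ^ (k + m)) := by
    intro k m
    induction m with
    | zero => simp
    | succ m ih =>
      have h1 : p a (2 * (k + m)) - p a (2 * (k + (m + 1))) =
          en a (2 * (k + m)) + en a (2 * (k + m) + 1) := by
        unfold en
        rw [show 2 * (k + (m + 1)) = 2 * (k + m) + 1 + 1 by ring]; ring
      have h2 := en_anti ha (2 * (k + m))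
      have h3 := hgeom (k + m)
      have h4 : (1 - ε) ^ (k + m) * en a 0 ≤ (1 - ε) ^ (k + m) * 1 :=
        mul_le_mul_of_nonneg_left hen0 (pow_nonneg (by linarith) _)
      have h5 : 2 / ε * ((1 - ε) ^ k - (1 - ε) ^ (k + (m + 1))) =
          2 / ε * ((1 - ε) ^ k - (1 - ε) ^ (k + m)) + 2 * (1 - ε) ^ (k + m) := by
        rw [← add_assoc, pow_succ]; field_simp; ring
      rw [h5]
      linarith
  have hpk : ∀ k, p a (2 * k) ≤ 2 / ε * (1 - ε) ^ k := by
    intro k
    by_contra h
    push Not at h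
    obtain ⟨m, hm⟩ := p_small ha hgen (sub_pos.2 h)
    have h1 := htel k m
    have h2 : p a (2 * (k + m)) ≤ p a (2 * m) := p_anti ha (by omega)
    have h3 : 0 ≤ 2 / ε * (1 - ε) ^ (k + m) :=
      mul_nonneg (by positivity) (pow_nonneg (by linarith) _)
    rw [mul_sub] at h1
    linarith
  -- contradiction with polynomial lower bound
  obtain ⟨M, hM⟩ : ∃ M, ∀ i, l (a i) ≤ M :=
    ⟨Finset.univ.sup fun i => l (a i), fun i => Finset.le_sup (f := fun i => l (a i)) (Finset.mem_univ i)⟩
  have hr : Filter.Tendsto (fun n : ℕ => (n : ℝ) ^ d / ((1 - ε)⁻¹) ^ n) Filter.atTop (nhds 0) :=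
    tendsto_pow_const_div_const_pow_of_one_lt d (one_lt_inv_iff₀.2 ⟨by linarith, by linarith⟩)
  set K : ℝ := 2 / ε * (1 - ε)⁻¹ * (C * (M + 1) ^ d) + 1 with hK
  have h1ε : 0 < 1 - ε := by linarith
  have hKpos : 0 < K := by positivity
  have h2 := (hr.eventually (gt_mem_nhds (show (0 : ℝ) < 1 / K by positivity))).and
    (Filter.eventually_ge_atTop 1)
  obtain ⟨n, hn, hn1⟩ := h2.exists
  obtain ⟨k, rfl⟩ : ∃ k, n = k + 1 := ⟨n - 1, by omega⟩
  have h3 := p_lower ha hl hM k
  have h4 := hpk k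
  have h5 : ((C * (k * M + 1) ^ d : ℕ) : ℝ) ≤ C * (M + 1) ^ d * ((k + 1 : ℕ) : ℝ) ^ d := by
    have h6 : ((k : ℝ) * M + 1) ≤ (M + 1) * (k + 1) := by
      have : (0 : ℝ) ≤ k := Nat.cast_nonneg k
      have : (0 : ℝ) ≤ M := Nat.cast_nonneg M
      nlinarith
    push_cast
    calc (C : ℝ) * (k * M + 1) ^ d ≤ C * ((M + 1) * (k + 1)) ^ d := by gcongr
      _ = C * (M + 1) ^ d * (k + 1) ^ d := by rw [mul_pow]; ring
  have h6 : 1 ≤ 2 / ε * (1 - ε) ^ k * (C * (M + 1) ^ d * ((k + 1 : ℕ) : ℝ) ^ d) := by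
    calc (1 : ℝ) ≤ p a (2 * k) * (C * (k * M + 1) ^ d : ℕ) := h3
      _ ≤ (2 / ε * (1 - ε) ^ k) * (C * (M + 1) ^ d * ((k + 1 : ℕ) : ℝ) ^ d) := by
          apply mul_le_mul h4 h5 (Nat.cast_nonneg _)
          positivity
  have h7 : ((k + 1 : ℕ) : ℝ) ^ d / ((1 - ε)⁻¹) ^ (k + 1) = ((k + 1 : ℕ) : ℝ) ^ d * (1 - ε) ^ (k + 1) := by
    rw [inv_pow, div_inv_eq_mul]
  rw [h7] at hn
  have h8 : 2 / ε * (1 - ε) ^ k * (C * (M + 1) ^ d * ((k + 1 : ℕ) : ℝ) ^ d) =
      (2 / ε * (1 - ε)⁻¹ * (C * (M + 1) ^ d)) * (((k + 1 : ℕ) : ℝ) ^ d * (1 - ε) ^ (k + 1)) := by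
    rw [pow_succ]; field_simp
  rw [h8] at h6
  have h9 : (2 / ε * (1 - ε)⁻¹ * (C * (M + 1) ^ d)) * (((k + 1 : ℕ) : ℝ) ^ d * (1 - ε) ^ (k + 1))
      ≤ K * (((k + 1 : ℕ) : ℝ) ^ d * (1 - ε) ^ (k + 1)) := by
    apply mul_le_mul_of_nonneg_right _ (by positivity)
    rw [hK]; linarith
  have h10 : K * (((k + 1 : ℕ) : ℝ) ^ d * (1 - ε) ^ (k + 1)) < K * (1 / K) :=
    mul_lt_mul_of_pos_left hn hKpos
  rw [mul_one_div_cancel hKpos.ne'] at h10
  linarith

/-- approximate harmonic functions. -/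
lemma exists_approx [Infinite G] {a : ι → G} (ha : SymFam a)
    (hgen : Subgroup.closure (Set.range a) = ⊤) {l : G → ℕ} {C d : ℕ} (hl : PolyLen l C d)
    {ε : ℝ} (hε : 0 < ε) (hε1 : ε < 1) :
    ∃ f : G → ℝ, f 1 = 0 ∧ LipB a 1 f ∧ (∃ i, f (a i) = 1) ∧
      ∀ x, |avg (fun i => f (x * a i)) - f x| ≤ ε := by
  obtain ⟨k, hk, hk2⟩ := exists_good_scale ha hgen hl (ε := ε ^ 2) (by positivity) (by nlinarith)
  set u := lz a k with hu
  have hfs : FS u := lz_fs a k
  have htr : ∀ g, FS (fun x => u x - tr g u x) := fun g => hfs.sub (tr_fs hfs g)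
  obtain ⟨i0, hi0⟩ := Finite.exists_max (fun i => dst a k (a i))
  set m := dst a k (a i0) with hm
  have hm4 : 4 * en a (2 * k) ≤ m := by
    rw [← en_even ha k]
    calc (avg fun i => dst a k (a i)) ≤ avg (fun _ : ι => m) := avg_mono hi0
      _ = m := avg_const _
  have hmpos : 0 < m := by linarith
  set w : G → ℝ := fun x => u x - tr (a i0) u x with hw
  have hwf : FS w := htr _
  have hww : ip w w = m := rfl
  refine ⟨fun g => ip (fun x => u x - tr g u x) w / m, ?_, ?_, ⟨i0, ?_⟩, ?_⟩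
  · show ip (fun x => u x - tr 1 u x) w / m = 0
    rw [tr_one]
    simp [ip]
  · intro g i
    have h1 : ip (fun x => u x - tr (g * a i) u x) w / m - ip (fun x => u x - tr g u x) w / m
        = ip (tr g (fun x => u x - tr (a i) u x)) w / m := by
      rw [← sub_div, ← ip_sub_left hwf]
      congr 2
      ext x
      rw [tr_mul]
      simp only [tr]
      ring
    show |ip (fun x => u x - tr (g * a i) u x) w / m - ip (fun x => u x - tr g u x) w / m| ≤ 1
    rw [h1, abs_div, abs_of_pos hmpos, div_le_one hmpos]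
    have h2 := ip_cs (tr_fs (htr (a i)) g) hwf
    rw [ip_tr, hww] at h2
    have h3 : ip (fun x => u x - tr (a i) u x) (fun x => u x - tr (a i) u x) ≤ m := hi0 i
    have h4 : ip (tr g (fun x => u x - tr (a i) u x)) w ^ 2 ≤ m ^ 2 := by
      refine h2.trans ?_
      rw [sq]
      exact mul_le_mul_of_nonneg_right h3 hmpos.le
    exact abs_le_of_sq_le_sq h4 hmpos.le
  · show ip w w / m = 1
    rw [hww, div_self hmpos.ne']
  · intro g
    have h1 : (avg fun i => ip (fun x => u x - tr (g * a i) u x) w / m)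
        - ip (fun x => u x - tr g u x) w / m
        = 2 * ip (tr g (fun x => lz a k x - lz a (k + 1) x)) w / m := by
      have e1 : (avg fun i => ip (fun x => u x - tr (g * a i) u x) w / m)
          = (avg fun i => ip (fun x => u x - tr (g * a i) u x) w) / m := by
        have : (fun i => ip (fun x => u x - tr (g * a i) u x) w / m)
            = fun i => m⁻¹ * ip (fun x => u x - tr (g * a i) u x) w := by
          ext i; ring
        rw [this, avg_smul]; ring
      rw [e1, ← sub_div, ← ip_avg_left hwf, ← ip_sub_left hwf, ← ip_smul_left]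
      congr 2
      ext x
      show (avg fun i => (u x - tr (g * a i) u x)) - (u x - tr g u x)
        = 2 * (lz a k (g⁻¹ * x) - (lz a k (g⁻¹ * x) + avg fun i => tr (a i) (lz a k) (g⁻¹ * x)) / 2)
      rw [avg_sub, avg_const]
      simp only [tr, ← hu, mul_inv_rev, mul_assoc]
      ring
    show |(avg fun i => ip (fun x => u x - tr (g * a i) u x) w / m)
        - ip (fun x => u x - tr g u x) w / m| ≤ ε
    rw [h1]
    have h2 := ip_cs (tr_fs (diff_fs a k) g) hwf
    rw [ip_tr, hww, ip_diff ha, show k + k = 2 * k by omega] at h2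
    apply abs_le_of_sq_le_sq _ hε.le
    rw [div_pow, mul_pow, div_le_iff₀ (by positivity)]
    calc 2 ^ 2 * ip (tr g (fun x => lz a k x - lz a (k + 1) x)) w ^ 2
        ≤ 2 ^ 2 * ((en a (2 * k) - en a (2 * k + 1)) * m) := by gcongr
      _ ≤ 2 ^ 2 * ((ε ^ 2 * en a (2 * k)) * m) := by gcongr
      _ = ε ^ 2 * ((4 * en a (2 * k)) * m) := by ring
      _ ≤ ε ^ 2 * (m * m) := by gcongr
      _ = ε ^ 2 * m ^ 2 := by ring

lemma lip_bound {a : ι → G} (hgen : Subgroup.closure (Set.range a) = ⊤) (g : G) :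
    ∃ R : ℝ, ∀ f : G → ℝ, LipB a 1 f → ∀ x, |f (x * g) - f x| ≤ R := by
  have hg : g ∈ Subgroup.closure (Set.range a) := by rw [hgen]; trivial
  induction hg using Subgroup.closure_induction with
  | mem x hx =>
    obtain ⟨i, rfl⟩ := hx
    exact ⟨1, fun f hf x => hf x i⟩
  | one => exact ⟨0, fun f hf x => by simp⟩
  | mul x y _ _ hx hy =>
    obtain ⟨R1, h1⟩ := hx
    obtain ⟨R2, h2⟩ := hy
    refine ⟨R1 + R2, fun f hf z => ?_⟩
    have h3 := h1 f hf z
    have h4 := h2 f hf (z * x)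
    rw [← mul_assoc]
    calc |f (z * x * y) - f z| = |(f (z * x * y) - f (z * x)) + (f (z * x) - f z)| := by ring_nf
      _ ≤ |f (z * x * y) - f (z * x)| + |f (z * x) - f z| := abs_add_le _ _
      _ ≤ R1 + R2 := by linarith
  | inv x _ hx =>
    obtain ⟨R1, h1⟩ := hx
    refine ⟨R1, fun f hf z => ?_⟩
    have h3 := h1 f hf (z * x⁻¹)
    rw [inv_mul_cancel_right, abs_sub_comm] at h3
    exact h3

/-- **Existence of a non-constant Lipschitz harmonic function.** -/
theorem exists_harm [Infinite G] {a : ι → G} (ha : SymFam a)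
    (hgen : Subgroup.closure (Set.range a) = ⊤) {l : G → ℕ} {C d : ℕ} (hl : PolyLen l C d) :
    ∃ h : G → ℝ, Harm a h ∧ LipB a 1 h ∧ h 1 = 0 ∧ ∃ x, h x ≠ 0 := by
  have hex : ∀ n : ℕ, ∃ f : G → ℝ, f 1 = 0 ∧ LipB a 1 f ∧ (∃ i, f (a i) = 1) ∧
      ∀ x, |avg (fun i => f (x * a i)) - f x| ≤ 1 / ((n : ℝ) + 2) := by
    intro n
    refine exists_approx ha hgen hl (by positivity) ?_
    rw [div_lt_one (by positivity)]
    have : (0 : ℝ) ≤ n := Nat.cast_nonneg n
    linarith
  choose f hf1 hfL hfi hfd using hex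
  let U : Ultrafilter ℕ := Filter.hyperfilter ℕ
  have hU : (U : Filter ℕ) ≤ Filter.atTop := Nat.hyperfilter_le_atTop
  have hlim : ∀ x, ∃ y, Filter.Tendsto (fun n => f n x) U (nhds y) := by
    intro x
    obtain ⟨R, hR⟩ := lip_bound hgen x
    have hb : ∀ n, f n x ∈ Set.Icc (-R) R := by
      intro n
      have := hR (f n) (hfL n) 1
      rw [one_mul, hf1, sub_zero] at this
      exact abs_le.1 this
    have hmem : Set.Icc (-R) R ∈ U.map (fun n => f n x) :=
      Filter.Eventually.of_forall (f := (U : Filter ℕ)) hb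
    obtain ⟨y, _, hy⟩ := isCompact_Icc.ultrafilter_le_nhds' _ hmem
    exact ⟨y, hy⟩
  choose h hh using hlim
  refine ⟨h, ?_, ?_, ?_, ?_⟩
  · intro x
    have h1 : Filter.Tendsto (fun n => avg (fun i => f n (x * a i)) - f n x) U
        (nhds (avg (fun i => h (x * a i)) - h x)) := by
      refine Filter.Tendsto.sub ?_ (hh x)
      unfold avg
      exact Filter.Tendsto.const_mul _ (tendsto_finsetSum _ fun i _ => hh _)
    have h2 : Filter.Tendsto (fun n => avg (fun i => f n (x * a i)) - f n x) U (nhds 0) := by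
      rw [tendsto_zero_iff_abs_tendsto_zero]
      have h3 : Filter.Tendsto (fun n : ℕ => 1 / ((n : ℝ) + 2)) U (nhds 0) := by
        have h4 : Filter.Tendsto (fun n : ℕ => 1 / ((n : ℝ) + 2)) Filter.atTop (nhds 0) := by
          have h5 : Filter.Tendsto (fun n : ℕ => ((n : ℝ) + 2)) Filter.atTop Filter.atTop :=
            Filter.tendsto_atTop_add_const_right _ _ tendsto_natCast_atTop_atTop
          have h6 := h5.inv_tendsto_atTop
          refine h6.congr fun n => ?_
          simp [one_div]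
        exact h4.mono_left hU
      exact squeeze_zero (fun n => abs_nonneg _) (fun n => hfd n x) h3
    have := tendsto_nhds_unique h1 h2
    linarith
  · intro x i
    have h1 : Filter.Tendsto (fun n => |f n (x * a i) - f n x|) U
        (nhds |h (x * a i) - h x|) := ((hh _).sub (hh _)).abs
    exact le_of_tendsto h1 (Filter.Eventually.of_forall fun n => hfL n x i)
  · have h1 : Filter.Tendsto (fun n => f n 1) U (nhds 0) := by
      simp_rw [hf1]; exact tendsto_const_nhds
    exact tendsto_nhds_unique (hh 1) h1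
  · by_contra hcon
    push Not at hcon
    have h1 : ∀ i, ∀ᶠ n in (U : Filter ℕ), f n (a i) ≠ 1 := by
      intro i
      have h2 := hh (a i)
      rw [hcon] at h2
      have h3 := h2.eventually (gt_mem_nhds (show (0 : ℝ) < 1 by norm_num))
      exact h3.mono fun n hn => hn.ne
    have h2 := (Filter.eventually_all.2 h1)
    obtain ⟨n, hn⟩ := h2.exists
    obtain ⟨i, hi⟩ := hfi n
    exact hn i hi

end Crest.Agent.R182.Gromov.Exist
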