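import Crest.Agent.R182.GromovEntropy

/-!
R182, module GROMOV, block GQ (helper203): the invariant quadratic form on Lipschitz harmonic
functions and finite-dimensionality.
-/

set_option autoImplicit false
set_option linter.unusedSectionVars false
set_option linter.unusedSimpArgs false

namespace Crest.Agent.R182.Gromov.Form

open Function Filter Topology Crest.Agent.R182.Gromov.Walk

variable {G : Type*} [Group G] {ι : Type*} [Fintype ι] [Nonempty ι]

/-- Lipschitz harmonic functions vanishing at the identity. -/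
def harmSub (a : ι → G) : Submodule ℝ (G → ℝ) where
  carrier := {h | Harm a h ∧ (∃ L, LipB a L h) ∧ h 1 = 0}
  zero_mem' := ⟨fun x => by simp [avg], ⟨0, fun x i => by simp⟩, rfl⟩
  add_mem' := by
    rintro h k ⟨h1, ⟨L, h2⟩, h3⟩ ⟨k1, ⟨M, k2⟩, k3⟩
    refine ⟨fun x => ?_, ⟨L + M, fun x i => ?_⟩, ?_⟩
    · have := avg_add (fun i => h (x * a i)) (fun i => k (x * a i))
      simp only [Pi.add_apply]
      rw [this, h1 x, k1 x]
    · have e : (h + k) (x * a i) - (h + k) x
          = (h (x * a i) - h x) + (k (x * a i) - k x) := by simp only [Pi.add_apply]; ring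
      rw [e]
      exact (abs_add_le _ _).trans (add_le_add (h2 x i) (k2 x i))
    · simp [h3, k3]
  smul_mem' := by
    rintro c h ⟨h1, ⟨L, h2⟩, h3⟩
    refine ⟨fun x => ?_, ⟨|c| * L, fun x i => ?_⟩, ?_⟩
    · have := avg_smul c (fun i => h (x * a i))
      simp only [Pi.smul_apply, smul_eq_mul]
      rw [this, h1 x]
    · have e : (c • h) (x * a i) - (c • h) x = c * (h (x * a i) - h x) := by
        simp only [Pi.smul_apply, smul_eq_mul]; ring
      rw [e, abs_mul]
      exact mul_le_mul_of_nonneg_left (h2 x i) (abs_nonneg c)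
    · simp [h3]

/-- The type of such functions, as a type synonym depending on an ultrafilter (which will give
the norm). -/
def HW (a : ι → G) (_ω : Ultrafilter ℕ) : Type _ := ↥(harmSub a)

variable {a : ι → G} {ω : Ultrafilter ℕ}

instance : AddCommGroup (HW a ω) := inferInstanceAs (AddCommGroup ↥(harmSub a))
instance : Module ℝ (HW a ω) := inferInstanceAs (Module ℝ ↥(harmSub a))

/-- The underlying function. -/
def fn (h : HW a ω) : G → ℝ := (show ↥(harmSub a) from h).1

lemma fn_harm (h : HW a ω) : Harm a (fn h) := (show ↥(harmSub a) from h).2.1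
lemma fn_lip (h : HW a ω) : ∃ L, LipB a L (fn h) := (show ↥(harmSub a) from h).2.2.1
lemma fn_one (h : HW a ω) : fn h 1 = 0 := (show ↥(harmSub a) from h).2.2.2

lemma fn_add (h k : HW a ω) (x : G) : fn (h + k) x = fn h x + fn k x := rfl
lemma fn_smul (c : ℝ) (h : HW a ω) (x : G) : fn (c • h) x = c * fn h x := rfl
lemma fn_zero (x : G) : fn (0 : HW a ω) x = 0 := rfl

lemma fn_sum {κ : Type*} (s : Finset κ) (f : κ → HW a ω) (x : G) :
    fn (∑ j ∈ s, f j) x = ∑ j ∈ s, fn (f j) x := by
  classical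
  induction s using Finset.induction_on with
  | empty => simp [fn_zero]
  | insert j s hj ih => rw [Finset.sum_insert hj, fn_add, ih, Finset.sum_insert hj]

lemma fn_ext {h k : HW a ω} (e : ∀ x, fn h x = fn k x) : h = k :=
  Subtype.ext (funext e)

/-- make an element -/
def mk (ω : Ultrafilter ℕ) (h : G → ℝ) (h1 : Harm a h) (h2 : ∃ L, LipB a L h) (h3 : h 1 = 0) :
    HW a ω := (⟨h, h1, h2, h3⟩ : ↥(harmSub a))

lemma fn_mk (h : G → ℝ) (h1 : Harm a h) (h2 : ∃ L, LipB a L h) (h3 : h 1 = 0) (x : G) :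
    fn (mk ω h h1 h2 h3) x = h x := rfl

lemma exists_lim (u : ℕ → ℝ) (hb : ∃ M, ∀ n, |u n| ≤ M) :
    ∃ x, Tendsto u (ω : Filter ℕ) (𝓝 x) := by
  obtain ⟨M, hM⟩ := hb
  have hc : IsCompact (Set.Icc (-M) M) := isCompact_Icc
  obtain ⟨x, _, hx⟩ := hc.ultrafilter_le_nhds (ω.map u) (by
    rw [Ultrafilter.coe_map, le_principal_iff]
    exact Filter.mem_map.2 (Filter.univ_mem' fun n => abs_le.mp (hM n)))
  exact ⟨x, hx⟩

noncomputable def Bn (a : ι → G) (n : ℕ) (h k : G → ℝ) : ℝ :=
  E a n (fun x => h x * k x) / (n + 1)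

lemma Bn_self_le {h : G → ℝ} {L : ℝ} (h1 : Harm a h) (h2 : LipB a L h) (h3 : h 1 = 0) (n : ℕ) :
    Bn a n h h ≤ L ^ 2 := by
  unfold Bn
  rw [div_le_iff₀ (by positivity)]
  have := h1.E_sq_le h2 h3 n
  have e : (fun x => h x * h x) = fun x => h x ^ 2 := by ext x; ring
  rw [e]
  nlinarith [sq_nonneg L]

lemma Bn_self_nonneg (h : G → ℝ) (n : ℕ) : 0 ≤ Bn a n h h :=
  div_nonneg (E_nonneg a n fun x => mul_self_nonneg _) (by positivity)

lemma Bn_abs_le (h k : G → ℝ) (n : ℕ) : |Bn a n h k| ≤ Bn a n h h + Bn a n k k := by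
  unfold Bn
  rw [← add_div, abs_div, abs_of_pos (by positivity : (0 : ℝ) < (n : ℝ) + 1)]
  apply div_le_div_of_nonneg_right _ (by positivity)
  rw [← E_add, abs_le]
  constructor
  · have := E_mono a n (f := fun x => -1 * (h x * h x + k x * k x)) (g := fun x => h x * k x)
      (fun x => by nlinarith [sq_nonneg (h x + k x), mul_self_nonneg (h x), mul_self_nonneg (k x)])
    rw [E_smul] at this
    linarith
  · exact E_mono a n (fun x => by
      nlinarith [sq_nonneg (h x - k x), mul_self_nonneg (h x), mul_self_nonneg (k x)])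

lemma Bn_bdd (h k : HW a ω) : ∃ M, ∀ n, |Bn a n (fn h) (fn k)| ≤ M := by
  obtain ⟨L, hL⟩ := fn_lip h
  obtain ⟨M, hM⟩ := fn_lip k
  refine ⟨L ^ 2 + M ^ 2, fun n => (Bn_abs_le _ _ n).trans (add_le_add ?_ ?_)⟩
  · exact Bn_self_le (fn_harm h) hL (fn_one h) n
  · exact Bn_self_le (fn_harm k) hM (fn_one k) n

/-- The limit form. -/
noncomputable def B (h k : HW a ω) : ℝ := limUnder (ω : Filter ℕ) fun n => Bn a n (fn h) (fn k)

lemma B_tendsto (h k : HW a ω) :
    Tendsto (fun n => Bn a n (fn h) (fn k)) (ω : Filter ℕ) (𝓝 (B h k)) :=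
  tendsto_nhds_limUnder (exists_lim _ (Bn_bdd h k))

lemma B_unique {h k : HW a ω} {x : ℝ}
    (hx : Tendsto (fun n => Bn a n (fn h) (fn k)) (ω : Filter ℕ) (𝓝 x)) : B h k = x :=
  tendsto_nhds_unique (B_tendsto h k) hx

lemma B_symm (h k : HW a ω) : B h k = B k h := by
  apply B_unique
  refine (B_tendsto k h).congr fun n => ?_
  unfold Bn
  congr 2; ext x; ring

lemma B_add_left (h h' k : HW a ω) : B (h + h') k = B h k + B h' k := by
  apply B_unique
  refine ((B_tendsto h k).add (B_tendsto h' k)).congr fun n => ?_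
  unfold Bn
  rw [← add_div, ← E_add]
  congr 2; ext x; rw [fn_add]; ring

lemma B_smul_left (c : ℝ) (h k : HW a ω) : B (c • h) k = c * B h k := by
  apply B_unique
  refine ((B_tendsto h k).const_mul c).congr fun n => ?_
  unfold Bn
  rw [← mul_div_assoc, ← E_smul]
  congr 2; ext x; rw [fn_smul]; ring

lemma B_self_nonneg (h : HW a ω) : 0 ≤ B h h :=
  ge_of_tendsto' (B_tendsto h h) fun n => Bn_self_nonneg _ n

/-- The translation action. -/
def trFun (g : G) (h : G → ℝ) : G → ℝ := fun x => h (g⁻¹ * x) - h g⁻¹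

def tr (ω : Ultrafilter ℕ) (g : G) (h : HW a ω) : HW a ω :=
  mk ω (trFun g (fn h))
    (fun x => by
      have := (fn_harm h) (g⁻¹ * x)
      unfold trFun
      rw [avg_sub, avg_const]
      simp only [mul_assoc] at this ⊢
      rw [this])
    (by
      obtain ⟨L, hL⟩ := fn_lip h
      refine ⟨L, fun x i => ?_⟩
      have := hL (g⁻¹ * x) i
      unfold trFun
      rw [mul_assoc] at this
      simpa using this)
    (by simp [trFun])

lemma fn_tr (g : G) (h : HW a ω) (x : G) : fn (tr ω g h) x = fn h (g⁻¹ * x) - fn h g⁻¹ := rfl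

lemma tr_mul (g k : G) (h : HW a ω) : tr ω (g * k) h = tr ω g (tr ω k h) := by
  apply fn_ext
  intro x
  simp only [fn_tr, mul_inv_rev, mul_assoc]
  ring

lemma tr_one (h : HW a ω) : tr ω 1 h = h := by
  apply fn_ext
  intro x
  simp [fn_tr, fn_one]

lemma tr_add (g : G) (h k : HW a ω) : tr ω g (h + k) = tr ω g h + tr ω g k := by
  apply fn_ext
  intro x
  simp only [fn_tr, fn_add]; ring

lemma tr_smul (g : G) (c : ℝ) (h : HW a ω) : tr ω g (c • h) = c • tr ω g h := by
  apply fn_ext
  intro x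
  simp only [fn_tr, fn_smul]; ring

/-- The standing hypotheses on the ultrafilter. -/
structure Good (a : ι → G) (ω : Ultrafilter ℕ) (K : ℝ) : Prop where
  le : (ω : Filter ℕ) ≤ atTop
  bd : ∀ᶠ n in (ω : Filter ℕ), ∀ i, D a n (a i) ≤ K / (n + 1)
  gen : Subgroup.closure (Set.range a) = ⊤
  pos : 0 < K

lemma tendsto_inv (hg : (ω : Filter ℕ) ≤ atTop) (c : ℝ) :
    Tendsto (fun n : ℕ => c / ((n : ℝ) + 1)) (ω : Filter ℕ) (𝓝 0) := by
  have h1 : Tendsto (fun n : ℕ => c * (1 / ((n : ℝ) + 1))) atTop (𝓝 (c * 0)) :=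
    tendsto_one_div_add_atTop_nhds_zero_nat.const_mul c
  rw [mul_zero] at h1
  refine (h1.mono_left hg).congr fun n => ?_
  rw [mul_one_div]

lemma E_tr_sq (h : HW a ω) (y : G) (n : ℕ) :
    E a n (fun x => fn h (y * x) ^ 2)
      = E a n (fun x => fn (tr ω y⁻¹ h) x * fn (tr ω y⁻¹ h) x) + fn h y ^ 2 := by
  have e1 : (fun x => fn (tr ω y⁻¹ h) x * fn (tr ω y⁻¹ h) x)
      = fun x => (fn h (y * x) ^ 2 - 2 * fn h y * fn h (y * x)) + fn h y ^ 2 := by
    ext x
    rw [fn_tr, inv_inv]; ring
  rw [e1, E_add, E_sub, E_smul, (fn_harm h).E_left, E_const]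
  ring

/-- Evaluation is bounded by the form. -/
lemma eval_sq_le_aux {K : ℝ} (hg : Good a ω K) (h : HW a ω) (i : ι) :
    fn h (a i) ^ 2 ≤ 2 * K * (B (tr ω (a i)⁻¹ h) (tr ω (a i)⁻¹ h) + B h h) := by
  set y := a i with hy
  set h' := tr ω y⁻¹ h with hh'
  have key : ∀ᶠ n in (ω : Filter ℕ), fn h y ^ 2
      ≤ 2 * K * (Bn a n (fn h') (fn h') + fn h y ^ 2 / ((n : ℝ) + 1) + Bn a n (fn h) (fn h)) := by
    filter_upwards [hg.bd] with n hn
    have hD := hn i
    have h1 := diff_sq_le a n y (fn h)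
    rw [(fn_harm h).E_left, (fn_harm h).E_eq, fn_one, sub_zero, E_tr_sq] at h1
    have e1 : (fun x => fn h x ^ 2) = fun x => fn h x * fn h x := by ext x; ring
    rw [e1] at h1
    have hpos : (0 : ℝ) < (n : ℝ) + 1 := by positivity
    set A1 := E a n (fun x => fn h' x * fn h' x) with hA1
    set A2 := E a n (fun x => fn h x * fn h x) with hA2
    have hA1' : 0 ≤ A1 := E_nonneg a n fun x => mul_self_nonneg _
    have hA2' : 0 ≤ A2 := E_nonneg a n fun x => mul_self_nonneg _
    calc fn h y ^ 2 ≤ D a n y * (2 * (A1 + fn h y ^ 2 + A2)) := h1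
      _ ≤ (K / (n + 1)) * (2 * (A1 + fn h y ^ 2 + A2)) := by
        apply mul_le_mul_of_nonneg_right hD
        positivity
      _ = 2 * K * (Bn a n (fn h') (fn h') + fn h y ^ 2 / ((n : ℝ) + 1) + Bn a n (fn h) (fn h)) := by
        unfold Bn
        rw [← hA1, ← hA2]
        field_simp
  have lim : Tendsto (fun n : ℕ => 2 * K * (Bn a n (fn h') (fn h') + fn h y ^ 2 / ((n : ℝ) + 1)
      + Bn a n (fn h) (fn h))) (ω : Filter ℕ) (𝓝 (2 * K * (B h' h' + 0 + B h h))) :=
    (((B_tendsto h' h').add (tendsto_inv hg.le _)).add (B_tendsto h h)).const_mul _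
  have := ge_of_tendsto lim key
  simpa using this

/-- Invariance of the quadratic form under generators. -/
lemma q_inv_gen {K : ℝ} (hg : Good a ω K) (h : HW a ω) (i : ι) :
    B (tr ω (a i)⁻¹ h) (tr ω (a i)⁻¹ h) = B h h := by
  set y := a i with hy
  set h' := tr ω y⁻¹ h with hh'
  obtain ⟨L, hL⟩ := fn_lip h
  obtain ⟨L', hL'⟩ := fn_lip h'
  -- the difference tends to zero
  set c := fn h y ^ 2 with hc
  set C1 : ℝ := K * (2 * (32 * L' ^ 4 + 8 * c ^ 2 + 4 * L ^ 4)) with hC1
  have hC1pos : 0 ≤ C1 := by have := hg.pos; positivity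
  have key : ∀ᶠ n in (ω : Filter ℕ),
      |Bn a n (fn h') (fn h') + c / ((n : ℝ) + 1) - Bn a n (fn h) (fn h)|
        ≤ Real.sqrt (C1 / ((n : ℝ) + 1)) := by
    filter_upwards [hg.bd] with n hn
    have hD := hn i
    have h1 := diff_sq_le a n y (fun x => fn h x ^ 2)
    rw [E_tr_sq] at h1
    have e1 : (fun x => fn h x ^ 2) = fun x => fn h x * fn h x := by ext x; ring
    rw [e1] at h1
    have hpos : (0 : ℝ) < (n : ℝ) + 1 := by positivity
    have hn0 : (0 : ℝ) ≤ n := Nat.cast_nonneg n
    -- fourth moments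
    have m1 : E a n (fun x => (fn h x * fn h x) ^ 2) ≤ 4 * n ^ 2 * L ^ 4 := by
      have := (fn_harm h).E_four_le hL (fn_one h) n
      have e : (fun x => (fn h x * fn h x) ^ 2) = fun x => fn h x ^ 4 := by ext x; ring
      rwa [e]
    have m2 : E a n (fun x => (fn h (y * x) ^ 2) ^ 2) ≤ 8 * (4 * n ^ 2 * L' ^ 4) + 8 * c ^ 2 := by
      have h4 := (fn_harm h').E_four_le hL' (fn_one h') n
      have : E a n (fun x => (fn h (y * x) ^ 2) ^ 2)
          ≤ E a n (fun x => 8 * (fn h' x ^ 4) + 8 * c ^ 2) := by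
        apply E_mono
        intro x
        have e : fn h (y * x) = fn h' x + fn h y := by rw [hh', fn_tr, inv_inv]; ring
        rw [e, hc]
        have s1 : (fn h' x + fn h y) ^ 2 ≤ 2 * (fn h' x ^ 2 + fn h y ^ 2) := by
          nlinarith [sq_nonneg (fn h' x - fn h y)]
        have s2 : ((fn h' x + fn h y) ^ 2) ^ 2 ≤ (2 * (fn h' x ^ 2 + fn h y ^ 2)) ^ 2 :=
          pow_le_pow_left₀ (sq_nonneg _) s1 2
        nlinarith [sq_nonneg (fn h' x ^ 2 - fn h y ^ 2)]
      rw [E_add, E_smul, E_const] at this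
      linarith
    set A1 := E a n (fun x => fn h' x * fn h' x) with hA1
    set A2 := E a n (fun x => fn h x * fn h x) with hA2
    have h5 : (A1 + c - A2) ^ 2 ≤ C1 * ((n : ℝ) + 1) := by
      calc (A1 + c - A2) ^ 2 ≤ D a n y * (2 * (E a n (fun x => (fn h (y * x) ^ 2) ^ 2)
              + E a n (fun x => (fn h x * fn h x) ^ 2))) := by
            have e3 : (fun x => (fn h x * fn h x) ^ 2) = fun x => (fn h x ^ 2) ^ 2 := by
              ext x; ring
            rw [e3]
            exact h1
        _ ≤ (K / (n + 1)) * (2 * ((8 * (4 * n ^ 2 * L' ^ 4) + 8 * c ^ 2) + 4 * n ^ 2 * L ^ 4)) := by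
            apply mul_le_mul hD _ _ (by have := hg.pos; positivity)
            · linarith
            · have t1 : 0 ≤ E a n (fun x => (fn h (y * x) ^ 2) ^ 2) :=
                E_nonneg a n fun x => sq_nonneg _
              have t2 : 0 ≤ E a n (fun x => (fn h x * fn h x) ^ 2) :=
                E_nonneg a n fun x => sq_nonneg _
              positivity
        _ ≤ (K / (n + 1)) * (2 * ((32 * L' ^ 4 + 8 * c ^ 2 + 4 * L ^ 4) * (n + 1) ^ 2)) := by
            apply mul_le_mul_of_nonneg_left _ (by have := hg.pos; positivity)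
            have u1 : (n : ℝ) ^ 2 ≤ (n + 1) ^ 2 := by nlinarith
            have u2 : (1 : ℝ) ≤ (n + 1) ^ 2 := by nlinarith
            have v1 : 0 ≤ L' ^ 4 := by positivity
            have v2 : 0 ≤ L ^ 4 := by positivity
            have v3 : 0 ≤ c ^ 2 := by positivity
            nlinarith [mul_le_mul_of_nonneg_right u1 v1, mul_le_mul_of_nonneg_right u1 v2,
              mul_le_mul_of_nonneg_right u2 v3]
        _ = C1 * ((n : ℝ) + 1) := by
            rw [hC1]; field_simp
    have h6 : |(A1 + c - A2) / ((n : ℝ) + 1)| ≤ Real.sqrt (C1 / ((n : ℝ) + 1)) := by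
      apply Real.abs_le_sqrt
      rw [div_pow, div_le_div_iff₀ (by positivity) (by positivity)]
      calc (A1 + c - A2) ^ 2 * ((n : ℝ) + 1) ≤ (C1 * ((n : ℝ) + 1)) * ((n : ℝ) + 1) :=
            mul_le_mul_of_nonneg_right h5 hpos.le
        _ = C1 * ((n : ℝ) + 1) ^ 2 := by ring
    have e2 : Bn a n (fn h') (fn h') + c / ((n : ℝ) + 1) - Bn a n (fn h) (fn h)
        = (A1 + c - A2) / ((n : ℝ) + 1) := by
      unfold Bn
      rw [← hA1, ← hA2]
      ring
    rw [e2]; exact h6
  have l1 : Tendsto (fun n : ℕ => |Bn a n (fn h') (fn h') + c / ((n : ℝ) + 1)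
      - Bn a n (fn h) (fn h)|) (ω : Filter ℕ) (𝓝 |B h' h' + 0 - B h h|) :=
    (((B_tendsto h' h').add (tendsto_inv hg.le _)).sub (B_tendsto h h)).abs
  have l2 : Tendsto (fun n : ℕ => Real.sqrt (C1 / ((n : ℝ) + 1))) (ω : Filter ℕ) (𝓝 0) := by
    have := (Real.continuous_sqrt.tendsto 0).comp (tendsto_inv hg.le C1)
    rw [Real.sqrt_zero] at this
    exact this
  have h7 := le_of_tendsto_of_tendsto l1 l2 key
  have h8 : B h' h' + 0 - B h h = 0 := abs_nonpos_iff.mp h7
  linarith

lemma q_inv {K : ℝ} (hg : Good a ω K) (g : G) : ∀ h : HW a ω, B (tr ω g h) (tr ω g h) = B h h := by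
  have hmem : g ∈ Subgroup.closure (Set.range a) := by rw [hg.gen]; trivial
  refine Subgroup.closure_induction (p := fun g _ => ∀ h : HW a ω,
    B (tr ω g h) (tr ω g h) = B h h) ?_ ?_ ?_ ?_ hmem
  · rintro _ ⟨i, rfl⟩ h
    have := q_inv_gen hg (tr ω (a i) h) i
    rw [← tr_mul, inv_mul_cancel, tr_one] at this
    exact this.symm
  · intro h; rw [tr_one]
  · intro x y _ _ hx hy h
    rw [tr_mul, hx, hy]
  · intro x _ hx h
    have := hx (tr ω x⁻¹ h)
    rw [← tr_mul, mul_inv_cancel, tr_one] at this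
    exact this.symm

lemma B_inv {K : ℝ} (hg : Good a ω K) (g : G) (h k : HW a ω) :
    B (tr ω g h) (tr ω g k) = B h k := by
  have h1 := q_inv hg g (h + k)
  rw [tr_add, B_add_left, B_add_left, B_symm _ (tr ω g h + tr ω g k),
    B_symm _ (tr ω g h + tr ω g k), B_add_left, B_add_left, B_symm _ (h + k), B_symm _ (h + k),
    B_add_left, B_add_left, q_inv hg g h, q_inv hg g k, B_symm (tr ω g k) (tr ω g h),
    B_symm k h] at h1
  linarith

lemma eval_sq_le {K : ℝ} (hg : Good a ω K) (h : HW a ω) (i : ι) :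
    fn h (a i) ^ 2 ≤ 4 * K * B h h := by
  have := eval_sq_le_aux hg h i
  rw [q_inv hg] at this
  linarith

lemma incr_eq (h : HW a ω) (x : G) (i : ι) :
    fn h (x * a i) - fn h x = fn (tr ω x⁻¹ h) (a i) := by
  rw [fn_tr, inv_inv]

lemma B_def {K : ℝ} (hg : Good a ω K) (h : HW a ω) (h0 : B h h = 0) : h = 0 := by
  have h1 : ∀ x i, fn h (x * a i) = fn h x := by
    intro x i
    have h2 := eval_sq_le hg (tr ω x⁻¹ h) i
    rw [q_inv hg, h0, mul_zero, ← incr_eq] at h2
    have h3 : fn h (x * a i) - fn h x = 0 := by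
      have := le_antisymm h2 (sq_nonneg _)
      exact pow_eq_zero_iff (two_ne_zero) |>.mp this
    linarith
  have h2 : ∀ g : G, ∀ x, fn h (x * g) = fn h x := by
    intro g
    have hmem : g ∈ Subgroup.closure (Set.range a) := by rw [hg.gen]; trivial
    refine Subgroup.closure_induction (p := fun g _ => ∀ x, fn h (x * g) = fn h x) ?_ ?_ ?_ ?_ hmem
    · rintro _ ⟨i, rfl⟩ x; exact h1 x i
    · intro x; rw [mul_one]
    · intro u v _ _ hu hv x
      rw [← mul_assoc, hv, hu]
    · intro u _ hu x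
      have := hu (x * u⁻¹)
      rw [inv_mul_cancel_right] at this
      exact this.symm
  apply fn_ext
  intro x
  have := h2 x 1
  rw [one_mul, fn_one] at this
  rw [this, fn_zero]

/-- The inner product. -/
@[reducible] noncomputable def core {K : ℝ} (hg : Good a ω K) : InnerProductSpace.Core ℝ (HW a ω) where
  inner h k := B h k
  conj_inner_symm h k := by simp [B_symm k h]
  re_inner_nonneg h := by simpa using B_self_nonneg h
  add_left h h' k := B_add_left h h' k
  smul_left h k c := by simpa using B_smul_left c h k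
  definite h h0 := B_def hg h h0

lemma sum_eval_sq_le {K : ℝ} (hg : Good a ω K) {m : ℕ} (e : Fin m → HW a ω)
    (he : ∀ j k, B (e j) (e k) = if j = k then 1 else 0) (i : ι) :
    ∑ j, fn (e j) (a i) ^ 2 ≤ 4 * K := by
  classical
  set c : Fin m → ℝ := fun j => fn (e j) (a i) with hc
  set v : HW a ω := ∑ j, c j • e j with hv
  have B_sum_left : ∀ (s : Finset (Fin m)) (w : HW a ω),
      B (∑ j ∈ s, c j • e j) w = ∑ j ∈ s, c j * B (e j) w := by
    intro s w
    induction s using Finset.induction_on with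
    | empty =>
      simp only [Finset.sum_empty]
      have := B_smul_left (0 : ℝ) (0 : HW a ω) w
      simpa using this
    | insert j s hj ih => rw [Finset.sum_insert hj, B_add_left, B_smul_left, ih, Finset.sum_insert hj]
  have h1 : fn v (a i) = ∑ j, c j ^ 2 := by
    rw [hv, fn_sum]
    exact Finset.sum_congr rfl fun j _ => by rw [fn_smul]; ring
  have h2 : B v v = ∑ j, c j ^ 2 := by
    rw [hv, B_sum_left]
    refine Finset.sum_congr rfl fun j _ => ?_
    rw [B_symm, B_sum_left]
    simp_rw [he]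
    simp
    ring
  have h3 := eval_sq_le hg v i
  rw [h1, h2] at h3
  set σ := ∑ j, c j ^ 2 with hσ
  have hσ0 : 0 ≤ σ := Finset.sum_nonneg fun j _ => sq_nonneg _
  rcases hσ0.eq_or_lt with h | h
  · rw [← h]; have := hg.pos; positivity
  · have : σ * σ ≤ (4 * K) * σ := by nlinarith
    exact le_of_mul_le_mul_right this h

lemma card_le {K : ℝ} (hg : Good a ω K) {m : ℕ} (e : Fin m → HW a ω)
    (he : ∀ j k, B (e j) (e k) = if j = k then 1 else 0) : (m : ℝ) ≤ 4 * K := by
  classical
  have h1 : ∀ n : ℕ, ∑ j, Bn a n (fn (e j)) (fn (e j)) ≤ 4 * K := by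
    intro n
    have e1 : ∀ j, E a n (fun x => fn (e j) x * fn (e j) x)
        = ∑ k ∈ Finset.range n, E a k (fun x => avg fun i => (fn (e j) (x * a i) - fn (e j) x) ^ 2) := by
      intro j
      have := (fn_harm (e j)).E_sq n
      rw [fn_one] at this
      have e : (fun x => fn (e j) x ^ 2) = fun x => fn (e j) x * fn (e j) x := by ext x; ring
      rw [e] at this
      rw [this]; ring
    have e2 : ∀ k, ∑ j, E a k (fun x => avg fun i => (fn (e j) (x * a i) - fn (e j) x) ^ 2)
        ≤ 4 * K := by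
      intro k
      have e3 : ∑ j, E a k (fun x => avg fun i => (fn (e j) (x * a i) - fn (e j) x) ^ 2)
          = E a k (fun x => avg fun i => ∑ j, (fn (e j) (x * a i) - fn (e j) x) ^ 2) := by
        have : ∀ s : Finset (Fin m),
            ∑ j ∈ s, E a k (fun x => avg fun i => (fn (e j) (x * a i) - fn (e j) x) ^ 2)
            = E a k (fun x => avg fun i => ∑ j ∈ s, (fn (e j) (x * a i) - fn (e j) x) ^ 2) := by
          intro s
          induction s using Finset.induction_on with
          | empty => simp [E_const, avg_const]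
          | insert j s hj ih =>
            rw [Finset.sum_insert hj, ih, ← E_add]
            congr 1
            ext x
            rw [← avg_add]
            congr 1
            ext i
            rw [Finset.sum_insert hj]
        exact this Finset.univ
      rw [e3]
      calc _ ≤ E a k (fun _ => 4 * K) := by
            apply E_mono
            intro x
            calc _ ≤ avg (fun _ : ι => 4 * K) := by
                  apply avg_mono
                  intro i
                  simp_rw [incr_eq]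
                  apply sum_eval_sq_le hg (fun j => tr ω x⁻¹ (e j))
                  intro j k
                  rw [B_inv hg]
                  exact he j k
              _ = 4 * K := avg_const _
        _ = 4 * K := E_const a k _
    unfold Bn
    rw [← Finset.sum_div, div_le_iff₀ (by positivity)]
    simp_rw [e1]
    rw [Finset.sum_comm]
    calc _ ≤ ∑ k ∈ Finset.range n, 4 * K := Finset.sum_le_sum fun k _ => e2 k
      _ = n * (4 * K) := by simp
      _ ≤ 4 * K * ((n : ℝ) + 1) := by
        have := hg.pos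
        nlinarith
  have h2 : Tendsto (fun n : ℕ => ∑ j, Bn a n (fn (e j)) (fn (e j))) (ω : Filter ℕ)
      (𝓝 (∑ j, B (e j) (e j))) := tendsto_finsetSum _ fun j _ => B_tendsto (e j) (e j)
  have h3 := le_of_tendsto' h2 h1
  simpa [he] using h3

end Crest.Agent.R182.Gromov.Form
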