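import Crest.Agent.R182.GromovForm

/-!
R182, module GROMOV, block GQ, second part (helper203): finite dimension of the space of Lipschitz
harmonic functions and the isometric representation on it.
-/

set_option autoImplicit false
set_option linter.unusedSectionVars false
set_option linter.unusedSimpArgs false
set_option linter.style.haveILetI false

universe u

namespace Crest.Agent.R182.Gromov.Form

open Function Filter Topology Crest.Agent.R182.Gromov.Walk

section
variable {G : Type*} [Group G] {ι : Type*} [Fintype ι] [Nonempty ι]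
variable {a : ι → G} {ω : Ultrafilter ℕ}

theorem finite_dim {K : ℝ} (hg : Good a ω K) : Module.Finite ℝ (HW a ω) := by
  classical
  have hr : Module.rank ℝ (HW a ω) ≤ (⌊4 * K⌋₊ : ℕ) := by
    apply rank_le
    intro s hs
    let c := core hg
    letI : NormedAddCommGroup (HW a ω) := c.toNormedAddCommGroup
    letI : InnerProductSpace ℝ (HW a ω) := InnerProductSpace.ofCore c.toCore
    let f : Fin s.card → HW a ω := fun j => (s.equivFin.symm j : HW a ω)
    have hf : LinearIndependent ℝ f := hs.comp _ s.equivFin.symm.injective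
    have ho := InnerProductSpace.gramSchmidtNormed_orthonormal (𝕜 := ℝ) hf
    rw [orthonormal_iff_ite] at ho
    have hc := card_le hg (fun j => InnerProductSpace.gramSchmidtNormed ℝ f j) (fun j k => by
      have := ho j k
      exact this)
    exact Nat.le_floor hc
  exact Module.rank_lt_aleph0_iff.mp (lt_of_le_of_lt hr (Cardinal.natCast_lt_aleph0))

/-- Translation as a linear equivalence. -/
def trEquiv (ω : Ultrafilter ℕ) (g : G) : HW a ω ≃ₗ[ℝ] HW a ω where
  toFun := tr ω g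
  invFun := tr ω g⁻¹
  map_add' := tr_add g
  map_smul' := tr_smul g
  left_inv h := by rw [← tr_mul, inv_mul_cancel, tr_one]
  right_inv h := by rw [← tr_mul, mul_inv_cancel, tr_one]

end

variable {G : Type u} [Group G] {ι : Type*} [Fintype ι] [Nonempty ι]
variable {a : ι → G} {ω : Ultrafilter ℕ}

lemma const_of_finite_range (hgen : Subgroup.closure (Set.range a) = ⊤)
    (hsym : ∀ i, ∃ j, a j = (a i)⁻¹) {h : G → ℝ} (hh : Harm a h) (x₀ : G)
    (hmax : ∀ x, h x ≤ h x₀) : ∀ x, h x = h x₀ := by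
  have h1 : ∀ x, h x = h x₀ → ∀ i, h (x * a i) = h x₀ := by
    intro x hx i
    have e1 : avg (fun i => h x₀ - h (x * a i)) = 0 := by
      rw [avg_sub, avg_const, hh x, hx, sub_self]
    have e2 := le_card_mul_avg (F := fun i => h x₀ - h (x * a i))
      (fun i => sub_nonneg.mpr (hmax _)) i
    rw [e1, mul_zero] at e2
    have := hmax (x * a i)
    linarith
  have h2 : ∀ g : G, (∀ x, h x = h x₀ → h (x * g) = h x₀) ∧
      (∀ x, h x = h x₀ → h (x * g⁻¹) = h x₀) := by
    intro g
    have hmem : g ∈ Subgroup.closure (Set.range a) := by rw [hgen]; trivial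
    refine Subgroup.closure_induction (p := fun g _ => (∀ x, h x = h x₀ → h (x * g) = h x₀) ∧
      (∀ x, h x = h x₀ → h (x * g⁻¹) = h x₀)) ?_ ?_ ?_ ?_ hmem
    · rintro _ ⟨i, rfl⟩
      refine ⟨fun x hx => h1 x hx i, fun x hx => ?_⟩
      obtain ⟨j, hj⟩ := hsym i
      rw [← hj]
      exact h1 x hx j
    · simp
    · rintro u v _ _ ⟨hu, hu'⟩ ⟨hv, hv'⟩
      refine ⟨fun x hx => ?_, fun x hx => ?_⟩
      · rw [← mul_assoc]; exact hv _ (hu _ hx)
      · rw [mul_inv_rev, ← mul_assoc]; exact hu' _ (hv' _ hx)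
    · rintro u _ ⟨hu, hu'⟩
      exact ⟨hu', by simpa using hu⟩
  intro x
  have := (h2 (x₀⁻¹ * x)).1 x₀ rfl
  rwa [mul_inv_cancel_left] at this

/-- The algebraic part: a vector fixed by a finite-index subgroup is a homomorphism there. -/
theorem hom_of_fixed (hgen : Subgroup.closure (Set.range a) = ⊤)
    (hsym : ∀ i, ∃ j, a j = (a i)⁻¹) (h : HW a ω) (hh : h ≠ 0) (G1 : Subgroup G)
    (hfi : G1.FiniteIndex) (htriv : ∀ g ∈ G1, tr ω g h = h) :
    ∃ f : G1 →* Multiplicative ℝ, f ≠ 1 := by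
  classical
  have hadd : ∀ g ∈ G1, ∀ x, fn h (g * x) = fn h g + fn h x := by
    intro g hgm x
    have h2 := htriv g⁻¹ (G1.inv_mem hgm)
    have h3 := congrArg (fun k => fn k x) h2
    simp only [fn_tr, inv_inv] at h3
    linarith
  let f : G1 →* Multiplicative ℝ :=
    { toFun := fun g => Multiplicative.ofAdd (fn h (g : G))
      map_one' := by simp [fn_one]
      map_mul' := fun g k => by
        rw [← ofAdd_add, Subgroup.coe_mul, hadd g g.2] }
  refine ⟨f, fun hf => hh ?_⟩
  have hzero : ∀ g ∈ G1, fn h g = 0 := by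
    intro g hgm
    have := DFunLike.congr_fun hf (⟨g, hgm⟩ : G1)
    exact this
  -- `h` is invariant under left multiplication by `G1`
  have hinv : ∀ g ∈ G1, ∀ x, fn h (g * x) = fn h x := by
    intro g hgm x
    rw [hadd g hgm, hzero g hgm, zero_add]
  have hfin : Finite (G ⧸ G1) := inferInstance
  let φ : G ⧸ G1 → ℝ := fun q => Quotient.liftOn' q (fun y => fn h y⁻¹) (by
    intro y z hyz
    have h1 : y⁻¹ * z ∈ G1 := QuotientGroup.leftRel_apply.mp hyz
    have h2 := hinv (y⁻¹ * z) h1 z⁻¹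
    rwa [mul_inv_cancel_right] at h2)
  have hφ : ∀ y : G, φ (y : G ⧸ G1) = fn h y⁻¹ := fun y => rfl
  obtain ⟨q₀, hq₀⟩ := Finite.exists_max φ
  obtain ⟨y₀, rfl⟩ := QuotientGroup.mk_surjective q₀
  have hmax : ∀ x, fn h x ≤ fn h y₀⁻¹ := by
    intro x
    have := hq₀ ((x⁻¹ : G) : G ⧸ G1)
    rwa [hφ, hφ, inv_inv] at this
  have hconst := const_of_finite_range hgen hsym (fn_harm h) y₀⁻¹ hmax
  apply fn_ext
  intro x
  rw [hconst x, ← hconst 1, fn_one, fn_zero]

/-- The analytic part, in abstract form. -/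
theorem rep_of_core {V : Type u} [AddCommGroup V] [Module ℝ V] (c : InnerProductSpace.Core ℝ V)
    (hfd : Module.Finite ℝ V) (T : G → V ≃ₗ[ℝ] V) (T1 : ∀ x, T 1 x = x)
    (Tmul : ∀ g h x, T (g * h) x = T g (T h x))
    (Tinner : ∀ g x y, c.inner (T g x) (T g y) = c.inner x y) :
    ∃ (W : Type u) (_ : NormedAddCommGroup W) (_ : InnerProductSpace ℝ W)
      (_ : FiniteDimensional ℝ W) (ρ : G →* (W ≃ₗᵢ[ℝ] W)) (e : W ≃ V),
      ∀ g x, e (ρ g x) = T g (e x) := by
  letI i1 : NormedAddCommGroup V := c.toNormedAddCommGroup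
  letI i2 : InnerProductSpace ℝ V := InnerProductSpace.ofCore c.toCore
  let ρ : G →* (V ≃ₗᵢ[ℝ] V) :=
    { toFun := fun g => (T g).isometryOfInner (fun x y => Tinner g x y)
      map_one' := LinearIsometryEquiv.ext fun x => T1 x
      map_mul' := fun g h => LinearIsometryEquiv.ext fun x => Tmul g h x }
  exact ⟨V, i1, i2, hfd, ρ, Equiv.refl V, fun g x => rfl⟩

theorem rep_of_good {K : ℝ} (hg : Good a ω K) (hsym : ∀ i, ∃ j, a j = (a i)⁻¹)
    (hne : ∃ h : HW a ω, h ≠ 0) :
    ∃ (W : Type u) (_ : NormedAddCommGroup W) (_ : InnerProductSpace ℝ W)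
      (_ : FiniteDimensional ℝ W) (ρ : G →* (W ≃ₗᵢ[ℝ] W)),
      ∀ G1 : Subgroup G, G1.FiniteIndex → (∀ g ∈ G1, ρ g = 1) →
        ∃ f : G1 →* Multiplicative ℝ, f ≠ 1 := by
  obtain ⟨W, i1, i2, i3, ρ, e, he⟩ := rep_of_core (G := G) (V := HW a ω) (core hg) (finite_dim hg)
    (fun g => trEquiv ω g) (fun x => tr_one x) (fun g h x => tr_mul g h x)
    (fun g x y => B_inv hg g x y)
  refine ⟨W, i1, i2, i3, ρ, fun G1 hfi htriv => ?_⟩
  obtain ⟨h, hh⟩ := hne
  refine hom_of_fixed hg.gen hsym h hh G1 hfi fun g hgm => ?_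
  have h1 := he g (e.symm h)
  rw [htriv g hgm, Equiv.apply_symm_apply] at h1
  have h2 : e ((1 : W ≃ₗᵢ[ℝ] W) (e.symm h)) = h := by
    rw [show (1 : W ≃ₗᵢ[ℝ] W) (e.symm h) = e.symm h from rfl, Equiv.apply_symm_apply]
  rw [h2] at h1
  exact h1.symm

end Crest.Agent.R182.Gromov.Form
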