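/-
R182, module GROMOV: the closed theorems.
A finitely generated group of polynomial growth is virtually polycyclic.
-/
import Mathlib
import Crest.Agent.R182.GromovFinal
import Crest.Agent.R182.GromovExist
import Crest.Agent.R182.GromovEntropy
import Crest.Agent.R182.GromovForm
import Crest.Agent.R182.GromovRep
import Crest.Agent.R182.GromovCompact

set_option autoImplicit false

namespace Crest.Agent.R182.GromovMain

open Crest.GroupTheory Crest.Agent.R182.Gromov Crest.Agent.R182.GromovFinal

universe u

open Crest.Agent.R182.Gromov.Walk Crest.Agent.R182.Gromov.Exist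
  Crest.Agent.R182.Gromov.Form in
theorem harmonicRep : HarmonicRep.{u} := by
  intro G _ _ hfg l C d hl
  classical
  obtain ⟨S, hS, hSf⟩ := Group.fg_iff.1 hfg
  let T : Finset G := hSf.toFinset ∪ (hSf.toFinset.image fun x => x⁻¹) ∪ {1}
  have h1T : (1 : G) ∈ T := by simp [T]
  have hinvT : ∀ x ∈ T, x⁻¹ ∈ T := by
    intro x hx
    simp only [T, Finset.mem_union, Finset.mem_image, Finset.mem_singleton] at hx ⊢
    rcases hx with (hx | ⟨y, hy, rfl⟩) | rfl
    · exact Or.inl (Or.inr ⟨x, hx, rfl⟩)
    · left; left; rwa [inv_inv]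
    · right; simp
  have hST : S ⊆ (T : Set G) := by
    intro x hx
    simp only [T, Finset.coe_union, Finset.coe_image, Finset.coe_singleton, Set.Finite.coe_toFinset]
    exact Or.inl (Or.inl hx)
  let a : T → G := fun x => x
  have : Nonempty T := ⟨⟨1, h1T⟩⟩
  have hgen : Subgroup.closure (Set.range a) = ⊤ := by
    have : Set.range a = (T : Set G) := Subtype.range_coe
    rw [this, eq_top_iff, ← hS]
    exact Subgroup.closure_mono hST
  let inv : T ≃ T :=
    { toFun := fun x => ⟨(x : G)⁻¹, hinvT x x.2⟩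
      invFun := fun x => ⟨(x : G)⁻¹, hinvT x x.2⟩
      left_inv := fun x => Subtype.ext (inv_inv _)
      right_inv := fun x => Subtype.ext (inv_inv _) }
  have hsymF : SymFam a := by
    intro F
    unfold avg
    congr 1
    exact Equiv.sum_comp inv (fun i => F (a i))
  have hsym : ∀ i, ∃ j, a j = (a i)⁻¹ := fun i => ⟨inv i, rfl⟩
  obtain ⟨K, hK, hgood⟩ := Ent.exists_good hl a (i₀ := ⟨1, h1T⟩) rfl
  have hfreq : ∃ᶠ n in Filter.atTop, ∀ i, D a n (a i) ≤ K / (n + 1) := by
    rw [Filter.frequently_atTop]
    exact hgood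
  have hne : (Filter.atTop ⊓ Filter.principal {n | ∀ i, D a n (a i) ≤ K / (n + 1)}).NeBot :=
    Filter.frequently_iff_neBot.1 hfreq
  obtain ⟨ω, hω⟩ := Ultrafilter.exists_le
    (Filter.atTop ⊓ Filter.principal {n | ∀ i, D a n (a i) ≤ K / (n + 1)})
  have hg : Good a ω K :=
    { le := hω.trans inf_le_left
      bd := (hω.trans inf_le_right) (Filter.mem_principal_self _)
      gen := hgen
      pos := hK }
  obtain ⟨h, hh1, hh2, hh3, x, hx⟩ := exists_harm hsymF hgen hl
  refine rep_of_good hg hsym ⟨mk ω h hh1 ⟨1, hh2⟩ hh3, fun h0 => hx ?_⟩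
  have h4 := congrArg (fun k => fn k x) h0
  simpa [fn_mk, fn_zero] using h4

theorem compactPart : CompactPart.{u} := by
  intro G _ _ l C d hl W _ _ _ ρ
  exact Gromov.Compact.compact_part hl ρ

/-- **Gromov's theorem** (polycyclic version), for groups with a polynomial length function. -/
theorem gromov {G : Type u} [Group G] (hfg : Group.FG G) {l : G → ℕ} {C d : ℕ}
    (hl : PolyLen l C d) : IsVirtuallyPolycyclic G :=
  GromovFinal.gromov harmonicRep compactPart d G hfg l C hl

/-- **Gromov's theorem** in terms of word balls. -/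
theorem gromov_wordLength {G : Type u} [Group G] (S : Finset G)
    (hS : Subgroup.closure (S : Set G) = ⊤) (C d : ℕ)
    (h : ∀ n : ℕ, 1 ≤ n → {g : G | wordLength (S : Set G) g ≤ n}.ncard ≤ C * n ^ d) :
    IsVirtuallyPolycyclic G :=
  GromovFinal.gromov_wordLength harmonicRep compactPart S hS C d h

end Crest.Agent.R182.GromovMain
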