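/-
R182, module POLYC (PC1): closure properties of polycyclic and virtually polycyclic groups.
-/
import Mathlib
import Crest.Prelude.Def_Polycyclic

set_option autoImplicit false

namespace Crest.Agent.R182.Polyc

open Subgroup Crest.GroupTheory

/-- `PC N`: the subgroup `N` has a finite subnormal series from `⊥` with cyclic factors. -/
inductive PC {G : Type*} [Group G] : Subgroup G → Prop
  | bot : PC ⊥
  | step {N M : Subgroup G} (hN : PC N) (hle : N ≤ M)
      (hnorm : ∀ h ∈ M, ∀ x ∈ N, h * x * h⁻¹ ∈ N) (g : G) (hg : g ∈ M)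
      (hM : M = N ⊔ zpowers g) : PC M

section

variable {G : Type*} [Group G]

theorem PC.ofSeries {n : ℕ} (H : Fin (n + 1) → Subgroup G) (h0 : H 0 = ⊥)
    (hs : ∀ i : Fin n,
      H i.castSucc ≤ H i.succ ∧
      (∀ h ∈ H i.succ, ∀ x ∈ H i.castSucc, h * x * h⁻¹ ∈ H i.castSucc) ∧
      ∃ g ∈ H i.succ, H i.succ = H i.castSucc ⊔ Subgroup.zpowers g) (i : Fin (n + 1)) :
    PC (H i) := by
  induction i using Fin.induction with
  | zero => rw [h0]; exact PC.bot
  | succ i ih =>
    obtain ⟨h1, h2, g, hg, h3⟩ := hs i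
    exact PC.step ih h1 h2 g hg h3

theorem PC.exists_series {N : Subgroup G} (hN : PC N) :
    ∃ (n : ℕ) (H : Fin (n + 1) → Subgroup G),
    H 0 = ⊥ ∧ H (Fin.last n) = N ∧
    ∀ i : Fin n,
      H i.castSucc ≤ H i.succ ∧
      (∀ h ∈ H i.succ, ∀ x ∈ H i.castSucc, h * x * h⁻¹ ∈ H i.castSucc) ∧
      ∃ g ∈ H i.succ, H i.succ = H i.castSucc ⊔ Subgroup.zpowers g := by
  induction hN with
  | bot => exact ⟨0, fun _ => ⊥, rfl, rfl, fun i => i.elim0⟩
  | @step N M hN hle hnorm g hg hM ih =>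
    obtain ⟨n, H, h0, hl, hs⟩ := ih
    refine ⟨n + 1, Fin.snoc H M, ?_, ?_, ?_⟩
    · have : (0 : Fin (n + 1 + 1)) = Fin.castSucc (0 : Fin (n + 1)) := rfl
      rw [this, Fin.snoc_castSucc, h0]
    · rw [Fin.snoc_last]
    · intro i
      induction i using Fin.lastCases with
      | last =>
        rw [Fin.snoc_castSucc, Fin.succ_last, Fin.snoc_last, hl]
        exact ⟨hle, hnorm, g, hg, hM⟩
      | cast i =>
        rw [Fin.snoc_castSucc, Fin.succ_castSucc, Fin.snoc_castSucc]
        exact hs i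

theorem isPolycyclic_iff : IsPolycyclic G ↔ PC (⊤ : Subgroup G) := by
  constructor
  · rintro ⟨n, H, h0, hl, hs⟩
    rw [← hl]
    exact PC.ofSeries H h0 hs _
  · intro h
    exact h.exists_series

/-- membership in `N ⊔ zpowers g` when `g` normalises `N`. -/
theorem mem_sup_zpowers {N : Subgroup G} {g : G} (hN : ∀ x ∈ N, g * x * g⁻¹ ∈ N)
    (hN' : ∀ x ∈ N, g⁻¹ * x * g ∈ N) {x : G} :
    x ∈ N ⊔ zpowers g ↔ ∃ n ∈ N, ∃ i : ℤ, x = n * g ^ i := by
  have hnat : ∀ k : ℕ, ∀ x ∈ N, g ^ k * x * (g ^ k)⁻¹ ∈ N := by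
    intro k
    induction k with
    | zero => intro x hx; simpa using hx
    | succ k ih =>
      intro x hx
      have := ih _ (hN x hx)
      have e : g ^ (k + 1) * x * (g ^ (k + 1))⁻¹ = g ^ k * (g * x * g⁻¹) * (g ^ k)⁻¹ := by
        rw [pow_succ]; group
      rw [e]; exact this
  have hnat' : ∀ k : ℕ, ∀ x ∈ N, (g ^ k)⁻¹ * x * g ^ k ∈ N := by
    intro k
    induction k with
    | zero => intro x hx; simpa using hx
    | succ k ih =>
      intro x hx
      have := hN' _ (ih _ hx)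
      have e : (g ^ (k + 1))⁻¹ * x * g ^ (k + 1) = g⁻¹ * ((g ^ k)⁻¹ * x * g ^ k) * g := by
        rw [pow_succ]; group
      rw [e]; exact this
  have hint : ∀ i : ℤ, ∀ x ∈ N, g ^ i * x * (g ^ i)⁻¹ ∈ N := by
    intro i x hx
    obtain ⟨k, rfl | rfl⟩ := i.eq_nat_or_neg
    · simpa using hnat k x hx
    · simpa using hnat' k x hx
  constructor
  · intro hx
    rw [sup_eq_closure, ] at hx
    induction hx using Subgroup.closure_induction with
    | mem x hx =>
      rcases hx with hx | hx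
      · exact ⟨x, hx, 0, by simp⟩
      · obtain ⟨i, rfl⟩ := mem_zpowers_iff.mp hx
        exact ⟨1, N.one_mem, i, by simp⟩
    | one => exact ⟨1, N.one_mem, 0, by simp⟩
    | mul x y _ _ hx hy =>
      obtain ⟨n, hn, i, rfl⟩ := hx
      obtain ⟨m, hm, j, rfl⟩ := hy
      refine ⟨n * (g ^ i * m * (g ^ i)⁻¹), N.mul_mem hn (hint i m hm), i + j, ?_⟩
      rw [zpow_add]; group
    | inv x _ hx =>
      obtain ⟨n, hn, i, rfl⟩ := hx
      refine ⟨g ^ (-i) * n⁻¹ * (g ^ (-i))⁻¹, hint (-i) _ (N.inv_mem hn), -i, ?_⟩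
      group
  · rintro ⟨n, hn, i, rfl⟩
    exact mul_mem ((le_sup_left : N ≤ _) hn) ((le_sup_right : zpowers g ≤ _) (zpow_mem (mem_zpowers g) i))

theorem mem_of_step {N M : Subgroup G} (hnorm : ∀ h ∈ M, ∀ x ∈ N, h * x * h⁻¹ ∈ N) {g : G}
    (hg : g ∈ M) (hM : M = N ⊔ zpowers g) {x : G} :
    x ∈ M ↔ ∃ n ∈ N, ∃ i : ℤ, x = n * g ^ i := by
  have h1 : ∀ x ∈ N, g * x * g⁻¹ ∈ N := fun x hx => hnorm g hg x hx
  have h2 : ∀ x ∈ N, g⁻¹ * x * g ∈ N := fun x hx => by
    have := hnorm g⁻¹ (M.inv_mem hg) x hx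
    simpa using this
  conv_lhs => rw [hM]
  exact mem_sup_zpowers h1 h2

/-- Main closure lemma (steps): pulling back one cyclic step along any homomorphism. -/
theorem comap_step {G' : Type*} [Group G'] (f : G' →* G) {N M : Subgroup G}
    (hnorm : ∀ h ∈ M, ∀ x ∈ N, h * x * h⁻¹ ∈ N) {g : G}
    (hg : g ∈ M) (hM : M = N ⊔ zpowers g) :
    ∃ k ∈ M.comap f, M.comap f = N.comap f ⊔ zpowers k := by
  have hle : N ≤ M := by rw [hM]; exact le_sup_left
  have hmem := fun x => mem_of_step hnorm hg hM (x := x)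
  have hinv : ∀ h ∈ M, ∀ x ∈ N, h⁻¹ * x * h ∈ N := fun h hh x hx => by
    have := hnorm h⁻¹ (M.inv_mem hh) x hx
    simpa using this
  -- exponents
  let I : AddSubgroup ℤ :=
    { carrier := {i | ∃ k : G', f k * g ^ (-i) ∈ N}
      zero_mem' := ⟨1, by simp⟩
      add_mem' := by
        rintro i j ⟨k, hk⟩ ⟨l, hl⟩
        refine ⟨k * l, ?_⟩
        have e : f (k * l) * g ^ (-(i + j)) =
            (f k * (f l * g ^ (-j)) * (f k)⁻¹) * (f k * g ^ (-i)) := by
          rw [map_mul, neg_add_rev, zpow_add]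
          group
        have hkM : f k ∈ M := by
          have : f k = (f k * g ^ (-i)) * g ^ i := by group
          rw [this]
          exact M.mul_mem (hle hk) (M.zpow_mem hg i)
        rw [e]
        exact N.mul_mem (hnorm _ hkM _ hl) hk
      neg_mem' := by
        rintro i ⟨k, hk⟩
        refine ⟨k⁻¹, ?_⟩
        have hkM : f k ∈ M := by
          have : f k = (f k * g ^ (-i)) * g ^ i := by group
          rw [this]
          exact M.mul_mem (hle hk) (M.zpow_mem hg i)
        have e : f k⁻¹ * g ^ (-(-i)) = (f k)⁻¹ * (f k * g ^ (-i))⁻¹ * f k := by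
          rw [map_inv]; group
        rw [e]
        exact hinv _ hkM _ (N.inv_mem hk) }
  obtain ⟨d, hd⟩ := Int.subgroup_cyclic I
  have hdI : d ∈ I := by
    rw [hd]; exact AddSubgroup.mem_closure_singleton.mpr ⟨1, by simp⟩
  obtain ⟨k, hk⟩ := hdI
  have hkM : f k ∈ M := by
    have : f k = (f k * g ^ (-d)) * g ^ d := by group
    rw [this]
    exact M.mul_mem (hle hk) (M.zpow_mem hg d)
  refine ⟨k, hkM, ?_⟩
  apply le_antisymm
  · intro x hx
    have hx' : f x ∈ M := hx
    obtain ⟨n, hn, i, hi⟩ := (hmem _).mp hx'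
    have hiI : i ∈ I := ⟨x, by rw [hi]; simpa using hn⟩
    rw [hd, AddSubgroup.mem_closure_singleton] at hiI
    obtain ⟨j, rfl⟩ := hiI
    have hxk : x * k ^ (-j) ∈ N.comap f := by
      change f (x * k ^ (-j)) ∈ N
      -- f k = n₀ g^d; work modulo N
      have key : ∀ j : ℕ, (f k) ^ j * (g ^ (d * j))⁻¹ ∈ N := by
        intro j
        induction j with
        | zero => simp
        | succ j ih =>
          have e : f k ^ (j + 1) * (g ^ (d * ((j + 1 : ℕ) : ℤ)))⁻¹ =
              (f k * (f k ^ j * (g ^ (d * j))⁻¹) * (f k)⁻¹) * (f k * g ^ (-d)) := by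
            have e1 : d * ((j + 1 : ℕ) : ℤ) = d * j + d := by push_cast; ring
            rw [e1, zpow_add, pow_succ']
            group
          rw [e]
          exact N.mul_mem (hnorm _ hkM _ ih) hk
      have key' : ∀ j : ℤ, (f k) ^ j * (g ^ (d * j))⁻¹ ∈ N := by
        intro j
        obtain ⟨m, rfl | rfl⟩ := j.eq_nat_or_neg
        · simpa using key m
        · have h1 := N.inv_mem (key m)
          have h2 := hinv _ (M.pow_mem hkM m) _ h1
          have e : f k ^ (-(m : ℤ)) * (g ^ (d * -(m : ℤ)))⁻¹ =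
              (f k ^ m)⁻¹ * (f k ^ m * (g ^ (d * m))⁻¹)⁻¹ * f k ^ m := by
            rw [mul_neg, zpow_neg, zpow_neg, zpow_natCast]
            group
          rw [e]; exact h2
      have h3 := key' j
      rw [map_mul, hi, map_zpow]
      have e : n * g ^ (j • d) * f k ^ (-j) = n * ((f k) ^ j * (g ^ (d * j))⁻¹)⁻¹ := by
        rw [smul_eq_mul, mul_comm j d]; group
      rw [e]
      exact N.mul_mem hn (N.inv_mem h3)
    have : x = (x * k ^ (-j)) * k ^ j := by group
    rw [this]
    exact mul_mem ((le_sup_left : N.comap f ≤ _) hxk)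
      ((le_sup_right : zpowers k ≤ _) (zpow_mem (mem_zpowers k) j))
  · refine sup_le (Subgroup.comap_mono hle) ?_
    rw [zpowers_le]; exact hkM

theorem PC.comap {G' : Type*} [Group G'] (f : G' →* G) (hk : PC f.ker) {N : Subgroup G}
    (hN : PC N) : PC (N.comap f) := by
  induction hN with
  | bot => rwa [MonoidHom.comap_bot]
  | @step N M hN hle hnorm g hg hM ih =>
    obtain ⟨k, hk1, hk2⟩ := comap_step f hnorm hg hM
    refine PC.step ih (Subgroup.comap_mono hle) ?_ k hk1 hk2
    intro h hh x hx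
    change f (h * x * h⁻¹) ∈ N
    rw [map_mul, map_mul, map_inv]
    exact hnorm _ hh _ hx

theorem PC.map {G' : Type*} [Group G'] (f : G →* G') {N : Subgroup G}
    (hN : PC N) : PC (N.map f) := by
  induction hN with
  | bot => rw [Subgroup.map_bot]; exact PC.bot
  | @step N M hN hle hnorm g hg hM ih =>
    refine PC.step ih (Subgroup.map_mono hle) ?_ (f g) ⟨g, hg, rfl⟩ ?_
    · rintro _ ⟨h, hh, rfl⟩ _ ⟨x, hx, rfl⟩
      exact ⟨h * x * h⁻¹, hnorm _ hh _ hx, by simp⟩
    · conv_lhs => rw [hM]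
      rw [Subgroup.map_sup, MonoidHom.map_zpowers]

theorem PC.comap_injective {G' : Type*} [Group G'] {f : G' →* G} (hf : Function.Injective f)
    {N : Subgroup G} (hN : PC N) : PC (N.comap f) := by
  apply PC.comap f _ hN
  rw [(MonoidHom.ker_eq_bot_iff f).mpr hf]
  exact PC.bot

theorem pc_top_iff {N : Subgroup G} : PC (⊤ : Subgroup N) ↔ PC N := by
  constructor
  · intro h
    have := h.map N.subtype
    rwa [← MonoidHom.range_eq_map, Subgroup.range_subtype] at this
  · intro h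
    have := h.comap_injective N.subtype_injective
    rwa [← Subgroup.subgroupOf, Subgroup.subgroupOf_self] at this

theorem PC.mono {K N : Subgroup G} (hN : PC N) (h : K ≤ N) : PC K := by
  rw [← pc_top_iff]
  have := hN.comap_injective K.subtype_injective
  rwa [← Subgroup.subgroupOf, Subgroup.subgroupOf_eq_top.mpr h] at this

theorem PC.fg {N : Subgroup G} (hN : PC N) : N.FG := by
  induction hN with
  | bot => exact ⟨∅, by simp⟩
  | @step N M hN hle hnorm g hg hM ih =>
    rw [hM]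
    exact ih.sup ⟨{g}, by simp [zpowers_eq_closure]⟩

theorem PC.isSolvable {N : Subgroup G} (hN : PC N) : Group.IsSolvable N := by
  induction hN with
  | bot => infer_instance
  | @step N M hN hle hnorm g hg hM ih =>
    have hn : (N.subgroupOf M).Normal := by
      constructor
      intro x hx h
      exact hnorm h h.2 x hx
    have hcomm : ⁅(⊤ : Subgroup M), ⊤⁆ ≤ N.subgroupOf M := by
      rw [Subgroup.commutator_le]
      intro x _ y _
      obtain ⟨n, hnn, i, hx⟩ := (mem_of_step hnorm hg hM).mp x.2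
      obtain ⟨m, hm, j, hy⟩ := (mem_of_step hnorm hg hM).mp y.2
      -- x = n g^i, y = m g^j
      have : (x : G) * y * (x : G)⁻¹ * (y : G)⁻¹ ∈ N := by
        have hN1 : (g ^ i * m * (g ^ i)⁻¹) ∈ N := hnorm _ (M.zpow_mem hg i) _ hm
        have hN2 : (g ^ j * n⁻¹ * (g ^ j)⁻¹) ∈ N :=
          hnorm _ (M.zpow_mem hg j) _ (N.inv_mem hnn)
        have e : (x : G) * y * (x : G)⁻¹ * (y : G)⁻¹ =
            n * (g ^ i * m * (g ^ i)⁻¹) * (g ^ j * n⁻¹ * (g ^ j)⁻¹) * m⁻¹ := by
          rw [hx, hy]; group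
        rw [e]
        exact N.mul_mem (N.mul_mem (N.mul_mem hnn hN1) hN2) (N.inv_mem hm)
      exact this
    have hs : Group.IsSolvable (N.subgroupOf M) := by
      have := ih
      exact Group.isSolvable_of_isSolvable_injective (f := (Subgroup.subgroupOfEquivOfLe hle).toMonoidHom)
        (Subgroup.subgroupOfEquivOfLe hle).injective
    have : Group.IsSolvable (M ⧸ N.subgroupOf M) := by
      apply Group.isSolvable_of_comm
      intro a b
      induction a using QuotientGroup.induction_on with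
      | H a =>
      induction b using QuotientGroup.induction_on with
      | H b =>
      rw [← QuotientGroup.mk_mul, ← QuotientGroup.mk_mul, QuotientGroup.eq]
      have h1 : b⁻¹ * a⁻¹ * (b⁻¹)⁻¹ * (a⁻¹)⁻¹ ∈ ⁅(⊤ : Subgroup M), ⊤⁆ :=
        Subgroup.commutator_mem_commutator (mem_top _) (mem_top _)
      have e : (a * b)⁻¹ * (b * a) = b⁻¹ * a⁻¹ * (b⁻¹)⁻¹ * (a⁻¹)⁻¹ := by
        group
      rw [e]; exact hcomm h1
    exact Group.isSolvable_of_ker_le_range (N.subgroupOf M).subtype (QuotientGroup.mk' (N.subgroupOf M))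
      (by simp)

end

end Crest.Agent.R182.Polyc
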