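/-
R182, module POLYC (PC1, second part): virtually polycyclic groups, closure under subgroups,
quotients, finite-index overgroups and extensions; f.g. (virtually) nilpotent groups.
-/
import Mathlib
import Crest.Agent.R182.PolycBasic

set_option autoImplicit false

namespace Crest.Agent.R182.Polyc

open Subgroup Crest.GroupTheory

section

variable {G : Type*} [Group G]

/-- index is finite when there is a "coset respecting" map which is onto modulo `Q`. -/
theorem index_ne_zero_of_map {A B : Type*} [Group A] [Group B] (P : Subgroup A) (Q : Subgroup B)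
    (φ : A → B) (h1 : ∀ a b, a⁻¹ * b ∈ P → (φ a)⁻¹ * φ b ∈ Q)
    (h2 : ∀ b, ∃ a, (φ a)⁻¹ * b ∈ Q) (hP : P.index ≠ 0) : Q.index ≠ 0 := by
  have hfin : Finite (A ⧸ P) := Subgroup.index_ne_zero_iff_finite.mp hP
  let ψ : A ⧸ P → B ⧸ Q := Quotient.lift (fun a => (φ a : B ⧸ Q)) (by
    intro a b hab
    rw [QuotientGroup.eq]
    exact h1 a b (QuotientGroup.leftRel_apply.mp hab))
  have : Finite (B ⧸ Q) := by
    refine Finite.of_surjective ψ ?_
    intro b
    induction b using QuotientGroup.induction_on with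
    | H b =>
      obtain ⟨a, ha⟩ := h2 b
      exact ⟨(a : A ⧸ P), QuotientGroup.eq.mpr ha⟩
  exact Subgroup.index_ne_zero_of_finite

/-- In a finitely generated group every finite-index subgroup contains a characteristic
finite-index subgroup. -/
theorem exists_characteristic_le [Group.FG G] (P : Subgroup G) (hP : P.index ≠ 0) :
    ∃ C : Subgroup G, C.Characteristic ∧ C.index ≠ 0 ∧ C ≤ P := by
  classical
  have hfin : Finite (G ⧸ P) := Subgroup.index_ne_zero_iff_finite.mp hP
  have hfinP : Finite (Equiv.Perm (G ⧸ P)) := inferInstance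
  obtain ⟨S, hS⟩ := (Group.fg_def (G := G)).mp inferInstance
  have hι : Finite (G →* Equiv.Perm (G ⧸ P)) := by
    refine Finite.of_injective (fun f => fun s : S => f (s : G)) ?_
    intro f g hfg
    apply MonoidHom.eq_of_eqOn_dense (s := (S : Set G)) hS
    intro s hs
    exact congrFun hfg ⟨s, hs⟩
  refine ⟨⨅ f : G →* Equiv.Perm (G ⧸ P), f.ker, ?_, ?_, ?_⟩
  · rw [Subgroup.characteristic_iff_le_comap]
    intro φ x hx
    rw [Subgroup.mem_comap, Subgroup.mem_iInf]
    intro f
    have := (Subgroup.mem_iInf.mp hx) (f.comp φ.toMonoidHom)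
    exact this
  · apply Subgroup.index_iInf_ne_zero
    intro f
    rw [Subgroup.index_ker]
    exact Nat.card_pos.ne'
  · refine (iInf_le _ (MulAction.toPermHom G (G ⧸ P))).trans ?_
    rw [← Subgroup.normalCore_eq_ker]
    exact Subgroup.normalCore_le P

/-- `VPC N`: the subgroup `N` is virtually polycyclic. -/
def VPC (N : Subgroup G) : Prop := ∃ P : Subgroup G, P ≤ N ∧ PC P ∧ P.relIndex N ≠ 0

theorem isVirtuallyPolycyclic_iff : IsVirtuallyPolycyclic G ↔ VPC (⊤ : Subgroup G) := by
  constructor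
  · rintro ⟨P, h1, h2⟩
    refine ⟨P, le_top, pc_top_iff.mp (isPolycyclic_iff.mp h2), ?_⟩
    rw [Subgroup.relIndex_top_right]
    exact h1.index_ne_zero
  · rintro ⟨P, -, h1, h2⟩
    rw [Subgroup.relIndex_top_right] at h2
    exact ⟨P, ⟨h2⟩, isPolycyclic_iff.mpr (pc_top_iff.mpr h1)⟩

theorem PC.vpc {N : Subgroup G} (h : PC N) : VPC N :=
  ⟨N, le_rfl, h, by rw [Subgroup.relIndex_self]; exact one_ne_zero⟩

theorem VPC.mono {K N : Subgroup G} (hN : VPC N) (h : K ≤ N) : VPC K := by
  obtain ⟨P, h1, h2, h3⟩ := hN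
  refine ⟨P ⊓ K, inf_le_right, h2.mono inf_le_left, ?_⟩
  rw [Subgroup.inf_relIndex_right]
  intro h0
  exact h3 (Subgroup.relIndex_eq_zero_of_le_right h h0)

theorem VPC.of_relIndex {P N : Subgroup G} (hP : VPC P) (hPN : P ≤ N)
    (h : P.relIndex N ≠ 0) : VPC N := by
  obtain ⟨Q, h1, h2, h3⟩ := hP
  exact ⟨Q, h1.trans hPN, h2, Subgroup.relIndex_ne_zero_trans h3 h⟩

theorem VPC.fg {N : Subgroup G} (hN : VPC N) : N.FG := by
  obtain ⟨P, h1, h2, h3⟩ := hN
  -- `N` is generated by `P` and finitely many coset representatives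
  have hfin : Finite (N ⧸ P.subgroupOf N) := Subgroup.index_ne_zero_iff_finite.mp h3
  have : N = P ⊔ Subgroup.closure (Set.range fun q : N ⧸ P.subgroupOf N => ((q.out : N) : G)) := by
    apply le_antisymm
    · intro x hx
      have h4 : (QuotientGroup.mk (s := P.subgroupOf N) ((QuotientGroup.mk (s := P.subgroupOf N)
          (⟨x, hx⟩ : N)).out)) = QuotientGroup.mk (⟨x, hx⟩ : N) := Quotient.out_eq' _
      rw [QuotientGroup.eq] at h4
      have h5 : (((QuotientGroup.mk (s := P.subgroupOf N) (⟨x, hx⟩ : N)).out : N) : G)⁻¹ * x ∈ P :=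
        h4
      have h6 : x = (((QuotientGroup.mk (s := P.subgroupOf N) (⟨x, hx⟩ : N)).out : N) : G) *
        ((((QuotientGroup.mk (s := P.subgroupOf N) (⟨x, hx⟩ : N)).out : N) : G)⁻¹ * x) := by group
      rw [h6]
      refine mul_mem ((le_sup_right : Subgroup.closure _ ≤ _) (subset_closure ⟨_, rfl⟩))
        ((le_sup_left : P ≤ _) h5)
    · refine sup_le h1 ?_
      rw [Subgroup.closure_le]
      rintro _ ⟨q, rfl⟩
      exact q.out.2
  rw [this]
  exact h2.fg.sup ((Subgroup.fg_iff _).mpr ⟨_, rfl, Set.finite_range _⟩)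

/-- A virtually polycyclic subgroup has a finite-index polycyclic subgroup that is invariant
under conjugation by everything normalising it. -/
theorem VPC.exists_invariant {N : Subgroup G} (hN : VPC N) :
    ∃ C : Subgroup G, C ≤ N ∧ PC C ∧ C.relIndex N ≠ 0 ∧
      ∀ h : G, (∀ x ∈ N, h * x * h⁻¹ ∈ N) → (∀ x ∈ N, h⁻¹ * x * h ∈ N) →
        ∀ x ∈ C, h * x * h⁻¹ ∈ C := by
  have hfg : Group.FG N := (Group.fg_iff_subgroup_fg N).mpr hN.fg
  obtain ⟨P, h1, h2, h3⟩ := hN
  obtain ⟨C, hC1, hC2, hC3⟩ := exists_characteristic_le (P.subgroupOf N) h3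
  refine ⟨C.map N.subtype, Subgroup.map_subtype_le C, ?_, ?_, ?_⟩
  · refine h2.mono ?_
    rintro _ ⟨x, hx, rfl⟩
    exact hC3 hx
  · rw [Subgroup.relIndex]
    have : (C.map N.subtype).subgroupOf N = C := by
      rw [Subgroup.subgroupOf]
      exact Subgroup.comap_map_eq_self_of_injective N.subtype_injective C
    rw [this]; exact hC2
  · intro h hh hh'
    let φ : N ≃* N :=
      { toFun := fun x => ⟨h * x * h⁻¹, hh x x.2⟩
        invFun := fun x => ⟨h⁻¹ * x * h, hh' x x.2⟩
        left_inv := fun x => by ext; simp [mul_assoc]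
        right_inv := fun x => by ext; simp [mul_assoc]
        map_mul' := fun x y => by ext; simp [mul_assoc] }
    rintro _ ⟨x, hx, rfl⟩
    have := (Subgroup.characteristic_iff_le_comap.mp hC1) φ hx
    exact ⟨φ x, this, rfl⟩

theorem VPC.step {N M : Subgroup G} (hN : VPC N) (hle : N ≤ M)
    (hnorm : ∀ h ∈ M, ∀ x ∈ N, h * x * h⁻¹ ∈ N) {g : G} (hg : g ∈ M)
    (hM : M = N ⊔ zpowers g) : VPC M := by
  obtain ⟨C, hC1, hC2, hC3, hC4⟩ := hN.exists_invariant
  have hinv : ∀ h ∈ M, ∀ x ∈ C, h * x * h⁻¹ ∈ C := by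
    intro h hh
    refine hC4 h (hnorm h hh) ?_
    intro x hx
    have := hnorm h⁻¹ (M.inv_mem hh) x hx
    simpa using this
  have hle2 : C ⊔ zpowers g ≤ M := sup_le (hC1.trans hle) (by rwa [zpowers_le])
  refine ⟨C ⊔ zpowers g, hle2, ?_, ?_⟩
  · exact PC.step hC2 le_sup_left (fun h hh => hinv h (hle2 hh)) g
      ((le_sup_right : zpowers g ≤ _) (mem_zpowers g)) rfl
  · refine index_ne_zero_of_map (C.subgroupOf N) ((C ⊔ zpowers g).subgroupOf M)
      (fun x => ⟨x, hle x.2⟩) ?_ ?_ hC3
    · intro a b hab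
      exact (le_sup_left : C ≤ C ⊔ zpowers g) hab
    · rintro ⟨b, hb⟩
      obtain ⟨n, hn, i, rfl⟩ := (mem_of_step hnorm hg hM).mp hb
      refine ⟨⟨n, hn⟩, ?_⟩
      change n⁻¹ * (n * g ^ i) ∈ C ⊔ zpowers g
      rw [inv_mul_cancel_left]
      exact (le_sup_right : zpowers g ≤ _) (zpow_mem (mem_zpowers g) i)

theorem VPC.comap_pc {G' : Type*} [Group G'] (f : G' →* G) (hk : VPC f.ker) {N : Subgroup G}
    (hN : PC N) : VPC (N.comap f) := by
  induction hN with
  | bot => rwa [MonoidHom.comap_bot]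
  | @step N M hN hle hnorm g hg hM ih =>
    obtain ⟨k, hk1, hk2⟩ := comap_step f hnorm hg hM
    refine VPC.step ih (Subgroup.comap_mono hle) ?_ hk1 hk2
    intro h hh x hx
    change f (h * x * h⁻¹) ∈ N
    rw [map_mul, map_mul, map_inv]
    exact hnorm _ hh _ hx

/-- Extension closure (comap form). -/
theorem VPC.comap {G' : Type*} [Group G'] (f : G' →* G) (hk : VPC f.ker) {N : Subgroup G}
    (hN : VPC N) : VPC (N.comap f) := by
  obtain ⟨P, h1, h2, h3⟩ := hN
  refine (VPC.comap_pc f hk h2).of_relIndex (Subgroup.comap_mono h1) ?_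
  exact Subgroup.relIndex_comap_ne_zero f h3

theorem VPC.map {G' : Type*} [Group G'] (f : G →* G') {N : Subgroup G}
    (hN : VPC N) : VPC (N.map f) := by
  obtain ⟨P, h1, h2, h3⟩ := hN
  refine ⟨P.map f, Subgroup.map_mono h1, h2.map f, ?_⟩
  refine index_ne_zero_of_map (P.subgroupOf N) ((P.map f).subgroupOf (N.map f))
    (fun x => ⟨f x, ⟨x, x.2, rfl⟩⟩) ?_ ?_ h3
  · intro a b hab
    exact ⟨_, hab, by simp⟩
  · rintro ⟨_, b, hb, rfl⟩
    exact ⟨⟨b, hb⟩, 1, P.one_mem, by simp⟩

theorem vpc_top_iff {N : Subgroup G} : VPC (⊤ : Subgroup N) ↔ VPC N := by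
  constructor
  · intro h
    have := h.map N.subtype
    rwa [← MonoidHom.range_eq_map, Subgroup.range_subtype] at this
  · intro h
    have := VPC.comap N.subtype (by rw [Subgroup.ker_subtype]; exact PC.bot.vpc) h
    rwa [← Subgroup.subgroupOf, Subgroup.subgroupOf_self] at this

theorem vpc_of_finite [Finite G] (N : Subgroup G) : VPC N :=
  ⟨⊥, bot_le, PC.bot, by rw [Subgroup.relIndex_bot_left]; exact Nat.card_pos.ne'⟩

/-! ### Statements with the prelude predicates -/

theorem isPolycyclic_subgroup (h : IsPolycyclic G) (K : Subgroup G) : IsPolycyclic K :=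
  isPolycyclic_iff.mpr (pc_top_iff.mpr ((isPolycyclic_iff.mp h).mono le_top))

theorem isPolycyclic_of_injective {G' : Type*} [Group G'] (h : IsPolycyclic G) (f : G' →* G)
    (hf : Function.Injective f) : IsPolycyclic G' :=
  isPolycyclic_iff.mpr (by
    have := (isPolycyclic_iff.mp h).comap_injective hf
    rwa [Subgroup.comap_top] at this)

theorem isPolycyclic_of_surjective {G' : Type*} [Group G'] (h : IsPolycyclic G) (f : G →* G')
    (hf : Function.Surjective f) : IsPolycyclic G' :=
  isPolycyclic_iff.mpr (by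
    have := (isPolycyclic_iff.mp h).map f
    rwa [← MonoidHom.range_eq_map, MonoidHom.range_eq_top.mpr hf] at this)

theorem isPolycyclic_extension {G' : Type*} [Group G'] (f : G →* G')
    (hk : IsPolycyclic f.ker) (h : IsPolycyclic G') : IsPolycyclic G :=
  isPolycyclic_iff.mpr (by
    have := PC.comap f (pc_top_iff.mp (isPolycyclic_iff.mp hk)) (isPolycyclic_iff.mp h)
    rwa [Subgroup.comap_top] at this)

theorem isPolycyclic_fg (h : IsPolycyclic G) : Group.FG G :=
  Group.fg_def.mpr (isPolycyclic_iff.mp h).fg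

theorem isVirtuallyPolycyclic_subgroup (h : IsVirtuallyPolycyclic G) (K : Subgroup G) :
    IsVirtuallyPolycyclic K :=
  isVirtuallyPolycyclic_iff.mpr (vpc_top_iff.mpr ((isVirtuallyPolycyclic_iff.mp h).mono le_top))

theorem isVirtuallyPolycyclic_of_injective {G' : Type*} [Group G']
    (h : IsVirtuallyPolycyclic G) (f : G' →* G)
    (hf : Function.Injective f) : IsVirtuallyPolycyclic G' :=
  isVirtuallyPolycyclic_iff.mpr (by
    have := VPC.comap f (by rw [(MonoidHom.ker_eq_bot_iff f).mpr hf]; exact PC.bot.vpc)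
      (isVirtuallyPolycyclic_iff.mp h)
    rwa [Subgroup.comap_top] at this)

theorem isVirtuallyPolycyclic_of_surjective {G' : Type*} [Group G']
    (h : IsVirtuallyPolycyclic G) (f : G →* G')
    (hf : Function.Surjective f) : IsVirtuallyPolycyclic G' :=
  isVirtuallyPolycyclic_iff.mpr (by
    have := (isVirtuallyPolycyclic_iff.mp h).map f
    rwa [← MonoidHom.range_eq_map, MonoidHom.range_eq_top.mpr hf] at this)

/-- Extension closure: kernel and target virtually polycyclic imply the group is. -/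
theorem isVirtuallyPolycyclic_extension {G' : Type*} [Group G'] (f : G →* G')
    (hk : IsVirtuallyPolycyclic f.ker) (h : IsVirtuallyPolycyclic G') :
    IsVirtuallyPolycyclic G :=
  isVirtuallyPolycyclic_iff.mpr (by
    have := VPC.comap f (vpc_top_iff.mp (isVirtuallyPolycyclic_iff.mp hk))
      (isVirtuallyPolycyclic_iff.mp h)
    rwa [Subgroup.comap_top] at this)

theorem isVirtuallyPolycyclic_fg (h : IsVirtuallyPolycyclic G) : Group.FG G :=
  Group.fg_def.mpr (isVirtuallyPolycyclic_iff.mp h).fg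

theorem isVirtuallyPolycyclic_of_finiteIndex (K : Subgroup G) (hK : K.index ≠ 0)
    (h : IsVirtuallyPolycyclic K) : IsVirtuallyPolycyclic G :=
  isVirtuallyPolycyclic_iff.mpr ((vpc_top_iff.mp (isVirtuallyPolycyclic_iff.mp h)).of_relIndex
    le_top (by rwa [Subgroup.relIndex_top_right]))

theorem IsPolycyclic.isVirtuallyPolycyclic (h : IsPolycyclic G) : IsVirtuallyPolycyclic G :=
  isVirtuallyPolycyclic_iff.mpr (isPolycyclic_iff.mp h).vpc

theorem isVirtuallyPolycyclic_of_finite [Finite G] : IsVirtuallyPolycyclic G :=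
  isVirtuallyPolycyclic_iff.mpr (vpc_of_finite _)

/-- normal polycyclic subgroup of finite index -/
theorem IsVirtuallyPolycyclic.exists_normal (h : IsVirtuallyPolycyclic G) :
    ∃ P : Subgroup G, P.Normal ∧ P.FiniteIndex ∧ PC P := by
  obtain ⟨C, -, h2, h3, h4⟩ := (isVirtuallyPolycyclic_iff.mp h).exists_invariant
  rw [Subgroup.relIndex_top_right] at h3
  exact ⟨C, ⟨fun x hx g => h4 g (fun _ _ => mem_top _) (fun _ _ => mem_top _) x hx⟩, ⟨h3⟩, h2⟩

/-! ### Nilpotent groups -/

theorem pc_closure_of_le_center (S : Set G) (hS : S.Finite) (hc : S ⊆ center G) :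
    PC (Subgroup.closure S) := by
  induction S, hS using Set.Finite.induction_on with
  | empty => rw [Subgroup.closure_empty]; exact PC.bot
  | @insert a S _ _ ih =>
    have hS' : S ⊆ center G := (Set.subset_insert _ _).trans hc
    have e : Subgroup.closure (insert a S) = Subgroup.closure S ⊔ zpowers a := by
      rw [Set.insert_eq, Subgroup.closure_union, sup_comm, zpowers_eq_closure]
    refine PC.step (ih hS') ?_ ?_ a (subset_closure (Set.mem_insert _ _)) e
    · rw [e]; exact le_sup_left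
    · intro h _ x hx
      have hx' : x ∈ center G := (Subgroup.closure_le _).mpr hS' hx
      have : h * x * h⁻¹ = x := by
        rw [(mem_center_iff.mp hx' h)]; group
      rwa [this]

theorem pc_of_fg_le_center {N : Subgroup G} (h : N.FG) (hc : N ≤ center G) : PC N := by
  obtain ⟨S, hS, hf⟩ := (Subgroup.fg_iff N).mp h
  rw [← hS]
  refine pc_closure_of_le_center S hf ?_
  intro x hx
  exact hc (by rw [← hS]; exact subset_closure hx)

theorem commutator_fg_of {S : Set G} (hS : Subgroup.closure S = ⊤) (hSf : S.Finite)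
    {L K : Subgroup G} (hK : K = ⁅L, (⊤ : Subgroup G)⁆) (hKc : K ≤ center G)
    {A : Set G} (hAf : A.Finite) (hAL : A ⊆ L) (hL : L ≤ Subgroup.closure A ⊔ center G) : K.FG := by
  rw [Subgroup.fg_iff]
  refine ⟨Set.image2 (fun a s => a * s * a⁻¹ * s⁻¹) A S, ?_, hAf.image2 _ hSf⟩
  set T := Subgroup.closure (Set.image2 (fun a s => a * s * a⁻¹ * s⁻¹) A S) with hT
  have hcom : ∀ a ∈ L, ∀ s : G, a * s * a⁻¹ * s⁻¹ ∈ center G := by
    intro a ha s
    apply hKc
    rw [hK]
    exact Subgroup.commutator_mem_commutator ha (mem_top s)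
  apply le_antisymm
  · rw [Subgroup.closure_le]
    rintro _ ⟨a, ha, s, hs, rfl⟩
    rw [hK]
    exact Subgroup.commutator_mem_commutator (hAL ha) (mem_top s)
  · -- for a ∈ A the set of s with [a,s] ∈ T is a subgroup
    have h1 : ∀ a ∈ A, ∀ s : G, a * s * a⁻¹ * s⁻¹ ∈ T := by
      intro a ha s
      have hs : s ∈ Subgroup.closure S := by rw [hS]; exact mem_top s
      induction hs using Subgroup.closure_induction with
      | mem s hs => exact subset_closure ⟨a, ha, s, hs, rfl⟩
      | one => simp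
      | mul x y _ _ hx hy =>
        have hc := mem_center_iff.mp (hcom a (hAL ha) y) x
        have e : a * (x * y) * a⁻¹ * (x * y)⁻¹ =
            (a * x * a⁻¹ * x⁻¹) * (a * y * a⁻¹ * y⁻¹) := by
          have : (a * x * a⁻¹ * x⁻¹) * (a * y * a⁻¹ * y⁻¹) =
              (a * x * a⁻¹ * x⁻¹) * (x * (a * y * a⁻¹ * y⁻¹) * x⁻¹) := by
            rw [hc]; group
          rw [this]; group
        rw [e]; exact T.mul_mem hx hy
      | inv x _ hx =>
        have hc := mem_center_iff.mp (hcom a (hAL ha) x) x⁻¹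
        have e : a * x⁻¹ * a⁻¹ * (x⁻¹)⁻¹ = (a * x * a⁻¹ * x⁻¹)⁻¹ := by
          have h2 : (a * x * a⁻¹ * x⁻¹)⁻¹ = x⁻¹ * (a * x * a⁻¹ * x⁻¹)⁻¹ * x := by
            have : x⁻¹ * (a * x * a⁻¹ * x⁻¹)⁻¹ * x = ((x⁻¹ * (a * x * a⁻¹ * x⁻¹)) * x)⁻¹ := by
              group
            rw [this, hc]; group
          rw [h2]; group
        rw [e]; exact T.inv_mem hx
    have h2 : ∀ a ∈ Subgroup.closure A, ∀ s : G, a * s * a⁻¹ * s⁻¹ ∈ T := by
      intro a ha
      have hAL' : Subgroup.closure A ≤ L := (Subgroup.closure_le _).mpr hAL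
      induction ha using Subgroup.closure_induction with
      | mem a ha => exact h1 a ha
      | one => intro s; simp
      | mul x y hx hy ihx ihy =>
        intro s
        have hc := mem_center_iff.mp (hcom y (hAL' hy) s) x
        have e : (x * y) * s * (x * y)⁻¹ * s⁻¹ =
            (y * s * y⁻¹ * s⁻¹) * (x * s * x⁻¹ * s⁻¹) := by
          have : (y * s * y⁻¹ * s⁻¹) * (x * s * x⁻¹ * s⁻¹) =
              (x * (y * s * y⁻¹ * s⁻¹)) * (s * x⁻¹ * s⁻¹) := by
            rw [hc]; group
          rw [this]; group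
        rw [e]; exact T.mul_mem (ihy s) (ihx s)
      | inv x hx ih =>
        intro s
        have hc := mem_center_iff.mp (hcom x (hAL' hx) s) x⁻¹
        have e : x⁻¹ * s * (x⁻¹)⁻¹ * s⁻¹ = (x * s * x⁻¹ * s⁻¹)⁻¹ := by
          have h2 : (x * s * x⁻¹ * s⁻¹)⁻¹ = x⁻¹ * (x * s * x⁻¹ * s⁻¹)⁻¹ * x := by
            have : x⁻¹ * (x * s * x⁻¹ * s⁻¹)⁻¹ * x = ((x⁻¹ * (x * s * x⁻¹ * s⁻¹)) * x)⁻¹ := by
              group
            rw [this, hc]; group
          rw [h2]; group
        rw [e]; exact T.inv_mem (ih s)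
    rw [hK, Subgroup.commutator_le]
    intro a ha s _
    obtain ⟨b, hb, c, hc, rfl⟩ := Subgroup.mem_sup_of_normal_right.mp (hL ha)
    have hc' := mem_center_iff.mp hc
    have e : (b * c) * s * (b * c)⁻¹ * s⁻¹ = b * s * b⁻¹ * s⁻¹ := by
      have h5 : (b * c) * s = b * s * c := by
        rw [mul_assoc, ← hc' s, mul_assoc]
      rw [h5]; group
    have h6 := h2 b hb s
    rw [← e] at h6
    exact h6

theorem pc_top_of_lcs (n : ℕ) : ∀ (G : Type*) [Group G] [Group.FG G],
    (⊤ : Subgroup G).lowerCentralSeries n = ⊥ → PC (⊤ : Subgroup G) := by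
  induction n with
  | zero =>
    intro G _ _ h
    rw [Subgroup.lowerCentralSeries_zero] at h
    rw [h]; exact PC.bot
  | succ n ih =>
    intro G _ _ h
    set K := (⊤ : Subgroup G).lowerCentralSeries n with hK
    have hKc : K ≤ center G := by
      intro x hx
      rw [mem_center_iff]
      intro g
      have h1 : x * g * x⁻¹ * g⁻¹ ∈ (⊤ : Subgroup G).lowerCentralSeries (n + 1) := by
        rw [Subgroup.lowerCentralSeries_succ]
        exact Subgroup.commutator_mem_commutator hx (mem_top g)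
      rw [h, Subgroup.mem_bot, mul_inv_eq_one, mul_inv_eq_iff_eq_mul] at h1
      exact h1.symm
    have hQ : PC (⊤ : Subgroup (G ⧸ K)) := by
      apply ih
      have h2 := Subgroup.map_lowerCentralSeries (⊤ : Subgroup G) (QuotientGroup.mk' K) n
      rw [← MonoidHom.range_eq_map, MonoidHom.range_eq_top.mpr (QuotientGroup.mk'_surjective K)]
        at h2
      rw [← h2, ← hK]
      exact (Subgroup.map_eq_bot_iff K).mpr (by simp)
    have hKfg : K.FG := by
      rcases n with _ | m
      · rw [hK, Subgroup.lowerCentralSeries_zero]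
        exact Group.fg_def.mp inferInstance
      · obtain ⟨S, hS, hSf⟩ := Group.fg_iff.mp (inferInstance : Group.FG G)
        set L := (⊤ : Subgroup G).lowerCentralSeries m with hL
        have hL' : (L.map (QuotientGroup.mk' K)).FG := (hQ.mono le_top).fg
        obtain ⟨B, hB, hBf⟩ := (Subgroup.fg_iff _).mp hL'
        have hBL : ∀ b ∈ B, ∃ a ∈ L, QuotientGroup.mk' K a = b := by
          intro b hb
          have : b ∈ L.map (QuotientGroup.mk' K) := by rw [← hB]; exact subset_closure hb
          exact this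
        choose! a ha1 ha2 using hBL
        refine commutator_fg_of hS hSf (L := L) (K := K) ?_ hKc (A := a '' B)
          (hBf.image a) ?_ ?_
        · rw [hK, Subgroup.lowerCentralSeries_succ]
        · rintro _ ⟨b, hb, rfl⟩
          exact ha1 b hb
        · intro x hx
          have h3 : QuotientGroup.mk' K x ∈ (Subgroup.closure (a '' B)).map (QuotientGroup.mk' K) := by
            rw [MonoidHom.map_closure, Set.image_image]
            have h4 : (fun b => QuotientGroup.mk' K (a b)) '' B = B := by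
              ext y
              constructor
              · rintro ⟨b, hb, rfl⟩
                simp only [ha2 b hb]; exact hb
              · intro hy
                exact ⟨y, hy, ha2 y hy⟩
            rw [h4, hB]
            exact ⟨x, hx, rfl⟩
          obtain ⟨y, hy, hyx⟩ := h3
          have h5 : y⁻¹ * x ∈ K := by
            rw [QuotientGroup.mk'_apply, QuotientGroup.mk'_apply, QuotientGroup.eq] at hyx
            exact hyx
          have h6 : x = y * (y⁻¹ * x) := by group
          rw [h6]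
          exact mul_mem ((le_sup_left : Subgroup.closure (a '' B) ≤ _) hy)
            ((le_sup_right : center G ≤ _) (hKc h5))
    have hKpc : PC K := pc_of_fg_le_center hKfg hKc
    have := PC.comap (QuotientGroup.mk' K) (by rw [QuotientGroup.ker_mk']; exact hKpc) hQ
    rwa [Subgroup.comap_top] at this

theorem isPolycyclic_of_nilpotent [Group.FG G] [Group.IsNilpotent G] : IsPolycyclic G := by
  obtain ⟨n, hn⟩ := Subgroup.nilpotent_iff_lowerCentralSeries.mp (inferInstance : Group.IsNilpotent G)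
  exact isPolycyclic_iff.mpr (pc_top_of_lcs n G hn)

theorem isVirtuallyPolycyclic_of_virtuallyNilpotent [Group.FG G] (N : Subgroup G)
    (hN : N.index ≠ 0) [Group.IsNilpotent N] : IsVirtuallyPolycyclic G := by
  have : N.FiniteIndex := ⟨hN⟩
  have : Group.FG N := inferInstance
  exact ⟨N, ⟨hN⟩, isPolycyclic_of_nilpotent⟩

end

end Crest.Agent.R182.Polyc
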