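/-
R182, module FINALG (helper278): the final algebra.
A finitely generated group `H` with a homomorphism `θ : H → E` (finite-dimensional real vector
space) whose slabs `{‖θ‖ ≤ R}` have polynomial path growth `≤ K e^{cR} (n+1)^d` and whose kernel is
coarsely connected inside some slab is virtually polycyclic.
-/
import Mathlib
import Crest.Prelude.Def_Polycyclic
import Crest.Prelude.Def_WordHyperbolic
import Crest.Agent.R182.GromovDefs
import Crest.Agent.R182.GromovMilnor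
import Crest.Agent.R182.GromovMain
import Crest.Agent.R182.PolycVirt
import Crest.Agent.R182.QIBasic

set_option autoImplicit false

namespace Crest.Agent.R182.FinAlg

open Crest.GroupTheory Crest.Agent.R182.Gromov Crest.Agent.R182.GromovMilnor

universe u

variable {H : Type u} [Group H] {E : Type*} [NormedAddCommGroup E]

/-- the height of `h`, as a vector. -/
def ht (θ : H →* Multiplicative E) (h : H) : E := Multiplicative.toAdd (θ h)

theorem ht_one (θ : H →* Multiplicative E) : ht θ 1 = 0 := by simp [ht]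
theorem ht_mul (θ : H →* Multiplicative E) (g h : H) : ht θ (g * h) = ht θ g + ht θ h := by
  simp [ht]
theorem ht_inv (θ : H →* Multiplicative E) (g : H) : ht θ g⁻¹ = - ht θ g := by simp [ht]
theorem ht_pow (θ : H →* Multiplicative E) (g : H) (n : ℕ) : ht θ (g ^ n) = n • ht θ g := by
  simp [ht]
theorem ht_eq_zero {θ : H →* Multiplicative E} {g : H} : ht θ g = 0 ↔ θ g = 1 := by
  simp [ht]

/-- the slab `{‖θ‖ ≤ R}`. -/
def slab (θ : H →* Multiplicative E) (R : ℝ) : Set H := {h | ‖ht θ h‖ ≤ R}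

/-- points reachable from `1` by an `n`-step path in `V` with steps in `T`. -/
def Reach (T V : Set H) : ℕ → Set H
  | 0 => {1}
  | n + 1 => {h | h ∈ V ∧ ∃ g ∈ Reach T V n, g⁻¹ * h ∈ T}

/-- slab growth. -/
def SlabGrowth (θ : H →* Multiplicative E) : Prop :=
  ∃ (c : ℝ) (d : ℕ), 0 ≤ c ∧ ∀ T : Set H, T.Finite → ∃ K : ℝ, ∀ (R : ℝ) (n : ℕ), 0 ≤ R →
    ((Reach T (slab θ R) n).ncard : ℝ) ≤ K * Real.exp (c * R) * ((n : ℝ) + 1) ^ d

/-- slab connectivity. -/
def SlabConn (θ : H →* Multiplicative E) : Prop :=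
  ∃ (R : ℝ) (T : Set H), T.Finite ∧ ∀ h, θ h = 1 → ∃ n, h ∈ Reach T (slab θ R) n

theorem Reach_finite {T V : Set H} (hT : T.Finite) (n : ℕ) : (Reach T V n).Finite := by
  induction n with
  | zero => exact Set.finite_singleton 1
  | succ n ih =>
    refine ((ih.prod hT).image fun p : H × H => p.1 * p.2).subset ?_
    rintro h ⟨-, g, hg, hT'⟩
    exact ⟨(g, g⁻¹ * h), ⟨hg, hT'⟩, by simp⟩

theorem exists_finite_of_mem_closure {S : Set H} {x : H} (hx : x ∈ Subgroup.closure S) :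
    ∃ Z : Set H, Z.Finite ∧ Z ⊆ S ∧ x ∈ Subgroup.closure Z := by
  induction hx using Subgroup.closure_induction with
  | mem x hx => exact ⟨{x}, Set.finite_singleton x, by simpa using hx, Subgroup.subset_closure rfl⟩
  | one => exact ⟨∅, Set.finite_empty, Set.empty_subset _, Subgroup.one_mem _⟩
  | mul x y _ _ ihx ihy =>
    obtain ⟨A, hA, hAS, hxA⟩ := ihx
    obtain ⟨B, hB, hBS, hyB⟩ := ihy
    refine ⟨A ∪ B, hA.union hB, Set.union_subset hAS hBS, Subgroup.mul_mem _ ?_ ?_⟩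
    · exact Subgroup.closure_mono Set.subset_union_left hxA
    · exact Subgroup.closure_mono Set.subset_union_right hyB
  | inv x _ ih =>
    obtain ⟨A, hA, hAS, hxA⟩ := ih
    exact ⟨A, hA, hAS, Subgroup.inv_mem _ hxA⟩

theorem exists_finite_subset_closure {S Y : Set H} (hY : Y.Finite)
    (h : Y ⊆ (Subgroup.closure S : Subgroup H)) :
    ∃ Z : Set H, Z.Finite ∧ Z ⊆ S ∧ Y ⊆ (Subgroup.closure Z : Subgroup H) := by
  choose! F hF1 hF2 hF3 using fun y (hy : y ∈ Y) => exists_finite_of_mem_closure (h hy)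
  refine ⟨⋃ y ∈ Y, F y, hY.biUnion hF1, Set.iUnion₂_subset hF2, ?_⟩
  intro y hy
  exact Subgroup.closure_mono (Set.subset_biUnion_of_mem (u := F) hy) (hF3 y hy)

/-- Step A: the kernel is contained in a subgroup generated by finitely many elements of small
height. -/
theorem exists_small_gens [NormedSpace ℝ E] [FiniteDimensional ℝ E] {θ : H →* Multiplicative E} (hC : SlabConn θ)
    {ε : ℝ} (hε : 0 < ε) :
    ∃ Z : Set H, Z.Finite ∧ (∀ z ∈ Z, ‖ht θ z‖ ≤ ε) ∧ θ.ker ≤ Subgroup.closure Z := by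
  obtain ⟨R, T, hT, hconn⟩ := hC
  have : ProperSpace E := FiniteDimensional.proper_real E
  have htb := (isCompact_closedBall (0 : E) R).totallyBounded
  obtain ⟨t, htf, ht1⟩ := Metric.totallyBounded_iff.1 htb (ε / 2) (by positivity)
  classical
  let gy : E → H := fun y => if h : ∃ g : H, ‖ht θ g - y‖ < ε / 2 then h.choose else 1
  have hgy : ∀ (y : E) (h : H), ‖ht θ h - y‖ < ε / 2 → ‖ht θ (gy y) - y‖ < ε / 2 := by
    intro y h hh
    have hex : ∃ g : H, ‖ht θ g - y‖ < ε / 2 := ⟨h, hh⟩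
    simp only [gy, dif_pos hex]
    exact hex.choose_spec
  let Gs : Set H := gy '' t ∪ {1}
  have hGs : Gs.Finite := (htf.image gy).union (Set.finite_singleton 1)
  let He : Subgroup H := Subgroup.closure {h | ‖ht θ h‖ ≤ ε}
  have hcov : ∀ h ∈ slab θ R, ∃ g ∈ Gs, h * g⁻¹ ∈ He := by
    intro h hh
    have h1 : ht θ h ∈ Metric.closedBall (0 : E) R := by
      rw [mem_closedBall_zero_iff]; exact hh
    obtain ⟨y, hy, hy2⟩ := Set.mem_iUnion₂.1 (ht1 h1)
    rw [Metric.mem_ball, dist_eq_norm] at hy2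
    refine ⟨gy y, Or.inl ⟨y, hy, rfl⟩, Subgroup.subset_closure ?_⟩
    show ‖ht θ (h * (gy y)⁻¹)‖ ≤ ε
    have h3 := hgy y h hy2
    rw [ht_mul, ht_inv]
    have h4 : ht θ h + -ht θ (gy y) = (ht θ h - y) - (ht θ (gy y) - y) := by abel
    rw [h4]
    exact (norm_sub_le _ _).trans (by linarith)
  let Y : Set H := {y | y ∈ He ∧ ∃ a ∈ Gs, ∃ b ∈ Gs, ∃ s ∈ T ∪ {1}, y = a * s * b⁻¹}
  have hY : Y.Finite := by
    refine (((hGs.prod hGs).prod (hT.union (Set.finite_singleton 1))).image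
      fun p : (H × H) × H => p.1.1 * p.2 * p.1.2⁻¹).subset ?_
    rintro y ⟨-, a, ha, b, hb, s, hs, rfl⟩
    exact ⟨((a, b), s), ⟨⟨ha, hb⟩, hs⟩, rfl⟩
  have key : ∀ n, ∀ h ∈ Reach T (slab θ R) n, ∀ b ∈ Gs, h * b⁻¹ ∈ He →
      h * b⁻¹ ∈ Subgroup.closure Y := by
    intro n
    induction n with
    | zero =>
      rintro h (rfl : h = 1) b hb hbHe
      exact Subgroup.subset_closure ⟨hbHe, 1, Or.inr rfl, b, hb, 1, Or.inr rfl, by simp⟩
    | succ n ih =>
      rintro h ⟨hV, g, hg, hgT⟩ b hb hbHe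
      have hgV : g ∈ slab θ R := by
        cases n with
        | zero =>
          have : g = 1 := hg
          subst this
          show ‖ht θ 1‖ ≤ R
          rw [ht_one, norm_zero]
          exact (norm_nonneg _).trans hV
        | succ n => exact hg.1
      obtain ⟨a, ha, haHe⟩ := hcov g hgV
      have h1 := ih g hg a ha haHe
      have h2 : h * b⁻¹ = (g * a⁻¹) * (a * (g⁻¹ * h) * b⁻¹) := by group
      have h3 : a * (g⁻¹ * h) * b⁻¹ ∈ He := by
        have : a * (g⁻¹ * h) * b⁻¹ = (g * a⁻¹)⁻¹ * (h * b⁻¹) := by group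
        rw [this]
        exact He.mul_mem (He.inv_mem haHe) hbHe
      rw [h2]
      exact Subgroup.mul_mem _ h1
        (Subgroup.subset_closure ⟨h3, a, ha, b, hb, g⁻¹ * h, Or.inl hgT, rfl⟩)
  obtain ⟨Z, hZ, hZε, hYZ⟩ := exists_finite_subset_closure hY
    (S := {h | ‖ht θ h‖ ≤ ε}) (fun y hy => hy.1)
  refine ⟨Z, hZ, hZε, ?_⟩
  intro h hh
  have hh' : θ h = 1 := hh
  obtain ⟨n, hn⟩ := hconn h hh'
  have h1 : h * (1 : H)⁻¹ ∈ He := by
    refine Subgroup.subset_closure ?_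
    show ‖ht θ (h * (1 : H)⁻¹)‖ ≤ ε
    rw [inv_one, mul_one, ht_eq_zero.2 hh', norm_zero]
    exact hε.le
  have h2 := key n h hn 1 (Or.inr rfl) h1
  rw [inv_one, mul_one] at h2
  exact (Subgroup.closure_le _).2 hYZ h2

/-- Step B: Milnor's trick inside a slab. -/
theorem W_reach {θ : H →* Multiplicative E} {ε : ℝ} {t e : H} (ht : ‖ht θ t‖ ≤ ε)
    (he : θ e = 1) (R : ℝ) (m : ℕ) (hm : (m : ℝ) * ε ≤ R) :
    ∀ w ∈ W t e m, w * t ^ m ∈ Reach {t, e * t} (slab θ R) m ∧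
      FinAlg.ht θ (w * t ^ m) = m • FinAlg.ht θ t := by
  induction m with
  | zero =>
    intro w hw
    rw [W, Set.mem_singleton_iff] at hw
    subst hw
    exact ⟨by simp [Reach], by simp [ht_one]⟩
  | succ m ih =>
    have hε0 : 0 ≤ ε := (norm_nonneg _).trans ht
    have hm' : (m : ℝ) * ε ≤ R := by
      push_cast at hm
      nlinarith
    have hslab : ∀ x : H, FinAlg.ht θ x = (m + 1) • FinAlg.ht θ t → x ∈ slab θ R := by
      intro x hx
      show ‖FinAlg.ht θ x‖ ≤ R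
      rw [hx]
      refine (norm_nsmul_le).trans ?_
      refine le_trans ?_ hm
      push_cast
      exact mul_le_mul_of_nonneg_left ht (by positivity)
    rintro w (hw | ⟨v, hv, rfl⟩)
    · obtain ⟨h1, h1'⟩ := ih hm' w hw
      have h2 : w * t ^ (m + 1) = (w * t ^ m) * t := by rw [pow_succ, mul_assoc]
      have h3 : FinAlg.ht θ (w * t ^ (m + 1)) = (m + 1) • FinAlg.ht θ t := by
        rw [h2, ht_mul, h1', add_smul, one_smul]
      refine ⟨⟨hslab _ h3, w * t ^ m, h1, ?_⟩, h3⟩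
      left
      rw [h2]; group
    · obtain ⟨h1, h1'⟩ := ih hm' v hv
      have h2 : v * cj t e m * t ^ (m + 1) = (v * t ^ m) * (e * t) := by
        rw [cj, pow_succ]; group
      have h3 : FinAlg.ht θ (v * cj t e m * t ^ (m + 1)) = (m + 1) • FinAlg.ht θ t := by
        rw [h2, ht_mul, h1', ht_mul, ht_eq_zero.2 he, zero_add, add_smul, one_smul]
      refine ⟨⟨hslab _ h3, v * t ^ m, h1, ?_⟩, h3⟩
      right
      show (v * t ^ m)⁻¹ * (v * cj t e m * t ^ (m + 1)) = e * t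
      rw [h2]; group

theorem exists_bad (K b : ℝ) (hb : b < Real.log 2) (d : ℕ) :
    ∃ m : ℕ, K * Real.exp (b * m) * ((m : ℝ) + 1) ^ d < 2 ^ m := by
  set r : ℝ := Real.exp (b - Real.log 2) with hr
  have hr0 : 0 < r := Real.exp_pos _
  have hr1 : r < 1 := by
    rw [hr, ← Real.exp_zero]
    exact Real.exp_lt_exp.2 (by linarith)
  have h1 := tendsto_pow_const_mul_const_pow_of_abs_lt_one d (r := r)
    (by rw [abs_of_pos hr0]; exact hr1)
  have h2 := (Filter.tendsto_add_atTop_iff_nat 1).2 h1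
  have h3 := h2.const_mul (K / r)
  rw [mul_zero] at h3
  obtain ⟨m, hm⟩ := (h3.eventually (gt_mem_nhds one_pos)).exists
  refine ⟨m, ?_⟩
  have h4 : r ^ m * 2 ^ m = Real.exp (b * m) := by
    rw [← mul_pow]
    have : r * 2 = Real.exp b := by
      rw [hr, Real.exp_sub, Real.exp_log (by norm_num)]
      field_simp
    rw [this, ← Real.exp_nat_mul]
    congr 1; ring
  have h5 : K * Real.exp (b * m) * ((m : ℝ) + 1) ^ d
      = (K / r * (((m + 1 : ℕ) : ℝ) ^ d * r ^ (m + 1))) * 2 ^ m := by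
    rw [← h4]
    push_cast
    rw [pow_succ r]
    field_simp
  rw [h5]
  have h6 : (0 : ℝ) < 2 ^ m := by positivity
  calc _ < 1 * (2 : ℝ) ^ m := mul_lt_mul_of_pos_right hm h6
    _ = 2 ^ m := one_mul _

theorem exists_cj_mem_slab {θ : H →* Multiplicative E} {c : ℝ} {d : ℕ}
    (hG : ∀ T : Set H, T.Finite → ∃ K : ℝ, ∀ (R : ℝ) (n : ℕ), 0 ≤ R →
      ((Reach T (slab θ R) n).ncard : ℝ) ≤ K * Real.exp (c * R) * ((n : ℝ) + 1) ^ d)
    {ε : ℝ} (hε : c * ε < Real.log 2) {t e : H} (ht : ‖ht θ t‖ ≤ ε) (he : θ e = 1) :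
    ∃ J, cj t e J ∈ (Subgroup.closure (cj t e '' Set.Iio J) : Subgroup H) := by
  by_contra h
  push Not at h
  obtain ⟨K, hK⟩ := hG {t, e * t} (by simp)
  obtain ⟨m, hm⟩ := exists_bad K (c * ε) hε d
  have h1 := W_card t e h m
  have hε0 : 0 ≤ ε := (norm_nonneg _).trans ht
  have h2 : (W t e m).ncard ≤ (Reach {t, e * t} (slab θ (m * ε)) m).ncard := by
    refine Set.ncard_le_ncard_of_injOn (fun w => w * t ^ m) ?_ ?_ (Reach_finite (by simp) m)
    · intro w hw
      exact (W_reach ht he (m * ε) m le_rfl w hw).1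
    · intro a _ b _ hab
      exact mul_right_cancel hab
  have h3 := hK (m * ε) m (by positivity)
  rw [h1] at h2
  have h4 : ((2 : ℝ) ^ m) ≤ (Reach {t, e * t} (slab θ (m * ε)) m).ncard := by exact_mod_cast h2
  have h5 : c * (m * ε) = c * ε * m := by ring
  rw [h5] at h3
  linarith

/-- two-sided version with integer exponents. -/
theorem exists_finite_conj_slab {θ : H →* Multiplicative E} {c : ℝ} {d : ℕ}
    (hG : ∀ T : Set H, T.Finite → ∃ K : ℝ, ∀ (R : ℝ) (n : ℕ), 0 ≤ R →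
      ((Reach T (slab θ R) n).ncard : ℝ) ≤ K * Real.exp (c * R) * ((n : ℝ) + 1) ^ d)
    {ε : ℝ} (hε : c * ε < Real.log 2) {t e : H} (ht : ‖ht θ t‖ ≤ ε) (he : θ e = 1) :
    ∃ F : Set H, F.Finite ∧ (∀ x ∈ F, ∃ j : ℤ, x = t ^ j * e * (t ^ j)⁻¹) ∧
      ∀ j : ℤ, t ^ j * e * (t ^ j)⁻¹ ∈ (Subgroup.closure F : Subgroup H) := by
  obtain ⟨J, hJ⟩ := exists_cj_mem_slab hG hε ht he
  have ht' : ‖FinAlg.ht θ t⁻¹‖ ≤ ε := by rw [ht_inv, norm_neg]; exact ht
  obtain ⟨K, hK⟩ := exists_cj_mem_slab hG hε ht' he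
  refine ⟨cj t e '' Set.Iio J ∪ cj t⁻¹ e '' Set.Iio K,
    ((Set.finite_Iio J).image _).union ((Set.finite_Iio K).image _), ?_, ?_⟩
  · rintro x (⟨j, _, rfl⟩ | ⟨j, _, rfl⟩)
    · exact ⟨j, by rw [cj, zpow_natCast]⟩
    · exact ⟨-(j : ℤ), by rw [cj, zpow_neg, zpow_natCast, inv_pow]⟩
  · intro j
    obtain ⟨n, rfl | rfl⟩ := j.eq_nat_or_neg
    · have h1 := cj_mem_of_mem t e hJ n
      rw [cj] at h1
      rw [zpow_natCast]
      exact Subgroup.closure_mono Set.subset_union_left h1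
    · have h1 := cj_mem_of_mem t⁻¹ e hK n
      rw [cj, inv_pow] at h1
      rw [zpow_neg, zpow_natCast]
      exact Subgroup.closure_mono Set.subset_union_right h1

section Close

open scoped commutatorElement

variable {G : Type u} [Group G]

/-- `s` normalises `U` (elementwise form). -/
def Nrm (U : Subgroup G) (s : G) : Prop := ∀ x ∈ U, s * x * s⁻¹ ∈ U

theorem closure_nrm {U : Subgroup G} {Z : Set G} (h : ∀ z ∈ Z, Nrm U z ∧ Nrm U z⁻¹) {g : G}
    (hg : g ∈ Subgroup.closure Z) : Nrm U g ∧ Nrm U g⁻¹ := by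
  induction hg using Subgroup.closure_induction with
  | mem x hx => exact h x hx
  | one => constructor <;> intro x hx <;> simpa using hx
  | mul a b _ _ iha ihb =>
    constructor
    · intro x hx
      have := iha.1 _ (ihb.1 x hx)
      rwa [show a * (b * x * b⁻¹) * a⁻¹ = a * b * x * (a * b)⁻¹ by group] at this
    · intro x hx
      have := ihb.2 _ (iha.2 x hx)
      rwa [show b⁻¹ * (a⁻¹ * x * a⁻¹⁻¹) * b⁻¹⁻¹ = (a * b)⁻¹ * x * (a * b)⁻¹⁻¹ by group] at this
  | inv a _ iha => exact ⟨iha.2, by rw [inv_inv]; exact iha.1⟩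

/-- close a finitely generated subgroup under conjugation by `t`. -/
theorem close_one {U N : Subgroup G} (hU : U.FG) (hUN : U ≤ N) (t : G)
    (hN : ∀ j : ℤ, ∀ x ∈ N, t ^ j * x * (t ^ j)⁻¹ ∈ N)
    (hM : ∀ x ∈ U, ∃ F : Set G, F.Finite ∧ (∀ y ∈ F, ∃ j : ℤ, y = t ^ j * x * (t ^ j)⁻¹) ∧
      ∀ j : ℤ, t ^ j * x * (t ^ j)⁻¹ ∈ (Subgroup.closure F : Subgroup G)) :
    ∃ U' : Subgroup G, U'.FG ∧ U ≤ U' ∧ U' ≤ N ∧ Nrm U' t ∧ Nrm U' t⁻¹ ∧
      ∀ s : G, Nrm U s → ⁅s, t⁆ ∈ U → Nrm U' s := by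
  let U' : Subgroup G := Subgroup.closure {y | ∃ x ∈ U, ∃ j : ℤ, y = t ^ j * x * (t ^ j)⁻¹}
  have hmem : ∀ x ∈ U, ∀ j : ℤ, t ^ j * x * (t ^ j)⁻¹ ∈ U' := fun x hx j =>
    Subgroup.subset_closure ⟨x, hx, j, rfl⟩
  have hconj : ∀ k : ℤ, ∀ x ∈ U', t ^ k * x * (t ^ k)⁻¹ ∈ U' := by
    intro k x hx
    refine conj_mem_closure _ ?_ hx
    rintro y ⟨x, hx, j, rfl⟩
    have : t ^ k * (t ^ j * x * (t ^ j)⁻¹) * (t ^ k)⁻¹ = t ^ (k + j) * x * (t ^ (k + j))⁻¹ := by
      rw [zpow_add]; group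
    rw [this]
    exact hmem x hx _
  have hUU' : U ≤ U' := fun x hx => by simpa using hmem x hx 0
  refine ⟨U', ?_, hUU', ?_, ?_, ?_, ?_⟩
  · obtain ⟨S, hS⟩ := hU
    have hSU : ∀ x ∈ S, x ∈ U := fun x hx => hS ▸ Subgroup.subset_closure hx
    choose! F hF1 hF2 hF3 using hM
    let T : Set G := ⋃ s ∈ S, F s
    have hT : T.Finite := S.finite_toSet.biUnion fun s hs => hF1 s (hSU s hs)
    refine ⟨hT.toFinset, ?_⟩
    rw [Set.Finite.coe_toFinset]
    apply le_antisymm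
    · rw [Subgroup.closure_le]
      intro y hy
      simp only [T, Set.mem_iUnion] at hy
      obtain ⟨s, hs, hy⟩ := hy
      obtain ⟨j, rfl⟩ := hF2 s (hSU s hs) y hy
      exact hmem s (hSU s hs) j
    · rw [Subgroup.closure_le]
      rintro y ⟨x, hx, j, rfl⟩
      rw [← hS] at hx
      refine conj_mem_closure _ ?_ hx
      intro s hs
      exact Subgroup.closure_mono (Set.subset_biUnion_of_mem (u := F) hs) (hF3 s (hSU s hs) j)
  · rw [Subgroup.closure_le]
    rintro y ⟨x, hx, j, rfl⟩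
    exact hN j x (hUN hx)
  · intro x hx; simpa using hconj 1 x hx
  · intro x hx; simpa using hconj (-1) x hx
  · intro s hs hc
    have hcU : ⁅s, t⁆ ∈ U' := hUU' hc
    -- `(⁅s,t⁆ t)^i = c_i t^i`
    have hst : s * t * s⁻¹ = ⁅s, t⁆ * t := by rw [commutatorElement_def]; group
    have hpow : ∀ n : ℕ, (⁅s, t⁆ * t) ^ n * (t ^ n)⁻¹ ∈ U' := by
      intro n
      induction n with
      | zero => simp
      | succ n ih =>
        have h1 := hconj 1 _ ih
        have h2 : (⁅s, t⁆ * t) ^ (n + 1) * (t ^ (n + 1))⁻¹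
            = ⁅s, t⁆ * (t ^ (1 : ℤ) * ((⁅s, t⁆ * t) ^ n * (t ^ n)⁻¹) * (t ^ (1 : ℤ))⁻¹) := by
          rw [pow_succ', pow_succ']; group
        rw [h2]
        exact U'.mul_mem hcU h1
    have hzpow : ∀ j : ℤ, (⁅s, t⁆ * t) ^ j * (t ^ j)⁻¹ ∈ U' := by
      intro j
      obtain ⟨n, rfl | rfl⟩ := j.eq_nat_or_neg
      · simpa using hpow n
      · have h1 := U'.inv_mem (hpow n)
        have h2 := hconj (-n) _ h1
        have h3 : t ^ (-(n : ℤ)) * ((⁅s, t⁆ * t) ^ n * (t ^ n)⁻¹)⁻¹ * (t ^ (-(n : ℤ)))⁻¹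
            = (⁅s, t⁆ * t) ^ (-(n : ℤ)) * (t ^ (-(n : ℤ)))⁻¹ := by
          rw [zpow_neg, zpow_neg, zpow_natCast, zpow_natCast]; group
        rwa [h3] at h2
    intro x hx
    refine conj_mem_closure _ ?_ hx
    rintro y ⟨x, hx, j, rfl⟩
    have h1 : s * (t ^ j * x * (t ^ j)⁻¹) * s⁻¹
        = ((⁅s, t⁆ * t) ^ j * (t ^ j)⁻¹) * (t ^ j * (s * x * s⁻¹) * (t ^ j)⁻¹) *
          ((⁅s, t⁆ * t) ^ j * (t ^ j)⁻¹)⁻¹ := by
      rw [← hst, conj_zpow]; group
    rw [h1]
    exact U'.mul_mem (U'.mul_mem (hzpow j) (hmem _ (hs x hx) j)) (U'.inv_mem (hzpow j))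

theorem close_all {N U0 : Subgroup G} (hU0 : U0.FG) (hU0N : U0 ≤ N) {Z : Set G}
    (hN : ∀ t ∈ Z, ∀ j : ℤ, ∀ x ∈ N, t ^ j * x * (t ^ j)⁻¹ ∈ N)
    (hM : ∀ t ∈ Z, ∀ x ∈ N, ∃ F : Set G, F.Finite ∧
      (∀ y ∈ F, ∃ j : ℤ, y = t ^ j * x * (t ^ j)⁻¹) ∧
      ∀ j : ℤ, t ^ j * x * (t ^ j)⁻¹ ∈ (Subgroup.closure F : Subgroup G))
    (hc : ∀ s ∈ Z, ∀ t ∈ Z, ⁅s, t⁆ ∈ U0 ∧ ⁅s⁻¹, t⁆ ∈ U0) (L : List G) (hL : ∀ t ∈ L, t ∈ Z) :
    ∃ U : Subgroup G, U.FG ∧ U0 ≤ U ∧ U ≤ N ∧ ∀ t ∈ L, Nrm U t ∧ Nrm U t⁻¹ := by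
  induction L with
  | nil => exact ⟨U0, hU0, le_rfl, hU0N, by simp⟩
  | cons t L ih =>
    obtain ⟨U, h1, h2, h3, h4⟩ := ih (fun s hs => hL s (List.mem_cons_of_mem _ hs))
    have ht : t ∈ Z := hL t List.mem_cons_self
    obtain ⟨U', g1, g2, g3, g4, g5, g6⟩ := close_one h1 h3 t (hN t ht)
      (fun x hx => hM t ht x (h3 hx))
    refine ⟨U', g1, h2.trans g2, g3, ?_⟩
    intro s hs
    rcases List.mem_cons.1 hs with rfl | hs
    · exact ⟨g4, g5⟩
    · have hsZ := hL s (List.mem_cons_of_mem _ hs)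
      exact ⟨g6 s (h4 s hs).1 (h2 (hc s hsZ t ht).1), g6 s⁻¹ (h4 s hs).2 (h2 (hc s hsZ t ht).2)⟩

theorem vpc_list {U : Subgroup G} (hU : Polyc.VPC U) (L : List G)
    (hn : ∀ t ∈ L, Nrm U t ∧ Nrm U t⁻¹)
    (hc : ∀ s ∈ L, ∀ t ∈ L, ⁅s, t⁆ ∈ U ∧ ⁅s⁻¹, t⁆ ∈ U) :
    Polyc.VPC (U ⊔ Subgroup.closure {x | x ∈ L}) := by
  induction L with
  | nil => simpa using hU
  | cons t L ih =>
    have ih' := ih (fun s hs => hn s (List.mem_cons_of_mem _ hs))
      (fun s hs r hr => hc s (List.mem_cons_of_mem _ hs) r (List.mem_cons_of_mem _ hr))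
    set N : Subgroup G := U ⊔ Subgroup.closure {x | x ∈ L} with hN
    have ht : t ∈ t :: L := List.mem_cons_self
    have e : U ⊔ Subgroup.closure {x | x ∈ t :: L} = N ⊔ Subgroup.zpowers t := by
      rw [hN, sup_assoc, Subgroup.zpowers_eq_closure, ← Subgroup.closure_union]
      congr 2
      ext x
      simp
    have hUN : U ≤ N := le_sup_left
    have hLN : Subgroup.closure {x | x ∈ L} ≤ N := le_sup_right
    have hNt : ∀ g : G, Nrm U g → (∀ s ∈ L, ⁅g, s⁆ ∈ U) → Nrm N g := by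
      intro g hg hgs
      have h1 : N ≤ N.comap (MulAut.conj g).toMonoidHom := by
        refine sup_le ?_ ?_
        · intro x hx
          exact hUN (hg x hx)
        · rw [Subgroup.closure_le]
          intro s hs
          show g * s * g⁻¹ ∈ N
          have h2 : g * s * g⁻¹ = ⁅g, s⁆ * s := by rw [commutatorElement_def]; group
          rw [h2]
          exact N.mul_mem (hUN (hgs s hs)) (hLN (Subgroup.subset_closure hs))
      exact fun x hx => h1 hx
    rw [e]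
    refine Polyc.VPC.step ih' le_sup_left ?_
      ((le_sup_right : Subgroup.zpowers t ≤ N ⊔ Subgroup.zpowers t) (Subgroup.mem_zpowers t)) rfl
    intro h hh
    have e2 : N ⊔ Subgroup.zpowers t = Subgroup.closure ((N : Set G) ∪ {t}) := by
      rw [Subgroup.closure_union, Subgroup.closure_eq, Subgroup.zpowers_eq_closure]
    rw [e2] at hh
    refine (closure_nrm (U := N) (Z := (N : Set G) ∪ {t}) ?_ hh).1
    rintro z (hz | rfl)
    · refine ⟨fun x hx => N.mul_mem (N.mul_mem hz hx) (N.inv_mem hz), fun x hx => ?_⟩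
      exact N.mul_mem (N.mul_mem (N.inv_mem hz) hx) (N.inv_mem (N.inv_mem hz))
    · exact ⟨hNt z (hn z ht).1 (fun s hs => (hc z ht s (List.mem_cons_of_mem _ hs)).1),
        hNt z⁻¹ (hn z ht).2 (fun s hs => (hc z ht s (List.mem_cons_of_mem _ hs)).2)⟩

end Close

open QI

/-- words in a subgroup of the kernel give paths in the slab of radius `0`. -/
theorem word_reach {θ : H →* Multiplicative E} {U : Subgroup H} (hU : U ≤ θ.ker) (S : Set U) :
    ∀ (l : List U), IsWord S l → ∀ n, l.length ≤ n →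
      ((l.prod : U) : H) ∈
        Reach ({x : H | ∃ s : U, (s ∈ S ∨ s⁻¹ ∈ S) ∧ x = s} ∪ {1}) (slab θ 0) n := by
  have hker : ∀ u : U, (u : H) ∈ slab θ 0 := by
    intro u
    show ‖ht θ (u : H)‖ ≤ 0
    rw [ht_eq_zero.2 (hU u.2), norm_zero]
  intro l
  induction l using List.reverseRecOn with
  | nil =>
    intro _ n _
    induction n with
    | zero => simp [Reach]
    | succ n ih =>
      refine ⟨hker _, _, ih (Nat.zero_le _), Or.inr ?_⟩
      simp
  | append_singleton l a ih =>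
    intro hl n hn
    have hl' : IsWord S l := fun x hx => hl x (List.mem_append_left _ hx)
    have ha : a ∈ S ∨ a⁻¹ ∈ S := hl a (by simp)
    rw [List.length_append, List.length_singleton] at hn
    obtain ⟨m, rfl⟩ : ∃ m, n = m + 1 := ⟨n - 1, by omega⟩
    refine ⟨hker _, _, ih hl' m (by omega), Or.inl ⟨a, ha, ?_⟩⟩
    simp

/-- a finitely generated subgroup of the kernel has polynomial growth, hence is virtually
polycyclic (Gromov). -/
theorem isVirtuallyPolycyclic_of_le_ker {θ : H →* Multiplicative E} (hG : SlabGrowth θ)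
    {U : Subgroup H} (hU : U ≤ θ.ker) (hUfg : U.FG) : IsVirtuallyPolycyclic U := by
  obtain ⟨c, d, hc, hG⟩ := hG
  obtain ⟨S, hS⟩ := (Group.fg_iff_subgroup_fg U).2 hUfg
  have hT : ({x : H | ∃ s : U, (s ∈ (S : Set U) ∨ s⁻¹ ∈ (S : Set U)) ∧ x = s} ∪ {1}).Finite := by
    refine Set.Finite.union ?_ (Set.finite_singleton 1)
    refine ((S.finite_toSet.union (S.finite_toSet.inv)).image (fun s : U => (s : H))).subset ?_
    rintro x ⟨s, hs, rfl⟩
    exact ⟨s, hs, rfl⟩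
  obtain ⟨K, hK⟩ := hG _ hT
  refine GromovMain.gromov_wordLength S hS (⌈K * 2 ^ d⌉₊) d ?_
  intro n hn
  have h1 : {g : U | wordLength (S : Set U) g ≤ n}.ncard ≤
      (Reach ({x : H | ∃ s : U, (s ∈ (S : Set U) ∨ s⁻¹ ∈ (S : Set U)) ∧ x = s} ∪ {1})
        (slab θ 0) n).ncard := by
    refine Set.ncard_le_ncard_of_injOn (fun g : U => (g : H)) ?_ ?_ (Reach_finite hT n)
    · intro g hg
      obtain ⟨l, hl1, hl2, hl3⟩ := QI.wordLength_spec hS g
      rw [← hl3]
      exact word_reach hU _ l hl2 n (by rw [hl1]; exact hg)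
    · intro a _ b _ hab
      exact Subtype.ext hab
  have h2 := hK 0 n le_rfl
  rw [mul_zero, Real.exp_zero, mul_one] at h2
  have hn' : (1 : ℝ) ≤ n := by exact_mod_cast hn
  have hK0 : 0 ≤ K := by
    by_contra hneg
    push Not at hneg
    have h3 : K * ((n : ℝ) + 1) ^ d < 0 := mul_neg_of_neg_of_pos hneg (by positivity)
    have h4 : (0 : ℝ) ≤ ((Reach ({x : H | ∃ s : U, (s ∈ (S : Set U) ∨ s⁻¹ ∈ (S : Set U)) ∧ x = s}
      ∪ {1}) (slab θ 0) n).ncard : ℝ) := Nat.cast_nonneg _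
    linarith
  have h3 : K * ((n : ℝ) + 1) ^ d ≤ (⌈K * 2 ^ d⌉₊ : ℝ) * (n : ℝ) ^ d := by
    calc K * ((n : ℝ) + 1) ^ d ≤ K * (2 * (n : ℝ)) ^ d := by
          refine mul_le_mul_of_nonneg_left ?_ hK0
          exact pow_le_pow_left₀ (by positivity) (by linarith) d
      _ = (K * 2 ^ d) * (n : ℝ) ^ d := by rw [mul_pow]; ring
      _ ≤ _ := mul_le_mul_of_nonneg_right (Nat.le_ceil _) (by positivity)
  have h4 : (({g : U | wordLength (S : Set U) g ≤ n}.ncard : ℕ) : ℝ) ≤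
      ((⌈K * 2 ^ d⌉₊ * n ^ d : ℕ) : ℝ) := by
    push_cast
    refine le_trans ?_ (h2.trans h3)
    exact_mod_cast h1
  exact_mod_cast h4

/-- a finitely generated subgroup of a commutative group is virtually polycyclic. -/
theorem isVirtuallyPolycyclic_range {B : Type*} [CommGroup B] (hfg : Group.FG H) (f : H →* B) :
    IsVirtuallyPolycyclic f.range := by
  have h1 : Group.FG f.range := Group.fg_range f
  have h2 : IsPolycyclic f.range := Polyc.isPolycyclic_of_nilpotent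
  exact Polyc.IsPolycyclic.isVirtuallyPolycyclic h2

open scoped commutatorElement in
/-- **The final algebra.** -/
theorem finalg [NormedSpace ℝ E] [FiniteDimensional ℝ E] (hfg : Group.FG H)
    (θ : H →* Multiplicative E) (hG : SlabGrowth θ) (hC : SlabConn θ) :
    IsVirtuallyPolycyclic H := by
  have hG' := hG
  obtain ⟨c, d, hc, hG1⟩ := hG'
  -- small generators
  have hlog : 0 < Real.log 2 := Real.log_pos (by norm_num)
  set ε : ℝ := Real.log 2 / (2 * (c + 1)) with hεdef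
  have hε : 0 < ε := by positivity
  have hcε : c * ε < Real.log 2 := by
    rw [hεdef, mul_div_assoc', div_lt_iff₀ (by positivity)]
    nlinarith
  obtain ⟨Z, hZ, hZε, hkZ⟩ := exists_small_gens hC hε
  -- the invariant subgroup
  let N : Subgroup H := θ.ker ⊓ Subgroup.closure Z
  let Y : Set H := {x | ∃ s ∈ Z, ∃ t ∈ Z, x = ⁅s, t⁆ ∨ x = ⁅s⁻¹, t⁆}
  have hY : Y.Finite := by
    refine (((hZ.prod hZ).image fun p : H × H => ⁅p.1, p.2⁆).union
      ((hZ.prod hZ).image fun p : H × H => ⁅p.1⁻¹, p.2⁆)).subset ?_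
    rintro x ⟨s, hs, t, ht, rfl | rfl⟩
    · exact Or.inl ⟨(s, t), ⟨hs, ht⟩, rfl⟩
    · exact Or.inr ⟨(s, t), ⟨hs, ht⟩, rfl⟩
  have hcomm : ∀ x y : H, θ ⁅x, y⁆ = 1 := by
    intro x y
    rw [commutatorElement_def, map_mul, map_mul, map_mul, map_inv, map_inv,
      mul_comm (θ x) (θ y), mul_assoc, mul_assoc]
    simp
  have hU0N : Subgroup.closure Y ≤ N := by
    rw [Subgroup.closure_le]
    have hm : ∀ x y : H, x ∈ Subgroup.closure Z → y ∈ Subgroup.closure Z →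
        ⁅x, y⁆ ∈ N := by
      intro x y hx hy
      refine ⟨hcomm x y, ?_⟩
      rw [commutatorElement_def]
      exact Subgroup.mul_mem _ (Subgroup.mul_mem _ (Subgroup.mul_mem _ hx hy)
        (Subgroup.inv_mem _ hx)) (Subgroup.inv_mem _ hy)
    rintro x ⟨s, hs, t, ht, rfl | rfl⟩
    · exact hm _ _ (Subgroup.subset_closure hs) (Subgroup.subset_closure ht)
    · exact hm _ _ (Subgroup.inv_mem _ (Subgroup.subset_closure hs)) (Subgroup.subset_closure ht)
  obtain ⟨U, hUfg, hU0U, hUN, hUnrm⟩ := close_all (N := N) (U0 := Subgroup.closure Y)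
    ⟨hY.toFinset, by rw [Set.Finite.coe_toFinset]⟩ hU0N (Z := Z)
    (by
      intro t ht j x hx
      refine ⟨?_, ?_⟩
      · show θ _ = 1
        have h1 : θ x = 1 := hx.1
        rw [map_mul, map_mul, h1, mul_one, ← map_mul, mul_inv_cancel, map_one]
      · have h1 : t ^ j ∈ Subgroup.closure Z := Subgroup.zpow_mem _ (Subgroup.subset_closure ht) j
        exact Subgroup.mul_mem _ (Subgroup.mul_mem _ h1 hx.2) (Subgroup.inv_mem _ h1))
    (by
      intro t ht x hx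
      exact exists_finite_conj_slab hG1 hcε (hZε t ht) hx.1)
    (by
      intro s hs t ht
      exact ⟨Subgroup.subset_closure ⟨s, hs, t, ht, Or.inl rfl⟩,
        Subgroup.subset_closure ⟨s, hs, t, ht, Or.inr rfl⟩⟩)
    hZ.toFinset.toList (by simp)
  have hUk : U ≤ θ.ker := hUN.trans inf_le_left
  have hUv : Polyc.VPC U := Polyc.vpc_top_iff.1 (Polyc.isVirtuallyPolycyclic_iff.1
    (isVirtuallyPolycyclic_of_le_ker hG hUk hUfg))
  have hG1v := vpc_list hUv hZ.toFinset.toList hUnrm (by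
    intro s hs t ht
    have hs' : s ∈ Z := by simpa using hs
    have ht' : t ∈ Z := by simpa using ht
    exact ⟨hU0U (Subgroup.subset_closure ⟨s, hs', t, ht', Or.inl rfl⟩),
      hU0U (Subgroup.subset_closure ⟨s, hs', t, ht', Or.inr rfl⟩)⟩)
  have hZe : {x | x ∈ hZ.toFinset.toList} = Z := by
    ext x; simp
  rw [hZe] at hG1v
  have hkv : Polyc.VPC θ.ker := hG1v.mono (hkZ.trans le_sup_right)
  -- conclusion
  have hr := isVirtuallyPolycyclic_range hfg θ
  refine Polyc.isVirtuallyPolycyclic_extension θ.rangeRestrict ?_ hr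
  rw [MonoidHom.ker_rangeRestrict]
  exact Polyc.isVirtuallyPolycyclic_iff.2 (Polyc.vpc_top_iff.2 hkv)

end Crest.Agent.R182.FinAlg
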