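/-
R182, module FINPATH (helper278): slab growth and slab connectivity of the source of a
quasi-isometry onto a group `G` with a height map `π : G → ℤ^k` whose kernel has polynomial growth,
when the height `π ∘ F` is at bounded distance from a homomorphism.
-/
import Mathlib
import Crest.Agent.R182.FinAlg
import Crest.Agent.R182.QIMap

set_option autoImplicit false

namespace Crest.Agent.R182.FinPath

open Crest.GroupTheory Crest.Agent.R182.QI Crest.Agent.R182.FinAlg
open scoped Pointwise commutatorElement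

variable {G : Type*} [Group G]

/-! ### Powers of a symmetric set -/

/-- a symmetric set containing `1`. -/
structure Sym (A : Set G) : Prop where
  one : 1 ∈ A
  inv : ∀ a ∈ A, a⁻¹ ∈ A

theorem Sym.mono {A : Set G} (hA : Sym A) {m n : ℕ} (h : m ≤ n) : A ^ m ⊆ A ^ n :=
  Set.pow_subset_pow_right hA.one h

theorem pow_mul_mem {A : Set G} {m n : ℕ} {x y : G} (hx : x ∈ A ^ m) (hy : y ∈ A ^ n) :
    x * y ∈ A ^ (m + n) := by
  rw [pow_add]; exact Set.mul_mem_mul hx hy

theorem Sym.inv_mem {A : Set G} (hA : Sym A) {m : ℕ} {x : G} (hx : x ∈ A ^ m) : x⁻¹ ∈ A ^ m := by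
  have h1 : A⁻¹ = A := by
    ext a
    exact ⟨fun h => by simpa using hA.inv _ h, fun h => hA.inv _ h⟩
  have h2 : (A ^ m)⁻¹ = A ^ m := by rw [← inv_pow, h1]
  rw [← h2]
  exact Set.inv_mem_inv.2 hx

theorem pow_finite {A : Set G} (hA : A.Finite) (m : ℕ) : (A ^ m).Finite := by
  induction m with
  | zero => simp
  | succ m ih => rw [pow_succ]; exact ih.mul hA

theorem conj_mem_pow {A : Set G} {y : G} {lam : ℕ} (h : ∀ a ∈ A, y * a * y⁻¹ ∈ A ^ lam) (m : ℕ) :
    ∀ x ∈ A ^ m, y * x * y⁻¹ ∈ A ^ (lam * m) := by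
  induction m with
  | zero =>
    intro x hx
    rw [pow_zero, Set.mem_one] at hx
    subst hx
    simp
  | succ m ih =>
    intro x hx
    rw [pow_succ] at hx
    obtain ⟨u, hu, a, ha, rfl⟩ := Set.mem_mul.1 hx
    have : y * (u * a) * y⁻¹ = (y * u * y⁻¹) * (y * a * y⁻¹) := by group
    rw [this, mul_add, mul_one]
    exact pow_mul_mem (ih u hu) (h a ha)

theorem Sym.mem_closure {A : Set G} (hA : Sym A) {x : G} :
    x ∈ Subgroup.closure A ↔ ∃ m, x ∈ A ^ m := by
  constructor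
  · intro hx
    induction hx using Subgroup.closure_induction with
    | mem x hx => exact ⟨1, by simpa using hx⟩
    | one => exact ⟨0, by simp⟩
    | mul x y _ _ hx hy =>
      obtain ⟨m, hm⟩ := hx
      obtain ⟨n, hn⟩ := hy
      exact ⟨m + n, pow_mul_mem hm hn⟩
    | inv x _ hx =>
      obtain ⟨m, hm⟩ := hx
      exact ⟨m, hA.inv_mem hm⟩
  · rintro ⟨m, hm⟩
    induction m generalizing x with
    | zero =>
      rw [pow_zero, Set.mem_one] at hm
      subst hm
      exact Subgroup.one_mem _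
    | succ m ih =>
      rw [pow_succ] at hm
      obtain ⟨u, hu, a, ha, rfl⟩ := Set.mem_mul.1 hm
      exact Subgroup.mul_mem _ (ih hu) (Subgroup.subset_closure ha)

/-- a uniform exponent for a finite subset of the closure. -/
theorem Sym.exists_bound {A : Set G} (hA : Sym A) {B : Set G} (hB : B.Finite)
    (h : B ⊆ (Subgroup.closure A : Subgroup G)) : ∃ m, B ⊆ A ^ m := by
  induction B, hB using Set.Finite.induction_on with
  | empty => exact ⟨0, Set.empty_subset _⟩
  | @insert a B _ _ ih =>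
    obtain ⟨m, hm⟩ := ih ((Set.subset_insert _ _).trans h)
    obtain ⟨n, hn⟩ := hA.mem_closure.1 (h (Set.mem_insert _ _))
    refine ⟨m + n, Set.insert_subset (hA.mono (by omega) hn) (hm.trans (hA.mono (by omega)))⟩

/-! ### Rearranging words -/

section Words

variable {A Y : Set G} {lam c0 : ℕ}

theorem conj_list (hconj : ∀ y ∈ Y, ∀ a ∈ A, y * a * y⁻¹ ∈ A ^ lam)
    (l : List G) (hl : ∀ y ∈ l, y ∈ Y) (m : ℕ) (x : G) (hx : x ∈ A ^ m) :
    l.prod * x * l.prod⁻¹ ∈ A ^ (lam ^ l.length * m) := by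
  induction l with
  | nil => simpa using hx
  | cons y l ih =>
    have h1 := ih (fun z hz => hl z (List.mem_cons_of_mem _ hz))
    have h2 := conj_mem_pow (hconj y (hl y List.mem_cons_self)) _ _ h1
    have : (y :: l).prod * x * (y :: l).prod⁻¹ = y * (l.prod * x * l.prod⁻¹) * y⁻¹ := by
      rw [List.prod_cons]; group
    rw [this, List.length_cons, pow_succ', mul_assoc]
    exact h2

theorem comm_list (hA : Sym A) (hlam : 1 ≤ lam)
    (hconj : ∀ y ∈ Y, ∀ a ∈ A, y * a * y⁻¹ ∈ A ^ lam)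
    (hcomm : ∀ x ∈ Y, ∀ y ∈ Y, x * y * x⁻¹ * y⁻¹ ∈ A ^ c0) (y : G) (hy : y ∈ Y)
    (l : List G) (hl : ∀ y ∈ l, y ∈ Y) :
    y * l.prod * y⁻¹ * l.prod⁻¹ ∈ A ^ (l.length * c0 * lam ^ l.length) := by
  induction l with
  | nil => simp
  | cons x l ih =>
    have h1 := ih (fun z hz => hl z (List.mem_cons_of_mem _ hz))
    have hx := hl x List.mem_cons_self
    have h2 := conj_mem_pow (hconj x hx) _ _ h1
    have h3 := hcomm y hy x hx
    have : y * (x :: l).prod * y⁻¹ * (x :: l).prod⁻¹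
        = (y * x * y⁻¹ * x⁻¹) * (x * (y * l.prod * y⁻¹ * l.prod⁻¹) * x⁻¹) := by
      rw [List.prod_cons]; group
    rw [this, List.length_cons]
    refine hA.mono ?_ (pow_mul_mem h3 h2)
    have h4 : 1 ≤ lam ^ (l.length + 1) := Nat.one_le_pow _ _ hlam
    calc c0 + lam * (l.length * c0 * lam ^ l.length)
        ≤ c0 * lam ^ (l.length + 1) + lam * (l.length * c0 * lam ^ l.length) := by
          gcongr
          exact Nat.le_mul_of_pos_right _ h4
      _ = (l.length + 1) * c0 * lam ^ (l.length + 1) := by ring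

theorem perm_list (hA : Sym A) (hlam : 1 ≤ lam)
    (hconj : ∀ y ∈ Y, ∀ a ∈ A, y * a * y⁻¹ ∈ A ^ lam)
    (hcomm : ∀ x ∈ Y, ∀ y ∈ Y, x * y * x⁻¹ * y⁻¹ ∈ A ^ c0) (l : List G) :
    ∀ (l' : List G), (∀ y ∈ l, y ∈ Y) → l.Perm l' →
      l.prod * l'.prod⁻¹ ∈ A ^ (l.length ^ 2 * c0 * lam ^ l.length) := by
  induction l with
  | nil =>
    intro l' _ hp
    rw [List.nil_perm.1 hp]
    simp
  | cons a u ih =>
    intro l' hl hp
    have ha : a ∈ l' := hp.mem_iff.1 List.mem_cons_self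
    obtain ⟨s, t, rfl⟩ := List.append_of_mem ha
    have hp' : u.Perm (s ++ t) := (hp.trans List.perm_middle).cons_inv
    have haY := hl a List.mem_cons_self
    have h1 := ih (s ++ t) (fun z hz => hl z (List.mem_cons_of_mem _ hz)) hp'
    have h2 := conj_mem_pow (hconj a haY) _ _ h1
    have hsY : ∀ y ∈ s, y ∈ Y := fun y hy =>
      hl y (hp.mem_iff.2 (List.mem_append_left _ hy))
    have h3 := comm_list hA hlam hconj hcomm a haY s hsY
    have hlen : s.length ≤ u.length := by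
      have := hp'.length_eq
      rw [List.length_append] at this
      omega
    have h4 : (a :: u).prod * (s ++ a :: t).prod⁻¹
        = (a * (u.prod * (s ++ t).prod⁻¹) * a⁻¹) * (a * s.prod * a⁻¹ * s.prod⁻¹) := by
      rw [List.prod_cons, List.prod_append, List.prod_append, List.prod_cons]; group
    rw [h4, List.length_cons]
    refine hA.mono ?_ (pow_mul_mem h2 h3)
    have h5 : lam ^ s.length ≤ lam ^ (u.length + 1) := Nat.pow_le_pow_right hlam (by omega)
    calc lam * (u.length ^ 2 * c0 * lam ^ u.length) + s.length * c0 * lam ^ s.length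
        ≤ lam * (u.length ^ 2 * c0 * lam ^ u.length) + u.length * c0 * lam ^ (u.length + 1) := by
          gcongr
      _ = (u.length ^ 2 + u.length) * c0 * lam ^ (u.length + 1) := by ring
      _ ≤ (u.length + 1) ^ 2 * c0 * lam ^ (u.length + 1) := by
          gcongr
          nlinarith

end Words

/-! ### The section of the height map -/

section Section

variable {k : ℕ}

/-- the `ℓ¹` norm on `ℤ^k`. -/
def n1 (v : Fin k → ℤ) : ℕ := ∑ i, (v i).natAbs

theorem n1_add_le (v w : Fin k → ℤ) : n1 (v + w) ≤ n1 v + n1 w := by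
  unfold n1
  rw [← Finset.sum_add_distrib]
  exact Finset.sum_le_sum fun i _ => Int.natAbs_add_le _ _

theorem n1_neg (v : Fin k → ℤ) : n1 (-v) = n1 v := by
  simp [n1]

/-- one factor of the multiset. -/
def ms1 (x : G) (t : ℤ) : Multiset G := t.toNat • {x} + (-t).toNat • {x⁻¹}

/-- the multiset of letters of the section. -/
def ms (x : Fin k → G) (v : Fin k → ℤ) : Multiset G := ∑ i, ms1 (x i) (v i)

theorem card_ms (x : Fin k → G) (v : Fin k → ℤ) : (ms x v).card = n1 v := by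
  unfold ms n1
  rw [Multiset.card_sum]
  refine Finset.sum_congr rfl fun i _ => ?_
  simp only [ms1, Multiset.card_add, Multiset.card_nsmul, Multiset.card_singleton, mul_one]
  omega

theorem mem_ms {x : Fin k → G} {v : Fin k → ℤ} {y : G} (hy : y ∈ ms x v) :
    ∃ i, y = x i ∨ y = (x i)⁻¹ := by
  unfold ms at hy
  rw [Multiset.mem_sum] at hy
  obtain ⟨i, -, hi⟩ := hy
  refine ⟨i, ?_⟩
  rw [ms1, Multiset.mem_add] at hi
  rcases hi with hi | hi
  · left
    exact Multiset.mem_singleton.1 (Multiset.mem_of_mem_nsmul hi)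
  · right
    exact Multiset.mem_singleton.1 (Multiset.mem_of_mem_nsmul hi)

theorem ms_split (x : Fin k → G) (v : Fin k → ℤ) (i : Fin k) :
    ms x v = ms1 (x i) (v i) + ∑ j ∈ Finset.univ.erase i, ms1 (x j) (v j) := by
  unfold ms
  exact (Finset.add_sum_erase _ (fun i => ms1 (x i) (v i)) (Finset.mem_univ i)).symm

theorem ms_add_of_nonneg (x : Fin k → G) (v : Fin k → ℤ) (i : Fin k) (h : 0 ≤ v i) :
    ms x (v + Pi.single i 1) = ms x v + {x i} := by
  rw [ms_split x v i, ms_split x (v + Pi.single i 1) i]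
  have h1 : ∑ j ∈ Finset.univ.erase i, ms1 (x j) ((v + Pi.single i 1 : Fin k → ℤ) j)
      = ∑ j ∈ Finset.univ.erase i, ms1 (x j) (v j) := by
    refine Finset.sum_congr rfl fun j hj => ?_
    rw [Pi.add_apply, Pi.single_eq_of_ne (Finset.ne_of_mem_erase hj), add_zero]
  rw [h1, Pi.add_apply, Pi.single_eq_same]
  have h2 : ms1 (x i) (v i + 1) = ms1 (x i) (v i) + {x i} := by
    unfold ms1
    have e1 : (v i + 1).toNat = (v i).toNat + 1 := by omega
    have e2 : (-(v i + 1)).toNat = 0 := by omega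
    have e3 : (-(v i)).toNat = 0 := by omega
    rw [e1, e2, e3, add_smul, one_smul, zero_smul, add_zero, add_zero]
  rw [h2]
  abel

theorem ms_add_of_neg (x : Fin k → G) (v : Fin k → ℤ) (i : Fin k) (h : v i < 0) :
    ms x v = ms x (v + Pi.single i 1) + {(x i)⁻¹} := by
  rw [ms_split x v i, ms_split x (v + Pi.single i 1) i]
  have h1 : ∑ j ∈ Finset.univ.erase i, ms1 (x j) ((v + Pi.single i 1 : Fin k → ℤ) j)
      = ∑ j ∈ Finset.univ.erase i, ms1 (x j) (v j) := by
    refine Finset.sum_congr rfl fun j hj => ?_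
    rw [Pi.add_apply, Pi.single_eq_of_ne (Finset.ne_of_mem_erase hj), add_zero]
  rw [h1, Pi.add_apply, Pi.single_eq_same]
  have h2 : ms1 (x i) (v i) = ms1 (x i) (v i + 1) + {(x i)⁻¹} := by
    unfold ms1
    have e1 : (v i + 1).toNat = 0 := by omega
    have e2 : (v i).toNat = 0 := by omega
    have e3 : (-(v i)).toNat = (-(v i + 1)).toNat + 1 := by omega
    rw [e1, e2, e3, add_smul, one_smul, zero_smul, zero_add, zero_add]
  rw [h2]
  abel

/-- the section. -/
noncomputable def z (x : Fin k → G) (v : Fin k → ℤ) : G := (ms x v).toList.prod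

theorem z_zero (x : Fin k → G) : z x 0 = 1 := by
  have : ms x 0 = 0 := by
    rw [← Multiset.card_eq_zero, card_ms]
    simp [n1]
  simp [z, this]

/-- the height of an element. -/
def hgt (π : G →* Multiplicative (Fin k → ℤ)) (g : G) : Fin k → ℤ := Multiplicative.toAdd (π g)

theorem hgt_mul (π : G →* Multiplicative (Fin k → ℤ)) (g h : G) :
    hgt π (g * h) = hgt π g + hgt π h := by simp [hgt]
theorem hgt_inv (π : G →* Multiplicative (Fin k → ℤ)) (g : G) :
    hgt π g⁻¹ = - hgt π g := by simp [hgt]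
theorem hgt_one (π : G →* Multiplicative (Fin k → ℤ)) : hgt π 1 = 0 := by simp [hgt]
theorem hgt_eq_zero {π : G →* Multiplicative (Fin k → ℤ)} {g : G} :
    hgt π g = 0 ↔ g ∈ π.ker := by
  simp [hgt, MonoidHom.mem_ker]

theorem hgt_list (π : G →* Multiplicative (Fin k → ℤ)) (l : List G) :
    hgt π l.prod = (l.map (hgt π)).sum := by
  induction l with
  | nil => simp [hgt_one]
  | cons a l ih => rw [List.prod_cons, hgt_mul, ih, List.map_cons, List.sum_cons]

theorem hgt_z {π : G →* Multiplicative (Fin k → ℤ)} {x : Fin k → G}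
    (hx : ∀ i, hgt π (x i) = Pi.single i 1) (v : Fin k → ℤ) : hgt π (z x v) = v := by
  unfold z
  rw [hgt_list]
  have h1 : ((ms x v).toList.map (hgt π)).sum = ((ms x v).map (hgt π)).sum := by
    conv_rhs => rw [← Multiset.coe_toList (ms x v)]
    rw [Multiset.map_coe, Multiset.sum_coe]
  rw [h1]
  unfold ms
  have h2 : ∀ s : Finset (Fin k), ((∑ i ∈ s, ms1 (x i) (v i)).map (hgt π)).sum
      = ∑ i ∈ s, (Pi.single i (v i) : Fin k → ℤ) := by
    intro s
    induction s using Finset.induction_on with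
    | empty => simp
    | insert i s hi ih =>
      rw [Finset.sum_insert hi, Finset.sum_insert hi, Multiset.map_add, Multiset.sum_add, ih]
      congr 1
      unfold ms1
      rw [Multiset.map_add, Multiset.map_nsmul, Multiset.map_nsmul, Multiset.sum_add,
        Multiset.sum_nsmul, Multiset.sum_nsmul, Multiset.map_singleton, Multiset.map_singleton,
        Multiset.sum_singleton, Multiset.sum_singleton, hgt_inv, hx]
      ext j
      by_cases hj : j = i
      · subst hj
        simp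
        omega
      · simp [hj]
  rw [h2]
  exact Finset.univ_sum_single v

end Section

/-! ### The exponential estimate -/

section Estimate

variable {k : ℕ} {π : G →* Multiplicative (Fin k → ℤ)} {A : Set G}

theorem exists_lam (hA : Sym A) (hAf : A.Finite) (hcl : Subgroup.closure A = π.ker) {Y : Set G}
    (hY : Y.Finite) :
    ∃ lam c0 : ℕ, 1 ≤ lam ∧ (∀ y ∈ Y, ∀ a ∈ A, y * a * y⁻¹ ∈ A ^ lam) ∧
      ∀ x ∈ Y, ∀ y ∈ Y, x * y * x⁻¹ * y⁻¹ ∈ A ^ c0 := by
  obtain ⟨m, hm⟩ := hA.exists_bound ((hY.prod hAf).image fun p : G × G => p.1 * p.2 * p.1⁻¹) (by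
    rintro _ ⟨⟨y, a⟩, ⟨_, ha⟩, rfl⟩
    rw [hcl]
    have h1 : a ∈ π.ker := by rw [← hcl]; exact Subgroup.subset_closure ha
    exact (MonoidHom.normal_ker π).conj_mem a h1 y)
  obtain ⟨n, hn⟩ := hA.exists_bound
    ((hY.prod hY).image fun p : G × G => p.1 * p.2 * p.1⁻¹ * p.2⁻¹) (by
    rintro _ ⟨⟨x, y⟩, _, rfl⟩
    rw [hcl]
    show x * y * x⁻¹ * y⁻¹ ∈ π.ker
    rw [MonoidHom.mem_ker, map_mul, map_mul, map_mul, map_inv, map_inv, mul_comm (π x)]
    simp)
  exact ⟨m + 1, n, by omega, fun y hy a ha => hA.mono (Nat.le_succ m) (hm ⟨(y, a), ⟨hy, ha⟩, rfl⟩),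
    fun x hx y hy => hn ⟨(x, y), ⟨hx, hy⟩, rfl⟩⟩

theorem q_gen {Y : Set G} {lam c0 : ℕ} (hA : Sym A) (hlam : 1 ≤ lam)
    (hconj : ∀ y ∈ Y, ∀ a ∈ A, y * a * y⁻¹ ∈ A ^ lam)
    (hcomm : ∀ x ∈ Y, ∀ y ∈ Y, x * y * x⁻¹ * y⁻¹ ∈ A ^ c0) {x : Fin k → G}
    (hY : ∀ i, x i ∈ Y ∧ (x i)⁻¹ ∈ Y) (v : Fin k → ℤ) (i : Fin k) :
    z x v * x i * (z x (v + Pi.single i 1))⁻¹ ∈
      A ^ ((n1 v + 1) ^ 2 * c0 * lam ^ (n1 v + 1)) := by
  have hmem : ∀ (w : Fin k → ℤ), ∀ y ∈ (ms x w).toList, y ∈ Y := by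
    intro w y hy
    obtain ⟨j, rfl | rfl⟩ := mem_ms (Multiset.mem_toList.1 hy)
    · exact (hY j).1
    · exact (hY j).2
  rcases le_or_gt 0 (v i) with h | h
  · have hp : ((ms x v).toList ++ [x i]).Perm (ms x (v + Pi.single i 1)).toList := by
      rw [← Multiset.coe_eq_coe, ← Multiset.coe_add, Multiset.coe_toList, Multiset.coe_toList,
        ms_add_of_nonneg x v i h, Multiset.coe_singleton]
    have h1 := perm_list hA hlam hconj hcomm _ _ (by
      intro y hy
      rcases List.mem_append.1 hy with hy | hy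
      · exact hmem v y hy
      · rw [List.mem_singleton.1 hy]; exact (hY i).1) hp
    rw [List.prod_append, List.prod_singleton, List.length_append, Multiset.length_toList,
      card_ms, List.length_singleton] at h1
    exact h1
  · have hp : (ms x v).toList.Perm ((ms x (v + Pi.single i 1)).toList ++ [(x i)⁻¹]) := by
      rw [← Multiset.coe_eq_coe, ← Multiset.coe_add, Multiset.coe_toList, Multiset.coe_toList,
        Multiset.coe_singleton]
      exact ms_add_of_neg x v i h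
    have h1 := perm_list hA hlam hconj hcomm _ _ (hmem v) hp
    rw [List.prod_append, List.prod_singleton, Multiset.length_toList, card_ms] at h1
    have h2 : z x v * x i * (z x (v + Pi.single i 1))⁻¹ = z x v *
      (z x (v + Pi.single i 1) * (x i)⁻¹)⁻¹ := by group
    rw [h2]
    refine hA.mono ?_ h1
    have h3 : n1 v ^ 2 ≤ (n1 v + 1) ^ 2 := Nat.pow_le_pow_left (by omega) 2
    have h4 : lam ^ n1 v ≤ lam ^ (n1 v + 1) := Nat.pow_le_pow_right hlam (by omega)
    exact Nat.mul_le_mul (Nat.mul_le_mul_right _ h3) h4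

theorem exists_q_bound (hA : Sym A) (hAf : A.Finite) (hcl : Subgroup.closure A = π.ker)
    (hπ : Function.Surjective π) :
    ∃ (x : Fin k → G) (μ : ℕ), 1 ≤ μ ∧ (∀ i, hgt π (x i) = Pi.single i 1) ∧
      ∀ s : G, ∃ Ks : ℕ, ∀ v : Fin k → ℤ,
        z x v * s * (z x (v + hgt π s))⁻¹ ∈ A ^ (Ks * μ ^ n1 v) := by
  choose x hx using fun i : Fin k => hπ (Multiplicative.ofAdd (Pi.single i 1 : Fin k → ℤ))
  have hx' : ∀ i, hgt π (x i) = Pi.single i 1 := by
    intro i; rw [hgt, hx i]; rfl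
  let Y : Set G := Set.range x ∪ Set.range (fun i => (x i)⁻¹)
  have hYf : Y.Finite := (Set.finite_range _).union (Set.finite_range _)
  have hY : ∀ i, x i ∈ Y ∧ (x i)⁻¹ ∈ Y := fun i => ⟨Or.inl ⟨i, rfl⟩, Or.inr ⟨i, rfl⟩⟩
  obtain ⟨lam, c0, hlam, hconj, hcomm⟩ := exists_lam hA hAf hcl hYf
  refine ⟨x, 4 * lam, by omega, hx', ?_⟩
  set μ := 4 * lam with hμdef
  have hμ : 1 ≤ μ := by omega
  let Gd : Subgroup G :=
    { carrier := {s | ∃ Ks : ℕ, ∀ v : Fin k → ℤ,
        z x v * s * (z x (v + hgt π s))⁻¹ ∈ A ^ (Ks * μ ^ n1 v)}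
      one_mem' := ⟨0, fun v => by simp [hgt_one]⟩
      mul_mem' := by
        rintro s t ⟨Ks, hs⟩ ⟨Kt, ht⟩
        refine ⟨Ks + Kt * μ ^ n1 (hgt π s), fun v => ?_⟩
        have h1 := pow_mul_mem (hs v) (ht (v + hgt π s))
        have h2 : z x v * s * (z x (v + hgt π s))⁻¹ *
            (z x (v + hgt π s) * t * (z x (v + hgt π s + hgt π t))⁻¹)
            = z x v * (s * t) * (z x (v + hgt π (s * t)))⁻¹ := by
          rw [hgt_mul, ← add_assoc]; group
        rw [h2] at h1
        refine hA.mono ?_ h1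
        have h3 : μ ^ n1 (v + hgt π s) ≤ μ ^ (n1 v + n1 (hgt π s)) :=
          Nat.pow_le_pow_right hμ (n1_add_le _ _)
        calc Ks * μ ^ n1 v + Kt * μ ^ n1 (v + hgt π s)
            ≤ Ks * μ ^ n1 v + Kt * μ ^ (n1 v + n1 (hgt π s)) := by gcongr
          _ = (Ks + Kt * μ ^ n1 (hgt π s)) * μ ^ n1 v := by rw [pow_add]; ring
      inv_mem' := by
        rintro s ⟨Ks, hs⟩
        refine ⟨Ks * μ ^ n1 (hgt π s), fun v => ?_⟩
        have h1 := hA.inv_mem (hs (v + hgt π s⁻¹))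
        have h2 : v + hgt π s⁻¹ + hgt π s = v := by rw [hgt_inv]; abel
        rw [h2] at h1
        have h3 : (z x (v + hgt π s⁻¹) * s * (z x v)⁻¹)⁻¹
            = z x v * s⁻¹ * (z x (v + hgt π s⁻¹))⁻¹ := by group
        rw [h3] at h1
        refine hA.mono ?_ h1
        have h4 : n1 (v + hgt π s⁻¹) ≤ n1 v + n1 (hgt π s) := by
          refine (n1_add_le _ _).trans ?_
          rw [hgt_inv, n1_neg]
        calc Ks * μ ^ n1 (v + hgt π s⁻¹) ≤ Ks * μ ^ (n1 v + n1 (hgt π s)) := by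
              gcongr
          _ = Ks * μ ^ n1 (hgt π s) * μ ^ n1 v := by rw [pow_add]; ring }
  have hAG : Subgroup.closure A ≤ Gd := by
    rw [Subgroup.closure_le]
    intro a ha
    refine ⟨1, fun v => ?_⟩
    have h0 : hgt π a = 0 := hgt_eq_zero.2 (hcl ▸ Subgroup.subset_closure ha)
    rw [h0, add_zero]
    have h1 := conj_list hconj (ms x v).toList (by
      intro y hy
      obtain ⟨j, rfl | rfl⟩ := mem_ms (Multiset.mem_toList.1 hy)
      · exact (hY j).1
      · exact (hY j).2) 1 a (by simpa using ha)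
    rw [Multiset.length_toList, card_ms] at h1
    refine hA.mono ?_ h1
    rw [mul_one, one_mul]
    exact Nat.pow_le_pow_left (by omega) _
  have hxG : ∀ i, x i ∈ Gd := by
    intro i
    refine ⟨c0 * μ, fun v => ?_⟩
    rw [hx']
    refine hA.mono ?_ (q_gen hA hlam hconj hcomm hY v i)
    have h1 : n1 v + 1 ≤ 2 ^ (n1 v + 1) := Nat.lt_two_pow_self.le
    calc (n1 v + 1) ^ 2 * c0 * lam ^ (n1 v + 1)
        ≤ (2 ^ (n1 v + 1)) ^ 2 * c0 * lam ^ (n1 v + 1) := by gcongr
      _ = c0 * ((2 ^ 2) ^ (n1 v + 1) * lam ^ (n1 v + 1)) := by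
          rw [← pow_mul, ← pow_mul, mul_comm (n1 v + 1) 2]; ring
      _ = c0 * μ ^ (n1 v + 1) := by rw [← mul_pow, hμdef]; norm_num
      _ = c0 * μ * μ ^ n1 v := by ring
  have hzG : ∀ v, z x v ∈ Gd := by
    intro v
    refine Subgroup.list_prod_mem _ fun y hy => ?_
    obtain ⟨j, rfl | rfl⟩ := mem_ms (Multiset.mem_toList.1 hy)
    · exact hxG j
    · exact Gd.inv_mem (hxG j)
  intro s
  have h1 : s * (z x (hgt π s))⁻¹ ∈ Gd := by
    refine hAG ?_
    rw [hcl, ← hgt_eq_zero, hgt_mul, hgt_inv, hgt_z hx', add_neg_cancel]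
  have h2 : s ∈ Gd := by
    have := Gd.mul_mem h1 (hzG (hgt π s))
    rwa [inv_mul_cancel_right] at this
  exact h2

end Estimate

/-! ### Slab growth and slab connectivity -/

section Slab

variable {k : ℕ} {π : G →* Multiplicative (Fin k → ℤ)} {A : Set G}
  {H : Type*} [Group H] {T : Finset H} {S : Finset G} {F : H → G} {K : ℕ}

theorem n1_le_of_abs {v : Fin k → ℤ} {r : ℝ} (h : ∀ i, |((v i : ℤ) : ℝ)| ≤ r) :
    n1 v ≤ k * ⌊r⌋₊ := by
  unfold n1
  calc ∑ i, (v i).natAbs ≤ ∑ _i : Fin k, ⌊r⌋₊ := by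
        refine Finset.sum_le_sum fun i _ => Nat.le_floor ?_
        rw [Nat.cast_natAbs, Int.cast_abs]
        exact h i
    _ = k * ⌊r⌋₊ := by simp

theorem exists_unif {B : Set G} (hB : B.Finite) {x : Fin k → G} {μ : ℕ} (hA : Sym A)
    (hq : ∀ s : G, ∃ Ks : ℕ, ∀ v : Fin k → ℤ,
        z x v * s * (z x (v + hgt π s))⁻¹ ∈ A ^ (Ks * μ ^ n1 v)) :
    ∃ M : ℕ, ∀ s ∈ B, ∀ v : Fin k → ℤ,
        z x v * s * (z x (v + hgt π s))⁻¹ ∈ A ^ (M * μ ^ n1 v) := by
  induction B, hB using Set.Finite.induction_on with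
  | empty => exact ⟨0, by simp⟩
  | @insert a B _ _ ih =>
    obtain ⟨M, hM⟩ := ih
    obtain ⟨N, hN⟩ := hq a
    refine ⟨M + N, ?_⟩
    rintro s (rfl | hs) v
    · exact hA.mono (Nat.mul_le_mul_right _ (by omega)) (hN v)
    · exact hA.mono (Nat.mul_le_mul_right _ (by omega)) (hM s hs v)

/-- the set of steps in `G` of the image of a path with finitely many steps. -/
theorem steps_finite (hS : Subgroup.closure (S : Set G) = ⊤)
    (hF : QIMap (T : Set H) (S : Set G) F K) {T' : Set H} (hT' : T'.Finite) :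
    {s : G | ∃ g : H, ∃ t ∈ T', s = (F g)⁻¹ * F (g * t)}.Finite := by
  obtain ⟨m, hm⟩ : ∃ m, ∀ t ∈ T', wordLength (T : Set H) t ≤ m := by
    obtain ⟨m, hm⟩ := (hT'.image (wordLength (T : Set H))).bddAbove
    exact ⟨m, fun t ht => hm ⟨t, ht, rfl⟩⟩
  refine (ball_finite hS (K * m + K)).subset ?_
  rintro s ⟨g, t, ht, rfl⟩
  refine (hF.displacement g t).trans ?_
  have := hm t ht
  gcongr

theorem slabGrowth (hT : Subgroup.closure (T : Set H) = ⊤)
    (hS : Subgroup.closure (S : Set G) = ⊤)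
    (hF : QIMap (T : Set H) (S : Set G) F K) (hπ : Function.Surjective π) (hA : Sym A)
    (hAf : A.Finite) (hcl : Subgroup.closure A = π.ker) {C d : ℕ}
    (hgrow : ∀ m : ℕ, 1 ≤ m → (A ^ m).ncard ≤ C * m ^ d)
    (θ : H →* Multiplicative (Fin k → ℝ)) (D : ℝ)
    (hθ : ∀ h i, |((hgt π (F h) i : ℤ) : ℝ) - ht θ h i| ≤ D) : SlabGrowth θ := by
  classical
  obtain ⟨x, μ, hμ, hx, hq⟩ := exists_q_bound hA hAf hcl hπ
  set B : ℕ := μ ^ d * 3 ^ k with hBdef
  have hB : 1 ≤ B := Nat.mul_pos (Nat.pow_pos hμ) (by positivity)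
  have hlogB : 0 ≤ Real.log B := Real.log_nonneg (by exact_mod_cast hB)
  refine ⟨Real.log B * k, d, by positivity, ?_⟩
  intro T' hT'
  obtain ⟨M, hM⟩ := exists_unif (steps_finite hS hF hT') hA hq
  obtain ⟨m0, hm0⟩ : ∃ m0, F 1 * (z x (hgt π (F 1)))⁻¹ ∈ A ^ m0 := by
    refine hA.mem_closure.1 ?_
    rw [hcl, ← hgt_eq_zero, hgt_mul, hgt_inv, hgt_z hx, add_neg_cancel]
  set P : ℕ := (2 * T.card + 1) ^ K with hP
  refine ⟨P * C * (m0 + M + 1) ^ d * Real.exp (Real.log B * k * |D|), ?_⟩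
  intro R n hR
  set L : ℕ := k * ⌊R + |D|⌋₊ with hL
  -- heights in the slab
  have hht : ∀ h ∈ slab θ R, ∀ i, |((hgt π (F h) i : ℤ) : ℝ)| ≤ R + |D| := by
    intro h hh i
    have h1 : |ht θ h i| ≤ R := by
      have : ‖ht θ h i‖ ≤ ‖ht θ h‖ := norm_le_pi_norm _ i
      rw [Real.norm_eq_abs] at this
      exact this.trans hh
    have h2 := hθ h i
    have h3 := le_abs_self D
    calc |((hgt π (F h) i : ℤ) : ℝ)| = |(((hgt π (F h) i : ℤ) : ℝ) - ht θ h i) + ht θ h i| := by
          ring_nf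
      _ ≤ |((hgt π (F h) i : ℤ) : ℝ) - ht θ h i| + |ht θ h i| := abs_add_le _ _
      _ ≤ R + |D| := by linarith
  have hreach : ∀ n, ∀ h ∈ Reach T' (slab θ R) n, h ∈ slab θ R := by
    intro n h hh
    cases n with
    | zero =>
      have : h = 1 := hh
      subst this
      show ‖ht θ 1‖ ≤ R
      rw [ht_one, norm_zero]; exact hR
    | succ n => exact hh.1
  -- the fibre component
  have hfib : ∀ n, ∀ h ∈ Reach T' (slab θ R) n,
      F h * (z x (hgt π (F h)))⁻¹ ∈ A ^ (m0 + n * (M * μ ^ L)) := by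
    intro n
    induction n with
    | zero =>
      rintro h (rfl : h = 1)
      simpa using hm0
    | succ n ih =>
      intro h hh
      obtain ⟨hV, g, hg, hgT⟩ := id hh
      have h1 := ih g hg
      have h2 := hM ((F g)⁻¹ * F h) ⟨g, g⁻¹ * h, hgT, by simp⟩ (hgt π (F g))
      have h3 : hgt π (F g) + hgt π ((F g)⁻¹ * F h) = hgt π (F h) := by
        rw [hgt_mul, hgt_inv]; abel
      rw [h3] at h2
      have h4 : F h * (z x (hgt π (F h)))⁻¹ = (F g * (z x (hgt π (F g)))⁻¹) *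
          (z x (hgt π (F g)) * ((F g)⁻¹ * F h) * (z x (hgt π (F h)))⁻¹) := by group
      rw [h4]
      refine hA.mono ?_ (pow_mul_mem h1 h2)
      have h5 : n1 (hgt π (F g)) ≤ L := n1_le_of_abs (hht g (hreach n g hg))
      calc m0 + n * (M * μ ^ L) + M * μ ^ n1 (hgt π (F g))
          ≤ m0 + n * (M * μ ^ L) + M * μ ^ L := by gcongr
        _ = m0 + (n + 1) * (M * μ ^ L) := by ring
  -- counting
  set m : ℕ := m0 + n * (M * μ ^ L) + 1 with hm
  have hAm : (A ^ m).Finite := pow_finite hAf m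
  let Rf : Finset H := (Reach_finite (V := slab θ R) hT' n).toFinset
  have hRf : (Reach T' (slab θ R) n).ncard = Rf.card := by
    rw [Set.ncard_eq_toFinset_card _ (Reach_finite hT' n)]
  have hc1 : Rf.card ≤ P * (Rf.image F).card := by
    refine Finset.card_le_mul_card_image Rf P ?_
    intro p _
    obtain ⟨h1, h2⟩ := QIMap.preimage_finite hT hS hF p 0
    have h3 : (↑(Rf.filter fun h => F h = p) : Set H) ⊆ {x : H | nd (S : Set G) p (F x) ≤ 0} := by
      intro h hh
      have h4 : F h = p := (Finset.mem_filter.1 (Finset.mem_coe.1 hh)).2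
      show nd (S : Set G) p (F h) ≤ 0
      rw [h4, nd_self]
    have h5 := Set.ncard_le_ncard h3 h1
    rw [Set.ncard_coe_finset] at h5
    refine h5.trans (h2.trans ?_)
    rw [mul_zero, zero_add]
  have hc2 : (Rf.image F).card ≤ (A ^ m).ncard * (2 * L + 1) ^ k := by
    let bx : Finset (Fin k → ℤ) := Fintype.piFinset fun _ => Finset.Icc (-(L : ℤ)) L
    have hbx : bx.card = (2 * L + 1) ^ k := by
      rw [Fintype.card_piFinset]
      simp only [Int.card_Icc, Finset.prod_const, Finset.card_univ, Fintype.card_fin]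
      congr 1
      omega
    have h1 : Rf.image F ⊆ (hAm.toFinset ×ˢ bx).image fun p => p.1 * z x p.2 := by
      intro p hp
      obtain ⟨h, hh, rfl⟩ := Finset.mem_image.1 hp
      have hh' : h ∈ Reach T' (slab θ R) n := by simpa [Rf] using hh
      refine Finset.mem_image.2 ⟨(F h * (z x (hgt π (F h)))⁻¹, hgt π (F h)), ?_, by simp⟩
      rw [Finset.mem_product]
      refine ⟨?_, ?_⟩
      · rw [Set.Finite.mem_toFinset]
        exact hA.mono (Nat.le_succ _) (hfib n h hh')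
      · rw [Fintype.mem_piFinset]
        intro i
        have h2 : n1 (hgt π (F h)) ≤ L := n1_le_of_abs (hht h (hreach n h hh'))
        have h3 : (hgt π (F h) i).natAbs ≤ n1 (hgt π (F h)) := by
          unfold n1
          exact Finset.single_le_sum (f := fun i => (hgt π (F h) i).natAbs)
            (fun _ _ => Nat.zero_le _) (Finset.mem_univ i)
        rw [Finset.mem_Icc]
        show -(L : ℤ) ≤ hgt π (F h) i ∧ hgt π (F h) i ≤ L
        omega
    refine (Finset.card_le_card h1).trans (Finset.card_image_le.trans ?_)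
    rw [Finset.card_product, hbx, Set.ncard_eq_toFinset_card _ hAm]
  have hc3 := hgrow m (by omega)
  have hc4 : m ≤ (m0 + M + 1) * (n + 1) * μ ^ L := by
    have h1 : 1 ≤ μ ^ L := Nat.one_le_pow _ _ hμ
    calc m = (m0 + 1) * 1 + n * M * μ ^ L := by rw [hm]; ring
      _ ≤ (m0 + 1) * μ ^ L + n * M * μ ^ L := by gcongr
      _ = (m0 + 1 + n * M) * μ ^ L := by ring
      _ ≤ (m0 + M + 1) * (n + 1) * μ ^ L := by
          gcongr
          nlinarith
  have hc5 : 2 * L + 1 ≤ 3 ^ L := by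
    generalize L = l
    induction l with
    | zero => norm_num
    | succ l ih => rw [pow_succ]; omega
  have hc6 : (Reach T' (slab θ R) n).ncard ≤
      P * C * (m0 + M + 1) ^ d * B ^ L * (n + 1) ^ d := by
    rw [hRf]
    calc Rf.card ≤ P * (Rf.image F).card := hc1
      _ ≤ P * ((A ^ m).ncard * (2 * L + 1) ^ k) := by gcongr
      _ ≤ P * ((C * ((m0 + M + 1) * (n + 1) * μ ^ L) ^ d) * (3 ^ L) ^ k) := by
          gcongr
          exact hc3.trans (by gcongr)
      _ = P * C * (m0 + M + 1) ^ d * B ^ L * (n + 1) ^ d := by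
          rw [hBdef, mul_pow, mul_pow, mul_pow (μ ^ d), ← pow_mul, ← pow_mul, ← pow_mul, ← pow_mul,
            mul_comm L d, mul_comm L k]
          ring
  have hc7 : ((B : ℝ)) ^ L ≤ Real.exp (Real.log B * k * |D|) * Real.exp (Real.log B * k * R) := by
    have hB0 : (0 : ℝ) < B := by exact_mod_cast hB
    have h1 : (B : ℝ) ^ L = Real.exp (Real.log B * L) := by
      rw [mul_comm, Real.exp_nat_mul, Real.exp_log hB0]
    rw [h1, ← Real.exp_add]
    refine Real.exp_le_exp.2 ?_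
    have h2 : (L : ℝ) ≤ k * (R + |D|) := by
      rw [hL]; push_cast
      exact mul_le_mul_of_nonneg_left (Nat.floor_le (by positivity)) (by positivity)
    calc Real.log B * L ≤ Real.log B * (k * (R + |D|)) := mul_le_mul_of_nonneg_left h2 hlogB
      _ = _ := by ring
  have hc8 : ((Reach T' (slab θ R) n).ncard : ℝ) ≤
      ((P * C * (m0 + M + 1) ^ d : ℕ) : ℝ) * (B : ℝ) ^ L * ((n : ℝ) + 1) ^ d := by
    exact_mod_cast hc6
  refine hc8.trans ?_
  calc ((P * C * (m0 + M + 1) ^ d : ℕ) : ℝ) * (B : ℝ) ^ L * ((n : ℝ) + 1) ^ d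
      ≤ ((P * C * (m0 + M + 1) ^ d : ℕ) : ℝ) * (Real.exp (Real.log B * k * |D|) *
        Real.exp (Real.log B * k * R)) * ((n : ℝ) + 1) ^ d := by gcongr
    _ = _ := by push_cast; ring

theorem slabConn (hT : Subgroup.closure (T : Set H) = ⊤)
    (hS : Subgroup.closure (S : Set G) = ⊤)
    (hF : QIMap (T : Set H) (S : Set G) F K) (hπ : Function.Surjective π) (hA : Sym A)
    (hAf : A.Finite) (hcl : Subgroup.closure A = π.ker)
    (θ : H →* Multiplicative (Fin k → ℝ)) (D : ℝ)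
    (hθ : ∀ h i, |((hgt π (F h) i : ℤ) : ℝ) - ht θ h i| ≤ D) : SlabConn θ := by
  classical
  obtain ⟨x, -, -, hx, -⟩ := exists_q_bound hA hAf hcl hπ
  choose r hr using hF.dense
  -- constants
  obtain ⟨ρ₁, hρ₁⟩ : ∃ m, ∀ a ∈ A, wordLength (S : Set G) a ≤ m := by
    obtain ⟨m, hm⟩ := (hAf.image (wordLength (S : Set G))).bddAbove
    exact ⟨m, fun t ht => hm ⟨t, ht, rfl⟩⟩
  obtain ⟨y, hy⟩ : ∃ m, ∀ i, wordLength (S : Set G) (x i) ≤ m := by
    obtain ⟨m, hm⟩ := ((Set.finite_range x).image (wordLength (S : Set G))).bddAbove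
    exact ⟨m, fun i => hm ⟨x i, ⟨i, rfl⟩, rfl⟩⟩
  obtain ⟨c1, hc1⟩ : ∃ m, ∀ s, wordLength (S : Set G) s ≤ K → n1 (hgt π s) ≤ m := by
    obtain ⟨m, hm⟩ := ((ball_finite hS K).image (fun s => n1 (hgt π s))).bddAbove
    exact ⟨m, fun s hs => hm ⟨s, hs, rfl⟩⟩
  set L : ℕ := k * ⌊|D|⌋₊ with hL
  set ρ : ℕ := ρ₁ + y * L with hρ
  set R : ℝ := 2 * |D| + c1 with hR
  have hR0 : 0 ≤ R := by positivity
  set T' : Set H := {t | wordLength (T : Set H) t ≤ K * (2 * K + ρ) + K} with hT'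
  refine ⟨R, T', ball_finite hT _, ?_⟩
  have hz : ∀ v : Fin k → ℤ, n1 v ≤ L → wordLength (S : Set G) (z x v) ≤ ρ := by
    intro v hv
    unfold z
    have h1 := wordLength_list_prod_le hS (ms x v).toList y (by
      intro w hw
      obtain ⟨j, rfl | rfl⟩ := mem_ms (Multiset.mem_toList.1 hw)
      · exact hy j
      · rw [wordLength_inv hS]; exact hy j)
    rw [Multiset.length_toList, card_ms] at h1
    calc _ ≤ _ := h1
      _ ≤ ρ := by
        rw [hρ]
        nlinarith [Nat.mul_le_mul_left y hv, Nat.mul_comm y (n1 v)]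
  -- heights
  have hslab : ∀ g : G, (∀ i, |((hgt π g i : ℤ) : ℝ)| ≤ |D|) → r g ∈ slab θ R := by
    intro g hg
    show ‖ht θ (r g)‖ ≤ R
    refine (pi_norm_le_iff_of_nonneg hR0).2 fun i => ?_
    rw [Real.norm_eq_abs]
    have h1 := hc1 _ (hr g)
    have h2 : (hgt π (g⁻¹ * F (r g)) i).natAbs ≤ n1 (hgt π (g⁻¹ * F (r g))) := by
      unfold n1
      exact Finset.single_le_sum (f := fun i => (hgt π (g⁻¹ * F (r g)) i).natAbs)
        (fun _ _ => Nat.zero_le _) (Finset.mem_univ i)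
    have h3 : |((hgt π (g⁻¹ * F (r g)) i : ℤ) : ℝ)| ≤ c1 := by
      rw [← Int.cast_abs, ← Nat.cast_natAbs]
      exact_mod_cast h2.trans h1
    have h4 := hθ (r g) i
    have h5 := hg i
    have h6 := le_abs_self D
    rw [hgt_mul, hgt_inv, Pi.add_apply, Pi.neg_apply] at h3
    push_cast at h3
    rw [abs_le] at h3 h4 h5 ⊢
    constructor <;> linarith [h3.1, h3.2, h4.1, h4.2, h5.1, h5.2]
  have hD0 : ∀ g : G, hgt π g = 0 → ∀ i, |((hgt π g i : ℤ) : ℝ)| ≤ |D| := by
    intro g hg i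
    rw [hg]; simp
  have hD1 : ∀ h : H, θ h = 1 → ∀ i, |((hgt π (F h) i : ℤ) : ℝ)| ≤ |D| := by
    intro h hh i
    have h1 := hθ h i
    rw [ht_eq_zero.2 hh, Pi.zero_apply, sub_zero] at h1
    exact h1.trans (le_abs_self D)
  -- reachability
  have hstep : ∀ h h' : H, (∃ n, h ∈ Reach T' (slab θ R) n) → h' ∈ slab θ R →
      nd (T : Set H) h h' ≤ K * (2 * K + ρ) + K → ∃ n, h' ∈ Reach T' (slab θ R) n := by
    rintro h h' ⟨n, hn⟩ hV hd
    exact ⟨n + 1, hV, h, hn, hd⟩
  have hstepG : ∀ g g' : G, (∃ n, r g ∈ Reach T' (slab θ R) n) →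
      (∀ i, |((hgt π g' i : ℤ) : ℝ)| ≤ |D|) → wordLength (S : Set G) (g⁻¹ * g') ≤ ρ →
      ∃ n, r g' ∈ Reach T' (slab θ R) n := by
    intro g g' hg hg' hd
    refine hstep _ _ hg (hslab g' hg') ?_
    refine (hF.lo _ _).trans ?_
    have h1 := nd_triangle hS (F (r g)) g (F (r g'))
    have h2 := nd_triangle hS g g' (F (r g'))
    have h3 := hr g
    have h4 := hr g'
    have h5 : nd (S : Set G) g g' ≤ ρ := hd
    rw [nd_comm hS (F (r g)) g] at h1
    have h6 : nd (S : Set G) (F (r g)) (F (r g')) ≤ 2 * K + ρ := by omega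
    gcongr
  have h0 : ∃ n, (1 : H) ∈ Reach T' (slab θ R) n := ⟨0, rfl⟩
  have hK1 : K * K + K ≤ K * (2 * K + ρ) + K := by
    gcongr
    omega
  -- first step
  have h1 : ∃ n, r (F 1) ∈ Reach T' (slab θ R) n := by
    refine hstep 1 _ h0 (hslab _ (hD1 1 (map_one θ))) ?_
    refine (hF.lo _ _).trans (le_trans ?_ hK1)
    gcongr
    exact hr (F 1)
  -- to the kernel
  set g0 : G := F 1 * (z x (hgt π (F 1)))⁻¹ with hg0
  have hg0k : hgt π g0 = 0 := by rw [hg0, hgt_mul, hgt_inv, hgt_z hx, add_neg_cancel]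
  have h2 : ∃ n, r g0 ∈ Reach T' (slab θ R) n := by
    refine hstepG (F 1) g0 h1 (hD0 g0 hg0k) ?_
    rw [hg0, inv_mul_cancel_left, wordLength_inv hS]
    exact hz _ (n1_le_of_abs (hD1 1 (map_one θ)))
  -- inside the kernel
  have h3 : ∀ m, ∀ u ∈ A ^ m, ∃ n, r (g0 * u) ∈ Reach T' (slab θ R) n := by
    intro m
    induction m with
    | zero =>
      intro u hu
      rw [pow_zero, Set.mem_one] at hu
      subst hu
      rw [mul_one]; exact h2
    | succ m ih =>
      intro u hu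
      have hu' := hu
      rw [pow_succ] at hu'
      obtain ⟨w, hw, a, ha, rfl⟩ := Set.mem_mul.1 hu'
      refine hstepG (g0 * w) _ (ih w hw) (hD0 _ ?_) ?_
      · have h4 : w * a ∈ π.ker := by
          rw [← hcl]; exact hA.mem_closure.2 ⟨_, hu⟩
        rw [hgt_mul, hg0k, hgt_eq_zero.2 h4, add_zero]
      · have h5 : (g0 * w)⁻¹ * (g0 * (w * a)) = a := by group
        rw [h5]
        exact (hρ₁ a ha).trans (Nat.le_add_right _ _)
  -- the end
  intro h hh
  set u : G := g0⁻¹ * (F h * (z x (hgt π (F h)))⁻¹) with hu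
  have huk : u ∈ Subgroup.closure A := by
    rw [hcl, ← hgt_eq_zero, hu, hgt_mul, hgt_inv, hg0k, hgt_mul, hgt_inv, hgt_z hx,
      add_neg_cancel, neg_zero, add_zero]
  obtain ⟨m, hm⟩ := hA.mem_closure.1 huk
  have h4 := h3 m u hm
  have h5 : ∃ n, r (F h) ∈ Reach T' (slab θ R) n := by
    refine hstepG (g0 * u) _ h4 (hD1 h hh) ?_
    have h6 : (g0 * u)⁻¹ * F h = z x (hgt π (F h)) := by rw [hu]; group
    rw [h6]
    exact hz _ (n1_le_of_abs (hD1 h hh))
  refine hstep _ h h5 ?_ ?_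
  · show ‖ht θ h‖ ≤ R
    rw [ht_eq_zero.2 hh, norm_zero]; exact hR0
  · rw [nd_comm hT]
    refine (hF.lo _ _).trans (le_trans ?_ hK1)
    gcongr
    exact hr (F h)

/-- **Conclusion of step (6)**: if the height of a quasi-isometry is at bounded distance from a
homomorphism and the kernel of the height has polynomial growth then the source is virtually
polycyclic. -/
theorem isVirtuallyPolycyclic_of_bounded_height (hT : Subgroup.closure (T : Set H) = ⊤)
    (hS : Subgroup.closure (S : Set G) = ⊤)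
    (hF : QIMap (T : Set H) (S : Set G) F K) (hπ : Function.Surjective π) (hA : Sym A)
    (hAf : A.Finite) (hcl : Subgroup.closure A = π.ker) {C d : ℕ}
    (hgrow : ∀ m : ℕ, 1 ≤ m → (A ^ m).ncard ≤ C * m ^ d)
    (θ : H →* Multiplicative (Fin k → ℝ)) (D : ℝ)
    (hθ : ∀ h i, |((hgt π (F h) i : ℤ) : ℝ) - ht θ h i| ≤ D) : IsVirtuallyPolycyclic H :=
  finalg ⟨T, hT⟩ θ (slabGrowth hT hS hF hπ hA hAf hcl hgrow θ D hθ)
    (slabConn hT hS hF hπ hA hAf hcl θ D hθ)

end Slab

end Crest.Agent.R182.FinPath
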