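/-
R182, module FINNIL (helper278): polynomial growth of polycyclic subgroups of nilpotent groups, in
the form `#(A ^ m) ≤ C m ^ d`.
-/
import Mathlib
import Crest.Agent.R182.FinPath
import Crest.Agent.R182.PolycVirt

set_option autoImplicit false

namespace Crest.Agent.R182.FinNil

open Crest.GroupTheory Crest.Agent.R182.FinPath Crest.Agent.R182.Polyc
open scoped Pointwise commutatorElement

variable {G : Type*} [Group G]

/-- polynomial growth of a subgroup. -/
def PGr (N : Subgroup G) : Prop :=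
  ∃ A : Set G, Sym A ∧ A.Finite ∧ Subgroup.closure A = N ∧
    ∃ C d : ℕ, ∀ m : ℕ, 1 ≤ m → (A ^ m).ncard ≤ C * m ^ d

theorem conj_poly {c : ℕ} {N : Subgroup G} {A : Set G} (hA : Sym A)
    (hcl : Subgroup.closure A = N) {g : G} (hg : ∀ x ∈ N, g * x * g⁻¹ ∈ N)
    (hnil : (⊤ : Subgroup G).lowerCentralSeries c = ⊥) (i : ℕ) :
    i ≤ c → ∀ x ∈ N, x ∈ (⊤ : Subgroup G).lowerCentralSeries (c - i) →
      ∃ C : ℕ, ∀ j : ℕ, g ^ j * x * (g ^ j)⁻¹ ∈ A ^ (C * (j + 1) ^ i) := by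
  induction i with
  | zero =>
    intro _ x _ hx
    rw [Nat.sub_zero, hnil, Subgroup.mem_bot] at hx
    subst hx
    exact ⟨0, fun j => by simp⟩
  | succ i ih =>
    intro hi x hxN hx
    have hy : g * x * g⁻¹ * x⁻¹ ∈ (⊤ : Subgroup G).lowerCentralSeries (c - i) := by
      have h0 : c - i = (c - (i + 1)) + 1 := by omega
      rw [h0, Subgroup.lowerCentralSeries_succ]
      have h1 := Subgroup.commutator_mem_commutator hx (Subgroup.mem_top g)
      have h2 : g * x * g⁻¹ * x⁻¹ = ⁅x, g⁆⁻¹ := by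
        rw [commutatorElement_inv, commutatorElement_def]
      rw [h2]
      exact Subgroup.inv_mem _ h1
    have hyN : g * x * g⁻¹ * x⁻¹ ∈ N := N.mul_mem (hg x hxN) (N.inv_mem hxN)
    obtain ⟨C, hC⟩ := ih (by omega) _ hyN hy
    obtain ⟨m, hm⟩ := hA.mem_closure.1 (hcl ▸ hxN : x ∈ Subgroup.closure A)
    refine ⟨m + C, ?_⟩
    have key : ∀ j : ℕ, g ^ j * x * (g ^ j)⁻¹ ∈ A ^ (m + j * (C * (j + 1) ^ i)) := by
      intro j
      induction j with
      | zero => simpa using hm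
      | succ j ihj =>
        have h1 : g ^ (j + 1) * x * (g ^ (j + 1))⁻¹
            = (g ^ j * (g * x * g⁻¹ * x⁻¹) * (g ^ j)⁻¹) * (g ^ j * x * (g ^ j)⁻¹) := by
          rw [pow_succ]; group
        rw [h1]
        refine hA.mono ?_ (pow_mul_mem (hC j) ihj)
        calc C * (j + 1) ^ i + (m + j * (C * (j + 1) ^ i))
            = m + (j + 1) * (C * (j + 1) ^ i) := by ring
          _ ≤ m + (j + 1) * (C * (j + 1 + 1) ^ i) := by gcongr; omega
    intro j
    refine hA.mono ?_ (key j)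
    have h1 : 1 ≤ (j + 1) ^ (i + 1) := Nat.one_le_pow _ _ (by omega)
    calc m + j * (C * (j + 1) ^ i) ≤ m * (j + 1) ^ (i + 1) + (j + 1) * (C * (j + 1) ^ i) := by
          gcongr
          · exact Nat.le_mul_of_pos_right _ h1
          · omega
      _ = (m + C) * (j + 1) ^ (i + 1) := by ring

/-- integer version, uniform over the generators. -/
theorem conj_poly' {c : ℕ} {N : Subgroup G} {A : Set G} (hA : Sym A) (hAf : A.Finite)
    (hcl : Subgroup.closure A = N) {g : G} (hg : ∀ x ∈ N, g * x * g⁻¹ ∈ N)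
    (hg' : ∀ x ∈ N, g⁻¹ * x * g⁻¹⁻¹ ∈ N)
    (hnil : (⊤ : Subgroup G).lowerCentralSeries c = ⊥) :
    ∃ C : ℕ, ∀ a ∈ A, ∀ j : ℤ, g ^ j * a * (g ^ j)⁻¹ ∈ A ^ (C * (j.natAbs + 1) ^ c) := by
  have h1 : ∀ x ∈ A, ∃ C : ℕ, ∀ j : ℤ, g ^ j * x * (g ^ j)⁻¹ ∈ A ^ (C * (j.natAbs + 1) ^ c) := by
    intro x hx
    have hxN : x ∈ N := hcl ▸ Subgroup.subset_closure hx
    have hx0 : x ∈ (⊤ : Subgroup G).lowerCentralSeries (c - c) := by
      rw [Nat.sub_self, Subgroup.lowerCentralSeries_zero]; trivial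
    obtain ⟨C, hC⟩ := conj_poly hA hcl hg hnil c le_rfl x hxN hx0
    obtain ⟨D, hD⟩ := conj_poly hA hcl hg' hnil c le_rfl x hxN hx0
    refine ⟨C + D, fun j => ?_⟩
    obtain ⟨n, rfl | rfl⟩ := j.eq_nat_or_neg
    · rw [zpow_natCast, Int.natAbs_natCast]
      exact hA.mono (Nat.mul_le_mul_right _ (by omega)) (hC n)
    · have h2 := hD n
      rw [inv_pow] at h2
      rw [zpow_neg, zpow_natCast, Int.natAbs_neg, Int.natAbs_natCast]
      exact hA.mono (Nat.mul_le_mul_right _ (by omega)) h2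
  have h2 : ∀ B : Set G, B.Finite → B ⊆ A →
      ∃ C : ℕ, ∀ a ∈ B, ∀ j : ℤ, g ^ j * a * (g ^ j)⁻¹ ∈ A ^ (C * (j.natAbs + 1) ^ c) := by
    intro B hB
    induction B, hB using Set.Finite.induction_on with
    | empty => intro _; exact ⟨0, by simp⟩
    | @insert a B _ _ ih =>
      intro hBA
      obtain ⟨C, hC⟩ := ih ((Set.subset_insert _ _).trans hBA)
      obtain ⟨D, hD⟩ := h1 a (hBA (Set.mem_insert _ _))
      refine ⟨C + D, ?_⟩
      rintro b (rfl | hb) j
      · exact hA.mono (Nat.mul_le_mul_right _ (by omega)) (hD j)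
      · exact hA.mono (Nat.mul_le_mul_right _ (by omega)) (hC b hb j)
  exact h2 A hAf subset_rfl

theorem pgr_step {c : ℕ} (hnil : (⊤ : Subgroup G).lowerCentralSeries c = ⊥) {N M : Subgroup G}
    (hN : PGr N) (hnorm : ∀ h ∈ M, ∀ x ∈ N, h * x * h⁻¹ ∈ N) {g : G} (hg : g ∈ M)
    (hM : M = N ⊔ Subgroup.zpowers g) : PGr M := by
  obtain ⟨A, hA, hAf, hcl, K, d, hK⟩ := hN
  obtain ⟨C', hC'⟩ := conj_poly' hA hAf hcl (hnorm g hg) (hnorm g⁻¹ (M.inv_mem hg)) hnil
  set C : ℕ := C' + 1 with hCdef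
  have hC : ∀ a ∈ A, ∀ j : ℤ, g ^ j * a * (g ^ j)⁻¹ ∈ A ^ (C * (j.natAbs + 1) ^ c) :=
    fun a ha j => hA.mono (Nat.mul_le_mul_right _ (by omega)) (hC' a ha j)
  let A' : Set G := A ∪ {g, g⁻¹}
  have hA'f : A'.Finite := hAf.union (by simp)
  have hA' : Sym A' := by
    refine ⟨Or.inl hA.one, ?_⟩
    rintro a (ha | rfl | ha)
    · exact Or.inl (hA.inv a ha)
    · exact Or.inr (Or.inr rfl)
    · right; left
      rw [Set.mem_singleton_iff.1 ha, inv_inv]
  have hcl' : Subgroup.closure A' = M := by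
    rw [hM, ← hcl, Subgroup.closure_union]
    congr 1
    rw [Subgroup.zpowers_eq_closure]
    apply le_antisymm
    · rw [Subgroup.closure_le]
      rintro y (rfl | hy)
      · exact Subgroup.subset_closure rfl
      · rw [Set.mem_singleton_iff.1 hy]
        exact Subgroup.inv_mem _ (Subgroup.subset_closure rfl)
    · exact Subgroup.closure_mono (by simp)
  refine ⟨A', hA', hA'f, hcl', K * (C * 2 ^ c) ^ d * 3, (c + 1) * d + 1, ?_⟩
  have key : ∀ m : ℕ, ∀ x ∈ A' ^ m, ∃ u ∈ A ^ (m * (C * (m + 1) ^ c)), ∃ j : ℤ,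
      j.natAbs ≤ m ∧ x = u * g ^ j := by
    intro m
    induction m with
    | zero =>
      intro x hx
      rw [pow_zero, Set.mem_one] at hx
      subst hx
      exact ⟨1, by simp, 0, by simp, by simp⟩
    | succ m ih =>
      intro x hx
      rw [pow_succ] at hx
      obtain ⟨y, hy, a, ha, rfl⟩ := Set.mem_mul.1 hx
      obtain ⟨u, hu, j, hj, rfl⟩ := ih y hy
      have hmono : m * (C * (m + 1) ^ c) ≤ (m + 1) * (C * (m + 1 + 1) ^ c) := by
        gcongr <;> omega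
      rcases ha with ha | rfl | ha
      · refine ⟨u * (g ^ j * a * (g ^ j)⁻¹), hA.mono ?_ (pow_mul_mem hu (hC a ha j)), j,
          by omega, by group⟩
        calc m * (C * (m + 1) ^ c) + C * (j.natAbs + 1) ^ c
            ≤ m * (C * (m + 1) ^ c) + C * (m + 1) ^ c := by gcongr
          _ = (m + 1) * (C * (m + 1) ^ c) := by ring
          _ ≤ (m + 1) * (C * (m + 1 + 1) ^ c) := by gcongr; omega
      · exact ⟨u, hA.mono hmono hu, j + 1, by omega, by rw [zpow_add_one, mul_assoc]⟩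
      · rw [Set.mem_singleton_iff.1 ha]
        exact ⟨u, hA.mono hmono hu, j - 1, by omega, by rw [zpow_sub_one, mul_assoc]⟩
  intro m hm
  set q : ℕ := m * (C * (m + 1) ^ c) with hq
  have hq1 : 1 ≤ q := Nat.mul_pos hm (Nat.mul_pos (by omega) (Nat.pow_pos (by omega)))
  have hAq : (A ^ q).Finite := pow_finite hAf q
  have h1 : A' ^ m ⊆ (fun p : G × ℤ => p.1 * g ^ p.2) ''
      ((A ^ q) ×ˢ (Set.Icc (-(m : ℤ)) m)) := by
    intro x hx
    obtain ⟨u, hu, j, hj, rfl⟩ := key m x hx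
    refine ⟨(u, j), ⟨hu, ?_⟩, rfl⟩
    rw [Set.mem_Icc]
    show -(m : ℤ) ≤ j ∧ j ≤ m
    omega
  have h2 : (A' ^ m).ncard ≤ (A ^ q).ncard * (2 * m + 1) := by
    refine (Set.ncard_le_ncard h1 ((hAq.prod (Set.finite_Icc _ _)).image _)).trans ?_
    refine (Set.ncard_image_le (hAq.prod (Set.finite_Icc _ _))).trans ?_
    rw [Set.ncard_prod]
    have h3 : (Set.Icc (-(m : ℤ)) m).ncard = 2 * m + 1 := by
      rw [← Finset.coe_Icc, Set.ncard_coe_finset, Int.card_Icc]
      omega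
    rw [h3]
  have h3 : q ≤ C * 2 ^ c * m ^ (c + 1) := by
    calc q ≤ m * (C * (2 * m) ^ c) := by rw [hq]; gcongr; omega
      _ = C * 2 ^ c * m ^ (c + 1) := by rw [mul_pow]; ring
  calc (A' ^ m).ncard ≤ (A ^ q).ncard * (2 * m + 1) := h2
    _ ≤ (K * q ^ d) * (3 * m) := by
        gcongr
        · exact hK q hq1
        · omega
    _ ≤ (K * (C * 2 ^ c * m ^ (c + 1)) ^ d) * (3 * m) := by gcongr
    _ = K * (C * 2 ^ c) ^ d * 3 * m ^ ((c + 1) * d + 1) := by
        rw [mul_pow (C * 2 ^ c), ← pow_mul]; ring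

theorem pgr_of_pc {c : ℕ} (hnil : (⊤ : Subgroup G).lowerCentralSeries c = ⊥) {N : Subgroup G}
    (hN : PC N) : PGr N := by
  induction hN with
  | bot =>
    refine ⟨{1}, ⟨rfl, ?_⟩, Set.finite_singleton 1, ?_, 1, 0, ?_⟩
    · rintro a (rfl : a = 1)
      simp
    · simp
    · intro m _
      have h1 : ({1} : Set G) ^ m = {1} := by
        rw [Set.singleton_one, one_pow]
      rw [h1]; simp
  | @step N M hN hle hnorm g hg hM ih => exact pgr_step hnil ih hnorm hg hM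

theorem PGr.map_subtype {N : Subgroup G} (h : PGr (⊤ : Subgroup N)) : PGr N := by
  obtain ⟨A, hA, hAf, hcl, C, d, hC⟩ := h
  refine ⟨N.subtype '' A, ⟨⟨1, hA.one, rfl⟩, ?_⟩, hAf.image _, ?_, C, d, ?_⟩
  · rintro _ ⟨a, ha, rfl⟩
    exact ⟨a⁻¹, hA.inv a ha, rfl⟩
  · rw [← MonoidHom.map_closure, hcl, ← MonoidHom.range_eq_map, Subgroup.range_subtype]
  · intro m hm
    rw [← Set.image_pow, Set.ncard_image_of_injective _ N.subtype_injective]
    exact hC m hm

/-- a nilpotent polycyclic subgroup has polynomial growth. -/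
theorem pgr_of_nilpotent {N : Subgroup G} (hN : PC N) (hnil : Group.IsNilpotent N) : PGr N := by
  obtain ⟨c, hc⟩ := Subgroup.nilpotent_iff_lowerCentralSeries.mp hnil
  exact PGr.map_subtype (pgr_of_pc hc (pc_top_iff.2 hN))

end Crest.Agent.R182.FinNil
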