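import Crest.Agent.R182.QIMap
import Crest.Agent.R189.Mean
import Crest.Prelude.Def_Polycyclic

/-!
# Row 182, module QI2/QI3: amenability is a quasi-isometry invariant; virtually polycyclic groups are
amenable; quasimorphisms on amenable groups are close to homomorphisms (author: helper506)
-/

set_option autoImplicit false

namespace Crest.Agent.R182.QI

open Crest.GroupTheory Crest.Geometry Crest.Agent.R189.MeanF

section QI

variable {H P : Type*} [Group H] [Group P] {T : Finset H} {S : Finset P} {F : H → P} {K : ℕ}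

lemma Bdd.finsum {ι Ω : Type*} (s : Finset ι) {f : ι → Ω → ℝ} (hf : ∀ i ∈ s, Bdd (f i)) :
    Bdd (fun x => ∑ i ∈ s, f i x) := by
  classical
  induction s using Finset.induction_on with
  | empty => exact ⟨0, by simp⟩
  | insert a s ha ih =>
    have h1 := (hf a (Finset.mem_insert_self _ _)).add (ih (fun i hi => hf i (Finset.mem_insert_of_mem hi)))
    refine (funext fun x => ?_ : (fun x => ∑ i ∈ insert a s, f i x) = f a + fun x => ∑ i ∈ s, f i x) ▸ h1
    rw [Finset.sum_insert ha]; rfl

lemma IsMean.finsum {ι Ω : Type*} {m : (Ω → ℝ) → ℝ} (hm : IsMean m) (s : Finset ι) {f : ι → Ω → ℝ}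
    (hf : ∀ i ∈ s, Bdd (f i)) : m (fun x => ∑ i ∈ s, f i x) = ∑ i ∈ s, m (f i) := by
  classical
  induction s using Finset.induction_on with
  | empty => simpa using hm.zero
  | insert a s ha ih =>
    have h1 := hm.add (f a) (fun x => ∑ i ∈ s, f i x) (hf a (Finset.mem_insert_self _ _))
      (Bdd.finsum s (fun i hi => hf i (Finset.mem_insert_of_mem hi)))
    rw [Finset.sum_insert ha, ← ih (fun i hi => hf i (Finset.mem_insert_of_mem hi)), ← h1]
    congr 1
    funext x
    rw [Finset.sum_insert ha]; rfl

/-- **amenability is a quasi-isometry invariant** -/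
theorem amen_of_qi (hT : Subgroup.closure (T : Set H) = ⊤) (hS : Subgroup.closure (S : Set P) = ⊤)
    (h : QIMap (T : Set H) (S : Set P) F K) (hP : Amen P) : Amen H := by
  classical
  obtain ⟨m, hm, -, hR⟩ := hP.biinv
  -- fibres
  have hfib : ∀ p : P, {x : H | F x = p}.Finite := by
    intro p
    refine (h.preimage_finite hT hS p 0).1.subset ?_
    intro x hx
    have hx' : F x = p := hx
    show nd (S : Set P) p (F x) ≤ 0
    rw [hx']; simp
  set M : ℕ := (2 * T.card + 1) ^ (2 * K * 0 + K) with hM
  have hfibc : ∀ p : P, (hfib p).toFinset.card ≤ M := by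
    intro p
    rw [← Set.ncard_eq_toFinset_card _ (hfib p)]
    refine (Set.ncard_le_ncard ?_ (h.preimage_finite hT hS p 0).1).trans
      (h.preimage_finite hT hS p 0).2
    intro x hx
    have hx' : F x = p := hx
    show nd (S : Set P) p (F x) ≤ 0
    rw [hx']; simp
  -- push forward of functions
  let push : (H → ℝ) → (P → ℝ) := fun f p => ∑ x ∈ (hfib p).toFinset, f x
  have hpushB : ∀ (f : H → ℝ) (C : ℝ), (∀ x, |f x| ≤ C) → ∀ p, |push f p| ≤ M * C := by
    intro f C hC p
    have hC0 : 0 ≤ C := (abs_nonneg _).trans (hC 1)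
    calc |push f p| ≤ ∑ x ∈ (hfib p).toFinset, |f x| := Finset.abs_sum_le_sum_abs _ _
      _ ≤ ∑ x ∈ (hfib p).toFinset, C := Finset.sum_le_sum (fun x _ => hC x)
      _ = (hfib p).toFinset.card * C := by simp
      _ ≤ M * C := by
        apply mul_le_mul_of_nonneg_right _ hC0
        exact_mod_cast hfibc p
  have hpushBdd : ∀ f : H → ℝ, Bdd f → Bdd (push f) := by
    rintro f ⟨C, hC⟩
    exact ⟨_, hpushB f C hC⟩
  -- normalisation
  let Z : ℝ := m (push (fun _ => 1))
  have h1B : Bdd (fun _ : H => (1 : ℝ)) := Bdd.const 1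
  have hZ : 0 < Z := by
    -- finitely many right translates of `F(H)` cover `P`
    have hcov : ∀ p : P, (1 : ℝ) ≤ ∑ s ∈ ballF S K, push (fun _ => 1) (p * s) := by
      intro p
      obtain ⟨x, hx⟩ := h.dense p
      have hs : p⁻¹ * F x ∈ ballF S K := (mem_ballF hS).mpr hx
      have h2 : (1 : ℝ) ≤ push (fun _ => 1) (p * (p⁻¹ * F x)) := by
        have h3 : p * (p⁻¹ * F x) = F x := by group
        rw [h3]
        show (1 : ℝ) ≤ ∑ y ∈ (hfib (F x)).toFinset, 1
        rw [Finset.sum_const, nsmul_eq_mul, mul_one]
        have : 0 < (hfib (F x)).toFinset.card := Finset.card_pos.mpr ⟨x, by simp⟩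
        exact_mod_cast this
      refine h2.trans (Finset.single_le_sum (f := fun s => push (fun _ => 1) (p * s)) ?_ hs)
      intro s _
      exact Finset.sum_nonneg (fun _ _ => zero_le_one)
    have h4 : (1 : ℝ) ≤ m (fun p => ∑ s ∈ ballF S K, push (fun _ => 1) (p * s)) := by
      refine hm.one.symm.le.trans (hm.mono (Bdd.const 1) ?_ hcov)
      exact Bdd.finsum _ (fun s _ => (hpushBdd _ h1B).comp (fun p => p * s))
    rw [IsMean.finsum hm _ (fun s _ => (hpushBdd _ h1B).comp (fun p => p * s))] at h4
    have h5 : ∀ s ∈ ballF S K, m (fun p => push (fun _ => 1) (p * s)) = Z := fun s _ =>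
      hR s _ (hpushBdd _ h1B)
    rw [Finset.sum_congr rfl h5, Finset.sum_const, nsmul_eq_mul] at h4
    by_contra hneg
    push Not at hneg
    have : ((ballF S K).card : ℝ) * Z ≤ 0 := mul_nonpos_of_nonneg_of_nonpos (by positivity) hneg
    linarith
  -- the right invariant mean on `H`
  let n : (H → ℝ) → ℝ := fun f => m (push f) / Z
  have hpadd : ∀ f g : H → ℝ, push (f + g) = push f + push g := by
    intro f g; funext p
    exact Finset.sum_add_distrib
  have hpsmul : ∀ (c : ℝ) (f : H → ℝ), push (c • f) = c • push f := by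
    intro c f; funext p
    simp only [push, Pi.smul_apply, smul_eq_mul, Finset.mul_sum]
  have hn : IsMean n := by
    refine ⟨?_, ?_, ?_, ?_⟩
    · intro f g hf hg
      simp only [n]
      rw [hpadd, hm.add _ _ (hpushBdd f hf) (hpushBdd g hg), add_div]
    · intro c f hf
      simp only [n]
      rw [hpsmul, hm.smul c _ (hpushBdd f hf), mul_div_assoc]
    · intro f hf h0
      exact div_nonneg (hm.nonneg _ (hpushBdd f hf) (fun p => Finset.sum_nonneg (fun x _ => h0 x))) hZ.le
    · exact div_self hZ.ne'
  -- invariance under right translations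
  have hinv : ∀ (g : H) (f : H → ℝ), Bdd f → n (fun x => f (x * g)) = n f := by
    intro g f hf
    simp only [n]
    congr 1
    -- displacement set
    set D : Finset P := ballF S (K * wordLength (T : Set H) g + K) with hD
    have hdisp : ∀ x : H, (F x)⁻¹ * F (x * g) ∈ D := fun x =>
      (mem_ballF hS).mpr (h.displacement x g)
    -- functions
    let A : P → P → ℝ := fun s q => ∑ y ∈ (hfib q).toFinset,
      if (F (y * g⁻¹))⁻¹ * q = s then f y else 0
    have hAB : ∀ s, Bdd (A s) := by
      intro s
      obtain ⟨C, hC⟩ := hf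
      have hC0 : 0 ≤ C := (abs_nonneg _).trans (hC 1)
      refine ⟨M * C, fun q => ?_⟩
      calc |A s q| ≤ ∑ y ∈ (hfib q).toFinset, |if (F (y * g⁻¹))⁻¹ * q = s then f y else 0| :=
            Finset.abs_sum_le_sum_abs _ _
        _ ≤ ∑ y ∈ (hfib q).toFinset, C := Finset.sum_le_sum (fun y _ => by
            split_ifs
            · exact hC y
            · simpa using hC0)
        _ = (hfib q).toFinset.card * C := by simp
        _ ≤ M * C := by
          apply mul_le_mul_of_nonneg_right _ hC0
          exact_mod_cast hfibc q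
    have e1 : push (fun x => f (x * g)) = fun p => ∑ s ∈ D, A s (p * s) := by
      funext p
      simp only [push, A]
      -- swap sums
      have e2 : ∀ s ∈ D, (∑ y ∈ (hfib (p * s)).toFinset,
          if (F (y * g⁻¹))⁻¹ * (p * s) = s then f y else 0) =
          ∑ x ∈ (hfib p).toFinset, if (F x)⁻¹ * F (x * g) = s then f (x * g) else 0 := by
        intro s _
        rw [← Finset.sum_filter, ← Finset.sum_filter]
        refine Finset.sum_bij' (fun y _ => y * g⁻¹) (fun x _ => x * g) ?_ ?_ ?_ ?_ ?_
        · intro y hy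
          simp only [Finset.mem_filter, Set.Finite.mem_toFinset, Set.mem_ofPred_eq] at hy ⊢
          obtain ⟨hy1, hy2⟩ := hy
          have hy3 : F (y * g⁻¹) = p := by
            have : (F (y * g⁻¹))⁻¹ * p * s = s := by rw [mul_assoc]; exact hy2
            have h6 : (F (y * g⁻¹))⁻¹ * p = 1 := by
              simpa using this
            exact inv_mul_eq_one.mp h6
          refine ⟨hy3, ?_⟩
          rw [hy3]; simp [hy1]
        · intro x hx
          simp only [Finset.mem_filter, Set.Finite.mem_toFinset, Set.mem_ofPred_eq] at hx ⊢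
          obtain ⟨hx1, hx2⟩ := hx
          subst hx1
          refine ⟨by rw [← hx2]; group, ?_⟩
          simp
        · intro y _; simp
        · intro x _; simp
        · intro y _; simp
      rw [Finset.sum_congr rfl e2, Finset.sum_comm]
      refine Finset.sum_congr rfl (fun x _ => ?_)
      rw [Finset.sum_ite_eq]
      simp [hdisp x]
    have e3 : push f = fun q => ∑ s ∈ D, A s q := by
      funext q
      simp only [push, A]
      rw [Finset.sum_comm]
      refine Finset.sum_congr rfl (fun y hy => ?_)
      rw [Finset.sum_ite_eq]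
      have hy1 : F y = q := by simpa using hy
      have : (F (y * g⁻¹))⁻¹ * q ∈ D := by
        have := hdisp (y * g⁻¹)
        simpa [hy1] using this
      simp [this]
    rw [e1, e3, IsMean.finsum hm D (fun s _ => (hAB s).comp (fun p => p * s)),
      IsMean.finsum hm D (fun s _ => hAB s)]
    exact Finset.sum_congr rfl (fun s _ => hR s (A s) (hAB s))
  -- a right invariant mean gives a left invariant mean
  refine amen_iff.mpr ⟨fun f => n (fun x => f x⁻¹), hn.map (fun x => x⁻¹), ?_⟩
  intro g f hf
  have := hinv g⁻¹ (fun x => f x⁻¹) (hf.comp _)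
  simpa using this

end QI

section Polycyclic

variable {G : Type*} [Group G]

lemma amen_of_isCyclic [IsCyclic G] : Amen G := by
  obtain ⟨g, hg⟩ := IsCyclic.exists_generator (α := G)
  refine amen_int.of_surjective (zpowersHom G g) ?_
  intro x
  obtain ⟨k, rfl⟩ := Subgroup.mem_zpowers_iff.mp (hg x)
  exact ⟨Multiplicative.ofAdd k, rfl⟩

/-- one polycyclic step -/
lemma amen_step {A B : Subgroup G} (hAB : A ≤ B) (hn : ∀ h ∈ B, ∀ x ∈ A, h * x * h⁻¹ ∈ A)
    {g : G} (hg : g ∈ B) (hB : B = A ⊔ Subgroup.zpowers g) (hA : Amen A) : Amen B := by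
  let A' : Subgroup B := A.subgroupOf B
  have hA'n : A'.Normal := ⟨fun x hx h => by
    rw [Subgroup.mem_subgroupOf] at hx ⊢
    exact hn h h.2 x hx⟩
  have hA' : Amen A' := hA.of_mulEquiv (Subgroup.subgroupOfEquivOfLe hAB)
  have hcyc : IsCyclic (B ⧸ A') := by
    refine ⟨⟨QuotientGroup.mk (s := A') ⟨g, hg⟩, ?_⟩⟩
    intro q
    obtain ⟨b, rfl⟩ := QuotientGroup.mk'_surjective A' q
    · have key : (⊤ : Subgroup B) ≤ (Subgroup.zpowers (QuotientGroup.mk (s := A') ⟨g, hg⟩)).comap
          (QuotientGroup.mk' A') := by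
        have h1 : A ⊔ Subgroup.zpowers g ≤ ((Subgroup.zpowers (QuotientGroup.mk (s := A') ⟨g, hg⟩)).comap
          (QuotientGroup.mk' A')).map B.subtype := by
          rw [sup_le_iff]
          constructor
          · intro a ha
            refine ⟨⟨a, hAB ha⟩, ?_, rfl⟩
            have : (QuotientGroup.mk' A') ⟨a, hAB ha⟩ = 1 := by
              rw [QuotientGroup.mk'_apply, QuotientGroup.eq_one_iff]
              exact ha
            rw [SetLike.mem_coe, Subgroup.mem_comap, this]
            exact one_mem _
          · rw [Subgroup.zpowers_le]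
            exact ⟨⟨g, hg⟩, Subgroup.mem_zpowers _, rfl⟩
        intro b _
        have hb : (b : G) ∈ A ⊔ Subgroup.zpowers g := hB ▸ b.2
        obtain ⟨b', hb', hbb⟩ := h1 hb
        have : b' = b := Subtype.ext hbb
        exact this ▸ hb'
      exact key (Subgroup.mem_top b)
  refine amen_of_ker (QuotientGroup.mk' A') amen_of_isCyclic ?_
  rw [QuotientGroup.ker_mk']
  exact hA'

theorem amen_of_polycyclic (h : IsPolycyclic G) : Amen G := by
  obtain ⟨n, H, h0, hn, hstep⟩ := h
  have key : ∀ i : Fin (n + 1), Amen (H i) := by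
    intro i
    induction i using Fin.induction with
    | zero =>
      rw [h0]
      exact amen_of_subsingleton
    | succ i ih =>
      obtain ⟨hle, hnorm, g, hg, hsup⟩ := hstep i
      exact amen_step hle hnorm hg hsup ih
  have := key (Fin.last n)
  rw [hn] at this
  exact this.of_mulEquiv Subgroup.topEquiv.symm

theorem amen_of_finiteIndex (A : Subgroup G) [A.FiniteIndex] (h : Amen A) : Amen G := by
  have h1 : Amen (A.normalCore) := (h.subgroup (A.normalCore.subgroupOf A)).of_mulEquiv
    (Subgroup.subgroupOfEquivOfLe (Subgroup.normalCore_le A)).symm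
  have : Finite (G ⧸ A.normalCore) := inferInstance
  refine amen_of_ker (QuotientGroup.mk' A.normalCore) amen_of_finite ?_
  rw [QuotientGroup.ker_mk']
  exact h1

/-- **virtually polycyclic groups are amenable** -/
theorem amen_of_virtuallyPolycyclic (h : IsVirtuallyPolycyclic G) : Amen G := by
  obtain ⟨A, hA, hp⟩ := h
  exact amen_of_finiteIndex A (amen_of_polycyclic hp)

end Polycyclic

section Quasimorphism

variable {H : Type*} [Group H]

/-- **quasimorphisms on an amenable group are at bounded distance from homomorphisms** -/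
theorem exists_hom_of_quasimorphism (hH : Amen H) (f : H → ℝ) (D : ℝ)
    (hf : ∀ g h, |f (g * h) - f g - f h| ≤ D) :
    ∃ θ : H →* Multiplicative ℝ, ∀ g, |f g - (θ g).toAdd| ≤ D := by
  obtain ⟨m, hm, -, hR⟩ := hH.biinv
  have hB : ∀ g, Bdd (fun x => f (x * g) - f x) := fun g =>
    ⟨|f g| + D, fun x => by
      have := hf x g
      rw [abs_le] at this ⊢
      have h1 := neg_abs_le (f g)
      have h2 := le_abs_self (f g)
      constructor <;> linarith [this.1, this.2]⟩
  let θ : H → ℝ := fun g => m (fun x => f (x * g) - f x)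
  have hadd : ∀ g h, θ (g * h) = θ g + θ h := by
    intro g h
    have h1 : m (fun x => f (x * g * h) - f (x * g)) = θ h := hR g (fun x => f (x * h) - f x) (hB h)
    have h2 : (fun x => f (x * (g * h)) - f x) =
        (fun x => f (x * g * h) - f (x * g)) + fun x => f (x * g) - f x := by
      funext x; simp [mul_assoc]
    show m (fun x => f (x * (g * h)) - f x) = _
    rw [h2, hm.add _ _ ((hB h).comp (fun x => x * g)) (hB g), h1]
    ring
  have h1 : θ 1 = 0 := by
    have := hadd 1 1
    rw [mul_one] at this
    linarith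
  refine ⟨⟨⟨fun g => Multiplicative.ofAdd (θ g), by rw [h1]; rfl⟩, fun g h => by
    rw [← ofAdd_add, ← hadd]⟩, fun g => ?_⟩
  show |f g - θ g| ≤ D
  have h3 : m (fun _ => f g) = f g := hm.const _
  rw [← h3]
  exact hm.abs_sub_le (Bdd.const _) (hB g) (fun x => by
    have := hf x g
    rw [← abs_neg] at this
    refine le_of_eq_of_le ?_ this
    congr 1; ring)

/-- version with an error depending only on the group elements (`ε` arbitrary): the mean of the
difference is a homomorphism, and it is as close to `f` as the defect allows -/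
theorem exists_hom_of_defect (hH : Amen H) (f : H → ℝ) (ε : H → ℝ)
    (hf : ∀ g h, |f (g * h) - f g - f h| ≤ ε h) :
    ∃ θ : H →* Multiplicative ℝ, ∀ g, |f g - (θ g).toAdd| ≤ ε g := by
  obtain ⟨m, hm, -, hR⟩ := hH.biinv
  have hB : ∀ g, Bdd (fun x => f (x * g) - f x) := fun g =>
    ⟨|f g| + ε g, fun x => by
      have := hf x g
      rw [abs_le] at this ⊢
      have h1 := neg_abs_le (f g)
      have h2 := le_abs_self (f g)
      constructor <;> linarith [this.1, this.2]⟩
  let θ : H → ℝ := fun g => m (fun x => f (x * g) - f x)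
  have hadd : ∀ g h, θ (g * h) = θ g + θ h := by
    intro g h
    have h1 : m (fun x => f (x * g * h) - f (x * g)) = θ h := hR g (fun x => f (x * h) - f x) (hB h)
    have h2 : (fun x => f (x * (g * h)) - f x) =
        (fun x => f (x * g * h) - f (x * g)) + fun x => f (x * g) - f x := by
      funext x; simp [mul_assoc]
    show m (fun x => f (x * (g * h)) - f x) = _
    rw [h2, hm.add _ _ ((hB h).comp (fun x => x * g)) (hB g), h1]
    ring
  have h1 : θ 1 = 0 := by
    have := hadd 1 1
    rw [mul_one] at this
    linarith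
  refine ⟨⟨⟨fun g => Multiplicative.ofAdd (θ g), by rw [h1]; rfl⟩, fun g h => by
    rw [← ofAdd_add, ← hadd]⟩, fun g => ?_⟩
  show |f g - θ g| ≤ ε g
  have h3 : m (fun _ => f g) = f g := hm.const _
  rw [← h3]
  exact hm.abs_sub_le (Bdd.const _) (hB g) (fun x => by
    have := hf x g
    rw [← abs_neg] at this
    refine le_of_eq_of_le ?_ this
    congr 1; ring)

end Quasimorphism

end Crest.Agent.R182.QI
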