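/-
R182, module FINRED (helper278): reduction of S0272 to a statement about the heights of
self-quasi-isometries of the polycyclic group.
-/
import Mathlib
import Crest.Prelude.Def_Polycyclic
import Crest.Prelude.Def_WordHyperbolic
import Crest.Agent.R182.FinPath
import Crest.Agent.R182.FinNil
import Crest.Agent.R182.QIAmen

set_option autoImplicit false

namespace Crest.Agent.R182.FinRed

open Crest.GroupTheory Crest.Geometry Crest.Agent.R182.QI Crest.Agent.R182.FinAlg
  Crest.Agent.R182.FinPath Crest.Agent.R182.FinNil Crest.Agent.R189.MeanF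

universe u v

/-- the real height -/
def hgtR {G : Type*} [Group G] {k : ℕ} (π : G →* Multiplicative (Fin k → ℤ)) (g : G) :
    Fin k → ℝ := fun i => ((hgt π g i : ℤ) : ℝ)

/-- The height of every quasi-isometry `H → G` is, on a finite-index subgroup, at bounded distance
from a homomorphism. -/
def HeightRigid {G : Type u} [Group G] (S : Set G) {k : ℕ}
    (π : G →* Multiplicative (Fin k → ℤ)) : Prop :=
  ∀ (H : Type v) [Group H] (T : Finset H), Subgroup.closure (T : Set H) = ⊤ →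
    ∀ (F : H → G) (K : ℕ), QIMap (T : Set H) S F K →
    ∃ H0 : Subgroup H, H0.FiniteIndex ∧ ∃ (θ : H0 →* Multiplicative (Fin k → ℝ)) (D : ℝ),
      ∀ (h : H0) (i : Fin k), |((hgt π (F h) i : ℤ) : ℝ) - ht θ h i| ≤ D

/-- quasimorphism version. -/
def HeightQM {G : Type u} [Group G] (S : Set G) {k : ℕ}
    (π : G →* Multiplicative (Fin k → ℤ)) : Prop :=
  ∀ (H : Type v) [Group H] (T : Finset H), Subgroup.closure (T : Set H) = ⊤ →
    ∀ (F : H → G) (K : ℕ), QIMap (T : Set H) S F K →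
    ∃ H0 : Subgroup H, H0.FiniteIndex ∧ ∃ D : ℝ,
      ∀ (g h : H) (i : Fin k), g ∈ H0 → h ∈ H0 →
        |hgtR π (F (g * h)) i - hgtR π (F g) i - hgtR π (F h) i| ≤ D

/-- self-quasi-isometry version: uniformly affine heights with finitely many linear parts. -/
def HeightAffine {G : Type u} [Group G] (S : Set G) {k : ℕ}
    (π : G →* Multiplicative (Fin k → ℤ)) : Prop :=
  ∀ K : ℕ, ∃ (D : ℝ) (L : Set ((Fin k → ℝ) →ₗ[ℝ] (Fin k → ℝ))), L.Finite ∧
    ∀ F : G → G, QIMap S S F K → ∃ B ∈ L, ∃ b : Fin k → ℝ,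
      ∀ (x : G) (i : Fin k), |hgtR π (F x) i - B (hgtR π x) i - b i| ≤ D

theorem final_of_rigid {P : Type u} {H : Type v} [Group P] [Group H] (S : Finset P)
    (hS : Subgroup.closure (S : Set P) = ⊤) (T : Finset H)
    (hT : Subgroup.closure (T : Set H) = ⊤) (F : H → P)
    (hF : IsQuasiIsometry (wordDist (T : Set H)) (wordDist (S : Set P)) F)
    (G₁ : Subgroup P) [G₁.FiniteIndex] (S₁ : Finset G₁)
    (hS₁ : Subgroup.closure (S₁ : Set G₁) = ⊤) {k : ℕ}
    (π : G₁ →* Multiplicative (Fin k → ℤ)) (hπ : Function.Surjective π) (hN : PGr π.ker)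
    (hR : HeightRigid.{u, v} (S₁ : Set G₁) π) : IsVirtuallyPolycyclic H := by
  obtain ⟨K, -, hK⟩ := exists_QIMap hF
  obtain ⟨K₁, hK₁⟩ := QIMap_subtype hS G₁ S₁ hS₁
  obtain ⟨E, K₂, hE, -, -⟩ := hK₁.exists_inverse hS₁ hS
  have hEF := QIMap.comp hS₁ hE hK
  obtain ⟨H0, hH0, θ, D, hθ⟩ := hR H T hT (E ∘ F) _ hEF
  have hHfg : Group.FG H := ⟨T, hT⟩
  have hH0fg : Group.FG H0 := inferInstance
  obtain ⟨T0, hT0⟩ := hH0fg
  obtain ⟨K₃, hK₃⟩ := QIMap_subtype hT H0 T0 hT0
  have hF0 := QIMap.comp hS₁ hEF hK₃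
  obtain ⟨A, hA, hAf, hcl, C, d, hgrow⟩ := hN
  have h1 : IsVirtuallyPolycyclic H0 :=
    isVirtuallyPolycyclic_of_bounded_height hT0 hS₁ hF0 hπ hA hAf hcl hgrow θ D hθ
  exact Polyc.isVirtuallyPolycyclic_of_finiteIndex H0 hH0.index_ne_zero h1

theorem rigid_of_qm {G : Type u} [Group G] (hG : Amen G) (S : Finset G)
    (hS : Subgroup.closure (S : Set G) = ⊤) {k : ℕ} (π : G →* Multiplicative (Fin k → ℤ))
    (h : HeightQM.{u, v} (S : Set G) π) : HeightRigid.{u, v} (S : Set G) π := by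
  intro H _ T hT F K hF
  obtain ⟨H0, hH0, D, hD⟩ := h H T hT F K hF
  have hH : Amen H := amen_of_qi hT hS hF hG
  have hH0a : Amen H0 := hH.subgroup H0
  have h1 : ∀ i : Fin k, ∃ θ : H0 →* Multiplicative ℝ,
      ∀ g : H0, |hgtR π (F g) i - (θ g).toAdd| ≤ D := fun i =>
    exists_hom_of_quasimorphism hH0a (fun g : H0 => hgtR π (F g) i) D
      (fun g h => hD g h i g.2 h.2)
  choose θ hθ using h1
  refine ⟨H0, hH0, ⟨⟨fun g => Multiplicative.ofAdd fun i => (θ i g).toAdd, ?_⟩, ?_⟩, D, ?_⟩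
  · refine congrArg Multiplicative.ofAdd ?_
    funext i
    simp
  · intro a b
    refine congrArg Multiplicative.ofAdd ?_
    funext i
    simp
  · intro h i
    exact hθ i h

/-- a linear map which is bounded on a coarsely dense set of integer vectors vanishes. -/
theorem linear_eq_zero {k : ℕ} (M : (Fin k → ℝ) →ₗ[ℝ] (Fin k → ℝ)) (X : Set (Fin k → ℝ))
    (r C : ℝ) (hX : ∀ v : Fin k → ℤ, ∃ x ∈ X, ∀ i, |x i - v i| ≤ r)
    (hM : ∀ x ∈ X, ∀ i, |M x i| ≤ C) : M = 0 := by
  have hcont : Continuous M := LinearMap.continuous_of_finiteDimensional M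
  obtain ⟨c, hc⟩ : ∃ c, ∀ y : Fin k → ℝ, ‖M y‖ ≤ c * ‖y‖ := by
    let M' : (Fin k → ℝ) →L[ℝ] (Fin k → ℝ) := ⟨M, hcont⟩
    exact ⟨‖M'‖, fun y => M'.le_opNorm y⟩
  refine LinearMap.pi_ext' fun j => ?_
  refine LinearMap.ext_ring ?_
  rw [LinearMap.comp_apply, LinearMap.comp_apply]
  show M (Pi.single j 1) = (0 : (Fin k → ℝ) →ₗ[ℝ] (Fin k → ℝ)) (Pi.single j 1)
  rw [LinearMap.zero_apply]
  have key : ∀ n : ℕ, (n : ℝ) * ‖M (Pi.single j 1)‖ ≤ |C| + |c| * |r| := by
    intro n
    obtain ⟨x, hx, hxr⟩ := hX (Pi.single j (n : ℤ))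
    have h1 : M (Pi.single j (n : ℝ)) = (n : ℝ) • M (Pi.single j 1) := by
      rw [← map_smul]
      congr 1
      ext i
      by_cases hi : i = j
      · subst hi; simp
      · simp [hi]
    have h2 : ‖x - Pi.single j (n : ℝ)‖ ≤ |r| := by
      refine (pi_norm_le_iff_of_nonneg (abs_nonneg r)).2 fun i => ?_
      have h3 := hxr i
      have h4 : (((Pi.single j (n : ℤ) : Fin k → ℤ) i : ℤ) : ℝ) = (Pi.single j (n : ℝ) : Fin k → ℝ) i := by
        by_cases hi : i = j
        · subst hi; simp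
        · simp [hi]
      rw [h4] at h3
      rw [Real.norm_eq_abs, Pi.sub_apply]
      exact h3.trans (le_abs_self r)
    have h3 : ‖M x‖ ≤ |C| := (pi_norm_le_iff_of_nonneg (abs_nonneg C)).2 fun i =>
      (hM x hx i).trans (le_abs_self C)
    have h4 : ‖M (x - Pi.single j (n : ℝ))‖ ≤ |c| * |r| := by
      refine (hc _).trans ?_
      calc c * ‖x - Pi.single j (n : ℝ)‖ ≤ |c| * ‖x - Pi.single j (n : ℝ)‖ :=
            mul_le_mul_of_nonneg_right (le_abs_self c) (norm_nonneg _)
        _ ≤ |c| * |r| := mul_le_mul_of_nonneg_left h2 (abs_nonneg c)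
    have h5 : (n : ℝ) * ‖M (Pi.single j 1)‖ = ‖M (Pi.single j (n : ℝ))‖ := by
      rw [h1, norm_smul, Real.norm_eq_abs, Nat.abs_cast]
    rw [h5]
    have h6 : M (Pi.single j (n : ℝ)) = M x - M (x - Pi.single j (n : ℝ)) := by
      rw [map_sub]; abel
    rw [h6]
    exact (norm_sub_le _ _).trans (add_le_add h3 h4)
  by_contra hne
  have h0 : 0 < ‖M (Pi.single j 1)‖ := norm_pos_iff.2 hne
  obtain ⟨n, hn⟩ := exists_nat_gt ((|C| + |c| * |r|) / ‖M (Pi.single j 1)‖)
  rw [div_lt_iff₀ h0] at hn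
  exact absurd (key n) (not_le.2 hn)

theorem qm_of_affine {G : Type u} [Group G] (S : Finset G)
    (hS : Subgroup.closure (S : Set G) = ⊤) {k : ℕ} (π : G →* Multiplicative (Fin k → ℤ))
    (hπ : Function.Surjective π)
    (h : HeightAffine (S : Set G) π) : HeightQM.{u, v} (S : Set G) π := by
  classical
  intro H _ T hT F K hF
  obtain ⟨E, K', hE, hEF, hFE⟩ := hF.exists_inverse hT hS
  have hΦ : ∀ h : H, QIMap (S : Set G) (S : Set G) ((fun x => F (h * x)) ∘ E)
      (K' * K + K' + 2 * K) := fun h => QIMap.comp hS (hF.compMulLeft h) hE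
  obtain ⟨D, L, hL, hA⟩ := h (K' * K + K' + 2 * K)
  choose B hB b hb using fun h : H => hA _ (hΦ h)
  -- Lipschitz bound of heights
  obtain ⟨c, hc⟩ : ∃ c : ℕ, ∀ r, ∀ s : G, wordLength (S : Set G) s ≤ r → ∀ i,
      |hgtR π s i| ≤ c * r := by
    obtain ⟨c, hc⟩ := ((S : Set G).toFinite.image (fun s => n1 (hgt π s))).bddAbove
    refine ⟨c, fun r s hs i => ?_⟩
    obtain ⟨l, hl, hw, rfl⟩ := wordLength_spec hS s
    rw [← hl] at hs
    have h1 : ∀ l : List G, IsWord (S : Set G) l → |hgtR π l.prod i| ≤ c * l.length := by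
      intro l hl
      induction l with
      | nil => simp [hgtR, hgt_one]
      | cons a l ih =>
        have h2 := ih (fun x hx => hl x (List.mem_cons_of_mem _ hx))
        have h3 : (hgt π a i).natAbs ≤ c := by
          have h4 : ∀ s ∈ S, n1 (hgt π s) ≤ c := fun s hs => hc ⟨s, hs, rfl⟩
          have h5 : (hgt π a i).natAbs ≤ n1 (hgt π a) := by
            unfold n1
            exact Finset.single_le_sum (f := fun i => (hgt π a i).natAbs)
              (fun _ _ => Nat.zero_le _) (Finset.mem_univ i)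
          rcases hl a List.mem_cons_self with h6 | h6
          · exact h5.trans (h4 a h6)
          · have h7 := h4 _ h6
            rw [hgt_inv, n1_neg] at h7
            exact h5.trans h7
        have h4 : |hgtR π a i| ≤ c := by
          rw [hgtR, ← Int.cast_abs, ← Nat.cast_natAbs]
          exact_mod_cast h3
        rw [List.prod_cons, List.length_cons]
        have h5 : hgtR π (a * l.prod) i = hgtR π a i + hgtR π l.prod i := by
          simp [hgtR, hgt_mul]
        rw [h5]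
        push_cast
        refine (abs_add_le _ _).trans ?_
        linarith
    refine (h1 l hw).trans ?_
    have : (l.length : ℝ) ≤ r := by exact_mod_cast hs
    exact mul_le_mul_of_nonneg_left this (Nat.cast_nonneg _)
  have hclose : ∀ r, ∀ p q : G, nd (S : Set G) p q ≤ r → ∀ i,
      |hgtR π q i - hgtR π p i| ≤ c * r := by
    intro r p q hpq i
    have h1 := hc r (p⁻¹ * q) hpq i
    have h2 : hgtR π (p⁻¹ * q) i = hgtR π q i - hgtR π p i := by
      simp only [hgtR, hgt_mul, hgt_inv, Pi.add_apply, Pi.neg_apply]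
      push_cast
      ring
    rwa [h2] at h1
  -- the basic estimate
  set D1 : ℝ := D + c * ((K * K' + K : ℕ) : ℝ) with hD1
  have hest : ∀ h g : H, ∀ i, |hgtR π (F (h * g)) i - B h (hgtR π (F g)) i - b h i| ≤ D1 := by
    intro h g i
    have h1 := hb h (F g) i
    have h2 : nd (S : Set G) (F (h * E (F g))) (F (h * g)) ≤ K * K' + K := by
      refine (hF.up _ _).trans ?_
      rw [nd_mul_left]
      have := hEF g
      gcongr
    have h3 := hclose _ _ _ h2 i
    have h4 : hgtR π (F (h * g)) i - B h (hgtR π (F g)) i - b h i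
        = (hgtR π (F (h * g)) i - hgtR π (F (h * E (F g))) i) +
          (hgtR π (((fun x => F (h * x)) ∘ E) (F g)) i - B h (hgtR π (F g)) i - b h i) := by
      simp only [Function.comp_apply]
      ring
    rw [h4, hD1]
    refine (abs_add_le _ _).trans ?_
    linarith
  -- density of heights
  have hdense : ∀ v : Fin k → ℤ, ∃ x ∈ Set.range (fun g : H => hgtR π (F g)),
      ∀ i, |x i - v i| ≤ c * K := by
    intro v
    obtain ⟨p, hp⟩ := hπ (Multiplicative.ofAdd v)
    obtain ⟨g, hg⟩ := hF.dense p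
    refine ⟨_, ⟨g, rfl⟩, fun i => ?_⟩
    have h1 := hclose _ _ _ hg i
    have h2 : hgtR π p i = v i := by rw [hgtR, hgt, hp]; rfl
    rwa [h2] at h1
  have hbd : ∀ M : (Fin k → ℝ) →ₗ[ℝ] (Fin k → ℝ), ∃ C : ℝ, ∀ y : Fin k → ℝ,
      ∀ r : ℝ, (∀ i, |y i| ≤ r) → ∀ i, |M y i| ≤ C * |r| := by
    intro M
    let M' : (Fin k → ℝ) →L[ℝ] (Fin k → ℝ) :=
      ⟨M, LinearMap.continuous_of_finiteDimensional M⟩
    refine ⟨‖M'‖, fun y r hy i => ?_⟩
    have h1 : ‖y‖ ≤ |r| := (pi_norm_le_iff_of_nonneg (abs_nonneg r)).2 fun i =>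
      (hy i).trans (le_abs_self r)
    have h2 : ‖M y i‖ ≤ ‖M y‖ := norm_le_pi_norm _ i
    rw [Real.norm_eq_abs] at h2
    exact h2.trans ((M'.le_opNorm y).trans (mul_le_mul_of_nonneg_left h1 (norm_nonneg _)))
  -- multiplicativity of the linear part
  have hmul : ∀ g h : H, B (g * h) = B g * B h := by
    intro g h
    obtain ⟨C, hC⟩ := hbd (B g)
    have hz := linear_eq_zero (B (g * h) - B g * B h) (Set.range fun g : H => hgtR π (F g))
      (c * K) (3 * D1 + C * |D1| + ∑ j, |b g j| + ∑ j, |(B g (b h)) j| + ∑ j, |b (g * h) j|)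
      hdense (by
        rintro _ ⟨x, rfl⟩ i
        have h1 := hest (g * h) x i
        have h2 := hest g (h * x) i
        have h3 := hC (hgtR π (F (h * x)) - B h (hgtR π (F x)) - b h) D1
          (fun i => hest h x i) i
        rw [map_sub, map_sub] at h3
        rw [mul_assoc] at h1
        simp only [Pi.sub_apply] at h3
        have h4 : |b g i| ≤ ∑ j, |b g j| :=
          Finset.single_le_sum (f := fun j => |b g j|) (fun _ _ => abs_nonneg _)
            (Finset.mem_univ i)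
        have h5 : |(B g (b h)) i| ≤ ∑ j, |(B g (b h)) j| :=
          Finset.single_le_sum (f := fun j => |(B g (b h)) j|) (fun _ _ => abs_nonneg _)
            (Finset.mem_univ i)
        have h6 : |b (g * h) i| ≤ ∑ j, |b (g * h) j| :=
          Finset.single_le_sum (f := fun j => |b (g * h) j|) (fun _ _ => abs_nonneg _)
            (Finset.mem_univ i)
        have hD1' : 0 ≤ D1 := (abs_nonneg _).trans h1
        show |(B (g * h) (hgtR π (F x)) - B g (B h (hgtR π (F x)))) i| ≤ _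
        rw [Pi.sub_apply]
        rw [abs_le] at h1 h2 h3 h4 h5 h6 ⊢
        constructor <;> linarith [h1.1, h1.2, h2.1, h2.2, h3.1, h3.2, h4.1, h4.2, h5.1, h5.2,
          h6.1, h6.2])
    exact sub_eq_zero.1 hz
  have hone : B 1 = 1 := by
    have hz := linear_eq_zero (B 1 - 1) (Set.range fun g : H => hgtR π (F g))
      (c * K) (D1 + ∑ j, |b 1 j|) hdense (by
        rintro _ ⟨x, rfl⟩ i
        have h1 := hest 1 x i
        have h4 : |b 1 i| ≤ ∑ j, |b 1 j| :=
          Finset.single_le_sum (f := fun j => |b 1 j|) (fun _ _ => abs_nonneg _)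
            (Finset.mem_univ i)
        rw [one_mul] at h1
        show |(B 1 (hgtR π (F x)) - hgtR π (F x)) i| ≤ _
        rw [Pi.sub_apply]
        rw [abs_le] at h1 h4 ⊢
        constructor <;> linarith [h1.1, h1.2, h4.1, h4.2])
    exact sub_eq_zero.1 hz
  -- the finite-index subgroup
  let β : H →* Module.End ℝ (Fin k → ℝ) := ⟨⟨B, hone⟩, hmul⟩
  have hfin : Finite β.toHomUnits.range := by
    have h1 : (Set.range β.toHomUnits).Finite := by
      refine Set.Finite.of_finite_image (f := fun u : (Module.End ℝ (Fin k → ℝ))ˣ =>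
        (u : Module.End ℝ (Fin k → ℝ))) (hL.subset ?_) Units.val_injective.injOn
      rintro _ ⟨_, ⟨g, rfl⟩, rfl⟩
      exact hB g
    exact h1.to_subtype
  have hFI : β.toHomUnits.ker.FiniteIndex := Subgroup.finiteIndex_ker _
  refine ⟨β.toHomUnits.ker, hFI, 2 * D1 + ∑ j, |hgtR π (F 1) j|, ?_⟩
  intro g h i hg hh
  have hBg : B g = 1 := by
    have h1 : β.toHomUnits g = 1 := hg
    have h2 := congrArg (fun u : (Module.End ℝ (Fin k → ℝ))ˣ => (u : Module.End ℝ (Fin k → ℝ))) h1
    exact h2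
  have h1 := hest g h i
  have h2 := hest g 1 i
  rw [hBg, mul_one] at h2
  rw [hBg] at h1
  have h3 : (1 : Module.End ℝ (Fin k → ℝ)) (hgtR π (F h)) = hgtR π (F h) := rfl
  have h4 : (1 : Module.End ℝ (Fin k → ℝ)) (hgtR π (F 1)) = hgtR π (F 1) := rfl
  rw [h3] at h1
  rw [h4] at h2
  have h5 : |hgtR π (F 1) i| ≤ ∑ j, |hgtR π (F 1) j| :=
    Finset.single_le_sum (f := fun j => |hgtR π (F 1) j|) (fun _ _ => abs_nonneg _)
      (Finset.mem_univ i)
  rw [abs_le] at h1 h2 h5 ⊢
  constructor <;> linarith [h1.1, h1.2, h2.1, h2.2, h5.1, h5.2]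

/-- **Reduction theorem**: everything follows from `HeightAffine` (uniformly affine heights of
self-quasi-isometries of a finite-index subgroup `G₁` of `P`). -/
theorem final_of_affine {P : Type u} {H : Type v} [Group P] [Group H] (S : Finset P)
    (hS : Subgroup.closure (S : Set P) = ⊤) (T : Finset H)
    (hT : Subgroup.closure (T : Set H) = ⊤) (hP : IsVirtuallyPolycyclic P) (F : H → P)
    (hF : IsQuasiIsometry (wordDist (T : Set H)) (wordDist (S : Set P)) F)
    (G₁ : Subgroup P) [G₁.FiniteIndex] (S₁ : Finset G₁)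
    (hS₁ : Subgroup.closure (S₁ : Set G₁) = ⊤) {k : ℕ}
    (π : G₁ →* Multiplicative (Fin k → ℤ)) (hπ : Function.Surjective π) (hN : PGr π.ker)
    (hR : HeightAffine (S₁ : Set G₁) π) : IsVirtuallyPolycyclic H := by
  have hG₁ : Amen G₁ := (amen_of_virtuallyPolycyclic hP).subgroup G₁
  exact final_of_rigid S hS T hT F hF G₁ S₁ hS₁ π hπ hN
    (rigid_of_qm hG₁ S₁ hS₁ π (qm_of_affine S₁ hS₁ π hπ hR))

end Crest.Agent.R182.FinRed
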