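/-
R182, module BND (helper658): from the uniform sublinear law and the logarithmic law for
zero-weight moves to the law used by the final reduction.
-/
import Mathlib
import Crest.Agent.R182.BndZL
import Crest.Agent.R182.FinRed

set_option autoImplicit false

open Filter Topology
open scoped Pointwise

namespace Crest.Agent.R182.Bnd

open Crest.GroupTheory Crest.Geometry Crest.Agent.R182.QI Crest.Agent.R182.FinPath
  Crest.Agent.R182.FinRed

variable {Γ : Type*} [Group Γ] {k : ℕ}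

/-- The sublinear law of one map. -/
def SubAt (S : Set Γ) (π : Γ →* Multiplicative (Fin k → ℤ))
    (L : (Fin k → ℝ) →ₗ[ℝ] (Fin k → ℝ)) (C : ℝ → ℝ) (Ψ : Γ → Γ) : Prop :=
  ∀ ε > 0, ∀ (g y : Γ) (i : Fin k),
    |hgtR π (Ψ (g * y)) i - hgtR π (Ψ g) i - L (hgtR π y) i| ≤ ε * wordLength S y + C ε

/-- The uniform sublinear law. -/
def USL (S : Set Γ) (π : Γ →* Multiplicative (Fin k → ℤ)) : Prop :=
  ∀ K : ℕ, ∃ (LL : Set ((Fin k → ℝ) →ₗ[ℝ] (Fin k → ℝ))) (C : ℝ → ℝ), LL.Finite ∧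
    ∀ Ψ : Γ → Γ, QIMap S S Ψ K → ∃ L ∈ LL, SubAt S π L C Ψ

/-- The law of one map. -/
def LawAt (S : Set Γ) (π : Γ →* Multiplicative (Fin k → ℤ)) (A : Set Γ) (x : Fin k → Γ)
    (L : (Fin k → ℝ) →ₗ[ℝ] (Fin k → ℝ)) (C : ℝ → ℝ) (Ψ : Γ → Γ) : Prop :=
  ∀ ε > 0, ∀ (g y : Γ) (m : ℕ), y * (z x (hgt π y))⁻¹ ∈ A ^ m → ∀ i : Fin k,
    |hgtR π (Ψ (g * y)) i - hgtR π (Ψ g) i - L (hgtR π y) i| ≤
      ε * ((n1 (hgt π y) : ℝ) + Real.log (2 + m)) + C ε * Real.log (2 + wordLength S y)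

/-- The facts about the real model `G ⊇ Γ` which are used for the law. -/
structure CModel (S : Set Γ) (π : Γ →* Multiplicative (Fin k → ℤ)) (A : Set Γ) (x : Fin k → Γ)
    (G : Type*) [Group G] where
  ι : Γ →* G
  len : G → ℝ
  isLen : IsLen len
  a : ℝ
  one_le_a : 1 ≤ a
  len_ι : ∀ γ, len (ι γ) ≤ a * wordLength S γ
  ι_len : ∀ γ, (wordLength S γ : ℝ) ≤ a * len (ι γ) + a
  round : ∀ g, ∃ γ, len ((ι γ)⁻¹ * g) ≤ a
  h : G → Fin k → ℝ
  h_mul : ∀ g g', h (g * g') = h g + h g'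
  h_ι : ∀ γ, h (ι γ) = hgtR π γ
  h_le : ∀ g i, |h g i| ≤ a * len g
  m : ℕ
  Λ : Fin m → ((Fin k → ℝ) →ₗ[ℝ] ℝ)
  Λ_inj : ∀ v, (∀ j, Λ j v = 0) → v = 0
  Λ_ne : ∀ j, Λ j ≠ 0
  χ : Fin m → G → ℂ
  δ : Fin m → G → ℂ
  crossed : ∀ j, ∃ c B, Crossed len (fun g => Λ j (h g)) (χ j) (δ j) c B
  nontriv : ∀ j, ∃ n, h n = 0 ∧ δ j n ≠ 0
  χ_one : ∀ j n, h n = 0 → χ j n = 1
  C : Subgroup G
  chain : ∀ b ∈ C, ∃ (Z : ℕ → Set G) (r : ℕ), Chain len b Z r ∧ Z r = (C : Set G)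
  /-- the exponentially distorted part; any set containing `1` -/
  E : Set G
  one_mem_E : (1 : G) ∈ E
  t : (Fin k → ℤ) → G
  t_mem : ∀ v, t v ∈ C
  h_t : ∀ v i, h (t v) i = v i
  len_t : ∀ v, len (t v) ≤ a * n1 v
  /-- size function (norm of the matrix) -/
  sz : G → ℝ
  sz_nonneg : ∀ g, 0 ≤ sz g
  sz_inv : ∀ g, sz g⁻¹ = sz g
  dec : Dec len sz (C : Set G) {v | v ∈ C ∧ h v = 0}
  split : ∀ (y : Γ) (m : ℕ), y * (z x (hgt π y))⁻¹ ∈ A ^ m →
    ∃ e c : G, ι y = e * c ∧ e ∈ E ∧ c ∈ C ∧ h e = 0 ∧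
      len e ≤ a * ((n1 (hgt π y) : ℝ) + Real.log (2 + m) + Real.log (2 + wordLength S y)) ∧
      Real.log (2 + sz ((t (hgt π y))⁻¹ * c)) ≤ a * Real.log (2 + wordLength S y)

section Lin

theorem exists_coord_bound {m : ℕ} (Λ : Fin m → ((Fin k → ℝ) →ₗ[ℝ] ℝ))
    (hΛ : ∀ v, (∀ j, Λ j v = 0) → v = 0) :
    ∃ c : ℝ, 0 ≤ c ∧ ∀ (u : Fin k → ℝ) (B : ℝ), 0 ≤ B → (∀ j, |Λ j u| ≤ B) →
      ∀ i, |u i| ≤ c * B := by
  have hker : (LinearMap.pi Λ).ker = ⊥ := by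
    rw [LinearMap.ker_eq_bot']
    intro v hv
    exact hΛ v fun j => congrFun hv j
  obtain ⟨K, hK, hanti⟩ := (LinearMap.pi Λ).exists_antilipschitzWith hker
  refine ⟨K, K.2, fun u B hB hu i => ?_⟩
  have h1 : ‖u‖ ≤ K * ‖LinearMap.pi Λ u‖ := by
    have := hanti.le_mul_dist u 0
    simpa using this
  have h2 : ‖LinearMap.pi Λ u‖ ≤ B := by
    refine (pi_norm_le_iff_of_nonneg hB).2 fun j => ?_
    rw [Real.norm_eq_abs]
    exact hu j
  calc |u i| = ‖u i‖ := (Real.norm_eq_abs _).symm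
    _ ≤ ‖u‖ := norm_le_pi_norm u i
    _ ≤ K * ‖LinearMap.pi Λ u‖ := h1
    _ ≤ K * B := mul_le_mul_of_nonneg_left h2 K.2

theorem exists_lin_bound (L : (Fin k → ℝ) →ₗ[ℝ] (Fin k → ℝ)) :
    ∃ c : ℝ, 0 ≤ c ∧ ∀ (u : Fin k → ℝ) (B : ℝ), 0 ≤ B → (∀ i, |u i| ≤ B) →
      ∀ i, |L u i| ≤ c * B := by
  let L' : (Fin k → ℝ) →L[ℝ] (Fin k → ℝ) := ⟨L, LinearMap.continuous_of_finiteDimensional L⟩
  refine ⟨‖L'‖, norm_nonneg _, fun u B hB hu i => ?_⟩
  have h1 : ‖L' u‖ ≤ ‖L'‖ * ‖u‖ := L'.le_opNorm u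
  have h2 : ‖u‖ ≤ B := (pi_norm_le_iff_of_nonneg hB).2 fun j => by
    rw [Real.norm_eq_abs]; exact hu j
  calc |L u i| = ‖L' u i‖ := (Real.norm_eq_abs _).symm
    _ ≤ ‖L' u‖ := norm_le_pi_norm (L' u) i
    _ ≤ ‖L'‖ * ‖u‖ := h1
    _ ≤ ‖L'‖ * B := mul_le_mul_of_nonneg_left h2 (norm_nonneg _)

theorem exists_fun_bound (φ : (Fin k → ℝ) →ₗ[ℝ] ℝ) :
    ∃ c : ℝ, 0 ≤ c ∧ ∀ (u : Fin k → ℝ) (B : ℝ), 0 ≤ B → (∀ i, |u i| ≤ B) → |φ u| ≤ c * B := by
  let φ' : (Fin k → ℝ) →L[ℝ] ℝ := ⟨φ, LinearMap.continuous_of_finiteDimensional φ⟩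
  refine ⟨‖φ'‖, norm_nonneg _, fun u B hB hu => ?_⟩
  have h1 : ‖φ' u‖ ≤ ‖φ'‖ * ‖u‖ := φ'.le_opNorm u
  have h2 : ‖u‖ ≤ B := (pi_norm_le_iff_of_nonneg hB).2 fun j => by
    rw [Real.norm_eq_abs]; exact hu j
  calc |φ u| = ‖φ' u‖ := (Real.norm_eq_abs _).symm
    _ ≤ ‖φ'‖ * ‖u‖ := h1
    _ ≤ ‖φ'‖ * B := mul_le_mul_of_nonneg_left h2 (norm_nonneg _)

end Lin

theorem IsLen.pow {G : Type*} [Group G] {len : G → ℝ} (h : IsLen len) (g : G) (n : ℕ) :
    len (g ^ n) ≤ n * len g := by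
  induction n with
  | zero => simp [h.one]
  | succ n ih =>
    rw [pow_succ]
    refine (h.mul _ _).trans ?_
    push_cast
    linarith

section Model

variable {S : Set Γ} {π : Γ →* Multiplicative (Fin k → ℤ)} {A : Set Γ} {x : Fin k → Γ}
  {G : Type*} [Group G] (M : CModel S π A x G)

include M in
theorem CModel.a0 : 0 ≤ M.a := zero_le_one.trans M.one_le_a

theorem CModel.h_one : M.h 1 = 0 := by
  have := M.h_mul 1 1
  rw [mul_one] at this
  simpa using this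

theorem CModel.h_inv (g : G) : M.h g⁻¹ = - M.h g := by
  have := M.h_mul g g⁻¹
  rw [mul_inv_cancel, M.h_one] at this
  exact (neg_eq_of_add_eq_zero_right this.symm).symm

theorem CModel.h_pow (g : G) (n : ℕ) : M.h (g ^ n) = (n : ℝ) • M.h g := by
  induction n with
  | zero => simp [M.h_one]
  | succ n ih =>
    rw [pow_succ, M.h_mul, ih]
    push_cast
    rw [add_smul, one_smul]

/-- the rounding map -/
noncomputable def CModel.r (g : G) : Γ := (M.round g).choose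

theorem CModel.hr (g : G) : M.len ((M.ι (M.r g))⁻¹ * g) ≤ M.a := (M.round g).choose_spec

theorem CModel.hr' (g : G) : M.len (g⁻¹ * M.ι (M.r g)) ≤ M.a := by
  have := M.hr g
  rw [← M.isLen.inv] at this
  simpa using this

theorem CModel.near (g u : G) :
    (wordLength S ((M.r g)⁻¹ * M.r (g * u)) : ℝ) ≤ M.a * (M.len u + 2 * M.a) + M.a := by
  have ha := M.a0
  refine (M.ι_len _).trans ?_
  have h1 : M.ι ((M.r g)⁻¹ * M.r (g * u)) =
      ((M.ι (M.r g))⁻¹ * g) * u * ((g * u)⁻¹ * M.ι (M.r (g * u))) := by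
    rw [map_mul, map_inv]; group
  have h2 : M.len (M.ι ((M.r g)⁻¹ * M.r (g * u))) ≤ M.len u + 2 * M.a := by
    rw [h1]
    have h3 := M.isLen.mul (((M.ι (M.r g))⁻¹ * g) * u) ((g * u)⁻¹ * M.ι (M.r (g * u)))
    have h4 := M.isLen.mul ((M.ι (M.r g))⁻¹ * g) u
    have h5 := M.hr g
    have h6 := M.hr' (g * u)
    linarith
  have := mul_le_mul_of_nonneg_left h2 ha
  linarith

theorem CModel.near_ι (γ : Γ) :
    (wordLength S (γ⁻¹ * M.r (M.ι γ)) : ℝ) ≤ M.a * M.a + M.a := by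
  refine (M.ι_len _).trans ?_
  have h1 : M.ι (γ⁻¹ * M.r (M.ι γ)) = (M.ι γ)⁻¹ * M.ι (M.r (M.ι γ)) := by
    rw [map_mul, map_inv]
  rw [h1]
  have := mul_le_mul_of_nonneg_left (M.hr' (M.ι γ)) M.a0
  linarith

theorem CModel.hgt_r (g : G) (i : Fin k) : |hgtR π (M.r g) i - M.h g i| ≤ M.a * M.a := by
  have h1 : M.h (g⁻¹ * M.ι (M.r g)) i = hgtR π (M.r g) i - M.h g i := by
    rw [M.h_mul, M.h_inv, M.h_ι]
    simp only [Pi.add_apply, Pi.neg_apply]
    ring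
  rw [← h1]
  exact (M.h_le _ i).trans (mul_le_mul_of_nonneg_left (M.hr' g) M.a0)

include M in
theorem CModel.hgt_le (γ : Γ) (i : Fin k) : |hgtR π γ i| ≤ M.a * (M.a * wordLength S γ) := by
  rw [← M.h_ι]
  exact (M.h_le _ i).trans (mul_le_mul_of_nonneg_left (M.len_ι γ) M.a0)

theorem hgtR_mul (g y : Γ) : hgtR π (g * y) = hgtR π g + hgtR π y := by
  funext i
  simp [hgtR, hgt_mul]

theorem hgtR_inv (g : Γ) : hgtR π g⁻¹ = - hgtR π g := by
  funext i
  simp [hgtR, hgt_inv]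

include M in
theorem CModel.hgt_diff {Ψ : Γ → Γ} {K : ℕ} (hΨ : QIMap S S Ψ K) (p q : Γ) (i : Fin k) :
    |hgtR π (Ψ q) i - hgtR π (Ψ p) i| ≤ M.a * (M.a * (K * wordLength S (p⁻¹ * q) + K)) := by
  have h1 : hgtR π ((Ψ p)⁻¹ * Ψ q) i = hgtR π (Ψ q) i - hgtR π (Ψ p) i := by
    rw [hgtR_mul, hgtR_inv]
    simp only [Pi.add_apply, Pi.neg_apply]
    ring
  rw [← h1]
  refine (M.hgt_le _ i).trans ?_
  have h2 : (wordLength S ((Ψ p)⁻¹ * Ψ q) : ℝ) ≤ K * wordLength S (p⁻¹ * q) + K := by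
    exact_mod_cast hΨ.up p q
  have ha := M.a0
  gcongr

/-- the extension of a self-map of `Γ` to the model. -/
noncomputable def CModel.ext (Ψ : Γ → Γ) (g : G) : G := M.ι (Ψ (M.r g))

theorem CModel.h_ext (Ψ : Γ → Γ) (g : G) : M.h (M.ext Ψ g) = hgtR π (Ψ (M.r g)) := M.h_ι _

/-- the constant of the extension -/
noncomputable def CModel.KK (K : ℕ) : ℝ :=
  M.a * (K * M.a) + M.a * (K * (M.a * (2 * M.a) + M.a) + K) +
    (M.a + M.a * K + M.a * (K * (M.a * M.a + M.a) + K)) +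
    (M.a + M.a * (K * (M.a * (M.a + M.a * K) + M.a) + K))

include M in
theorem CModel.KK_nonneg (K : ℕ) : 0 ≤ M.KK K := by
  have ha := M.a0
  unfold CModel.KK
  positivity

theorem CModel.selfQI_ext {Ψ : Γ → Γ} {K : ℕ}
    (hΨ : QIMap S S Ψ K) : SelfQI M.len (M.ext Ψ) (M.KK K) where
  lip g u := by
    have ha := M.a0
    have h1 : (M.ext Ψ g)⁻¹ * M.ext Ψ (g * u) = M.ι ((Ψ (M.r g))⁻¹ * Ψ (M.r (g * u))) := by
      unfold CModel.ext
      rw [map_mul, map_inv]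
    rw [h1]
    refine (M.len_ι _).trans ?_
    have h2 : (wordLength S ((Ψ (M.r g))⁻¹ * Ψ (M.r (g * u))) : ℝ) ≤
        K * wordLength S ((M.r g)⁻¹ * M.r (g * u)) + K := by exact_mod_cast hΨ.up _ _
    have h3 := M.near g u
    have h4 := M.isLen.nonneg u
    calc M.a * (wordLength S ((Ψ (M.r g))⁻¹ * Ψ (M.r (g * u))) : ℝ) ≤
          M.a * (K * (M.a * (M.len u + 2 * M.a) + M.a) + K) := by gcongr; exact h2.trans (by gcongr)
      _ = (M.a * (K * M.a)) * M.len u + M.a * (K * (M.a * (2 * M.a) + M.a) + K) := by ring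
      _ ≤ M.KK K * M.len u + M.KK K := by
        unfold CModel.KK
        have e1 : (0:ℝ) ≤ M.a * (K * M.a) := by positivity
        have e2 : (0:ℝ) ≤ M.a * (K * (M.a * (2 * M.a) + M.a) + K) := by positivity
        have e3 : (0:ℝ) ≤ M.a + M.a * K + M.a * (K * (M.a * M.a + M.a) + K) := by positivity
        have e4 : (0:ℝ) ≤ M.a + M.a * (K * (M.a * (M.a + M.a * K) + M.a) + K) := by positivity
        gcongr
        · linarith
        · linarith
  onto g u := by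
    have ha := M.a0
    have hlu := M.isLen.nonneg u
    obtain ⟨p, hp⟩ := hΨ.dense (M.r (M.ext Ψ g * u))
    have hpR : (wordLength S ((M.r (M.ext Ψ g * u))⁻¹ * Ψ p) : ℝ) ≤ K := by exact_mod_cast hp
    refine ⟨g⁻¹ * M.ι p, ?_, ?_⟩
    · have h1 : M.ι ((Ψ (M.r g))⁻¹ * Ψ p) =
          u * ((M.ext Ψ g * u)⁻¹ * M.ι (M.r (M.ext Ψ g * u))) *
            M.ι ((M.r (M.ext Ψ g * u))⁻¹ * Ψ p) := by
        rw [map_mul, map_mul, map_inv, map_inv]
        unfold CModel.ext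
        group
      have h2 : M.len (M.ι ((Ψ (M.r g))⁻¹ * Ψ p)) ≤ M.len u + M.a + M.a * K := by
        rw [h1]
        have e1 := M.isLen.mul (u * ((M.ext Ψ g * u)⁻¹ * M.ι (M.r (M.ext Ψ g * u))))
            (M.ι ((M.r (M.ext Ψ g * u))⁻¹ * Ψ p))
        have e2 := M.isLen.mul u ((M.ext Ψ g * u)⁻¹ * M.ι (M.r (M.ext Ψ g * u)))
        have e3 := M.hr' (M.ext Ψ g * u)
        have e4 := M.len_ι ((M.r (M.ext Ψ g * u))⁻¹ * Ψ p)
        have e5 := mul_le_mul_of_nonneg_left hpR ha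
        linarith
      have h3 : (wordLength S ((M.r g)⁻¹ * p) : ℝ) ≤
          K * wordLength S ((Ψ (M.r g))⁻¹ * Ψ p) + K := by exact_mod_cast hΨ.lo (M.r g) p
      have h4 : (wordLength S ((Ψ (M.r g))⁻¹ * Ψ p) : ℝ) ≤ M.a * (M.len u + M.a + M.a * K) + M.a :=
        (M.ι_len _).trans (by gcongr)
      have h5 : g⁻¹ * M.ι p = (g⁻¹ * M.ι (M.r g)) * M.ι ((M.r g)⁻¹ * p) := by
        rw [map_mul, map_inv]; group
      rw [h5]
      have h6 := M.isLen.mul (g⁻¹ * M.ι (M.r g)) (M.ι ((M.r g)⁻¹ * p))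
      have h7 := M.hr' g
      have h8 := M.len_ι ((M.r g)⁻¹ * p)
      calc _ ≤ M.a + M.a * (K * (M.a * (M.len u + M.a + M.a * K) + M.a) + K) := by
            refine h6.trans (add_le_add h7 (h8.trans ?_))
            gcongr
            exact h3.trans (by gcongr)
        _ = (M.a * (K * M.a)) * M.len u + (M.a + M.a * (K * (M.a * (M.a + M.a * K) + M.a) + K)) := by
            ring
        _ ≤ _ := by
          unfold CModel.KK
          have e1 : (0:ℝ) ≤ M.a * (K * M.a) := by positivity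
          have e2 : (0:ℝ) ≤ M.a * (K * (M.a * (2 * M.a) + M.a) + K) := by positivity
          have e3 : (0:ℝ) ≤ M.a + M.a * K + M.a * (K * (M.a * M.a + M.a) + K) := by positivity
          have e4 : (0:ℝ) ≤ M.a + M.a * (K * (M.a * (M.a + M.a * K) + M.a) + K) := by positivity
          refine add_le_add (mul_le_mul_of_nonneg_right ?_ hlu) ?_
          · linarith
          · linarith
    · have h0 : g * (g⁻¹ * M.ι p) = M.ι p := by group
      rw [h0]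
      have h1 : u⁻¹ * ((M.ext Ψ g)⁻¹ * M.ext Ψ (M.ι p)) =
          ((M.ext Ψ g * u)⁻¹ * M.ι (M.r (M.ext Ψ g * u))) *
            M.ι ((M.r (M.ext Ψ g * u))⁻¹ * Ψ p) * M.ι ((Ψ p)⁻¹ * Ψ (M.r (M.ι p))) := by
        rw [map_mul, map_mul, map_inv, map_inv]
        conv_lhs => unfold CModel.ext
        conv_rhs => unfold CModel.ext
        group
      rw [h1]
      have e1 := M.isLen.mul (((M.ext Ψ g * u)⁻¹ * M.ι (M.r (M.ext Ψ g * u))) *
            M.ι ((M.r (M.ext Ψ g * u))⁻¹ * Ψ p)) (M.ι ((Ψ p)⁻¹ * Ψ (M.r (M.ι p))))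
      have e2 := M.isLen.mul ((M.ext Ψ g * u)⁻¹ * M.ι (M.r (M.ext Ψ g * u)))
            (M.ι ((M.r (M.ext Ψ g * u))⁻¹ * Ψ p))
      have e3 := M.hr' (M.ext Ψ g * u)
      have e4 := (M.len_ι ((M.r (M.ext Ψ g * u))⁻¹ * Ψ p)).trans
        (mul_le_mul_of_nonneg_left hpR ha)
      have e5 : M.len (M.ι ((Ψ p)⁻¹ * Ψ (M.r (M.ι p)))) ≤ M.a * (K * (M.a * M.a + M.a) + K) := by
        refine (M.len_ι _).trans ?_
        gcongr
        have h2 : (wordLength S ((Ψ p)⁻¹ * Ψ (M.r (M.ι p))) : ℝ) ≤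
          K * wordLength S (p⁻¹ * M.r (M.ι p)) + K := by exact_mod_cast hΨ.up _ _
        refine h2.trans ?_
        have := M.near_ι p
        gcongr
      have f1 : (0:ℝ) ≤ M.a * (K * M.a) := by positivity
      have f2 : (0:ℝ) ≤ M.a * (K * (M.a * (2 * M.a) + M.a) + K) := by positivity
      have f4 : (0:ℝ) ≤ M.a + M.a * (K * (M.a * (M.a + M.a * K) + M.a) + K) := by positivity
      unfold CModel.KK
      linarith

theorem CModel.deep (j : Fin M.m) : Deep (fun g => M.Λ j (M.h g)) (M.δ j) := by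
  intro T
  obtain ⟨c, B, hc⟩ := M.crossed j
  -- an integer vector on which Λ j is negative
  obtain ⟨v, hv⟩ : ∃ v : Fin k → ℤ, M.Λ j (fun i => (v i : ℝ)) < 0 := by
    by_contra hneg
    push Not at hneg
    refine M.Λ_ne j (LinearMap.pi_ext' fun i => LinearMap.ext_ring ?_)
    have h1 := hneg (Pi.single i 1)
    have h2 := hneg (Pi.single i (-1))
    have e1 : (fun l => ((Pi.single i (1:ℤ) : Fin k → ℤ) l : ℝ)) = Pi.single i (1:ℝ) := by
      ext l; by_cases hl : l = i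
      · subst hl; simp
      · simp [hl]
    have e2 : (fun l => ((Pi.single i (-1:ℤ) : Fin k → ℤ) l : ℝ)) = - Pi.single i (1:ℝ) := by
      ext l; by_cases hl : l = i
      · subst hl; simp
      · simp [hl]
    rw [e1] at h1
    rw [e2, map_neg] at h2
    simp only [LinearMap.comp_apply, LinearMap.coe_single, LinearMap.zero_apply]
    linarith
  have hht : M.h (M.t v) = fun i => (v i : ℝ) := funext (M.h_t v)
  obtain ⟨n, hn, hδn⟩ := M.nontriv j
  -- depth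
  obtain ⟨q, hq⟩ := exists_nat_ge (T / (- M.Λ j (fun i => (v i : ℝ))))
  have hneg : 0 < - M.Λ j (fun i => (v i : ℝ)) := by linarith
  rw [div_le_iff₀ hneg] at hq
  have hdepth : M.Λ j (M.h (M.t v ^ q)) ≤ -T := by
    rw [M.h_pow, map_smul, hht, smul_eq_mul]
    linarith
  have hnpow : ∀ l : ℕ, M.h (n ^ l) = 0 := fun l => by rw [M.h_pow, hn, smul_zero]
  have hδpow : ∀ l : ℕ, M.δ j (n ^ l) = l * M.δ j n := by
    intro l
    induction l with
    | zero =>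
      have h1 := hc.δ_mul 1 1
      rw [mul_one, M.χ_one j 1 M.h_one, one_mul] at h1
      have : M.δ j 1 = 0 := by
        have h2 := congrArg (fun z => z - M.δ j 1) h1
        simpa using h2.symm
      simp [this]
    | succ l ih =>
      rw [pow_succ, hc.δ_mul, M.χ_one j _ (hnpow l), ih]
      push_cast
      ring
  obtain ⟨l, hl⟩ := exists_nat_ge (1 / ‖M.δ j n‖)
  have hδ0 : 0 < ‖M.δ j n‖ := norm_pos_iff.2 hδn
  rw [div_le_iff₀ hδ0] at hl
  refine ⟨n ^ l * M.t v ^ q, M.t v ^ q, ?_, hdepth, ?_⟩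
  · show M.Λ j (M.h (n ^ l * M.t v ^ q)) ≤ -T
    rw [M.h_mul, hnpow, zero_add]
    exact hdepth
  · rw [hc.δ_mul, M.χ_one j _ (hnpow l), one_mul, add_sub_cancel_right, hδpow, norm_mul]
    simpa using hl

/-- `L` composed with a nonzero functional does not vanish. -/
theorem CModel.fun_ne {L : (Fin k → ℝ) →ₗ[ℝ] (Fin k → ℝ)} {C : ℝ → ℝ} {K : ℕ} {Ψ : Γ → Γ}
    (M : CModel S π A x G) (hπ : Function.Surjective π)
    (hΨ : QIMap S S Ψ K) (hL : SubAt S π L C Ψ) (φ : (Fin k → ℝ) →ₗ[ℝ] ℝ) (hφ : φ ≠ 0) :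
    φ ∘ₗ L ≠ 0 := by
  intro h0
  have ha := M.a0
  obtain ⟨i, hi⟩ : ∃ i, φ (Pi.single i 1) ≠ 0 := by
    by_contra hneg
    push Not at hneg
    exact hφ (LinearMap.pi_ext' fun i => LinearMap.ext_ring (by
      simp only [LinearMap.comp_apply, LinearMap.coe_single, LinearMap.zero_apply, hneg i]))
  obtain ⟨p, hp⟩ := hπ (Multiplicative.ofAdd (Pi.single i 1))
  have hpow : ∀ n : ℕ, hgtR π (p ^ n) = (n : ℝ) • (Pi.single i 1 : Fin k → ℝ) := by
    intro n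
    funext l
    simp only [hgtR, hgt, map_pow, hp]
    by_cases hl : l = i
    · subst hl; simp
    · simp [hl]
  obtain ⟨cφ, hcφ, hφb⟩ := exists_fun_bound φ
  set w : ℝ := (wordLength S p : ℝ) with hw
  have hw0 : 0 ≤ w := Nat.cast_nonneg _
  -- choice of ε
  obtain ⟨ε, hε, hεb⟩ : ∃ ε : ℝ, 0 < ε ∧ cφ * (ε * (K * (M.a * (M.a * w)))) <
      |φ (Pi.single i 1)| := by
    have hpos : 0 < |φ (Pi.single i 1)| := abs_pos.2 hi
    refine ⟨|φ (Pi.single i 1)| / (2 * (cφ * (K * (M.a * (M.a * w))) + 1)), by positivity, ?_⟩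
    have h1 : cφ * (|φ (Pi.single i 1)| / (2 * (cφ * (K * (M.a * (M.a * w))) + 1)) *
        (K * (M.a * (M.a * w)))) = |φ (Pi.single i 1)| * ((cφ * (K * (M.a * (M.a * w)))) /
          (2 * (cφ * (K * (M.a * (M.a * w))) + 1))) := by ring
    rw [h1]
    have h2 : (cφ * (K * (M.a * (M.a * w)))) / (2 * (cφ * (K * (M.a * (M.a * w))) + 1)) < 1 := by
      rw [div_lt_one (by positivity)]
      have : 0 ≤ cφ * (K * (M.a * (M.a * w))) := by positivity
      linarith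
    nlinarith
  -- the points
  have key : ∀ n : ℕ, (n : ℝ) * |φ (Pi.single i 1)| ≤
      cφ * (M.a * (M.a * K) + (ε * (K * (M.a * (M.a * (n * w) + M.a * K) + M.a) + K) + |C ε|)) := by
    intro n
    obtain ⟨q, hq⟩ := hΨ.dense (Ψ 1 * p ^ n)
    have hq' : (wordLength S ((Ψ 1 * p ^ n)⁻¹ * Ψ q) : ℝ) ≤ K := by exact_mod_cast hq
    set s := (Ψ 1 * p ^ n)⁻¹ * Ψ q with hs
    have hΨq : Ψ q = Ψ 1 * p ^ n * s := by rw [hs]; group
    have h1 : ∀ l, hgtR π (Ψ q) l - hgtR π (Ψ 1) l = (n : ℝ) * (Pi.single i 1 : Fin k → ℝ) l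
        + hgtR π s l := by
      intro l
      rw [hΨq, hgtR_mul, hgtR_mul, hpow]
      simp only [Pi.add_apply, Pi.smul_apply, smul_eq_mul]
      ring
    have h2 : ∀ l, |hgtR π s l| ≤ M.a * (M.a * K) := fun l =>
      (M.hgt_le s l).trans (by gcongr)
    have h3 : (wordLength S q : ℝ) ≤ K * (M.a * (M.a * (n * w) + M.a * K) + M.a) + K := by
      have e1 : (wordLength S ((1:Γ)⁻¹ * q) : ℝ) ≤ K * wordLength S ((Ψ 1)⁻¹ * Ψ q) + K := by
        exact_mod_cast hΨ.lo 1 q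
      rw [inv_one, one_mul] at e1
      refine e1.trans ?_
      gcongr
      refine (M.ι_len _).trans ?_
      gcongr
      have e2 : (Ψ 1)⁻¹ * Ψ q = p ^ n * s := by rw [hΨq]; group
      rw [e2, map_mul, map_pow]
      refine (M.isLen.mul _ _).trans (add_le_add ?_ ?_)
      · refine (M.isLen.pow _ _).trans ?_
        have := M.len_ι p
        calc (n : ℝ) * M.len (M.ι p) ≤ n * (M.a * w) := by gcongr
          _ = _ := by ring
      · exact (M.len_ι s).trans (by gcongr)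
    have h4 := hL ε hε 1 q
    rw [one_mul] at h4
    -- apply φ
    have h5 : φ (fun l => (hgtR π (Ψ q) l - hgtR π (Ψ 1) l - L (hgtR π q) l) - hgtR π s l) =
        n * φ (Pi.single i 1) := by
      have e1 : (fun l => (hgtR π (Ψ q) l - hgtR π (Ψ 1) l - L (hgtR π q) l) - hgtR π s l) =
          (n : ℝ) • (Pi.single i 1 : Fin k → ℝ) - L (hgtR π q) := by
        funext l
        rw [h1]
        simp only [Pi.sub_apply, Pi.smul_apply, smul_eq_mul]
        ring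
      rw [e1, map_sub, map_smul, smul_eq_mul]
      have e2 : φ (L (hgtR π q)) = 0 := by
        rw [← LinearMap.comp_apply, h0, LinearMap.zero_apply]
      rw [e2, sub_zero]
    have h6 := hφb (fun l => (hgtR π (Ψ q) l - hgtR π (Ψ 1) l - L (hgtR π q) l) - hgtR π s l)
      (M.a * (M.a * K) + (ε * (K * (M.a * (M.a * (n * w) + M.a * K) + M.a) + K) + |C ε|))
      (by positivity) (fun l => by
        refine (abs_sub _ _).trans ?_
        rw [add_comm]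
        refine add_le_add (h2 l) ((h4 l).trans (add_le_add ?_ (le_abs_self _)))
        exact mul_le_mul_of_nonneg_left h3 hε.le)
    rw [h5, abs_mul, Nat.abs_cast] at h6
    exact h6
  -- contradiction
  set D := |φ (Pi.single i 1)| - cφ * (ε * (K * (M.a * (M.a * w)))) with hD
  have hD0 : 0 < D := by linarith
  set E := cφ * (M.a * (M.a * K) + (ε * (K * (M.a * (M.a * K) + M.a) + K) + |C ε|)) with hE
  obtain ⟨n, hn⟩ := exists_nat_gt (E / D)
  rw [div_lt_iff₀ hD0] at hn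
  have h7 := key n
  have h8 : (n : ℝ) * D ≤ E := by
    rw [hD, hE]
    have : cφ * (M.a * (M.a * K) + (ε * (K * (M.a * (M.a * (n * w) + M.a * K) + M.a) + K) + |C ε|))
        = n * (cφ * (ε * (K * (M.a * (M.a * w))))) +
          cφ * (M.a * (M.a * K) + (ε * (K * (M.a * (M.a * K) + M.a) + K) + |C ε|)) := by ring
    rw [this] at h7
    linarith
  linarith

end Model

end Crest.Agent.R182.Bnd
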