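/-
R182, module BND (helper658): the uniform sublinear law implies the law with logarithmic
zero-weight error.
-/
import Mathlib
import Crest.Agent.R182.BndLaw

set_option autoImplicit false

open Filter Topology
open scoped Pointwise

namespace Crest.Agent.R182.Bnd

open Crest.GroupTheory Crest.Geometry Crest.Agent.R182.QI Crest.Agent.R182.FinPath
  Crest.Agent.R182.FinRed

variable {Γ : Type*} [Group Γ] {k : ℕ} {S : Set Γ} {π : Γ →* Multiplicative (Fin k → ℤ)}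
  {A : Set Γ} {x : Fin k → Γ} {G : Type*} [Group G] (M : CModel S π A x G)

/-- displacement between rounded points -/
theorem CModel.hgt_near (g u : G) (i : Fin k) :
    |hgtR π ((M.r g)⁻¹ * M.r (g * u)) i - M.h u i| ≤ 2 * (M.a * M.a) := by
  have h1 : hgtR π ((M.r g)⁻¹ * M.r (g * u)) i - M.h u i =
      (hgtR π (M.r (g * u)) i - M.h (g * u) i) - (hgtR π (M.r g) i - M.h g i) := by
    rw [hgtR_mul, hgtR_inv, M.h_mul]
    simp only [Pi.add_apply, Pi.neg_apply]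
    ring
  rw [h1]
  have h2 := M.hgt_r (g * u) i
  have h3 := M.hgt_r g i
  have := abs_sub (hgtR π (M.r (g * u)) i - M.h (g * u) i) (hgtR π (M.r g) i - M.h g i)
  linarith

/-- one application of the sublinear law in the model. -/
theorem CModel.sub_step (L : (Fin k → ℝ) →ₗ[ℝ] (Fin k → ℝ)) :
    ∃ cL : ℝ, 0 ≤ cL ∧ ∀ (C : ℝ → ℝ) (Ψ : Γ → Γ), SubAt S π L C Ψ → ∀ ε > 0, ∀ (g u : G)
      (i : Fin k), |M.h (M.ext Ψ (g * u)) i - M.h (M.ext Ψ g) i - L (M.h u) i| ≤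
        ε * (M.a * M.len u) + (cL + ε * (M.a * (2 * M.a) + M.a) + |C ε|) := by
  obtain ⟨cL, hcL, hL⟩ := exists_lin_bound L
  have ha := M.a0
  refine ⟨cL * (2 * (M.a * M.a)), by positivity, fun C Ψ hΨ ε hε g u i => ?_⟩
  have h1 := hΨ ε hε (M.r g) ((M.r g)⁻¹ * M.r (g * u)) i
  rw [mul_inv_cancel_left] at h1
  have h2 := M.near g u
  have h3 := hL (hgtR π ((M.r g)⁻¹ * M.r (g * u)) - M.h u) (2 * (M.a * M.a)) (by positivity)
    (fun i => by simpa using M.hgt_near g u i) i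
  rw [map_sub, Pi.sub_apply] at h3
  rw [M.h_ext, M.h_ext]
  have h4 : hgtR π (Ψ (M.r (g * u))) i - hgtR π (Ψ (M.r g)) i - L (M.h u) i =
      (hgtR π (Ψ (M.r (g * u))) i - hgtR π (Ψ (M.r g)) i
        - L (hgtR π ((M.r g)⁻¹ * M.r (g * u))) i) +
      (L (hgtR π ((M.r g)⁻¹ * M.r (g * u))) i - L (M.h u) i) := by ring
  rw [h4]
  refine (abs_add_le _ _).trans ?_
  have h5 := mul_le_mul_of_nonneg_left h2 hε.le
  have h6 := le_abs_self (C ε)
  nlinarith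

/-- The sublinear law of a self-map of the model, only for the displacements `e * t v ^ n` with
`e` in the exponentially distorted part. -/
def CModel.SubE (L : (Fin k → ℝ) →ₗ[ℝ] (Fin k → ℝ)) (C : ℝ → ℝ) (Φ : G → G) : Prop :=
  ∀ ε > 0, ∀ g : G, ∀ e ∈ M.E, ∀ (v : Fin k → ℤ) (n : ℕ) (i : Fin k),
    |M.h (Φ (g * (e * M.t v ^ n))) i - M.h (Φ g) i - L (M.h (e * M.t v ^ n)) i| ≤
      ε * M.len (e * M.t v ^ n) + C ε

theorem CModel.subE_of_subAt (L : (Fin k → ℝ) →ₗ[ℝ] (Fin k → ℝ)) (C : ℝ → ℝ) :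
    ∃ C' : ℝ → ℝ, ∀ Ψ : Γ → Γ, SubAt S π L C Ψ → M.SubE L C' (M.ext Ψ) := by
  obtain ⟨cL, hcL, h⟩ := M.sub_step L
  have ha1 := M.one_le_a
  have ha : 0 < M.a := by linarith
  refine ⟨fun ε => cL + (ε / M.a) * (M.a * (2 * M.a) + M.a) + |C (ε / M.a)|,
    fun Ψ hΨ ε hε g e he v n i => ?_⟩
  refine (h C Ψ hΨ (ε / M.a) (div_pos hε ha) g (e * M.t v ^ n) i).trans_eq ?_
  have h1 : ε / M.a * (M.a * M.len (e * M.t v ^ n)) = ε * M.len (e * M.t v ^ n) := by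
    rw [← mul_assoc, div_mul_cancel₀ _ ha.ne']
  rw [h1]

theorem CModel.descent (j : Fin M.m) (v : Fin k → ℤ) (L : (Fin k → ℝ) →ₗ[ℝ] (Fin k → ℝ))
    (C : ℝ → ℝ) (hneg : M.Λ j (L (fun i => (v i : ℝ))) < 0) :
    ∃ C₁ : ℝ, ∀ Φ : G → G, M.SubE L C Φ →
      Descent (fun g => M.Λ j (M.h g)) (M.t v) Φ
        (-(M.Λ j (L (fun i => (v i : ℝ)))) / 2) C₁ := by
  obtain ⟨cΛ, hcΛ, hΛ⟩ := exists_fun_bound (M.Λ j)
  have ha := M.a0
  set D : ℝ := -(M.Λ j (L (fun i => (v i : ℝ)))) with hD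
  have hD0 : 0 < D := by rw [hD]; linarith
  set lb : ℝ := M.len (M.t v) with hlb
  have hlb0 : 0 ≤ lb := M.isLen.nonneg _
  set ε : ℝ := D / (2 * (cΛ * lb + 1)) with hε
  have hε0 : 0 < ε := by positivity
  refine ⟨cΛ * |C ε|, fun Φ hΦ g n => ?_⟩
  have h1 := hΦ ε hε0 g 1 M.one_mem_E v n
  rw [one_mul] at h1
  have h2 : M.len (M.t v ^ n) ≤ n * lb := M.isLen.pow _ _
  have h3 : M.h (M.t v ^ n) = (n : ℝ) • (fun i => (v i : ℝ)) := by
    rw [M.h_pow]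
    congr 1
    exact funext (M.h_t v)
  rw [h3] at h1
  have h4 := hΛ (fun i => M.h (Φ (g * M.t v ^ n)) i - M.h (Φ g) i
      - L ((n : ℝ) • (fun i => (v i : ℝ))) i)
    (ε * (n * lb) + |C ε|) (by positivity)
    (fun i => (h1 i).trans (by
      refine add_le_add ?_ (le_abs_self _)
      gcongr))
  have h5 : (fun i => M.h (Φ (g * M.t v ^ n)) i - M.h (Φ g) i
      - L ((n : ℝ) • (fun i => (v i : ℝ))) i) = M.h (Φ (g * M.t v ^ n)) - M.h (Φ g)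
      - (n : ℝ) • L (fun i => (v i : ℝ)) := by
    funext i
    rw [map_smul]
    rfl
  rw [h5, map_sub, map_sub, map_smul, smul_eq_mul] at h4
  have h6 := (abs_le.1 h4).2
  have h7 : cΛ * (ε * (n * lb)) ≤ D / 2 * n := by
    have h8 : cΛ * (ε * (n * lb)) = (D / 2) * ((cΛ * lb) / (cΛ * lb + 1)) * n := by
      rw [hε]; field_simp
    rw [h8]
    have h9 : (cΛ * lb) / (cΛ * lb + 1) ≤ 1 := by
      rw [div_le_one (by positivity)]; linarith
    have h10 : (D / 2) * ((cΛ * lb) / (cΛ * lb + 1)) ≤ (D / 2) * 1 :=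
      mul_le_mul_of_nonneg_left h9 (by linarith)
    rw [mul_one] at h10
    exact mul_le_mul_of_nonneg_right h10 (Nat.cast_nonneg n)
  show M.Λ j (M.h (Φ (g * M.t v ^ n))) ≤ M.Λ j (M.h (Φ g)) - D / 2 * n + cΛ * |C ε|
  have h11 : M.Λ j (L (fun i => (v i : ℝ))) = - D := by rw [hD]; ring
  rw [h11] at h6
  nlinarith

/-- **ZL** for self-maps of the model obeying the restricted sublinear law. -/
theorem CModel.zl (L : (Fin k → ℝ) →ₗ[ℝ] (Fin k → ℝ)) (hLne : ∀ j, M.Λ j ∘ₗ L ≠ 0)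
    (C : ℝ → ℝ) {K : ℝ} (hK : 0 ≤ K) :
    ∃ C₂ : ℝ, 0 ≤ C₂ ∧ ∀ Φ : G → G, SelfQI M.len Φ K → M.SubE L C Φ → ∀ g : G, ∀ v ∈ M.C,
      M.h v = 0 → ∀ i, |M.h (Φ (g * v)) i - M.h (Φ g) i| ≤ C₂ * Real.log (2 + M.sz v) := by
  have hone : ∀ j : Fin M.m, ∃ C₂ : ℝ, 0 ≤ C₂ ∧ ∀ Φ : G → G, SelfQI M.len Φ K →
      M.SubE L C Φ → ∀ g : G, ∀ v ∈ {v | v ∈ M.C ∧ M.h v = 0},
      |M.Λ j (M.h (Φ (g * v))) - M.Λ j (M.h (Φ g))| ≤ C₂ * Real.log (2 + M.sz v) := by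
    intro j
    obtain ⟨v, hv⟩ : ∃ v : Fin k → ℤ, M.Λ j (L (fun i => (v i : ℝ))) < 0 := by
      by_contra hneg
      push Not at hneg
      refine hLne j (LinearMap.pi_ext' fun i => LinearMap.ext_ring ?_)
      have h1 := hneg (Pi.single i 1)
      have h2 := hneg (Pi.single i (-1))
      have e1 : (fun l => ((Pi.single i (1:ℤ) : Fin k → ℤ) l : ℝ)) = Pi.single i (1:ℝ) := by
        ext l; by_cases hl : l = i
        · subst hl; simp
        · simp [hl]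
      have e2 : (fun l => ((Pi.single i (-1:ℤ) : Fin k → ℤ) l : ℝ)) = - Pi.single i (1:ℝ) := by
        ext l; by_cases hl : l = i
        · subst hl; simp
        · simp [hl]
      rw [e1] at h1
      rw [e2, map_neg, map_neg] at h2
      simp only [LinearMap.comp_apply, LinearMap.coe_single, LinearMap.zero_apply]
      linarith
    obtain ⟨C₁, hC₁⟩ := M.descent j v L C hv
    obtain ⟨c, B, hc⟩ := M.crossed j
    obtain ⟨Z, r, hZ, hZr⟩ := M.chain (M.t v) (M.t_mem v)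
    obtain ⟨C₂, hC₂, hfin⟩ := log_law M.isLen hc (M.t v) hZ (M.deep j)
      (N0 := {v | v ∈ M.C ∧ M.h v = 0}) (by rw [hZr]; exact fun v hv => hv.1)
      (fun v hv => ⟨M.C.inv_mem hv.1, by rw [M.h_inv, hv.2, neg_zero]⟩)
      M.sz_nonneg (fun v _ => M.sz_inv v)
      (by rw [hZr]; exact M.dec) C₁ hK
      (show 0 < -(M.Λ j (L (fun i => (v i : ℝ)))) / 2 by linarith)
    exact ⟨C₂, hC₂, fun Φ h1 h2 g v hv => hfin Φ h1 (hC₁ Φ h2) g v hv⟩
  choose C₂ hC₂ hfin using hone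
  obtain ⟨c, hc, hcb⟩ := exists_coord_bound M.Λ M.Λ_inj
  refine ⟨c * ∑ j, C₂ j, mul_nonneg hc (Finset.sum_nonneg fun j _ => hC₂ j),
    fun Φ h1 h2 g v hv hv0 i => ?_⟩
  have hlog : 0 ≤ Real.log (2 + M.sz v) :=
    Real.log_nonneg (by have := M.sz_nonneg v; linarith)
  have h3 := hcb (M.h (Φ (g * v)) - M.h (Φ g))
    ((∑ j, C₂ j) * Real.log (2 + M.sz v))
    (mul_nonneg (Finset.sum_nonneg fun j _ => hC₂ j) hlog) (fun j => by
      rw [map_sub]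
      refine (hfin j Φ h1 h2 g v ⟨hv, hv0⟩).trans (mul_le_mul_of_nonneg_right ?_ hlog)
      exact Finset.single_le_sum (f := C₂) (fun j _ => hC₂ j) (Finset.mem_univ j)) i
  rw [mul_assoc]
  exact h3

/-- **LAW** for one linear map, from the restricted sublinear law of the extension. -/
theorem CModel.law_fixed (L : (Fin k → ℝ) →ₗ[ℝ] (Fin k → ℝ)) (hLne : ∀ j, M.Λ j ∘ₗ L ≠ 0)
    (C : ℝ → ℝ) (K : ℕ) :
    ∃ C' : ℝ → ℝ, (∀ ε > 0, 0 ≤ C' ε) ∧ ∀ Ψ : Γ → Γ, QIMap S S Ψ K → M.SubE L C (M.ext Ψ) →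
      LawAt S π A x L C' Ψ := by
  obtain ⟨C₂, hC₂, hzl⟩ := M.zl L hLne C (M.KK_nonneg K)
  have ha := M.a0
  have hlog2 : 0 < Real.log 2 := Real.log_pos (by norm_num)
  have ha1 := M.one_le_a
  -- constants
  set κ : ℝ := M.a * (M.a * (K * (M.a * M.a + M.a) + K)) with hκ
  have hκ0 : 0 ≤ κ := by positivity
  let C' : ℝ → ℝ := fun ε =>
    (2 * κ + |C (ε / (2 * M.a))|) / Real.log 2 + C₂ * M.a + ε
  refine ⟨C', fun ε hε => ?_, fun Ψ hΨ hL ε hε g y m hm i => ?_⟩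
  · show 0 ≤ _
    positivity
  set ε' : ℝ := ε / (2 * M.a) with hε'
  have hε'0 : 0 < ε' := by positivity
  obtain ⟨e, c, hec, heE, hcC, he0, hle, hlc⟩ := M.split y m hm
  set n : ℝ := (n1 (hgt π y) : ℝ) with hn
  set w : ℝ := (wordLength S y : ℝ) with hw
  set lm : ℝ := Real.log (2 + m) with hlm
  set lw : ℝ := Real.log (2 + w) with hlw
  have hn0 : 0 ≤ n := Nat.cast_nonneg _
  have hw0 : 0 ≤ w := Nat.cast_nonneg _
  have hlm0 : 0 ≤ lm := Real.log_nonneg (by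
    have : (0 : ℝ) ≤ m := Nat.cast_nonneg m
    linarith)
  have hlw2 : Real.log 2 ≤ lw := Real.log_le_log (by norm_num) (by linarith)
  have hlw0 : 0 ≤ lw := hlog2.le.trans hlw2
  set t := M.t (hgt π y) with ht
  have hht : M.h t = hgtR π y := funext fun i => M.h_t _ i
  have hhc : M.h c = hgtR π y := by
    have h1 := M.h_ι y
    rw [hec, M.h_mul, he0, zero_add] at h1
    exact h1
  have hvC : t⁻¹ * c ∈ M.C := M.C.mul_mem (M.C.inv_mem (M.t_mem _)) hcC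
  have hv0 : M.h (t⁻¹ * c) = 0 := by
    rw [M.h_mul, M.h_inv, hht, hhc, neg_add_cancel]
  have hlt : M.len t ≤ M.a * n := M.len_t _
  have hlogv : Real.log (2 + M.sz (t⁻¹ * c)) ≤ M.a * lw := hlc
  -- step B
  have hB := hzl (M.ext Ψ) (M.selfQI_ext hΨ) hL (M.ι g * (e * t)) (t⁻¹ * c) hvC hv0 i
  have hpt : M.ι g * (e * t) * (t⁻¹ * c) = M.ι (g * y) := by
    rw [map_mul, hec]; group
  rw [hpt] at hB
  -- step C
  have hC := hL ε' hε'0 (M.ι g) e heE (hgt π y) 1 i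
  rw [pow_one, ← ht] at hC
  have hhet : M.h (e * t) = hgtR π y := by rw [M.h_mul, he0, zero_add, hht]
  rw [hhet] at hC
  have hlet : M.len (e * t) ≤ M.a * (n + lm + lw) + M.a * n :=
    (M.isLen.mul _ _).trans (add_le_add hle hlt)
  -- step A
  have hA : ∀ γ : Γ, |M.h (M.ext Ψ (M.ι γ)) i - hgtR π (Ψ γ) i| ≤ κ := by
    intro γ
    rw [M.h_ext, hκ]
    refine (M.hgt_diff hΨ γ (M.r (M.ι γ)) i).trans ?_
    have := M.near_ι γ
    gcongr
  have hA1 := hA (g * y)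
  have hA2 := hA g
  -- bookkeeping
  have hε1 : ε' * M.len (e * t) ≤ ε * n + ε * lm + ε * lw := by
    calc ε' * M.len (e * t) ≤ ε' * (M.a * (n + lm + lw) + M.a * n) := by gcongr
      _ = ε' * (2 * M.a) * (n + lm / 2 + lw / 2) := by ring
      _ = ε * (n + lm / 2 + lw / 2) := by rw [hε', div_mul_cancel₀ _ (by positivity)]
      _ ≤ ε * (n + lm + lw) := by gcongr <;> linarith
      _ = _ := by ring
  have hgen : ∀ X : ℝ, 0 ≤ X → X ≤ X / Real.log 2 * lw := by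
    intro X hX
    rw [div_mul_eq_mul_div, le_div_iff₀ hlog2]
    exact mul_le_mul_of_nonneg_left hlw2 hX
  have hconst : 2 * κ + |C ε'| ≤ (2 * κ + |C ε'|) / Real.log 2 * lw :=
    hgen _ (by positivity)
  have hB' : C₂ * Real.log (2 + M.sz (t⁻¹ * c)) ≤ C₂ * M.a * lw := by
    rw [mul_assoc]; exact mul_le_mul_of_nonneg_left hlogv hC₂
  have hsum : |hgtR π (Ψ (g * y)) i - hgtR π (Ψ g) i - L (hgtR π y) i| ≤
      κ + κ + C₂ * M.a * lw + (ε * n + ε * lm + ε * lw + |C ε'|) := by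
    have e1 : hgtR π (Ψ (g * y)) i - hgtR π (Ψ g) i - L (hgtR π y) i =
        -(M.h (M.ext Ψ (M.ι (g * y))) i - hgtR π (Ψ (g * y)) i)
        + (M.h (M.ext Ψ (M.ι g)) i - hgtR π (Ψ g) i)
        + (M.h (M.ext Ψ (M.ι (g * y))) i - M.h (M.ext Ψ (M.ι g * (e * t))) i)
        + (M.h (M.ext Ψ (M.ι g * (e * t))) i - M.h (M.ext Ψ (M.ι g)) i - L (hgtR π y) i) := by
      ring
    rw [e1]
    refine (abs_add_le _ _).trans (add_le_add ((abs_add_le _ _).trans (add_le_add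
      ((abs_add_le _ _).trans (add_le_add ?_ hA2)) (hB.trans hB'))) (hC.trans ?_))
    · rw [abs_neg]; exact hA1
    · have := le_abs_self (C ε')
      linarith
  refine hsum.trans ?_
  show _ ≤ ε * (n + lm) + ((2 * κ + |C ε'|) / Real.log 2 + C₂ * M.a + ε) * lw
  linarith

/-- The law used by the final reduction. -/
def Law (S : Set Γ) (π : Γ →* Multiplicative (Fin k → ℤ)) (A : Set Γ) (x : Fin k → Γ) : Prop :=
  ∀ K : ℕ, ∃ (LL : Set ((Fin k → ℝ) →ₗ[ℝ] (Fin k → ℝ))) (C : ℝ → ℝ), LL.Finite ∧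
    ∀ Ψ : Γ → Γ, QIMap S S Ψ K → ∃ L ∈ LL, ∀ ε > 0, ∀ (g y : Γ) (m : ℕ),
      y * (z x (hgt π y))⁻¹ ∈ A ^ m → ∀ i : Fin k,
      |hgtR π (Ψ (g * y)) i - hgtR π (Ψ g) i - L (hgtR π y) i| ≤
        ε * ((n1 (hgt π y) : ℝ) + Real.log (2 + m)) + C ε * Real.log (2 + wordLength S y)

/-- The restricted uniform sublinear law in the model (only displacements `e * t v ^ n`). -/
def CModel.USLE : Prop :=
  ∀ K : ℕ, ∃ (LL : Set ((Fin k → ℝ) →ₗ[ℝ] (Fin k → ℝ))) (C : ℝ → ℝ), LL.Finite ∧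
    (∀ L ∈ LL, ∀ j, M.Λ j ∘ₗ L ≠ 0) ∧
    ∀ Ψ : Γ → Γ, QIMap S S Ψ K → ∃ L ∈ LL, M.SubE L C (M.ext Ψ)

/-- **USLE ⇒ LAW.** -/
theorem CModel.law_of_usle (h : M.USLE) : Law S π A x := by
  classical
  intro K
  obtain ⟨LL, C, hLL, hne, hU⟩ := h K
  have hfix : ∀ L : (Fin k → ℝ) →ₗ[ℝ] (Fin k → ℝ), ∃ C' : ℝ → ℝ, (∀ ε > 0, 0 ≤ C' ε) ∧
      (L ∈ LL → ∀ Ψ : Γ → Γ, QIMap S S Ψ K → M.SubE L C (M.ext Ψ) → LawAt S π A x L C' Ψ) := by
    intro L
    by_cases hL : L ∈ LL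
    · obtain ⟨C', h1, h2⟩ := M.law_fixed L (hne L hL) C K
      exact ⟨C', h1, fun _ => h2⟩
    · exact ⟨fun _ => 0, fun _ _ => le_rfl, fun h => absurd h hL⟩
  choose C' hC'0 hC' using hfix
  refine ⟨LL, fun ε => ∑ L ∈ hLL.toFinset, C' L ε, hLL, fun Ψ hΨ => ?_⟩
  obtain ⟨L, hLmem, hL⟩ := hU Ψ hΨ
  refine ⟨L, hLmem, fun ε hε g y m hm i => (hC' L hLmem Ψ hΨ hL ε hε g y m hm i).trans ?_⟩
  have h1 : C' L ε ≤ ∑ L ∈ hLL.toFinset, C' L ε :=
    Finset.single_le_sum (f := fun L => C' L ε) (fun L _ => hC'0 L ε hε)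
      (hLL.mem_toFinset.2 hLmem)
  have h2 : 0 ≤ Real.log (2 + (wordLength S y : ℝ)) := Real.log_nonneg (by
    have : (0 : ℝ) ≤ wordLength S y := Nat.cast_nonneg _
    linarith)
  have := mul_le_mul_of_nonneg_right h1 h2
  linarith

/-- the full sublinear law implies the restricted one. -/
theorem CModel.usle_of_usl (hπ : Function.Surjective π) (h : USL S π) : M.USLE := by
  classical
  intro K
  obtain ⟨LL, C, hLL, hU⟩ := h K
  choose C' hC' using fun L => M.subE_of_subAt L C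
  refine ⟨{L | L ∈ LL ∧ ∀ j, M.Λ j ∘ₗ L ≠ 0}, fun ε => ∑ L ∈ hLL.toFinset, |C' L ε|,
    hLL.subset fun L hL => hL.1, fun L hL => hL.2, fun Ψ hΨ => ?_⟩
  obtain ⟨L, hLmem, hL⟩ := hU Ψ hΨ
  refine ⟨L, ⟨hLmem, fun j => M.fun_ne hπ hΨ hL (M.Λ j) (M.Λ_ne j)⟩,
    fun ε hε g e he v n i => (hC' L Ψ hL ε hε g e he v n i).trans ?_⟩
  have h1 : |C' L ε| ≤ ∑ L ∈ hLL.toFinset, |C' L ε| :=
    Finset.single_le_sum (f := fun L => |C' L ε|) (fun L _ => abs_nonneg _)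
      (hLL.mem_toFinset.2 hLmem)
  have h2 := le_abs_self (C' L ε)
  linarith

include M in
/-- **USL ⇒ LAW.** -/
theorem CModel.law (hπ : Function.Surjective π) (h : USL S π) : Law S π A x :=
  M.law_of_usle (M.usle_of_usl hπ h)

end Crest.Agent.R182.Bnd
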