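/-
R182, module POLYC: commuting families of operators: full flags, characters, eigenvectors.
-/
import Mathlib
import Crest.Agent.R182.PolycLK

set_option autoImplicit false

namespace Crest.Agent.R182.Polyc

open Module Polynomial

universe u v w

section

variable {K : Type w} [Field K] {G : Type u} [Group G]

theorem exists_common_eigenvector_comm [IsAlgClosed K] {V : Type v} [AddCommGroup V] [Module K V]
    [FiniteDimensional K V] [Nontrivial V] (ρ : Representation K G V)
    (hc : ∀ g h, Commute (ρ g) (ρ h)) : ∃ v : V, v ≠ 0 ∧ ∀ g, ∃ c : K, ρ g v = c • v := by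
  have hwf : WellFounded (fun A B : Submodule K V => A < B) := wellFounded_lt
  obtain ⟨W, ⟨hW0, hWi⟩, hmin⟩ := hwf.has_min
    {W : Submodule K V | W ≠ ⊥ ∧ ∀ g, W ≤ W.comap (ρ g)}
    ⟨⊤, by simp⟩
  obtain ⟨v, hvW, hv0⟩ := Submodule.exists_mem_ne_zero_of_ne_bot hW0
  refine ⟨v, hv0, ?_⟩
  intro g
  have hnt : Nontrivial W := Submodule.nontrivial_iff_ne_bot.mpr hW0
  let fW : Module.End K W := (ρ g).restrict (fun x hx => hWi g hx)
  obtain ⟨c, hcc⟩ := Module.End.exists_eigenvalue fW
  obtain ⟨u, hu⟩ := hcc.exists_hasEigenvector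
  have hu1 : ρ g (u : V) = c • (u : V) := congrArg Subtype.val hu.apply_eq_smul
  have hu2 : (u : V) ≠ 0 := fun h => hu.2 (Subtype.ext h)
  -- the eigenspace inside `W`
  let W' : Submodule K V := W ⊓ LinearMap.ker (ρ g - c • (1 : V →ₗ[K] V))
  have hW'0 : W' ≠ ⊥ := by
    intro h
    have : (u : V) ∈ W' := ⟨u.2, by simp [LinearMap.mem_ker, hu1]⟩
    rw [h, Submodule.mem_bot] at this
    exact hu2 this
  have hW'i : ∀ h, W' ≤ W'.comap (ρ h) := by
    rintro h x ⟨hx1, hx2⟩
    refine ⟨hWi h hx1, ?_⟩
    have hx2' : ρ g x = c • x := by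
      have : (ρ g - c • (1 : V →ₗ[K] V)) x = 0 := hx2
      simpa [sub_eq_zero] using this
    change (ρ g - c • (1 : V →ₗ[K] V)) (ρ h x) = 0
    have h1 : ρ g (ρ h x) = ρ h (ρ g x) := by
      have := congrArg (fun f : V →ₗ[K] V => f x) (hc g h).eq
      exact this
    simp [h1, hx2']
  have hle : W' ≤ W := inf_le_left
  have heq : W' = W := by
    by_contra hne
    exact hmin W' ⟨hW'0, hW'i⟩ (lt_of_le_of_ne hle hne)
  have hv' : v ∈ W' := by rw [heq]; exact hvW
  refine ⟨c, ?_⟩
  have : (ρ g - c • (1 : V →ₗ[K] V)) v = 0 := hv'.2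
  simpa [sub_eq_zero] using this

theorem exists_flag_comm [IsAlgClosed K] (n : ℕ) :
    ∀ (V : Type v) [AddCommGroup V] [Module K V] [FiniteDimensional K V],
      finrank K V = n → ∀ ρ : Representation K G V, (∀ g h, Commute (ρ g) (ρ h)) →
      ∃ W : Fin (n + 1) → Submodule K V, Monotone W ∧
        W 0 = ⊥ ∧ W (Fin.last n) = ⊤ ∧ (∀ i, finrank K (W i) = i) ∧
        ∀ g, ∀ i, (W i).map (ρ g) ≤ W i := by
  induction n with
  | zero =>
    intro V _ _ _ hV ρ _
    have hsub : Subsingleton V := finrank_zero_iff.1 hV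
    refine ⟨fun _ => ⊥, monotone_const, rfl, Subsingleton.elim _ _, ?_, ?_⟩
    · intro i
      rw [finrank_bot]
      omega
    · intro g i
      rw [Submodule.map_bot]
  | succ n ih =>
    intro V _ _ _ hV ρ hc
    have hnt : Nontrivial V := Module.nontrivial_of_finrank_pos (R := K) (by omega)
    obtain ⟨v, hv0, hv⟩ := exists_common_eigenvector_comm ρ hc
    have hLinv : ∀ g : G, (K ∙ v) ≤ (K ∙ v).comap (ρ g) := by
      intro g
      rw [Submodule.span_singleton_le_iff_mem, Submodule.mem_comap]
      obtain ⟨c, hc⟩ := hv g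
      rw [hc]
      exact Submodule.smul_mem _ _ (Submodule.mem_span_singleton_self v)
    have hdim : finrank K (V ⧸ (K ∙ v)) = n := by
      have h1 := (K ∙ v).finrank_quotient_add_finrank
      rw [finrank_span_singleton hv0] at h1
      omega
    obtain ⟨W, hWm, hW0, hWl, hWd, hWi⟩ := ih (V ⧸ (K ∙ v)) hdim
      (Representation.quotient ρ (K ∙ v) hLinv) (by
        intro g h
        ext x
        have h1 := congrArg (fun f : V →ₗ[K] V => f x) (hc g h).eq
        exact congrArg (K ∙ v).mkQ h1)
    refine ⟨Fin.cons ⊥ (fun i => (W i).comap (K ∙ v).mkQ), ?_, ?_, ?_, ?_, ?_⟩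
    · intro i j
      refine Fin.cases ?_ (fun i => ?_) i
      · intro _
        exact bot_le
      · refine Fin.cases ?_ (fun j => ?_) j
        · intro hij
          exact absurd hij (by simp)
        · intro hij
          exact Submodule.comap_mono (hWm (Fin.succ_le_succ_iff.1 hij))
    · rfl
    · rw [← Fin.succ_last]
      simp only [Fin.cons_succ]
      rw [hWl, Submodule.comap_top]
    · intro i
      refine Fin.cases ?_ (fun i => ?_) i
      · simp
      · change finrank K ((W i).comap (K ∙ v).mkQ) = _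
        rw [PolycLK.finrank_comap_mkQ, hWd, finrank_span_singleton hv0, Fin.val_succ]
    · intro g i
      refine Fin.cases ?_ (fun i => ?_) i
      · simp
      · simp only [Fin.cons_succ]
        rintro _ ⟨x, hx, rfl⟩
        refine hWi g i ⟨(K ∙ v).mkQ x, hx, ?_⟩
        rfl

variable {V : Type v} [AddCommGroup V] [Module K V] [FiniteDimensional K V]

/-- If a commuting family acts by the character `χ` modulo a proper subspace then there is a
genuine common eigenvector with that character. -/
theorem exists_eigenvector_of_quot [IsAlgClosed K] (ρ : Representation K G V)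
    (hc : ∀ g h, Commute (ρ g) (ρ h)) (U : Submodule K V) (hU : U ≠ ⊤) (χ : G → K)
    (hχ : ∀ g v, ρ g v - χ g • v ∈ U) : ∃ v : V, v ≠ 0 ∧ ∀ g, ρ g v = χ g • v := by
  have hmaps : ∀ (i j : G) (φ : K), Set.MapsTo (ρ i) ((Module.End.maxGenEigenspace (ρ j)) φ)
      ((Module.End.maxGenEigenspace (ρ j)) φ) :=
    fun i j φ => Module.End.mapsTo_maxGenEigenspace_of_comm (hc j i) φ
  have htop := Module.End.iSup_iInf_maxGenEigenspace_eq_top_of_forall_mapsTo (K := K)
    (fun g => (ρ g : Module.End K V)) hmaps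
    (fun i => Module.End.iSup_maxGenEigenspace_eq_top (ρ i))
  -- some generalized eigenspace is not inside `U`
  obtain ⟨ψ, hψ⟩ : ∃ ψ : G → K, ¬ (⨅ g, Module.End.maxGenEigenspace (ρ g) (ψ g)) ≤ U := by
    by_contra hcon
    push Not at hcon
    apply hU
    rw [← top_le_iff, ← htop]
    exact iSup_le hcon
  obtain ⟨w, hw, hwU⟩ := Set.not_subset.mp hψ
  have hw' := (Module.End.mem_iInf_maxGenEigenspace_iff (fun g => (ρ g : Module.End K V)) ψ w).mp hw
  have hψχ : ψ = χ := by
    funext g
    obtain ⟨k, hk⟩ := hw' g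
    have h1 : ∀ (k : ℕ) (x : V), ((ρ g - ψ g • (1 : Module.End K V)) ^ k) x -
        (χ g - ψ g) ^ k • x ∈ U := by
      intro k
      induction k with
      | zero => intro x; simp
      | succ k ih =>
        intro x
        have h2 := ih ((ρ g - ψ g • (1 : Module.End K V)) x)
        have h3 : (χ g - ψ g) ^ k • ((ρ g - ψ g • (1 : Module.End K V)) x) -
            (χ g - ψ g) ^ (k + 1) • x ∈ U := by
          have h4 := U.smul_mem ((χ g - ψ g) ^ k) (hχ g x)
          have e : (χ g - ψ g) ^ k • ((ρ g - ψ g • (1 : Module.End K V)) x) -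
            (χ g - ψ g) ^ (k + 1) • x = (χ g - ψ g) ^ k • (ρ g x - χ g • x) := by
            simp only [LinearMap.sub_apply, LinearMap.smul_apply, Module.End.one_apply, pow_succ]
            module
          rw [e]; exact h4
        rw [pow_succ, Module.End.mul_apply]
        have := U.add_mem h2 h3
        simpa using this
    have h5 := h1 k w
    rw [hk, zero_sub, neg_mem_iff] at h5
    by_contra hne
    have h6 : (χ g - ψ g) ^ k ≠ 0 := pow_ne_zero _ (sub_ne_zero.mpr (Ne.symm hne))
    exact hwU ((U.smul_mem_iff h6).mp h5)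
  -- the generalized eigenspace of `χ` is invariant and nonzero
  set X : Submodule K V := ⨅ g, Module.End.maxGenEigenspace (ρ g) (χ g) with hX
  have hXi : ∀ h, X ≤ X.comap (ρ h) := by
    intro h x hx
    rw [Submodule.mem_comap, hX, Submodule.mem_iInf]
    intro g
    exact hmaps h g (χ g) ((Submodule.mem_iInf _).mp hx g)
  have hw0 : w ≠ 0 := fun h => hwU (by rw [h]; exact U.zero_mem)
  have hXn : Nontrivial X := by
    rw [Submodule.nontrivial_iff_ne_bot]
    intro h
    have : w ∈ X := by rw [hX, ← hψχ]; exact hw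
    rw [h, Submodule.mem_bot] at this
    exact hw0 this
  let ρX : Representation K G X :=
    { toFun := fun g => (ρ g).restrict (fun x hx => hXi g hx)
      map_one' := by ext x; simp
      map_mul' := fun g h => by ext x; simp }
  obtain ⟨v, hv0, hv⟩ := exists_common_eigenvector_comm ρX (by
    intro g h
    ext x
    have h1 := congrArg (fun f : V →ₗ[K] V => f x) (hc g h).eq
    exact h1)
  refine ⟨v, fun h => hv0 (Subtype.ext h), ?_⟩
  intro g
  obtain ⟨c, hcv⟩ := hv g
  have hcv' : ρ g (v : V) = c • (v : V) := congrArg Subtype.val hcv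
  have hvg := (Module.End.mem_iInf_maxGenEigenspace_iff (fun g => (ρ g : Module.End K V)) χ
    (v : V)).mp v.2 g
  obtain ⟨k, hk⟩ := hvg
  have h1 : ∀ k : ℕ, ((ρ g - χ g • (1 : Module.End K V)) ^ k) (v : V) =
      (c - χ g) ^ k • (v : V) := by
    intro k
    induction k with
    | zero => simp
    | succ k ih =>
      rw [pow_succ', Module.End.mul_apply, ih, map_smul, LinearMap.sub_apply, hcv',
        LinearMap.smul_apply, Module.End.one_apply, pow_succ]
      module
  have h2 := h1 k
  rw [hk] at h2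
  have h3 : (c - χ g) ^ k = 0 :=
    (smul_eq_zero.mp h2.symm).resolve_right (fun h => hv0 (Subtype.ext h))
  have h4 : c - χ g = 0 := by
    by_contra hne
    exact pow_ne_zero k hne h3
  rw [hcv', sub_eq_zero.mp h4]

/-- Everything for a commuting family. -/
theorem exists_triangular_comm [IsAlgClosed K] (ρ : Representation K G V)
    (hc : ∀ g h, Commute (ρ g) (ρ h)) :
    ∃ (b : Basis (Fin (finrank K V)) K V) (χ : Fin (finrank K V) → G →* Kˣ),
        (∀ (i : Fin (finrank K V)) (g : G), ∀ v ∈ b.flag i.succ,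
          ρ g v - (χ i g : K) • v ∈ b.flag i.castSucc) ∧
        (∀ g : G, LinearMap.charpoly (ρ g) =
          ∏ i, (Polynomial.X - Polynomial.C ((χ i g : Kˣ) : K))) ∧
        (∀ i, ∃ v : V, v ≠ 0 ∧ ∀ g, ρ g v = (χ i g : K) • v) := by
  obtain ⟨W, hWm, hW0, hWl, hWd, hWi⟩ := exists_flag_comm (finrank K V) V rfl ρ hc
  obtain ⟨b, hb⟩ := PolycLK.exists_basis W hWm hWl hWd
  obtain ⟨χ, hχ⟩ := PolycLK.exists_chars ρ W hWm hWd (fun g i => hWi g i)
  have hχ' : ∀ (i : Fin (finrank K V)) (g : G), ∀ v ∈ b.flag i.succ,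
      ρ g v - (χ i g : K) • v ∈ b.flag i.castSucc := by
    intro i g v hv
    rw [← hb] at hv ⊢
    exact hχ i g v hv
  refine ⟨b, χ, hχ', fun g => PolycLK.charpoly_eq_prod _ b χ hχ' g, ?_⟩
  intro i
  -- restrict to the flag piece
  have hinv : ∀ g, b.flag i.succ ≤ (b.flag i.succ).comap (ρ g) := by
    intro g x hx
    rw [← hb] at hx ⊢
    exact hWi g i.succ ⟨x, hx, rfl⟩
  let ρU : Representation K G (b.flag i.succ) :=
    { toFun := fun g => (ρ g).restrict (fun x hx => hinv g hx)
      map_one' := by ext x; simp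
      map_mul' := fun g h => by ext x; simp }
  obtain ⟨v, hv0, hv⟩ := exists_eigenvector_of_quot ρU (by
      intro g h
      ext x
      have h1 := congrArg (fun f : V →ₗ[K] V => f x) (hc g h).eq
      exact h1)
    ((b.flag i.castSucc).comap (b.flag i.succ).subtype) (by
      intro h
      have h1 : b i ∈ b.flag i.succ := b.self_mem_flag (Fin.castSucc_lt_succ (i := i))
      have h2 : (⟨b i, h1⟩ : b.flag i.succ) ∈
          (b.flag i.castSucc).comap (b.flag i.succ).subtype := by rw [h]; trivial
      have h3 : b i ∈ b.flag i.castSucc := h2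
      rw [b.self_mem_flag_iff] at h3
      exact lt_irrefl _ h3) (fun g => (χ i g : K)) (by
      intro g x
      exact hχ' i g x x.2)
  exact ⟨v, fun h => hv0 (Subtype.ext h), fun g => congrArg Subtype.val (hv g)⟩

end

end Crest.Agent.R182.Polyc
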