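/-
R182, module POLYC (PC3, first part): poly-(infinite cyclic) subgroups of finite index.
-/
import Mathlib
import Crest.Agent.R182.PolycVirt

set_option autoImplicit false

namespace Crest.Agent.R182.Polyc

open Subgroup Crest.GroupTheory

section

variable {G : Type*} [Group G]

/-- `PZ N`: the subgroup `N` has a finite subnormal series from `⊥` with infinite cyclic
factors. -/
inductive PZ {G : Type*} [Group G] : Subgroup G → Prop
  | bot : PZ ⊥
  | step {N M : Subgroup G} (hN : PZ N) (hle : N ≤ M)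
      (hnorm : ∀ h ∈ M, ∀ x ∈ N, h * x * h⁻¹ ∈ N) (g : G) (hg : g ∈ M)
      (hM : M = N ⊔ zpowers g) (hfree : ∀ k : ℤ, g ^ k ∈ N → k = 0) : PZ M

theorem PZ.pc {N : Subgroup G} (h : PZ N) : PC N := by
  induction h with
  | bot => exact PC.bot
  | step _ hle hnorm g hg hM _ ih => exact PC.step ih hle hnorm g hg hM

/-- Powers modulo a normal subgroup. -/
theorem pow_mod {N M : Subgroup G}
    (hnorm : ∀ h ∈ M, ∀ x ∈ N, h * x * h⁻¹ ∈ N) {x y : G} (hx : x ∈ M) (hy : y ∈ M)
    (h : x * y⁻¹ ∈ N) (k : ℤ) : x ^ k * (y ^ k)⁻¹ ∈ N := by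
  have hnn : ((N.subgroupOf M)).Normal := ⟨fun a ha b => hnorm b b.2 a ha⟩
  have h1 : (QuotientGroup.mk (s := N.subgroupOf M) ⟨x, hx⟩) = QuotientGroup.mk ⟨y, hy⟩ := by
    rw [← mul_inv_eq_one]
    rw [← QuotientGroup.mk_inv, ← QuotientGroup.mk_mul, QuotientGroup.eq_one_iff]
    exact h
  have h2 : (QuotientGroup.mk (s := N.subgroupOf M) ((⟨x, hx⟩ : M) ^ k)) =
      QuotientGroup.mk ((⟨y, hy⟩ : M) ^ k) := by
    rw [QuotientGroup.mk_zpow, QuotientGroup.mk_zpow, h1]
  rw [← mul_inv_eq_one, ← QuotientGroup.mk_inv, ← QuotientGroup.mk_mul,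
    QuotientGroup.eq_one_iff] at h2
  exact h2

/-- infinite cyclic factors are torsion free -/
theorem isolated_step {N M : Subgroup G}
    (hnorm : ∀ h ∈ M, ∀ x ∈ N, h * x * h⁻¹ ∈ N) {g : G} (hg : g ∈ M)
    (hM : M = N ⊔ zpowers g) (hfree : ∀ k : ℤ, g ^ k ∈ N → k = 0) {x : G} (hx : x ∈ M)
    {j : ℤ} (hj : j ≠ 0) (h : x ^ j ∈ N) : x ∈ N := by
  obtain ⟨n, hn, i, rfl⟩ := (mem_of_step hnorm hg hM).mp hx
  have h1 := pow_mod hnorm hx (M.zpow_mem hg i) (by
    rw [mul_assoc, mul_inv_cancel, mul_one]; exact hn) j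
  have h2 : g ^ (i * j) ∈ N := by
    have : g ^ (i * j) = ((n * g ^ i) ^ j * ((g ^ i) ^ j)⁻¹)⁻¹ * (n * g ^ i) ^ j := by
      rw [zpow_mul]; group
    rw [this]
    exact N.mul_mem (N.inv_mem h1) h
  have h3 := hfree _ h2
  rcases mul_eq_zero.mp h3 with h4 | h4
  · rw [h4]; simpa using hn
  · exact absurd h4 hj

theorem PZ.torsionFree {M : Subgroup G} (h : PZ M) {x : G} (hx : x ∈ M) {j : ℤ} (hj : j ≠ 0)
    (hxj : x ^ j = 1) : x = 1 := by
  induction h with
  | bot => exact Subgroup.mem_bot.mp hx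
  | @step N M hN hle hnorm g hg hM hfree ih =>
    refine ih (isolated_step hnorm hg hM hfree hx hj ?_)
    rw [hxj]; exact N.one_mem

theorem PZ.comap {G' : Type*} [Group G'] (f : G' →* G) (hk : PZ f.ker) {N : Subgroup G}
    (hN : PZ N) : PZ (N.comap f) := by
  induction hN with
  | bot => rwa [MonoidHom.comap_bot]
  | @step N M hN hle hnorm g hg hM hfree ih =>
    obtain ⟨k, hk1, hk2⟩ := comap_step f hnorm hg hM
    by_cases hkk : ∀ j : ℤ, k ^ j ∈ N.comap f → j = 0
    · refine PZ.step ih (Subgroup.comap_mono hle) ?_ k hk1 hk2 hkk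
      intro h hh x hx
      change f (h * x * h⁻¹) ∈ N
      rw [map_mul, map_mul, map_inv]
      exact hnorm _ hh _ hx
    · push Not at hkk
      obtain ⟨j, hj1, hj2⟩ := hkk
      have : f k ∈ N := by
        refine isolated_step hnorm hg hM hfree hk1 hj2 ?_
        rw [← map_zpow]; exact hj1
      have h2 : M.comap f = N.comap f := by
        rw [hk2, sup_eq_left, zpowers_le]; exact this
      rw [h2]; exact ih

theorem PZ.comap_injective {G' : Type*} [Group G'] {f : G' →* G} (hf : Function.Injective f)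
    {N : Subgroup G} (hN : PZ N) : PZ (N.comap f) := by
  apply PZ.comap f _ hN
  rw [(MonoidHom.ker_eq_bot_iff f).mpr hf]
  exact PZ.bot

theorem PZ.map_injective {G' : Type*} [Group G'] {f : G →* G'} (hf : Function.Injective f)
    {N : Subgroup G} (hN : PZ N) : PZ (N.map f) := by
  induction hN with
  | bot => rw [Subgroup.map_bot]; exact PZ.bot
  | @step N M hN hle hnorm g hg hM hfree ih =>
    refine PZ.step ih (Subgroup.map_mono hle) ?_ (f g) ⟨g, hg, rfl⟩ ?_ ?_
    · rintro _ ⟨h, hh, rfl⟩ _ ⟨x, hx, rfl⟩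
      exact ⟨h * x * h⁻¹, hnorm _ hh _ hx, by simp⟩
    · conv_lhs => rw [hM]
      rw [Subgroup.map_sup, MonoidHom.map_zpowers]
    · intro k hk
      rw [← map_zpow] at hk
      obtain ⟨x, hx, hxk⟩ := hk
      exact hfree k (by rw [← hf hxk]; exact hx)

theorem pz_top_iff {N : Subgroup G} : PZ (⊤ : Subgroup N) ↔ PZ N := by
  constructor
  · intro h
    have := h.map_injective N.subtype_injective
    rwa [← MonoidHom.range_eq_map, Subgroup.range_subtype] at this
  · intro h
    have := h.comap_injective N.subtype_injective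
    rwa [← Subgroup.subgroupOf, Subgroup.subgroupOf_self] at this

theorem PZ.mono {K N : Subgroup G} (hN : PZ N) (h : K ≤ N) : PZ K := by
  rw [← pz_top_iff]
  have := hN.comap_injective K.subtype_injective
  rwa [← Subgroup.subgroupOf, Subgroup.subgroupOf_eq_top.mpr h] at this

/-- A predicate on subgroups inherited by subgroups, true for a finite-index subgroup of a
finitely generated group `N`, is true for an invariant finite-index subgroup. -/
theorem exists_invariant_le {N P : Subgroup G} (hN : N.FG)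
    (hP : P.relIndex N ≠ 0) :
    ∃ C : Subgroup G, C ≤ P ∧ C.relIndex N ≠ 0 ∧
      ∀ h : G, (∀ x ∈ N, h * x * h⁻¹ ∈ N) → (∀ x ∈ N, h⁻¹ * x * h ∈ N) →
        ∀ x ∈ C, h * x * h⁻¹ ∈ C := by
  have hfg : Group.FG N := (Group.fg_iff_subgroup_fg N).mpr hN
  obtain ⟨C, hC1, hC2, hC3⟩ := exists_characteristic_le (P.subgroupOf N) hP
  refine ⟨C.map N.subtype, ?_, ?_, ?_⟩
  · rintro _ ⟨x, hx, rfl⟩
    exact hC3 hx
  · rw [Subgroup.relIndex]
    have : (C.map N.subtype).subgroupOf N = C := by
      rw [Subgroup.subgroupOf]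
      exact Subgroup.comap_map_eq_self_of_injective N.subtype_injective C
    rw [this]; exact hC2
  · intro h hh hh'
    let φ : N ≃* N :=
      { toFun := fun x => ⟨h * x * h⁻¹, hh x x.2⟩
        invFun := fun x => ⟨h⁻¹ * x * h, hh' x x.2⟩
        left_inv := fun x => by ext; simp [mul_assoc]
        right_inv := fun x => by ext; simp [mul_assoc]
        map_mul' := fun x y => by ext; simp [mul_assoc] }
    rintro _ ⟨x, hx, rfl⟩
    have := (Subgroup.characteristic_iff_le_comap.mp hC1) φ hx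
    exact ⟨φ x, this, rfl⟩

/-- Every polycyclic group has a poly-(infinite cyclic) subgroup of finite index. -/
theorem PC.exists_pz {N : Subgroup G} (hN : PC N) :
    ∃ P : Subgroup G, P ≤ N ∧ PZ P ∧ P.relIndex N ≠ 0 := by
  induction hN with
  | bot => exact ⟨⊥, le_rfl, PZ.bot, by rw [Subgroup.relIndex_self]; exact one_ne_zero⟩
  | @step N M hN hle hnorm g hg hM ih =>
    obtain ⟨P, h1, h2, h3⟩ := ih
    obtain ⟨C, hC1, hC3, hC4⟩ := exists_invariant_le hN.fg h3
    have hC2 : PZ C := h2.mono hC1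
    have hCN : C ≤ N := hC1.trans h1
    have hinv : ∀ h ∈ M, ∀ x ∈ C, h * x * h⁻¹ ∈ C := by
      intro h hh
      refine hC4 h (hnorm h hh) ?_
      intro x hx
      have := hnorm h⁻¹ (M.inv_mem hh) x hx
      simpa using this
    have hle2 : C ⊔ zpowers g ≤ M := sup_le (hCN.trans hle) (by rwa [zpowers_le])
    have hind : (C ⊔ zpowers g).relIndex M ≠ 0 := by
      refine index_ne_zero_of_map (C.subgroupOf N) ((C ⊔ zpowers g).subgroupOf M)
        (fun x => ⟨x, hle x.2⟩) ?_ ?_ hC3
      · intro a b hab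
        exact (le_sup_left : C ≤ C ⊔ zpowers g) hab
      · rintro ⟨b, hb⟩
        obtain ⟨n, hn, i, rfl⟩ := (mem_of_step hnorm hg hM).mp hb
        refine ⟨⟨n, hn⟩, ?_⟩
        change n⁻¹ * (n * g ^ i) ∈ C ⊔ zpowers g
        rw [inv_mul_cancel_left]
        exact (le_sup_right : zpowers g ≤ _) (zpow_mem (mem_zpowers g) i)
    by_cases hfree : ∀ k : ℤ, g ^ k ∈ C → k = 0
    · exact ⟨C ⊔ zpowers g, hle2, PZ.step hC2 le_sup_left (fun h hh => hinv h (hle2 hh)) g
        ((le_sup_right : zpowers g ≤ _) (mem_zpowers g)) rfl hfree, hind⟩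
    · push Not at hfree
      obtain ⟨k, hk1, hk2⟩ := hfree
      refine ⟨C, hCN.trans hle, hC2, Subgroup.relIndex_ne_zero_trans ?_ hind⟩
      -- `C` has finite index in `C ⊔ zpowers g`
      have hkk : ((zpowers (g ^ k)).relIndex (zpowers g)) ≠ 0 := by
        refine index_ne_zero_of_map (A := Multiplicative ℤ)
          (zpowers (Multiplicative.ofAdd k)) _
          (fun i => ⟨g ^ (Multiplicative.toAdd i), zpow_mem (mem_zpowers g) _⟩) ?_ ?_ ?_
        · intro a b hab
          obtain ⟨m, hm⟩ := mem_zpowers_iff.mp hab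
          change (g ^ (Multiplicative.toAdd a))⁻¹ * g ^ (Multiplicative.toAdd b) ∈ zpowers (g ^ k)
          refine mem_zpowers_iff.mpr ⟨m, ?_⟩
          have : m * k = - Multiplicative.toAdd a + Multiplicative.toAdd b := by
            have := congrArg Multiplicative.toAdd hm
            simpa using this
          rw [← zpow_mul, mul_comm k m, this, zpow_add, zpow_neg]
        · rintro ⟨b, hb⟩
          obtain ⟨i, rfl⟩ := mem_zpowers_iff.mp hb
          refine ⟨Multiplicative.ofAdd i, ?_⟩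
          change (g ^ i)⁻¹ * g ^ i ∈ zpowers (g ^ k)
          rw [inv_mul_cancel]; exact Subgroup.one_mem _
        · have : (AddSubgroup.zmultiples k).index ≠ 0 := by
            rw [Int.index_zmultiples]; simpa using hk2
          have h5 := Subgroup.index_toAddSubgroup (H := zpowers (Multiplicative.ofAdd k))
          intro h0
          rw [h0] at h5
          apply this
          have h6 : (AddSubgroup.zmultiples k).index =
            (Subgroup.toAddSubgroup (zpowers (Multiplicative.ofAdd k))).index := by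
            rfl
          rw [h6, h5]
      refine index_ne_zero_of_map ((zpowers (g ^ k)).subgroupOf (zpowers g))
        (C.subgroupOf (C ⊔ zpowers g))
        (fun x => ⟨x, (le_sup_right : zpowers g ≤ _) x.2⟩) ?_ ?_ hkk
      · intro a b hab
        have : zpowers (g ^ k) ≤ C := by rwa [zpowers_le]
        exact this hab
      · rintro ⟨b, hb⟩
        have hnorm' : ∀ h ∈ C ⊔ zpowers g, ∀ x ∈ C, h * x * h⁻¹ ∈ C :=
          fun h hh => hinv h (hle2 hh)
        obtain ⟨n, hn, i, rfl⟩ := (mem_of_step hnorm'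
          ((le_sup_right : zpowers g ≤ _) (mem_zpowers g)) rfl).mp hb
        refine ⟨⟨g ^ i, zpow_mem (mem_zpowers g) i⟩, ?_⟩
        change (g ^ i)⁻¹ * (n * g ^ i) ∈ C
        have := hinv (g ^ i)⁻¹ (M.inv_mem (M.zpow_mem hg i)) n hn
        simpa [mul_assoc] using this

/-- Every virtually polycyclic group has a normal poly-(infinite cyclic) subgroup of finite
index; more precisely one inside any given finite-index subgroup. -/
theorem VPC.exists_pz (h : VPC (⊤ : Subgroup G)) {K : Subgroup G} (hK : K.index ≠ 0) :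
    ∃ P : Subgroup G, P.Normal ∧ P.index ≠ 0 ∧ PZ P ∧ P ≤ K := by
  obtain ⟨Q, -, h2, h3⟩ := h
  obtain ⟨P, h4, h5, h6⟩ := h2.exists_pz
  have h7 : P.index ≠ 0 := by
    rw [← Subgroup.relIndex_top_right]
    exact Subgroup.relIndex_ne_zero_trans h6 h3
  have h8 : (P ⊓ K).index ≠ 0 := Subgroup.index_inf_ne_zero h7 hK
  refine ⟨(P ⊓ K).normalCore, inferInstance, ?_, ?_, ?_⟩
  · have : (P ⊓ K).FiniteIndex := ⟨h8⟩
    exact (inferInstance : (P ⊓ K).normalCore.FiniteIndex).index_ne_zero
  · exact h5.mono ((Subgroup.normalCore_le _).trans inf_le_left)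
  · exact (Subgroup.normalCore_le _).trans inf_le_right

end

end Crest.Agent.R182.Polyc
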