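/-
R182, module POLYC (PC3, second part): virtually polycyclic groups acting on finitely generated
abelian groups: characters with integral characteristic polynomials.
-/
import Mathlib
import Crest.Agent.R182.PolycTF
import Crest.Agent.R182.PolycLK

set_option autoImplicit false

namespace Crest.Agent.R182.Polyc

open Module Polynomial
open Crest.GroupTheory

section

variable {G : Type*} [Group G]

/-- Base change to `ℂ` of endomorphisms of a finite free `ℤ`-module, through a basis. -/
noncomputable def toC {ι : Type*} [Fintype ι] [DecidableEq ι] {M : Type*} [AddCommGroup M]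
    (b : Basis ι ℤ M) : (M →ₗ[ℤ] M) →+* ((ι → ℂ) →ₗ[ℂ] (ι → ℂ)) :=
  ((Matrix.toLinAlgEquiv' (R := ℂ) (n := ι)).toRingEquiv.toRingHom.comp
    ((Int.castRingHom ℂ).mapMatrix)).comp (LinearMap.toMatrixAlgEquiv b).toRingEquiv.toRingHom

theorem toC_injective {ι : Type*} [Fintype ι] [DecidableEq ι] {M : Type*} [AddCommGroup M]
    (b : Basis ι ℤ M) : Function.Injective (toC b) := by
  have h1 : Function.Injective (LinearMap.toMatrixAlgEquiv b).toRingEquiv.toRingHom :=
    (LinearMap.toMatrixAlgEquiv b).injective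
  have h2 : Function.Injective ((Int.castRingHom ℂ).mapMatrix (m := ι)) := by
    intro A B h
    ext i j
    have := congrFun (congrFun h i) j
    simpa using this
  have h3 : Function.Injective (Matrix.toLinAlgEquiv' (R := ℂ) (n := ι)).toRingEquiv.toRingHom :=
    (Matrix.toLinAlgEquiv' (R := ℂ) (n := ι)).injective
  exact (h3.comp h2).comp h1

theorem charpoly_toC {ι : Type*} [Fintype ι] [DecidableEq ι] {M : Type*} [AddCommGroup M]
    (b : Basis ι ℤ M) [Module.Free ℤ M] [Module.Finite ℤ M] (f : M →ₗ[ℤ] M) :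
    (toC b f).charpoly = f.charpoly.map (Int.castRingHom ℂ) := by
  have h1 : toC b f = Matrix.toLin' ((LinearMap.toMatrix b b f).map (Int.castRingHom ℂ)) := rfl
  rw [h1, Matrix.charpoly_toLin', Matrix.charpoly_map, LinearMap.charpoly_toMatrix]

/-- product of `n` operators lowering a full flag is zero -/
theorem prod_eq_zero_of_flag {K V : Type*} [Field K] [AddCommGroup V] [Module K V] {n : ℕ}
    (b : Basis (Fin n) K V) (l : List (V →ₗ[K] V)) (hl : l.length = n)
    (h : ∀ f ∈ l, ∀ i : Fin n, ∀ v ∈ b.flag i.succ, f v ∈ b.flag i.castSucc) : l.prod = 0 := by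
  have key : ∀ (l : List (V →ₗ[K] V)), (∀ f ∈ l, ∀ i : Fin n, ∀ v ∈ b.flag i.succ,
      f v ∈ b.flag i.castSucc) → ∀ k : Fin (n + 1), ∀ hk : l.length + (k : ℕ) = n, ∀ v : V,
      l.prod v ∈ b.flag k := by
    intro l
    induction l with
    | nil =>
      intro _ k hk v
      have : k = Fin.last n := by ext; simpa using hk
      rw [this, Basis.flag_last]; trivial
    | cons f l ih =>
      intro hl k hk v
      have hk' : (k : ℕ) < n := by simp only [List.length_cons] at hk; omega
      have h1 := ih (fun g hg => hl g (List.mem_cons_of_mem _ hg)) (Fin.succ ⟨k, hk'⟩)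
        (by simp only [List.length_cons] at hk; simp; omega) v
      have h2 := hl f List.mem_cons_self ⟨k, hk'⟩ _ h1
      rw [List.prod_cons, Module.End.mul_apply]
      exact h2
  ext v
  have := key l h 0 (by simpa using hl) v
  rw [Basis.flag_zero, Submodule.mem_bot] at this
  simpa using this

theorem sub_one_smul' {K V : Type*} [Field K] [AddCommGroup V] [Module K V] (a : K) (v : V) :
    (a - 1) • v = a • v - v := by rw [sub_smul, one_smul]

/-- The main statement on actions on finitely generated abelian groups. -/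
theorem exists_int_chars (hG : IsVirtuallyPolycyclic G) {M : Type*} [AddCommGroup M]
    [Module.Finite ℤ M] (ρ : Representation ℤ G M) :
    ∃ cp : G → ℤ[X], (∀ g, (cp g).Monic) ∧ (∀ g h, cp (h * g * h⁻¹) = cp g) ∧
    ∃ G' : Subgroup G, G'.Normal ∧ G'.FiniteIndex ∧
      ∃ (n : ℕ) (χ : Fin n → G' →* ℂˣ),
        (∀ g : G', (cp (g : G)).map (Int.castRingHom ℂ) =
          ∏ i, (X - C ((χ i g : ℂˣ) : ℂ))) ∧
        (∀ (g : G') (c : ℕ), (∀ m : M, ∃ n : ℤ, n ≠ 0 ∧ n • ((ρ (g : G) - 1) ^ c) m = 0) →
          ∀ i, χ i g = 1) ∧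
        ∃ r : ℕ, ∀ l : List G', l.length = r → (∀ g ∈ l, ∀ i, χ i g = 1) →
          (l.map (fun g : G' => ρ (g : G) - 1)).prod = 0 := by
  classical
  set T : Submodule ℤ M := Submodule.torsion ℤ M with hT
  have hTinv : ∀ g, T ≤ T.comap (ρ g) := by
    intro g x hx
    rw [Submodule.mem_comap]
    obtain ⟨a, ha⟩ := (Submodule.mem_torsion_iff x).mp hx
    refine (Submodule.mem_torsion_iff _).mpr ⟨a, ?_⟩
    have : a • (ρ g) x = (ρ g) (a • x) := by
      change (a : ℤ) • (ρ g) x = (ρ g) ((a : ℤ) • x)
      rw [map_smul]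
    rw [this, ha, map_zero]
  -- action on the quotient
  let ρQ : Representation ℤ G (M ⧸ T) :=
    { toFun := fun g => T.mapQ T (ρ g) (hTinv g)
      map_one' := by
        ext x
        simp
      map_mul' := fun g h => by
        ext x
        simp }
  have hfree : Module.Free ℤ (M ⧸ T) := inferInstance
  let b := Module.Free.chooseBasis ℤ (M ⧸ T)
  let ρC : Representation ℂ G (Module.Free.ChooseBasisIndex ℤ (M ⧸ T) → ℂ) :=
    (toC b).toMonoidHom.comp ρQ
  obtain ⟨G₁, hn1, hf1, bb, χ, hχ, -, -, hcp, -, -, -⟩ := PolycLK.exists_triangular hG ρC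
  -- action on the torsion part
  have hTfin : Finite T := by
    have : Module.Finite ℤ T := inferInstance
    exact Module.finite_of_fg_torsion T Submodule.torsion_isTorsion
  let ρT : G →* Module.End ℤ T :=
    { toFun := fun g => (ρ g).restrict (fun x hx => hTinv g hx)
      map_one' := by ext x; simp
      map_mul' := fun g h => by ext x; simp }
  have hEfin : Finite (Module.End ℤ T) :=
    Finite.of_injective (fun f : Module.End ℤ T => (f : T → T)) DFunLike.coe_injective
  let ρT' : G →* (Module.End ℤ T)ˣ := ρT.toHomUnits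
  have hkfin : ρT'.ker.FiniteIndex := by
    rw [Subgroup.finiteIndex_iff, Subgroup.index_ker]
    exact Nat.card_pos.ne'
  have hkT : ∀ g ∈ ρT'.ker, ∀ x ∈ T, ρ g x = x := by
    intro g hg x hx
    have h1 : ρT g = 1 := by
      have := congrArg Units.val (MonoidHom.mem_ker.mp hg)
      simpa [ρT'] using this
    have h2 := congrArg (fun f : Module.End ℤ T => ((f ⟨x, hx⟩ : T) : M)) h1
    exact h2
  have hfi : (G₁ ⊓ ρT'.ker).FiniteIndex := inferInstance
  refine ⟨fun g => (ρQ g).charpoly, fun g => LinearMap.charpoly_monic _, ?_,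
    G₁ ⊓ ρT'.ker, inferInstance, hfi, finrank ℂ _,
    fun i => (χ i).comp (Subgroup.inclusion inf_le_left), ?_, ?_, ?_⟩
  · intro g h
    let e : (M ⧸ T) ≃ₗ[ℤ] (M ⧸ T) :=
      LinearEquiv.ofLinearMap (ρQ h) (ρQ h⁻¹)
        (by rw [← Module.End.mul_eq_comp, ← map_mul, mul_inv_cancel, map_one]; rfl)
        (by rw [← Module.End.mul_eq_comp, ← map_mul, inv_mul_cancel, map_one]; rfl)
    have h1 := LinearEquiv.charpoly_conj e (ρQ g)
    have h2 : e.conj (ρQ g) = ρQ (h * g * h⁻¹) := by
      rw [map_mul, map_mul]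
      rfl
    rw [h2] at h1
    exact h1
  · intro g
    change ((ρQ (g : G)).charpoly).map _ = _
    rw [← charpoly_toC b]
    exact hcp ⟨g, g.2.1⟩
  · intro g c hgc i
    have h1 : ∀ (k : ℕ) (x : M), T.mkQ (((ρ (g : G) - 1) ^ k) x) =
        ((ρQ (g : G) - 1) ^ k) (T.mkQ x) := by
      intro k
      induction k with
      | zero => intro x; simp
      | succ k ih =>
        intro x
        rw [pow_succ, pow_succ, Module.End.mul_apply, Module.End.mul_apply, ih]
        simp [ρQ]
    have h2 : (ρQ (g : G) - 1) ^ c = 0 := by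
      ext x
      obtain ⟨n, hn, hx⟩ := hgc x
      have h3 : ((ρ (g : G) - 1) ^ c) x ∈ T :=
        (Submodule.mem_torsion_iff _).mpr ⟨⟨n, mem_nonZeroDivisors_of_ne_zero hn⟩, hx⟩
      have h4 := h1 c x
      rw [Submodule.mkQ_apply, (Submodule.Quotient.mk_eq_zero T).mpr h3] at h4
      exact h4.symm
    have h5 : (ρC (g : G) - 1) ^ c = 0 := by
      have := congrArg (toC b) h2
      rw [map_pow, map_sub, map_one, map_zero] at this
      exact this
    have h6 : Module.End.HasEigenvalue (ρC (g : G)) ((χ i ⟨g, g.2.1⟩ : ℂˣ) : ℂ) := by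
      rw [Module.End.hasEigenvalue_iff_isRoot_charpoly]
      rw [hcp ⟨g, g.2.1⟩, IsRoot, eval_prod]
      exact Finset.prod_eq_zero (Finset.mem_univ i) (by simp)
    obtain ⟨v, hv⟩ := h6.exists_hasEigenvector
    have h7 : ∀ k : ℕ, ((ρC (g : G) - 1) ^ k) v =
        (((χ i ⟨g, g.2.1⟩ : ℂˣ) : ℂ) - 1) ^ k • v := by
      intro k
      induction k with
      | zero => simp
      | succ k ih =>
        rw [pow_succ, Module.End.mul_apply, LinearMap.sub_apply, hv.apply_eq_smul,
          Module.End.one_apply, map_sub, map_smul, ih, ← sub_one_smul', smul_smul, pow_succ,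
          mul_comm]
    have h8 := h7 c
    rw [h5, LinearMap.zero_apply] at h8
    have h9 : (((χ i ⟨g, g.2.1⟩ : ℂˣ) : ℂ) - 1) ^ c = 0 :=
      (smul_eq_zero.mp h8.symm).resolve_right hv.2
    have h11 : ((χ i ⟨g, g.2.1⟩ : ℂˣ) : ℂ) - 1 = 0 := by
      by_contra hne
      exact pow_ne_zero c hne h9
    exact Units.val_injective (sub_eq_zero.mp h11)
  · refine ⟨finrank ℂ (Module.Free.ChooseBasisIndex ℤ (M ⧸ T) → ℂ) + 1, ?_⟩
    intro l hl hg
    rcases l with _ | ⟨g, l⟩
    · simp at hl
    · rw [List.map_cons, List.prod_cons]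
      have hl' : l.length = finrank ℂ (Module.Free.ChooseBasisIndex ℤ (M ⧸ T) → ℂ) := by
        simpa using hl
      -- the product over `l` is zero on the quotient
      have h1 : (l.map (fun g : ↥(G₁ ⊓ ρT'.ker) => ρC (g : G) - 1)).prod = 0 := by
        refine prod_eq_zero_of_flag bb _ (by simpa using hl') ?_
        intro f hf i v hv
        obtain ⟨g', hg', rfl⟩ := List.mem_map.mp hf
        have h2 := hχ i ⟨g', g'.2.1⟩ v hv
        have h3 : χ i ⟨g', g'.2.1⟩ = 1 := hg g' (List.mem_cons_of_mem _ hg') i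
        rw [h3, Units.val_one, one_smul] at h2
        exact h2
      have h2 : (l.map (fun g : ↥(G₁ ⊓ ρT'.ker) => ρQ (g : G) - 1)).prod = 0 := by
        apply toC_injective b
        rw [map_zero, map_list_prod, List.map_map]
        rw [← h1]
        congr 1
        apply List.map_congr_left
        intro g' _
        simp only [Function.comp_apply, map_sub, map_one]
        rfl
      have h3 : ∀ (l : List ↥(G₁ ⊓ ρT'.ker)) (x : M),
          T.mkQ ((l.map (fun g : ↥(G₁ ⊓ ρT'.ker) => ρ (g : G) - 1)).prod x) =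
          (l.map (fun g : ↥(G₁ ⊓ ρT'.ker) => ρQ (g : G) - 1)).prod (T.mkQ x) := by
        intro l
        induction l with
        | nil => intro x; simp
        | cons g l ih =>
          intro x
          rw [List.map_cons, List.prod_cons, List.map_cons, List.prod_cons,
            Module.End.mul_apply, Module.End.mul_apply, ← ih]
          simp [ρQ]
      ext x
      rw [Module.End.mul_apply, LinearMap.sub_apply, Module.End.one_apply, LinearMap.zero_apply,
        sub_eq_zero]
      apply hkT g g.2.2
      have h4 := h3 l x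
      rw [h2, LinearMap.zero_apply, Submodule.mkQ_apply, Submodule.Quotient.mk_eq_zero] at h4
      exact h4

end

end Crest.Agent.R182.Polyc
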