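/-
R182, module POLYC (PC3, third part): Mal'cev's theorem. A virtually polycyclic group `G` has a
normal poly-Z subgroup `G₀` of finite index and characters `χ i : G₀ →* ℂˣ` with integral
characteristic polynomials, whose common kernel is nilpotent.
-/
import Mathlib
import Crest.Agent.R182.PolycInt

set_option autoImplicit false

namespace Crest.Agent.R182.Polyc

open Module Polynomial
open Crest.GroupTheory

section

variable {G : Type*} [Group G]

/-- The class of `x : H` in the (additive) abelianization. -/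
def cls {H : Subgroup G} (x : H) : Additive (Abelianization H) :=
  Additive.ofMul (Abelianization.of x)

theorem cls_mul {H : Subgroup G} (x y : H) : cls (x * y) = cls x + cls y := by
  simp [cls]

theorem cls_inv {H : Subgroup G} (x : H) : cls (x⁻¹) = - cls x := by
  simp [cls]

theorem cls_one {H : Subgroup G} : cls (1 : H) = 0 := by
  simp [cls]

theorem cls_eq_zero {H : Subgroup G} (x : H) : cls x = 0 ↔ (x : G) ∈ ⁅H, H⁆ := by
  have h1 : cls x = 0 ↔ x ∈ commutator H := by
    rw [← Abelianization.ker_of, MonoidHom.mem_ker]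
    exact Iff.rfl
  rw [h1]
  have h2 : (commutator H).map H.subtype = ⁅H, H⁆ := by
    rw [commutator_def, Subgroup.map_commutator, ← MonoidHom.range_eq_map, Subgroup.range_subtype]
  rw [← h2]
  constructor
  · intro h; exact ⟨x, h, rfl⟩
  · rintro ⟨y, hy, hyx⟩
    have : y = x := Subtype.ext hyx
    rwa [← this]

/-- The action of `G` by conjugation on the abelianization of a normal subgroup. -/
def conjRep (H : Subgroup G) [H.Normal] : Representation ℤ G (Additive (Abelianization H)) where
  toFun g := (MonoidHom.toAdditive (Abelianization.map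
    (MulAut.conjNormal (H := H) g).toMonoidHom)).toIntLinearMap
  map_one' := by
    ext x
    obtain ⟨x, rfl⟩ := Additive.ofMul.surjective x
    obtain ⟨x, rfl⟩ := QuotientGroup.mk_surjective x
    change Additive.ofMul (Abelianization.map _ (Abelianization.of x)) = Additive.ofMul (Abelianization.of x)
    rw [Abelianization.map_of]
    simp
  map_mul' g h := by
    ext x
    obtain ⟨x, rfl⟩ := Additive.ofMul.surjective x
    obtain ⟨x, rfl⟩ := QuotientGroup.mk_surjective x
    change Additive.ofMul (Abelianization.map _ (Abelianization.of x)) =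
      Additive.ofMul (Abelianization.map _ (Abelianization.map _ (Abelianization.of x)))
    rw [Abelianization.map_of, Abelianization.map_of, Abelianization.map_of]
    simp

theorem conjRep_cls (H : Subgroup G) [H.Normal] (g : G) (x : H) :
    conjRep H g (cls x) = cls (MulAut.conjNormal g x) := rfl

/-- `S j`: elements killed by all products of `j` operators `ρ g - 1`, `g ∈ K`. -/
def nilStep (H : Subgroup G) [H.Normal] (K : Subgroup G) (j : ℕ) : Subgroup H where
  carrier := {x | ∀ l : List G, l.length = j → (∀ g ∈ l, g ∈ K) →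
    (l.map (fun g => conjRep H g - 1)).prod (cls x) = 0}
  mul_mem' := by
    intro x y hx hy l hl hg
    rw [cls_mul, map_add, hx l hl hg, hy l hl hg, add_zero]
  one_mem' := by
    intro l _ _
    rw [cls_one, map_zero]
  inv_mem' := by
    intro x hx l hl hg
    rw [cls_inv, map_neg, hx l hl hg, neg_zero]

theorem nilStep_zero (H : Subgroup G) [H.Normal] (K : Subgroup G) :
    (nilStep H K 0).map H.subtype ≤ ⁅H, H⁆ := by
  rintro _ ⟨x, hx, rfl⟩
  have := hx [] rfl (by simp)
  rw [List.map_nil, List.prod_nil, Module.End.one_apply, cls_eq_zero] at this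
  exact this

theorem nilStep_succ (H : Subgroup G) [H.Normal] (K : Subgroup G) (j : ℕ) :
    ⁅(nilStep H K (j + 1)).map H.subtype, K⁆ ≤ (nilStep H K j).map H.subtype := by
  rw [Subgroup.commutator_le]
  rintro _ ⟨x, hx, rfl⟩ g hg
  have hmem : (x : G) * g * (x : G)⁻¹ * g⁻¹ ∈ H := by
    have h1 : g * (x : G)⁻¹ * g⁻¹ ∈ H := ‹H.Normal›.conj_mem _ (H.inv_mem x.2) g
    have e : (x : G) * g * (x : G)⁻¹ * g⁻¹ = x * (g * (x : G)⁻¹ * g⁻¹) := by group
    rw [e]; exact H.mul_mem x.2 h1
  refine ⟨⟨_, hmem⟩, ?_, rfl⟩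
  intro l hl hgl
  have e : (⟨(x : G) * g * (x : G)⁻¹ * g⁻¹, hmem⟩ : H) = x * (MulAut.conjNormal g x)⁻¹ := by
    ext
    simp [mul_assoc]
  rw [e, cls_mul, cls_inv, ← conjRep_cls]
  have h1 := hx (l ++ [g]) (by simp [hl]) (by
    intro g' hg'
    rcases List.mem_append.mp hg' with h | h
    · exact hgl g' h
    · rw [List.mem_singleton] at h; rw [h]; exact hg)
  rw [List.map_append, List.prod_append, List.map_singleton, List.prod_singleton,
    Module.End.mul_apply, LinearMap.sub_apply, Module.End.one_apply, map_sub] at h1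
  rw [map_add, map_neg]
  rw [sub_eq_zero] at h1
  rw [h1]; simp

theorem lcs_le_of_nil (H : Subgroup G) [H.Normal] (K : Subgroup G) {s : ℕ}
    (hs : K.lowerCentralSeries s ≤ H) {r : ℕ}
    (hr : ∀ l : List G, l.length = r → (∀ g ∈ l, g ∈ K) →
      (l.map (fun g => conjRep H g - 1)).prod = 0) :
    K.lowerCentralSeries (s + r) ≤ ⁅H, H⁆ := by
  have key : ∀ i j : ℕ, i + j = r → K.lowerCentralSeries (s + i) ≤
      (nilStep H K j).map H.subtype := by
    intro i
    induction i with
    | zero =>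
      intro j hj x hx
      refine ⟨⟨x, hs hx⟩, ?_, rfl⟩
      intro l hl hg
      rw [hr l (by omega) hg, LinearMap.zero_apply]
    | succ i ih =>
      intro j hj
      have h1 := ih (j + 1) (by omega)
      rw [← add_assoc, Subgroup.lowerCentralSeries_succ]
      exact (Subgroup.commutator_mono h1 le_rfl).trans (nilStep_succ H K j)
  exact (key r 0 (by omega)).trans (nilStep_zero H K)

/-- derived series relative to a subgroup, computed in the big group -/
def ds (P : Subgroup G) : ℕ → Subgroup G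
  | 0 => P
  | n + 1 => ⁅ds P n, ds P n⁆

theorem ds_le (P : Subgroup G) (n : ℕ) : ds P n ≤ P := by
  induction n with
  | zero => exact le_rfl
  | succ n ih => exact (Subgroup.commutator_mono ih ih).trans (Subgroup.commutator_le_self P)

theorem ds_normal (P : Subgroup G) [P.Normal] (n : ℕ) : (ds P n).Normal := by
  induction n with
  | zero => assumption
  | succ n ih => exact Subgroup.commutator_normal _ _

theorem ds_eq (P : Subgroup G) (n : ℕ) : ds P n = (derivedSeries P n).map P.subtype := by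
  induction n with
  | zero =>
    rw [derivedSeries_zero, ← MonoidHom.range_eq_map, Subgroup.range_subtype]; rfl
  | succ n ih =>
    rw [derivedSeries_succ, Subgroup.map_commutator, ← ih]; rfl

theorem exists_ds_eq_bot {P : Subgroup G} (hP : PC P) : ∃ n, ds P n = ⊥ := by
  obtain ⟨n, hn⟩ := hP.isSolvable
  exact ⟨n, by rw [ds_eq, hn, Subgroup.map_bot]⟩

theorem finite_abelianization {H : Subgroup G} (hH : H.FG) :
    Module.Finite ℤ (Additive (Abelianization H)) := by
  have h1 : Group.FG H := (Group.fg_iff_subgroup_fg H).mpr hH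
  have h2 : Group.FG (Abelianization H) := inferInstanceAs (Group.FG (H ⧸ commutator H))
  exact Module.Finite.iff_addGroup_fg.mpr inferInstance

theorem conjRep_sub_one_cls (H : Subgroup G) [H.Normal] (g : G) (x : H) :
    (conjRep H g - 1) (cls x) = cls (MulAut.conjNormal g x * x⁻¹) := by
  rw [LinearMap.sub_apply, conjRep_cls, Module.End.one_apply, cls_mul, cls_inv, sub_eq_add_neg]

/-- An element of a nilpotent subgroup normalised by a finite-index subgroup acts unipotently
(modulo torsion) on all abelianizations. -/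
theorem nil_conjRep {H L K : Subgroup G} [H.Normal] (hL : L.index ≠ 0)
    (hKL : ∀ x ∈ L, ∀ k ∈ K, x * k * x⁻¹ ∈ K) {s : ℕ} (hs : K.lowerCentralSeries s = ⊥)
    {g : G} (hg : g ∈ K) (m : Additive (Abelianization H)) :
    ∃ n : ℤ, n ≠ 0 ∧ n • ((conjRep H g - 1) ^ (s + 1)) m = 0 := by
  obtain ⟨x, rfl⟩ : ∃ x : H, cls x = m := by
    obtain ⟨m', rfl⟩ := Additive.ofMul.surjective m
    obtain ⟨x, rfl⟩ := QuotientGroup.mk_surjective m'
    exact ⟨x, rfl⟩
  obtain ⟨n, hn0, -, hn⟩ := Subgroup.exists_pow_mem_of_index_ne_zero hL (x : G)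
  refine ⟨n, by exact_mod_cast hn0.ne', ?_⟩
  have h1 : (n : ℤ) • ((conjRep H g - 1) ^ (s + 1)) (cls x) =
      ((conjRep H g - 1) ^ (s + 1)) (cls (x ^ n)) := by
    rw [← map_zsmul]
    congr 1
    simp [cls]
  rw [h1]
  have h2 : ∀ k : ℕ, ∃ z : H, (z : G) ∈ K.lowerCentralSeries k ∧
      ((conjRep H g - 1) ^ (k + 1)) (cls (x ^ n)) = cls z := by
    intro k
    induction k with
    | zero =>
      refine ⟨MulAut.conjNormal g (x ^ n) * (x ^ n)⁻¹, ?_, ?_⟩
      · have h3 := hKL _ hn _ (K.inv_mem hg)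
        have e : ((MulAut.conjNormal g (x ^ n) * (x ^ n)⁻¹ : H) : G) =
            g * ((x : G) ^ n * g⁻¹ * ((x : G) ^ n)⁻¹) := by
          rw [Subgroup.coe_mul, MulAut.conjNormal_apply, Subgroup.coe_inv, Subgroup.coe_pow]
          group
        rw [e]
        exact K.mul_mem hg h3
      · rw [zero_add, pow_one, conjRep_sub_one_cls]
    | succ k ih =>
      obtain ⟨z, hz, hzk⟩ := ih
      refine ⟨MulAut.conjNormal g z * z⁻¹, ?_, ?_⟩
      · have h3 : (g : G) * (z : G) * g⁻¹ * (z : G)⁻¹ ∈ ⁅K, K.lowerCentralSeries k⁆ :=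
          Subgroup.commutator_mem_commutator hg hz
        rw [Subgroup.commutator_comm] at h3
        simpa using h3
      · rw [pow_succ', Module.End.mul_apply, hzk, conjRep_sub_one_cls]
  obtain ⟨z, hz, hzk⟩ := h2 s
  rw [hs, Subgroup.mem_bot] at hz
  rw [hzk]
  have : z = 1 := Subtype.ext hz
  rw [this, cls_one]

/-- Mal'cev's theorem, first form. -/
theorem exists_malcev (hG : IsVirtuallyPolycyclic G) {K : Subgroup G} (hK : K.index ≠ 0) :
    ∃ (cp : G → ℤ[X]), (∀ g, (cp g).Monic) ∧ (∀ g h, cp (h * g * h⁻¹) = cp g) ∧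
    ∃ G₀ : Subgroup G, G₀.Normal ∧ G₀.FiniteIndex ∧ PZ G₀ ∧ G₀ ≤ K ∧
      ∃ (ι : Type) (_ : Fintype ι) (χ : ι → G₀ →* ℂˣ),
        (∀ g : G₀, (cp (g : G)).map (Int.castRingHom ℂ) =
          ∏ i, (X - C ((χ i g : ℂˣ) : ℂ))) ∧
        (∀ L : Subgroup G, (∀ g ∈ L, ∃ h : g ∈ G₀, ∀ i, χ i ⟨g, h⟩ = 1) →
          Group.IsNilpotent L) ∧
        ∀ L K : Subgroup G, L.index ≠ 0 → (∀ x ∈ L, ∀ k ∈ K, x * k * x⁻¹ ∈ K) →
          Group.IsNilpotent K → ∀ g ∈ K, ∀ (h : g ∈ G₀) (i : ι), χ i ⟨g, h⟩ = 1 := by
  classical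
  obtain ⟨P, hPn, hPi, hPz, hPK⟩ := VPC.exists_pz (isVirtuallyPolycyclic_iff.mp hG) hK
  obtain ⟨d, hd⟩ := exists_ds_eq_bot hPz.pc
  have hmod : ∀ i, Module.Finite ℤ (Additive (Abelianization (ds P i))) := fun i =>
    finite_abelianization (hPz.pc.mono (ds_le P i)).fg
  have hnorm : ∀ i, (ds P i).Normal := fun i => ds_normal P i
  choose cp hcp1 hcp2 G' hG'n hG'f n χ hχ hmax r hr using fun i : ℕ =>
    (exists_int_chars hG (conjRep (ds P i)))
  -- the finite intersection
  let G₀ : Subgroup G := (⨅ i : Fin d, G' i) ⊓ P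
  have hG₀n : G₀.Normal := by
    have h1 : (⨅ i : Fin d, G' i).Normal := Subgroup.normal_iInf_normal fun i => hG'n i
    exact Subgroup.normal_inf_normal _ _
  have hG₀f : G₀.FiniteIndex := by
    have h1 : (⨅ i : Fin d, G' i).FiniteIndex := Subgroup.finiteIndex_iInf fun i => hG'f i
    have h2 : P.FiniteIndex := ⟨hPi⟩
    exact inferInstance
  have hG₀le : ∀ i : Fin d, G₀ ≤ G' i := fun i => inf_le_left.trans (iInf_le _ i)
  refine ⟨fun g => ∏ i : Fin d, cp i g, ?_, ?_, G₀, hG₀n, hG₀f, hPz.mono inf_le_right,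
    inf_le_right.trans hPK, Σ i : Fin d, Fin (n i), inferInstance,
    fun j => (χ j.1 j.2).comp (Subgroup.inclusion (hG₀le j.1)), ?_, ?_, ?_⟩
  · intro g
    exact monic_prod_of_monic _ _ fun i _ => hcp1 i g
  · intro g h
    exact Finset.prod_congr rfl fun i _ => hcp2 i g h
  · intro g
    rw [Polynomial.map_prod, Fintype.prod_sigma]
    refine Finset.prod_congr rfl fun i _ => ?_
    exact hχ i (Subgroup.inclusion (hG₀le i) g)
  · intro L hL
    have hLG : L ≤ G₀ := fun g hg => (hL g hg).1
    have key : ∀ i : ℕ, i ≤ d → ∃ s, L.lowerCentralSeries s ≤ ds P i := by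
      intro i
      induction i with
      | zero => intro _; exact ⟨0, hLG.trans inf_le_right⟩
      | succ i ih =>
        intro hi
        obtain ⟨s, hs⟩ := ih (by omega)
        refine ⟨s + r i, lcs_le_of_nil (ds P i) L hs ?_⟩
        intro l hl hg
        have hl' : ∀ g ∈ l, g ∈ G' i := fun g hgl => hG₀le ⟨i, by omega⟩ (hLG (hg g hgl))
        have h1 := hr i (l.attach.map fun g => ⟨g.1, hl' g.1 g.2⟩) (by simpa using hl) (by
          intro g hgl j
          obtain ⟨g', _, rfl⟩ := List.mem_map.mp hgl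
          have h2 := (hL g'.1 (hg g'.1 g'.2)).2 ⟨⟨i, by omega⟩, j⟩
          exact h2)
        rw [List.map_map] at h1
        rw [← h1]
        congr 1
        conv_lhs => rw [← List.attach_map_subtype_val l]
        rw [List.map_map]
        rfl
    obtain ⟨s, hs⟩ := key d le_rfl
    rw [hd] at hs
    exact Subgroup.isNilpotent_of_lowerCentralSeries_eq_bot (le_bot_iff.mp hs)
  · intro L K hL hKL hKnil g hg hgG ⟨i, j⟩
    obtain ⟨s, hs⟩ := (Subgroup.isNilpotent_iff_lowerCentralSeries (S := K)).mp hKnil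
    refine hmax i ⟨g, hG₀le i hgG⟩ (s + 1) ?_ j
    exact nil_conjRep hL hKL hs hg

end

end Crest.Agent.R182.Polyc
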