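/-
R182, module POLYC: P. Hall's criterion for nilpotency.
-/
import Mathlib
import Crest.Agent.R182.PolycMal

set_option autoImplicit false

namespace Crest.Agent.R182.Polyc

section

variable {G : Type*} [Group G]

/-- iterated commutator `[A, K, ..., K]` (`n` times). -/
def ic (A K : Subgroup G) : ℕ → Subgroup G
  | 0 => A
  | n + 1 => ⁅ic A K n, K⁆

theorem ic_normal (A K : Subgroup G) [A.Normal] [K.Normal] (n : ℕ) : (ic A K n).Normal := by
  induction n with
  | zero => assumption
  | succ n ih => exact Subgroup.commutator_normal _ _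

theorem ic_mono {A B K : Subgroup G} (h : A ≤ B) (n : ℕ) : ic A K n ≤ ic B K n := by
  induction n with
  | zero => exact h
  | succ n ih => exact Subgroup.commutator_mono ih le_rfl

theorem ic_add (A K : Subgroup G) (m n : ℕ) : ic A K (m + n) = ic (ic A K m) K n := by
  induction n with
  | zero => rfl
  | succ n ih =>
    change ⁅ic A K (m + n), K⁆ = ⁅ic (ic A K m) K n, K⁆
    rw [ih]

theorem ic_succ' (A K : Subgroup G) (n : ℕ) : ic A K (n + 1) = ic ⁅A, K⁆ K n := by
  rw [add_comm, ic_add]; rfl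

theorem ic_le (A K : Subgroup G) [A.Normal] [K.Normal] (n : ℕ) : ic A K n ≤ A := by
  induction n with
  | zero => exact le_rfl
  | succ n ih =>
    have := ic_normal A K n
    exact (Subgroup.commutator_le_left _ _).trans ih

theorem ic_antitone (A K : Subgroup G) [A.Normal] [K.Normal] {m n : ℕ} (h : m ≤ n) :
    ic A K n ≤ ic A K m := by
  obtain ⟨k, rfl⟩ := Nat.exists_eq_add_of_le h
  rw [ic_add]
  have := ic_normal A K m
  exact ic_le _ _ _

theorem commutator_sup_le (X Y K : Subgroup G) [X.Normal] [Y.Normal] [K.Normal] :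
    ⁅X ⊔ Y, K⁆ ≤ ⁅X, K⁆ ⊔ ⁅Y, K⁆ := by
  rw [Subgroup.commutator_le]
  intro z hz k hk
  obtain ⟨x, hx, y, hy, rfl⟩ := Subgroup.mem_sup_of_normal_left.mp hz
  have e : x * y * k * (x * y)⁻¹ * k⁻¹ =
      (x * (y * k * y⁻¹ * k⁻¹) * x⁻¹) * (x * k * x⁻¹ * k⁻¹) := by group
  change x * y * k * (x * y)⁻¹ * k⁻¹ ∈ _
  rw [e]
  refine mul_mem ?_ ?_
  · refine (le_sup_right : ⁅Y, K⁆ ≤ _) ?_
    exact (Subgroup.commutator_normal Y K).conj_mem _
      (Subgroup.commutator_mem_commutator hy hk) x
  · exact (le_sup_left : ⁅X, K⁆ ≤ _) (Subgroup.commutator_mem_commutator hx hk)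

theorem ic_sup_le (X Y K : Subgroup G) [X.Normal] [Y.Normal] [K.Normal] (n : ℕ) :
    ic (X ⊔ Y) K n ≤ ic X K n ⊔ ic Y K n := by
  induction n with
  | zero => exact le_rfl
  | succ n ih =>
    have h1 := ic_normal X K n
    have h2 := ic_normal Y K n
    exact (Subgroup.commutator_mono ih le_rfl).trans (commutator_sup_le _ _ _)

/-- three subgroups lemma, modulo a normal subgroup -/
theorem three_subgroups (A B K W : Subgroup G) [W.Normal]
    (h1 : ⁅⁅B, K⁆, A⁆ ≤ W) (h2 : ⁅⁅K, A⁆, B⁆ ≤ W) : ⁅⁅A, B⁆, K⁆ ≤ W := by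
  have key : ∀ X Y Z : Subgroup G, ⁅⁅X, Y⁆, Z⁆ ≤ W ↔
      ⁅⁅X.map (QuotientGroup.mk' W), Y.map (QuotientGroup.mk' W)⁆,
        Z.map (QuotientGroup.mk' W)⁆ = ⊥ := by
    intro X Y Z
    rw [← Subgroup.map_commutator, ← Subgroup.map_commutator, Subgroup.map_eq_bot_iff,
      QuotientGroup.ker_mk']
  rw [key] at h1 h2 ⊢
  exact Subgroup.commutator_commutator_eq_bot_of_rotate h1 h2

theorem ic_commutator_le (A B K W : Subgroup G) [A.Normal] [B.Normal] [K.Normal] [W.Normal]
    {r s : ℕ} (hA : ⁅ic A K r, B⁆ ≤ W) (hB : ⁅A, ic B K s⁆ ≤ W) :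
    ic ⁅A, B⁆ K (r + s) ≤ W := by
  have key : ∀ n a b : ℕ, r + s ≤ a + b + n → ic ⁅ic A K a, ic B K b⁆ K n ≤ W := by
    intro n
    induction n with
    | zero =>
      intro a b hab
      rcases le_or_gt r a with h | h
      · exact (Subgroup.commutator_mono (ic_antitone A K h) (ic_le B K b)).trans hA
      · exact (Subgroup.commutator_mono (ic_le A K a) (ic_antitone B K (by omega))).trans hB
    | succ n ih =>
      intro a b hab
      have n1 := ic_normal A K a
      have n2 := ic_normal B K b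
      have n3 := ic_normal A K (a + 1)
      have n4 := ic_normal B K (b + 1)
      rw [ic_succ']
      have h1 : ⁅⁅ic A K a, ic B K b⁆, K⁆ ≤
          ⁅ic A K (a + 1), ic B K b⁆ ⊔ ⁅ic A K a, ic B K (b + 1)⁆ := by
        apply three_subgroups
        · rw [Subgroup.commutator_comm]
          exact le_sup_right
        · rw [Subgroup.commutator_comm K]
          exact le_sup_left
      refine (ic_mono h1 n).trans ((ic_sup_le _ _ _ n).trans (sup_le ?_ ?_))
      · exact ih _ _ (by omega)
      · exact ih _ _ (by omega)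
  exact key (r + s) 0 0 (by omega)

/-- P. Hall: if `N ≤ G` normal nilpotent, `[K, K] ≤ N` and `[N, K, ..., K] ≤ [N, N]` then `K` is
nilpotent. -/
theorem hall_nilpotent (N K : Subgroup G) [N.Normal] [K.Normal] (hN : Group.IsNilpotent N)
    {s r : ℕ} (hKN : K.lowerCentralSeries s ≤ N) (hr : ic N K r ≤ ⁅N, N⁆) :
    Group.IsNilpotent K := by
  have h1 : ∀ j : ℕ, ∃ n, ic (N.lowerCentralSeries j) K n ≤ N.lowerCentralSeries (j + 1) := by
    intro j
    induction j with
    | zero => exact ⟨r, hr⟩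
    | succ j ih =>
      obtain ⟨n, hn⟩ := ih
      have n1 : (N.lowerCentralSeries j).Normal := inferInstance
      have n2 : (N.lowerCentralSeries (j + 1 + 1)).Normal := inferInstance
      refine ⟨n + r, ic_commutator_le (N.lowerCentralSeries j) N K
        (N.lowerCentralSeries (j + 1 + 1)) ?_ ?_⟩
      · exact Subgroup.commutator_mono hn le_rfl
      · refine (Subgroup.commutator_mono le_rfl hr).trans ?_
        rw [Subgroup.commutator_comm]
        apply three_subgroups
        · rw [Subgroup.commutator_comm N (N.lowerCentralSeries j)]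
          exact le_rfl
        · exact le_rfl
  have h2 : ∀ j : ℕ, ∃ n, ic N K n ≤ N.lowerCentralSeries j := by
    intro j
    induction j with
    | zero => exact ⟨0, le_rfl⟩
    | succ j ih =>
      obtain ⟨n, hn⟩ := ih
      obtain ⟨m, hm⟩ := h1 j
      refine ⟨n + m, ?_⟩
      rw [ic_add]
      exact (ic_mono hn m).trans hm
  obtain ⟨d, hd⟩ : ∃ d, N.lowerCentralSeries d = ⊥ :=
    (Subgroup.isNilpotent_iff_lowerCentralSeries (S := N)).mp hN
  obtain ⟨n, hn⟩ := h2 d
  rw [hd] at hn
  have h3 : ∀ m, K.lowerCentralSeries (s + m) ≤ ic N K m := by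
    intro m
    induction m with
    | zero => exact hKN
    | succ m ih =>
      rw [← add_assoc, Subgroup.lowerCentralSeries_succ]
      exact Subgroup.commutator_mono ih le_rfl
  exact Subgroup.isNilpotent_of_lowerCentralSeries_eq_bot (le_bot_iff.mp ((h3 n).trans hn))

end

end Crest.Agent.R182.Polyc
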