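/-
R182, module POLYC (PC3, fourth part): Kronecker. The absolute values of the characters embed
`G₁ / N` as a discrete subgroup, `N` nilpotent normal, `G₁ / N ≅ ℤ^k`.
-/
import Mathlib
import Crest.Agent.R182.PolycMal

set_option autoImplicit false

namespace Crest.Agent.R182.Polyc

open Module Polynomial
open Crest.GroupTheory

section

/-- Finitely many tuples of bounded norm are the root tuples of integral polynomials. -/
theorem finite_root_tuples {ι : Type*} [Fintype ι] (R : ℝ) :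
    {a : ι → ℂˣ | (∃ p : ℤ[X], p.Monic ∧ p.map (Int.castRingHom ℂ) =
      ∏ i, (X - C ((a i : ℂˣ) : ℂ))) ∧ ∀ i, ‖((a i : ℂˣ) : ℂ)‖ ≤ R}.Finite := by
  classical
  set d := Fintype.card ι with hd
  set B : ℝ := max R 1 ^ d * d.choose (d / 2) with hB
  have hU := bUnion_roots_finite (Int.castRingHom ℂ) d (Set.finite_Icc (-⌈B⌉) ⌈B⌉)
  set S := (⋃ (f : ℤ[X]) (_ : f.natDegree ≤ d ∧ ∀ i, f.coeff i ∈ Set.Icc (-⌈B⌉) ⌈B⌉),
        ((f.map (Int.castRingHom ℂ)).roots.toFinset : Set ℂ)) with hS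
  have hS' : {u : ℂˣ | (u : ℂ) ∈ S}.Finite := hU.preimage Units.val_injective.injOn
  refine (Set.Finite.pi' (fun _ : ι => hS')).subset ?_
  rintro a ⟨⟨p, hp, hpa⟩, ha⟩ i
  change ((a i : ℂˣ) : ℂ) ∈ S
  have hq : (∏ i, (X - C ((a i : ℂˣ) : ℂ))).Monic := monic_prod_of_monic _ _
    fun i _ => monic_X_sub_C _
  have hdeg : (∏ i, (X - C ((a i : ℂˣ) : ℂ))).natDegree = d := by
    rw [natDegree_prod_of_monic _ _ fun i _ => monic_X_sub_C _]
    simp [hd]
  have hpdeg : p.natDegree = d := by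
    rw [← hdeg, ← hpa, hp.natDegree_map]
  have hroots : ∀ z ∈ (∏ i, (X - C ((a i : ℂˣ) : ℂ))).roots, ‖z‖ ≤ R := by
    intro z hz
    have h1 := (mem_roots'.mp hz).2
    rw [IsRoot, eval_prod, Finset.prod_eq_zero_iff] at h1
    obtain ⟨j, -, hj⟩ := h1
    rw [eval_sub, eval_X, eval_C, sub_eq_zero] at hj
    rw [hj]; exact ha j
  have hcoef : ∀ j, ‖(∏ i, (X - C ((a i : ℂˣ) : ℂ))).coeff j‖ ≤ B := by
    intro j
    have := coeff_bdd_of_roots_le (B := R) (d := d) (RingHom.id ℂ)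
      (p := ∏ i, (X - C ((a i : ℂˣ) : ℂ))) hq
      (by rw [Polynomial.map_id]; exact IsAlgClosed.splits _) hdeg.le
      (by rw [Polynomial.map_id]; exact hroots) j
    rwa [Polynomial.map_id] at this
  rw [hS]
  refine Set.mem_iUnion₂.mpr ⟨p, ⟨hpdeg.le, ?_⟩, ?_⟩
  · intro j
    have h1 := hcoef j
    rw [← hpa, coeff_map, eq_intCast, Complex.norm_intCast] at h1
    have h2 : |p.coeff j| ≤ ⌈B⌉ := by
      have : ((|p.coeff j| : ℤ) : ℝ) ≤ ⌈B⌉ := by
        rw [Int.cast_abs]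
        exact h1.trans (Int.le_ceil B)
      exact_mod_cast this
    exact abs_le.mp h2
  · rw [Finset.mem_coe, Multiset.mem_toFinset, mem_roots (hp.map _).ne_zero, hpa, IsRoot,
      eval_prod]
    exact Finset.prod_eq_zero (Finset.mem_univ i) (by simp)

variable {G : Type*} [Group G]

/-- Absolute value of the product of the roots is one. -/
theorem norm_prod_eq_one {G₀ : Subgroup G} {ι : Type*} [Fintype ι] (χ : ι → G₀ →* ℂˣ)
    (cp : G → ℤ[X])
    (hcp : ∀ g : G₀, (cp (g : G)).map (Int.castRingHom ℂ) =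
          ∏ i, (X - C ((χ i g : ℂˣ) : ℂ))) (g : G₀) :
    ∏ i, ‖((χ i g : ℂˣ) : ℂ)‖ = 1 := by
  have h1 : ∀ g : G₀, ∏ i, ‖((χ i g : ℂˣ) : ℂ)‖ = ((|(cp (g : G)).coeff 0| : ℤ) : ℝ) := by
    intro g
    have h2 := congrArg (fun p => ‖p.coeff 0‖) (hcp g)
    simp only [coeff_map, eq_intCast, Complex.norm_intCast] at h2
    rw [Int.cast_abs, h2, coeff_zero_eq_eval_zero, eval_prod, norm_prod]
    refine Finset.prod_congr rfl fun i _ => ?_
    simp
  have h3 : (∏ i, ‖((χ i g : ℂˣ) : ℂ)‖) * (∏ i, ‖((χ i g⁻¹ : ℂˣ) : ℂ)‖) = 1 := by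
    rw [← Finset.prod_mul_distrib]
    refine Finset.prod_eq_one fun i _ => ?_
    rw [← norm_mul, ← Units.val_mul, ← map_mul, mul_inv_cancel, map_one]
    simp
  rw [h1, h1] at h3
  have h4 : |(cp (g : G)).coeff 0| * |(cp ((g⁻¹ : G₀) : G)).coeff 0| = 1 := by exact_mod_cast h3
  rw [h1]
  have h5 : |(cp (g : G)).coeff 0| = 1 := by
    rcases Int.eq_one_or_neg_one_of_mul_eq_one h4 with h | h
    · exact h
    · have := abs_nonneg ((cp (g : G)).coeff 0)
      omega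
  rw [h5]; simp

/-- If all roots of the (conjugation invariant) integral polynomial are one, so are those of
conjugates. -/
theorem kernel_conj {G₀ : Subgroup G} [G₀.Normal] {ι : Type*} [Fintype ι] (χ : ι → G₀ →* ℂˣ)
    (cp : G → ℤ[X])
    (hconj : ∀ g h, cp (h * g * h⁻¹) = cp g)
    (hcp : ∀ g : G₀, (cp (g : G)).map (Int.castRingHom ℂ) =
          ∏ i, (X - C ((χ i g : ℂˣ) : ℂ))) {g : G₀} (hg : ∀ i, χ i g = 1) (x : G) :
    ∀ i, χ i ⟨x * g * x⁻¹, ‹G₀.Normal›.conj_mem g g.2 x⟩ = 1 := by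
  have h1 := hcp g
  have h2 := hcp ⟨x * g * x⁻¹, ‹G₀.Normal›.conj_mem g g.2 x⟩
  simp only [hconj] at h2
  rw [h1] at h2
  simp only [hg, Units.val_one] at h2
  intro i
  have h3 := congrArg (fun p => p.eval
    ((χ i ⟨x * g * x⁻¹, ‹G₀.Normal›.conj_mem g g.2 x⟩ : ℂˣ) : ℂ)) h2
  simp only [eval_prod] at h3
  have h4 : ∏ j : ι, eval (((χ i) ⟨x * g * x⁻¹, ‹G₀.Normal›.conj_mem g g.2 x⟩ : ℂˣ) : ℂ)
      (X - C (((χ j) ⟨x * g * x⁻¹, ‹G₀.Normal›.conj_mem g g.2 x⟩ : ℂˣ) : ℂ)) = 0 :=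
    Finset.prod_eq_zero (Finset.mem_univ i) (by simp)
  rw [h4, Finset.prod_eq_zero_iff] at h3
  obtain ⟨j, -, hj⟩ := h3
  rw [eval_sub, eval_X, eval_C, sub_eq_zero] at hj
  exact Units.val_injective (by simpa using hj)

/-- Structure theorem for virtually polycyclic groups. -/
theorem exists_structure (hG : IsVirtuallyPolycyclic G) {K : Subgroup G} (hK : K.index ≠ 0) :
    ∃ (cp : G → ℤ[X]), (∀ g, (cp g).Monic) ∧ (∀ g h, cp (h * g * h⁻¹) = cp g) ∧
    ∃ G₁ : Subgroup G, G₁.Normal ∧ G₁.FiniteIndex ∧ PZ G₁ ∧ G₁ ≤ K ∧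
    ∃ N : Subgroup G, N.Normal ∧ N ≤ G₁ ∧ Group.IsNilpotent N ∧
      (∀ L K : Subgroup G, L.index ≠ 0 → (∀ x ∈ L, ∀ k ∈ K, x * k * x⁻¹ ∈ K) →
        Group.IsNilpotent K → K ⊓ G₁ ≤ N) ∧
    ∃ (ι : Type) (_ : Fintype ι) (χ : ι → G₁ →* ℂˣ),
      (∀ g : G₁, (cp (g : G)).map (Int.castRingHom ℂ) =
          ∏ i, (X - C ((χ i g : ℂˣ) : ℂ))) ∧
      (∀ g : G₁, (g : G) ∈ N ↔ ∀ i, χ i g = 1) ∧
    ∃ (k : ℕ) (π : G₁ →* Multiplicative (Fin k → ℤ)) (Λ : ι → (Fin k → ℝ) →ₗ[ℝ] ℝ),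
      Function.Surjective π ∧
      (∀ g : G₁, π g = 1 ↔ (g : G) ∈ N) ∧
      (∀ (g : G₁) (i : ι), Real.log ‖((χ i g : ℂˣ) : ℂ)‖ =
        Λ i (fun j => ((Multiplicative.toAdd (π g) j : ℤ) : ℝ))) ∧
      (∀ v, (∀ i, Λ i v = 0) → v = 0) ∧
      (∀ v, ∑ i, Λ i v = 0) := by
  classical
  obtain ⟨cp, hcp1, hcp2, G₀, hn, hf, hpz, hGK, ι, _, χ, hχ, hnil, hmax⟩ := exists_malcev hG hK
  -- the combined character
  let φ : G₀ →* (ι → ℂˣ) := MonoidHom.pi χ
  have hφ : ∀ g i, φ g i = χ i g := fun g i => rfl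
  -- the common kernel
  let N : Subgroup G := φ.ker.map G₀.subtype
  have hN : ∀ g : G₀, (g : G) ∈ N ↔ ∀ i, χ i g = 1 := by
    intro g
    constructor
    · rintro ⟨g', hg', hgg⟩
      have : g' = g := Subtype.ext hgg
      rw [this] at hg'
      intro i
      exact congrFun hg' i
    · intro h
      exact ⟨g, by ext i; simp [φ, h i], rfl⟩
  have hNG₀ : N ≤ G₀ := Subgroup.map_subtype_le _
  have hNn : N.Normal := by
    constructor
    intro n hn' x
    have h1 := (hN ⟨n, hNG₀ hn'⟩).mp hn'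
    exact (hN ⟨x * n * x⁻¹, hn.conj_mem n (hNG₀ hn') x⟩).mpr
      (kernel_conj χ cp hcp2 hχ h1 x)
  have hNnil : Group.IsNilpotent N := by
    refine hnil N fun g hg => ⟨hNG₀ hg, ?_⟩
    exact (hN ⟨g, hNG₀ hg⟩).mp hg
  -- the torsion part is finite
  let T : Subgroup φ.range :=
    { carrier := {a | ∀ i, ‖((a.1 i : ℂˣ) : ℂ)‖ = 1}
      mul_mem' := by
        intro a b ha hb i
        change ‖(((a.1 i) * (b.1 i) : ℂˣ) : ℂ)‖ = 1
        rw [Units.val_mul, norm_mul, ha i, hb i, one_mul]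
      one_mem' := by intro i; change ‖((1 : ℂˣ) : ℂ)‖ = 1; simp
      inv_mem' := by
        intro a ha i
        change ‖(((a.1 i)⁻¹ : ℂˣ) : ℂ)‖ = 1
        rw [Units.val_inv_eq_inv_val, norm_inv, ha i, inv_one] }
  have hrange : ∀ R : ℝ, {a : ι → ℂˣ | a ∈ φ.range ∧ ∀ i, ‖((a i : ℂˣ) : ℂ)‖ ≤ R}.Finite := by
    intro R
    refine (finite_root_tuples R).subset ?_
    rintro a ⟨⟨g, rfl⟩, ha⟩
    exact ⟨⟨cp g, hcp1 g, hχ g⟩, ha⟩
  have hTfin : Finite T := by
    have h1 := hrange 1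
    have : Finite {a : ι → ℂˣ | a ∈ φ.range ∧ ∀ i, ‖((a i : ℂˣ) : ℂ)‖ ≤ 1} := h1
    refine Finite.of_injective (fun a : T => (⟨a.1.1, a.1.2, fun i => (a.2 i).le⟩ :
      {a : ι → ℂˣ | a ∈ φ.range ∧ ∀ i, ‖((a i : ℂˣ) : ℂ)‖ ≤ 1})) ?_
    intro a b hab
    have := congrArg (fun z => z.1) hab
    exact Subtype.ext (Subtype.ext this)
  let m := Nat.card T
  have hm : 0 < m := Nat.card_pos
  -- the subgroup of m-th powers
  let pw : φ.range →* φ.range := powMonoidHom m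
  have hfgG₀ : Group.FG G₀ := (Group.fg_iff_subgroup_fg G₀).mpr hpz.pc.fg
  have hfgA : Group.FG φ.range := inferInstance
  have hpwfin : Finite (φ.range ⧸ pw.range) := by
    have h1 : Group.FG (φ.range ⧸ pw.range) := inferInstance
    apply CommGroup.finite_of_fg_isMulTorsion
    intro x
    induction x using QuotientGroup.induction_on with
    | H x =>
      rw [isOfFinOrder_iff_pow_eq_one]
      refine ⟨m, hm, ?_⟩
      rw [← QuotientGroup.mk_pow, QuotientGroup.eq_one_iff]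
      exact ⟨x, rfl⟩
  let G₁' : Subgroup G₀ := pw.range.comap φ.rangeRestrict
  have hG₁'idx : G₁'.index ≠ 0 := by
    rw [Subgroup.index_comap_of_surjective _ φ.rangeRestrict_surjective]
    exact Subgroup.index_ne_zero_of_finite
  let G₁ : Subgroup G := G₁'.map G₀.subtype
  have hG₁le : G₁ ≤ G₀ := Subgroup.map_subtype_le _
  have hG₁mem : ∀ g : G₀, (g : G) ∈ G₁ ↔ ∃ h : G₀, φ g = φ h ^ m := by
    intro g
    constructor
    · rintro ⟨g', ⟨⟨_, h, rfl⟩, hh⟩, hgg⟩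
      have : g' = g := Subtype.ext hgg
      rw [this] at hh
      refine ⟨h, ?_⟩
      have := congrArg Subtype.val hh
      exact this.symm
    · rintro ⟨h, hh⟩
      refine ⟨g, ⟨⟨φ h, h, rfl⟩, ?_⟩, rfl⟩
      exact Subtype.ext hh.symm
  have hNG₁ : N ≤ G₁ := by
    intro n hn'
    refine (hG₁mem ⟨n, hNG₀ hn'⟩).mpr ⟨1, ?_⟩
    rw [map_one, one_pow]
    ext i
    rw [hφ, (hN ⟨n, hNG₀ hn'⟩).mp hn' i]; rfl
  have hG₁n : G₁.Normal := by
    constructor
    intro g hg x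
    obtain ⟨h, hh⟩ := (hG₁mem ⟨g, hG₁le hg⟩).mp hg
    -- g = h^m n
    have h1 : (h : G)⁻¹ ^ m * g ∈ N := by
      have h2 : (h : G)⁻¹ ^ m * g = ((h⁻¹ ^ m * ⟨g, hG₁le hg⟩ : G₀) : G) := rfl
      rw [h2, hN]
      intro i
      rw [← hφ, map_mul, hh, map_pow, map_inv, ← mul_pow, inv_mul_cancel, one_pow]; rfl
    have h2 := hNn.conj_mem _ h1 x
    have hx : x * h * x⁻¹ ∈ G₀ := hn.conj_mem _ h.2 x
    have hxg : x * g * x⁻¹ ∈ G₀ := hn.conj_mem _ (hG₁le hg) x
    refine (hG₁mem ⟨x * g * x⁻¹, hxg⟩).mpr ⟨⟨x * h * x⁻¹, hx⟩, ?_⟩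
    have h3 : x * ((h : G)⁻¹ ^ m * g) * x⁻¹ =
        (((⟨x * h * x⁻¹, hx⟩ : G₀)⁻¹ ^ m * ⟨x * g * x⁻¹, hxg⟩ : G₀) : G) := by
      rw [Subgroup.coe_mul, Subgroup.coe_pow, Subgroup.coe_inv]
      have : (x * (h : G) * x⁻¹)⁻¹ ^ m = x * (h : G)⁻¹ ^ m * x⁻¹ := by
        have e : (x * (h : G) * x⁻¹)⁻¹ = x * (h : G)⁻¹ * x⁻¹ := by group
        rw [e, conj_pow]
      rw [this]; group
    rw [h3, hN] at h2
    ext i
    have h4 := h2 i
    rw [map_mul, map_pow, map_inv] at h4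
    rw [Pi.pow_apply, hφ, hφ]
    rw [inv_pow, inv_mul_eq_one] at h4
    exact congrArg Units.val h4.symm
  have hG₁f : G₁.FiniteIndex := by
    rw [Subgroup.finiteIndex_iff, Subgroup.index_map_subtype]
    exact Nat.mul_ne_zero hG₁'idx hf.index_ne_zero
  -- new characters
  let χ' : ι → G₁ →* ℂˣ := fun i => (χ i).comp (Subgroup.inclusion hG₁le)
  have hχ' : ∀ g : G₁, (cp (g : G)).map (Int.castRingHom ℂ) =
      ∏ i, (X - C ((χ' i g : ℂˣ) : ℂ)) := fun g => hχ (Subgroup.inclusion hG₁le g)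
  have hN' : ∀ g : G₁, (g : G) ∈ N ↔ ∀ i, χ' i g = 1 := fun g =>
    hN (Subgroup.inclusion hG₁le g)
  -- modulus one implies trivial
  have hmod : ∀ g : G₁, (∀ i, ‖((χ' i g : ℂˣ) : ℂ)‖ = 1) → ∀ i, χ' i g = 1 := by
    intro g hg
    obtain ⟨h, hh⟩ := (hG₁mem (Subgroup.inclusion hG₁le g)).mp g.2
    have h1 : ∀ i, χ' i g = (χ i h) ^ m := fun i => congrFun hh i
    have hT : (⟨φ h, h, rfl⟩ : φ.range) ∈ T := by
      intro i
      have h2 := hg i
      rw [h1 i, Units.val_pow_eq_pow_val, norm_pow] at h2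
      exact (pow_eq_one_iff_of_nonneg (norm_nonneg _) hm.ne').mp h2
    have h3 : (⟨⟨φ h, h, rfl⟩, hT⟩ : T) ^ m = 1 := pow_card_eq_one'
    have h4 : φ h ^ m = 1 := by
      have := congrArg (fun z : T => z.1.1) h3
      exact this
    intro i
    rw [h1 i]
    exact congrFun h4 i
  -- logarithms
  let Lg : Additive G₁ →+ (ι → ℝ) :=
    { toFun := fun g i => Real.log ‖((χ' i (Additive.toMul g) : ℂˣ) : ℂ)‖
      map_zero' := by ext i; simp
      map_add' := by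
        intro a b
        ext i
        simp only [toMul_add, map_mul, Units.val_mul, norm_mul, Pi.add_apply]
        rw [Real.log_mul]
        · exact (norm_ne_zero_iff.mpr (Units.ne_zero _))
        · exact (norm_ne_zero_iff.mpr (Units.ne_zero _)) }
  let Γ : Submodule ℤ (ι → ℝ) := AddSubgroup.toIntSubmodule Lg.range
  have hfinΓ : ({x : ι → ℝ | x ∈ Lg.range ∧ ‖x‖ ≤ 1}).Finite := by
    have h1 := (hrange (Real.exp 1)).image
      (fun a : ι → ℂˣ => fun i => Real.log ‖((a i : ℂˣ) : ℂ)‖)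
    refine h1.subset ?_
    rintro x ⟨⟨g, rfl⟩, hx⟩
    refine ⟨φ (Subgroup.inclusion hG₁le (Additive.toMul g)), ⟨⟨_, rfl⟩, ?_⟩, rfl⟩
    intro i
    have h2 : |Lg g i| ≤ 1 := (norm_le_pi_norm (Lg g) i).trans hx
    have h3 : Lg g i = Real.log ‖((χ' i (Additive.toMul g) : ℂˣ) : ℂ)‖ := rfl
    have h4 := (abs_le.mp h2).2
    rw [h3, Real.log_le_iff_le_exp (norm_pos_iff.mpr (Units.ne_zero _))] at h4
    exact h4
  obtain ⟨r, hr, hrΓ⟩ : ∃ r : ℝ, 0 < r ∧ ∀ x ∈ Lg.range, x ≠ 0 → r ≤ ‖x‖ := by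
    have h1 : ({x : ι → ℝ | x ∈ Lg.range ∧ ‖x‖ ≤ 1} \ {0}).Finite := hfinΓ.subset Set.sdiff_subset
    by_cases hne : ({x : ι → ℝ | x ∈ Lg.range ∧ ‖x‖ ≤ 1} \ {0}).Nonempty
    · obtain ⟨y, hy, hmin⟩ := Set.exists_min_image _ (fun x => ‖x‖) h1 hne
      refine ⟨‖y‖, norm_pos_iff.mpr (by simpa using hy.2), ?_⟩
      intro x hx hx0
      by_cases h2 : ‖x‖ ≤ 1
      · exact hmin x ⟨⟨hx, h2⟩, by simpa using hx0⟩
      · exact hy.1.2.trans (not_le.mp h2).le
    · refine ⟨1, one_pos, ?_⟩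
      intro x hx hx0
      by_contra h2
      exact hne ⟨x, ⟨hx, (not_le.mp h2).le⟩, by simpa using hx0⟩
  have hdisc : DiscreteTopology Γ := by
    refine DiscreteTopology.of_forall_le_norm hr ?_
    intro x hx
    exact hrΓ x.1 x.2 (fun h => hx (Subtype.ext h))
  have hfree : Module.Free ℤ Γ := inferInstance
  have hfinm : Module.Finite ℤ Γ := inferInstance
  let k := finrank ℤ Γ
  let b : Basis (Fin k) ℤ Γ := Module.finBasis ℤ Γ
  -- the projection
  let Lg' : Additive G₁ →+ Γ := Lg.rangeRestrict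
  have hLg'surj : Function.Surjective Lg' := Lg.rangeRestrict_surjective
  let πa : Additive G₁ →+ (Fin k → ℤ) := (b.equivFun.toLinearMap.toAddMonoidHom).comp Lg'
  let π : G₁ →* Multiplicative (Fin k → ℤ) := AddMonoidHom.toMultiplicativeRight πa
  have hπ : ∀ g : G₁, Multiplicative.toAdd (π g) = b.equivFun (Lg' (Additive.ofMul g)) :=
    fun g => rfl
  let Λ : ι → (Fin k → ℝ) →ₗ[ℝ] ℝ := fun i =>
    { toFun := fun v => ∑ j, v j * (b j : ι → ℝ) i
      map_add' := by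
        intro v w
        rw [← Finset.sum_add_distrib]
        refine Finset.sum_congr rfl fun j _ => ?_
        simp [add_mul]
      map_smul' := by
        intro c v
        rw [RingHom.id_apply, smul_eq_mul, Finset.mul_sum]
        refine Finset.sum_congr rfl fun j _ => ?_
        simp [mul_assoc] }
  have hΛ : ∀ (g : G₁) (i : ι), Real.log ‖((χ' i g : ℂˣ) : ℂ)‖ =
      Λ i (fun j => ((Multiplicative.toAdd (π g) j : ℤ) : ℝ)) := by
    intro g i
    have h1 := b.sum_equivFun (Lg' (Additive.ofMul g))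
    have h2 := congrArg (fun z : Γ => (z : ι → ℝ) i) h1
    have h3 : ((Lg' (Additive.ofMul g) : Γ) : ι → ℝ) i = Real.log ‖((χ' i g : ℂˣ) : ℂ)‖ := rfl
    simp only [h3] at h2
    rw [← h2]
    change _ = ∑ j, ((Multiplicative.toAdd (π g) j : ℤ) : ℝ) * (b j : ι → ℝ) i
    rw [AddSubmonoidClass.coe_finsetSum, Finset.sum_apply]
    refine Finset.sum_congr rfl fun j _ => ?_
    rw [hπ]
    simp
  have hπsurj : Function.Surjective π := by
    intro v
    obtain ⟨g, hg⟩ := hLg'surj (b.equivFun.symm (Multiplicative.toAdd v))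
    refine ⟨Additive.toMul g, ?_⟩
    apply Multiplicative.toAdd.injective
    rw [hπ]
    change b.equivFun (Lg' g) = _
    rw [hg, LinearEquiv.apply_symm_apply]
  refine ⟨cp, hcp1, hcp2, G₁, hG₁n, hG₁f, hpz.mono hG₁le, hG₁le.trans hGK, N, hNn, hNG₁, hNnil,
    ?_, ι, inferInstance, χ', hχ', hN', k, π, Λ, hπsurj, ?_, hΛ, ?_, ?_⟩
  · intro L K' hL hKL hKnil g hg
    exact (hN ⟨g, hG₁le hg.2⟩).mpr (hmax L K' hL hKL hKnil g hg.1 (hG₁le hg.2))
  · intro g
    rw [hN']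
    constructor
    · intro h
      apply hmod
      intro i
      have h1 := hΛ g i
      rw [h] at h1
      have h2 : Real.log ‖((χ' i g : ℂˣ) : ℂ)‖ = 0 := by
        rw [h1]
        have h0 : (fun j => ((Multiplicative.toAdd (1 : Multiplicative (Fin k → ℤ)) j : ℤ) : ℝ))
            = 0 := by
          funext j; simp
        rw [h0, map_zero]
      rcases Real.log_eq_zero.mp h2 with h3 | h3 | h3
      · exact absurd (norm_eq_zero.mp h3) (Units.ne_zero _)
      · exact h3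
      · have := norm_nonneg ((χ' i g : ℂˣ) : ℂ)
        rw [h3] at this
        norm_num at this
    · intro h
      apply Multiplicative.toAdd.injective
      rw [hπ]
      have h1 : Lg' (Additive.ofMul g) = 0 := by
        apply Subtype.ext
        ext i
        change Real.log ‖((χ' i g : ℂˣ) : ℂ)‖ = 0
        rw [h i]; simp
      rw [h1, map_zero]; rfl
  · -- injectivity of the joint linear map
    have hspanΓ : Submodule.span ℤ (Set.range fun j => ((b j : Γ) : ι → ℝ)) = Γ := by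
      have h1 := b.span_eq
      have h2 := congrArg (Submodule.map Γ.subtype) h1
      rw [Submodule.map_span, ← Set.range_comp, Submodule.map_top, Submodule.range_subtype] at h2
      exact h2
    have hdisc' : DiscreteTopology
        (Submodule.span ℤ (Set.range fun j => ((b j : Γ) : ι → ℝ))) := by
      rw [hspanΓ]; exact hdisc
    have hfr := Real.finrank_eq_int_finrank_of_discrete hdisc'
    have hli : LinearIndependent ℝ (fun j => ((b j : Γ) : ι → ℝ)) := by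
      rw [linearIndependent_iff_card_eq_finrank_span, hfr, Set.finrank, hspanΓ]
      simp [k]
    intro v hv
    rw [Fintype.linearIndependent_iff] at hli
    funext j
    refine hli v ?_ j
    ext i
    have := hv i
    change ∑ j, v j * (b j : ι → ℝ) i = 0 at this
    simpa [Finset.sum_apply] using this
  · -- the sum of the roots is zero
    have h1 : ∀ j, ∑ i, (b j : ι → ℝ) i = 0 := by
      intro j
      obtain ⟨g, hg⟩ := hLg'surj (b j)
      have h2 := norm_prod_eq_one χ' cp hχ' (Additive.toMul g)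
      have h3 : ∀ i, (b j : ι → ℝ) i = Real.log ‖((χ' i (Additive.toMul g) : ℂˣ) : ℂ)‖ := by
        intro i
        rw [← hg]; rfl
      simp only [h3]
      rw [← Real.log_prod, h2, Real.log_one]
      intro i _
      exact (norm_ne_zero_iff.mpr (Units.ne_zero _))
    intro v
    change ∑ i, ∑ j, v j * (b j : ι → ℝ) i = 0
    rw [Finset.sum_comm]
    refine Finset.sum_eq_zero fun j _ => ?_
    rw [← Finset.mul_sum, h1 j, mul_zero]

end

end Crest.Agent.R182.Polyc
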