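/-
R182, module POLYC: weights of `N^ab ⊗ ℂ`, eigenfunctionals, Kronecker for them, crossed
homomorphisms (affine characters).
-/
import Mathlib
import Crest.Agent.R182.PolycKron
import Crest.Agent.R182.PolycHall
import Crest.Agent.R182.PolycComm

set_option autoImplicit false

namespace Crest.Agent.R182.Polyc

open Module Polynomial

section

variable {G : Type*} [Group G]

/-- Crossed homomorphism extending an eigenfunctional. -/
theorem exists_crossed {N : Subgroup G} (hab : ∀ g h : G, g * h * g⁻¹ * h⁻¹ ∈ N)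
    (hn : N.Normal) (χ : G →* ℂˣ) (ℓ : N → ℂ) (hℓ : ∀ a b, ℓ (a * b) = ℓ a + ℓ b)
    (heq : ∀ (g : G) (n : N), ℓ ⟨g * n * g⁻¹, hn.conj_mem n n.2 g⟩ = χ g * ℓ n)
    (t : G) (ht : χ t ≠ 1) :
    ∃ δ : G → ℂ, (∀ g h, δ (g * h) = δ g + χ g * δ h) ∧ (∀ n : N, δ n = ℓ n) ∧ δ t = 0 := by
  have h1 : (1 : ℂ) - χ t ≠ 0 := by
    intro h
    apply ht
    apply Units.val_injective
    rw [Units.val_one]
    exact (sub_eq_zero.mp h).symm
  have hinv : ∀ a : N, ℓ a⁻¹ = - ℓ a := by
    intro a
    have h2 : ℓ 1 = 0 := by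
      have := hℓ 1 1
      rw [mul_one] at this
      simpa using this
    have := hℓ a a⁻¹
    rw [mul_inv_cancel, h2] at this
    linear_combination -this
  refine ⟨fun g => ℓ ⟨g * t * g⁻¹ * t⁻¹, hab g t⟩ / (1 - χ t), ?_, ?_, ?_⟩
  · intro g h
    have e : (⟨g * h * t * (g * h)⁻¹ * t⁻¹, hab (g * h) t⟩ : N) =
        ⟨g * (⟨h * t * h⁻¹ * t⁻¹, hab h t⟩ : N) * g⁻¹, hn.conj_mem _ (hab h t) g⟩ *
          ⟨g * t * g⁻¹ * t⁻¹, hab g t⟩ := by
      ext
      simp only [Subgroup.coe_mul]
      group
    have e2 : ℓ ⟨g * h * t * (g * h)⁻¹ * t⁻¹, hab (g * h) t⟩ =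
        χ g * ℓ ⟨h * t * h⁻¹ * t⁻¹, hab h t⟩ + ℓ ⟨g * t * g⁻¹ * t⁻¹, hab g t⟩ := by
      rw [e, hℓ, heq]
    simp only [e2]
    field_simp
    ring
  · intro n
    have e : (⟨(n : G) * t * (n : G)⁻¹ * t⁻¹, hab n t⟩ : N) =
        n * ⟨t * (n⁻¹ : N) * t⁻¹, hn.conj_mem _ (n⁻¹).2 t⟩ := by
      ext
      simp only [Subgroup.coe_mul, Subgroup.coe_inv]
      group
    have e2 : ℓ ⟨(n : G) * t * (n : G)⁻¹ * t⁻¹, hab n t⟩ = ℓ n - χ t * ℓ n := by
      rw [e, hℓ, heq, hinv]
      ring
    simp only [e2]
    field_simp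
  · have e : (⟨t * t * t⁻¹ * t⁻¹, hab t t⟩ : N) = 1 := by
      ext; simp
    have h2 : ℓ 1 = 0 := by
      have := hℓ 1 1
      rw [mul_one] at this
      simpa using this
    simp only [e, h2, zero_div]

theorem ic_le_of_nil (H : Subgroup G) [H.Normal] (K : Subgroup G) {r : ℕ}
    (hr : ∀ l : List G, l.length = r → (∀ g ∈ l, g ∈ K) →
      (l.map (fun g => conjRep H g - 1)).prod = 0) :
    ic H K r ≤ ⁅H, H⁆ := by
  have key : ∀ i j : ℕ, i + j = r → ic H K i ≤ (nilStep H K j).map H.subtype := by
    intro i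
    induction i with
    | zero =>
      intro j hj x hx
      refine ⟨⟨x, hx⟩, ?_, rfl⟩
      intro l hl hg
      rw [hr l (by omega) hg, LinearMap.zero_apply]
    | succ i ih =>
      intro j hj
      have h1 := ih (j + 1) (by omega)
      exact (Subgroup.commutator_mono h1 le_rfl).trans (nilStep_succ H K j)
  exact (key r 0 (by omega)).trans (nilStep_zero H K)

/-- Weights of the action of `G` on `N^ab ⊗ ℂ` when `G / N` is abelian. -/
theorem exists_weights {N : Subgroup G} (hn : N.Normal)
    (hab : ∀ g h : G, g * h * g⁻¹ * h⁻¹ ∈ N) (hfg : N.FG) :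
    ∃ (m : ℕ) (χ : Fin m → G →* ℂˣ) (ℓ : Fin m → N → ℂ) (cp : G → ℤ[X]),
      (∀ g, (cp g).Monic) ∧
      (∀ g, (cp g).map (Int.castRingHom ℂ) = ∏ i, (X - C ((χ i g : ℂˣ) : ℂ))) ∧
      (∀ i, ∀ n ∈ N, χ i n = 1) ∧
      (∀ i, ∃ n, ℓ i n ≠ 0) ∧
      (∀ i a b, ℓ i (a * b) = ℓ i a + ℓ i b) ∧
      (∀ i g (n : N), ℓ i ⟨g * n * g⁻¹, hn.conj_mem n n.2 g⟩ = χ i g * ℓ i n) ∧
      (∃ L : Subgroup G, L.index ≠ 0 ∧ ∃ r : ℕ, ∀ l : List G, l.length = r →
        (∀ g ∈ l, g ∈ L ∧ ∀ i, χ i g = 1) →
        (l.map (fun g => conjRep N g - 1)).prod = 0) ∧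
      (∃ (κ : N → (Fin m → ℤ)) (A : G → Matrix (Fin m) (Fin m) ℤ),
        (∀ a c, κ (a * c) = κ a + κ c) ∧ Function.Surjective κ ∧
        (∀ n : N, κ n = 0 → ∃ j : ℕ, 0 < j ∧ ((n ^ j : N) : G) ∈ ⁅N, N⁆) ∧
        (∀ g (n : N), κ ⟨g * n * g⁻¹, hn.conj_mem n n.2 g⟩ = (A g).mulVec (κ n)) ∧
        (∀ g, (A g).charpoly = cp g)) := by
  classical
  set M := Additive (Abelianization N) with hM
  have hfin : Module.Finite ℤ M := finite_abelianization hfg
  set ρ := conjRep N with hρ
  set T : Submodule ℤ M := Submodule.torsion ℤ M with hT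
  have hTinv : ∀ g, T ≤ T.comap (ρ g) := by
    intro g x hx
    rw [Submodule.mem_comap]
    obtain ⟨a, ha⟩ := (Submodule.mem_torsion_iff x).mp hx
    refine (Submodule.mem_torsion_iff _).mpr ⟨a, ?_⟩
    have : a • (ρ g) x = (ρ g) (a • x) := by
      change (a : ℤ) • (ρ g) x = (ρ g) ((a : ℤ) • x)
      rw [map_smul]
    rw [this, ha, map_zero]
  -- `N` acts trivially
  have hNtriv : ∀ n ∈ N, ρ n = 1 := by
    intro n hn'
    refine LinearMap.ext fun x => ?_
    obtain ⟨x', rfl⟩ : ∃ x' : N, cls x' = x := by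
      obtain ⟨m', rfl⟩ := Additive.ofMul.surjective x
      obtain ⟨x', rfl⟩ := QuotientGroup.mk_surjective m'
      exact ⟨x', rfl⟩
    rw [hρ, conjRep_cls, Module.End.one_apply]
    refine sub_eq_zero.mp ?_
    rw [sub_eq_add_neg, ← cls_inv, ← cls_mul, cls_eq_zero]
    have : ((MulAut.conjNormal n x' * x'⁻¹ : N) : G) = n * x' * n⁻¹ * (x' : G)⁻¹ := by
      simp
    rw [this]
    exact Subgroup.commutator_mem_commutator hn' x'.2
  have hcomm : ∀ g h, ρ g * ρ h = ρ h * ρ g := by
    intro g h
    have e : g * h = (g * h * g⁻¹ * h⁻¹) * (h * g) := by group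
    rw [← map_mul, ← map_mul, e, map_mul, hNtriv _ (hab g h), one_mul]
  -- action on the quotient
  let ρQ : Representation ℤ G (M ⧸ T) :=
    { toFun := fun g => T.mapQ T (ρ g) (hTinv g)
      map_one' := by
        ext x
        simp
      map_mul' := fun g h => by
        ext x
        simp }
  have hQcomm : ∀ g h, ρQ g * ρQ h = ρQ h * ρQ g := by
    intro g h
    ext x
    have := congrArg (fun f : M →ₗ[ℤ] M => T.mkQ (f x)) (hcomm g h)
    exact this
  have hfree : Module.Free ℤ (M ⧸ T) := inferInstance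
  set m := finrank ℤ (M ⧸ T) with hm
  let b : Basis (Fin m) ℤ (M ⧸ T) := Module.finBasis ℤ (M ⧸ T)
  let A : G → Matrix (Fin m) (Fin m) ℤ := fun g => LinearMap.toMatrix b b (ρQ g)
  have hAmul : ∀ g h, A (g * h) = A g * A h := by
    intro g h
    change LinearMap.toMatrix b b (ρQ (g * h)) = _
    rw [map_mul]
    exact LinearMap.toMatrix_mul b (ρQ g) (ρQ h)
  have hAcomm : ∀ g h, A g * A h = A h * A g := by
    intro g h
    have h1 : ρQ (g * h) = ρQ (h * g) := by rw [map_mul, hQcomm, ← map_mul]
    rw [← hAmul, ← hAmul]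
    exact congrArg (LinearMap.toMatrix b b) h1
  have hAone : A 1 = 1 := by
    change LinearMap.toMatrix b b (ρQ 1) = 1
    rw [map_one]
    exact LinearMap.toMatrix_one b
  -- the transposed representation over `ℂ`
  let AC : G → Matrix (Fin m) (Fin m) ℂ := fun g => ((A g).map (Int.castRingHom ℂ)).transpose
  have hACmul : ∀ g h, AC (g * h) = AC g * AC h := by
    intro g h
    change ((A (g * h)).map (Int.castRingHom ℂ)).transpose = _
    rw [hAmul, hAcomm, Matrix.map_mul, Matrix.transpose_mul]
  have hACone : AC 1 = 1 := by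
    change ((A 1).map (Int.castRingHom ℂ)).transpose = 1
    rw [hAone]
    simp
  let F : Representation ℂ G (Fin m → ℂ) :=
    { toFun := fun g => Matrix.toLin' (AC g)
      map_one' := by rw [hACone, Matrix.toLin'_one]; rfl
      map_mul' := fun g h => by rw [hACmul, Matrix.toLin'_mul]; rfl }
  have hFcomm : ∀ g h, Commute (F g) (F h) := by
    intro g h
    change F g * F h = F h * F g
    rw [← map_mul, ← map_mul]
    change Matrix.toLin' (AC (g * h)) = Matrix.toLin' (AC (h * g))
    congr 1
    change ((A (g * h)).map (Int.castRingHom ℂ)).transpose =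
      ((A (h * g)).map (Int.castRingHom ℂ)).transpose
    rw [hAmul, hAmul, hAcomm]
  obtain ⟨bb, χ, hχ, hcp, hv⟩ := exists_triangular_comm F hFcomm
  choose v hv0 hv using hv
  -- the functionals
  let κ : N → (Fin m → ℤ) := fun n => b.equivFun (T.mkQ (cls n))
  have hκmul : ∀ a c, κ (a * c) = κ a + κ c := by
    intro a c
    change b.equivFun (T.mkQ (cls (a * c))) = _
    rw [cls_mul, map_add, map_add]
  have hκsurj : Function.Surjective κ := by
    intro z
    obtain ⟨x, hx⟩ := T.mkQ_surjective (b.equivFun.symm z)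
    obtain ⟨x', rfl⟩ : ∃ x' : N, cls x' = x := by
      obtain ⟨m', rfl⟩ := Additive.ofMul.surjective x
      obtain ⟨x', rfl⟩ := QuotientGroup.mk_surjective m'
      exact ⟨x', rfl⟩
    refine ⟨x', ?_⟩
    change b.equivFun (T.mkQ (cls x')) = z
    rw [hx, LinearEquiv.apply_symm_apply]
  have hκconj : ∀ (g : G) (n : N), κ ⟨g * n * g⁻¹, hn.conj_mem n n.2 g⟩ = (A g).mulVec (κ n) := by
    intro g n
    have h1 : (⟨g * n * g⁻¹, hn.conj_mem n n.2 g⟩ : N) = MulAut.conjNormal g n := by
      ext; simp
    have h2 : T.mkQ (cls (MulAut.conjNormal g n)) = ρQ g (T.mkQ (cls n)) := rfl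
    rw [h1]
    change b.equivFun (T.mkQ (cls (MulAut.conjNormal g n))) = _
    rw [h2]
    have h3 := LinearMap.toMatrix_mulVec_repr b b (ρQ g) (T.mkQ (cls n))
    exact h3.symm
  let ℓ : Fin (finrank ℂ (Fin m → ℂ)) → N → ℂ := fun i n => ∑ j, v i j * (κ n j : ℂ)
  have hℓadd : ∀ i a c, ℓ i (a * c) = ℓ i a + ℓ i c := by
    intro i a c
    change ∑ j, v i j * (κ (a * c) j : ℂ) = _
    rw [hκmul, ← Finset.sum_add_distrib]
    refine Finset.sum_congr rfl fun j _ => ?_
    rw [Pi.add_apply]
    push_cast
    ring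
  have hℓeq : ∀ i g (n : N), ℓ i ⟨g * n * g⁻¹, hn.conj_mem n n.2 g⟩ = χ i g * ℓ i n := by
    intro i g n
    change ∑ j, v i j * (κ ⟨g * n * g⁻¹, hn.conj_mem n n.2 g⟩ j : ℂ) = _
    rw [hκconj]
    have h1 := hv i g
    have h2 : ∀ k, ∑ j, (A g j k : ℂ) * v i j = χ i g * v i k := by
      intro k
      have h3 := congrFun h1 k
      have h4 : (F g) (v i) k = ∑ j, (A g j k : ℂ) * v i j := by
        change (AC g).mulVec (v i) k = _
        rw [Matrix.mulVec, dotProduct]
        rfl
      rw [← h4, h3]; rfl
    calc ∑ j, v i j * (((A g).mulVec (κ n) j : ℤ) : ℂ)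
        = ∑ j, ∑ k, v i j * ((A g j k : ℂ) * (κ n k : ℂ)) := by
          refine Finset.sum_congr rfl fun j _ => ?_
          rw [← Finset.mul_sum]
          congr 1
          rw [Matrix.mulVec, dotProduct]
          push_cast
          rfl
      _ = ∑ k, (∑ j, (A g j k : ℂ) * v i j) * (κ n k : ℂ) := by
          rw [Finset.sum_comm]
          refine Finset.sum_congr rfl fun k _ => ?_
          rw [Finset.sum_mul]
          refine Finset.sum_congr rfl fun j _ => ?_
          ring
      _ = χ i g * ∑ k, v i k * (κ n k : ℂ) := by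
          rw [Finset.mul_sum]
          refine Finset.sum_congr rfl fun k _ => ?_
          rw [h2 k]; ring
  have hℓne : ∀ i, ∃ n, ℓ i n ≠ 0 := by
    intro i
    obtain ⟨j, hj⟩ := Function.ne_iff.mp (hv0 i)
    obtain ⟨n, hn'⟩ := hκsurj (Pi.single j 1)
    refine ⟨n, ?_⟩
    change ∑ k, v i k * (κ n k : ℂ) ≠ 0
    rw [hn', Finset.sum_eq_single j]
    · simpa using hj
    · intro k _ hk
      rw [Pi.single_eq_of_ne hk]; simp
    · intro h; exact absurd (Finset.mem_univ j) h
  have hχN : ∀ i, ∀ n ∈ N, χ i n = 1 := by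
    intro i n hn'
    obtain ⟨x, hx⟩ := hℓne i
    have h1 := hℓeq i n x
    have e : (⟨n * x * n⁻¹, hn.conj_mem x x.2 n⟩ : N) = ⟨n, hn'⟩ * x * (⟨n, hn'⟩ : N)⁻¹ := rfl
    have h0 : ℓ i 1 = 0 := by
      have := hℓadd i 1 1
      rw [mul_one] at this
      simpa using this
    have hinv : ∀ a, ℓ i a⁻¹ = - ℓ i a := by
      intro a
      have := hℓadd i a a⁻¹
      rw [mul_inv_cancel, h0] at this
      linear_combination -this
    rw [e, hℓadd, hℓadd, hinv] at h1
    have h2 : ℓ i x * (1 - χ i n) = 0 := by linear_combination h1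
    rcases mul_eq_zero.mp h2 with h3 | h3
    · exact absurd h3 hx
    · apply Units.val_injective
      rw [Units.val_one]
      exact (sub_eq_zero.mp h3).symm
  refine ⟨_, χ, ℓ, fun g => (ρQ g).charpoly, fun g => LinearMap.charpoly_monic _, ?_, hχN, hℓne,
    hℓadd, hℓeq, ?_, ?_⟩
  · intro g
    rw [← hcp g]
    change _ = (Matrix.toLin' (AC g)).charpoly
    rw [Matrix.charpoly_toLin', Matrix.charpoly_transpose, Matrix.charpoly_map,
      LinearMap.charpoly_toMatrix]
  · -- unipotence
    have hTfin : Finite T := by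
      have : Module.Finite ℤ T := inferInstance
      exact Module.finite_of_fg_torsion T Submodule.torsion_isTorsion
    let ρT : G →* Module.End ℤ T :=
      { toFun := fun g => (ρ g).restrict (fun x hx => hTinv g hx)
        map_one' := by ext x; simp
        map_mul' := fun g h => by ext x; simp }
    have hEfin : Finite (Module.End ℤ T) :=
      Finite.of_injective (fun f : Module.End ℤ T => (f : T → T)) DFunLike.coe_injective
    let ρT' : G →* (Module.End ℤ T)ˣ := ρT.toHomUnits
    refine ⟨ρT'.ker, ?_, finrank ℂ (Fin m → ℂ) + 1, ?_⟩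
    · rw [Subgroup.index_ker]
      exact Nat.card_pos.ne'
    have hkT : ∀ g ∈ ρT'.ker, ∀ x ∈ T, ρ g x = x := by
      intro g hg x hx
      have h1 : ρT g = 1 := by
        have := congrArg Units.val (MonoidHom.mem_ker.mp hg)
        simpa [ρT'] using this
      have h2 := congrArg (fun f : Module.End ℤ T => ((f ⟨x, hx⟩ : T) : M)) h1
      exact h2
    intro l hl hg
    rcases l with _ | ⟨g, l⟩
    · simp at hl
    · rw [List.map_cons, List.prod_cons]
      have hl' : l.length = finrank ℂ (Fin m → ℂ) := by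
        simpa using hl
      have h1 : ((l.reverse).map (fun g => F g - 1)).prod = 0 := by
        refine prod_eq_zero_of_flag bb _ (by simpa using hl') ?_
        intro f hf i v hv
        obtain ⟨g', hg', rfl⟩ := List.mem_map.mp hf
        have h2 := hχ i g' v hv
        have h3 : χ i g' = 1 := (hg g' (List.mem_cons_of_mem _ (List.mem_reverse.mp hg'))).2 i
        rw [h3, Units.val_one, one_smul] at h2
        exact h2
      -- matrices
      have h2 : ((l.reverse).map (fun g => AC g - 1)).prod = 0 := by
        have h3 : Matrix.toLin' (((l.reverse).map (fun g => AC g - 1)).prod) =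
            ((l.reverse).map (fun g => F g - 1)).prod := by
          have : ∀ l : List G, Matrix.toLin' ((l.map (fun g => AC g - 1)).prod) =
              (l.map (fun g => F g - 1)).prod := by
            intro l
            induction l with
            | nil =>
              rw [List.map_nil, List.map_nil, List.prod_nil, List.prod_nil, Matrix.toLin'_one]
              rfl
            | cons g l ih =>
              rw [List.map_cons, List.prod_cons, List.map_cons, List.prod_cons,
                Matrix.toLin'_mul, ih, map_sub, Matrix.toLin'_one]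
              rfl
          exact this _
        rw [h1] at h3
        exact Matrix.toLin'.injective (by rw [h3, map_zero])
      have h3 : (l.map (fun g => A g - 1)).prod = 0 := by
        have h4 : ∀ l : List G, (((l.map (fun g => A g - 1)).prod).map
            (Int.castRingHom ℂ)).transpose = ((l.reverse).map (fun g => AC g - 1)).prod := by
          intro l
          induction l with
          | nil => simp
          | cons g l ih =>
            rw [List.map_cons, List.prod_cons, List.reverse_cons, List.map_append,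
              List.prod_append, ← ih, Matrix.map_mul, Matrix.transpose_mul]
            congr 1
            simp only [List.map_cons, List.map_nil, List.prod_cons, List.prod_nil, mul_one]
            ext i j
            simp only [Matrix.transpose_apply, Matrix.map_apply, Matrix.sub_apply, AC,
              Matrix.one_apply, map_sub]
            by_cases hij : i = j
            · simp [hij]
            · simp [hij, Ne.symm hij]
        have h5 := h4 l
        rw [h2] at h5
        ext i j
        have h6 := congrFun (congrFun h5 j) i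
        simpa using h6
      have h4 : (l.map (fun g => ρQ g - 1)).prod = 0 := by
        have h5 : ∀ l : List G, LinearMap.toMatrix b b ((l.map (fun g => ρQ g - 1)).prod) =
            (l.map (fun g => A g - 1)).prod := by
          intro l
          induction l with
          | nil => simp
          | cons g l ih =>
            rw [List.map_cons, List.prod_cons, List.map_cons, List.prod_cons,
              LinearMap.toMatrix_mul, ih, map_sub, LinearMap.toMatrix_one]
        have h6 := h5 l
        rw [h3] at h6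
        exact (LinearMap.toMatrix b b).injective (by rw [h6, map_zero])
      have h5 : ∀ (l : List G) (x : M),
          T.mkQ ((l.map (fun g => ρ g - 1)).prod x) =
          (l.map (fun g => ρQ g - 1)).prod (T.mkQ x) := by
        intro l
        induction l with
        | nil => intro x; simp
        | cons g l ih =>
          intro x
          rw [List.map_cons, List.prod_cons, List.map_cons, List.prod_cons,
            Module.End.mul_apply, Module.End.mul_apply, ← ih]
          simp [ρQ]
      refine LinearMap.ext fun x => ?_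
      rw [Module.End.mul_apply, LinearMap.sub_apply, Module.End.one_apply, LinearMap.zero_apply]
      refine sub_eq_zero.mpr ?_
      apply hkT g (hg g List.mem_cons_self).1
      have h6 := h5 l x
      rw [h4, LinearMap.zero_apply, Submodule.mkQ_apply, Submodule.Quotient.mk_eq_zero] at h6
      exact h6
  · -- the lattice `N^ab / torsion`
    have hm' : finrank ℂ (Fin m → ℂ) = m := Module.finrank_fin_fun ℂ
    let e : Fin (finrank ℂ (Fin m → ℂ)) ≃ Fin m := finCongr hm'
    refine ⟨fun n => κ n ∘ e, fun g => (A g).submatrix e e, ?_, ?_, ?_, ?_, ?_⟩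
    · intro a c
      funext i
      simp only [Function.comp, hκmul, Pi.add_apply]
    · intro z
      obtain ⟨n, hn'⟩ := hκsurj (z ∘ e.symm)
      refine ⟨n, ?_⟩
      simp only [hn']
      funext i
      simp
    · intro n hn0
      have h1 : κ n = 0 := by
        funext i
        have := congrFun hn0 (e.symm i)
        simpa using this
      have h2 : T.mkQ (cls n) = 0 := by
        apply b.equivFun.injective
        rw [map_zero]
        exact h1
      rw [Submodule.mkQ_apply, Submodule.Quotient.mk_eq_zero] at h2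
      obtain ⟨a, ha⟩ := (Submodule.mem_torsion_iff _).mp h2
      have ha0 : (a : ℤ) ≠ 0 := nonZeroDivisors.coe_ne_zero a
      refine ⟨(a : ℤ).natAbs, Int.natAbs_pos.mpr ha0, ?_⟩
      rw [← cls_eq_zero]
      have h3 : (((a : ℤ).natAbs : ℤ)) • cls n = 0 := by
        rcases Int.natAbs_eq (a : ℤ) with h4 | h4
        · rw [← h4]; exact ha
        · have h5 : (((a : ℤ).natAbs : ℤ)) = -(a : ℤ) := by omega
          rw [h5, neg_smul]
          have h6 : (a : ℤ) • cls n = 0 := ha
          rw [h6, neg_zero]
      have h4 : cls (n ^ (a : ℤ).natAbs) = ((a : ℤ).natAbs) • cls n := by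
        simp [cls]
      rw [h4, ← natCast_zsmul, h3]
    · intro g n
      simp only
      rw [hκconj, Matrix.submatrix_mulVec_equiv, Function.comp_assoc, Equiv.self_comp_symm,
        Function.comp_id]
    · intro g
      change (Matrix.reindex e.symm e.symm (A g)).charpoly = (ρQ g).charpoly
      rw [Matrix.charpoly_reindex]
      exact LinearMap.charpoly_toMatrix _ _

end

end Crest.Agent.R182.Polyc
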