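/-
R182, module POLYC: the root datum of a (finite-index subgroup of a) virtually polycyclic group:
nilpotent normal `N`, `G / N ≅ ℤ^k`, weights of `N^ab ⊗ ℂ` with jointly injective logarithms
and zero sum.
-/
import Mathlib
import Crest.Agent.R182.PolycWt

set_option autoImplicit false

namespace Crest.Agent.R182.Polyc

open Module Polynomial Crest.GroupTheory

section

variable {G : Type*} [Group G]

theorem crossed_zero_of_eq {N : Subgroup G} (ℓ : N → ℂ) (hℓ : ∀ a b, ℓ (a * b) = ℓ a + ℓ b) :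
    ℓ 1 = 0 := by
  have := hℓ 1 1
  rw [mul_one] at this
  simpa using this

/-- The common kernel of the weights of `N^ab` is contained in `N` (maximality of `N`). -/
theorem mem_of_weights {N : Subgroup G} (hn : N.Normal) (hnil : Group.IsNilpotent N)
    (hab : ∀ g h : G, g * h * g⁻¹ * h⁻¹ ∈ N)
    (htf : ∀ (g : G) (j : ℕ), 0 < j → g ^ j ∈ N → g ∈ N)
    (hmax : ∀ K : Subgroup G, K.Normal → Group.IsNilpotent K → K ≤ N)
    {m : ℕ} (χ : Fin m → G →* ℂˣ)
    (hL : ∃ L : Subgroup G, L.index ≠ 0 ∧ ∃ r : ℕ, ∀ l : List G, l.length = r →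
        (∀ g ∈ l, g ∈ L ∧ ∀ i, χ i g = 1) →
        (l.map (fun g => conjRep N g - 1)).prod = 0) {g : G} (hg : ∀ i, χ i g = 1) : g ∈ N := by
  obtain ⟨L, hLi, r, hr⟩ := hL
  have hLf : L.FiniteIndex := ⟨hLi⟩
  let K : Subgroup G := L.normalCore ⊓ ⨅ i, (χ i).ker
  have hKn : K.Normal := by
    have h1 : (⨅ i, (χ i).ker).Normal := Subgroup.normal_iInf_normal fun i => inferInstance
    exact Subgroup.normal_inf_normal _ _
  have hK : Group.IsNilpotent K := by
    refine hall_nilpotent N K hnil (s := 1) (r := r) ?_ ?_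
    · rw [Subgroup.lowerCentralSeries_succ, Subgroup.lowerCentralSeries_zero,
        Subgroup.commutator_le]
      intro a _ b _
      exact hab a b
    · refine ic_le_of_nil N K ?_
      intro l hl hlK
      refine hr l hl fun a ha => ⟨L.normalCore_le (hlK a ha).1, fun i => ?_⟩
      exact (Subgroup.mem_iInf.mp (hlK a ha).2) i
  have hle := hmax K hKn hK
  have hfi : L.normalCore.FiniteIndex := inferInstance
  obtain ⟨j, hj, -, hgj⟩ := Subgroup.exists_pow_mem_of_index_ne_zero hfi.index_ne_zero g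
  have hgj' : g ^ j ∈ ⨅ i, (χ i).ker := by
    rw [Subgroup.mem_iInf]
    intro i
    rw [MonoidHom.mem_ker, map_pow, hg i, one_pow]
  exact htf g j hj (hle ⟨hgj, hgj'⟩)

/-- finiteness of the set of tuples of bounded norm -/
theorem finite_tuples {m : ℕ} (χ : Fin m → G →* ℂˣ) (cp : G → ℤ[X])
    (hcp1 : ∀ g, (cp g).Monic)
    (hcp : ∀ g, (cp g).map (Int.castRingHom ℂ) = ∏ i, (X - C ((χ i g : ℂˣ) : ℂ))) (R : ℝ) :
    {a : Fin m → ℂˣ | ∃ g : G, (∀ i, a i = χ i g) ∧ ∀ i, ‖((χ i g : ℂˣ) : ℂ)‖ ≤ R}.Finite := by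
  refine (finite_root_tuples (ι := Fin m) R).subset ?_
  rintro a ⟨g, hag, hg⟩
  refine ⟨⟨cp g, hcp1 g, ?_⟩, ?_⟩
  · rw [hcp g]
    refine Finset.prod_congr rfl fun i _ => ?_
    rw [hag i]
  · intro i
    rw [hag i]; exact hg i

theorem mem_of_norm_one {N : Subgroup G} 
    (htf : ∀ (g : G) (j : ℕ), 0 < j → g ^ j ∈ N → g ∈ N)
    {m : ℕ} (χ : Fin m → G →* ℂˣ) (cp : G → ℤ[X]) (hcp1 : ∀ g, (cp g).Monic)
    (hcp : ∀ g, (cp g).map (Int.castRingHom ℂ) = ∏ i, (X - C ((χ i g : ℂˣ) : ℂ)))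
    (hker : ∀ g : G, (∀ i, χ i g = 1) → g ∈ N)
    {g : G} (hg : ∀ i, ‖((χ i g : ℂˣ) : ℂ)‖ = 1) : g ∈ N := by
  have hfin := finite_tuples χ cp hcp1 hcp 1
  have hmaps : ∀ n : ℕ, (fun i => χ i (g ^ n)) ∈
      {a : Fin m → ℂˣ | ∃ g : G, (∀ i, a i = χ i g) ∧ ∀ i, ‖((χ i g : ℂˣ) : ℂ)‖ ≤ 1} := by
    intro n
    refine ⟨g ^ n, fun i => rfl, fun i => ?_⟩
    rw [map_pow, Units.val_pow_eq_pow_val, norm_pow, hg i, one_pow]
  obtain ⟨a, b, hab, heq⟩ : ∃ a b : ℕ, a < b ∧
      (fun i => χ i (g ^ a)) = (fun i => χ i (g ^ b)) := by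
    have hnot : ¬ Function.Injective (fun n : ℕ => (⟨_, hmaps n⟩ :
        {a : Fin m → ℂˣ | ∃ g : G, (∀ i, a i = χ i g) ∧ ∀ i, ‖((χ i g : ℂˣ) : ℂ)‖ ≤ 1})) := by
      intro hinj
      have : Finite {a : Fin m → ℂˣ | ∃ g : G, (∀ i, a i = χ i g) ∧
        ∀ i, ‖((χ i g : ℂˣ) : ℂ)‖ ≤ 1} := hfin
      exact not_injective_infinite_finite _ hinj
    rw [Function.not_injective_iff] at hnot
    obtain ⟨a, b, h1, h2⟩ := hnot
    have h3 : (fun i => χ i (g ^ a)) = (fun i => χ i (g ^ b)) := congrArg Subtype.val h1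
    rcases lt_or_gt_of_ne h2 with h | h
    · exact ⟨a, b, h, h3⟩
    · exact ⟨b, a, h, h3.symm⟩
  refine htf g (b - a) (by omega) (hker _ fun i => ?_)
  have h1 := congrFun heq i
  simp only [map_pow] at h1 ⊢
  have h2 : (χ i g) ^ b = (χ i g) ^ a * (χ i g) ^ (b - a) := by
    rw [← pow_add]; congr 1; omega
  rw [h2] at h1
  exact (mul_eq_left.mp h1.symm)

/-- linear extension of the logarithms -/
theorem exists_log_linear {k : ℕ} (π : G →* Multiplicative (Fin k → ℤ))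
    (hπ : Function.Surjective π) (χ : G →* ℂˣ) (hχ : ∀ g, π g = 1 → ‖((χ g : ℂˣ) : ℂ)‖ = 1) :
    ∃ Λ : (Fin k → ℝ) →ₗ[ℝ] ℝ, ∀ g, Real.log ‖((χ g : ℂˣ) : ℂ)‖ =
      Λ (fun j => ((Multiplicative.toAdd (π g) j : ℤ) : ℝ)) := by
  classical
  choose s hs using hπ
  -- additive logarithm
  let Lg : G → ℝ := fun g => Real.log ‖((χ g : ℂˣ) : ℂ)‖
  have hmul : ∀ a b, Lg (a * b) = Lg a + Lg b := by
    intro a b
    change Real.log ‖((χ (a * b) : ℂˣ) : ℂ)‖ = _
    rw [map_mul, Units.val_mul, norm_mul, Real.log_mul]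
    · exact (norm_ne_zero_iff.mpr (Units.ne_zero _))
    · exact (norm_ne_zero_iff.mpr (Units.ne_zero _))
  have hone : Lg 1 = 0 := by
    change Real.log ‖((χ 1 : ℂˣ) : ℂ)‖ = 0
    simp
  have hinv : ∀ a, Lg a⁻¹ = - Lg a := by
    intro a
    have := hmul a a⁻¹
    rw [mul_inv_cancel, hone] at this
    linarith
  have hker : ∀ g, π g = 1 → Lg g = 0 := by
    intro g hg
    change Real.log ‖((χ g : ℂˣ) : ℂ)‖ = 0
    rw [hχ g hg, Real.log_one]
  let φ : (Fin k → ℤ) →+ ℝ :=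
    { toFun := fun z => Lg (s (Multiplicative.ofAdd z))
      map_zero' := by
        apply hker
        rw [hs]; rfl
      map_add' := by
        intro x y
        have h1 : π (s (Multiplicative.ofAdd (x + y)) *
            (s (Multiplicative.ofAdd x) * s (Multiplicative.ofAdd y))⁻¹) = 1 := by
          rw [map_mul, map_inv, map_mul, hs, hs, hs, ofAdd_add, mul_inv_cancel]
        have h2 := hker _ h1
        rw [hmul, hinv, hmul] at h2
        linarith }
  have hφ : ∀ g, Lg g = φ (Multiplicative.toAdd (π g)) := by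
    intro g
    have h1 : π (g * (s (Multiplicative.ofAdd (Multiplicative.toAdd (π g))))⁻¹) = 1 := by
      rw [map_mul, map_inv, hs]; simp
    have h2 := hker _ h1
    rw [hmul, hinv] at h2
    change Lg g = Lg (s (Multiplicative.ofAdd (Multiplicative.toAdd (π g))))
    linarith
  refine ⟨{ toFun := fun v => ∑ j, v j * φ (Pi.single j 1)
            map_add' := by
              intro v w
              rw [← Finset.sum_add_distrib]
              refine Finset.sum_congr rfl fun j _ => ?_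
              rw [Pi.add_apply]; ring
            map_smul' := by
              intro c v
              rw [RingHom.id_apply, smul_eq_mul, Finset.mul_sum]
              refine Finset.sum_congr rfl fun j _ => ?_
              rw [Pi.smul_apply, smul_eq_mul]; ring }, ?_⟩
  intro g
  change Lg g = ∑ j, ((Multiplicative.toAdd (π g) j : ℤ) : ℝ) * φ (Pi.single j 1)
  rw [hφ]
  set z := Multiplicative.toAdd (π g) with hz
  have h1 : z = ∑ j, z j • (Pi.single j 1 : Fin k → ℤ) := by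
    ext i
    rw [Finset.sum_apply, Finset.sum_eq_single i]
    · simp
    · intro b _ hb
      rw [Pi.smul_apply, Pi.single_eq_of_ne hb.symm]; simp
    · intro h; exact absurd (Finset.mem_univ i) h
  conv_lhs => rw [h1]
  rw [map_sum]
  refine Finset.sum_congr rfl fun j _ => ?_
  rw [map_zsmul, zsmul_eq_mul]

/-- Kronecker: the linear maps `Λ i` are jointly injective on `ℝ^k`. -/
theorem joint_injective {N : Subgroup G} {k : ℕ} (π : G →* Multiplicative (Fin k → ℤ))
    (hπ : Function.Surjective π) (hker : ∀ g, π g = 1 ↔ g ∈ N)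
    {m : ℕ} (χ : Fin m → G →* ℂˣ) (cp : G → ℤ[X]) (hcp1 : ∀ g, (cp g).Monic)
    (hcp : ∀ g, (cp g).map (Int.castRingHom ℂ) = ∏ i, (X - C ((χ i g : ℂˣ) : ℂ)))
    (hχker : ∀ g : G, (∀ i, χ i g = 1) → g ∈ N)
    (Λ : Fin m → (Fin k → ℝ) →ₗ[ℝ] ℝ)
    (hΛ : ∀ i g, Real.log ‖((χ i g : ℂˣ) : ℂ)‖ =
      Λ i (fun j => ((Multiplicative.toAdd (π g) j : ℤ) : ℝ)))
    {v : Fin k → ℝ} (hv : ∀ i, Λ i v = 0) : v = 0 := by
  classical
  by_contra hv0
  obtain ⟨j₀, hj₀⟩ := Function.ne_iff.mp hv0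
  choose s hs using hπ
  let z : ℕ → (Fin k → ℤ) := fun n j => ⌊(n : ℝ) * v j⌋
  let g : ℕ → G := fun n => s (Multiplicative.ofAdd (z n))
  have hg : ∀ n, Multiplicative.toAdd (π (g n)) = z n := by
    intro n
    change Multiplicative.toAdd (π (s (Multiplicative.ofAdd (z n)))) = z n
    rw [hs]; rfl
  -- uniform bound for the logarithms
  obtain ⟨B, hB⟩ : ∃ B : ℝ, ∀ i n, Real.log ‖((χ i (g n) : ℂˣ) : ℂ)‖ ≤ B := by
    refine ⟨∑ i, ∑ j, |Λ i (Pi.single j 1)|, ?_⟩
    intro i n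
    rw [hΛ, hg]
    have h1 : (fun j => ((z n j : ℤ) : ℝ)) = (n : ℝ) • v -
        ∑ j, (Int.fract ((n : ℝ) * v j)) • (Pi.single j 1 : Fin k → ℝ) := by
      ext i
      rw [Pi.sub_apply, Finset.sum_apply, Finset.sum_eq_single i]
      · simp only [z, Pi.smul_apply, Pi.single_eq_same, smul_eq_mul, mul_one]
        have := Int.self_sub_floor ((n : ℝ) * v i)
        linarith
      · intro b _ hb
        rw [Pi.smul_apply, Pi.single_eq_of_ne hb.symm]; simp
      · intro h; exact absurd (Finset.mem_univ i) h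
    rw [h1, map_sub, map_smul, hv i, smul_zero, zero_sub, map_sum]
    have h2 : -(∑ j, (Λ i) ((Int.fract ((n : ℝ) * v j)) • (Pi.single j 1 : Fin k → ℝ))) ≤
        ∑ j, |Λ i (Pi.single j 1)| := by
      rw [← Finset.sum_neg_distrib]
      refine Finset.sum_le_sum fun j _ => ?_
      rw [map_smul, smul_eq_mul]
      have h3 := Int.fract_nonneg ((n : ℝ) * v j)
      have h4 := (Int.fract_lt_one ((n : ℝ) * v j)).le
      have h5 := neg_abs_le (Λ i (Pi.single j 1))
      have h6 := abs_nonneg (Λ i (Pi.single j 1))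
      nlinarith
    refine h2.trans ?_
    exact Finset.single_le_sum (f := fun i => ∑ j, |Λ i (Pi.single j 1)|)
      (fun i _ => Finset.sum_nonneg fun j _ => abs_nonneg _) (Finset.mem_univ i)
  have hfin := finite_tuples χ cp hcp1 hcp (Real.exp B)
  have hmaps : ∀ n : ℕ, (fun i => χ i (g n)) ∈
      {a : Fin m → ℂˣ | ∃ g : G, (∀ i, a i = χ i g) ∧
        ∀ i, ‖((χ i g : ℂˣ) : ℂ)‖ ≤ Real.exp B} := by
    intro n
    refine ⟨g n, fun i => rfl, fun i => ?_⟩
    rw [← Real.log_le_iff_le_exp (norm_pos_iff.mpr (Units.ne_zero _))]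
    exact hB i n
  have heqz : ∀ a b : ℕ, (fun i => χ i (g a)) = (fun i => χ i (g b)) → z a = z b := by
    intro a b hab
    have h1 : g a * (g b)⁻¹ ∈ N := by
      apply hχker
      intro i
      rw [map_mul, map_inv, congrFun hab i, mul_inv_cancel]
    rw [← hker, map_mul, map_inv, mul_inv_eq_one] at h1
    rw [← hg a, ← hg b, h1]
  let f : ℕ → (Fin m → ℂˣ) := fun n i => χ i (g n)
  have hffin : (Set.range f).Finite := hfin.subset (by rintro _ ⟨n, rfl⟩; exact hmaps n)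
  have hzfin : (Set.range z).Finite := by
    let h : (Fin m → ℂˣ) → (Fin k → ℤ) := fun a => if hn : ∃ n, f n = a then z hn.choose else 0
    refine (hffin.image h).subset ?_
    rintro _ ⟨n, rfl⟩
    refine ⟨f n, ⟨n, rfl⟩, ?_⟩
    have hn : ∃ n', f n' = f n := ⟨n, rfl⟩
    change (if hn : ∃ n', f n' = f n then z hn.choose else 0) = z n
    rw [dif_pos hn]
    exact heqz _ _ hn.choose_spec
  have hbd : ∃ C : ℝ, ∀ n, |((z n j₀ : ℤ) : ℝ)| ≤ C := by
    have h1 := (hzfin.image (fun w => |((w j₀ : ℤ) : ℝ)|)).bddAbove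
    obtain ⟨C, hC⟩ := h1
    exact ⟨C, fun n => hC ⟨z n, ⟨n, rfl⟩, rfl⟩⟩
  obtain ⟨C, hC⟩ := hbd
  have hvpos : 0 < |v j₀| := abs_pos.mpr hj₀
  obtain ⟨n, hn⟩ := exists_nat_gt ((C + 1) / |v j₀|)
  rw [div_lt_iff₀ hvpos] at hn
  have h1 : (n : ℝ) * |v j₀| = |(n : ℝ) * v j₀| := by
    rw [abs_mul, Nat.abs_cast]
  have h2 : |(n : ℝ) * v j₀| ≤ |((z n j₀ : ℤ) : ℝ)| + 1 := by
    have h3 : (n : ℝ) * v j₀ = ((z n j₀ : ℤ) : ℝ) + Int.fract ((n : ℝ) * v j₀) :=
      (Int.floor_add_fract _).symm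
    rw [h3]
    refine (abs_add_le _ _).trans ?_
    have h4 := Int.fract_nonneg ((n : ℝ) * v j₀)
    have h5 := (Int.fract_lt_one ((n : ℝ) * v j₀)).le
    rw [abs_of_nonneg h4]
    linarith
  have := hC n
  linarith

end

/-- Root datum on a group `Γ` (think: finite-index subgroup of a virtually polycyclic group),
without the netness condition. -/
structure RootPre (Γ : Type*) [Group Γ] where
  /-- the nilpotent normal subgroup -/
  N : Subgroup Γ
  normal : N.Normal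
  nilp : Group.IsNilpotent N
  /-- `Γ` is poly-(infinite cyclic), in particular torsion-free -/
  pz : PZ (⊤ : Subgroup Γ)
  /-- rank of the height group -/
  k : ℕ
  /-- height -/
  π : Γ →* Multiplicative (Fin k → ℤ)
  surj : Function.Surjective π
  mem_N : ∀ g, π g = 1 ↔ g ∈ N
  maximal : ∀ L K : Subgroup Γ, L.index ≠ 0 → (∀ x ∈ L, ∀ a ∈ K, x * a * x⁻¹ ∈ K) →
    Group.IsNilpotent K → K ≤ N
  /-- dimension of `N^ab ⊗ ℂ` -/
  m : ℕ
  /-- weights (with multiplicity) of `N^ab ⊗ ℂ` -/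
  χ : Fin m → Γ →* ℂˣ
  /-- eigenfunctionals -/
  ℓ : Fin m → N → ℂ
  /-- characteristic polynomial on `N^ab` -/
  cp : Γ → Polynomial ℤ
  cp_monic : ∀ g, (cp g).Monic
  cp_eq : ∀ g, (cp g).map (Int.castRingHom ℂ) =
    ∏ i, (Polynomial.X - Polynomial.C ((χ i g : ℂˣ) : ℂ))
  χ_N : ∀ i, ∀ n ∈ N, χ i n = 1
  ℓ_ne : ∀ i, ∃ n, ℓ i n ≠ 0
  ℓ_mul : ∀ i a b, ℓ i (a * b) = ℓ i a + ℓ i b
  ℓ_conj : ∀ i g (n : N), ℓ i ⟨g * n * g⁻¹, normal.conj_mem n n.2 g⟩ = χ i g * ℓ i n
  mem_N_of_χ : ∀ g, (∀ i, χ i g = 1) → g ∈ N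
  mem_N_of_norm : ∀ g, (∀ i, ‖((χ i g : ℂˣ) : ℂ)‖ = 1) → g ∈ N
  /-- the real roots -/
  Λ : Fin m → (Fin k → ℝ) →ₗ[ℝ] ℝ
  log_χ : ∀ i g, Real.log ‖((χ i g : ℂˣ) : ℂ)‖ =
    Λ i (fun j => ((Multiplicative.toAdd (π g) j : ℤ) : ℝ))
  Λ_inj : ∀ v, (∀ i, Λ i v = 0) → v = 0
  Λ_sum : ∀ v, ∑ i, Λ i v = 0
  /-- the projection of `N` on the lattice `N^ab / torsion` -/
  κ : N → (Fin m → ℤ)
  /-- the action on the lattice `N^ab / torsion` -/
  A : Γ → Matrix (Fin m) (Fin m) ℤ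
  κ_mul : ∀ a b, κ (a * b) = κ a + κ b
  κ_surj : Function.Surjective κ
  κ_ker : ∀ n : N, κ n = 0 → ∃ j : ℕ, 0 < j ∧ ((n ^ j : N) : Γ) ∈ ⁅N, N⁆
  κ_conj : ∀ g (n : N), κ ⟨g * n * g⁻¹, normal.conj_mem n n.2 g⟩ = (A g).mulVec (κ n)
  A_charpoly : ∀ g, (A g).charpoly = cp g

/-- Root datum on a group `Γ` (think: finite-index subgroup of a virtually polycyclic group). -/
structure RootData (Γ : Type*) [Group Γ] extends RootPre Γ where
  /-- a torsion-free group containing all the values of the characters -/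
  B : Subgroup ℂˣ
  B_tf : ∀ z ∈ B, ∀ j : ℕ, 0 < j → z ^ j = 1 → z = 1
  χ_B : ∀ i g, χ i g ∈ B

/-- Existence of the root datum. -/
theorem exists_rootPre {G : Type*} [Group G] (hG : IsVirtuallyPolycyclic G) {K : Subgroup G}
    (hK : K.index ≠ 0) :
    ∃ G₁ : Subgroup G, G₁.Normal ∧ G₁.FiniteIndex ∧ G₁ ≤ K ∧ Nonempty (RootPre G₁) := by
  obtain ⟨cp₀, -, -, G₁, hn₁, hf₁, hpz, hGK, N₀, hN₀n, hN₀le, hN₀nil, hmax, ι, _, χ₀, -, -,
    k, π, Λ₀, hπ, hker, -, -, -⟩ := exists_structure hG hK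
  refine ⟨G₁, hn₁, hf₁, hGK, ?_⟩
  let N : Subgroup G₁ := N₀.subgroupOf G₁
  have hNn : N.Normal := hN₀n.subgroupOf G₁
  have hmemN : ∀ g : G₁, π g = 1 ↔ g ∈ N := fun g => hker g
  have hpzΓ : PZ (⊤ : Subgroup G₁) := pz_top_iff.mpr hpz
  have hNnil : Group.IsNilpotent N := by
    have e : N ≃* N₀ := Subgroup.subgroupOfEquivOfLe hN₀le
    exact Group.nilpotent_of_mulEquiv e.symm
  have hab : ∀ g h : G₁, g * h * g⁻¹ * h⁻¹ ∈ N := by
    intro g h
    rw [← hmemN, map_mul, map_mul, map_mul, map_inv, map_inv, mul_comm (π g) (π h)]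
    group
  have htf : ∀ (g : G₁) (j : ℕ), 0 < j → g ^ j ∈ N → g ∈ N := by
    intro g j hj hg
    rw [← hmemN] at hg ⊢
    rw [map_pow] at hg
    apply Multiplicative.toAdd.injective
    have h1 : j • Multiplicative.toAdd (π g) = 0 := by
      rw [← toAdd_pow, hg]; rfl
    rw [toAdd_one]
    ext i
    have h2 := congrFun h1 i
    rw [Pi.smul_apply, Pi.zero_apply, nsmul_eq_mul] at h2
    have h3 : (j : ℤ) ≠ 0 := by exact_mod_cast hj.ne'
    exact (mul_eq_zero.mp h2).resolve_left h3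
  have hmaxΓ : ∀ L K : Subgroup G₁, L.index ≠ 0 → (∀ x ∈ L, ∀ a ∈ K, x * a * x⁻¹ ∈ K) →
      Group.IsNilpotent K → K ≤ N := by
    intro L K' hL hLK hK' a ha
    have h1 : (L.map G₁.subtype).index ≠ 0 := by
      rw [Subgroup.index_map_subtype]
      exact Nat.mul_ne_zero hL hf₁.index_ne_zero
    have h2 : Group.IsNilpotent (K'.map G₁.subtype) :=
      Group.nilpotent_of_mulEquiv (K'.equivMapOfInjective G₁.subtype G₁.subtype_injective)
    have h3 := hmax (L.map G₁.subtype) (K'.map G₁.subtype) h1 (by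
      rintro _ ⟨x, hx, rfl⟩ _ ⟨y, hy, rfl⟩
      exact ⟨x * y * x⁻¹, hLK x hx y hy, rfl⟩) h2
    exact h3 ⟨⟨a, ha, rfl⟩, a.2⟩
  have hNfg : N.FG := (hpzΓ.pc.mono le_top).fg
  obtain ⟨m, χ, ℓ, cp, hcp1, hcp2, hχN, hℓne, hℓmul, hℓconj, hL,
    κ, A, hκmul, hκsurj, hκker, hκconj, hAcp⟩ := exists_weights hNn hab hNfg
  have hker1 : ∀ g, (∀ i, χ i g = 1) → g ∈ N := fun g hg =>
    mem_of_weights hNn hNnil hab htf (fun K' hKn hKnil => hmaxΓ ⊤ K' (by simp)
      (fun x _ a ha => hKn.conj_mem a ha x) hKnil) χ hL hg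
  have hker2 : ∀ g, (∀ i, ‖((χ i g : ℂˣ) : ℂ)‖ = 1) → g ∈ N := fun g hg =>
    mem_of_norm_one htf χ cp hcp1 hcp2 hker1 hg
  choose Λ hΛ using fun i => exists_log_linear π hπ (χ i) (fun g hg => by
    rw [hχN i g ((hmemN g).mp hg)]; simp)
  suffices hsum : ∀ v, ∑ i, Λ i v = 0 by
    exact ⟨{
      N := N
      normal := hNn
      nilp := hNnil
      pz := hpzΓ
      k := k
      π := π
      surj := hπ
      mem_N := hmemN
      maximal := hmaxΓ
      m := m
      χ := χ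
      ℓ := ℓ
      cp := cp
      cp_monic := hcp1
      cp_eq := hcp2
      χ_N := hχN
      ℓ_ne := hℓne
      ℓ_mul := hℓmul
      ℓ_conj := hℓconj
      mem_N_of_χ := hker1
      mem_N_of_norm := hker2
      Λ := Λ
      log_χ := hΛ
      Λ_inj := fun v hv => joint_injective π hπ hmemN χ cp hcp1 hcp2 hker1 Λ hΛ hv
      Λ_sum := hsum
      κ := κ
      A := A
      κ_mul := hκmul
      κ_surj := hκsurj
      κ_ker := hκker
      κ_conj := hκconj
      A_charpoly := hAcp }⟩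
  -- the sum of the roots is zero
  have h1 : ∀ g : G₁, ∑ i, Λ i (fun j => ((Multiplicative.toAdd (π g) j : ℤ) : ℝ)) = 0 := by
    intro g
    simp only [← hΛ]
    rw [← Real.log_prod]
    · have h2 := norm_prod_eq_one (G := G₁) (G₀ := ⊤)
        (fun i => (χ i).comp (Subgroup.subtype ⊤)) cp (fun g => hcp2 g) ⟨g, Subgroup.mem_top g⟩
      have h3 : ∏ i, ‖((χ i g : ℂˣ) : ℂ)‖ = 1 := h2
      rw [h3, Real.log_one]
    · intro i _
      exact (norm_ne_zero_iff.mpr (Units.ne_zero _))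
  have h2 : ∀ z : Fin k → ℤ, ∑ i, Λ i (fun j => ((z j : ℤ) : ℝ)) = 0 := by
    intro z
    obtain ⟨g, hg⟩ := hπ (Multiplicative.ofAdd z)
    have := h1 g
    rw [hg] at this
    exact this
  have h3 : ∑ i, Λ i = 0 := by
    apply LinearMap.pi_ext'
    intro j
    ext
    have := h2 (Pi.single j 1)
    simp only [LinearMap.comp_apply, LinearMap.coe_single, LinearMap.zero_apply,
      LinearMap.sum_apply]
    have e : (fun i => (((Pi.single j 1 : Fin k → ℤ) i : ℤ) : ℝ)) = Pi.single j (1 : ℝ) := by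
      ext i
      by_cases hij : i = j
      · rw [hij]; simp
      · rw [Pi.single_eq_of_ne hij, Pi.single_eq_of_ne hij]; simp
    rw [e] at this
    exact this
  intro v
  have := congrArg (fun f : (Fin k → ℝ) →ₗ[ℝ] ℝ => f v) h3
  simpa [LinearMap.sum_apply] using this

/-! ### netness -/

/-- injectivity of the powers on `ℤ^k` -/
theorem pow_injective_mult {k M : ℕ} (hM : 0 < M) :
    Function.Injective (powMonoidHom M : Multiplicative (Fin k → ℤ) →* _) := by
  intro a b hab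
  apply Multiplicative.toAdd.injective
  have h1 : M • Multiplicative.toAdd a = M • Multiplicative.toAdd b := by
    have := congrArg Multiplicative.toAdd hab
    simpa using this
  funext i
  have h2 := congrFun h1 i
  simp only [Pi.smul_apply, nsmul_eq_mul] at h2
  have h3 : (M : ℤ) ≠ 0 := by exact_mod_cast hM.ne'
  exact mul_left_cancel₀ h3 h2

theorem index_pow_range {k M : ℕ} (hM : 0 < M) :
    (powMonoidHom M : Multiplicative (Fin k → ℤ) →* _).range.index ≠ 0 := by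
  have : NeZero M := ⟨hM.ne'⟩
  let f : Multiplicative (Fin k → ℤ) →* Multiplicative (Fin k → ZMod M) :=
    AddMonoidHom.toMultiplicative
      (Pi.addMonoidHom (fun i => (Int.castAddHom (ZMod M)).comp (Pi.evalAddMonoidHom _ i)))
  have h1 : f.ker ≤ (powMonoidHom M : Multiplicative (Fin k → ℤ) →* _).range := by
    intro v hv
    have h2 : ∀ i, ((Multiplicative.toAdd v i : ℤ) : ZMod M) = 0 := fun i =>
      congrFun (congrArg Multiplicative.toAdd (MonoidHom.mem_ker.mp hv)) i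
    have h3 : ∀ i, ∃ c : ℤ, Multiplicative.toAdd v i = M * c := fun i =>
      (ZMod.intCast_zmod_eq_zero_iff_dvd _ _).mp (h2 i)
    choose c hc using h3
    refine ⟨Multiplicative.ofAdd c, ?_⟩
    apply Multiplicative.toAdd.injective
    funext i
    rw [hc i]
    simp [powMonoidHom]
  have h2 : f.ker.index ≠ 0 := by
    rw [Subgroup.index_ker]
    have : Finite f.range := inferInstance
    exact Nat.card_pos.ne'
  intro h3
  exact h2 (Nat.eq_zero_of_zero_dvd (h3 ▸ Subgroup.index_dvd_of_le h1))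

/-- Restriction of a root datum to a finite-index subgroup containing `N`. -/
noncomputable def RootPre.restr {Γ : Type*} [Group Γ] (R : RootPre Γ) {Γ' : Type*} [Group Γ']
    (f : Γ' →* Γ) (hf : Function.Injective f) {M : ℕ} (hM : 0 < M)
    (hr : ∀ x, x ∈ f.range ↔ ∃ v, v ^ M = R.π x) : RootPre Γ' := by
  classical
  have hnorm := R.normal
  have hNr : ∀ n ∈ R.N, n ∈ f.range := fun n hn => (hr n).mpr ⟨1, by
    rw [one_pow, (R.mem_N n).mpr hn]⟩
  let P : Multiplicative (Fin R.k → ℤ) →* Multiplicative (Fin R.k → ℤ) := powMonoidHom M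
  have hP : Function.Injective P := pow_injective_mult hM
  let e : R.N.comap f ≃* R.N := MulEquiv.ofBijective (f.subgroupComap R.N) (by
    constructor
    · intro a b hab
      apply Subtype.ext
      apply hf
      exact congrArg Subtype.val hab
    · intro n
      obtain ⟨x, hx⟩ := hNr n n.2
      refine ⟨⟨x, ?_⟩, Subtype.ext hx⟩
      rw [Subgroup.mem_comap, hx]
      exact n.2)
  have he : ∀ n : R.N.comap f, ((e n : R.N) : Γ) = f n := fun n => rfl
  have hmemr : ∀ x : Γ', R.π (f x) ∈ P.range := fun x => (hr (f x)).mp ⟨x, rfl⟩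
  let E : Multiplicative (Fin R.k → ℤ) ≃* P.range := MonoidHom.ofInjective hP
  let π' : Γ' →* Multiplicative (Fin R.k → ℤ) :=
    E.symm.toMonoidHom.comp ((R.π.comp f).codRestrict P.range hmemr)
  have hπ' : ∀ x, (π' x) ^ M = R.π (f x) := by
    intro x
    have h1 : E (π' x) = ⟨R.π (f x), hmemr x⟩ := E.apply_symm_apply _
    exact congrArg Subtype.val h1
  have hconj : ∀ (g : Γ') (n : R.N.comap f), (e ⟨g * n * g⁻¹,
      (hnorm.comap f).conj_mem n n.2 g⟩ : R.N) = ⟨f g * (e n : R.N) * (f g)⁻¹,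
        hnorm.conj_mem _ (e n).2 (f g)⟩ := by
    intro g n
    apply Subtype.ext
    rw [he]
    simp only [map_mul, map_inv, he]
  have htoAdd : ∀ x, (fun j => ((Multiplicative.toAdd (R.π (f x)) j : ℤ) : ℝ)) =
      (M : ℝ) • (fun j => ((Multiplicative.toAdd (π' x) j : ℤ) : ℝ)) := by
    intro x
    funext j
    rw [← hπ', toAdd_pow, Pi.smul_apply, Pi.smul_apply, nsmul_eq_mul, smul_eq_mul]
    push_cast
    rfl
  have hM' : (M : ℝ) ≠ 0 := by exact_mod_cast hM.ne'
  exact {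
    N := R.N.comap f
    normal := hnorm.comap f
    nilp := by
      have := R.nilp
      exact Group.nilpotent_of_mulEquiv e.symm
    pz := by
      have := PZ.comap_injective hf R.pz
      rwa [Subgroup.comap_top] at this
    k := R.k
    π := π'
    surj := by
      intro v
      obtain ⟨x, hx⟩ := R.surj (v ^ M)
      obtain ⟨y, rfl⟩ := (hr x).mpr ⟨v, hx.symm⟩
      exact ⟨y, hP (show (π' y) ^ M = v ^ M by rw [hπ', hx])⟩
    mem_N := by
      intro g
      rw [Subgroup.mem_comap, ← R.mem_N, ← hπ']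
      constructor
      · intro h; rw [h, one_pow]
      · intro h; exact hP (show (π' g) ^ M = 1 ^ M by rw [h, one_pow])
    maximal := by
      intro L K hL hLK hK x hx
      have h1 : (L.map f).index ≠ 0 := by
        rw [L.index_map_of_injective hf]
        refine Nat.mul_ne_zero hL ?_
        have h2 : f.range = P.range.comap R.π := by
          ext x; exact hr x
        rw [h2, Subgroup.index_comap_of_surjective _ R.surj]
        exact index_pow_range hM
      have h2 : Group.IsNilpotent (K.map f) :=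
        Group.nilpotent_of_mulEquiv (K.equivMapOfInjective f hf)
      have h3 := R.maximal (L.map f) (K.map f) h1 (by
        rintro _ ⟨x, hx, rfl⟩ _ ⟨y, hy, rfl⟩
        exact ⟨x * y * x⁻¹, hLK x hx y hy, by simp⟩) h2
      exact h3 ⟨x, hx, rfl⟩
    m := R.m
    χ := fun i => (R.χ i).comp f
    ℓ := fun i n => R.ℓ i (e n)
    cp := fun g => R.cp (f g)
    cp_monic := fun g => R.cp_monic _
    cp_eq := fun g => R.cp_eq _
    χ_N := fun i n hn => R.χ_N i _ hn
    ℓ_ne := by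
      intro i
      obtain ⟨n, hn⟩ := R.ℓ_ne i
      exact ⟨e.symm n, by rwa [e.apply_symm_apply]⟩
    ℓ_mul := by
      intro i a b
      simp only [map_mul, R.ℓ_mul]
    ℓ_conj := by
      intro i g n
      rw [hconj]
      exact R.ℓ_conj i (f g) (e n)
    mem_N_of_χ := fun g hg => R.mem_N_of_χ (f g) hg
    mem_N_of_norm := fun g hg => R.mem_N_of_norm (f g) hg
    Λ := fun i => (M : ℝ) • R.Λ i
    log_χ := by
      intro i g
      have h1 := R.log_χ i (f g)
      rw [htoAdd, map_smul] at h1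
      exact h1
    Λ_inj := by
      intro v hv
      apply R.Λ_inj
      intro i
      have := hv i
      rw [LinearMap.smul_apply, smul_eq_mul] at this
      exact (mul_eq_zero.mp this).resolve_left hM'
    Λ_sum := by
      intro v
      simp only [LinearMap.smul_apply]
      rw [← Finset.smul_sum, R.Λ_sum, smul_zero]
    κ := fun n => R.κ (e n)
    A := fun g => R.A (f g)
    κ_mul := by
      intro a b
      simp only [map_mul, R.κ_mul]
    κ_surj := R.κ_surj.comp e.surjective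
    κ_ker := by
      intro n hn
      obtain ⟨j, hj, h⟩ := R.κ_ker (e n) hn
      refine ⟨j, hj, ?_⟩
      have h1 : (((e n) ^ j : R.N) : Γ) = f ((n ^ j : R.N.comap f) : Γ') := by
        rw [← map_pow]; rfl
      have h2 : (R.N.comap f).map f = R.N := by
        rw [Subgroup.map_comap_eq, inf_eq_right]
        exact hNr
      have h3 : ⁅R.N, R.N⁆ = (⁅R.N.comap f, R.N.comap f⁆).map f := by
        rw [Subgroup.map_commutator, h2]
      rw [h1, h3] at h
      obtain ⟨y, hy, hyx⟩ := h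
      rwa [← hf hyx]
    κ_conj := by
      intro g n
      rw [hconj]
      exact R.κ_conj (f g) (e n)
    A_charpoly := fun g => R.A_charpoly _ }

theorem RootPre.exists_net {Γ : Type*} [Group Γ] (R : RootPre Γ) :
    ∃ (M : ℕ) (B : Subgroup ℂˣ), 0 < M ∧ (∀ z ∈ B, ∀ j : ℕ, 0 < j → z ^ j = 1 → z = 1) ∧
      ∀ i g, R.χ i g ^ M ∈ B := by
  classical
  obtain ⟨S, hS⟩ := R.pz.pc.fg
  let T : Set ℂˣ := ⋃ i, (R.χ i) '' (S : Set Γ)
  have hTf : T.Finite := Set.finite_iUnion fun i => S.finite_toSet.image _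
  let A₀ : Subgroup ℂˣ := Subgroup.closure T
  have hχ : ∀ i g, R.χ i g ∈ A₀ := by
    intro i g
    have hg : g ∈ Subgroup.closure (S : Set Γ) := by rw [hS]; trivial
    induction hg using Subgroup.closure_induction with
    | mem x hx => exact Subgroup.subset_closure (Set.mem_iUnion.mpr ⟨i, x, hx, rfl⟩)
    | one => rw [map_one]; exact A₀.one_mem
    | mul x y _ _ hx hy => rw [map_mul]; exact A₀.mul_mem hx hy
    | inv x _ hx => rw [map_inv]; exact A₀.inv_mem hx
  have hfg : Group.FG A₀ := (Group.fg_iff_subgroup_fg A₀).mpr ⟨hTf.toFinset, by simp [A₀]⟩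
  have hfin : Module.Finite ℤ (Additive A₀) :=
    Module.Finite.iff_addGroup_fg.mpr (GroupFG.iff_add_fg.mp hfg)
  set Tor : Submodule ℤ (Additive A₀) := Submodule.torsion ℤ (Additive A₀) with hTor
  have hTfin : Finite Tor := by
    have : Module.Finite ℤ Tor := inferInstance
    exact Module.finite_of_fg_torsion Tor Submodule.torsion_isTorsion
  refine ⟨Nat.card Tor, A₀.map (powMonoidHom (Nat.card Tor)), Nat.card_pos, ?_, ?_⟩
  · rintro _ ⟨z, hz, rfl⟩ j hj h
    change z ^ Nat.card Tor = 1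
    have h1 : (Additive.ofMul (⟨z, hz⟩ : A₀)) ∈ Tor := by
      refine (Submodule.mem_torsion_iff _).mpr ⟨⟨((Nat.card Tor * j : ℕ) : ℤ), ?_⟩, ?_⟩
      · rw [mem_nonZeroDivisors_iff_ne_zero]
        exact_mod_cast (Nat.mul_pos Nat.card_pos hj).ne'
      · change ((Nat.card Tor * j : ℕ) : ℤ) • Additive.ofMul (⟨z, hz⟩ : A₀) = 0
        rw [natCast_zsmul]
        apply Additive.toMul.injective
        rw [toMul_nsmul, toMul_zero]
        apply Subtype.ext
        change z ^ (Nat.card Tor * j) = 1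
        rw [pow_mul]; exact h
    have h2 : Nat.card Tor • (⟨Additive.ofMul (⟨z, hz⟩ : A₀), h1⟩ : Tor) = 0 :=
      card_nsmul_eq_zero'
    have h3 := congrArg (fun t : Tor => ((Additive.toMul (t : Additive A₀) : A₀) : ℂˣ)) h2
    exact h3
  · intro i g
    exact ⟨_, hχ i g, rfl⟩

/-- Existence of the root datum. -/
theorem exists_rootData {G : Type*} [Group G] (hG : IsVirtuallyPolycyclic G) {K : Subgroup G}
    (hK : K.index ≠ 0) :
    ∃ G₁ : Subgroup G, G₁.Normal ∧ G₁.FiniteIndex ∧ G₁ ≤ K ∧ Nonempty (RootData G₁) := by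
  obtain ⟨G₁, hn₁, hf₁, hGK, ⟨R⟩⟩ := exists_rootPre hG hK
  obtain ⟨M, B, hM, hBtf, hB⟩ := R.exists_net
  let P : Multiplicative (Fin R.k → ℤ) →* Multiplicative (Fin R.k → ℤ) := powMonoidHom M
  let Q : Subgroup G₁ := P.range.comap R.π
  have hQ : Q.index ≠ 0 := by
    rw [Subgroup.index_comap_of_surjective _ R.surj]
    exact index_pow_range hM
  -- `N` is normal in `G`
  have hNG : ∀ (g : G) (n : G₁), n ∈ R.N → (⟨g * n * g⁻¹, hn₁.conj_mem n n.2 g⟩ : G₁) ∈ R.N := by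
    intro g
    let c : G₁ ≃* G₁ := MulAut.conjNormal g
    have hc : ∀ x : G₁, c x = ⟨g * x * g⁻¹, hn₁.conj_mem x x.2 g⟩ := fun x => by
      apply Subtype.ext
      simp [c]
    have h1 : Group.IsNilpotent (R.N.map (c : G₁ →* G₁)) := by
      have := R.nilp
      exact Group.nilpotent_of_mulEquiv (R.N.equivMapOfInjective (c : G₁ →* G₁) c.injective)
    have h2 := R.maximal ⊤ (R.N.map (c : G₁ →* G₁)) (by simp) (by
      rintro x - _ ⟨y, hy, rfl⟩
      refine ⟨c.symm x * y * (c.symm x)⁻¹, R.normal.conj_mem y hy _, ?_⟩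
      simp) h1
    intro n hn
    rw [← hc]
    exact h2 ⟨n, hn, rfl⟩
  have hQn : (Q.map G₁.subtype).Normal := by
    constructor
    rintro _ ⟨x, ⟨v, hv⟩, rfl⟩ g
    obtain ⟨y, hy⟩ := R.surj v
    -- `x = y ^ M * n`
    have hn : (y ^ M)⁻¹ * x ∈ R.N := by
      rw [← R.mem_N, map_mul, map_inv, map_pow, hy, ← hv]
      change (v ^ M)⁻¹ * v ^ M = 1
      rw [inv_mul_cancel]
    refine ⟨⟨g * x * g⁻¹, hn₁.conj_mem x x.2 g⟩, ?_, rfl⟩
    refine ⟨R.π ⟨g * y * g⁻¹, hn₁.conj_mem y y.2 g⟩, ?_⟩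
    change (R.π ⟨g * y * g⁻¹, hn₁.conj_mem y y.2 g⟩) ^ M = _
    have e1 : (⟨g * x * g⁻¹, hn₁.conj_mem x x.2 g⟩ : G₁) =
        (⟨g * y * g⁻¹, hn₁.conj_mem y y.2 g⟩ : G₁) ^ M *
          ⟨g * ((y ^ M)⁻¹ * x : G₁) * g⁻¹, hn₁.conj_mem _ ((y ^ M)⁻¹ * x : G₁).2 g⟩ := by
      apply Subtype.ext
      simp only [Subgroup.coe_mul, Subgroup.coe_pow, Subgroup.coe_inv, conj_pow]
      group
    rw [e1, map_mul, (R.mem_N _).mpr (hNG g _ hn), mul_one, map_pow]
  have hle : Q.map G₁.subtype ≤ G₁ := by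
    rintro _ ⟨x, -, rfl⟩
    exact x.2
  refine ⟨Q.map G₁.subtype, hQn, ⟨?_⟩, hle.trans hGK, ?_⟩
  · rw [Subgroup.index_map_subtype]
    exact Nat.mul_ne_zero hQ hf₁.index_ne_zero
  · let f : (Q.map G₁.subtype) →* G₁ := Subgroup.inclusion hle
    have hr : ∀ x, x ∈ f.range ↔ ∃ v, v ^ M = R.π x := by
      intro x
      constructor
      · rintro ⟨⟨_, ⟨y, ⟨v, hv⟩, rfl⟩⟩, rfl⟩
        exact ⟨v, hv⟩
      · rintro ⟨v, hv⟩
        exact ⟨⟨x, ⟨x, ⟨v, hv⟩, rfl⟩⟩, rfl⟩
    refine ⟨{ R.restr f (Subgroup.inclusion_injective hle) hM hr with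
      B := B
      B_tf := hBtf
      χ_B := ?_ }⟩
    intro i g
    change R.χ i (f g) ∈ B
    obtain ⟨v, hv⟩ := (hr (f g)).mp ⟨g, rfl⟩
    obtain ⟨y, hy⟩ := R.surj v
    have hn : (y ^ M)⁻¹ * f g ∈ R.N := by
      rw [← R.mem_N, map_mul, map_inv, map_pow, hy, ← hv, inv_mul_cancel]
    have h1 := R.χ_N i _ hn
    rw [map_mul, map_inv, inv_mul_eq_one] at h1
    rw [← h1, map_pow]
    exact hB i y

end Crest.Agent.R182.Polyc
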