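/-
R182, module WKPATH (helper860): short paths inside the kernel of the height map.
Every element of `N = ker π` of word length `L` in `G` is reached from `1` by generators of `N`
inside the ball of radius `C (L + 1)` of `G`.
-/
import Mathlib
import Crest.Agent.R182.FinPath

set_option autoImplicit false

namespace Crest.Agent.R182.Wk

open Crest.GroupTheory Crest.Agent.R182.QI Crest.Agent.R182.FinAlg Crest.Agent.R182.FinPath
open scoped Pointwise

variable {G : Type*} [Group G] {S A Y : Set G} {R R' R'' c c' c'' : ℕ}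

/-- `w` is reachable from `1` by `A`-steps inside the ball of radius `R`. -/
def PB (S A : Set G) (R : ℕ) (w : G) : Prop :=
  Relation.ReflTransGen (fun u v => u⁻¹ * v ∈ A ∧ wordLength S v ≤ R) 1 w

theorem PB.one : PB S A R 1 := Relation.ReflTransGen.refl

theorem PB.mono {w : G} (h : PB S A R w) (hR : R ≤ R') : PB S A R' w :=
  Relation.ReflTransGen.mono (fun _ _ h' => ⟨h'.1, h'.2.trans hR⟩) _ _ h

theorem PB.len {w : G} (h : PB S A R w) : wordLength S w ≤ R := by
  rcases Relation.ReflTransGen.cases_tail h with h | ⟨c, -, hc⟩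
  · rw [h]; simp
  · exact hc.2

theorem PB.mul (hS : Subgroup.closure S = ⊤) {u w : G} (h : PB S A R u) (h' : PB S A R' w)
    (h1 : R ≤ R'') (h2 : wordLength S u + R' ≤ R'') : PB S A R'' (u * w) := by
  induction h' with
  | refl => simpa using h.mono h1
  | @tail b c hab hbc ih =>
    refine Relation.ReflTransGen.tail ih ⟨?_, ?_⟩
    · have : (u * b)⁻¹ * (u * c) = b⁻¹ * c := by group
      rw [this]; exact hbc.1
    · refine (wordLength_mul_le hS u c).trans ?_
      have := hbc.2
      omega

theorem PB.single {a : G} (ha : a ∈ A) (hR : wordLength S a ≤ R) : PB S A R a :=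
  Relation.ReflTransGen.single ⟨by simpa using ha, hR⟩

theorem PB.of_pow (hS : Subgroup.closure S = ⊤) {ρ : ℕ} (hρ : ∀ a ∈ A, wordLength S a ≤ ρ)
    {m : ℕ} : ∀ {w : G}, w ∈ A ^ m → PB S A (m * ρ) w := by
  induction m with
  | zero =>
    intro w hw
    rw [pow_zero, Set.mem_one] at hw
    subst hw
    exact PB.one
  | succ m ih =>
    intro w hw
    rw [pow_succ] at hw
    obtain ⟨u, hu, a, ha, rfl⟩ := Set.mem_mul.1 hw
    have h1 := ih hu
    refine PB.mul hS h1 (PB.single ha (hρ a ha)) (by nlinarith) ?_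
    have := h1.len
    nlinarith

theorem PB.inv (hS : Subgroup.closure S = ⊤) (hA : ∀ a ∈ A, a⁻¹ ∈ A) {w : G}
    (h : PB S A R w) : PB S A (2 * R) w⁻¹ := by
  have hrev : Relation.ReflTransGen (fun u v => u⁻¹ * v ∈ A ∧ wordLength S v ≤ R) w 1 := by
    induction h with
    | refl => exact Relation.ReflTransGen.refl
    | @tail b c hab hbc ih =>
      refine Relation.ReflTransGen.head ⟨?_, PB.len (A := A) hab⟩ ih
      have : c⁻¹ * b = (b⁻¹ * c)⁻¹ := by group
      rw [this]; exact hA _ hbc.1
  have hlen := h.len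
  have key : ∀ v : G, Relation.ReflTransGen (fun u v => u⁻¹ * v ∈ A ∧ wordLength S v ≤ R) w v →
      Relation.ReflTransGen (fun u v => u⁻¹ * v ∈ A ∧ wordLength S v ≤ 2 * R) (w⁻¹ * w)
        (w⁻¹ * v) := by
    intro v hv
    induction hv with
    | refl => exact Relation.ReflTransGen.refl
    | @tail b d _ hbd ih =>
      refine ih.tail ⟨?_, ?_⟩
      · have : (w⁻¹ * b)⁻¹ * (w⁻¹ * d) = b⁻¹ * d := by group
        rw [this]; exact hbd.1
      · refine (wordLength_mul_le hS w⁻¹ d).trans ?_
        rw [wordLength_inv hS]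
        have := hbd.2
        omega
  have := key 1 hrev
  simpa [PB] using this

theorem PB.conj (hS : Subgroup.closure S = ⊤) {y : G} (hy : wordLength S y ≤ c)
    (hc : ∀ a ∈ A, PB S A c' (y * a * y⁻¹)) {w : G} (h : PB S A R w) :
    PB S A (R + 2 * c + c') (y * w * y⁻¹) := by
  induction h with
  | refl => simpa using (PB.one : PB S A _ 1)
  | @tail b d hab hbc ih =>
    have h1 : y * d * y⁻¹ = (y * b * y⁻¹) * (y * (b⁻¹ * d) * y⁻¹) := by group
    rw [h1]
    refine PB.mul hS ih (hc _ hbc.1) le_rfl ?_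
    have h2 : wordLength S b ≤ R := PB.len (A := A) hab
    have h3 := wordLength_mul_le hS (y * b) y⁻¹
    have h4 := wordLength_mul_le hS y b
    rw [wordLength_inv hS] at h3
    omega

/-- data for rearranging words -/
structure RW (S A Y : Set G) (c c' : ℕ) : Prop where
  len : ∀ y ∈ Y, wordLength S y ≤ c
  conj : ∀ y ∈ Y, ∀ a ∈ A, PB S A c' (y * a * y⁻¹)
  comm : ∀ x ∈ Y, ∀ y ∈ Y, PB S A c' (x * y * x⁻¹ * y⁻¹)

theorem len_list (hS : Subgroup.closure S = ⊤) (h : RW S A Y c c') (l : List G)
    (hl : ∀ y ∈ l, y ∈ Y) : wordLength S l.prod ≤ l.length * c :=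
  wordLength_list_prod_le hS l c fun y hy => h.len y (hl y hy)

theorem conj_listPB (hS : Subgroup.closure S = ⊤) (h : RW S A Y c c') (l : List G)
    (hl : ∀ y ∈ l, y ∈ Y) {x : G} (hx : PB S A R x) :
    PB S A (R + l.length * (2 * c + c')) (l.prod * x * l.prod⁻¹) := by
  induction l with
  | nil => simpa using hx
  | cons y l ih =>
    have h1 := ih (fun z hz => hl z (List.mem_cons_of_mem _ hz))
    have hyY := hl y List.mem_cons_self
    have h2 := PB.conj hS (h.len y hyY) (h.conj y hyY) h1
    have : (y :: l).prod * x * (y :: l).prod⁻¹ = y * (l.prod * x * l.prod⁻¹) * y⁻¹ := by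
      rw [List.prod_cons]; group
    rw [this, List.length_cons]
    exact h2.mono (by ring_nf; omega)

theorem comm_listPB (hS : Subgroup.closure S = ⊤) (h : RW S A Y c c') (y : G) (hy : y ∈ Y)
    (l : List G) (hl : ∀ y ∈ l, y ∈ Y) :
    PB S A (l.length * (2 * c + 2 * c')) (y * l.prod * y⁻¹ * l.prod⁻¹) := by
  induction l with
  | nil => simpa using (PB.one : PB S A _ 1)
  | cons x l ih =>
    have h1 := ih (fun z hz => hl z (List.mem_cons_of_mem _ hz))
    have hx := hl x List.mem_cons_self
    have h2 := PB.conj hS (h.len x hx) (h.conj x hx) h1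
    have h3 := h.comm y hy x hx
    have : y * (x :: l).prod * y⁻¹ * (x :: l).prod⁻¹
        = (y * x * y⁻¹ * x⁻¹) * (x * (y * l.prod * y⁻¹ * l.prod⁻¹) * x⁻¹) := by
      rw [List.prod_cons]; group
    rw [this, List.length_cons]
    refine PB.mul hS h3 h2 (by nlinarith) ?_
    have := h3.len
    nlinarith

theorem perm_listPB (hS : Subgroup.closure S = ⊤) (h : RW S A Y c c') (l : List G) :
    ∀ (l' : List G), (∀ y ∈ l, y ∈ Y) → l.Perm l' →
      PB S A (l.length * (4 * c + 3 * c')) (l.prod * l'.prod⁻¹) := by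
  induction l with
  | nil =>
    intro l' _ hp
    rw [List.nil_perm.1 hp]
    simpa using (PB.one : PB S A _ 1)
  | cons a u ih =>
    intro l' hl hp
    have ha : a ∈ l' := hp.mem_iff.1 List.mem_cons_self
    obtain ⟨s, t, rfl⟩ := List.append_of_mem ha
    have hp' : u.Perm (s ++ t) := (hp.trans List.perm_middle).cons_inv
    have haY := hl a List.mem_cons_self
    have huY : ∀ y ∈ u, y ∈ Y := fun z hz => hl z (List.mem_cons_of_mem _ hz)
    have h1 := ih (s ++ t) huY hp'
    have h2 := PB.conj hS (h.len a haY) (h.conj a haY) h1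
    have hsY : ∀ y ∈ s, y ∈ Y := fun y hy =>
      hl y (hp.mem_iff.2 (List.mem_append_left _ hy))
    have hstY : ∀ y ∈ s ++ t, y ∈ Y := fun y hy => huY y (hp'.mem_iff.2 hy)
    have h3 := comm_listPB hS h a haY s hsY
    have hst : (s ++ t).length = u.length := hp'.length_eq.symm
    have hlen : s.length ≤ u.length := by
      rw [List.length_append] at hst
      omega
    have h4 : (a :: u).prod * (s ++ a :: t).prod⁻¹
        = (a * (u.prod * (s ++ t).prod⁻¹) * a⁻¹) * (a * s.prod * a⁻¹ * s.prod⁻¹) := by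
      rw [List.prod_cons, List.prod_append, List.prod_append, List.prod_cons]; group
    rw [h4, List.length_cons]
    refine PB.mul hS h2 h3 (by nlinarith) ?_
    have e1 := wordLength_mul_le hS (a * (u.prod * (s ++ t).prod⁻¹)) a⁻¹
    have e2 := wordLength_mul_le hS a (u.prod * (s ++ t).prod⁻¹)
    have e3 := wordLength_mul_le hS u.prod (s ++ t).prod⁻¹
    rw [wordLength_inv hS] at e1 e3
    have e4 := len_list hS h u huY
    have e5 := len_list hS h (s ++ t) hstY
    rw [hst] at e5
    have e6 := h.len a haY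
    have e7 : s.length * (2 * c + 2 * c') ≤ u.length * (2 * c + 2 * c') :=
      Nat.mul_le_mul_right _ hlen
    calc wordLength S (a * (u.prod * (s ++ t).prod⁻¹) * a⁻¹) + s.length * (2 * c + 2 * c')
        ≤ (c + (u.length * c + u.length * c) + c) + u.length * (2 * c + 2 * c') := by omega
      _ ≤ (u.length + 1) * (4 * c + 3 * c') := by nlinarith

section Q

variable {k : ℕ} {π : G →* Multiplicative (Fin k → ℤ)}

theorem exists_RW (hS : Subgroup.closure S = ⊤) (hA : Sym A) (hAf : A.Finite)
    (hcl : Subgroup.closure A = π.ker) (hY : Y.Finite) :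
    ∃ c c' : ℕ, RW S A Y c c' := by
  obtain ⟨lam, c0, hlam, hconj, hcomm⟩ := exists_lam hA hAf hcl hY
  obtain ⟨ρ, hρ⟩ : ∃ m, ∀ a ∈ A, wordLength S a ≤ m := by
    obtain ⟨m, hm⟩ := (hAf.image (wordLength S)).bddAbove
    exact ⟨m, fun t ht => hm ⟨t, ht, rfl⟩⟩
  obtain ⟨c, hc⟩ : ∃ m, ∀ a ∈ Y, wordLength S a ≤ m := by
    obtain ⟨m, hm⟩ := (hY.image (wordLength S)).bddAbove
    exact ⟨m, fun t ht => hm ⟨t, ht, rfl⟩⟩
  refine ⟨c, lam * ρ + c0 * ρ, hc, fun y hy a ha => ?_, fun x hx y hy => ?_⟩
  · exact (PB.of_pow hS hρ (hconj y hy a ha)).mono (by omega)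
  · exact (PB.of_pow hS hρ (hcomm x hx y hy)).mono (by omega)

theorem q_genPB (hS : Subgroup.closure S = ⊤) (h : RW S A Y c c') {x : Fin k → G}
    (hY : ∀ i, x i ∈ Y ∧ (x i)⁻¹ ∈ Y) (v : Fin k → ℤ) (i : Fin k) :
    PB S A ((n1 v + 1) * (4 * c + 3 * c')) (z x v * x i * (z x (v + Pi.single i 1))⁻¹) := by
  have hmem : ∀ (w : Fin k → ℤ), ∀ y ∈ (ms x w).toList, y ∈ Y := by
    intro w y hy
    obtain ⟨j, rfl | rfl⟩ := mem_ms (Multiset.mem_toList.1 hy)
    · exact (hY j).1
    · exact (hY j).2
  rcases le_or_gt 0 (v i) with h0 | h0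
  · have hp : ((ms x v).toList ++ [x i]).Perm (ms x (v + Pi.single i 1)).toList := by
      rw [← Multiset.coe_eq_coe, ← Multiset.coe_add, Multiset.coe_toList, Multiset.coe_toList,
        ms_add_of_nonneg x v i h0, Multiset.coe_singleton]
    have h1 := perm_listPB hS h _ _ (by
      intro y hy
      rcases List.mem_append.1 hy with hy | hy
      · exact hmem v y hy
      · rw [List.mem_singleton.1 hy]; exact (hY i).1) hp
    rw [List.prod_append, List.prod_singleton, List.length_append, Multiset.length_toList,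
      card_ms, List.length_singleton] at h1
    exact h1
  · have hp : (ms x v).toList.Perm ((ms x (v + Pi.single i 1)).toList ++ [(x i)⁻¹]) := by
      rw [← Multiset.coe_eq_coe, ← Multiset.coe_add, Multiset.coe_toList, Multiset.coe_toList,
        Multiset.coe_singleton]
      exact ms_add_of_neg x v i h0
    have h1 := perm_listPB hS h _ _ (hmem v) hp
    rw [List.prod_append, List.prod_singleton, Multiset.length_toList, card_ms] at h1
    have h2 : z x v * x i * (z x (v + Pi.single i 1))⁻¹ = z x v *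
      (z x (v + Pi.single i 1) * (x i)⁻¹)⁻¹ := by group
    rw [h2]
    exact h1.mono (Nat.mul_le_mul_right _ (by omega))

/-- the main estimate: the "error" of the section is reached inside a linear ball. -/
theorem exists_q_PB (hS : Subgroup.closure S = ⊤) (hA : Sym A) (hAf : A.Finite)
    (hcl : Subgroup.closure A = π.ker) {x : Fin k → G}
    (hx : ∀ i, hgt π (x i) = Pi.single i 1) :
    ∀ s : G, ∃ Ks : ℕ, ∀ v : Fin k → ℤ,
        PB S A (Ks * (n1 v + 1)) (z x v * s * (z x (v + hgt π s))⁻¹) := by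
  let Y : Set G := Set.range x ∪ Set.range (fun i => (x i)⁻¹)
  have hYf : Y.Finite := (Set.finite_range _).union (Set.finite_range _)
  have hY : ∀ i, x i ∈ Y ∧ (x i)⁻¹ ∈ Y := fun i => ⟨Or.inl ⟨i, rfl⟩, Or.inr ⟨i, rfl⟩⟩
  obtain ⟨c, c', h⟩ := exists_RW hS hA hAf hcl hYf
  let Gd : Subgroup G :=
    { carrier := {s | ∃ Ks : ℕ, ∀ v : Fin k → ℤ,
        PB S A (Ks * (n1 v + 1)) (z x v * s * (z x (v + hgt π s))⁻¹)}
      one_mem' := ⟨0, fun v => by simpa [hgt_one] using (PB.one : PB S A _ 1)⟩
      mul_mem' := by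
        rintro s t ⟨Ks, hs⟩ ⟨Kt, ht⟩
        refine ⟨Ks + Kt * (n1 (hgt π s) + 1), fun v => ?_⟩
        have h1 := hs v
        have h1' := ht (v + hgt π s)
        have h2 : z x v * (s * t) * (z x (v + hgt π (s * t)))⁻¹
            = z x v * s * (z x (v + hgt π s))⁻¹ *
            (z x (v + hgt π s) * t * (z x (v + hgt π s + hgt π t))⁻¹) := by
          rw [hgt_mul, ← add_assoc]; group
        rw [h2]
        have h3 := h1.len
        have h4 := n1_add_le v (hgt π s)
        refine PB.mul hS h1 h1' ?_ ?_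
        · exact Nat.mul_le_mul_right _ (by omega)
        · calc _ ≤ Ks * (n1 v + 1) + Kt * (n1 v + n1 (hgt π s) + 1) := by
                gcongr
            _ ≤ (Ks + Kt * (n1 (hgt π s) + 1)) * (n1 v + 1) := by
                have : n1 v + n1 (hgt π s) + 1 ≤ (n1 (hgt π s) + 1) * (n1 v + 1) := by nlinarith
                calc Ks * (n1 v + 1) + Kt * (n1 v + n1 (hgt π s) + 1)
                    ≤ Ks * (n1 v + 1) + Kt * ((n1 (hgt π s) + 1) * (n1 v + 1)) := by gcongr
                  _ = _ := by ring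
      inv_mem' := by
        rintro s ⟨Ks, hs⟩
        refine ⟨2 * (Ks * (n1 (hgt π s) + 1)), fun v => ?_⟩
        have h1 := PB.inv hS hA.inv (hs (v + hgt π s⁻¹))
        have h2 : v + hgt π s⁻¹ + hgt π s = v := by rw [hgt_inv]; abel
        rw [h2] at h1
        have h3 : (z x (v + hgt π s⁻¹) * s * (z x v)⁻¹)⁻¹
            = z x v * s⁻¹ * (z x (v + hgt π s⁻¹))⁻¹ := by group
        rw [h3] at h1
        refine h1.mono ?_
        have h4 : n1 (v + hgt π s⁻¹) ≤ n1 v + n1 (hgt π s) := by
          refine (n1_add_le _ _).trans ?_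
          rw [hgt_inv, n1_neg]
        calc 2 * (Ks * (n1 (v + hgt π s⁻¹) + 1)) ≤ 2 * (Ks * (n1 v + n1 (hgt π s) + 1)) := by
              gcongr
          _ ≤ 2 * (Ks * ((n1 (hgt π s) + 1) * (n1 v + 1))) := by
              gcongr
              nlinarith
          _ = _ := by ring }
  have hAG : Subgroup.closure A ≤ Gd := by
    rw [Subgroup.closure_le]
    intro a ha
    obtain ⟨ρ, hρ⟩ : ∃ m, wordLength S a ≤ m := ⟨_, le_rfl⟩
    refine ⟨ρ + (2 * c + c'), fun v => ?_⟩
    have h0 : hgt π a = 0 := hgt_eq_zero.2 (hcl ▸ Subgroup.subset_closure ha)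
    rw [h0, add_zero]
    have h1 := conj_listPB hS h (ms x v).toList (by
      intro y hy
      obtain ⟨j, rfl | rfl⟩ := mem_ms (Multiset.mem_toList.1 hy)
      · exact (hY j).1
      · exact (hY j).2) (PB.single ha hρ)
    rw [Multiset.length_toList, card_ms] at h1
    exact h1.mono (by nlinarith)
  have hxG : ∀ i, x i ∈ Gd := by
    intro i
    refine ⟨4 * c + 3 * c', fun v => ?_⟩
    rw [hx]
    exact (q_genPB hS h hY v i).mono (by rw [mul_comm])
  have hzG : ∀ v, z x v ∈ Gd := by
    intro v
    refine Subgroup.list_prod_mem _ fun y hy => ?_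
    obtain ⟨j, rfl | rfl⟩ := mem_ms (Multiset.mem_toList.1 hy)
    · exact hxG j
    · exact Gd.inv_mem (hxG j)
  intro s
  have h1 : s * (z x (hgt π s))⁻¹ ∈ Gd := by
    refine hAG ?_
    rw [hcl, ← hgt_eq_zero, hgt_mul, hgt_inv, hgt_z hx, add_neg_cancel]
  have h2 : s ∈ Gd := by
    have := Gd.mul_mem h1 (hzG (hgt π s))
    rwa [inv_mul_cancel_right] at this
  exact h2

/-- the height is Lipschitz. -/
theorem exists_n1_le {S : Set G} (hSf : S.Finite) (hS : Subgroup.closure S = ⊤)
    (π : G →* Multiplicative (Fin k → ℤ)) :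
    ∃ c : ℕ, ∀ g : G, n1 (hgt π g) ≤ c * wordLength S g := by
  obtain ⟨c, hc⟩ := (hSf.image (fun s => n1 (hgt π s))).bddAbove
  refine ⟨c, fun g => ?_⟩
  obtain ⟨l, hl, hw, rfl⟩ := wordLength_spec hS g
  rw [← hl]
  clear hl
  induction l with
  | nil => simp [hgt_one, n1]
  | cons a l ih =>
    have h2 := ih (fun x hx => hw x (List.mem_cons_of_mem _ hx))
    have h3 : n1 (hgt π a) ≤ c := by
      have h4 : ∀ s ∈ S, n1 (hgt π s) ≤ c := fun s hs => hc ⟨s, hs, rfl⟩
      rcases hw a List.mem_cons_self with h6 | h6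
      · exact h4 a h6
      · have h7 := h4 _ h6
        rwa [hgt_inv, n1_neg] at h7
    rw [List.prod_cons, List.length_cons, hgt_mul]
    refine (n1_add_le _ _).trans ?_
    rw [mul_add, mul_one]
    omega

/-- paths to `y z(π y)⁻¹` -/
theorem exists_npath {S : Set G} (hSf : S.Finite) (hS : Subgroup.closure S = ⊤) (hA : Sym A)
    (hAf : A.Finite)
    (hcl : Subgroup.closure A = π.ker) {x : Fin k → G}
    (hx : ∀ i, hgt π (x i) = Pi.single i 1) :
    ∃ C : ℕ, ∀ y : G, PB S A (C * (wordLength S y + 1)) (y * (z x (hgt π y))⁻¹) := by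
  obtain ⟨ch, hch⟩ := exists_n1_le hSf hS π
  choose q hq using exists_q_PB hS hA hAf hcl hx
  obtain ⟨M, hM⟩ : ∃ M, ∀ s, (s ∈ S ∨ s⁻¹ ∈ S) → q s ≤ M := by
    have hf : {s : G | s ∈ S ∨ s⁻¹ ∈ S}.Finite := by
      refine (hSf.union hSf.inv).subset ?_
      rintro s (h | h)
      · exact Or.inl h
      · exact Or.inr h
    obtain ⟨M, hM⟩ := (hf.image q).bddAbove
    exact ⟨M, fun s hs => hM ⟨s, hs, rfl⟩⟩
  obtain ⟨cx, hcx⟩ : ∃ m, ∀ i, wordLength S (x i) ≤ m := by
    obtain ⟨m, hm⟩ := ((Set.finite_range x).image (wordLength S)).bddAbove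
    exact ⟨m, fun i => hm ⟨x i, ⟨i, rfl⟩, rfl⟩⟩
  have hz : ∀ v : Fin k → ℤ, wordLength S (z x v) ≤ n1 v * cx := by
    intro v
    unfold z
    have h1 := wordLength_list_prod_le hS (ms x v).toList cx (by
      intro w hw
      obtain ⟨j, rfl | rfl⟩ := mem_ms (Multiset.mem_toList.1 hw)
      · exact hcx j
      · rw [wordLength_inv hS]; exact hcx j)
    rwa [Multiset.length_toList, card_ms] at h1
  refine ⟨1 + ch * cx + M * (ch + 1), ?_⟩
  set C := 1 + ch * cx + M * (ch + 1) with hC
  have key : ∀ l : List G, IsWord S l → PB S A (C * (l.length + 1))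
      (l.prod * (z x (hgt π l.prod))⁻¹) ∧ n1 (hgt π l.prod) ≤ ch * l.length := by
    intro l
    induction l using List.reverseRecOn with
    | nil =>
      intro _
      refine ⟨?_, ?_⟩
      · have : ([] : List G).prod * (z x (hgt π ([] : List G).prod))⁻¹ = 1 := by
          simp [hgt_one, z_zero]
        rw [this]; exact PB.one
      · simp [hgt_one, n1]
    | append_singleton l s ih =>
      intro hw
      have hl : IsWord S l := fun y hy => hw y (List.mem_append_left _ hy)
      have hs : s ∈ S ∨ s⁻¹ ∈ S := hw s (by simp)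
      obtain ⟨h1, h2⟩ := ih hl
      have h3 : n1 (hgt π s) ≤ ch := by
        refine (hch s).trans ?_
        have := wordLength_letter hs
        nlinarith
      refine ⟨?_, ?_⟩
      · have h4 := (hq s (hgt π l.prod)).mono
          (Nat.mul_le_mul_right _ (hM s hs))
        have h5 : (l ++ [s]).prod * (z x (hgt π (l ++ [s]).prod))⁻¹
            = (l.prod * (z x (hgt π l.prod))⁻¹) *
              (z x (hgt π l.prod) * s * (z x (hgt π l.prod + hgt π s))⁻¹) := by
          rw [List.prod_append, List.prod_singleton, hgt_mul]; group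
        rw [h5, List.length_append, List.length_singleton]
        refine PB.mul hS h1 h4 (by nlinarith) ?_
        have h6 := wordLength_mul_le hS l.prod (z x (hgt π l.prod))⁻¹
        rw [wordLength_inv hS] at h6
        have h7 := wordLength_le hl
        have h8 := hz (hgt π l.prod)
        calc wordLength S (l.prod * (z x (hgt π l.prod))⁻¹) + M * (n1 (hgt π l.prod) + 1)
            ≤ (l.length + ch * l.length * cx) + M * (ch * l.length + 1) := by
              gcongr
              refine h6.trans (add_le_add h7 (h8.trans ?_))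
              exact Nat.mul_le_mul_right _ h2
          _ ≤ C * (l.length + 1 + 1) := by
              rw [hC]; nlinarith [Nat.zero_le (ch * cx), Nat.zero_le (M * ch)]
      · rw [List.prod_append, List.prod_singleton, hgt_mul, List.length_append,
          List.length_singleton, mul_add, mul_one]
        exact (n1_add_le _ _).trans (add_le_add h2 h3)
  intro y
  obtain ⟨l, hl, hw, rfl⟩ := wordLength_spec hS y
  rw [← hl]
  exact (key l hw).1

/-- paths in `G` which stay in a linear ball and do not go higher than the end point. -/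
theorem exists_gpath {S : Set G} (hSf : S.Finite) (hS : Subgroup.closure S = ⊤) (hA : Sym A)
    (hAf : A.Finite) (hcl : Subgroup.closure A = π.ker) {x : Fin k → G}
    (hx : ∀ i, hgt π (x i) = Pi.single i 1) :
    ∃ (C ρ : ℕ), ∀ y : G, Relation.ReflTransGen (fun u v => wordLength S (u⁻¹ * v) ≤ ρ ∧
      wordLength S v ≤ C * (wordLength S y + 1) ∧ n1 (hgt π v) ≤ n1 (hgt π y)) 1 y := by
  obtain ⟨C, hC⟩ := exists_npath hSf hS hA hAf hcl hx
  obtain ⟨ch, hch⟩ := exists_n1_le hSf hS π
  obtain ⟨ρ, hρ⟩ : ∃ m, ∀ a ∈ A, wordLength S a ≤ m := by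
    obtain ⟨m, hm⟩ := (hAf.image (wordLength S)).bddAbove
    exact ⟨m, fun t ht => hm ⟨t, ht, rfl⟩⟩
  obtain ⟨cx, hcx⟩ : ∃ m, ∀ i, wordLength S (x i) ≤ m := by
    obtain ⟨m, hm⟩ := ((Set.finite_range x).image (wordLength S)).bddAbove
    exact ⟨m, fun i => hm ⟨x i, ⟨i, rfl⟩, rfl⟩⟩
  refine ⟨C + ch * cx, ρ + cx, fun y => ?_⟩
  set w := y * (z x (hgt π y))⁻¹ with hw
  have h1 : Relation.ReflTransGen (fun u v => wordLength S (u⁻¹ * v) ≤ ρ + cx ∧
      wordLength S v ≤ (C + ch * cx) * (wordLength S y + 1) ∧ n1 (hgt π v) ≤ n1 (hgt π y)) 1 w ∧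
      hgt π w = 0 ∧ wordLength S w ≤ C * (wordLength S y + 1) := by
    refine ⟨?_, ?_, (hC y).len⟩
    · have h2 := hC y
      have h3 : ∀ w', PB S A (C * (wordLength S y + 1)) w' →
        Relation.ReflTransGen (fun u v => wordLength S (u⁻¹ * v) ≤ ρ + cx ∧
        wordLength S v ≤ (C + ch * cx) * (wordLength S y + 1) ∧ n1 (hgt π v) ≤ n1 (hgt π y)) 1 w' ∧
        hgt π w' = 0 := by
        intro w' h'
        induction h' with
        | refl => exact ⟨Relation.ReflTransGen.refl, hgt_one π⟩
        | @tail b d hab hbd ih =>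
          have h0 : hgt π d = 0 := by
            have h4 : hgt π (b⁻¹ * d) = 0 :=
              hgt_eq_zero.2 (hcl ▸ Subgroup.subset_closure hbd.1)
            rw [hgt_mul, hgt_inv, ih.2, neg_zero, zero_add] at h4
            exact h4
          refine ⟨ih.1.tail ⟨(hρ _ hbd.1).trans (by omega), hbd.2.trans
            (Nat.mul_le_mul_right _ (by omega)), ?_⟩, h0⟩
          rw [h0]; simp [n1]
      exact (h3 w h2).1
    · rw [hw, hgt_mul, hgt_inv, hgt_z hx, add_neg_cancel]
  obtain ⟨h1, h0, hlw⟩ := h1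
  have h4 : ∀ l : List G, (∀ s ∈ l, s ∈ ms x (hgt π y)) → l.length ≤ n1 (hgt π y) →
      Relation.ReflTransGen (fun u v => wordLength S (u⁻¹ * v) ≤ ρ + cx ∧
        wordLength S v ≤ (C + ch * cx) * (wordLength S y + 1) ∧ n1 (hgt π v) ≤ n1 (hgt π y)) 1
        (w * l.prod) ∧ n1 (hgt π (w * l.prod)) ≤ l.length ∧
        wordLength S (w * l.prod) ≤ C * (wordLength S y + 1) + l.length * cx := by
    intro l
    induction l using List.reverseRecOn with
    | nil => intro _ _; simpa [h0, n1] using ⟨h1, hlw⟩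
    | append_singleton l s ih =>
      intro hl hlen
      rw [List.length_append, List.length_singleton] at hlen
      obtain ⟨i1, i2, i3⟩ := ih (fun t ht => hl t (List.mem_append_left _ ht)) (by omega)
      have hs := mem_ms (hl s (by simp))
      have hs1 : wordLength S s ≤ cx := by
        obtain ⟨j, rfl | rfl⟩ := hs
        · exact hcx j
        · rw [wordLength_inv hS]; exact hcx j
      have hs2 : n1 (hgt π s) ≤ 1 := by
        have h5 : ∀ j, n1 (Pi.single j 1 : Fin k → ℤ) ≤ 1 := by
          intro j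
          unfold n1
          rw [Finset.sum_eq_single j]
          · simp
          · intro b _ hb; simp [hb]
          · simp
        obtain ⟨j, rfl | rfl⟩ := hs
        · rw [hx]; exact h5 j
        · rw [hgt_inv, n1_neg, hx]; exact h5 j
      have e1 : w * (l ++ [s]).prod = (w * l.prod) * s := by
        rw [List.prod_append, List.prod_singleton]; group
      have e2 : n1 (hgt π ((w * l.prod) * s)) ≤ l.length + 1 := by
        rw [hgt_mul]
        exact (n1_add_le _ _).trans (add_le_add i2 hs2)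
      have e3 : wordLength S ((w * l.prod) * s) ≤
          C * (wordLength S y + 1) + (l.length + 1) * cx := by
        have := wordLength_mul_le hS (w * l.prod) s
        nlinarith
      rw [e1, List.length_append, List.length_singleton]
      refine ⟨i1.tail ⟨?_, ?_, e2.trans hlen⟩, e2, e3⟩
      · have : (w * l.prod)⁻¹ * (w * l.prod * s) = s := by group
        rw [this]; omega
      · refine e3.trans ?_
        have h6 := hch y
        have h7 : (l.length + 1) * cx ≤ ch * wordLength S y * cx :=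
          Nat.mul_le_mul_right _ (hlen.trans h6)
        calc C * (wordLength S y + 1) + (l.length + 1) * cx
            ≤ C * (wordLength S y + 1) + ch * wordLength S y * cx := by omega
          _ ≤ (C + ch * cx) * (wordLength S y + 1) := by nlinarith [Nat.zero_le (ch * cx)]
  have h5 := (h4 (ms x (hgt π y)).toList (fun s hs => Multiset.mem_toList.1 hs)
    (by rw [Multiset.length_toList, card_ms])).1
  have h6 : w * (ms x (hgt π y)).toList.prod = y := by
    have : (ms x (hgt π y)).toList.prod = z x (hgt π y) := rfl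
    rw [this, hw]; group
  rwa [h6] at h5

end Q

end Crest.Agent.R182.Wk
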