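/-
R182, module WKCONN (helper860): slab connectivity from the sublinear two-point law.
-/
import Mathlib
import Crest.Agent.R182.WkPath
import Crest.Agent.R182.FinRed

set_option autoImplicit false

namespace Crest.Agent.R182.Wk

open Crest.GroupTheory Crest.Agent.R182.QI Crest.Agent.R182.FinAlg Crest.Agent.R182.FinPath
  Crest.Agent.R182.FinRed
open scoped Pointwise

variable {G : Type*} [Group G] {k : ℕ} {π : G →* Multiplicative (Fin k → ℤ)} {A : Set G}
  {H : Type*} [Group H] {T : Finset H} {S : Finset G} {F : H → G} {K : ℕ}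

theorem hgtR_mul (g h : G) (i : Fin k) : hgtR π (g * h) i = hgtR π g i + hgtR π h i := by
  simp [hgtR, hgt_mul]

theorem hgtR_inv (g : G) (i : Fin k) : hgtR π g⁻¹ i = - hgtR π g i := by
  simp [hgtR, hgt_inv]

theorem hgtR_one (i : Fin k) : hgtR π (1 : G) i = 0 := by
  simp [hgtR, hgt_one]

theorem abs_hgtR_le (g : G) (i : Fin k) : |hgtR π g i| ≤ n1 (hgt π g) := by
  have h5 : (hgt π g i).natAbs ≤ n1 (hgt π g) := by
    unfold n1
    exact Finset.single_le_sum (f := fun i => (hgt π g i).natAbs)
      (fun _ _ => Nat.zero_le _) (Finset.mem_univ i)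
  rw [hgtR, ← Int.cast_abs, ← Nat.cast_natAbs]
  exact_mod_cast h5

theorem n1_le_real {v : Fin k → ℤ} {r : ℝ} (h : ∀ i, |((v i : ℤ) : ℝ)| ≤ r) :
    (n1 v : ℝ) ≤ k * r := by
  unfold n1
  rw [Nat.cast_sum]
  calc ∑ i, (((v i).natAbs : ℕ) : ℝ) ≤ ∑ _i : Fin k, r := Finset.sum_le_sum fun i _ => by
        rw [Nat.cast_natAbs, Int.cast_abs]; exact h i
    _ = k * r := by simp

/-- the sublinear two-point law -/
def SubLaw (T : Set H) (π : G →* Multiplicative (Fin k → ℤ)) (F : H → G)
    (θ : H →* Multiplicative (Fin k → ℝ)) : Prop :=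
  ∀ ε : ℝ, 0 < ε → ∃ C : ℝ, ∀ (g y : H) (i : Fin k),
    |hgtR π (F (g * y)) i - hgtR π (F g) i - ht θ y i| ≤ ε * wordLength T y + C

/-- the section is Lipschitz. -/
theorem exists_z_le (hS : Subgroup.closure (S : Set G) = ⊤) (x : Fin k → G) :
    ∃ c : ℕ, ∀ v : Fin k → ℤ, wordLength (S : Set G) (z x v) ≤ c * n1 v := by
  obtain ⟨cx, hcx⟩ : ∃ m, ∀ i, wordLength (S : Set G) (x i) ≤ m := by
    obtain ⟨m, hm⟩ := ((Set.finite_range x).image (wordLength (S : Set G))).bddAbove
    exact ⟨m, fun i => hm ⟨x i, ⟨i, rfl⟩, rfl⟩⟩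
  refine ⟨cx, fun v => ?_⟩
  unfold z
  have h1 := wordLength_list_prod_le hS (ms x v).toList cx (by
    intro w hw
    obtain ⟨j, rfl | rfl⟩ := mem_ms (Multiset.mem_toList.1 hw)
    · exact hcx j
    · rw [wordLength_inv hS]; exact hcx j)
  rwa [Multiset.length_toList, card_ms, mul_comm] at h1

/-- one correction step -/
theorem exists_step (_hT : Subgroup.closure (T : Set H) = ⊤)
    (hS : Subgroup.closure (S : Set G) = ⊤) (hF : QIMap (T : Set H) (S : Set G) F K)
    {x : Fin k → G} (hx : ∀ i, hgt π (x i) = Pi.single i 1)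
    {θ : H →* Multiplicative (Fin k → ℝ)} (hsub : SubLaw (T : Set H) π F θ) :
    ∃ C6 C7 : ℝ, 0 ≤ C6 ∧ 1 ≤ C7 ∧ ∀ q : H, ∃ t : H,
      (wordLength (T : Set H) t : ℝ) ≤ C6 * (‖ht θ q‖ + 1) ∧
      ‖ht θ (q * t)‖ ≤ ‖ht θ q‖ / 4 + C7 := by
  obtain ⟨cz, hcz⟩ := exists_z_le hS x
  obtain ⟨ch, hch⟩ := exists_n1_le S.finite_toSet hS π
  set C6 : ℝ := K * (cz * k + K) + K with hC6
  have hC60 : 0 ≤ C6 := by positivity
  obtain ⟨C, hC⟩ := hsub (1 / (4 * (C6 + 1))) (by positivity)
  set C7 : ℝ := 1 + 1 + ch * K + |C| with hC7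
  refine ⟨C6, C7, hC60, by
    rw [hC7]
    have : 0 ≤ (ch : ℝ) * K + |C| := by positivity
    linarith, fun q => ?_⟩
  set w : Fin k → ℤ := fun i => ⌊- ht θ q i⌋ with hw
  have hw1 : ∀ i, |((w i : ℤ) : ℝ) + ht θ q i| ≤ 1 := by
    intro i
    have h1 := Int.floor_le (- ht θ q i)
    have h2 := Int.lt_floor_add_one (- ht θ q i)
    rw [abs_le]
    simp only [hw]
    constructor <;> linarith
  have hq : ∀ i, |ht θ q i| ≤ ‖ht θ q‖ := fun i => by
    rw [← Real.norm_eq_abs]; exact norm_le_pi_norm _ i
  have hwn : (n1 w : ℝ) ≤ k * (‖ht θ q‖ + 1) := by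
    refine n1_le_real fun i => ?_
    have h1 := hw1 i
    have h2 := hq i
    rw [abs_le] at h1 h2 ⊢
    constructor <;> linarith [h1.1, h1.2, h2.1, h2.2]
  obtain ⟨t, ht'⟩ := hF.dense (F 1 * z x w)
  have htl : (wordLength (T : Set H) t : ℝ) ≤ C6 * (‖ht θ q‖ + 1) := by
    have h1 := hF.lo 1 t
    rw [nd_one_left] at h1
    have h2 := nd_triangle hS (F 1) (F 1 * z x w) (F t)
    rw [nd_mul_right] at h2
    have h3 : wordLength (T : Set H) t ≤ K * (cz * n1 w + K) + K := by
      refine h1.trans ?_
      gcongr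
      exact h2.trans (add_le_add (hcz w) ht')
    have h4 : (wordLength (T : Set H) t : ℝ) ≤ K * (cz * n1 w + K) + K := by exact_mod_cast h3
    have hn : 0 ≤ ‖ht θ q‖ := norm_nonneg _
    calc (wordLength (T : Set H) t : ℝ) ≤ K * (cz * n1 w + K) + K := h4
      _ ≤ K * (cz * (k * (‖ht θ q‖ + 1)) + K * (‖ht θ q‖ + 1)) + K * (‖ht θ q‖ + 1) := by
          have hK : (K : ℝ) ≤ K * (‖ht θ q‖ + 1) := by
            nlinarith [(Nat.cast_nonneg K : (0 : ℝ) ≤ K)]
          gcongr
      _ = C6 * (‖ht θ q‖ + 1) := by rw [hC6]; ring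
  refine ⟨t, htl, ?_⟩
  refine (pi_norm_le_iff_of_nonneg (by positivity)).2 fun i => ?_
  rw [Real.norm_eq_abs, ht_mul, Pi.add_apply]
  have h1 := hC 1 t i
  rw [one_mul] at h1
  have h2 : |hgtR π (F t) i - hgtR π (F 1) i - w i| ≤ ch * K := by
    have h3 : n1 (hgt π ((F 1 * z x w)⁻¹ * F t)) ≤ ch * K :=
      (hch _).trans (Nat.mul_le_mul_left _ ht')
    have h4 := abs_hgtR_le (π := π) ((F 1 * z x w)⁻¹ * F t) i
    rw [hgtR_mul, hgtR_inv, hgtR_mul] at h4
    have h5 : hgtR π (z x w) i = w i := by rw [hgtR, hgt_z hx]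
    rw [h5] at h4
    have h6 : hgtR π (F t) i - hgtR π (F 1) i - w i = -(hgtR π (F 1) i + w i) + hgtR π (F t) i := by
      ring
    rw [h6]
    refine h4.trans ?_
    exact_mod_cast h3
  have h3 : (1 / (4 * (C6 + 1))) * (wordLength (T : Set H) t : ℝ) ≤ (‖ht θ q‖ + 1) / 4 := by
    have h4 : (wordLength (T : Set H) t : ℝ) ≤ (C6 + 1) * (‖ht θ q‖ + 1) := by
      refine htl.trans ?_
      gcongr
      linarith
    calc (1 / (4 * (C6 + 1))) * (wordLength (T : Set H) t : ℝ)
        ≤ (1 / (4 * (C6 + 1))) * ((C6 + 1) * (‖ht θ q‖ + 1)) := by gcongr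
      _ = _ := by field_simp
  have h4 := hw1 i
  have h5 := le_abs_self C
  have h6 : 0 ≤ (ch : ℝ) * K := by positivity
  rw [hC7]
  rw [abs_le] at h1 h2 h4 ⊢
  constructor <;> linarith [h1.1, h1.2, h2.1, h2.2, h4.1, h4.2]

/-- correction into a fixed slab -/
theorem exists_corr (hT : Subgroup.closure (T : Set H) = ⊤)
    (hS : Subgroup.closure (S : Set G) = ⊤) (hF : QIMap (T : Set H) (S : Set G) F K)
    {x : Fin k → G} (hx : ∀ i, hgt π (x i) = Pi.single i 1)
    {θ : H →* Multiplicative (Fin k → ℝ)} (hsub : SubLaw (T : Set H) π F θ) :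
    ∃ C8 R1 : ℝ, 0 ≤ C8 ∧ 0 ≤ R1 ∧ ∀ q : H, ∃ t : H,
      (wordLength (T : Set H) t : ℝ) ≤ C8 * (‖ht θ q‖ + 1) ∧ ‖ht θ (q * t)‖ ≤ R1 := by
  obtain ⟨C6, C7, hC6, hC7, h⟩ := exists_step hT hS hF hx hsub
  have key : ∀ N : ℕ, ∀ q : H, ‖ht θ q‖ ≤ N → ∃ t : H,
      (wordLength (T : Set H) t : ℝ) ≤ 4 * C6 * (‖ht θ q‖ + 1) ∧ ‖ht θ (q * t)‖ ≤ 4 * C7 := by
    intro N
    induction N using Nat.strong_induction_on with
    | _ N ih =>
      intro q hq
      rcases le_or_gt ‖ht θ q‖ (4 * C7) with h1 | h1
      · refine ⟨1, ?_, by rwa [mul_one]⟩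
        rw [wordLength_one]
        push_cast
        positivity
      · obtain ⟨t, ht1, ht2⟩ := h q
        have h2 : ‖ht θ (q * t)‖ ≤ ‖ht θ q‖ / 2 := by linarith
        have hN : 4 < (N : ℝ) := by linarith
        have h3 : ‖ht θ (q * t)‖ ≤ ((N - 1 : ℕ) : ℝ) := by
          have h4 : 1 ≤ N := by
            by_contra h0
            have : N = 0 := by omega
            rw [this] at hN
            norm_num at hN
          rw [Nat.cast_sub h4]
          push_cast
          linarith
        have h5 : N - 1 < N := by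
          have : N ≠ 0 := by rintro rfl; norm_num at hN
          omega
        obtain ⟨t', ht3, ht4⟩ := ih (N - 1) h5 (q * t) h3
        refine ⟨t * t', ?_, by rwa [← mul_assoc]⟩
        have h6 : (wordLength (T : Set H) (t * t') : ℝ) ≤
            wordLength (T : Set H) t + wordLength (T : Set H) t' := by
          exact_mod_cast wordLength_mul_le hT t t'
        have h7 : 4 * C6 * (‖ht θ (q * t)‖ + 1) ≤ 4 * C6 * (‖ht θ q‖ / 2 + 1) := by gcongr
        nlinarith
  refine ⟨4 * C6, 4 * C7, by positivity, by linarith, fun q => ?_⟩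
  exact key ⌈‖ht θ q‖⌉₊ q (Nat.le_ceil _)

theorem slabConn_of_sub (hT : Subgroup.closure (T : Set H) = ⊤)
    (hS : Subgroup.closure (S : Set G) = ⊤) (hF : QIMap (T : Set H) (S : Set G) F K)
    (hA : Sym A) (hAf : A.Finite) (hcl : Subgroup.closure A = π.ker)
    {x : Fin k → G} (hx : ∀ i, hgt π (x i) = Pi.single i 1)
    {θ : H →* Multiplicative (Fin k → ℝ)} (hsub : SubLaw (T : Set H) π F θ) : SlabConn θ := by
  classical
  obtain ⟨C8, R1, hC8, hR1, hcorr⟩ := exists_corr hT hS hF hx hsub
  obtain ⟨C5, ρ, hpath⟩ := exists_gpath S.finite_toSet hS hA hAf hcl hx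
  obtain ⟨ch, hch⟩ := exists_n1_le S.finite_toSet hS π
  choose r hr using hF.dense
  choose t ht1 ht2 using hcorr
  -- constants
  set a1 : ℝ := k + K * (C5 * K) + 1 with ha1
  have ha10 : 0 < a1 := by positivity
  set ε : ℝ := 1 / (16 * (C8 + 1) * a1) with hε
  have hε0 : 0 < ε := by positivity
  obtain ⟨C, hC⟩ := hsub ε hε0
  -- every relevant point has height at most `a0 + ε a1 n`
  set a0 : ℝ := R1 + k * (2 * R1 + |C|) + ch * K +
    ε * (K * (C5 * (K + 1) + K) + K) + |C| with ha0
  have ha00 : 0 ≤ a0 := by positivity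
  set b0 : ℝ := 2 * C8 * (a0 + 1) + (K * (K + ρ + K) + K) with hb0
  have hb00 : 0 ≤ b0 := by positivity
  obtain ⟨n0, hn0⟩ := exists_nat_gt (4 * b0 + 4)
  -- the chains
  set Cn : H → H → Prop := fun u v => Relation.ReflTransGen
    (fun a b => wordLength (T : Set H) (a⁻¹ * b) ≤ n0 ∧ ‖ht θ b‖ ≤ R1) u v with hCn
  have key : ∀ n : ℕ, ∀ g y : H, ‖ht θ g‖ ≤ R1 → ‖ht θ (g * y)‖ ≤ R1 →
      wordLength (T : Set H) y ≤ n → Cn g (g * y) := by
    intro n
    induction n using Nat.strong_induction_on with
    | _ n ih =>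
      intro g y hg hgy hy
      rcases le_or_gt n n0 with hn | hn
      · refine Relation.ReflTransGen.single ⟨?_, hgy⟩
        have : g⁻¹ * (g * y) = y := by group
        rw [this]; exact hy.trans hn
      -- the inductive step
      have hn' : 4 * b0 + 4 < (n : ℝ) := hn0.trans (by exact_mod_cast hn)
      have hn1 : (1 : ℝ) ≤ n := by linarith
      have hyR : (wordLength (T : Set H) y : ℝ) ≤ n := by exact_mod_cast hy
      -- small steps are fine
      have hsmall : ∀ u v : H, ‖ht θ u‖ ≤ R1 → ‖ht θ v‖ ≤ R1 →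
          (wordLength (T : Set H) (u⁻¹ * v) : ℝ) ≤ b0 + 4 * C8 * (ε * a1 * n) → Cn u v := by
        intro u v hu hv huv
        have h1 : 4 * C8 * (ε * a1 * n) ≤ n / 4 := by
          have h2 : ε * a1 = 1 / (16 * (C8 + 1)) := by
            rw [hε]; field_simp
          rw [h2]
          have h3 : C8 / (C8 + 1) ≤ 1 := by
            rw [div_le_one (by positivity)]; linarith
          calc 4 * C8 * (1 / (16 * (C8 + 1)) * n) = (C8 / (C8 + 1)) * (n / 4) := by
                field_simp; ring
            _ ≤ 1 * (n / 4) := by gcongr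
            _ = n / 4 := one_mul _
        have h4 : (wordLength (T : Set H) (u⁻¹ * v) : ℝ) ≤ ((n - 1 : ℕ) : ℝ) := by
          have h5 : 1 ≤ n := by omega
          rw [Nat.cast_sub h5]
          push_cast
          linarith
        have h5 := ih (n - 1) (by omega) u (u⁻¹ * v) hu (by
          have : u * (u⁻¹ * v) = v := by group
          rw [this]; exact hv) (by exact_mod_cast h4)
        have h6 : u * (u⁻¹ * v) = v := by group
        rwa [h6] at h5
      -- the path in `G`
      set y' : G := (F g)⁻¹ * F (g * y) with hy'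
      have hy'l : wordLength (S : Set G) y' ≤ K * n + K := by
        have h1 := hF.displacement g y
        refine le_trans h1 ?_
        gcongr
      set e : ℝ := 2 * R1 + ε * n + |C| with he
      have hy'h : (n1 (hgt π y') : ℝ) ≤ k * e := by
        refine n1_le_real fun i => ?_
        have h1 := hC g y i
        have h2 : ((hgt π y' i : ℤ) : ℝ) = hgtR π (F (g * y)) i - hgtR π (F g) i := by
          show hgtR π y' i = _
          rw [hy', hgtR_mul, hgtR_inv]; ring
        have h3 : |ht θ y i| ≤ 2 * R1 := by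
          have h4 : ht θ y = ht θ (g * y) - ht θ g := by rw [ht_mul]; abel
          have h5 : ‖ht θ y‖ ≤ 2 * R1 := by
            rw [h4]
            exact (norm_sub_le _ _).trans (by linarith)
          rw [← Real.norm_eq_abs]
          exact (norm_le_pi_norm _ i).trans h5
        have h5 := le_abs_self C
        have h6 : ε * (wordLength (T : Set H) y : ℝ) ≤ ε * n := by gcongr
        rw [h2, he]
        rw [abs_le] at h1 h3 ⊢
        constructor <;> linarith [h1.1, h1.2, h3.1, h3.2]
      have hp := hpath y'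
      -- corrected points
      set cp : G → H := fun q => r (F g * q) * t (r (F g * q)) with hcp
      have hbound : ∀ q : G, wordLength (S : Set G) q ≤ C5 * (wordLength (S : Set G) y' + 1) →
          n1 (hgt π q) ≤ n1 (hgt π y') → ‖ht θ (r (F g * q))‖ ≤ a0 + ε * a1 * n := by
        intro q hq1 hq2
        refine (pi_norm_le_iff_of_nonneg (by positivity)).2 fun i => ?_
        rw [Real.norm_eq_abs]
        set h := r (F g * q) with hh
        have h1 := hC g (g⁻¹ * h) i
        rw [mul_inv_cancel_left] at h1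
        have h2 : |hgtR π (F h) i - hgtR π (F g) i| ≤ k * e + ch * K := by
          have h3 : (n1 (hgt π ((F g * q)⁻¹ * F h)) : ℝ) ≤ ch * K := by
            exact_mod_cast (hch _).trans (Nat.mul_le_mul_left _ (hr (F g * q)))
          have h4 := (abs_hgtR_le (π := π) ((F g * q)⁻¹ * F h) i).trans h3
          have h5 := abs_hgtR_le (π := π) q i
          have h6 : (n1 (hgt π q) : ℝ) ≤ k * e := by
            refine le_trans ?_ hy'h
            exact_mod_cast hq2
          rw [hgtR_mul, hgtR_inv, hgtR_mul] at h4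
          rw [abs_le] at h4 h5 ⊢
          constructor <;> linarith [h4.1, h4.2, h5.1, h5.2]
        have h3 : (wordLength (T : Set H) (g⁻¹ * h) : ℝ) ≤
            K * (C5 * (K * n + K + 1) + K) + K := by
          have h4 := hF.lo g h
          have h5 := nd_triangle hS (F g) (F g * q) (F h)
          rw [nd_mul_right] at h5
          have h6 : wordLength (T : Set H) (g⁻¹ * h) ≤ K * (C5 * (K * n + K + 1) + K) + K := by
            refine le_trans h4 ?_
            gcongr
            refine h5.trans (add_le_add (hq1.trans ?_) (hr (F g * q)))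
            gcongr
          exact_mod_cast h6
        have h4 : |ht θ h i| ≤ |ht θ g i| + |ht θ (g⁻¹ * h) i| := by
          have h5 : ht θ h i = ht θ g i + ht θ (g⁻¹ * h) i := by
            rw [ht_mul, ht_inv, Pi.add_apply, Pi.neg_apply]; ring
          rw [h5]; exact abs_add_le _ _
        have h5 : |ht θ g i| ≤ R1 := by
          rw [← Real.norm_eq_abs]
          exact (norm_le_pi_norm _ i).trans hg
        have h6 : ε * (wordLength (T : Set H) (g⁻¹ * h) : ℝ) ≤
            ε * (K * (C5 * (K * n + K + 1) + K) + K) := by gcongr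
        have h7 : |ht θ (g⁻¹ * h) i| ≤ k * e + ch * K +
            ε * (K * (C5 * (K * n + K + 1) + K) + K) + |C| := by
          have h8 := le_abs_self C
          rw [abs_le] at h1 h2 ⊢
          constructor <;> linarith [h1.1, h1.2, h2.1, h2.2]
        refine h4.trans ((add_le_add h5 h7).trans ?_)
        have h9 : 0 ≤ ε * n := by positivity
        have h10 : a0 + ε * a1 * n = R1 + (k * e + ch * K +
            ε * (K * (C5 * (K * n + K + 1) + K) + K) + |C|) + ε * n := by
          rw [ha0, ha1, he]; ring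
        linarith
      have hcpR : ∀ q : G, ‖ht θ (cp q)‖ ≤ R1 := fun q => ht2 _
      have htl : ∀ q : G, wordLength (S : Set G) q ≤ C5 * (wordLength (S : Set G) y' + 1) →
          n1 (hgt π q) ≤ n1 (hgt π y') →
          (wordLength (T : Set H) (t (r (F g * q))) : ℝ) ≤ C8 * (a0 + 1) + C8 * (ε * a1 * n) := by
        intro q hq1 hq2
        refine (ht1 _).trans ?_
        have := hbound q hq1 hq2
        calc C8 * (‖ht θ (r (F g * q))‖ + 1) ≤ C8 * (a0 + ε * a1 * n + 1) := by gcongr
          _ = _ := by ring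
      have hone : wordLength (S : Set G) (1 : G) ≤ C5 * (wordLength (S : Set G) y' + 1) ∧
          n1 (hgt π (1 : G)) ≤ n1 (hgt π y') := by
        rw [wordLength_one, hgt_one]; simp [n1]
      have hchain : ∀ q : G, Relation.ReflTransGen (fun u v => wordLength (S : Set G) (u⁻¹ * v) ≤ ρ ∧
          wordLength (S : Set G) v ≤ C5 * (wordLength (S : Set G) y' + 1) ∧
          n1 (hgt π v) ≤ n1 (hgt π y')) 1 q → Cn (cp 1) (cp q) ∧
          (wordLength (S : Set G) q ≤ C5 * (wordLength (S : Set G) y' + 1) ∧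
          n1 (hgt π q) ≤ n1 (hgt π y')) := by
        intro q hq
        induction hq with
        | refl => exact ⟨Relation.ReflTransGen.refl, hone⟩
        | @tail b d _ hbd ih =>
          obtain ⟨i1, i2, i3⟩ := ih
          refine ⟨i1.trans (hsmall _ _ (hcpR b) (hcpR d) ?_), hbd.2⟩
          have e1 := htl b i2 i3
          have e2 := htl d hbd.2.1 hbd.2.2
          have e3 : wordLength (T : Set H) ((r (F g * b))⁻¹ * r (F g * d)) ≤
              K * (K + ρ + K) + K := by
            refine le_trans (hF.lo _ _) ?_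
            gcongr
            have f1 := nd_triangle hS (F (r (F g * b))) (F g * b) (F (r (F g * d)))
            have f2 := nd_triangle hS (F g * b) (F g * d) (F (r (F g * d)))
            have f3 := hr (F g * b)
            have f4 := hr (F g * d)
            rw [nd_comm hS (F (r (F g * b))) (F g * b)] at f1
            have f5 : nd (S : Set G) (F g * b) (F g * d) ≤ ρ := by
              rw [nd_mul_left]; exact hbd.1
            omega
          have e4 : (cp b)⁻¹ * cp d = (t (r (F g * b)))⁻¹ * (((r (F g * b))⁻¹ * r (F g * d)) *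
              t (r (F g * d))) := by simp only [hcp]; group
          have e5 : wordLength (T : Set H) ((cp b)⁻¹ * cp d) ≤
              wordLength (T : Set H) (t (r (F g * b))) + ((K * (K + ρ + K) + K) +
              wordLength (T : Set H) (t (r (F g * d)))) := by
            rw [e4]
            refine (wordLength_mul_le hT _ _).trans ?_
            rw [wordLength_inv hT]
            have := wordLength_mul_le hT ((r (F g * b))⁻¹ * r (F g * d)) (t (r (F g * d)))
            omega
          have e6 : (wordLength (T : Set H) ((cp b)⁻¹ * cp d) : ℝ) ≤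
              wordLength (T : Set H) (t (r (F g * b))) + ((K * (K + ρ + K) + K) +
              wordLength (T : Set H) (t (r (F g * d)))) := by exact_mod_cast e5
          have e7 : 0 ≤ C8 * (ε * a1 * n) := by positivity
          rw [hb0]
          linarith
      obtain ⟨hmid, hy1, hy2⟩ := hchain y' hp
      have hKK : (K * K + K : ℝ) ≤ K * (K + ρ + K) + K := by
        have : (0 : ℝ) ≤ K := Nat.cast_nonneg K
        have h2 : (0 : ℝ) ≤ ρ := Nat.cast_nonneg ρ
        nlinarith [mul_nonneg this h2, mul_nonneg this this]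
      -- start
      have hstart : Cn g (cp 1) := by
        refine hsmall _ _ hg (hcpR 1) ?_
        have e1 := htl 1 hone.1 hone.2
        have e2 : wordLength (T : Set H) (g⁻¹ * r (F g * 1)) ≤ K * K + K := by
          refine le_trans (hF.lo _ _) ?_
          gcongr
          have := hr (F g * 1)
          rwa [mul_one] at this ⊢
        have e3 : g⁻¹ * cp 1 = (g⁻¹ * r (F g * 1)) * t (r (F g * 1)) := by
          simp only [hcp]; group
        have e4 : (wordLength (T : Set H) (g⁻¹ * cp 1) : ℝ) ≤ (K * K + K) +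
            wordLength (T : Set H) (t (r (F g * 1))) := by
          rw [e3]
          exact_mod_cast (wordLength_mul_le hT _ _).trans (Nat.add_le_add_right e2 _)
        have e7 : 0 ≤ C8 * (ε * a1 * n) := by positivity
        have e8 : 0 ≤ C8 * (a0 + 1) := by positivity
        rw [hb0]
        linarith
      -- end
      have hend : Cn (cp y') (g * y) := by
        refine hsmall _ _ (hcpR y') hgy ?_
        have e1 := htl y' hy1 hy2
        have e0 : F g * y' = F (g * y) := by rw [hy']; group
        have e2 : wordLength (T : Set H) ((r (F g * y'))⁻¹ * (g * y)) ≤ K * K + K := by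
          refine le_trans (hF.lo _ _) ?_
          gcongr
          have := hr (F g * y')
          rw [nd_comm hS]
          rwa [e0] at this ⊢
        have e3 : (cp y')⁻¹ * (g * y) = (t (r (F g * y')))⁻¹ *
            ((r (F g * y'))⁻¹ * (g * y)) := by
          simp only [hcp]; group
        have e4 : (wordLength (T : Set H) ((cp y')⁻¹ * (g * y)) : ℝ) ≤
            wordLength (T : Set H) (t (r (F g * y'))) + (K * K + K) := by
          rw [e3]
          have := wordLength_mul_le hT (t (r (F g * y')))⁻¹ ((r (F g * y'))⁻¹ * (g * y))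
          rw [wordLength_inv hT] at this
          exact_mod_cast this.trans (Nat.add_le_add_left e2 _)
        have e7 : 0 ≤ C8 * (ε * a1 * n) := by positivity
        have e8 : 0 ≤ C8 * (a0 + 1) := by positivity
        rw [hb0]
        linarith
      exact (hstart.trans hmid).trans hend
  refine ⟨R1, {t | wordLength (T : Set H) t ≤ n0}, ball_finite hT n0, fun h hh => ?_⟩
  have h1 := key (wordLength (T : Set H) h) 1 h (by rw [ht_one, norm_zero]; exact hR1)
    (by rw [one_mul, ht_eq_zero.2 hh, norm_zero]; exact hR1) le_rfl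
  rw [one_mul] at h1
  have h2 : ∀ v : H, Cn 1 v → ∃ n, v ∈ Reach {t | wordLength (T : Set H) t ≤ n0} (slab θ R1) n := by
    intro v hv
    induction hv with
    | refl => exact ⟨0, rfl⟩
    | @tail b d _ hbd ih =>
      obtain ⟨n, hn⟩ := ih
      exact ⟨n + 1, hbd.2, b, hn, hbd.1⟩
  exact h2 h h1

end Crest.Agent.R182.Wk
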