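/-
R182, module WKGROWTH (helper860): slab growth from the weak height law
`|π F(y) - θ(y)| ≤ ε (|π F(y)| + log (N-length of F(y))) + C_ε log |y|`.
-/
import Mathlib
import Crest.Agent.R182.WkConn

set_option autoImplicit false

namespace Crest.Agent.R182.Wk

open Crest.GroupTheory Crest.Agent.R182.QI Crest.Agent.R182.FinAlg Crest.Agent.R182.FinPath
  Crest.Agent.R182.FinRed
open scoped Pointwise

variable {G : Type*} [Group G] {k : ℕ} {π : G →* Multiplicative (Fin k → ℤ)} {A : Set G}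
  {H : Type*} [Group H] {T : Finset H} {S : Finset G} {F : H → G} {K : ℕ}

/-- `exists_q_bound` for a prescribed section. -/
theorem exists_q_bound' (hA : Sym A) (hAf : A.Finite) (hcl : Subgroup.closure A = π.ker)
    {x : Fin k → G} (hx' : ∀ i, hgt π (x i) = Pi.single i 1) :
    ∃ (μ : ℕ), 1 ≤ μ ∧
      ∀ s : G, ∃ Ks : ℕ, ∀ v : Fin k → ℤ,
        z x v * s * (z x (v + hgt π s))⁻¹ ∈ A ^ (Ks * μ ^ n1 v) := by
  let Y : Set G := Set.range x ∪ Set.range (fun i => (x i)⁻¹)
  have hYf : Y.Finite := (Set.finite_range _).union (Set.finite_range _)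
  have hY : ∀ i, x i ∈ Y ∧ (x i)⁻¹ ∈ Y := fun i => ⟨Or.inl ⟨i, rfl⟩, Or.inr ⟨i, rfl⟩⟩
  obtain ⟨lam, c0, hlam, hconj, hcomm⟩ := exists_lam hA hAf hcl hYf
  refine ⟨4 * lam, by omega, ?_⟩
  set μ := 4 * lam with hμdef
  have hμ : 1 ≤ μ := by omega
  let Gd : Subgroup G :=
    { carrier := {s | ∃ Ks : ℕ, ∀ v : Fin k → ℤ,
        z x v * s * (z x (v + hgt π s))⁻¹ ∈ A ^ (Ks * μ ^ n1 v)}
      one_mem' := ⟨0, fun v => by simp [hgt_one]⟩
      mul_mem' := by
        rintro s t ⟨Ks, hs⟩ ⟨Kt, ht⟩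
        refine ⟨Ks + Kt * μ ^ n1 (hgt π s), fun v => ?_⟩
        have h1 := pow_mul_mem (hs v) (ht (v + hgt π s))
        have h2 : z x v * s * (z x (v + hgt π s))⁻¹ *
            (z x (v + hgt π s) * t * (z x (v + hgt π s + hgt π t))⁻¹)
            = z x v * (s * t) * (z x (v + hgt π (s * t)))⁻¹ := by
          rw [hgt_mul, ← add_assoc]; group
        rw [h2] at h1
        refine hA.mono ?_ h1
        have h3 : μ ^ n1 (v + hgt π s) ≤ μ ^ (n1 v + n1 (hgt π s)) :=
          Nat.pow_le_pow_right hμ (n1_add_le _ _)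
        calc Ks * μ ^ n1 v + Kt * μ ^ n1 (v + hgt π s)
            ≤ Ks * μ ^ n1 v + Kt * μ ^ (n1 v + n1 (hgt π s)) := by gcongr
          _ = (Ks + Kt * μ ^ n1 (hgt π s)) * μ ^ n1 v := by rw [pow_add]; ring
      inv_mem' := by
        rintro s ⟨Ks, hs⟩
        refine ⟨Ks * μ ^ n1 (hgt π s), fun v => ?_⟩
        have h1 := hA.inv_mem (hs (v + hgt π s⁻¹))
        have h2 : v + hgt π s⁻¹ + hgt π s = v := by rw [hgt_inv]; abel
        rw [h2] at h1
        have h3 : (z x (v + hgt π s⁻¹) * s * (z x v)⁻¹)⁻¹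
            = z x v * s⁻¹ * (z x (v + hgt π s⁻¹))⁻¹ := by group
        rw [h3] at h1
        refine hA.mono ?_ h1
        have h4 : n1 (v + hgt π s⁻¹) ≤ n1 v + n1 (hgt π s) := by
          refine (n1_add_le _ _).trans ?_
          rw [hgt_inv, n1_neg]
        calc Ks * μ ^ n1 (v + hgt π s⁻¹) ≤ Ks * μ ^ (n1 v + n1 (hgt π s)) := by
              gcongr
          _ = Ks * μ ^ n1 (hgt π s) * μ ^ n1 v := by rw [pow_add]; ring }
  have hAG : Subgroup.closure A ≤ Gd := by
    rw [Subgroup.closure_le]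
    intro a ha
    refine ⟨1, fun v => ?_⟩
    have h0 : hgt π a = 0 := hgt_eq_zero.2 (hcl ▸ Subgroup.subset_closure ha)
    rw [h0, add_zero]
    have h1 := conj_list hconj (ms x v).toList (by
      intro y hy
      obtain ⟨j, rfl | rfl⟩ := mem_ms (Multiset.mem_toList.1 hy)
      · exact (hY j).1
      · exact (hY j).2) 1 a (by simpa using ha)
    rw [Multiset.length_toList, card_ms] at h1
    refine hA.mono ?_ h1
    rw [mul_one, one_mul]
    exact Nat.pow_le_pow_left (by omega) _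
  have hxG : ∀ i, x i ∈ Gd := by
    intro i
    refine ⟨c0 * μ, fun v => ?_⟩
    rw [hx']
    refine hA.mono ?_ (q_gen hA hlam hconj hcomm hY v i)
    have h1 : n1 v + 1 ≤ 2 ^ (n1 v + 1) := Nat.lt_two_pow_self.le
    calc (n1 v + 1) ^ 2 * c0 * lam ^ (n1 v + 1)
        ≤ (2 ^ (n1 v + 1)) ^ 2 * c0 * lam ^ (n1 v + 1) := by gcongr
      _ = c0 * ((2 ^ 2) ^ (n1 v + 1) * lam ^ (n1 v + 1)) := by
          rw [← pow_mul, ← pow_mul, mul_comm (n1 v + 1) 2]; ring
      _ = c0 * μ ^ (n1 v + 1) := by rw [← mul_pow, hμdef]; norm_num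
      _ = c0 * μ * μ ^ n1 v := by ring
  have hzG : ∀ v, z x v ∈ Gd := by
    intro v
    refine Subgroup.list_prod_mem _ fun y hy => ?_
    obtain ⟨j, rfl | rfl⟩ := mem_ms (Multiset.mem_toList.1 hy)
    · exact hxG j
    · exact Gd.inv_mem (hxG j)
  intro s
  have h1 : s * (z x (hgt π s))⁻¹ ∈ Gd := by
    refine hAG ?_
    rw [hcl, ← hgt_eq_zero, hgt_mul, hgt_inv, hgt_z hx', add_neg_cancel]
  have h2 : s ∈ Gd := by
    have := Gd.mul_mem h1 (hzG (hgt π s))
    rwa [inv_mul_cancel_right] at this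
  exact h2

/-- the weak height law for `F : H → G` -/
def HLaw (T : Set H) (π : G →* Multiplicative (Fin k → ℤ)) (A : Set G) (x : Fin k → G)
    (F : H → G) (θ : H →* Multiplicative (Fin k → ℝ)) : Prop :=
  ∀ ε : ℝ, 0 < ε → ∃ C : ℝ, ∀ (y : H) (m : ℕ), F y * (z x (hgt π (F y)))⁻¹ ∈ A ^ m →
    ∀ i : Fin k, |hgtR π (F y) i - ht θ y i| ≤
      ε * (n1 (hgt π (F y)) + Real.log (2 + m)) + C * Real.log (2 + wordLength T y)

theorem reach_len (hT : Subgroup.closure (T : Set H) = ⊤) {T' V : Set H} {t : ℕ}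
    (ht : ∀ s ∈ T', wordLength (T : Set H) s ≤ t) (n : ℕ) :
    ∀ h ∈ Reach T' V n, wordLength (T : Set H) h ≤ n * t := by
  induction n with
  | zero => rintro h (rfl : h = 1); simp
  | succ n ih =>
    rintro h ⟨-, g, hg, hgT⟩
    have h1 := wordLength_mul_le hT g (g⁻¹ * h)
    rw [mul_inv_cancel_left] at h1
    have h2 := ih g hg
    have h3 := ht _ hgT
    calc _ ≤ _ := h1
      _ ≤ n * t + t := add_le_add h2 h3
      _ = (n + 1) * t := by ring

theorem exp_mul_log_le {a : ℝ} {b : ℕ} (hab : a ≤ b) {X : ℝ} (hX : 1 ≤ X) :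
    Real.exp (a * Real.log X) ≤ X ^ b := by
  have h0 : 0 ≤ Real.log X := Real.log_nonneg hX
  calc Real.exp (a * Real.log X) ≤ Real.exp (b * Real.log X) :=
        Real.exp_le_exp.2 (mul_le_mul_of_nonneg_right hab h0)
    _ = X ^ b := by rw [Real.exp_nat_mul, Real.exp_log (by linarith)]

theorem slabGrowth_of_law (hT : Subgroup.closure (T : Set H) = ⊤)
    (hS : Subgroup.closure (S : Set G) = ⊤)
    (hF : QIMap (T : Set H) (S : Set G) F K) (hA : Sym A)
    (hAf : A.Finite) (hcl : Subgroup.closure A = π.ker) {Cg d : ℕ}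
    (hgrow : ∀ m : ℕ, 1 ≤ m → (A ^ m).ncard ≤ Cg * m ^ d)
    {x : Fin k → G} (hx : ∀ i, hgt π (x i) = Pi.single i 1)
    {θ : H →* Multiplicative (Fin k → ℝ)} (hlaw : HLaw (T : Set H) π A x F θ) :
    SlabGrowth θ := by
  classical
  obtain ⟨μ, hμ, hq⟩ := exists_q_bound' hA hAf hcl hx
  have hμR : (1 : ℝ) ≤ μ := by exact_mod_cast hμ
  have hlogμ : 0 ≤ Real.log μ := Real.log_nonneg hμR
  set ε : ℝ := 1 / (4 * (k + 1) * (Real.log μ + 1)) with hε
  have hε0 : 0 < ε := by positivity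
  have hεk : k * ε ≤ 1 / 4 := by
    rw [hε, mul_one_div, div_le_div_iff₀ (by positivity) (by norm_num)]
    have hk : (0 : ℝ) ≤ k := Nat.cast_nonneg k
    nlinarith [mul_nonneg hk hlogμ]
  have hεμ : 2 * k * ε * Real.log μ ≤ 1 / 2 := by
    have h1 : 2 * k * ε * Real.log μ = 2 * (k * Real.log μ) / (4 * (k + 1) * (Real.log μ + 1)) := by
      rw [hε]; ring
    rw [h1, div_le_div_iff₀ (by positivity) (by norm_num)]
    have hk : (0 : ℝ) ≤ k := Nat.cast_nonneg k
    nlinarith [mul_nonneg hk hlogμ]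
  obtain ⟨C, hC⟩ := hlaw ε hε0
  set a : ℕ := ⌈2 * k * |C| * Real.log μ⌉₊ with ha
  set a2 : ℕ := ⌈4 * (k : ℝ) * k * |C|⌉₊ with ha2
  set c1 : ℝ := 2 * k * Real.log μ with hc1
  have hc10 : 0 ≤ c1 := by positivity
  refine ⟨2 * c1 * (d + k) + 4 * k * k, (2 * a + 2) * (d + k) + a2, by positivity, ?_⟩
  intro T' hT'
  obtain ⟨M, hM⟩ := exists_unif (steps_finite hS hF hT') hA hq
  obtain ⟨t, htT⟩ : ∃ m, ∀ t ∈ T', wordLength (T : Set H) t ≤ m := by
    obtain ⟨m, hm⟩ := (hT'.image (wordLength (T : Set H))).bddAbove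
    exact ⟨m, fun t ht => hm ⟨t, ht, rfl⟩⟩
  obtain ⟨m0, hm0⟩ : ∃ m0, F 1 * (z x (hgt π (F 1)))⁻¹ ∈ A ^ m0 := by
    refine hA.mem_closure.1 ?_
    rw [hcl, ← hgt_eq_zero, hgt_mul, hgt_inv, hgt_z hx, add_neg_cancel]
  set P : ℕ := (2 * T.card + 1) ^ K with hP
  set b0 : ℝ := Real.sqrt (2 + m0) with hb0
  have hb00 : 0 ≤ b0 := Real.sqrt_nonneg _
  set B : ℝ := 2 + (b0 + M * (2 + t) ^ a) ^ 2 with hB
  have hB0 : 0 ≤ B := by positivity
  refine ⟨P * Cg * B ^ (d + k) * (2 + t) ^ a2, ?_⟩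
  intro R n hR
  -- height bound
  have hhgt : ∀ (h : H) (m : ℕ), ‖ht θ h‖ ≤ R → F h * (z x (hgt π (F h)))⁻¹ ∈ A ^ m →
      wordLength (T : Set H) h ≤ n * t →
      (n1 (hgt π (F h)) : ℝ) ≤ 2 * k * R + 2 * k * ε * Real.log (2 + m) +
        2 * k * |C| * Real.log (2 + n * t) := by
    intro h m hh hm hl
    have h1 : ∀ i, |((hgt π (F h) i : ℤ) : ℝ)| ≤ R + (ε * (n1 (hgt π (F h)) + Real.log (2 + m)) +
        |C| * Real.log (2 + n * t)) := by
      intro i
      have h2 := hC h m hm i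
      have h3 : |ht θ h i| ≤ R := by
        rw [← Real.norm_eq_abs]; exact (norm_le_pi_norm _ i).trans hh
      have h4 : Real.log (2 + wordLength (T : Set H) h) ≤ Real.log (2 + n * t) := by
        refine Real.log_le_log (by positivity) ?_
        have : (wordLength (T : Set H) h : ℝ) ≤ n * t := by exact_mod_cast hl
        linarith
      have h5 : C * Real.log (2 + wordLength (T : Set H) h) ≤ |C| * Real.log (2 + n * t) := by
        have h6 : 0 ≤ Real.log (2 + (wordLength (T : Set H) h : ℝ)) :=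
          Real.log_nonneg (by have : (0 : ℝ) ≤ wordLength (T : Set H) h := Nat.cast_nonneg _
                              linarith)
        calc C * Real.log (2 + wordLength (T : Set H) h)
            ≤ |C| * Real.log (2 + wordLength (T : Set H) h) :=
              mul_le_mul_of_nonneg_right (le_abs_self C) h6
          _ ≤ _ := mul_le_mul_of_nonneg_left h4 (abs_nonneg C)
      have h7 : ((hgt π (F h) i : ℤ) : ℝ) = hgtR π (F h) i := rfl
      rw [h7]
      rw [abs_le] at h2 h3 ⊢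
      constructor <;> linarith [h2.1, h2.2, h3.1, h3.2]
    have h8 := n1_le_real h1
    have h9 : (0 : ℝ) ≤ n1 (hgt π (F h)) := Nat.cast_nonneg _
    have h10 : k * ε * (n1 (hgt π (F h)) : ℝ) ≤ (1 / 4) * n1 (hgt π (F h)) :=
      mul_le_mul_of_nonneg_right hεk h9
    have h11 : 0 ≤ k * ε * Real.log (2 + (m : ℝ)) := by
      have : 0 ≤ Real.log (2 + (m : ℝ)) := Real.log_nonneg (by
        have : (0 : ℝ) ≤ m := Nat.cast_nonneg _
        linarith)
      positivity
    have h12 : 0 ≤ k * |C| * Real.log (2 + (n : ℝ) * t) := by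
      have : 0 ≤ Real.log (2 + (n : ℝ) * t) := Real.log_nonneg (by
        have : (0 : ℝ) ≤ (n : ℝ) * t := by positivity
        linarith)
      positivity
    have h13 : 0 ≤ k * R := by positivity
    nlinarith
  -- the fibre component
  set X : ℝ := 2 + n * t with hX
  have hX1 : 1 ≤ X := by
    have : (0 : ℝ) ≤ (n : ℝ) * t := by positivity
    rw [hX]; linarith
  set Q : ℝ := M * Real.exp (c1 * R) * X ^ a with hQ
  have hQ0 : 0 ≤ Q := by positivity
  have hreach : ∀ n, ∀ h ∈ Reach T' (slab θ R) n, ‖ht θ h‖ ≤ R := by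
    intro n h hh
    cases n with
    | zero =>
      have : h = 1 := hh
      subst this
      rw [ht_one, norm_zero]; exact hR
    | succ n => exact hh.1
  have hfib : ∀ j, j ≤ n → ∀ h ∈ Reach T' (slab θ R) j,
      ∃ m : ℕ, F h * (z x (hgt π (F h)))⁻¹ ∈ A ^ m ∧ Real.sqrt (2 + m) ≤ b0 + j * Q := by
    intro j
    induction j with
    | zero =>
      rintro - h (rfl : h = 1)
      exact ⟨m0, hm0, by simp [hb0]⟩
    | succ j ih =>
      intro hj h hh
      obtain ⟨hV, g, hg, hgT⟩ := id hh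
      obtain ⟨m, h1, h1'⟩ := ih (by omega) g hg
      have hgl : wordLength (T : Set H) g ≤ n * t :=
        (reach_len hT htT j g hg).trans (Nat.mul_le_mul_right _ (by omega))
      have h2 := hM ((F g)⁻¹ * F h) ⟨g, g⁻¹ * h, hgT, by simp⟩ (hgt π (F g))
      have h3 : hgt π (F g) + hgt π ((F g)⁻¹ * F h) = hgt π (F h) := by
        rw [hgt_mul, hgt_inv]; abel
      rw [h3] at h2
      refine ⟨m + M * μ ^ n1 (hgt π (F g)), ?_, ?_⟩
      · have h4 : F h * (z x (hgt π (F h)))⁻¹ = (F g * (z x (hgt π (F g)))⁻¹) *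
            (z x (hgt π (F g)) * ((F g)⁻¹ * F h) * (z x (hgt π (F h)))⁻¹) := by group
        rw [h4]
        exact pow_mul_mem h1 h2
      · have h5 := hhgt g m (hreach j g hg) h1 hgl
        set s : ℝ := Real.sqrt (2 + m) with hs
        have hs0 : 0 ≤ s := Real.sqrt_nonneg _
        have hs2 : s ^ 2 = 2 + m := Real.sq_sqrt (by positivity)
        have hm2 : (1 : ℝ) ≤ 2 + m := by
          have : (0 : ℝ) ≤ m := Nat.cast_nonneg _
          linarith
        have hlogm : 0 ≤ Real.log (2 + (m : ℝ)) := Real.log_nonneg hm2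
        have h6 : ((μ : ℝ)) ^ n1 (hgt π (F g)) ≤ Real.exp (c1 * R) * (s * X ^ a) := by
          have hμ0 : (0 : ℝ) < μ := by linarith
          have h7 : (μ : ℝ) ^ n1 (hgt π (F g)) = Real.exp (n1 (hgt π (F g)) * Real.log μ) := by
            rw [Real.exp_nat_mul, Real.exp_log hμ0]
          have h8 : n1 (hgt π (F g)) * Real.log μ ≤ c1 * R + ((1 / 2) * Real.log (2 + m) +
              2 * k * |C| * Real.log μ * Real.log X) := by
            have h9 := mul_le_mul_of_nonneg_right h5 hlogμ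
            have h10 := mul_le_mul_of_nonneg_right hεμ hlogm
            rw [hc1]
            nlinarith
          have h11 : Real.exp ((1 / 2) * Real.log (2 + m)) = s := by
            rw [hs, Real.sqrt_eq_rpow, Real.rpow_def_of_pos (by linarith)]
            congr 1; ring
          rw [h7]
          refine (Real.exp_le_exp.2 h8).trans ?_
          rw [Real.exp_add, Real.exp_add, h11]
          have h12 := exp_mul_log_le (Nat.le_ceil (2 * k * |C| * Real.log μ)) hX1
          gcongr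
        have h13 : (2 + ((m + M * μ ^ n1 (hgt π (F g)) : ℕ) : ℝ)) ≤ (s + Q) ^ 2 := by
          push_cast
          have h14 : (M : ℝ) * (μ : ℝ) ^ n1 (hgt π (F g)) ≤ s * Q := by
            calc (M : ℝ) * (μ : ℝ) ^ n1 (hgt π (F g)) ≤ M * (Real.exp (c1 * R) * (s * X ^ a)) := by
                  gcongr
              _ = s * Q := by rw [hQ]; ring
          nlinarith [mul_nonneg hs0 hQ0, sq_nonneg Q]
        calc Real.sqrt (2 + ((m + M * μ ^ n1 (hgt π (F g)) : ℕ) : ℝ))
            ≤ Real.sqrt ((s + Q) ^ 2) := Real.sqrt_le_sqrt h13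
          _ = s + Q := Real.sqrt_sq (by positivity)
          _ ≤ b0 + ((j + 1 : ℕ) : ℝ) * Q := by push_cast; linarith
  -- the final bounds
  set W : ℝ := 2 + (b0 + n * Q) ^ 2 with hW
  have hn1 : (1 : ℝ) ≤ (n : ℝ) + 1 := by
    have : (0 : ℝ) ≤ n := Nat.cast_nonneg _
    linarith
  have hWB : W ≤ B * Real.exp (2 * c1 * R) * ((n : ℝ) + 1) ^ (2 * a + 2) := by
    have hXle : X ≤ (2 + t) * ((n : ℝ) + 1) := by
      rw [hX]
      have h1 : (0 : ℝ) ≤ n := Nat.cast_nonneg _
      have h2 : (0 : ℝ) ≤ t := Nat.cast_nonneg _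
      nlinarith
    have he : 1 ≤ Real.exp (c1 * R) := Real.one_le_exp (by positivity)
    have hp : 1 ≤ ((n : ℝ) + 1) ^ (a + 1) := one_le_pow₀ hn1
    have h1 : b0 + n * Q ≤ (b0 + M * (2 + t) ^ a) * (Real.exp (c1 * R) * ((n : ℝ) + 1) ^ (a + 1)) := by
      have h2 : (n : ℝ) * Q ≤ M * (2 + t) ^ a * (Real.exp (c1 * R) * ((n : ℝ) + 1) ^ (a + 1)) := by
        rw [hQ]
        calc (n : ℝ) * (M * Real.exp (c1 * R) * X ^ a)
            ≤ ((n : ℝ) + 1) * (M * Real.exp (c1 * R) * ((2 + t) * ((n : ℝ) + 1)) ^ a) := by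
              gcongr
              linarith
          _ = _ := by rw [mul_pow, pow_succ]; ring
      have h3 : b0 ≤ b0 * (Real.exp (c1 * R) * ((n : ℝ) + 1) ^ (a + 1)) :=
        le_mul_of_one_le_right hb00 (one_le_mul_of_one_le_of_one_le he hp)
      nlinarith
    have h4 : 0 ≤ b0 + n * Q := by positivity
    have h5 : (b0 + n * Q) ^ 2 ≤ (b0 + M * (2 + t) ^ a) ^ 2 *
        (Real.exp (2 * c1 * R) * ((n : ℝ) + 1) ^ (2 * a + 2)) := by
      calc (b0 + n * Q) ^ 2 ≤ ((b0 + M * (2 + t) ^ a) *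
            (Real.exp (c1 * R) * ((n : ℝ) + 1) ^ (a + 1))) ^ 2 := by gcongr
        _ = _ := by
          rw [mul_pow, mul_pow, ← pow_mul, ← Real.exp_nat_mul]
          push_cast
          ring_nf
    have h6 : 1 ≤ Real.exp (2 * c1 * R) * ((n : ℝ) + 1) ^ (2 * a + 2) :=
      one_le_mul_of_one_le_of_one_le (Real.one_le_exp (by positivity)) (one_le_pow₀ hn1)
    rw [hW, hB]
    nlinarith
  have hW2 : 2 ≤ W := by rw [hW]; nlinarith [sq_nonneg (b0 + n * Q)]
  set m : ℕ := ⌊W⌋₊ with hm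
  have hmW : (m : ℝ) ≤ W := Nat.floor_le (by linarith)
  have hm1 : 1 ≤ m := Nat.le_floor (by push_cast; linarith)
  set N1 : ℝ := 2 * k * R + (1 / 2) * Real.log W + 2 * k * |C| * Real.log X with hN1
  have hlogW : 0 ≤ Real.log W := Real.log_nonneg (by linarith)
  have hlogX : 0 ≤ Real.log X := Real.log_nonneg hX1
  have hN10 : 0 ≤ N1 := by positivity
  set L : ℕ := ⌊N1⌋₊ with hL
  have hmain : ∀ h ∈ Reach T' (slab θ R) n, F h * (z x (hgt π (F h)))⁻¹ ∈ A ^ m ∧
      n1 (hgt π (F h)) ≤ L := by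
    intro h hh
    obtain ⟨m', h1, h2⟩ := hfib n le_rfl h hh
    have h3 : (2 + (m' : ℝ)) ≤ (b0 + n * Q) ^ 2 := by
      have h4 : Real.sqrt (2 + m') ^ 2 = 2 + m' := Real.sq_sqrt (by positivity)
      rw [← h4]
      have : 0 ≤ Real.sqrt (2 + (m' : ℝ)) := Real.sqrt_nonneg _
      gcongr
    have h5 : (2 + (m' : ℝ)) ≤ W := by rw [hW]; linarith
    have h6 : m' ≤ m := Nat.le_floor (by linarith)
    refine ⟨hA.mono h6 h1, Nat.le_floor ?_⟩
    have h7 := hhgt h m' (hreach n h hh) h1 (reach_len hT htT n h hh)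
    have h8 : 2 * k * ε * Real.log (2 + m') ≤ (1 / 2) * Real.log W := by
      have h9 : 2 * (k : ℝ) * ε ≤ 1 / 2 := by linarith
      have h10 : Real.log (2 + (m' : ℝ)) ≤ Real.log W := Real.log_le_log (by positivity) h5
      have h11 : 0 ≤ Real.log (2 + (m' : ℝ)) := Real.log_nonneg (by
        have : (0 : ℝ) ≤ m' := Nat.cast_nonneg _
        linarith)
      calc 2 * k * ε * Real.log (2 + m') ≤ (1 / 2) * Real.log (2 + m') :=
            mul_le_mul_of_nonneg_right h9 h11
        _ ≤ _ := by gcongr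
    rw [hN1]
    linarith
  -- counting
  have hAm : (A ^ m).Finite := pow_finite hAf m
  let Rf : Finset H := (Reach_finite (V := slab θ R) hT' n).toFinset
  have hRf : (Reach T' (slab θ R) n).ncard = Rf.card := by
    rw [Set.ncard_eq_toFinset_card _ (Reach_finite hT' n)]
  have hcc1 : Rf.card ≤ P * (Rf.image F).card := by
    refine Finset.card_le_mul_card_image Rf P ?_
    intro p _
    obtain ⟨h1, h2⟩ := QIMap.preimage_finite hT hS hF p 0
    have h3 : (↑(Rf.filter fun h => F h = p) : Set H) ⊆ {x : H | nd (S : Set G) p (F x) ≤ 0} := by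
      intro h hh
      have h4 : F h = p := (Finset.mem_filter.1 (Finset.mem_coe.1 hh)).2
      show nd (S : Set G) p (F h) ≤ 0
      rw [h4, nd_self]
    have h5 := Set.ncard_le_ncard h3 h1
    rw [Set.ncard_coe_finset] at h5
    refine h5.trans (h2.trans ?_)
    rw [mul_zero, zero_add]
  have hcc2 : (Rf.image F).card ≤ (A ^ m).ncard * (2 * L + 1) ^ k := by
    let bx : Finset (Fin k → ℤ) := Fintype.piFinset fun _ => Finset.Icc (-(L : ℤ)) L
    have hbx : bx.card = (2 * L + 1) ^ k := by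
      rw [Fintype.card_piFinset]
      simp only [Int.card_Icc, Finset.prod_const, Finset.card_univ, Fintype.card_fin]
      congr 1
      omega
    have h1 : Rf.image F ⊆ (hAm.toFinset ×ˢ bx).image fun p => p.1 * z x p.2 := by
      intro p hp
      obtain ⟨h, hh, rfl⟩ := Finset.mem_image.1 hp
      have hh' : h ∈ Reach T' (slab θ R) n := by simpa [Rf] using hh
      refine Finset.mem_image.2 ⟨(F h * (z x (hgt π (F h)))⁻¹, hgt π (F h)), ?_, by simp⟩
      rw [Finset.mem_product]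
      refine ⟨?_, ?_⟩
      · rw [Set.Finite.mem_toFinset]
        exact (hmain h hh').1
      · rw [Fintype.mem_piFinset]
        intro i
        have h2 : n1 (hgt π (F h)) ≤ L := (hmain h hh').2
        have h3 : (hgt π (F h) i).natAbs ≤ n1 (hgt π (F h)) := by
          unfold n1
          exact Finset.single_le_sum (f := fun i => (hgt π (F h) i).natAbs)
            (fun _ _ => Nat.zero_le _) (Finset.mem_univ i)
        rw [Finset.mem_Icc]
        show -(L : ℤ) ≤ hgt π (F h) i ∧ hgt π (F h) i ≤ L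
        omega
    refine (Finset.card_le_card h1).trans (Finset.card_image_le.trans ?_)
    rw [Finset.card_product, hbx, Set.ncard_eq_toFinset_card _ hAm]
  have hcc3 := hgrow m hm1
  have hcc5 : 2 * L + 1 ≤ 3 ^ L := by
    generalize L = l
    induction l with
    | zero => norm_num
    | succ l ih => rw [pow_succ]; omega
  have hcc6 : ((Reach T' (slab θ R) n).ncard : ℝ) ≤ P * (Cg * (m : ℝ) ^ d * ((3 : ℝ) ^ L) ^ k) := by
    have : (Reach T' (slab θ R) n).ncard ≤ P * (Cg * m ^ d * (3 ^ L) ^ k) := by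
      rw [hRf]
      calc Rf.card ≤ P * (Rf.image F).card := hcc1
        _ ≤ P * ((A ^ m).ncard * (2 * L + 1) ^ k) := by gcongr
        _ ≤ P * ((Cg * m ^ d) * (3 ^ L) ^ k) := by gcongr
    exact_mod_cast this
  have hcc7 : ((3 : ℝ) ^ L) ^ k ≤ Real.exp (4 * k * k * R) * (W ^ k * X ^ a2) := by
    have h3 : (3 : ℝ) ≤ Real.exp 2 := by
      have := Real.add_one_le_exp (2 : ℝ)
      linarith
    have h1 : ((3 : ℝ) ^ L) ^ k ≤ Real.exp (2 * k * N1) := by
      calc ((3 : ℝ) ^ L) ^ k = (3 : ℝ) ^ (L * k) := by rw [← pow_mul]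
        _ ≤ (Real.exp 2) ^ (L * k) := by gcongr
        _ = Real.exp ((L * k : ℕ) * 2) := by rw [Real.exp_nat_mul]
        _ ≤ Real.exp (2 * k * N1) := by
          refine Real.exp_le_exp.2 ?_
          push_cast
          have h4 : (L : ℝ) ≤ N1 := Nat.floor_le hN10
          have hk : (0 : ℝ) ≤ k := Nat.cast_nonneg k
          nlinarith [mul_le_mul_of_nonneg_left h4 hk]
    refine h1.trans ?_
    have h5 : 2 * k * N1 = 4 * k * k * R + (k * Real.log W + 4 * (k : ℝ) * k * |C| * Real.log X) := by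
      rw [hN1]; ring
    rw [h5, Real.exp_add, Real.exp_add]
    have h6 : Real.exp (k * Real.log W) = W ^ k := by
      rw [Real.exp_nat_mul, Real.exp_log (by linarith)]
    rw [h6]
    have h7 := exp_mul_log_le (Nat.le_ceil (4 * (k : ℝ) * k * |C|)) hX1
    have hW0 : 0 ≤ W := by linarith
    gcongr
  have hXle : X ≤ (2 + t) * ((n : ℝ) + 1) := by
    rw [hX]
    have h1 : (0 : ℝ) ≤ n := Nat.cast_nonneg _
    have h2 : (0 : ℝ) ≤ t := Nat.cast_nonneg _
    nlinarith
  have hW0 : 0 ≤ W := by linarith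
  have hX0 : 0 ≤ X := by linarith
  calc ((Reach T' (slab θ R) n).ncard : ℝ)
      ≤ P * (Cg * (m : ℝ) ^ d * ((3 : ℝ) ^ L) ^ k) := hcc6
    _ ≤ P * (Cg * W ^ d * (Real.exp (4 * k * k * R) * (W ^ k * X ^ a2))) := by gcongr
    _ = P * Cg * Real.exp (4 * k * k * R) * (W ^ (d + k) * X ^ a2) := by rw [pow_add]; ring
    _ ≤ P * Cg * Real.exp (4 * k * k * R) *
        ((B * Real.exp (2 * c1 * R) * ((n : ℝ) + 1) ^ (2 * a + 2)) ^ (d + k) *
          ((2 + t) * ((n : ℝ) + 1)) ^ a2) := by gcongr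
    _ = P * Cg * B ^ (d + k) * (2 + t) ^ a2 *
        Real.exp ((2 * c1 * (d + k) + 4 * k * k) * R) *
        ((n : ℝ) + 1) ^ ((2 * a + 2) * (d + k) + a2) := by
      rw [mul_pow, mul_pow, mul_pow, ← pow_mul, ← Real.exp_nat_mul, pow_add _ _ a2]
      have : Real.exp ((2 * c1 * (d + k) + 4 * k * k) * R) =
          Real.exp (4 * k * k * R) * Real.exp (((d + k : ℕ) : ℝ) * (2 * c1 * R)) := by
        rw [← Real.exp_add]
        congr 1
        push_cast
        ring
      rw [this]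
      ring

end Crest.Agent.R182.Wk
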