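/-
R182, module WKRED (helper860): reduction of S0272 to the weak height law `Law` for
self-quasi-isometries of the polycyclic group.
-/
import Mathlib
import Crest.Agent.R182.WkGrowth

set_option autoImplicit false

namespace Crest.Agent.R182.Wk

open Crest.GroupTheory Crest.Geometry Crest.Agent.R182.QI Crest.Agent.R182.FinAlg
  Crest.Agent.R182.FinPath Crest.Agent.R182.FinNil Crest.Agent.R182.FinRed
  Crest.Agent.R189.MeanF
open scoped Pointwise

universe u v

/-- The weak height law for self-quasi-isometries: up to an error which is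
`ε (height + log of the N-length) + C_ε log (word length)`, the height of `Ψ (g y)` is
`π(Ψ g) + L (π y)` with `L` in a finite set. -/
def Law {G : Type u} [Group G] (S : Set G) {k : ℕ}
    (π : G →* Multiplicative (Fin k → ℤ)) (A : Set G) (x : Fin k → G) : Prop :=
  ∀ K : ℕ, ∃ (LL : Set ((Fin k → ℝ) →ₗ[ℝ] (Fin k → ℝ))) (C : ℝ → ℝ), LL.Finite ∧
    ∀ Ψ : G → G, QIMap S S Ψ K → ∃ L ∈ LL, ∀ ε : ℝ, 0 < ε → ∀ (g y : G) (m : ℕ),
      y * (z x (hgt π y))⁻¹ ∈ A ^ m → ∀ i : Fin k,
      |hgtR π (Ψ (g * y)) i - hgtR π (Ψ g) i - L (hgtR π y) i| ≤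
        ε * (n1 (hgt π y) + Real.log (2 + m)) + C ε * Real.log (2 + wordLength S y)

section

variable {G : Type u} [Group G] {k : ℕ} {π : G →* Multiplicative (Fin k → ℤ)} {A : Set G}

/-- the `N`-length is at most exponential in the word length. -/
theorem exists_nlen {S : Set G} (hSf : S.Finite) (hS : Subgroup.closure S = ⊤) (hA : Sym A)
    (hAf : A.Finite) (hcl : Subgroup.closure A = π.ker) {x : Fin k → G}
    (hx : ∀ i, hgt π (x i) = Pi.single i 1) :
    ∃ c : ℝ, 0 ≤ c ∧ ∀ y : G, ∃ m : ℕ, y * (z x (hgt π y))⁻¹ ∈ A ^ m ∧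
      Real.log (2 + m) ≤ c * (wordLength S y + 1) := by
  classical
  obtain ⟨μ, hμ, hq⟩ := exists_q_bound' hA hAf hcl hx
  obtain ⟨ch, hch⟩ := exists_n1_le hSf hS π
  obtain ⟨M, hM⟩ := exists_unif (hSf.union hSf.inv) hA hq
  -- y = l.prod : m = l * M * μ^(ch l)
  have key : ∀ l : List G, IsWord S l → l.prod * (z x (hgt π l.prod))⁻¹ ∈
      A ^ (l.length * (M * μ ^ (ch * l.length))) ∧ n1 (hgt π l.prod) ≤ ch * l.length := by
    intro l
    induction l using List.reverseRecOn with
    | nil =>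
      intro _
      refine ⟨?_, ?_⟩
      · have : ([] : List G).prod * (z x (hgt π ([] : List G).prod))⁻¹ = 1 := by
          simp [hgt_one, z_zero]
        rw [this]
        simp
      · simp [hgt_one, n1]
    | append_singleton l s ih =>
      intro hw
      have hl : IsWord S l := fun y hy => hw y (List.mem_append_left _ hy)
      have hs : s ∈ S ∨ s⁻¹ ∈ S := hw s (by simp)
      obtain ⟨h1, h2⟩ := ih hl
      have h3 : n1 (hgt π s) ≤ ch := by
        refine (hch s).trans ?_
        have := wordLength_letter hs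
        nlinarith
      refine ⟨?_, ?_⟩
      · have h4 := hM s (by rcases hs with h | h
                            · exact Or.inl h
                            · exact Or.inr h) (hgt π l.prod)
        have h5 : (l ++ [s]).prod * (z x (hgt π (l ++ [s]).prod))⁻¹
            = (l.prod * (z x (hgt π l.prod))⁻¹) *
              (z x (hgt π l.prod) * s * (z x (hgt π l.prod + hgt π s))⁻¹) := by
          rw [List.prod_append, List.prod_singleton, hgt_mul]; group
        rw [h5, List.length_append, List.length_singleton]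
        refine hA.mono ?_ (pow_mul_mem h1 h4)
        have h6 : μ ^ (ch * l.length) ≤ μ ^ (ch * (l.length + 1)) :=
          Nat.pow_le_pow_right hμ (Nat.mul_le_mul_left _ (by omega))
        have h7 : μ ^ n1 (hgt π l.prod) ≤ μ ^ (ch * (l.length + 1)) :=
          Nat.pow_le_pow_right hμ (h2.trans (Nat.mul_le_mul_left _ (by omega)))
        calc l.length * (M * μ ^ (ch * l.length)) + M * μ ^ n1 (hgt π l.prod)
            ≤ l.length * (M * μ ^ (ch * (l.length + 1))) + M * μ ^ (ch * (l.length + 1)) := by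
              gcongr
          _ = _ := by ring
      · rw [List.prod_append, List.prod_singleton, hgt_mul, List.length_append,
          List.length_singleton, mul_add, mul_one]
        exact (n1_add_le _ _).trans (add_le_add h2 h3)
  have hμR : (1 : ℝ) ≤ μ := by exact_mod_cast hμ
  refine ⟨Real.log (2 + M) + 1 + ch * Real.log μ, ?_, fun y => ?_⟩
  · have h1 : 0 ≤ Real.log μ := Real.log_nonneg hμR
    have h2 : 0 ≤ Real.log (2 + (M : ℝ)) := Real.log_nonneg (by
      have : (0 : ℝ) ≤ M := Nat.cast_nonneg _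
      linarith)
    positivity
  obtain ⟨l, hl, hw, rfl⟩ := wordLength_spec hS y
  rw [← hl]
  refine ⟨_, (key l hw).1, ?_⟩
  set n := l.length
  have h1 : 0 ≤ Real.log μ := Real.log_nonneg hμR
  have hM0 : (0 : ℝ) ≤ M := Nat.cast_nonneg _
  have hn0 : (0 : ℝ) ≤ n := Nat.cast_nonneg _
  have h2 : 0 ≤ Real.log (2 + (M : ℝ)) := Real.log_nonneg (by linarith)
  have hp : (1 : ℝ) ≤ (μ : ℝ) ^ (ch * n) := one_le_pow₀ hμR
  have h3 : (2 + ((n * (M * μ ^ (ch * n)) : ℕ) : ℝ)) ≤
      (2 + M) * ((n + 1) * (μ : ℝ) ^ (ch * n)) := by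
    push_cast
    have h4 : (1 : ℝ) ≤ (n + 1) * (μ : ℝ) ^ (ch * n) := by nlinarith
    nlinarith [mul_nonneg hM0 (by linarith : (0 : ℝ) ≤ (μ : ℝ) ^ (ch * n))]
  calc Real.log (2 + ((n * (M * μ ^ (ch * n)) : ℕ) : ℝ))
      ≤ Real.log ((2 + M) * ((n + 1) * (μ : ℝ) ^ (ch * n))) :=
        Real.log_le_log (by positivity) h3
    _ = Real.log (2 + M) + (Real.log (n + 1) + (ch * n : ℕ) * Real.log μ) := by
        rw [Real.log_mul (by positivity) (by positivity), Real.log_mul (by positivity)
          (by positivity), Real.log_pow]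
    _ ≤ (Real.log (2 + M) + 1 + ch * Real.log μ) * (n + 1) := by
        have h5 : Real.log ((n : ℝ) + 1) ≤ n := by
          have := Real.log_le_sub_one_of_pos (by linarith : (0 : ℝ) < (n : ℝ) + 1)
          linarith
        push_cast
        nlinarith [mul_nonneg h2 hn0, mul_nonneg (mul_nonneg (Nat.cast_nonneg ch) h1) hn0,
          mul_nonneg (Nat.cast_nonneg (α := ℝ) ch) h1]

end

/-- `log (2 + n) ≤ δ n + C` -/
theorem exists_log_le {δ : ℝ} (hδ : 0 < δ) : ∃ C : ℝ, 0 ≤ C ∧ ∀ n : ℕ,
    Real.log (2 + n) ≤ δ * n + C := by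
  refine ⟨2 * δ + |Real.log δ|, by positivity, fun n => ?_⟩
  have hn : (0 : ℝ) ≤ n := Nat.cast_nonneg _
  have h1 : Real.log (δ * (2 + n)) ≤ δ * (2 + n) - 1 :=
    Real.log_le_sub_one_of_pos (by positivity)
  rw [Real.log_mul (by positivity) (by positivity)] at h1
  have h2 := neg_abs_le (Real.log δ)
  nlinarith

section Theta

variable {G : Type u} [Group G] {k : ℕ} {π : G →* Multiplicative (Fin k → ℤ)} {A : Set G}

/-- a linear map which is sublinear on a coarsely dense set vanishes. -/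
theorem linear_eq_zero' (M : (Fin k → ℝ) →ₗ[ℝ] (Fin k → ℝ)) (X : Set (Fin k → ℝ)) (r : ℝ)
    (h : ∀ δ : ℝ, 0 < δ → ∃ C : ℝ, ∀ v : Fin k → ℤ, ∃ x ∈ X, (∀ i, |x i - v i| ≤ r) ∧
      ∀ i, |M x i| ≤ δ * n1 v + C) : M = 0 := by
  have hcont : Continuous M := LinearMap.continuous_of_finiteDimensional M
  obtain ⟨c, hc0, hc⟩ : ∃ c, 0 ≤ c ∧ ∀ y : Fin k → ℝ, ‖M y‖ ≤ c * ‖y‖ := by
    let M' : (Fin k → ℝ) →L[ℝ] (Fin k → ℝ) := ⟨M, hcont⟩
    exact ⟨‖M'‖, norm_nonneg _, fun y => M'.le_opNorm y⟩
  refine LinearMap.pi_ext' fun j => ?_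
  refine LinearMap.ext_ring ?_
  rw [LinearMap.comp_apply, LinearMap.comp_apply]
  show M (Pi.single j 1) = (0 : (Fin k → ℝ) →ₗ[ℝ] (Fin k → ℝ)) (Pi.single j 1)
  rw [LinearMap.zero_apply]
  by_contra hne
  have h0 : 0 < ‖M (Pi.single j 1)‖ := norm_pos_iff.2 hne
  obtain ⟨C, hC⟩ := h (‖M (Pi.single j 1)‖ / 2) (by positivity)
  have key : ∀ n : ℕ, (n : ℝ) * ‖M (Pi.single j 1)‖ ≤
      (‖M (Pi.single j 1)‖ / 2) * n + |C| + c * |r| := by
    intro n
    obtain ⟨x, -, hxr, hxM⟩ := hC (Pi.single j (n : ℤ))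
    have hn1 : n1 (Pi.single j (n : ℤ) : Fin k → ℤ) = n := by
      unfold n1
      rw [Finset.sum_eq_single j]
      · simp
      · intro b _ hb; simp [hb]
      · simp
    rw [hn1] at hxM
    have h1 : M (Pi.single j (n : ℝ)) = (n : ℝ) • M (Pi.single j 1) := by
      rw [← map_smul]
      congr 1
      ext i
      by_cases hi : i = j
      · subst hi; simp
      · simp [hi]
    have h2 : ‖x - Pi.single j (n : ℝ)‖ ≤ |r| := by
      refine (pi_norm_le_iff_of_nonneg (abs_nonneg r)).2 fun i => ?_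
      have h3 := hxr i
      have h4 : (((Pi.single j (n : ℤ) : Fin k → ℤ) i : ℤ) : ℝ) =
          (Pi.single j (n : ℝ) : Fin k → ℝ) i := by
        by_cases hi : i = j
        · subst hi; simp
        · simp [hi]
      rw [h4] at h3
      rw [Real.norm_eq_abs, Pi.sub_apply]
      exact h3.trans (le_abs_self r)
    have h3 : ‖M x‖ ≤ (‖M (Pi.single j 1)‖ / 2) * n + |C| :=
      (pi_norm_le_iff_of_nonneg (by positivity)).2 fun i =>
        (hxM i).trans (by linarith [le_abs_self C])
    have h4 : ‖M (x - Pi.single j (n : ℝ))‖ ≤ c * |r| :=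
      (hc _).trans (mul_le_mul_of_nonneg_left h2 hc0)
    have h5 : (n : ℝ) * ‖M (Pi.single j 1)‖ = ‖M (Pi.single j (n : ℝ))‖ := by
      rw [h1, norm_smul, Real.norm_eq_abs, Nat.abs_cast]
    rw [h5]
    have h6 : M (Pi.single j (n : ℝ)) = M x - M (x - Pi.single j (n : ℝ)) := by
      rw [map_sub]; abel
    rw [h6]
    exact (norm_sub_le _ _).trans (add_le_add h3 h4)
  obtain ⟨n, hn⟩ := exists_nat_gt ((|C| + c * |r|) / (‖M (Pi.single j 1)‖ / 2))
  rw [div_lt_iff₀ (by positivity)] at hn
  have := key n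
  linarith

/-- the conclusion for quasi-isometries `H → G`. -/
theorem exists_theta (hGa : Amen G) (S : Finset G) (hS : Subgroup.closure (S : Set G) = ⊤)
    (hπ : Function.Surjective π) (hA : Sym A) (hAf : A.Finite)
    (hcl : Subgroup.closure A = π.ker) {x : Fin k → G}
    (hx : ∀ i, hgt π (x i) = Pi.single i 1) (hlaw : Law (S : Set G) π A x)
    {H : Type v} [Group H] (T : Finset H) (hT : Subgroup.closure (T : Set H) = ⊤)
    (F : H → G) (K : ℕ) (hF : QIMap (T : Set H) (S : Set G) F K) (hF1 : F 1 = 1) :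
    ∃ H0 : Subgroup H, H0.FiniteIndex ∧ ∃ (θ : H0 →* Multiplicative (Fin k → ℝ)),
      ∀ ε : ℝ, 0 < ε → ∃ C : ℝ, ∀ (g y : H0) (m : ℕ),
        F y * (z x (hgt π (F y)))⁻¹ ∈ A ^ m → ∀ i : Fin k,
        |hgtR π (F (g * y)) i - hgtR π (F g) i - ht θ y i| ≤
          ε * (n1 (hgt π (F y)) + Real.log (2 + m)) +
            C * Real.log (2 + wordLength (T : Set H) (y : H)) := by
  classical
  obtain ⟨E, K', hE, hEF, hFE⟩ := hF.exists_inverse hT hS
  have hΦ : ∀ h : H, QIMap (S : Set G) (S : Set G) ((fun x => F (h * x)) ∘ E)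
      (K' * K + K' + 2 * K) := fun h => QIMap.comp hS (hF.compMulLeft h) hE
  obtain ⟨LL, C, hLL, hC⟩ := hlaw (K' * K + K' + 2 * K)
  choose B hB hb using fun h : H => hC _ (hΦ h)
  obtain ⟨c, hc⟩ := exists_n1_le S.finite_toSet hS π
  have hclose : ∀ r, ∀ p q : G, nd (S : Set G) p q ≤ r → ∀ i,
      |hgtR π q i - hgtR π p i| ≤ c * r := by
    intro r p q hpq i
    have h1 := abs_hgtR_le (π := π) (p⁻¹ * q) i
    have h2 : (n1 (hgt π (p⁻¹ * q)) : ℝ) ≤ c * r := by
      exact_mod_cast (hc _).trans (Nat.mul_le_mul_left _ hpq)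
    rw [hgtR_mul, hgtR_inv] at h1
    have h3 : hgtR π q i - hgtR π p i = -hgtR π p i + hgtR π q i := by ring
    rw [h3]
    exact h1.trans h2
  -- word lengths
  have hlF : ∀ y : H, wordLength (S : Set G) (F y) ≤ K * wordLength (T : Set H) y + K := by
    intro y
    have := hF.displacement 1 y
    rw [hF1, one_mul, nd_one_left] at this
    exact this
  have hloglen : ∀ y : H, Real.log (2 + wordLength (S : Set G) (F y)) ≤
      (Real.log (K + 1) + 1) / Real.log 2 * Real.log (2 + wordLength (T : Set H) y) := by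
    intro y
    have hl2 : 0 < Real.log 2 := Real.log_pos (by norm_num)
    have hK : (0 : ℝ) ≤ K := Nat.cast_nonneg K
    have hw : (0 : ℝ) ≤ wordLength (T : Set H) y := Nat.cast_nonneg _
    have h1 : (2 + (wordLength (S : Set G) (F y) : ℝ)) ≤ (K + 1) * (2 + wordLength (T : Set H) y) := by
      have h2 : (wordLength (S : Set G) (F y) : ℝ) ≤ K * wordLength (T : Set H) y + K := by
        exact_mod_cast hlF y
      nlinarith
    have h3 : Real.log 2 ≤ Real.log (2 + wordLength (T : Set H) y) :=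
      Real.log_le_log (by norm_num) (by linarith)
    have h4 : 0 ≤ Real.log ((K : ℝ) + 1) := Real.log_nonneg (by linarith)
    calc Real.log (2 + wordLength (S : Set G) (F y))
        ≤ Real.log ((K + 1) * (2 + wordLength (T : Set H) y)) :=
          Real.log_le_log (by positivity) h1
      _ = Real.log (K + 1) + Real.log (2 + wordLength (T : Set H) y) :=
          Real.log_mul (by positivity) (by positivity)
      _ ≤ (Real.log (K + 1) + 1) / Real.log 2 * Real.log (2 + wordLength (T : Set H) y) := by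
          rw [div_mul_eq_mul_div, le_div_iff₀ hl2]
          have h5 : Real.log 2 ≤ 1 := by
            have := Real.log_le_sub_one_of_pos (by norm_num : (0 : ℝ) < 2)
            linarith
          nlinarith [mul_le_mul_of_nonneg_left h3 h4, mul_le_mul_of_nonneg_right h5 hl2.le,
            mul_nonneg h4 hl2.le]
  set cl : ℝ := (Real.log (K + 1) + 1) / Real.log 2 with hcl'
  have hcl0 : 0 ≤ cl := by
    have hl2 : 0 < Real.log 2 := Real.log_pos (by norm_num)
    have hK : (0 : ℝ) ≤ K := Nat.cast_nonneg K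
    have h4 : 0 ≤ Real.log ((K : ℝ) + 1) := Real.log_nonneg (by linarith)
    positivity
  have hlogpos : ∀ n : ℕ, 1 / 2 ≤ Real.log (2 + (n : ℝ)) := by
    intro n
    have h1 : Real.log 2 ≤ Real.log (2 + (n : ℝ)) :=
      Real.log_le_log (by norm_num) (by have : (0 : ℝ) ≤ n := Nat.cast_nonneg _
                                        linarith)
    have := Real.log_two_gt_d9
    linarith
  -- the basic estimate
  set D1 : ℝ := 4 * (c * ((K * K' + K : ℕ) : ℝ)) with hD1
  have hD10 : 0 ≤ D1 := by positivity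
  have hest : ∀ h g : H, ∀ ε : ℝ, 0 < ε → ∀ m : ℕ, F g * (z x (hgt π (F g)))⁻¹ ∈ A ^ m → ∀ i,
      |hgtR π (F (h * g)) i - hgtR π (F h) i - B h (hgtR π (F g)) i| ≤
        ε * (n1 (hgt π (F g)) + Real.log (2 + m)) +
          (|C ε| * cl + D1) * Real.log (2 + wordLength (T : Set H) g) := by
    intro h g ε hε m hm i
    have h1 := hb h ε hε 1 (F g) m hm i
    rw [one_mul] at h1
    have h2 : ∀ g : H, nd (S : Set G) (F (h * E (F g))) (F (h * g)) ≤ K * K' + K := by
      intro g
      refine (hF.up _ _).trans ?_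
      rw [nd_mul_left]
      have := hEF g
      gcongr
    have h3 := hclose _ _ _ (h2 g) i
    have h3' := hclose _ _ _ (h2 1) i
    rw [hF1, mul_one] at h3'
    have h5 := hloglen g
    have h6 := hlogpos (wordLength (T : Set H) g)
    have h7 : C ε * Real.log (2 + wordLength (S : Set G) (F g)) ≤
        |C ε| * cl * Real.log (2 + wordLength (T : Set H) g) := by
      have h8 := hlogpos (wordLength (S : Set G) (F g))
      calc C ε * Real.log (2 + wordLength (S : Set G) (F g))
          ≤ |C ε| * Real.log (2 + wordLength (S : Set G) (F g)) :=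
            mul_le_mul_of_nonneg_right (le_abs_self _) (by linarith)
        _ ≤ |C ε| * (cl * Real.log (2 + wordLength (T : Set H) g)) :=
            mul_le_mul_of_nonneg_left h5 (abs_nonneg _)
        _ = _ := by ring
    have h9 : 2 * (c * ((K * K' + K : ℕ) : ℝ)) ≤ D1 * Real.log (2 + wordLength (T : Set H) g) := by
      rw [hD1]
      have : 0 ≤ (c : ℝ) * ((K * K' + K : ℕ) : ℝ) := by positivity
      nlinarith
    simp only [Function.comp_apply] at h1
    rw [abs_le] at h1 h3 h3' ⊢
    constructor <;> linarith [h1.1, h1.2, h3.1, h3.2, h3'.1, h3'.2]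
  -- sublinear estimate
  obtain ⟨cn, hcn0, hcn⟩ := exists_nlen S.finite_toSet hS hA hAf hcl hx
  have hsub : ∀ δ : ℝ, 0 < δ → ∃ C' : ℝ, 0 ≤ C' ∧ ∀ h g : H, ∀ i,
      |hgtR π (F (h * g)) i - hgtR π (F h) i - B h (hgtR π (F g)) i| ≤
        δ * wordLength (T : Set H) g + C' := by
    intro δ hδ
    set ε : ℝ := δ / (2 * (c + cn + 1) * (K + 1)) with hε
    have hε0 : 0 < ε := by positivity
    set D : ℝ := |C ε| * cl + D1 with hD
    have hD0 : 0 ≤ D := by positivity
    obtain ⟨C2, hC20, hC2⟩ := exists_log_le (δ := δ / (2 * (D + 1))) (by positivity)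
    refine ⟨ε * ((c + cn) * K + cn) + D * C2, by positivity, fun h g i => ?_⟩
    obtain ⟨m, hm, hml⟩ := hcn (F g)
    have h1 := hest h g ε hε0 m hm i
    have hw : (0 : ℝ) ≤ wordLength (T : Set H) g := Nat.cast_nonneg _
    have h2 : (wordLength (S : Set G) (F g) : ℝ) ≤ K * wordLength (T : Set H) g + K := by
      exact_mod_cast hlF g
    have h3 : (n1 (hgt π (F g)) : ℝ) ≤ c * wordLength (S : Set G) (F g) := by
      exact_mod_cast hc (F g)
    have h4 : n1 (hgt π (F g)) + Real.log (2 + m) ≤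
        (c + cn) * (K * wordLength (T : Set H) g + K) + cn := by
      have h5 : (c : ℝ) * wordLength (S : Set G) (F g) ≤ c * (K * wordLength (T : Set H) g + K) :=
        mul_le_mul_of_nonneg_left h2 (Nat.cast_nonneg c)
      have h6 : cn * (wordLength (S : Set G) (F g) + 1) ≤
          cn * ((K * wordLength (T : Set H) g + K) + 1) :=
        mul_le_mul_of_nonneg_left (by linarith) hcn0
      linarith
    have h5 := mul_le_mul_of_nonneg_left h4 hε0.le
    have h6 : ε * ((c + cn) * K * wordLength (T : Set H) g) ≤ δ / 2 * wordLength (T : Set H) g := by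
      have h7 : ε * ((c + cn) * K) ≤ δ / 2 := by
        rw [hε, div_mul_eq_mul_div, div_le_div_iff₀ (by positivity) (by norm_num)]
        have hK : (0 : ℝ) ≤ K := Nat.cast_nonneg K
        have hc0 : (0 : ℝ) ≤ c := Nat.cast_nonneg c
        nlinarith [mul_nonneg hδ.le hK, mul_nonneg hδ.le hc0, mul_nonneg hδ.le hcn0,
          mul_nonneg (mul_nonneg hδ.le hK) hc0, mul_nonneg (mul_nonneg hδ.le hK) hcn0]
      calc ε * ((c + cn) * K * wordLength (T : Set H) g)
          = (ε * ((c + cn) * K)) * wordLength (T : Set H) g := by ring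
        _ ≤ _ := mul_le_mul_of_nonneg_right h7 hw
    have h7 := mul_le_mul_of_nonneg_left (hC2 (wordLength (T : Set H) g)) hD0
    have h8 : D * (δ / (2 * (D + 1)) * wordLength (T : Set H) g) ≤
        δ / 2 * wordLength (T : Set H) g := by
      have h9 : D * (δ / (2 * (D + 1))) ≤ δ / 2 := by
        rw [mul_div_assoc', div_le_div_iff₀ (by positivity) (by norm_num)]
        nlinarith
      calc D * (δ / (2 * (D + 1)) * wordLength (T : Set H) g)
          = (D * (δ / (2 * (D + 1)))) * wordLength (T : Set H) g := by ring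
        _ ≤ _ := mul_le_mul_of_nonneg_right h9 hw
    nlinarith
  -- density of heights by elements of controlled length
  obtain ⟨cz, hcz⟩ := exists_z_le hS x
  have hdense : ∀ v : Fin k → ℤ, ∃ g : H, (∀ i, |hgtR π (F g) i - v i| ≤ c * K) ∧
      wordLength (T : Set H) g ≤ K * (cz * n1 v + K) + K := by
    intro v
    obtain ⟨g, hg⟩ := hF.dense (z x v)
    refine ⟨g, fun i => ?_, ?_⟩
    · have h1 := hclose _ _ _ hg i
      have h2 : hgtR π (z x v) i = v i := by rw [hgtR, hgt_z hx]
      rwa [h2] at h1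
    · have h1 := hF.lo 1 g
      rw [nd_one_left, hF1, nd_one_left] at h1
      have h2 : wordLength (S : Set G) (F g) ≤ cz * n1 v + K := by
        have h3 := nd_triangle hS 1 (z x v) (F g)
        rw [nd_one_left, nd_one_left] at h3
        exact h3.trans (add_le_add (hcz v) hg)
      refine h1.trans ?_
      gcongr
  have hbd : ∀ M : (Fin k → ℝ) →ₗ[ℝ] (Fin k → ℝ), ∃ C : ℝ, 0 ≤ C ∧ ∀ y : Fin k → ℝ,
      ∀ r : ℝ, (∀ i, |y i| ≤ r) → ∀ i, |M y i| ≤ C * |r| := by
    intro M
    let M' : (Fin k → ℝ) →L[ℝ] (Fin k → ℝ) :=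
      ⟨M, LinearMap.continuous_of_finiteDimensional M⟩
    refine ⟨‖M'‖, norm_nonneg _, fun y r hy i => ?_⟩
    have h1 : ‖y‖ ≤ |r| := (pi_norm_le_iff_of_nonneg (abs_nonneg r)).2 fun i =>
      (hy i).trans (le_abs_self r)
    have h2 : ‖M' y i‖ ≤ ‖M' y‖ := norm_le_pi_norm _ i
    rw [Real.norm_eq_abs] at h2
    exact h2.trans ((M'.le_opNorm y).trans (mul_le_mul_of_nonneg_left h1 (norm_nonneg _)))
  -- multiplicativity of the linear part
  have hmul : ∀ g h : H, B (g * h) = B g * B h := by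
    intro g h
    obtain ⟨Cb, hCb0, hCb⟩ := hbd (B g)
    have hz := linear_eq_zero' (B (g * h) - B g * B h) (Set.range fun g : H => hgtR π (F g))
      (c * K) (by
        intro δ hδ
        obtain ⟨C1, hC10, hC1⟩ := hsub (δ / ((3 + Cb) * (K * cz + 1))) (by positivity)
        set δ' : ℝ := δ / ((3 + Cb) * (K * cz + 1)) with hδ'
        have hδ'0 : 0 < δ' := by positivity
        refine ⟨δ' * (3 + Cb) * (K * K + K) + δ' * wordLength (T : Set H) h + (3 + Cb) * C1 +
          ∑ j, |hgtR π (F (g * h)) j - hgtR π (F g) j| + ∑ j, |B g (hgtR π (F h)) j|, ?_⟩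
        intro v
        obtain ⟨q, hq1, hq2⟩ := hdense v
        refine ⟨_, ⟨q, rfl⟩, hq1, fun i => ?_⟩
        have h1 := hC1 (g * h) q i
        have h2 := hC1 g (h * q) i
        have h3 := hCb (hgtR π (F (h * q)) - hgtR π (F h) - B h (hgtR π (F q)))
          (δ' * wordLength (T : Set H) q + C1) (fun i => hC1 h q i) i
        rw [map_sub, map_sub] at h3
        rw [mul_assoc] at h1
        simp only [Pi.sub_apply] at h3
        have hq2' : (wordLength (T : Set H) q : ℝ) ≤ K * (cz * n1 v + K) + K := by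
          exact_mod_cast hq2
        have hqn : (0 : ℝ) ≤ wordLength (T : Set H) q := Nat.cast_nonneg _
        have h4 : |B g (hgtR π (F h)) i| ≤ ∑ j, |B g (hgtR π (F h)) j| :=
          Finset.single_le_sum (f := fun j => |B g (hgtR π (F h)) j|)
            (fun _ _ => abs_nonneg _) (Finset.mem_univ i)
        have h5 : |hgtR π (F (g * h)) i - hgtR π (F g) i| ≤
            ∑ j, |hgtR π (F (g * h)) j - hgtR π (F g) j| :=
          Finset.single_le_sum (f := fun j => |hgtR π (F (g * h)) j - hgtR π (F g) j|)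
            (fun _ _ => abs_nonneg _) (Finset.mem_univ i)
        have h6 : (wordLength (T : Set H) (h * q) : ℝ) ≤
            wordLength (T : Set H) h + wordLength (T : Set H) q := by
          exact_mod_cast wordLength_mul_le hT h q
        have h7 : |δ' * (wordLength (T : Set H) q : ℝ) + C1| = δ' * wordLength (T : Set H) q + C1 :=
          abs_of_nonneg (by positivity)
        rw [h7] at h3
        have h8 : δ' * (3 + Cb) * (wordLength (T : Set H) q : ℝ) ≤
            δ * n1 v + δ' * (3 + Cb) * (K * K + K) := by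
          have h9 : δ' * (3 + Cb) * (wordLength (T : Set H) q : ℝ) ≤
              δ' * (3 + Cb) * (K * (cz * n1 v + K) + K) :=
            mul_le_mul_of_nonneg_left hq2' (by positivity)
          have h10 : δ' * (3 + Cb) * (K * cz) ≤ δ := by
            have h11 : δ' * (3 + Cb) * (K * cz + 1) = δ := by
              rw [hδ']; field_simp
            have : 0 ≤ δ' * (3 + Cb) := by positivity
            linarith
          have h11 := mul_le_mul_of_nonneg_right h10 (Nat.cast_nonneg (α := ℝ) (n1 v))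
          linarith
        have h12 : δ' * (wordLength (T : Set H) (h * q) : ℝ) ≤
            δ' * (wordLength (T : Set H) h + wordLength (T : Set H) q) :=
          mul_le_mul_of_nonneg_left h6 hδ'0.le
        show |(B (g * h) (hgtR π (F q)) - B g (B h (hgtR π (F q)))) i| ≤ _
        rw [Pi.sub_apply]
        have h13 : 0 ≤ δ' * (wordLength (T : Set H) q : ℝ) := by positivity
        rw [abs_le] at h1 h2 h3 h4 h5 ⊢
        constructor <;> linarith [h1.1, h1.2, h2.1, h2.2, h3.1, h3.2, h4.1, h4.2, h5.1, h5.2])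
    exact sub_eq_zero.1 hz
  have hone : B 1 = 1 := by
    have hz := linear_eq_zero' (B 1 - 1) (Set.range fun g : H => hgtR π (F g))
      (c * K) (by
        intro δ hδ
        obtain ⟨C1, hC10, hC1⟩ := hsub (δ / (K * cz + 1)) (by positivity)
        set δ' : ℝ := δ / (K * cz + 1) with hδ'
        have hδ'0 : 0 < δ' := by positivity
        refine ⟨δ' * (K * K + K) + C1, ?_⟩
        intro v
        obtain ⟨q, hq1, hq2⟩ := hdense v
        refine ⟨_, ⟨q, rfl⟩, hq1, fun i => ?_⟩
        have h1 := hC1 1 q i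
        rw [one_mul, hF1, hgtR_one] at h1
        have hq2' : (wordLength (T : Set H) q : ℝ) ≤ K * (cz * n1 v + K) + K := by
          exact_mod_cast hq2
        have h9 : δ' * (wordLength (T : Set H) q : ℝ) ≤ δ' * (K * (cz * n1 v + K) + K) :=
          mul_le_mul_of_nonneg_left hq2' hδ'0.le
        have h10 : δ' * (K * cz) ≤ δ := by
          have h11 : δ' * (K * cz + 1) = δ := by rw [hδ']; field_simp
          linarith
        have h11 := mul_le_mul_of_nonneg_right h10 (Nat.cast_nonneg (α := ℝ) (n1 v))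
        show |(B 1 (hgtR π (F q)) - hgtR π (F q)) i| ≤ _
        rw [Pi.sub_apply]
        rw [abs_le] at h1 ⊢
        constructor <;> linarith [h1.1, h1.2])
    exact sub_eq_zero.1 hz
  -- the finite-index subgroup
  let β : H →* Module.End ℝ (Fin k → ℝ) := ⟨⟨B, hone⟩, hmul⟩
  have hfin : Finite β.toHomUnits.range := by
    have h1 : (Set.range β.toHomUnits).Finite := by
      refine Set.Finite.of_finite_image (f := fun u : (Module.End ℝ (Fin k → ℝ))ˣ =>
        (u : Module.End ℝ (Fin k → ℝ))) (hLL.subset ?_) Units.val_injective.injOn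
      rintro _ ⟨_, ⟨g, rfl⟩, rfl⟩
      exact hB g
    exact h1.to_subtype
  have hFI : β.toHomUnits.ker.FiniteIndex := Subgroup.finiteIndex_ker _
  have hBone : ∀ g ∈ β.toHomUnits.ker, B g = 1 := by
    intro g hg
    have h1 : β.toHomUnits g = 1 := hg
    exact congrArg (fun u : (Module.End ℝ (Fin k → ℝ))ˣ => (u : Module.End ℝ (Fin k → ℝ))) h1
  set H0 : Subgroup H := β.toHomUnits.ker with hH0
  have hHa : Amen H := amen_of_qi hT hS hF hGa
  have hH0a : Amen H0 := hHa.subgroup H0
  -- the defect function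
  have hdef : ∀ i : Fin k, ∀ y : H0, BddAbove (Set.range fun g : H0 =>
      |hgtR π (F (g * y)) i - hgtR π (F g) i - hgtR π (F y) i|) := by
    intro i y
    obtain ⟨C', -, hC'⟩ := hsub 1 one_pos
    refine ⟨1 * wordLength (T : Set H) (y : H) + C', ?_⟩
    rintro _ ⟨g, rfl⟩
    have := hC' g y i
    rw [hBone g g.2] at this
    exact this
  have hdef2 : ∀ i : Fin k, ∃ θ : H0 →* Multiplicative ℝ, ∀ y : H0,
      |hgtR π (F y) i - (θ y).toAdd| ≤ ⨆ g : H0,
        |hgtR π (F (g * y)) i - hgtR π (F g) i - hgtR π (F y) i| := by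
    intro i
    refine exists_hom_of_defect hH0a (fun g : H0 => hgtR π (F g) i) _ (fun g y => ?_)
    exact le_ciSup (hdef i y) g
  choose θ hθ using hdef2
  refine ⟨H0, hFI, ⟨⟨fun g => Multiplicative.ofAdd fun i => (θ i g).toAdd, ?_⟩, ?_⟩, ?_⟩
  · refine congrArg Multiplicative.ofAdd ?_
    funext i
    simp
  · intro a b
    refine congrArg Multiplicative.ofAdd ?_
    funext i
    simp
  · intro ε hε
    refine ⟨2 * (|C (ε / 2)| * cl + D1), fun g y m hm i => ?_⟩
    have h1 : ∀ g : H0, |hgtR π (F (g * y)) i - hgtR π (F g) i - hgtR π (F y) i| ≤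
        ε / 2 * (n1 (hgt π (F y)) + Real.log (2 + m)) +
          (|C (ε / 2)| * cl + D1) * Real.log (2 + wordLength (T : Set H) (y : H)) := by
      intro g
      have := hest g y (ε / 2) (by positivity) m hm i
      rw [hBone g g.2] at this
      exact this
    have h2 : |hgtR π (F y) i - (θ i y).toAdd| ≤
        ε / 2 * (n1 (hgt π (F y)) + Real.log (2 + m)) +
          (|C (ε / 2)| * cl + D1) * Real.log (2 + wordLength (T : Set H) (y : H)) :=
      (hθ i y).trans (ciSup_le h1)
    have h3 := h1 g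
    show |hgtR π (F (g * y)) i - hgtR π (F g) i - (θ i y).toAdd| ≤ _
    rw [abs_le] at h2 h3 ⊢
    constructor <;> linarith [h2.1, h2.2, h3.1, h3.2]

end Theta

/-- **Reduction theorem, weak form**: everything follows from `Law`. -/
theorem final_of_law {P : Type u} {H : Type v} [Group P] [Group H] (S : Finset P)
    (hS : Subgroup.closure (S : Set P) = ⊤) (T : Finset H)
    (hT : Subgroup.closure (T : Set H) = ⊤) (hP : IsVirtuallyPolycyclic P) (F : H → P)
    (hF : IsQuasiIsometry (wordDist (T : Set H)) (wordDist (S : Set P)) F)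
    (G₁ : Subgroup P) [G₁.FiniteIndex] (S₁ : Finset G₁)
    (hS₁ : Subgroup.closure (S₁ : Set G₁) = ⊤) {k : ℕ}
    (π : G₁ →* Multiplicative (Fin k → ℤ)) (hπ : Function.Surjective π)
    (A : Set G₁) (hA : Sym A) (hAf : A.Finite) (hcl : Subgroup.closure A = π.ker)
    (Cg d : ℕ) (hgrow : ∀ m : ℕ, 1 ≤ m → (A ^ m).ncard ≤ Cg * m ^ d)
    (x : Fin k → G₁) (hx : ∀ i, hgt π (x i) = Pi.single i 1)
    (hlaw : Law (S₁ : Set G₁) π A x) : IsVirtuallyPolycyclic H := by
  have hG₁ : Amen G₁ := (amen_of_virtuallyPolycyclic hP).subgroup G₁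
  obtain ⟨K, -, hK⟩ := exists_QIMap hF
  obtain ⟨K₁, hK₁⟩ := QIMap_subtype hS G₁ S₁ hS₁
  obtain ⟨E, K₂, hE, -, -⟩ := hK₁.exists_inverse hS₁ hS
  have hEF := (QIMap.comp hS₁ hE hK).normalise
  set F' : H → G₁ := fun x => ((E ∘ F) 1)⁻¹ * (E ∘ F) x with hF'
  have hF'1 : F' 1 = 1 := by simp [hF']
  obtain ⟨H0, hH0, θ, hθ⟩ := exists_theta hG₁ S₁ hS₁ hπ hA hAf hcl hx hlaw T hT F' _ hEF hF'1
  have hHfg : Group.FG H := ⟨T, hT⟩
  have hH0fg : Group.FG H0 := inferInstance
  obtain ⟨T0, hT0⟩ := hH0fg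
  obtain ⟨K₃, hK₃⟩ := QIMap_subtype hT H0 T0 hT0
  have hF0 := QIMap.comp hS₁ hEF hK₃
  -- comparison of word lengths
  obtain ⟨cw, hcw⟩ : ∃ c : ℕ, ∀ y : H0, wordLength (T : Set H) (y : H) ≤
      c * wordLength (T0 : Set H0) y + c := by
    refine ⟨K₃, fun y => ?_⟩
    have := hK₃.up 1 y
    simpa using this
  have hl2 : 0 < Real.log 2 := Real.log_pos (by norm_num)
  set cl : ℝ := (Real.log (cw + 1) + 1) / Real.log 2 with hcl'
  have hcwR : (0 : ℝ) ≤ cw := Nat.cast_nonneg cw
  have h4 : 0 ≤ Real.log ((cw : ℝ) + 1) := Real.log_nonneg (by linarith)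
  have hcl0 : 0 ≤ cl := by positivity
  have hloglen : ∀ y : H0, Real.log (2 + wordLength (T : Set H) (y : H)) ≤
      cl * Real.log (2 + wordLength (T0 : Set H0) y) := by
    intro y
    have hw : (0 : ℝ) ≤ wordLength (T0 : Set H0) y := Nat.cast_nonneg _
    have h1 : (2 + (wordLength (T : Set H) (y : H) : ℝ)) ≤
        (cw + 1) * (2 + wordLength (T0 : Set H0) y) := by
      have h2 : (wordLength (T : Set H) (y : H) : ℝ) ≤ cw * wordLength (T0 : Set H0) y + cw := by
        exact_mod_cast hcw y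
      nlinarith
    have h3 : Real.log 2 ≤ Real.log (2 + wordLength (T0 : Set H0) y) :=
      Real.log_le_log (by norm_num) (by linarith)
    calc Real.log (2 + wordLength (T : Set H) (y : H))
        ≤ Real.log ((cw + 1) * (2 + wordLength (T0 : Set H0) y)) :=
          Real.log_le_log (by positivity) h1
      _ = Real.log (cw + 1) + Real.log (2 + wordLength (T0 : Set H0) y) :=
          Real.log_mul (by positivity) (by positivity)
      _ ≤ cl * Real.log (2 + wordLength (T0 : Set H0) y) := by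
          rw [hcl', div_mul_eq_mul_div, le_div_iff₀ hl2]
          have h5 : Real.log 2 ≤ 1 := by
            have := Real.log_le_sub_one_of_pos (by norm_num : (0 : ℝ) < 2)
            linarith
          nlinarith [mul_le_mul_of_nonneg_left h3 h4, mul_le_mul_of_nonneg_right h5 hl2.le,
            mul_nonneg h4 hl2.le]
  have hlogpos : ∀ n : ℕ, 0 ≤ Real.log (2 + (n : ℝ)) := by
    intro n
    exact Real.log_nonneg (by have : (0 : ℝ) ≤ n := Nat.cast_nonneg _
                              linarith)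
  set F0 : H0 → G₁ := F' ∘ (fun x : H0 => (x : H)) with hF0'
  -- the law on `H0`
  have hlaw0 : ∀ ε : ℝ, 0 < ε → ∃ C : ℝ, 0 ≤ C ∧ ∀ (g y : H0) (m : ℕ),
        F0 y * (z x (hgt π (F0 y)))⁻¹ ∈ A ^ m → ∀ i : Fin k,
        |hgtR π (F0 (g * y)) i - hgtR π (F0 g) i - ht θ y i| ≤
          ε * (n1 (hgt π (F0 y)) + Real.log (2 + m)) +
            C * Real.log (2 + wordLength (T0 : Set H0) y) := by
    intro ε hε
    obtain ⟨C, hC⟩ := hθ ε hε
    refine ⟨|C| * cl, by positivity, fun g y m hm i => ?_⟩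
    refine (hC g y m hm i).trans ?_
    have h5 := hlogpos (wordLength (T : Set H) (y : H))
    have h6 : C * Real.log (2 + wordLength (T : Set H) (y : H)) ≤
        |C| * cl * Real.log (2 + wordLength (T0 : Set H0) y) := by
      calc C * Real.log (2 + wordLength (T : Set H) (y : H))
          ≤ |C| * Real.log (2 + wordLength (T : Set H) (y : H)) :=
            mul_le_mul_of_nonneg_right (le_abs_self _) h5
        _ ≤ |C| * (cl * Real.log (2 + wordLength (T0 : Set H0) y)) :=
            mul_le_mul_of_nonneg_left (hloglen y) (abs_nonneg _)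
        _ = _ := by ring
    exact add_le_add le_rfl h6
  have hHL : HLaw (T0 : Set H0) π A x F0 θ := by
    intro ε hε
    obtain ⟨C, -, hC⟩ := hlaw0 ε hε
    refine ⟨C, fun y m hm i => ?_⟩
    have h1 := hC 1 y m hm i
    have h2 : hgtR π (F0 1) i = 0 := by
      have : F0 1 = 1 := by simp [hF0', hF'1]
      rw [this, hgtR_one]
    rwa [one_mul, h2, sub_zero] at h1
  have hSub : SubLaw (T0 : Set H0) π F0 θ := by
    intro δ hδ
    obtain ⟨cn, hcn0, hcn⟩ := exists_nlen S₁.finite_toSet hS₁ hA hAf hcl hx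
    obtain ⟨c, hc⟩ := exists_n1_le S₁.finite_toSet hS₁ π
    set K' := (K * K₂ + K + 2 * K₂) with hK'
    set K4 : ℕ := K₃ * K' + K₃ + 2 * K' with hK4
    set ε : ℝ := δ / (2 * (c + cn + 1) * (K4 + 1)) with hε
    have hε0 : 0 < ε := by positivity
    obtain ⟨D, hD0, hD⟩ := hlaw0 ε hε0
    obtain ⟨C2, hC20, hC2⟩ := exists_log_le (δ := δ / (2 * (D + 1))) (by positivity)
    refine ⟨ε * ((c + cn) * K4 + cn) + D * C2, fun g y i => ?_⟩
    obtain ⟨m, hm, hml⟩ := hcn (F0 y)
    have h1 := hD g y m hm i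
    have hw : (0 : ℝ) ≤ wordLength (T0 : Set H0) y := Nat.cast_nonneg _
    have h2 : (wordLength (S₁ : Set G₁) (F0 y) : ℝ) ≤ K4 * wordLength (T0 : Set H0) y + K4 := by
      have h3 := hF0.displacement 1 y
      have h4 : F0 1 = 1 := by simp [hF0', hF'1]
      have h5 : nd (S₁ : Set G₁) (F0 1) (F0 (1 * y)) ≤ K4 * wordLength (T0 : Set H0) y + K4 := h3
      rw [h4, one_mul, nd_one_left] at h5
      exact_mod_cast h5
    have h3 : (n1 (hgt π (F0 y)) : ℝ) ≤ c * wordLength (S₁ : Set G₁) (F0 y) := by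
      exact_mod_cast hc (F0 y)
    have h4 : n1 (hgt π (F0 y)) + Real.log (2 + m) ≤
        (c + cn) * (K4 * wordLength (T0 : Set H0) y + K4) + cn := by
      have h5 : (c : ℝ) * wordLength (S₁ : Set G₁) (F0 y) ≤
          c * (K4 * wordLength (T0 : Set H0) y + K4) :=
        mul_le_mul_of_nonneg_left h2 (Nat.cast_nonneg c)
      have h6 : cn * (wordLength (S₁ : Set G₁) (F0 y) + 1) ≤
          cn * ((K4 * wordLength (T0 : Set H0) y + K4) + 1) :=
        mul_le_mul_of_nonneg_left (by linarith) hcn0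
      linarith
    have h5 := mul_le_mul_of_nonneg_left h4 hε0.le
    have h6 : ε * ((c + cn) * K4 * wordLength (T0 : Set H0) y) ≤
        δ / 2 * wordLength (T0 : Set H0) y := by
      have h7 : ε * ((c + cn) * K4) ≤ δ / 2 := by
        rw [hε, div_mul_eq_mul_div, div_le_div_iff₀ (by positivity) (by norm_num)]
        have hK : (0 : ℝ) ≤ K4 := Nat.cast_nonneg K4
        have hc0 : (0 : ℝ) ≤ c := Nat.cast_nonneg c
        nlinarith [mul_nonneg hδ.le hK, mul_nonneg hδ.le hc0, mul_nonneg hδ.le hcn0,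
          mul_nonneg (mul_nonneg hδ.le hK) hc0, mul_nonneg (mul_nonneg hδ.le hK) hcn0]
      calc ε * ((c + cn) * K4 * wordLength (T0 : Set H0) y)
          = (ε * ((c + cn) * K4)) * wordLength (T0 : Set H0) y := by ring
        _ ≤ _ := mul_le_mul_of_nonneg_right h7 hw
    have h7 := mul_le_mul_of_nonneg_left (hC2 (wordLength (T0 : Set H0) y)) hD0
    have h8 : D * (δ / (2 * (D + 1)) * wordLength (T0 : Set H0) y) ≤
        δ / 2 * wordLength (T0 : Set H0) y := by
      have h9 : D * (δ / (2 * (D + 1))) ≤ δ / 2 := by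
        rw [mul_div_assoc', div_le_div_iff₀ (by positivity) (by norm_num)]
        nlinarith
      calc D * (δ / (2 * (D + 1)) * wordLength (T0 : Set H0) y)
          = (D * (δ / (2 * (D + 1)))) * wordLength (T0 : Set H0) y := by ring
        _ ≤ _ := mul_le_mul_of_nonneg_right h9 hw
    nlinarith
  have h1 : IsVirtuallyPolycyclic H0 :=
    finalg ⟨T0, hT0⟩ θ (slabGrowth_of_law hT0 hS₁ hF0 hA hAf hcl hgrow hx hHL)
      (slabConn_of_sub hT0 hS₁ hF0 hA hAf hcl hx hSub)
  exact Polyc.isVirtuallyPolycyclic_of_finiteIndex H0 hH0.index_ne_zero h1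

end Crest.Agent.R182.Wk
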