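/-
R182, module BND (helper658): the logarithmic law for zero-weight moves, version with finely
subdivided zero-weight elements.
-/
import Mathlib
import Crest.Agent.R182.BndZL

set_option autoImplicit false

open Filter Topology

namespace Crest.Agent.R182.Bnd

variable {G : Type*} [Group G]

/-- `v` can be subdivided into polynomially many pieces with bounded partial products, whose
conjugates by `b⁻ᵏ` are bounded. -/
def Fine (len : G → ℝ) (b v : G) : Prop :=
  ∃ (R : ℝ) (d : ℕ), ∀ k : ℕ, ∃ l : List G, l.prod = v ∧ (l.length : ℝ) ≤ R * (1 + k) ^ d ∧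
    (∀ i, len (l.take i).prod ≤ R) ∧ ∀ w ∈ l, len ((b ^ k)⁻¹ * w * b ^ k) ≤ R

section Limit

variable {len ω : G → ℝ} {χ δ : G → ℂ} {c A : ℝ}

variable {b : G} {Ψ : G → G} {f : G → ℂ} {Cf : ℝ}

/-- invariance under finely subdivided elements -/
theorem LimFun.inv_fine (hl : IsLen len) (h : Crossed len ω χ δ c A) {K η C₁ : ℝ}
    (hη : 0 < η) (hCf : 0 ≤ Cf) (hK : 0 ≤ K)
    (hΨ : SelfQI len Ψ K) (hD : Descent ω b Ψ η C₁) (hf : LimFun ω δ b Ψ f Cf)
    {v : G} (hv : Fine len b v) (x : G) : f (x * v) = f x := by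
  obtain ⟨R, d, hR⟩ := hv
  have hc := h.c_nonneg
  have hA := h.A_nonneg
  set B : ℝ := (2 * Cf + A) * Real.exp (ω (Ψ x) + c * (K * R + K) + C₁) *
    Real.exp (c * (K * R + K)) with hB
  have hB0 : 0 ≤ B := by positivity
  have hb : ∀ k : ℕ, ‖f (x * v) - f x‖ ≤ (|R| * B) * ((1 + (k:ℝ)) ^ d * (Real.exp (-η)) ^ k) := by
    intro k
    obtain ⟨l, hl1, hl2, hl3, hl4⟩ := hR k
    have hstep : ∀ i, i ≤ l.length → ‖f (x * (l.take i).prod) - f x‖ ≤
        i * (B * (Real.exp (-η)) ^ k) := by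
      intro i
      induction i with
      | zero => intro _; simp
      | succ i ih =>
        intro hi
        have hi' : i < l.length := hi
        set p := (l.take i).prod with hp
        set w := l[i] with hw
        have h1 : (l.take (i + 1)).prod = p * w := by
          rw [hp, hw, List.take_succ_eq_append_getElem hi', List.prod_append,
            List.prod_singleton]
        set y := (b ^ k)⁻¹ * w * b ^ k with hy
        have hylen : len y ≤ R := hl4 w (List.getElem_mem hi')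
        have h2 : f (x * (p * w)) = f (x * p * b ^ k * y) := by
          rw [← hf.inv_pow (x * (p * w)) k]
          congr 1
          rw [hy]; group
        have h3 : f (x * p) = f (x * p * b ^ k) := (hf.inv_pow _ k).symm
        have h4 := hf.diff hl h hCf hΨ (x * p * b ^ k) y
        rw [← h2, ← h3] at h4
        have h5 : ω (Ψ (x * p * b ^ k)) ≤ ω (Ψ x) + c * (K * R + K) + C₁ + k * (-η) := by
          have e1 := hD (x * p) k
          have e2 := h.ω_diff (Ψ x) (Ψ (x * p))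
          have e3 := hΨ.lip x p
          have e4 : K * len p ≤ K * R := mul_le_mul_of_nonneg_left (hl3 i) hK
          have e5 : c * len ((Ψ x)⁻¹ * Ψ (x * p)) ≤ c * (K * R + K) :=
            mul_le_mul_of_nonneg_left (by linarith) hc
          linarith
        have h6 : ‖f (x * (p * w)) - f (x * p)‖ ≤ B * (Real.exp (-η)) ^ k := by
          refine h4.trans ?_
          rw [hB, ← Real.exp_nat_mul]
          calc (2 * Cf + A) * Real.exp (ω (Ψ (x * p * b ^ k))) * Real.exp (c * (K * len y + K))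
              ≤ (2 * Cf + A) * Real.exp (ω (Ψ x) + c * (K * R + K) + C₁ + k * (-η)) *
                Real.exp (c * (K * R + K)) := by
                have : K * len y ≤ K * R := mul_le_mul_of_nonneg_left hylen hK
                gcongr
            _ = _ := by rw [Real.exp_add _ ((k : ℝ) * (-η))]; ring
        rw [h1]
        have h7 : f (x * (p * w)) - f x = (f (x * (p * w)) - f (x * p)) + (f (x * p) - f x) := by
          ring
        rw [h7]
        refine (norm_add_le _ _).trans ?_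
        have := ih (Nat.le_of_succ_le hi)
        push_cast
        linarith
    have h1 := hstep l.length le_rfl
    rw [List.take_length, hl1] at h1
    refine h1.trans ?_
    have h2 : (l.length : ℝ) ≤ |R| * (1 + (k:ℝ)) ^ d :=
      hl2.trans (mul_le_mul_of_nonneg_right (le_abs_self R) (by positivity))
    calc (l.length : ℝ) * (B * Real.exp (-η) ^ k) ≤
          (|R| * (1 + (k:ℝ)) ^ d) * (B * Real.exp (-η) ^ k) :=
          mul_le_mul_of_nonneg_right h2 (by positivity)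
      _ = _ := by ring
  have hr1 : Real.exp (-η) < 1 := Real.exp_lt_one_iff.2 (by linarith)
  have h0 : Tendsto (fun k : ℕ => (|R| * B) * ((1 + (k:ℝ)) ^ d * (Real.exp (-η)) ^ k)) atTop
      (𝓝 ((|R| * B) * 0)) := by
    refine Tendsto.const_mul _ ?_
    have h1 := (tendsto_pow_const_mul_const_pow_of_abs_lt_one d
      (by rwa [abs_of_pos (Real.exp_pos _)] : |Real.exp (-η)| < 1)).comp (tendsto_add_atTop_nat 1)
    have h2 := h1.const_mul (Real.exp (-η))⁻¹
    rw [mul_zero] at h2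
    refine h2.congr fun k => ?_
    have hne : Real.exp (-η) ≠ 0 := (Real.exp_pos _).ne'
    simp only [Function.comp]
    push_cast
    rw [pow_succ]
    field_simp
    ring
  rw [mul_zero] at h0
  have h1 : ‖f (x * v) - f x‖ ≤ 0 := ge_of_tendsto' h0 hb
  exact sub_eq_zero.1 (norm_le_zero_iff.1 h1)

end Limit

section Main

variable {len ω : G → ℝ} {χ δ : G → ℂ} {c A : ℝ}

/-- **ZL**: the log law for zero-weight moves. -/
theorem log_law' (hl : IsLen len) (h : Crossed len ω χ δ c A) (b : G) {C : Set G} {N0 : Set G}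
    (hN0 : N0 ⊆ C) (hfine : ∀ v ∈ N0, Fine len b v)
    (hcomm : ∀ g ∈ C, ∀ k : ℕ, g⁻¹ * ((b ^ k)⁻¹ * g * b ^ k) ∈ N0) (hdeep : Deep ω δ)
    (hN0inv : ∀ v ∈ N0, v⁻¹ ∈ N0) {sz : G → ℝ} (hsz : ∀ v, 0 ≤ sz v)
    (hszinv : ∀ v ∈ N0, sz v⁻¹ = sz v) (hdec : Dec len sz C N0) {K η : ℝ} (C₁ : ℝ)
    (hK : 0 ≤ K) (hη : 0 < η) :
    ∃ C₂ : ℝ, 0 ≤ C₂ ∧ ∀ Ψ : G → G, SelfQI len Ψ K → Descent ω b Ψ η C₁ →
      ∀ x : G, ∀ v ∈ N0, |ω (Ψ (x * v)) - ω (Ψ x)| ≤ C₂ * Real.log (2 + sz v) := by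
  obtain ⟨Cf, hCf, hlim⟩ := exists_limFun (K := K) (C₁ := C₁) h b hη
  have hA0 := h.A_nonneg
  have hc0 := h.c_nonneg
  -- choice of T
  obtain ⟨T, hT⟩ : ∃ T : ℝ, (Cf + A) * Real.exp (c * K) * Real.exp (-T) ≤ 1 / 4 := by
    have h0 : Tendsto (fun T : ℝ => (Cf + A) * Real.exp (c * K) * Real.exp (-T)) atTop
        (𝓝 (_ * 0)) := (Real.tendsto_exp_neg_atTop_nhds_zero).const_mul _
    rw [mul_zero] at h0
    obtain ⟨T, hT⟩ := (h0.eventually (ge_mem_nhds (by norm_num : (0:ℝ) < 1 / 4))).exists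
    exact ⟨T, hT⟩
  obtain ⟨y, y', hy, hy', hyy⟩ := hdeep T
  set R₀ : ℝ := K * max (len y) (len y') + K with hR₀
  obtain ⟨CR, hCR⟩ := hdec R₀
  set B : ℝ := 4 * (2 * Cf + A) * Real.exp (c * K) with hB
  have hlog2 : 0 < Real.log 2 := Real.log_pos (by norm_num)
  have hloglen : ∀ v : G, Real.log 2 ≤ Real.log (2 + sz v) := fun v =>
    Real.log_le_log (by norm_num) (by have := hsz v; linarith)
  set C₂ : ℝ := c * K * |CR| + |Real.log B| / Real.log 2 with hC₂
  have hC₂0 : 0 ≤ C₂ := by positivity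
  refine ⟨C₂, hC₂0, fun Ψ hΨ hD => ?_⟩
  obtain ⟨f, hf⟩ := hlim Ψ hΨ hD
  have hinv0 : ∀ v ∈ N0, ∀ x, f (x * v) = f x := fun v hv x =>
    hf.inv_fine hl h hη hCf hK hΨ hD (hfine v hv) x
  have hinv : ∀ v ∈ C, ∀ x, f (x * v) = f x := fun v hv x =>
    hf.inv_step hl h hη hCf hK hΨ hD (V := N0) hinv0 (R := len v) (fun k =>
      ⟨v, v⁻¹ * ((b ^ k)⁻¹ * v * b ^ k), le_rfl, hcomm v hv k, by group⟩) x
  -- lower bound at every base point
  have hlow1 : ∀ x w : G, ω w ≤ -T → ∀ z, len (w⁻¹ * ((Ψ x)⁻¹ * Ψ (x * z))) ≤ K →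
      ‖f (x * z) - (δ (Ψ x) + χ (Ψ x) * δ w)‖ ≤ Real.exp (ω (Ψ x)) * (1 / 4) := by
    intro x w hw z hz
    set s := w⁻¹ * ((Ψ x)⁻¹ * Ψ (x * z)) with hs
    have hΨz : Ψ (x * z) = Ψ x * (w * s) := by rw [hs]; group
    have hωs : ω s ≤ c * K := (le_abs_self _).trans
      ((h.ω_le s).trans (mul_le_mul_of_nonneg_left hz hc0))
    have h1 : δ (Ψ (x * z)) = δ (Ψ x) + χ (Ψ x) * δ w + χ (Ψ x) * (χ w * δ s) := by
      rw [hΨz, h.δ_mul, h.δ_mul]; ring
    have h2 : ω (Ψ (x * z)) = ω (Ψ x) + ω w + ω s := by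
      rw [hΨz, h.ω_mul, h.ω_mul]; ring
    have h3 : f (x * z) - (δ (Ψ x) + χ (Ψ x) * δ w) =
        (f (x * z) - δ (Ψ (x * z))) + χ (Ψ x) * (χ w * δ s) := by rw [h1]; ring
    have h4 : ‖f (x * z) - δ (Ψ (x * z))‖ ≤
        Cf * (Real.exp (ω (Ψ x)) * (Real.exp (-T) * Real.exp (c * K))) := by
      refine (hf.close _).trans (mul_le_mul_of_nonneg_left ?_ hCf)
      rw [h2, ← Real.exp_add, ← Real.exp_add]
      exact Real.exp_le_exp.2 (by linarith)
    have h5 : ‖χ (Ψ x) * (χ w * δ s)‖ ≤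
        Real.exp (ω (Ψ x)) * (Real.exp (-T) * (A * Real.exp (c * K))) := by
      rw [norm_mul, norm_mul, h.χ_norm, h.χ_norm]
      refine mul_le_mul_of_nonneg_left ?_ (Real.exp_pos _).le
      refine mul_le_mul (Real.exp_le_exp.2 hw) ?_ (norm_nonneg _) (Real.exp_pos _).le
      exact (h.δ_le s).trans (mul_le_mul_of_nonneg_left
        (Real.exp_le_exp.2 (mul_le_mul_of_nonneg_left hz hc0)) hA0)
    rw [h3]
    calc _ ≤ _ := norm_add_le _ _
      _ ≤ _ := add_le_add h4 h5
      _ = Real.exp (ω (Ψ x)) * ((Cf + A) * Real.exp (c * K) * Real.exp (-T)) := by ring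
      _ ≤ _ := mul_le_mul_of_nonneg_left hT (Real.exp_pos _).le
  have hlow : ∀ x : G, ∃ e : G, (∀ v ∈ N0, len (v * e * v⁻¹) ≤ CR * Real.log (2 + sz v)) ∧
      Real.exp (ω (Ψ x)) * (1 / 4) ≤ ‖f (x * e) - f x‖ := by
    intro x
    obtain ⟨z, hzl, hz⟩ := hΨ.onto x y
    obtain ⟨z', hzl', hz'⟩ := hΨ.onto x y'
    have h1 := hlow1 x y hy z hz
    have h2 := hlow1 x y' hy' z' hz'
    have hzR : len z ≤ R₀ := hzl.trans (by
      rw [hR₀]; have := mul_le_mul_of_nonneg_left (le_max_left (len y) (len y')) hK; linarith)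
    have hzR' : len z' ≤ R₀ := hzl'.trans (by
      rw [hR₀]; have := mul_le_mul_of_nonneg_left (le_max_right (len y) (len y')) hK; linarith)
    obtain ⟨e, g, rfl, hg, he⟩ := hCR z hzR
    obtain ⟨e', g', rfl, hg', he'⟩ := hCR z' hzR'
    rw [← mul_assoc, hinv g hg] at h1
    rw [← mul_assoc, hinv g' hg'] at h2
    have h3 : Real.exp (ω (Ψ x)) ≤ ‖χ (Ψ x) * (δ y - δ y')‖ := by
      rw [norm_mul, h.χ_norm]
      exact le_mul_of_one_le_right (Real.exp_pos _).le hyy
    have h4 : χ (Ψ x) * (δ y - δ y') = (f (x * e) - f x) - (f (x * e') - f x)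
        - (f (x * e) - (δ (Ψ x) + χ (Ψ x) * δ y))
        + (f (x * e') - (δ (Ψ x) + χ (Ψ x) * δ y')) := by ring
    rw [h4] at h3
    have h5 : ‖(f (x * e) - f x) - (f (x * e') - f x)
        - (f (x * e) - (δ (Ψ x) + χ (Ψ x) * δ y))
        + (f (x * e') - (δ (Ψ x) + χ (Ψ x) * δ y'))‖ ≤
        ‖f (x * e) - f x‖ + ‖f (x * e') - f x‖ + Real.exp (ω (Ψ x)) * (1 / 4)
          + Real.exp (ω (Ψ x)) * (1 / 4) := by
      refine (norm_add_le _ _).trans (add_le_add ((norm_sub_le _ _).trans (add_le_add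
        (norm_sub_le _ _) h1)) h2)
    have h6 := h3.trans h5
    by_cases hcase : Real.exp (ω (Ψ x)) * (1 / 4) ≤ ‖f (x * e) - f x‖
    · exact ⟨e, he, hcase⟩
    · exact ⟨e', he', by
        have := not_le.1 hcase
        linarith⟩
  -- one-sided bound
  have hone : ∀ x : G, ∀ v ∈ N0, ω (Ψ (x * v)) - ω (Ψ x) ≤ C₂ * Real.log (2 + sz v) := by
    intro x v hv
    obtain ⟨e, he, hlo⟩ := hlow (x * v)
    have h1 : f (x * v * e) = f (x * (v * e * v⁻¹)) := by
      rw [← hinv v⁻¹ (hN0 (hN0inv v hv)) (x * v * e)]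
      congr 1; group
    have h2 : f (x * v) = f x := hinv v (hN0 hv) x
    rw [h1, h2] at hlo
    have h3 := hlo.trans (hf.diff hl h hCf hΨ x (v * e * v⁻¹))
    have hL := (hloglen v)
    have hL0 : 0 < Real.log (2 + sz v) := hlog2.trans_le hL
    have h4 : c * (K * len (v * e * v⁻¹) + K) ≤ c * K * |CR| * Real.log (2 + sz v) + c * K := by
      have h5 : len (v * e * v⁻¹) ≤ |CR| * Real.log (2 + sz v) :=
        (he v hv).trans (mul_le_mul_of_nonneg_right (le_abs_self _) hL0.le)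
      have h6 := mul_le_mul_of_nonneg_left h5 (mul_nonneg hc0 hK)
      nlinarith
    have h5 : Real.exp (ω (Ψ (x * v))) ≤
        B * Real.exp (ω (Ψ x)) * Real.exp (c * K * |CR| * Real.log (2 + sz v)) := by
      have h6 : Real.exp (c * (K * len (v * e * v⁻¹) + K)) ≤
          Real.exp (c * K * |CR| * Real.log (2 + sz v)) * Real.exp (c * K) := by
        rw [← Real.exp_add]; exact Real.exp_le_exp.2 h4
      have h7 : (2 * Cf + A) * Real.exp (ω (Ψ x)) * Real.exp (c * (K * len (v * e * v⁻¹) + K)) ≤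
          (2 * Cf + A) * Real.exp (ω (Ψ x)) *
            (Real.exp (c * K * |CR| * Real.log (2 + sz v)) * Real.exp (c * K)) := by
        gcongr
      rw [hB]
      linarith
    have hBpos : 0 < B := by
      by_contra hneg
      have : B * Real.exp (ω (Ψ x)) * Real.exp (c * K * |CR| * Real.log (2 + sz v)) ≤ 0 :=
        mul_nonpos_of_nonpos_of_nonneg (mul_nonpos_of_nonpos_of_nonneg (not_lt.1 hneg)
          (Real.exp_pos _).le) (Real.exp_pos _).le
      have h7 := Real.exp_pos (ω (Ψ (x * v)))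
      linarith
    have h6 : ω (Ψ (x * v)) ≤ Real.log B + ω (Ψ x) + c * K * |CR| * Real.log (2 + sz v) := by
      rw [← Real.exp_log hBpos, ← Real.exp_add, ← Real.exp_add] at h5
      exact Real.exp_le_exp.1 h5
    have h7 : Real.log B ≤ |Real.log B| / Real.log 2 * Real.log (2 + sz v) := by
      rw [div_mul_eq_mul_div, le_div_iff₀ hlog2]
      calc Real.log B * Real.log 2 ≤ |Real.log B| * Real.log 2 :=
            mul_le_mul_of_nonneg_right (le_abs_self _) hlog2.le
        _ ≤ _ := mul_le_mul_of_nonneg_left hL (abs_nonneg _)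
    rw [hC₂, add_mul]
    linarith
  intro x v hv
  rw [abs_le]
  refine ⟨?_, hone x v hv⟩
  have h1 := hone (x * v) v⁻¹ (hN0inv v hv)
  rw [mul_inv_cancel_right, hszinv v hv] at h1
  linarith

end Main

end Crest.Agent.R182.Bnd
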