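/-
R182, module BND (helper658): the uniform sublinear law implies the law with logarithmic
zero-weight error.
-/
import Mathlib
import Crest.Agent.R182.BndLaw2

set_option autoImplicit false

open Filter Topology
open scoped Pointwise

namespace Crest.Agent.R182.Bnd

open Crest.GroupTheory Crest.Geometry Crest.Agent.R182.QI Crest.Agent.R182.FinPath
  Crest.Agent.R182.FinRed

variable {Γ : Type*} [Group Γ] {k : ℕ} {S : Set Γ} {π : Γ →* Multiplicative (Fin k → ℤ)}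
  {A : Set Γ} {x : Fin k → Γ} {G : Type*} [Group G] (M : DModel S π A x G)

/-- displacement between rounded points -/
theorem DModel.hgt_near (g u : G) (i : Fin k) :
    |hgtR π ((M.r g)⁻¹ * M.r (g * u)) i - M.h u i| ≤ 2 * (M.a * M.a) := by
  have h1 : hgtR π ((M.r g)⁻¹ * M.r (g * u)) i - M.h u i =
      (hgtR π (M.r (g * u)) i - M.h (g * u) i) - (hgtR π (M.r g) i - M.h g i) := by
    rw [hgtR_mul, hgtR_inv, M.h_mul]
    simp only [Pi.add_apply, Pi.neg_apply]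
    ring
  rw [h1]
  have h2 := M.hgt_r (g * u) i
  have h3 := M.hgt_r g i
  have := abs_sub (hgtR π (M.r (g * u)) i - M.h (g * u) i) (hgtR π (M.r g) i - M.h g i)
  linarith

/-- one application of the sublinear law in the model. -/
theorem DModel.sub_step (L : (Fin k → ℝ) →ₗ[ℝ] (Fin k → ℝ)) :
    ∃ cL : ℝ, 0 ≤ cL ∧ ∀ (C : ℝ → ℝ) (Ψ : Γ → Γ), SubAt S π L C Ψ → ∀ ε > 0, ∀ (g u : G)
      (i : Fin k), |M.h (M.ext Ψ (g * u)) i - M.h (M.ext Ψ g) i - L (M.h u) i| ≤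
        ε * (M.a * M.len u) + (cL + ε * (M.a * (2 * M.a) + M.a) + |C ε|) := by
  obtain ⟨cL, hcL, hL⟩ := exists_lin_bound L
  have ha := M.a0
  refine ⟨cL * (2 * (M.a * M.a)), by positivity, fun C Ψ hΨ ε hε g u i => ?_⟩
  have h1 := hΨ ε hε (M.r g) ((M.r g)⁻¹ * M.r (g * u)) i
  rw [mul_inv_cancel_left] at h1
  have h2 := M.near g u
  have h3 := hL (hgtR π ((M.r g)⁻¹ * M.r (g * u)) - M.h u) (2 * (M.a * M.a)) (by positivity)
    (fun i => by simpa using M.hgt_near g u i) i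
  rw [map_sub, Pi.sub_apply] at h3
  rw [M.h_ext, M.h_ext]
  have h4 : hgtR π (Ψ (M.r (g * u))) i - hgtR π (Ψ (M.r g)) i - L (M.h u) i =
      (hgtR π (Ψ (M.r (g * u))) i - hgtR π (Ψ (M.r g)) i
        - L (hgtR π ((M.r g)⁻¹ * M.r (g * u))) i) +
      (L (hgtR π ((M.r g)⁻¹ * M.r (g * u))) i - L (M.h u) i) := by ring
  rw [h4]
  refine (abs_add_le _ _).trans ?_
  have h5 := mul_le_mul_of_nonneg_left h2 hε.le
  have h6 := le_abs_self (C ε)
  nlinarith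

/-- `ℓ¹`-norm of a height -/
def ht1 (u : Fin k → ℝ) : ℝ := ∑ j, |u j|

theorem ht1_nonneg (u : Fin k → ℝ) : 0 ≤ ht1 u := Finset.sum_nonneg fun _ _ => abs_nonneg _

theorem ht1_intCast (v : Fin k → ℤ) : ht1 (fun i => (v i : ℝ)) = n1 v := by
  unfold ht1 n1
  push_cast
  refine Finset.sum_congr rfl fun i _ => ?_
  rw [← Int.cast_abs, ← Nat.cast_natAbs]

/-- A finite family of elements of `C` whose heights positively span, with constant `a'`
(independent of the size of the heights). -/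
structure DModel.Legs (a' : ℝ) where
  idx : Type
  [fin : Fintype idx]
  b : idx → G
  mem : ∀ i, b i ∈ M.C
  R : ℝ
  span : ∀ v : Fin k → ℤ, ∃ n : idx → ℕ,
    (∑ i, (n i : ℝ) * ht1 (M.h (b i)) ≤ a' * ((n1 v : ℝ) + 1)) ∧
    (∑ i, (n i : ℝ) ≤ R * ((n1 v : ℝ) + 1)) ∧
    ∀ j, |(v j : ℝ) - ∑ i, (n i : ℝ) * M.h (b i) j| ≤ R

attribute [instance] DModel.Legs.fin

/-- The sublinear law of a self-map of the model at precision `ε`, for the powers of the legs and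
for the exponentially distorted part. -/
structure DModel.SubB {a' : ℝ} (B : M.Legs a') (L : (Fin k → ℝ) →ₗ[ℝ] (Fin k → ℝ)) (ε C : ℝ)
    (Φ : G → G) : Prop where
  legs : ∀ (g : G) (i : B.idx) (n : ℕ) (j : Fin k),
    |M.h (Φ (g * B.b i ^ n)) j - M.h (Φ g) j - (n : ℝ) * L (M.h (B.b i)) j| ≤
      ε * (n * ht1 (M.h (B.b i))) + C
  exp : ∀ g : G, ∀ e ∈ M.E, ∀ j : Fin k,
    |M.h (Φ (g * e)) j - M.h (Φ g) j| ≤ ε * M.len e + C

variable {M}

theorem DModel.SubB.mono {a' : ℝ} {B : M.Legs a'} {L : (Fin k → ℝ) →ₗ[ℝ] (Fin k → ℝ)}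
    {ε ε' C : ℝ} {Φ : G → G} (h : M.SubB B L ε C Φ) (hε : ε ≤ ε') : M.SubB B L ε' C Φ where
  legs g i n j := (h.legs g i n j).trans (by
    have := mul_le_mul_of_nonneg_right hε
      (mul_nonneg (Nat.cast_nonneg n) (ht1_nonneg (M.h (B.b i))))
    linarith)
  exp g e he j := (h.exp g e he j).trans (by
    have := mul_le_mul_of_nonneg_right hε (M.isLen.nonneg e)
    linarith)

/-- a leg on which a given nonzero functional is quantitatively negative -/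
theorem DModel.exists_leg (φ : (Fin k → ℝ) →ₗ[ℝ] ℝ) (hφ : φ ≠ 0) (a' : ℝ) :
    ∃ c : ℝ, 0 < c ∧ ∀ B : M.Legs a', ∃ i, c * ht1 (M.h (B.b i)) < -φ (M.h (B.b i)) := by
  obtain ⟨v, hv⟩ : ∃ v : Fin k → ℤ, φ (fun i => (v i : ℝ)) < 0 := by
    by_contra hneg
    push Not at hneg
    refine hφ (LinearMap.pi_ext' fun i => LinearMap.ext_ring ?_)
    have h1 := hneg (Pi.single i 1)
    have h2 := hneg (Pi.single i (-1))
    have e1 : (fun l => ((Pi.single i (1:ℤ) : Fin k → ℤ) l : ℝ)) = Pi.single i (1:ℝ) := by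
      ext l; by_cases hl : l = i
      · subst hl; simp
      · simp [hl]
    have e2 : (fun l => ((Pi.single i (-1:ℤ) : Fin k → ℤ) l : ℝ)) = - Pi.single i (1:ℝ) := by
      ext l; by_cases hl : l = i
      · subst hl; simp
      · simp [hl]
    rw [e1] at h1
    rw [e2, map_neg] at h2
    simp only [LinearMap.comp_apply, LinearMap.coe_single, LinearMap.zero_apply]
    linarith
  set τ : ℝ := -φ (fun i => (v i : ℝ)) with hτ
  have hτ0 : 0 < τ := by rw [hτ]; linarith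
  obtain ⟨cφ, hcφ, hφb⟩ := exists_fun_bound φ
  refine ⟨τ / (2 * (|a'| * ((n1 v : ℝ) + 1) + 1)), by positivity, fun B => ?_⟩
  by_contra hneg
  push Not at hneg
  set c : ℝ := τ / (2 * (|a'| * ((n1 v : ℝ) + 1) + 1)) with hc
  obtain ⟨N, hN⟩ := exists_nat_gt (2 * (cφ * |B.R|) / τ)
  rw [div_lt_iff₀ hτ0] at hN
  obtain ⟨n, hn1, -, hn2⟩ := B.span ((N + 1 : ℕ) • v)
  have hn1v : ((n1 ((N + 1 : ℕ) • v) : ℕ) : ℝ) = (N + 1 : ℕ) * n1 v := by
    have h1 : n1 ((N + 1 : ℕ) • v) = (N + 1) * n1 v := by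
      unfold n1
      rw [Finset.mul_sum]
      refine Finset.sum_congr rfl fun i _ => ?_
      rw [Pi.smul_apply, nsmul_eq_mul, Int.natAbs_mul, Int.natAbs_natCast]
    rw [h1]; push_cast; ring
  rw [hn1v] at hn1
  have hsum : -φ (∑ i, (n i : ℝ) • M.h (B.b i)) ≤ c * ∑ i, (n i : ℝ) * ht1 (M.h (B.b i)) := by
    rw [map_sum, ← Finset.sum_neg_distrib, Finset.mul_sum]
    refine Finset.sum_le_sum fun i _ => ?_
    rw [map_smul, smul_eq_mul]
    have := mul_le_mul_of_nonneg_left (hneg i) (Nat.cast_nonneg (α := ℝ) (n i))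
    linarith
  have hdiff := hφb ((fun j => ((((N + 1 : ℕ) • v) j : ℤ) : ℝ)) - ∑ i, (n i : ℝ) • M.h (B.b i))
    |B.R| (abs_nonneg _) (fun j => by
      rw [Pi.sub_apply, Finset.sum_apply]
      simp only [Pi.smul_apply, smul_eq_mul]
      exact (hn2 j).trans (le_abs_self _))
  have hNv : (fun j => ((((N + 1 : ℕ) • v) j : ℤ) : ℝ)) = ((N + 1 : ℕ) : ℝ) •
      (fun i => (v i : ℝ)) := by
    funext j
    simp only [Pi.smul_apply, nsmul_eq_mul, smul_eq_mul]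
    push_cast; ring
  rw [hNv, map_sub, map_smul, smul_eq_mul] at hdiff
  have h1 := (abs_le.1 hdiff).1
  have hN1 : (1 : ℝ) ≤ ((N + 1 : ℕ) : ℝ) := by push_cast; linarith [Nat.cast_nonneg (α := ℝ) N]
  have hc0 : 0 ≤ c := by positivity
  have h2 : c * ∑ i, (n i : ℝ) * ht1 (M.h (B.b i)) ≤ ((N + 1 : ℕ) : ℝ) * (τ / 2) := by
    have h3 : a' * (((N + 1 : ℕ) : ℝ) * n1 v + 1) ≤
        (|a'| * ((n1 v : ℝ) + 1) + 1) * ((N + 1 : ℕ) : ℝ) := by
      have e1 : a' * (((N + 1 : ℕ) : ℝ) * n1 v + 1) ≤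
          |a'| * (((N + 1 : ℕ) : ℝ) * n1 v + 1) :=
        mul_le_mul_of_nonneg_right (le_abs_self _) (by positivity)
      have e2 : |a'| * (((N + 1 : ℕ) : ℝ) * n1 v + 1) ≤
          |a'| * (((N + 1 : ℕ) : ℝ) * n1 v + ((N + 1 : ℕ) : ℝ)) :=
        mul_le_mul_of_nonneg_left (by linarith) (abs_nonneg _)
      nlinarith
    calc c * ∑ i, (n i : ℝ) * ht1 (M.h (B.b i)) ≤
          c * ((|a'| * ((n1 v : ℝ) + 1) + 1) * ((N + 1 : ℕ) : ℝ)) :=
          mul_le_mul_of_nonneg_left (hn1.trans h3) hc0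
      _ = ((N + 1 : ℕ) : ℝ) * (τ / 2) := by rw [hc]; field_simp
  have h3 : φ (fun i => (v i : ℝ)) = -τ := by rw [hτ]; ring
  rw [h3] at h1
  have h4 : (N : ℝ) * τ < ((N + 1 : ℕ) : ℝ) * τ := by push_cast; nlinarith
  nlinarith

theorem DModel.SubB.descent {a' : ℝ} {B : M.Legs a'} {L : (Fin k → ℝ) →ₗ[ℝ] (Fin k → ℝ)}
    {ε C : ℝ} {Φ : G → G} (h : M.SubB B L ε C Φ) (hε : 0 ≤ ε) (φ : (Fin k → ℝ) →ₗ[ℝ] ℝ) {cφ : ℝ}
    (hcφ : 0 ≤ cφ) (hφb : ∀ (u : Fin k → ℝ) (B : ℝ), 0 ≤ B → (∀ i, |u i| ≤ B) → |φ u| ≤ cφ * B)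
    (i : B.idx) (hneg : cφ * ε * ht1 (M.h (B.b i)) ≤ -φ (L (M.h (B.b i))) / 2) :
    Descent (fun g => φ (M.h g)) (B.b i) Φ (-φ (L (M.h (B.b i))) / 2) (cφ * |C|) := by
  intro g n
  have h1 := hφb (M.h (Φ (g * B.b i ^ n)) - M.h (Φ g) - (n : ℝ) • L (M.h (B.b i)))
    (ε * (n * ht1 (M.h (B.b i))) + |C|) (by have := ht1_nonneg (M.h (B.b i)); positivity)
    (fun j => (h.legs g i n j).trans (by linarith [le_abs_self C]))
  rw [map_sub, map_sub, map_smul, smul_eq_mul] at h1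
  have h2 := (abs_le.1 h1).2
  have h3 := mul_le_mul_of_nonneg_left hneg (Nat.cast_nonneg (α := ℝ) n)
  show φ (M.h (Φ (g * B.b i ^ n))) ≤ φ (M.h (Φ g)) - _ * n + cφ * |C|
  nlinarith

/-- **ZL** for self-maps of the model obeying the sublinear law along legs. -/
theorem DModel.zlB (L : (Fin k → ℝ) →ₗ[ℝ] (Fin k → ℝ)) (hLne : ∀ j, M.Λ j ∘ₗ L ≠ 0)
    (a' : ℝ) : ∃ ε₀ : ℝ, 0 < ε₀ ∧ ∀ (B : M.Legs a') (C K : ℝ), 0 ≤ K →
      ∃ C₂ : ℝ, 0 ≤ C₂ ∧ ∀ Φ : G → G, SelfQI M.len Φ K → M.SubB B L ε₀ C Φ → ∀ g : G,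
        ∀ v ∈ M.C, M.h v = 0 → ∀ i, |M.h (Φ (g * v)) i - M.h (Φ g) i| ≤
          C₂ * Real.log (2 + M.sz v) := by
  choose c hc hleg using fun j => DModel.exists_leg (M := M) (M.Λ j ∘ₗ L) (hLne j) a'
  choose cΛ hcΛ hΛb using fun j => exists_fun_bound (M.Λ j)
  -- the precision
  obtain ⟨ε₀, hε₀, hε₀j⟩ : ∃ ε₀ : ℝ, 0 < ε₀ ∧ ∀ j, cΛ j * ε₀ ≤ c j / 2 := by
    refine ⟨(1 + ∑ j, cΛ j / (c j / 2))⁻¹, by
      have : 0 ≤ ∑ j, cΛ j / (c j / 2) := Finset.sum_nonneg fun j _ =>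
        div_nonneg (hcΛ j) (by linarith [hc j])
      positivity, fun j => ?_⟩
    have hcj := hc j
    have h1 : cΛ j / (c j / 2) ≤ ∑ j, cΛ j / (c j / 2) :=
      Finset.single_le_sum (f := fun j => cΛ j / (c j / 2))
        (fun j _ => div_nonneg (hcΛ j) (by linarith [hc j])) (Finset.mem_univ j)
    have h2 : 0 ≤ ∑ j, cΛ j / (c j / 2) := Finset.sum_nonneg fun j _ =>
        div_nonneg (hcΛ j) (by linarith [hc j])
    rw [← div_eq_mul_inv, div_le_iff₀ (by linarith)]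
    rw [div_le_iff₀ (by linarith)] at h1
    nlinarith
  refine ⟨ε₀, hε₀, fun B C K hK => ?_⟩
  have hone : ∀ j : Fin M.m, ∃ C₂ : ℝ, 0 ≤ C₂ ∧ ∀ Φ : G → G, SelfQI M.len Φ K →
      M.SubB B L ε₀ C Φ → ∀ g : G, ∀ v ∈ {v | v ∈ M.C ∧ M.h v = 0},
      |M.Λ j (M.h (Φ (g * v))) - M.Λ j (M.h (Φ g))| ≤ C₂ * Real.log (2 + M.sz v) := by
    intro j
    obtain ⟨i, hi⟩ := hleg j B
    obtain ⟨c', B', hc'⟩ := M.crossed j
    have hneg : cΛ j * ε₀ * ht1 (M.h (B.b i)) ≤ -(M.Λ j) (L (M.h (B.b i))) / 2 := by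
      have h1 := mul_le_mul_of_nonneg_right (hε₀j j) (ht1_nonneg (M.h (B.b i)))
      rw [LinearMap.comp_apply] at hi
      linarith
    have hη : 0 < -(M.Λ j) (L (M.h (B.b i))) / 2 := by
      rw [LinearMap.comp_apply] at hi
      have := mul_nonneg (hc j).le (ht1_nonneg (M.h (B.b i)))
      linarith
    obtain ⟨C₂, hC₂, hfin⟩ := log_law' M.isLen hc' (B.b i) (C := (M.C : Set G))
      (N0 := {v | v ∈ M.C ∧ M.h v = 0}) (fun v hv => hv.1)
      (fun v hv => M.fine _ (B.mem i) v hv.1 hv.2)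
      (fun g hg n => ⟨M.C.mul_mem (M.C.inv_mem hg) (M.C.mul_mem (M.C.mul_mem
        (M.C.inv_mem (M.C.pow_mem (B.mem i) n)) hg) (M.C.pow_mem (B.mem i) n)), by
          rw [M.h_mul, M.h_mul, M.h_mul, M.h_inv, M.h_inv]; abel⟩)
      (M.deep j)
      (fun v hv => ⟨M.C.inv_mem hv.1, by rw [M.h_inv, hv.2, neg_zero]⟩)
      M.sz_nonneg (fun v _ => M.sz_inv v) M.dec (cΛ j * |C|) hK hη
    exact ⟨C₂, hC₂, fun Φ h1 h2 g v hv => hfin Φ h1
      (h2.descent hε₀.le (M.Λ j) (hcΛ j) (hΛb j) i hneg) g v hv⟩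
  choose C₂ hC₂ hfin using hone
  obtain ⟨c, hc, hcb⟩ := exists_coord_bound M.Λ M.Λ_inj
  refine ⟨c * ∑ j, C₂ j, mul_nonneg hc (Finset.sum_nonneg fun j _ => hC₂ j),
    fun Φ h1 h2 g v hv hv0 i => ?_⟩
  have hlog : 0 ≤ Real.log (2 + M.sz v) :=
    Real.log_nonneg (by have := M.sz_nonneg v; linarith)
  have h3 := hcb (M.h (Φ (g * v)) - M.h (Φ g))
    ((∑ j, C₂ j) * Real.log (2 + M.sz v))
    (mul_nonneg (Finset.sum_nonneg fun j _ => hC₂ j) hlog) (fun j => by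
      rw [map_sub]
      refine (hfin j Φ h1 h2 g v ⟨hv, hv0⟩).trans (mul_le_mul_of_nonneg_right ?_ hlog)
      exact Finset.single_le_sum (f := C₂) (fun j _ => hC₂ j) (Finset.mem_univ j)) i
  rw [mul_assoc]
  exact h3

theorem log_two_add_le {w P l : ℝ} (hw : 0 ≤ w) (hP : 0 ≤ P) (hl0 : 0 ≤ l)
    (hl : l ≤ P * (w + 1)) :
    Real.log (2 + l) ≤ (Real.log (2 + P) / Real.log 2 + 1) * Real.log (2 + w) := by
  have hlog2 : 0 < Real.log 2 := Real.log_pos (by norm_num)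
  have h1 : 2 + l ≤ (2 + P) * (2 + w) := by nlinarith
  have h2 : Real.log (2 + l) ≤ Real.log (2 + P) + Real.log (2 + w) := by
    rw [← Real.log_mul (by positivity) (by positivity)]
    exact Real.log_le_log (by positivity) h1
  have h3 : Real.log 2 ≤ Real.log (2 + w) := Real.log_le_log (by norm_num) (by linarith)
  have h4 : 0 ≤ Real.log (2 + P) := Real.log_nonneg (by linarith)
  have h5 : Real.log (2 + P) ≤ Real.log (2 + P) / Real.log 2 * Real.log (2 + w) := by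
    rw [div_mul_eq_mul_div, le_div_iff₀ hlog2]
    exact mul_le_mul_of_nonneg_left h3 h4
  linarith

/-- The law of one map at a fixed precision. -/
def LawE (S : Set Γ) (π : Γ →* Multiplicative (Fin k → ℤ)) (A : Set Γ) (x : Fin k → Γ)
    (L : (Fin k → ℝ) →ₗ[ℝ] (Fin k → ℝ)) (ε C : ℝ) (Ψ : Γ → Γ) : Prop :=
  ∀ (g y : Γ) (m : ℕ), y * (z x (hgt π y))⁻¹ ∈ A ^ m → ∀ i : Fin k,
    |hgtR π (Ψ (g * y)) i - hgtR π (Ψ g) i - L (hgtR π y) i| ≤
      ε * ((n1 (hgt π y) : ℝ) + Real.log (2 + m)) + C * Real.log (2 + wordLength S y)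

/-- the law along a product of powers of legs -/
theorem DModel.SubB.list {a' : ℝ} {B : M.Legs a'} {L : (Fin k → ℝ) →ₗ[ℝ] (Fin k → ℝ)}
    {ε C : ℝ} {Φ : G → G} (h : M.SubB B L ε C Φ) (n : B.idx → ℕ) (l : List B.idx) (g : G)
    (j : Fin k) : |M.h (Φ (g * (l.map fun i => B.b i ^ n i).prod)) j - M.h (Φ g) j -
      L (M.h (l.map fun i => B.b i ^ n i).prod) j| ≤
        ε * (l.map fun i => (n i : ℝ) * ht1 (M.h (B.b i))).sum + l.length * C := by
  induction l generalizing g with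
  | nil => simp [M.h_one]
  | cons i l ih =>
    simp only [List.map_cons, List.prod_cons, List.sum_cons, List.length_cons]
    have h1 := h.legs g i (n i) j
    have h2 := ih (g * B.b i ^ n i)
    have h3 : L (M.h (B.b i ^ n i * (l.map fun i => B.b i ^ n i).prod)) j =
        (n i : ℝ) * L (M.h (B.b i)) j + L (M.h (l.map fun i => B.b i ^ n i).prod) j := by
      rw [M.h_mul, M.h_pow, map_add, map_smul]
      simp only [Pi.add_apply, Pi.smul_apply, smul_eq_mul]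
    rw [h3, ← mul_assoc]
    have h4 := abs_add_le (M.h (Φ (g * B.b i ^ n i)) j - M.h (Φ g) j -
        (n i : ℝ) * L (M.h (B.b i)) j)
      (M.h (Φ (g * B.b i ^ n i * (l.map fun i => B.b i ^ n i).prod)) j -
        M.h (Φ (g * B.b i ^ n i)) j - L (M.h (l.map fun i => B.b i ^ n i).prod) j)
    have h5 : M.h (Φ (g * B.b i ^ n i)) j - M.h (Φ g) j -
        (n i : ℝ) * L (M.h (B.b i)) j +
      (M.h (Φ (g * B.b i ^ n i * (l.map fun i => B.b i ^ n i).prod)) j -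
        M.h (Φ (g * B.b i ^ n i)) j - L (M.h (l.map fun i => B.b i ^ n i).prod) j) =
      M.h (Φ (g * B.b i ^ n i * (l.map fun i => B.b i ^ n i).prod)) j - M.h (Φ g) j -
      ((n i : ℝ) * L (M.h (B.b i)) j + L (M.h (l.map fun i => B.b i ^ n i).prod) j) := by ring
    rw [h5] at h4
    push_cast
    linarith

end Crest.Agent.R182.Bnd
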