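/-
R182, module BND (helper658): the law at fixed precision and the final statements.
-/
import Mathlib
import Crest.Agent.R182.BndLegs

set_option autoImplicit false

open Filter Topology
open scoped Pointwise

namespace Crest.Agent.R182.Bnd

open Crest.GroupTheory Crest.Geometry Crest.Agent.R182.QI Crest.Agent.R182.FinPath
  Crest.Agent.R182.FinRed

variable {Γ : Type*} [Group Γ] {k : ℕ} {S : Set Γ} {π : Γ →* Multiplicative (Fin k → ℤ)}
  {A : Set Γ} {x : Fin k → Γ} {G : Type*} [Group G] {M : DModel S π A x G}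

theorem DModel.h_legs {a' : ℝ} (B : M.Legs a') (n : B.idx → ℕ) (l : List B.idx) :
    M.h (l.map fun i => B.b i ^ n i).prod = (l.map fun i => (n i : ℝ) • M.h (B.b i)).sum := by
  induction l with
  | nil => simp [M.h_one]
  | cons i l ih =>
    simp only [List.map_cons, List.prod_cons, List.sum_cons]
    rw [M.h_mul, M.h_pow, ih]

theorem finite_box (R : ℝ) : {w : Fin k → ℤ | ∀ j, |(w j : ℝ)| ≤ R}.Finite := by
  refine (Set.finite_Icc (fun _ : Fin k => -⌈R⌉) (fun _ : Fin k => ⌈R⌉)).subset ?_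
  intro w hw
  constructor
  · intro j
    have h1 := (abs_le.1 (hw j)).1
    have h2 := Int.le_ceil R
    have h3 : (-(⌈R⌉ : ℝ)) ≤ w j := by linarith
    exact_mod_cast h3
  · intro j
    have h1 := (abs_le.1 (hw j)).2
    have h2 := Int.le_ceil R
    have h3 : (w j : ℝ) ≤ ⌈R⌉ := by linarith
    exact_mod_cast h3

/-- the conclusion of ZL -/
def DModel.ZL (M : DModel S π A x G) (C₂ : ℝ) (Φ : G → G) : Prop :=
  ∀ g : G, ∀ v ∈ M.C, M.h v = 0 → ∀ i, |M.h (Φ (g * v)) i - M.h (Φ g) i| ≤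
    C₂ * Real.log (2 + M.sz v)

set_option maxHeartbeats 1000000 in
/-- **LAW** for one linear map at fixed precision. -/
theorem DModel.lawB (M : DModel S π A x G) (L : (Fin k → ℝ) →ₗ[ℝ] (Fin k → ℝ)) {a' : ℝ}
    (B : M.Legs a') {ε C C₂ : ℝ} (hε : 0 ≤ ε) (hC₂ : 0 ≤ C₂) (K : ℕ) :
    ∃ C' : ℝ, 0 ≤ C' ∧ ∀ Ψ : Γ → Γ, QIMap S S Ψ K → M.SubB B L ε C (M.ext Ψ) →
      M.ZL C₂ (M.ext Ψ) → LawE S π A x L (ε * (M.a + |a'|)) C' Ψ := by
  classical
  have ha := M.a0
  have hlog2 : 0 < Real.log 2 := Real.log_pos (by norm_num)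
  obtain ⟨cL, hcL, hLb⟩ := exists_lin_bound L
  obtain ⟨κ0, hκ0⟩ := ((finite_box (k := k) B.R).image fun w => M.len (M.t w)).bddAbove
  have hκ0' : ∀ w : Fin k → ℤ, (∀ j, |(w j : ℝ)| ≤ B.R) → M.len (M.t w) ≤ |κ0| := fun w hw =>
    (hκ0 ⟨w, hw, rfl⟩).trans (le_abs_self _)
  set ρ : ℝ := ∑ i, M.len (B.b i) with hρ
  have hρi : ∀ i, M.len (B.b i) ≤ ρ := fun i =>
    Finset.single_le_sum (f := fun i => M.len (B.b i)) (fun i _ => M.isLen.nonneg _)
      (Finset.mem_univ i)
  have hρ0 : 0 ≤ ρ := Finset.sum_nonneg fun i _ => M.isLen.nonneg _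
  obtain ⟨Bg, hBg⟩ := M.growth (ρ + M.a + |κ0|)
  have hKK := M.KK_nonneg K
  set κ : ℝ := M.a * (M.a * (K * (M.a * M.a + M.a) + K)) with hκ
  have hκn : 0 ≤ κ := by positivity
  set κ1 : ℝ := M.a * (M.KK K * |κ0| + M.KK K) with hκ1
  have hκ1n : 0 ≤ κ1 := by positivity
  set P1 : ℝ := |B.R| * (k * (M.a * M.a) + 1) + M.a + 1 with hP1
  have hP10 : 0 ≤ P1 := by positivity
  set Q : ℝ := Real.log (2 + P1) / Real.log 2 + 1 with hQ
  have hQ0 : 0 ≤ Q := by
    have : 0 ≤ Real.log (2 + P1) := Real.log_nonneg (by linarith)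
    positivity
  set q : ℝ := ((Finset.univ : Finset B.idx).toList.length : ℝ) with hq
  have hq0 : 0 ≤ q := Nat.cast_nonneg _
  refine ⟨(2 * κ + (1 + q) * |C| + κ1 + cL * |B.R| + ε * |a'|) / Real.log 2 + ε * M.a +
    C₂ * (|Bg| * Q), by positivity, fun Ψ hΨ hL hzl g y m hm i => ?_⟩
  obtain ⟨e, l, hel, heE, hle, hll, hlC⟩ := M.split y m hm
  set n : ℝ := (n1 (hgt π y) : ℝ) with hn
  set w : ℝ := (wordLength S y : ℝ) with hw
  set lm : ℝ := Real.log (2 + m) with hlm
  set lw : ℝ := Real.log (2 + w) with hlw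
  have hn0 : 0 ≤ n := Nat.cast_nonneg _
  have hw0 : 0 ≤ w := Nat.cast_nonneg _
  have hlm0 : 0 ≤ lm := Real.log_nonneg (by
    have : (0 : ℝ) ≤ m := Nat.cast_nonneg m
    linarith)
  have hlw2 : Real.log 2 ≤ lw := Real.log_le_log (by norm_num) (by linarith)
  have hlw0 : 0 ≤ lw := hlog2.le.trans hlw2
  have he0 : M.h e = 0 := M.E_h e heE
  have hcC : l.prod ∈ M.C := M.C.list_prod_mem fun s hs => (hlC s hs).1
  have hhc : M.h l.prod = hgtR π y := by
    have h1 := M.h_ι y
    rw [hel, M.h_mul, he0, zero_add] at h1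
    exact h1
  -- bound of n by w
  have hnw : n ≤ k * (M.a * M.a) * w := by
    have h1 : n = ∑ i, |hgtR π y i| := by
      rw [hn, ← ht1_intCast]; rfl
    rw [h1]
    calc ∑ i, |hgtR π y i| ≤ ∑ _i : Fin k, M.a * (M.a * w) :=
          Finset.sum_le_sum fun i _ => M.hgt_le y i
      _ = k * (M.a * M.a) * w := by
          rw [Finset.sum_const, Finset.card_univ, Fintype.card_fin, nsmul_eq_mul]; ring
  -- the legs
  obtain ⟨ν, hν1, hν2, hν3⟩ := B.span (hgt π y)
  set P := ((Finset.univ : Finset B.idx).toList.map fun i => B.b i ^ ν i).prod with hP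
  have hPC : P ∈ M.C := M.C.list_prod_mem fun s hs => by
    obtain ⟨i, -, rfl⟩ := List.mem_map.mp hs
    exact M.C.pow_mem (B.mem i) _
  have hhP : ∀ j, M.h P j = ∑ i, (ν i : ℝ) * M.h (B.b i) j := by
    intro j
    rw [hP, DModel.h_legs]
    have h1 : (((Finset.univ : Finset B.idx).toList.map fun i => (ν i : ℝ) • M.h (B.b i)).sum) =
        ∑ i, (ν i : ℝ) • M.h (B.b i) := by
      rw [Finset.sum_eq_multiset_sum, ← Finset.coe_toList, Multiset.map_coe, Multiset.sum_coe]
    rw [h1, Finset.sum_apply]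
    rfl
  obtain ⟨w0, hw0e⟩ := M.h_int (P⁻¹ * l.prod)
  have hw0' : ∀ j, (w0 j : ℝ) = hgtR π y j - M.h P j := by
    intro j
    rw [← hw0e j, M.h_mul, M.h_inv, hhc]
    simp only [Pi.add_apply, Pi.neg_apply]
    ring
  have hw0b : ∀ j, |(w0 j : ℝ)| ≤ B.R := by
    intro j
    rw [hw0' j, hhP j]
    exact hν3 j
  set c0 := M.t w0 with hc0
  have hc0C : c0 ∈ M.C := M.t_mem _
  have hc0h : M.h c0 = fun j => (w0 j : ℝ) := funext (M.h_t w0)
  have hc0l : M.len c0 ≤ |κ0| := hκ0' w0 hw0b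
  set v := P⁻¹ * l.prod * c0⁻¹ with hv
  have hvC : v ∈ M.C := M.C.mul_mem (M.C.mul_mem (M.C.inv_mem hPC) hcC) (M.C.inv_mem hc0C)
  have hv0 : M.h v = 0 := by
    rw [hv, M.h_mul, M.h_inv c0, hc0h]
    funext j
    simp only [Pi.add_apply, Pi.neg_apply, Pi.zero_apply, hw0e j]
    ring
  -- the size of v
  have hszv : Real.log (2 + M.sz v) ≤ |Bg| * Q * lw := by
    let LP : List G := ((Finset.univ : Finset B.idx).toList.map fun i =>
      List.replicate (ν i) (B.b i)).flatten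
    have hLP : LP.prod = P := by
      rw [List.prod_flatten, List.map_map, hP]
      congr 1
      refine List.map_congr_left fun i _ => ?_
      simp
    have hLPlen : (LP.length : ℝ) = ∑ i, (ν i : ℝ) := by
      have h1 : LP.length = ∑ i, ν i := by
        simp only [LP]
        rw [List.length_flatten, List.map_map, Finset.sum_eq_multiset_sum, ← Finset.coe_toList,
          Multiset.map_coe, Multiset.sum_coe]
        congr 1
        refine List.map_congr_left fun i _ => ?_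
        simp
      rw [h1]; push_cast; rfl
    have hLPmem : ∀ s ∈ LP, s ∈ M.C ∧ M.len s ≤ ρ := by
      intro s hs
      obtain ⟨l', hl', hs'⟩ := List.mem_flatten.mp hs
      obtain ⟨i, -, rfl⟩ := List.mem_map.mp hl'
      rw [List.eq_of_mem_replicate hs']
      exact ⟨B.mem i, hρi i⟩
    have h1 := hBg ((LP.map (·⁻¹)).reverse ++ l ++ [c0⁻¹]) (by
      intro s hs
      rcases List.mem_append.mp hs with hs | hs
      · rcases List.mem_append.mp hs with hs | hs
        · rw [List.mem_reverse] at hs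
          obtain ⟨s', hs', rfl⟩ := List.mem_map.mp hs
          refine ⟨M.C.inv_mem (hLPmem s' hs').1, ?_⟩
          rw [M.isLen.inv]
          have := (hLPmem s' hs').2
          have h2 := abs_nonneg κ0
          linarith
        · refine ⟨(hlC s hs).1, ?_⟩
          have := (hlC s hs).2
          have h2 := abs_nonneg κ0
          linarith
      · rw [List.mem_singleton] at hs
        subst hs
        refine ⟨M.C.inv_mem hc0C, ?_⟩
        rw [M.isLen.inv]
        linarith)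
      (by
        rw [List.prod_append, List.prod_append, ← List.prod_inv_reverse, hLP,
          List.prod_singleton]
        exact hv0)
    rw [List.prod_append, List.prod_append, ← List.prod_inv_reverse, hLP,
          List.prod_singleton] at h1
    refine h1.trans ?_
    set LL := ((LP.map (·⁻¹)).reverse ++ l ++ [c0⁻¹]) with hLL
    have hlen : (LL.length : ℝ) ≤ P1 * (w + 1) := by
      rw [hLL]
      simp only [List.length_append, List.length_reverse, List.length_map, List.length_singleton]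
      push_cast
      rw [hLPlen]
      have e1 : B.R * (n + 1) ≤ |B.R| * ((k * (M.a * M.a) + 1) * (w + 1)) := by
        have e2 : n + 1 ≤ (k * (M.a * M.a) + 1) * (w + 1) := by
          have : 0 ≤ (k : ℝ) * (M.a * M.a) := by positivity
          nlinarith
        calc B.R * (n + 1) ≤ |B.R| * (n + 1) :=
              mul_le_mul_of_nonneg_right (le_abs_self _) (by linarith)
          _ ≤ _ := mul_le_mul_of_nonneg_left e2 (abs_nonneg _)
      have e3 : P1 * (w + 1) = |B.R| * ((k * (M.a * M.a) + 1) * (w + 1)) + M.a * (w + 1) +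
          (w + 1) := by rw [hP1]; ring
      rw [e3]
      linarith
    have h2 := log_two_add_le hw0 hP10 (Nat.cast_nonneg _) hlen
    have h3 : 0 ≤ Real.log (2 + (LL.length : ℝ)) := Real.log_nonneg (by
      have : (0:ℝ) ≤ LL.length := Nat.cast_nonneg _
      linarith)
    calc Bg * Real.log (2 + (LL.length : ℝ)) ≤ |Bg| * Real.log (2 + (LL.length : ℝ)) :=
          mul_le_mul_of_nonneg_right (le_abs_self _) h3
      _ ≤ |Bg| * (Q * lw) := mul_le_mul_of_nonneg_left h2 (abs_nonneg _)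
      _ = _ := by ring
  -- the steps
  have hpt : M.ι g * e * P * v * c0 = M.ι (g * y) := by
    rw [map_mul, hel, hv]; group
  have hA : ∀ γ : Γ, |M.h (M.ext Ψ (M.ι γ)) i - hgtR π (Ψ γ) i| ≤ κ := by
    intro γ
    rw [M.h_ext, hκ]
    refine (M.hgt_diff hΨ γ (M.r (M.ι γ)) i).trans ?_
    have := M.near_ι γ
    gcongr
  have hA1 := hA (g * y)
  have hA2 := hA g
  have hS1 := hL.exp (M.ι g) e heE i
  have hS2 := hL.list ν (Finset.univ : Finset B.idx).toList (M.ι g * e) i
  rw [← hP] at hS2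
  have hS3 := hzl (M.ι g * e * P) v hvC hv0 i
  have hS4 : |M.h (M.ext Ψ (M.ι g * e * P * v * c0)) i - M.h (M.ext Ψ (M.ι g * e * P * v)) i| ≤
      κ1 := by
    have h1 := (M.selfQI_ext hΨ).lip (M.ι g * e * P * v) c0
    have h2 := M.h_le ((M.ext Ψ (M.ι g * e * P * v))⁻¹ * M.ext Ψ (M.ι g * e * P * v * c0)) i
    rw [M.h_mul, M.h_inv] at h2
    simp only [Pi.add_apply, Pi.neg_apply] at h2
    rw [neg_add_eq_sub] at h2
    refine h2.trans ?_
    rw [hκ1]
    gcongr
    exact h1.trans (by gcongr)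
  rw [hpt] at hS4
  have hLP : |L (M.h P) i - L (hgtR π y) i| ≤ cL * |B.R| := by
    have h1 := hLb (fun j => (w0 j : ℝ)) |B.R| (abs_nonneg _)
      (fun j => (hw0b j).trans (le_abs_self _)) i
    have h2 : (fun j => (w0 j : ℝ)) = hgtR π y - M.h P := by
      funext j; rw [hw0' j]; rfl
    rw [h2, map_sub, Pi.sub_apply] at h1
    rw [abs_sub_comm]
    exact h1
  have hsumlist : (((Finset.univ : Finset B.idx).toList.map fun i =>
      (ν i : ℝ) * ht1 (M.h (B.b i))).sum) = ∑ i, (ν i : ℝ) * ht1 (M.h (B.b i)) := by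
    rw [Finset.sum_eq_multiset_sum, ← Finset.coe_toList, Multiset.map_coe, Multiset.sum_coe]
  rw [hsumlist] at hS2
  have hgen : ∀ X : ℝ, 0 ≤ X → X ≤ X / Real.log 2 * lw := by
    intro X hX
    rw [div_mul_eq_mul_div, le_div_iff₀ hlog2]
    exact mul_le_mul_of_nonneg_left hlw2 hX
  have hconst := hgen (2 * κ + (1 + q) * |C| + κ1 + cL * |B.R| + ε * |a'|) (by positivity)
  have hS1' : |M.h (M.ext Ψ (M.ι g * e)) i - M.h (M.ext Ψ (M.ι g)) i| ≤
      ε * (M.a * (n + lm + lw)) + |C| :=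
    hS1.trans (add_le_add (mul_le_mul_of_nonneg_left hle hε) (le_abs_self _))
  have hS2' : |M.h (M.ext Ψ (M.ι g * e * P)) i - M.h (M.ext Ψ (M.ι g * e)) i - L (M.h P) i| ≤
      ε * (|a'| * (n + 1)) + q * |C| := by
    refine hS2.trans (add_le_add (mul_le_mul_of_nonneg_left (hν1.trans ?_) hε)
      (mul_le_mul_of_nonneg_left (le_abs_self _) hq0))
    exact mul_le_mul_of_nonneg_right (le_abs_self _) (by linarith)
  have hS3' : |M.h (M.ext Ψ (M.ι g * e * P * v)) i - M.h (M.ext Ψ (M.ι g * e * P)) i| ≤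
      C₂ * (|Bg| * Q) * lw := by
    refine hS3.trans ?_
    rw [mul_assoc]
    exact mul_le_mul_of_nonneg_left hszv hC₂
  have e1 : hgtR π (Ψ (g * y)) i - hgtR π (Ψ g) i - L (hgtR π y) i =
      -(M.h (M.ext Ψ (M.ι (g * y))) i - hgtR π (Ψ (g * y)) i)
      + (M.h (M.ext Ψ (M.ι g)) i - hgtR π (Ψ g) i)
      + (M.h (M.ext Ψ (M.ι (g * y))) i - M.h (M.ext Ψ (M.ι g * e * P * v)) i)
      + (M.h (M.ext Ψ (M.ι g * e * P * v)) i - M.h (M.ext Ψ (M.ι g * e * P)) i)
      + (M.h (M.ext Ψ (M.ι g * e * P)) i - M.h (M.ext Ψ (M.ι g * e)) i - L (M.h P) i)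
      + (M.h (M.ext Ψ (M.ι g * e)) i - M.h (M.ext Ψ (M.ι g)) i)
      + (L (M.h P) i - L (hgtR π y) i) := by ring
  have hsum : |hgtR π (Ψ (g * y)) i - hgtR π (Ψ g) i - L (hgtR π y) i| ≤
      κ + κ + κ1 + C₂ * (|Bg| * Q) * lw + (ε * (|a'| * (n + 1)) + q * |C|) +
        (ε * (M.a * (n + lm + lw)) + |C|) + cL * |B.R| := by
    rw [e1]
    refine (abs_add_le _ _).trans (add_le_add ((abs_add_le _ _).trans (add_le_add
      ((abs_add_le _ _).trans (add_le_add ((abs_add_le _ _).trans (add_le_add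
      ((abs_add_le _ _).trans (add_le_add ((abs_add_le _ _).trans (add_le_add ?_ hA2)) hS4))
      hS3')) hS2')) hS1')) hLP)
    rw [abs_neg]; exact hA1
  refine hsum.trans ?_
  have hlm' : 0 ≤ ε * |a'| * lm := by positivity
  have e2 : ε * (M.a + |a'|) * (n + lm) + ((2 * κ + (1 + q) * |C| + κ1 + cL * |B.R| + ε * |a'|) /
      Real.log 2 + ε * M.a + C₂ * (|Bg| * Q)) * lw =
      (2 * κ + (1 + q) * |C| + κ1 + cL * |B.R| + ε * |a'|) / Real.log 2 * lw +
      C₂ * (|Bg| * Q) * lw + ε * (M.a * (n + lm + lw)) + ε * |a'| * n + ε * |a'| * lm := by ring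
  have e3 : ε * (|a'| * (n + 1)) = ε * |a'| * n + ε * |a'| := by ring
  rw [e2, e3]
  linarith

end Crest.Agent.R182.Bnd
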