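/-
R182, module BND (helper658): from the sublinear law along legs at all precisions to the law used by
the final reduction.
-/
import Mathlib
import Crest.Agent.R182.BndStep
import Crest.Agent.R182.BndMain

set_option autoImplicit false

open Filter Topology
open scoped Pointwise

namespace Crest.Agent.R182.Bnd

open Crest.GroupTheory Crest.Geometry Crest.Agent.R182.QI Crest.Agent.R182.FinPath
  Crest.Agent.R182.FinRed

variable {Γ : Type*} [Group Γ] {k : ℕ} {S : Set Γ} {π : Γ →* Multiplicative (Fin k → ℤ)}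
  {A : Set Γ} {x : Fin k → Γ} {G : Type*} [Group G] (M : DModel S π A x G)

theorem exists_pos_le {α : Type*} (s : Finset α) (D : α → ℝ) (h : ∀ p ∈ s, 0 < D p) :
    ∃ ε : ℝ, 0 < ε ∧ ∀ p ∈ s, ε ≤ D p := by
  classical
  induction s using Finset.induction_on with
  | empty => exact ⟨1, one_pos, by simp⟩
  | insert p s hp ih =>
    obtain ⟨ε, hε, hle⟩ := ih fun q hq => h q (Finset.mem_insert_of_mem hq)
    refine ⟨min ε (D p), lt_min hε (h p (Finset.mem_insert_self _ _)), fun q hq => ?_⟩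
    rcases Finset.mem_insert.1 hq with rfl | hq
    · exact min_le_right _ _
    · exact (min_le_left _ _).trans (hle q hq)

/-- A linear lower bound against logarithms. -/
theorem le_zero_of_log {D c₀ c₁ W : ℝ} (hc₀ : 0 ≤ c₀) (hc₁ : 0 ≤ c₁) (hW : 0 ≤ W)
    (h : ∀ N : ℕ, D * N ≤ c₀ + c₁ * Real.log (2 + W * (N + 1))) : D ≤ 0 := by
  by_contra hD
  push Not at hD
  obtain ⟨n, hn⟩ := exists_nat_gt ((c₀ + 4 * c₁ * (2 + W)) / D)
  rw [div_lt_iff₀ hD] at hn
  have hE : 0 ≤ c₀ + 4 * c₁ * (2 + W) := by positivity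
  have hn1 : (1 : ℝ) ≤ n := by
    have h1 : (0 : ℝ) < n := by
      by_contra h0
      have : (n : ℝ) * D ≤ 0 := mul_nonpos_of_nonpos_of_nonneg (not_lt.1 h0) hD.le
      linarith
    have h2 : 0 < n := by exact_mod_cast h1
    exact_mod_cast h2
  have h1 := h (n ^ 2)
  push_cast at h1
  have hu : 0 < 2 + W * ((n : ℝ) ^ 2 + 1) := by positivity
  have h2 : Real.log (2 + W * ((n : ℝ) ^ 2 + 1)) ≤ 2 * ((2 + W) * (n + 1)) := by
    have e1 : 2 + W * ((n : ℝ) ^ 2 + 1) ≤ ((2 + W) * (n + 1)) ^ 2 := by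
      have f1 : (n : ℝ) ^ 2 + 1 ≤ (n + 1) ^ 2 := by nlinarith
      have f2 : (1 : ℝ) ≤ (n + 1) ^ 2 := by nlinarith
      have f3 : W * ((n : ℝ) ^ 2 + 1) ≤ W * (n + 1) ^ 2 := mul_le_mul_of_nonneg_left f1 hW
      have f4 : (2 + W) * ((n : ℝ) + 1) ^ 2 ≤ (2 + W) * ((2 + W) * (n + 1) ^ 2) :=
        mul_le_mul_of_nonneg_left (le_mul_of_one_le_left (by positivity) (by linarith))
          (by linarith)
      nlinarith
    have e2 : 0 < (2 + W) * ((n : ℝ) + 1) := by positivity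
    calc Real.log (2 + W * ((n : ℝ) ^ 2 + 1)) ≤ Real.log (((2 + W) * (n + 1)) ^ 2) :=
          Real.log_le_log hu e1
      _ = 2 * Real.log ((2 + W) * (n + 1)) := by rw [Real.log_pow]; norm_num
      _ ≤ 2 * ((2 + W) * (n + 1)) := by
          have := Real.log_le_sub_one_of_pos e2
          linarith
  have h3 : D * (n : ℝ) ^ 2 ≤ c₀ + c₁ * (2 * ((2 + W) * (n + 1))) :=
    h1.trans (by have := mul_le_mul_of_nonneg_left h2 hc₁; linarith)
  have h4 : c₁ * (2 * ((2 + W) * ((n : ℝ) + 1))) ≤ 4 * c₁ * (2 + W) * n := by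
    have : 0 ≤ c₁ * (2 + W) := by positivity
    nlinarith
  have h5 : c₀ ≤ c₀ * n := le_mul_of_one_le_right hc₀ hn1
  have h6 : (c₀ + 4 * c₁ * (2 + W)) * n < (n * D) * n :=
    mul_lt_mul_of_pos_right hn (by linarith)
  nlinarith

include M in
/-- the word length of the section. -/
theorem DModel.wl_z (v : Fin k → ℤ) : (wordLength S (z x v) : ℝ) ≤
    M.a * ((∑ i, M.len (M.ι (x i))) * n1 v) + M.a := by
  refine (M.ι_len _).trans ?_
  have h1 : M.len (M.ι (z x v)) ≤ (∑ i, M.len (M.ι (x i))) * n1 v := by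
    unfold z
    have h2 : ∀ l : List Γ, (∀ y ∈ l, ∃ i, y = x i ∨ y = (x i)⁻¹) →
        M.len (M.ι l.prod) ≤ (∑ i, M.len (M.ι (x i))) * l.length := by
      intro l
      induction l with
      | nil => simp [M.isLen.one]
      | cons y l ih =>
        intro hl
        rw [List.prod_cons, map_mul, List.length_cons]
        refine (M.isLen.mul _ _).trans ?_
        have h3 := ih fun y hy => hl y (List.mem_cons_of_mem _ hy)
        have h4 : M.len (M.ι y) ≤ ∑ i, M.len (M.ι (x i)) := by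
          obtain ⟨i, rfl | rfl⟩ := hl y (by simp)
          · exact Finset.single_le_sum (f := fun i => M.len (M.ι (x i)))
              (fun i _ => M.isLen.nonneg _) (Finset.mem_univ i)
          · rw [map_inv, M.isLen.inv]
            exact Finset.single_le_sum (f := fun i => M.len (M.ι (x i)))
              (fun i _ => M.isLen.nonneg _) (Finset.mem_univ i)
        push_cast
        linarith
    have h3 := h2 (ms x v).toList (fun y hy => mem_ms (Multiset.mem_toList.1 hy))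
    rwa [Multiset.length_toList, card_ms] at h3
  have := mul_le_mul_of_nonneg_left h1 M.a0
  linarith

theorem LawE.mono {L : (Fin k → ℝ) →ₗ[ℝ] (Fin k → ℝ)} {ε ε' C C' : ℝ} {Ψ : Γ → Γ}
    (h : LawE S π A x L ε C Ψ) (hε : ε ≤ ε') (hC : C ≤ C') : LawE S π A x L ε' C' Ψ := by
  intro g y m hm i
  refine (h g y m hm i).trans ?_
  have h1 : 0 ≤ Real.log (2 + (m : ℝ)) := Real.log_nonneg (by
    have : (0 : ℝ) ≤ m := Nat.cast_nonneg _
    linarith)
  have h2 : 0 ≤ Real.log (2 + (wordLength S y : ℝ)) := Real.log_nonneg (by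
    have : (0 : ℝ) ≤ wordLength S y := Nat.cast_nonneg _
    linarith)
  have h3 : (0 : ℝ) ≤ n1 (hgt π y) := Nat.cast_nonneg _
  have h4 := mul_le_mul_of_nonneg_right hε (add_nonneg h3 h1)
  have h5 := mul_le_mul_of_nonneg_right hC h2
  linarith

include M in
/-- The linear maps of two laws of the same map are close. -/
theorem DModel.lawE_close (hx : ∀ i, hgt π (x i) = Pi.single i 1)
    {L L' : (Fin k → ℝ) →ₗ[ℝ] (Fin k → ℝ)} {ε ε' C C' : ℝ} {Ψ : Γ → Γ}
    (h : LawE S π A x L ε C Ψ) (h' : LawE S π A x L' ε' C' Ψ) (hε : 0 ≤ ε) (hε' : 0 ≤ ε')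
    (i j : Fin k) :
    |L (Pi.single i 1) j - L' (Pi.single i 1) j| ≤ ε + ε' := by
  have ha := M.a0
  set W : ℝ := M.a * (∑ i, M.len (M.ι (x i))) + M.a with hW
  have hs0 : 0 ≤ ∑ i, M.len (M.ι (x i)) := Finset.sum_nonneg fun i _ => M.isLen.nonneg _
  have hW0 : 0 ≤ W := by positivity
  have hlog2 : 0 < Real.log 2 := Real.log_pos (by norm_num)
  have key := le_zero_of_log (D := |L (Pi.single i 1) j - L' (Pi.single i 1) j| - (ε + ε'))
    (c₀ := (ε + ε') * Real.log 2) (c₁ := |C| + |C'|) (W := W) (by positivity) (by positivity) hW0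
    (by
      intro N
      set v : Fin k → ℤ := Pi.single i (N : ℤ) with hv
      have hv1 : n1 v = N := by
        unfold n1
        rw [Finset.sum_eq_single i]
        · simp [hv]
        · intro l _ hl
          simp [hv, hl]
        · intro h; exact absurd (Finset.mem_univ _) h
      have hvR : hgtR π (z x v) = (N : ℝ) • (Pi.single i 1 : Fin k → ℝ) := by
        funext l
        simp only [hgtR, hgt_z hx, hv]
        by_cases hl : l = i
        · subst hl; simp
        · simp [hl]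
      have hm : z x v * (z x (hgt π (z x v)))⁻¹ ∈ A ^ 0 := by
        rw [hgt_z hx, mul_inv_cancel, pow_zero]
        exact Set.mem_one.2 rfl
      have h1 := h 1 (z x v) 0 hm j
      have h2 := h' 1 (z x v) 0 hm j
      rw [hgt_z hx, hv1, hvR, map_smul, one_mul] at h1 h2
      simp only [Pi.smul_apply, smul_eq_mul, Nat.cast_zero, add_zero] at h1 h2
      have hw : (wordLength S (z x v) : ℝ) ≤ W * (N + 1) := by
        refine (M.wl_z v).trans ?_
        rw [hv1, hW]
        have hN : (0 : ℝ) ≤ N := Nat.cast_nonneg N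
        nlinarith [mul_nonneg ha hs0, mul_nonneg ha hN]
      have hlog : Real.log (2 + (wordLength S (z x v) : ℝ)) ≤ Real.log (2 + W * (N + 1)) := by
        refine Real.log_le_log ?_ (by linarith)
        have : (0 : ℝ) ≤ wordLength S (z x v) := Nat.cast_nonneg _
        linarith
      have hlog0 : 0 ≤ Real.log (2 + (wordLength S (z x v) : ℝ)) := Real.log_nonneg (by
        have : (0 : ℝ) ≤ wordLength S (z x v) := Nat.cast_nonneg _
        linarith)
      set lw := Real.log (2 + (wordLength S (z x v) : ℝ)) with hlw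
      set u := L (Pi.single i 1) j with hu
      set u' := L' (Pi.single i 1) j with hu'
      set p := hgtR π (Ψ (z x v)) j - hgtR π (Ψ 1) j with hp
      have h3 : |(N : ℝ) * u - N * u'| ≤ (ε + ε') * (N + Real.log 2) + (|C| + |C'|) * lw := by
        have e1 : (N : ℝ) * u - N * u' = (p - N * u') - (p - N * u) := by ring
        rw [e1]
        refine (abs_sub _ _).trans ?_
        have e2 : C * lw ≤ |C| * lw := mul_le_mul_of_nonneg_right (le_abs_self _) hlog0
        have e3 : C' * lw ≤ |C'| * lw := mul_le_mul_of_nonneg_right (le_abs_self _) hlog0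
        have e4 : (ε + ε') * (N + Real.log 2) = ε * (N + Real.log 2) + ε' * (N + Real.log 2) := by
          ring
        rw [e4]
        linarith
      rw [← mul_sub, abs_mul, Nat.abs_cast] at h3
      have h4 : (|C| + |C'|) * lw ≤ (|C| + |C'|) * Real.log (2 + W * (N + 1)) :=
        mul_le_mul_of_nonneg_left hlog (by positivity)
      nlinarith)
  linarith

/-- **The sublinear law along legs at all precisions** (`LL` and `a'` do not depend on the
precision). -/
def DModel.USLB : Prop :=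
  ∀ K : ℕ, ∃ (LL : Set ((Fin k → ℝ) →ₗ[ℝ] (Fin k → ℝ))) (a' : ℝ), LL.Finite ∧
    (∀ L ∈ LL, ∀ j, M.Λ j ∘ₗ L ≠ 0) ∧
    ∀ ε : ℝ, 0 < ε → ∃ (B : M.Legs a') (C : ℝ), ∀ Ψ : Γ → Γ, QIMap S S Ψ K →
      ∃ L ∈ LL, M.SubB B L ε C (M.ext Ψ)

/-- **USLB ⇒ LAW.** -/
theorem DModel.law_of_uslB (hx : ∀ i, hgt π (x i) = Pi.single i 1) (h : M.USLB) :
    Law S π A x := by
  classical
  intro K
  obtain ⟨LL, a', hLL, hne, hU⟩ := h K
  -- the logarithmic law for zero-weight moves
  have hz : ∀ L : (Fin k → ℝ) →ₗ[ℝ] (Fin k → ℝ), ∃ ε₀ : ℝ, 0 < ε₀ ∧ (L ∈ LL →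
      ∀ (B : M.Legs a') (C K : ℝ), 0 ≤ K → ∃ C₂ : ℝ, 0 ≤ C₂ ∧ ∀ Φ : G → G,
        SelfQI M.len Φ K → M.SubB B L ε₀ C Φ → M.ZL C₂ Φ) := by
    intro L
    by_cases hL : L ∈ LL
    · obtain ⟨ε₀, h1, h2⟩ := DModel.zlB (M := M) L (hne L hL) a'
      exact ⟨ε₀, h1, fun _ => h2⟩
    · exact ⟨1, one_pos, fun h => absurd h hL⟩
  choose ε₀ hε₀ hzl using hz
  obtain ⟨εz, hεz, hεz'⟩ := exists_pos_le hLL.toFinset ε₀ fun L _ => hε₀ L
  obtain ⟨Bz, Cz, hBz⟩ := hU εz hεz
  have hC₂ : ∀ L : (Fin k → ℝ) →ₗ[ℝ] (Fin k → ℝ), ∃ C₂ : ℝ, 0 ≤ C₂ ∧ (L ∈ LL → ∀ Φ : G → G,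
      SelfQI M.len Φ (M.KK K) → M.SubB Bz L (ε₀ L) Cz Φ → M.ZL C₂ Φ) := by
    intro L
    by_cases hL : L ∈ LL
    · obtain ⟨C₂, h1, h2⟩ := hzl L hL Bz Cz (M.KK K) (M.KK_nonneg K)
      exact ⟨C₂, h1, fun _ => h2⟩
    · exact ⟨0, le_rfl, fun h => absurd h hL⟩
  choose C₂ hC₂0 hC₂z using hC₂
  set C₂s : ℝ := ∑ L ∈ hLL.toFinset, C₂ L with hC₂s
  have hC₂s0 : 0 ≤ C₂s := Finset.sum_nonneg fun L _ => hC₂0 L
  have hZL : ∀ Ψ : Γ → Γ, QIMap S S Ψ K → M.ZL C₂s (M.ext Ψ) := by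
    intro Ψ hΨ
    obtain ⟨L, hL, hsub⟩ := hBz Ψ hΨ
    have h1 := hC₂z L hL (M.ext Ψ) (M.selfQI_ext hΨ)
      (hsub.mono (hεz' L (hLL.mem_toFinset.2 hL)))
    intro g v hv hv0 i
    refine (h1 g v hv hv0 i).trans (mul_le_mul_of_nonneg_right ?_ (Real.log_nonneg (by
      have := M.sz_nonneg v
      linarith)))
    exact Finset.single_le_sum (f := C₂) (fun L _ => hC₂0 L) (hLL.mem_toFinset.2 hL)
  -- separation of the linear maps
  obtain ⟨ε₁, hε₁, hsep⟩ : ∃ ε₁ : ℝ, 0 < ε₁ ∧ ∀ L ∈ LL, ∀ L' ∈ LL,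
      (∀ i j, |L (Pi.single i 1) j - L' (Pi.single i 1) j| ≤ ε₁ / 2) → L = L' := by
    obtain ⟨ε₁, h1, h2⟩ := exists_pos_le (hLL.toFinset ×ˢ hLL.toFinset)
      (fun p => if p.1 = p.2 then 1 else
        ∑ i, ∑ j, |p.1 (Pi.single i 1) j - p.2 (Pi.single i 1) j|) (by
        rintro ⟨L, L'⟩ -
        by_cases hLL' : L = L'
        · simp [hLL']
        · rw [if_neg hLL']
          by_contra hneg
          apply hLL'
          refine LinearMap.pi_ext' fun i => LinearMap.ext_ring ?_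
          have h3 : ∑ i, ∑ j, |L (Pi.single i 1) j - L' (Pi.single i 1) j| = 0 :=
            le_antisymm (not_lt.1 hneg) (Finset.sum_nonneg fun _ _ =>
              Finset.sum_nonneg fun _ _ => abs_nonneg _)
          rw [Finset.sum_eq_zero_iff_of_nonneg (fun _ _ =>
              Finset.sum_nonneg fun _ _ => abs_nonneg _)] at h3
          have h4 := h3 i (Finset.mem_univ i)
          rw [Finset.sum_eq_zero_iff_of_nonneg (fun _ _ => abs_nonneg _)] at h4
          funext j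
          simp only [LinearMap.comp_apply, LinearMap.coe_single]
          exact sub_eq_zero.1 (abs_eq_zero.1 (h4 j (Finset.mem_univ j))))
    refine ⟨ε₁ / (k * k + 1), by positivity, fun L hL L' hL' h3 => ?_⟩
    by_contra hLL'
    have h4 := h2 (L, L') (Finset.mem_product.2 ⟨hLL.mem_toFinset.2 hL, hLL.mem_toFinset.2 hL'⟩)
    simp only [if_neg hLL'] at h4
    have h5 : ∑ i : Fin k, ∑ j : Fin k, |L (Pi.single i 1) j - L' (Pi.single i 1) j| ≤
        ∑ _i : Fin k, ∑ _j : Fin k, ε₁ / (k * k + 1) / 2 :=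
      Finset.sum_le_sum fun i _ => Finset.sum_le_sum fun j _ => h3 i j
    simp only [Finset.sum_const, Finset.card_univ, Fintype.card_fin, nsmul_eq_mul] at h5
    have h6 : (k : ℝ) * (k * (ε₁ / (k * k + 1) / 2)) < ε₁ := by
      have h7 : (k : ℝ) * (k * (ε₁ / (k * k + 1) / 2)) = ε₁ * ((k * k) / (k * k + 1) / 2) := by
        ring
      rw [h7]
      have h8 : ((k : ℝ) * k) / (k * k + 1) / 2 < 1 := by
        have h9 : ((k : ℝ) * k) / (k * k + 1) ≤ 1 := by
          rw [div_le_one (by positivity)]; linarith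
        linarith
      nlinarith
    linarith
  -- the law at every precision
  set P : ℝ := M.a + |a'| with hP
  have hP0 : 0 < P := by
    have := M.one_le_a
    have := abs_nonneg a'
    linarith
  have hlaw : ∀ ε : ℝ, ∃ C' : ℝ, 0 < ε → ∀ Ψ : Γ → Γ, QIMap S S Ψ K → ∃ L ∈ LL,
      LawE S π A x L (min ε (ε₁ / 4)) C' Ψ := by
    intro ε
    by_cases hε : 0 < ε
    swap
    · exact ⟨0, fun h => absurd h hε⟩
    have hm0 : 0 < min ε (ε₁ / 4) := lt_min hε (by positivity)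
    obtain ⟨B, C, hB⟩ := hU (min ε (ε₁ / 4) / P) (by positivity)
    have hL : ∀ L : (Fin k → ℝ) →ₗ[ℝ] (Fin k → ℝ), ∃ C' : ℝ, 0 ≤ C' ∧ ∀ Ψ : Γ → Γ,
        QIMap S S Ψ K → M.SubB B L (min ε (ε₁ / 4) / P) C (M.ext Ψ) → M.ZL C₂s (M.ext Ψ) →
        LawE S π A x L (min ε (ε₁ / 4) / P * P) C' Ψ := fun L =>
      M.lawB L B (by positivity) hC₂s0 K
    choose C' hC'0 hC' using hL
    refine ⟨∑ L ∈ hLL.toFinset, C' L, fun _ Ψ hΨ => ?_⟩
    obtain ⟨L, hLm, hsub⟩ := hB Ψ hΨ
    refine ⟨L, hLm, (hC' L Ψ hΨ hsub (hZL Ψ hΨ)).mono (by rw [div_mul_cancel₀ _ hP0.ne']) ?_⟩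
    exact Finset.single_le_sum (f := C') (fun L _ => hC'0 L) (hLL.mem_toFinset.2 hLm)
  choose C' hC' using hlaw
  refine ⟨LL, C', hLL, fun Ψ hΨ => ?_⟩
  obtain ⟨L, hL, hlawL⟩ := hC' 1 one_pos Ψ hΨ
  refine ⟨L, hL, fun ε hε g y m hm i => ?_⟩
  obtain ⟨L', hL', hlawL'⟩ := hC' ε hε Ψ hΨ
  have heq : L = L' := by
    refine hsep L hL L' hL' fun i j => ?_
    refine (M.lawE_close hx hlawL hlawL' (le_min zero_le_one (by positivity))
      (le_min hε.le (by positivity)) i j).trans ?_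
    have h1 := min_le_right (1 : ℝ) (ε₁ / 4)
    have h2 := min_le_right ε (ε₁ / 4)
    linarith
  subst heq
  exact hlawL'.mono (min_le_left _ _) le_rfl g y m hm i

end Crest.Agent.R182.Bnd
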