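/-
R182, module NILBOX (helper89): left-normed Lie monomials, boxes, Lie polynomials.
-/
import Mathlib

set_option autoImplicit false
set_option linter.unusedSectionVars false

namespace Crest.Agent.R182.Nb

open Finset

section mon

variable {L : Type*} [LieRing L] [LieAlgebra ℝ L] {σ : Type*}

/-- left-normed monomial `⁅v i₁, ⁅v i₂, …, v iₗ⁆⁆` -/
def mon (v : σ → L) : List σ → L
  | [] => 0
  | [i] => v i
  | i :: j :: t => ⁅v i, mon v (j :: t)⁆

@[simp] theorem mon_nil (v : σ → L) : mon v [] = 0 := rfl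

@[simp] theorem mon_single (v : σ → L) (i : σ) : mon v [i] = v i := rfl

theorem mon_cons (v : σ → L) (i : σ) {t : List σ} (ht : t ≠ []) :
    mon v (i :: t) = ⁅v i, mon v t⁆ := by
  cases t with
  | nil => exact absurd rfl ht
  | cons j t => rfl

/-- class `≤ c` along the family `v` -/
def Nil (c : ℕ) (v : σ → L) : Prop := ∀ κ : List σ, c < κ.length → mon v κ = 0

variable [Fintype σ]

/-- lists of length `≤ c` -/
noncomputable def KL (σ : Type*) [Fintype σ] (c : ℕ) : Finset (List σ) :=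
  (List.finite_length_le σ c).toFinset

theorem mem_KL {c : ℕ} {κ : List σ} : κ ∈ KL σ c ↔ κ.length ≤ c := by
  simp [KL]

/-- the box of size `t` spanned by the monomials of length `≤ c` in the family `g` -/
def Bx (c : ℕ) (g : σ → L) (t : ℝ) : Set L :=
  {x | ∃ s : List σ → ℝ, (∀ κ, |s κ| ≤ t) ∧ x = ∑ κ ∈ KL σ c, s κ • mon g κ}

variable {c : ℕ} {g : σ → L} {s t : ℝ} {x y : L}

theorem Bx_mono (h : s ≤ t) : Bx c g s ⊆ Bx c g t := by
  rintro x ⟨a, ha, rfl⟩
  exact ⟨a, fun κ => (ha κ).trans h, rfl⟩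

theorem Bx_zero_mem (ht : 0 ≤ t) : (0 : L) ∈ Bx c g t :=
  ⟨fun _ => 0, fun _ => by simpa using ht, by simp⟩

theorem Bx_add (hx : x ∈ Bx c g s) (hy : y ∈ Bx c g t) : x + y ∈ Bx c g (s + t) := by
  obtain ⟨a, ha, rfl⟩ := hx
  obtain ⟨b, hb, rfl⟩ := hy
  refine ⟨fun κ => a κ + b κ, fun κ => (abs_add_le _ _).trans (add_le_add (ha κ) (hb κ)), ?_⟩
  rw [← Finset.sum_add_distrib]
  exact Finset.sum_congr rfl fun κ _ => (add_smul _ _ _).symm

theorem Bx_smul (hx : x ∈ Bx c g s) (r : ℝ) : r • x ∈ Bx c g (|r| * s) := by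
  obtain ⟨a, ha, rfl⟩ := hx
  refine ⟨fun κ => r * a κ, fun κ => ?_, ?_⟩
  · rw [abs_mul]; exact mul_le_mul_of_nonneg_left (ha κ) (abs_nonneg r)
  · rw [Finset.smul_sum]
    exact Finset.sum_congr rfl fun κ _ => smul_smul _ _ _

theorem Bx_neg (hx : x ∈ Bx c g s) : -x ∈ Bx c g s := by
  have := Bx_smul hx (-1)
  simpa using this

theorem Bx_sum {ι : Type*} (S : Finset ι) (f : ι → L) (r : ι → ℝ)
    (h : ∀ i ∈ S, f i ∈ Bx c g (r i)) : ∑ i ∈ S, f i ∈ Bx c g (∑ i ∈ S, r i) := by
  classical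
  induction S using Finset.induction_on with
  | empty => simpa using Bx_zero_mem (le_refl (0:ℝ))
  | insert a S ha ih =>
    rw [Finset.sum_insert ha, Finset.sum_insert ha]
    exact Bx_add (h a (Finset.mem_insert_self a S))
      (ih fun i hi => h i (Finset.mem_insert_of_mem hi))

theorem mon_mem_Bx (hN : Nil c g) (κ : List σ) : mon g κ ∈ Bx c g 1 := by
  classical
  by_cases hκ : κ.length ≤ c
  · refine ⟨fun κ' => if κ' = κ then 1 else 0, fun κ' => ?_, ?_⟩
    · beta_reduce; split_ifs <;> simp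
    · rw [Finset.sum_eq_single κ]
      · simp
      · intro κ' _ h; simp [h]
      · intro h; exact absurd (mem_KL.2 hκ) h
  · rw [hN κ (by omega)]; exact Bx_zero_mem zero_le_one

theorem gen_mem_Bx (hN : Nil c g) (i : σ) : g i ∈ Bx c g 1 := mon_mem_Bx hN [i]

/-- `ad (g i)` preserves the boxes -/
theorem ad_mem_Bx (hN : Nil c g) (ht : 0 ≤ t) (i : σ) (hx : x ∈ Bx c g t) :
    ⁅g i, x⁆ ∈ Bx c g t := by
  classical
  obtain ⟨a, ha, rfl⟩ := hx
  refine ⟨fun κ => match κ with
    | [] => 0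
    | [_] => 0
    | j :: k :: l => if j = i then a (k :: l) else 0, fun κ => ?_, ?_⟩
  · match κ with
    | [] => simpa using ht
    | [_] => simpa using ht
    | j :: k :: l =>
      simp only
      split_ifs
      · exact ha _
      · simpa using ht
  · rw [lie_sum]
    -- both sides as sums over lists `κ` of length ≤ c with `i :: κ`
    have h1 : ∀ κ ∈ KL σ c, ⁅g i, a κ • mon g κ⁆ =
        if κ ≠ [] ∧ κ.length + 1 ≤ c then a κ • mon g (i :: κ) else 0 := by
      intro κ _
      rw [lie_smul]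
      by_cases h : κ = []
      · simp [h]
      · by_cases h' : κ.length + 1 ≤ c
        · rw [if_pos ⟨h, h'⟩, mon_cons g i h]
        · rw [if_neg (fun hh => h' hh.2), ← mon_cons g i h, hN (i :: κ) (by simp; omega), smul_zero]
    rw [Finset.sum_congr rfl h1, ← Finset.sum_filter]
    symm
    rw [← Finset.sum_subset (Finset.filter_subset
      (fun κ : List σ => ∃ l, κ = i :: l ∧ l ≠ []) (KL σ c))]
    · refine Finset.sum_bij' (fun κ _ => κ.tail) (fun κ _ => i :: κ) ?_ ?_ ?_ ?_ ?_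
      · intro κ hκ
        rw [Finset.mem_filter, mem_KL] at hκ
        obtain ⟨h2, l, rfl, hl⟩ := hκ
        simp only [List.tail_cons, Finset.mem_filter, mem_KL, ne_eq]
        simp only [List.length_cons] at h2
        exact ⟨by omega, hl, h2⟩
      · intro κ hκ
        rw [Finset.mem_filter, mem_KL] at hκ
        rw [Finset.mem_filter, mem_KL]
        exact ⟨by simpa using hκ.2.2, κ, rfl, hκ.2.1⟩
      · intro κ hκ
        rw [Finset.mem_filter] at hκ
        obtain ⟨_, l, rfl, hl⟩ := hκ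
        rfl
      · intro κ _; rfl
      · intro κ hκ
        rw [Finset.mem_filter] at hκ
        obtain ⟨_, l, rfl, hl⟩ := hκ
        cases l with
        | nil => exact absurd rfl hl
        | cons k l => simp
    · intro κ hκ hκ'
      rw [Finset.mem_filter, not_and] at hκ'
      have h3 := hκ' hκ
      match κ, h3 with
      | [], _ => simp
      | [_], _ => simp
      | j :: k :: l, h3 =>
        have : j ≠ i := by
          rintro rfl
          exact h3 ⟨k :: l, rfl, by simp⟩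
        simp [this]

theorem mon_lie_mem (hN : Nil c g) (ht : 0 ≤ t) (κ : List σ) :
    ∀ y, y ∈ Bx c g t → ⁅mon g κ, y⁆ ∈ Bx c g (2 ^ κ.length * t) := by
  induction κ with
  | nil =>
    intro y _
    rw [mon_nil, zero_lie]
    exact Bx_zero_mem (by positivity)
  | cons i κ ih =>
    intro y hy
    by_cases hκ : κ = []
    · subst hκ
      rw [mon_single]
      exact Bx_mono (by simp; linarith) (ad_mem_Bx hN ht i hy)
    · rw [mon_cons g i hκ, lie_lie]
      have h1 := ad_mem_Bx hN (by positivity) i (ih y hy)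
      have h2 := ih _ (ad_mem_Bx hN ht i hy)
      rw [sub_eq_add_neg]
      refine Bx_mono ?_ (Bx_add h1 (Bx_neg h2))
      rw [List.length_cons, pow_succ]; linarith

/-- the bracket constant -/
noncomputable def brC (σ : Type*) [Fintype σ] (c : ℕ) : ℝ := (KL σ c).card * 2 ^ c + 1

theorem brC_pos (σ : Type*) [Fintype σ] (c : ℕ) : 1 ≤ brC σ c := by
  have : (0:ℝ) ≤ (KL σ c).card * 2 ^ c := by positivity
  unfold brC; linarith

theorem lie_mem_Bx (hN : Nil c g) (hs : 0 ≤ s) (ht : 0 ≤ t) (hx : x ∈ Bx c g s)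
    (hy : y ∈ Bx c g t) : ⁅x, y⁆ ∈ Bx c g (brC σ c * s * t) := by
  obtain ⟨a, ha, rfl⟩ := hx
  rw [sum_lie]
  have h1 : ∀ κ ∈ KL σ c, ⁅a κ • mon g κ, y⁆ ∈ Bx c g (s * (2 ^ c * t)) := by
    intro κ hκ
    rw [smul_lie]
    have h2 := mon_lie_mem hN ht κ y hy
    refine Bx_mono ?_ (Bx_smul h2 (a κ))
    have h3 : (2:ℝ) ^ κ.length ≤ 2 ^ c := pow_le_pow_right₀ (by norm_num) (mem_KL.1 hκ)
    have h4 := ha κ
    gcongr
  refine Bx_mono ?_ (Bx_sum _ _ _ h1)
  rw [Finset.sum_const, nsmul_eq_mul]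
  unfold brC
  nlinarith [mul_nonneg hs ht]

/-- all elements lie in some box if the monomials span -/
theorem exists_mem_Bx (hspan : ∀ x : L, x ∈ Submodule.span ℝ (Set.range fun κ : List σ => mon g κ))
    (hN : Nil c g) (x : L) : ∃ t, 0 ≤ t ∧ x ∈ Bx c g t := by
  have h := hspan x
  induction h using Submodule.span_induction with
  | mem x hx =>
    obtain ⟨κ, rfl⟩ := hx
    exact ⟨1, zero_le_one, mon_mem_Bx hN κ⟩
  | zero => exact ⟨0, le_rfl, Bx_zero_mem le_rfl⟩
  | add x y _ _ hx hy =>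
    obtain ⟨a, ha, h1⟩ := hx
    obtain ⟨b, hb, h2⟩ := hy
    exact ⟨a + b, add_nonneg ha hb, Bx_add h1 h2⟩
  | smul r x _ hx =>
    obtain ⟨a, ha, h1⟩ := hx
    exact ⟨|r| * a, by positivity, Bx_smul h1 r⟩

/-- rescaling the family -/
theorem Bx_scale {R : ℝ} (hR : 1 ≤ R) (ht : 0 ≤ t) (hx : x ∈ Bx c g t) :
    x ∈ Bx c (fun i => R • g i) (t / R) := by
  have hmon : ∀ κ : List σ, mon (fun i => R • g i) κ = R ^ κ.length • mon g κ := by
    intro κ
    induction κ with
    | nil => simp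
    | cons i κ ih =>
      by_cases hκ : κ = []
      · subst hκ; simp
      · rw [mon_cons _ i hκ, ih, mon_cons g i hκ, smul_lie, lie_smul, smul_smul, List.length_cons,
          pow_succ']
  obtain ⟨a, ha, rfl⟩ := hx
  have hR0 : 0 < R := by linarith
  refine ⟨fun κ => if κ = [] then 0 else a κ / R ^ κ.length, fun κ => ?_, ?_⟩
  · beta_reduce
    split_ifs with h
    · simp; positivity
    · rw [abs_div, abs_of_pos (pow_pos hR0 _)]
      have h1 : 1 ≤ κ.length := by
        rcases κ with _ | ⟨_, _⟩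
        · exact absurd rfl h
        · simp
      have h2 : R ≤ R ^ κ.length := by
        calc R = R ^ 1 := (pow_one R).symm
          _ ≤ R ^ κ.length := pow_le_pow_right₀ hR h1
      exact div_le_div₀ ht (ha κ) hR0 h2
  · refine Finset.sum_congr rfl fun κ _ => ?_
    beta_reduce
    rw [hmon]
    by_cases h : κ = []
    · simp [h]
    · rw [if_neg h, smul_smul, div_mul_cancel₀ _ (pow_pos hR0 _).ne']

end mon

end Crest.Agent.R182.Nb
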