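/-
R182, module NILBOX (helper89): Lie polynomials and their action on boxes; products of many elements.
-/
import Mathlib
import Crest.Agent.R182.NbMon

set_option autoImplicit false
set_option linter.unusedSectionVars false

namespace Crest.Agent.R182.Nb

open Finset

section LP

variable {L : Type*} [LieRing L] [LieAlgebra ℝ L] {σ τ : Type*}

/-- Lie polynomials in the variables `σ`, as functions. -/
def LP (σ : Type*) (L : Type*) [LieRing L] [LieAlgebra ℝ L] : Submodule ℝ ((σ → L) → L) :=
  Submodule.span ℝ (Set.range fun (κ : List σ) (v : σ → L) => mon v κ)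

theorem LP.of_mon (κ : List σ) : (fun v : σ → L => mon v κ) ∈ LP σ L :=
  Submodule.subset_span ⟨κ, rfl⟩

theorem LP.proj (i : σ) : (fun v : σ → L => v i) ∈ LP σ L := LP.of_mon [i]

theorem LP.lie_var (i : σ) {f : (σ → L) → L} (hf : f ∈ LP σ L) :
    (fun v => ⁅v i, f v⁆) ∈ LP σ L := by
  induction hf using Submodule.span_induction with
  | mem f hf =>
    obtain ⟨κ, rfl⟩ := hf
    by_cases hκ : κ = []
    · subst hκ
      have : (fun v : σ → L => ⁅v i, Nb.mon v ([] : List σ)⁆) = 0 := by
        funext v; simp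
      simp only [this]; exact Submodule.zero_mem _
    · have : (fun v : σ → L => ⁅v i, Nb.mon v κ⁆) = fun v => Nb.mon v (i :: κ) := by
        funext v; rw [mon_cons v i hκ]
      simp only [this]; exact LP.of_mon _
  | zero =>
    have : (fun v : σ → L => ⁅v i, (0 : (σ → L) → L) v⁆) = 0 := by funext v; simp
    rw [this]; exact Submodule.zero_mem _
  | add f g _ _ hf hg =>
    have : (fun v : σ → L => ⁅v i, (f + g) v⁆) = (fun v => ⁅v i, f v⁆) + fun v => ⁅v i, g v⁆ := by
      funext v; simp [lie_add]
    rw [this]; exact Submodule.add_mem _ hf hg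
  | smul r f _ hf =>
    have : (fun v : σ → L => ⁅v i, (r • f) v⁆) = r • (fun v => ⁅v i, f v⁆) := by
      funext v; simp [lie_smul]
    rw [this]; exact Submodule.smul_mem _ _ hf

theorem LP.lie_mon (κ : List σ) : ∀ {f : (σ → L) → L}, f ∈ LP σ L →
    (fun v => ⁅Nb.mon v κ, f v⁆) ∈ LP σ L := by
  induction κ with
  | nil =>
    intro f _
    have : (fun v : σ → L => ⁅Nb.mon v ([] : List σ), f v⁆) = 0 := by funext v; simp
    rw [this]; exact Submodule.zero_mem _
  | cons i κ ih =>
    intro f hf
    by_cases hκ : κ = []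
    · subst hκ; exact LP.lie_var i hf
    · have : (fun v : σ → L => ⁅Nb.mon v (i :: κ), f v⁆)
          = (fun v => ⁅v i, ⁅Nb.mon v κ, f v⁆⁆) - fun v => ⁅Nb.mon v κ, ⁅v i, f v⁆⁆ := by
        funext v; rw [mon_cons v i hκ, lie_lie]; rfl
      rw [this]
      exact Submodule.sub_mem _ (LP.lie_var i (ih hf)) (ih (LP.lie_var i hf))

theorem LP.lie {f g : (σ → L) → L} (hf : f ∈ LP σ L) (hg : g ∈ LP σ L) :
    (fun v => ⁅f v, g v⁆) ∈ LP σ L := by
  induction hf using Submodule.span_induction with
  | mem f hf =>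
    obtain ⟨κ, rfl⟩ := hf
    exact LP.lie_mon κ hg
  | zero =>
    have : (fun v : σ → L => ⁅(0 : (σ → L) → L) v, g v⁆) = 0 := by funext v; simp
    rw [this]; exact Submodule.zero_mem _
  | add f f' _ _ hf hf' =>
    have : (fun v : σ → L => ⁅(f + f') v, g v⁆) = (fun v => ⁅f v, g v⁆) + fun v => ⁅f' v, g v⁆ := by
      funext v; simp [add_lie]
    rw [this]; exact Submodule.add_mem _ hf hf'
  | smul r f _ hf =>
    have : (fun v : σ → L => ⁅(r • f) v, g v⁆) = r • (fun v => ⁅f v, g v⁆) := by
      funext v; simp [smul_lie]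
    rw [this]; exact Submodule.smul_mem _ _ hf

theorem LP.comp_mon {G : (τ → L) → (σ → L)} (hG : ∀ i, (fun w => G w i) ∈ LP τ L)
    (κ : List σ) : (fun w => Nb.mon (G w) κ) ∈ LP τ L := by
  induction κ with
  | nil =>
    have : (fun w : τ → L => Nb.mon (G w) ([] : List σ)) = 0 := by funext v; simp
    rw [this]; exact Submodule.zero_mem _
  | cons i κ ih =>
    by_cases hκ : κ = []
    · subst hκ; exact hG i
    · have : (fun w : τ → L => Nb.mon (G w) (i :: κ)) = fun w => ⁅G w i, Nb.mon (G w) κ⁆ := by
        funext w; rw [mon_cons _ i hκ]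
      rw [this]; exact LP.lie (hG i) ih

theorem LP.comp {f : (σ → L) → L} (hf : f ∈ LP σ L) {G : (τ → L) → (σ → L)}
    (hG : ∀ i, (fun w => G w i) ∈ LP τ L) : (fun w => f (G w)) ∈ LP τ L := by
  induction hf using Submodule.span_induction with
  | mem f hf =>
    obtain ⟨κ, rfl⟩ := hf
    exact LP.comp_mon hG κ
  | zero => exact Submodule.zero_mem _
  | add f f' _ _ hf hf' => exact Submodule.add_mem _ hf hf'
  | smul r f _ hf => exact Submodule.smul_mem _ _ hf

/-- explicit form -/
theorem LP.exists_sum {f : (σ → L) → L} (hf : f ∈ LP σ L) :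
    ∃ a : List σ →₀ ℝ, ∀ v, f v = ∑ κ ∈ a.support, a κ • Nb.mon v κ := by
  obtain ⟨a, ha⟩ := Finsupp.mem_span_range_iff_exists_finsupp.1 hf
  refine ⟨a, fun v => ?_⟩
  rw [← ha, Finsupp.sum, Finset.sum_apply]
  rfl

section boxes

variable {ι : Type*} [Fintype ι] {c : ℕ} {g : ι → L}

theorem mon_comp_mem (hN : Nil c g) {v : σ → L} {t : σ → ℝ} (ht : ∀ i, 0 ≤ t i)
    (hv : ∀ i, v i ∈ Bx c g (t i)) (κ : List σ) :
    mon v κ ∈ Bx c g (brC ι c ^ κ.length * (κ.map t).prod) := by
  have hC := brC_pos ι c
  induction κ with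
  | nil => exact Bx_zero_mem (by simp)
  | cons i κ ih =>
    have hprod : 0 ≤ (κ.map t).prod := List.prod_nonneg (by
      intro a ha
      obtain ⟨j, _, rfl⟩ := List.mem_map.1 ha
      exact ht j)
    by_cases hκ : κ = []
    · subst hκ
      refine Bx_mono ?_ (hv i)
      simp only [List.length_cons, List.length_nil, zero_add, pow_one, List.map_cons, List.map_nil,
        List.prod_cons, List.prod_nil, mul_one]
      nlinarith [ht i]
    · rw [mon_cons v i hκ]
      refine Bx_mono ?_ (lie_mem_Bx hN (ht i) (by positivity) (hv i) ih)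
      rw [List.length_cons, List.map_cons, List.prod_cons, pow_succ']
      exact le_of_eq (by ring)

/-- a Lie polynomial maps boxes to boxes, uniformly in the family. -/
theorem LP.mem_Bx {f : (σ → L) → L} (hf : f ∈ LP σ L) (hc : 1 ≤ c)
    (hNil : ∀ (v : σ → L) (κ : List σ), c < κ.length → Nb.mon v κ = 0) (ι : Type*) [Fintype ι] :
    ∃ C : ℝ, 0 ≤ C ∧ ∀ (g : ι → L), Nil c g → ∀ (T : ℝ), 1 ≤ T → ∀ v : σ → L,
      (∀ i, v i ∈ Bx c g T) → f v ∈ Bx c g (C * T ^ c) := by
  obtain ⟨a, ha⟩ := LP.exists_sum hf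
  refine ⟨∑ κ ∈ a.support, |a κ| * brC ι c ^ c, Finset.sum_nonneg fun κ _ => by
    have := brC_pos ι c; positivity, fun g hN T hT v hv => ?_⟩
  rw [ha, Finset.sum_mul]
  refine Bx_sum _ _ _ fun κ _ => ?_
  have hC := brC_pos ι c
  by_cases hκ : κ.length ≤ c
  · have h1 := mon_comp_mem hN (t := fun _ => T) (fun _ => by linarith) hv κ
    refine Bx_mono ?_ (Bx_smul h1 (a κ))
    have h2 : (κ.map fun _ => T).prod = T ^ κ.length := by simp
    rw [h2]
    have h3 : brC ι c ^ κ.length ≤ brC ι c ^ c := pow_le_pow_right₀ hC hκ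
    have h4 : T ^ κ.length ≤ T ^ c := pow_le_pow_right₀ hT hκ
    have h5 : (0:ℝ) ≤ brC ι c ^ κ.length := by positivity
    have h6 : (0:ℝ) ≤ T ^ κ.length := by positivity
    calc |a κ| * (brC ι c ^ κ.length * T ^ κ.length)
        ≤ |a κ| * (brC ι c ^ c * T ^ c) := by gcongr
      _ = |a κ| * brC ι c ^ c * T ^ c := by ring
  · rw [hNil v κ (by omega), smul_zero]
    exact Bx_zero_mem (by positivity)

/-- linear estimate for small arguments -/
theorem LP.mem_Bx_small {f : (σ → L) → L} (hf : f ∈ LP σ L) (ι : Type*) [Fintype ι] (c : ℕ) :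
    ∃ C : ℝ, 0 ≤ C ∧ ∀ (g : ι → L), Nil c g → ∀ (T : ℝ), 0 ≤ T → T ≤ 1 → ∀ v : σ → L,
      (∀ i, v i ∈ Bx c g T) → f v ∈ Bx c g (C * T) := by
  obtain ⟨a, ha⟩ := LP.exists_sum hf
  refine ⟨∑ κ ∈ a.support, |a κ| * brC ι c ^ κ.length, Finset.sum_nonneg fun κ _ => by
    have := brC_pos ι c; positivity, fun g hN T hT0 hT v hv => ?_⟩
  rw [ha, Finset.sum_mul]
  refine Bx_sum _ _ _ fun κ _ => ?_
  have hC := brC_pos ι c
  have h1 := mon_comp_mem hN (t := fun _ => T) (fun _ => hT0) hv κ
  by_cases hκ : κ = []
  · subst hκ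
    rw [mon_nil, smul_zero]; exact Bx_zero_mem (by positivity)
  · refine Bx_mono ?_ (Bx_smul h1 (a κ))
    have h2 : (κ.map fun _ => T).prod = T ^ κ.length := by simp
    rw [h2]
    have h3 : T ^ κ.length ≤ T := by
      obtain ⟨m, hm⟩ : ∃ m, κ.length = m + 1 := ⟨κ.length - 1, by
        have : κ.length ≠ 0 := by simpa using hκ
        omega⟩
      rw [hm, pow_succ]
      have : T ^ m ≤ 1 := pow_le_one₀ hT0 hT
      nlinarith
    calc |a κ| * (brC ι c ^ κ.length * T ^ κ.length)
        ≤ |a κ| * (brC ι c ^ κ.length * T) := by gcongr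
      _ = |a κ| * brC ι c ^ κ.length * T := by ring

/-- mixed estimate: a Lie polynomial in two variables which vanishes on both axes is `O(|x||y|)` -/
theorem LP.mixed {f : (Bool → L) → L} (hf : f ∈ LP Bool L)
    (h0 : ∀ v, v false = 0 → f v = 0) (h1 : ∀ v, v true = 0 → f v = 0)
    (ι : Type*) [Fintype ι] (c : ℕ) :
    ∃ C : ℝ, 0 ≤ C ∧ ∀ (g : ι → L), Nil c g → ∀ (s t : ℝ), 0 ≤ s → s ≤ 1 → 0 ≤ t → t ≤ 1 →
      ∀ v : Bool → L, v false ∈ Bx c g s → v true ∈ Bx c g t → f v ∈ Bx c g (C * s * t) := by
  classical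
  obtain ⟨a, ha⟩ := LP.exists_sum hf
  -- monomials missing a variable
  have hmonz : ∀ (b : Bool) (κ : List Bool) (v : Bool → L), b ∈ κ → v b = 0 → mon v κ = 0 := by
    intro b κ v
    induction κ with
    | nil => intro h; simp at h
    | cons i κ ih =>
      intro hb hv
      by_cases hκ : κ = []
      · subst hκ
        rw [List.mem_singleton] at hb
        subst hb
        exact hv
      · rw [mon_cons v i hκ]
        rcases List.mem_cons.1 hb with h | h
        · subst h; rw [hv, zero_lie]
        · rw [ih h hv, lie_zero]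
  have hmonc : ∀ (b : Bool) (κ : List Bool) (v w : Bool → L), b ∉ κ → v (!b) = w (!b) →
      mon v κ = mon w κ := by
    intro b κ v w
    induction κ with
    | nil => intro _ _; rfl
    | cons i κ ih =>
      intro hb hvw
      rw [List.mem_cons, not_or] at hb
      have hi : v i = w i := by
        have : i = !b := by cases i <;> cases b <;> simp_all
        rw [this]; exact hvw
      by_cases hκ : κ = []
      · subst hκ; exact hi
      · rw [mon_cons v i hκ, mon_cons w i hκ, hi, ih hb.2 hvw]
  -- the full sum equals the sum over mixed lists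
  have hsum : ∀ v, f v = ∑ κ ∈ a.support.filter (fun κ => false ∈ κ ∧ true ∈ κ), a κ • mon v κ := by
    intro v
    -- v with one coordinate killed
    have e1 := h0 (fun b => if b = false then 0 else v b) (by simp)
    have e2 := h1 (fun b => if b = true then 0 else v b) (by simp)
    have hz : f (fun _ => 0) = 0 := h0 _ rfl
    rw [ha] at e1 e2
    have hsplit : ∀ w : Bool → L, ∑ κ ∈ a.support, a κ • mon w κ
        = ∑ κ ∈ a.support.filter (fun κ => false ∈ κ ∧ true ∈ κ), a κ • mon w κ
          + (∑ κ ∈ a.support.filter (fun κ => ¬ (false ∈ κ ∧ true ∈ κ) ∧ false ∈ κ), a κ • mon w κ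
          + ∑ κ ∈ a.support.filter (fun κ => ¬ (false ∈ κ ∧ true ∈ κ) ∧ ¬ false ∈ κ),
              a κ • mon w κ) := by
      intro w
      rw [← Finset.sum_filter_add_sum_filter_not a.support (fun κ => false ∈ κ ∧ true ∈ κ)]
      congr 1
      rw [← Finset.sum_filter_add_sum_filter_not
        (a.support.filter fun κ => ¬ (false ∈ κ ∧ true ∈ κ)) (fun κ => false ∈ κ),
        Finset.filter_filter, Finset.filter_filter]
    rw [hsplit] at e1 e2
    rw [ha, hsplit]
    have hA : ∑ κ ∈ a.support.filter (fun κ => ¬ (false ∈ κ ∧ true ∈ κ) ∧ false ∈ κ),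
        a κ • mon v κ = 0 := by
      -- use e2
      rw [Finset.sum_eq_zero (s := a.support.filter (fun κ => false ∈ κ ∧ true ∈ κ)),
        zero_add] at e2
      · rw [Finset.sum_eq_zero (s := a.support.filter
          (fun κ => ¬ (false ∈ κ ∧ true ∈ κ) ∧ ¬ false ∈ κ)), add_zero] at e2
        · rw [← e2]
          refine Finset.sum_congr rfl fun κ hκ => ?_
          rw [Finset.mem_filter] at hκ
          rw [hmonc true κ v (fun b => if b = true then 0 else v b)
            (fun h => hκ.2.1 ⟨hκ.2.2, h⟩) (by simp)]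
        · intro κ hκ
          rw [Finset.mem_filter] at hκ
          by_cases hnil : κ = []
          · subst hnil; simp
          · have : true ∈ κ := by
              rcases κ with _ | ⟨b, κ⟩
              · exact absurd rfl hnil
              · cases b
                · exact absurd List.mem_cons_self hκ.2.2
                · exact List.mem_cons_self
            rw [hmonz true κ _ this (by simp), smul_zero]
      · intro κ hκ
        rw [Finset.mem_filter] at hκ
        rw [hmonz true κ _ hκ.2.2 (by simp), smul_zero]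
    have hB : ∑ κ ∈ a.support.filter (fun κ => ¬ (false ∈ κ ∧ true ∈ κ) ∧ ¬ false ∈ κ),
        a κ • mon v κ = 0 := by
      rw [Finset.sum_eq_zero (s := a.support.filter (fun κ => false ∈ κ ∧ true ∈ κ)),
        zero_add] at e1
      · rw [Finset.sum_eq_zero (s := a.support.filter
          (fun κ => ¬ (false ∈ κ ∧ true ∈ κ) ∧ false ∈ κ)), zero_add] at e1
        · rw [← e1]
          refine Finset.sum_congr rfl fun κ hκ => ?_
          rw [Finset.mem_filter] at hκ
          rw [hmonc false κ v (fun b => if b = false then 0 else v b) hκ.2.2 (by simp)]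
        · intro κ hκ
          rw [Finset.mem_filter] at hκ
          rw [hmonz false κ _ hκ.2.2 (by simp), smul_zero]
      · intro κ hκ
        rw [Finset.mem_filter] at hκ
        rw [hmonz false κ _ hκ.2.1 (by simp), smul_zero]
    rw [hA, hB, add_zero, add_zero]
  refine ⟨∑ κ ∈ a.support.filter (fun κ => false ∈ κ ∧ true ∈ κ), |a κ| * brC ι c ^ κ.length,
    Finset.sum_nonneg fun κ _ => by have := brC_pos ι c; positivity,
    fun g hN s t hs0 hs ht0 ht v hvs hvt => ?_⟩
  rw [hsum, Finset.sum_mul, Finset.sum_mul]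
  refine Bx_sum _ _ _ fun κ hκ => ?_
  rw [Finset.mem_filter] at hκ
  have hC := brC_pos ι c
  have h3 := mon_comp_mem hN (v := v) (t := fun b => if b = false then s else t)
    (fun b => by split_ifs <;> assumption) (fun b => by cases b <;> simpa) κ
  refine Bx_mono ?_ (Bx_smul h3 (a κ))
  -- the product of the sizes is at most s * t
  have hprod : ∀ κ : List Bool, 0 ≤ (κ.map fun b => if b = false then s else t).prod ∧
      (κ.map fun b => if b = false then s else t).prod ≤ 1 ∧
      (false ∈ κ → (κ.map fun b => if b = false then s else t).prod ≤ s) ∧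
      (true ∈ κ → (κ.map fun b => if b = false then s else t).prod ≤ t) ∧
      (false ∈ κ → true ∈ κ → (κ.map fun b => if b = false then s else t).prod ≤ s * t) := by
    intro κ
    induction κ with
    | nil => simp
    | cons b κ ih =>
      obtain ⟨i0, i1, i2, i3, i4⟩ := ih
      set P := (κ.map fun b => if b = false then s else t).prod with hP
      rw [List.map_cons, List.prod_cons]
      cases b
      · simp only [if_true]
        refine ⟨by positivity, by nlinarith, fun _ => by nlinarith, fun h => ?_, fun _ h => ?_⟩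
        · have h' : true ∈ κ := by simpa using h
          have := i3 h'; nlinarith
        · have h' : true ∈ κ := by simpa using h
          have := i3 h'; nlinarith
      · simp only [Bool.true_eq_false, if_false]
        refine ⟨by positivity, by nlinarith, fun h => ?_, fun _ => by nlinarith, fun h _ => ?_⟩
        · have h' : false ∈ κ := by simpa using h
          have := i2 h'; nlinarith
        · have h' : false ∈ κ := by simpa using h
          have := i2 h'; nlinarith
  obtain ⟨i0, -, -, -, i4⟩ := hprod κ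
  have h4 := i4 hκ.2.1 hκ.2.2
  calc |a κ| * (brC ι c ^ κ.length * (κ.map fun b => if b = false then s else t).prod)
      ≤ |a κ| * (brC ι c ^ κ.length * (s * t)) := by gcongr
    _ = |a κ| * brC ι c ^ κ.length * s * t := by ring

end boxes

end LP

end Crest.Agent.R182.Nb
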