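/-
R182, module NILBOX (helper89): products of many elements of a box (R-scaling trick).
-/
import Mathlib
import Crest.Agent.R182.NbLP

set_option autoImplicit false
set_option linter.unusedSectionVars false

namespace Crest.Agent.R182.Nb

open Finset

variable {L : Type*} [LieRing L] [LieAlgebra ℝ L]

/-- `L` has class at most `c` -/
def NilC (c : ℕ) (L : Type*) [LieRing L] : Prop := ∀ x : List L, c < x.length → mon id x = 0

theorem mon_map {σ : Type*} (v : σ → L) (κ : List σ) : mon v κ = mon id (κ.map v) := by
  induction κ with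
  | nil => rfl
  | cons i κ ih =>
    by_cases h : κ = []
    · subst h; rfl
    · rw [mon_cons v i h, List.map_cons, mon_cons id _ (by simpa using h), ih]; rfl

theorem NilC.nil {c : ℕ} (h : NilC c L) {σ : Type*} (v : σ → L) : Nil c v := by
  intro κ hκ
  rw [mon_map]; exact h _ (by simpa using hκ)

/-- a nilpotent group law on `L` given by a Lie polynomial -/
structure Star (L : Type*) [LieRing L] [LieAlgebra ℝ L] where
  op : L → L → L
  lp : (fun v : Bool → L => op (v false) (v true)) ∈ LP Bool L
  op_zero : ∀ x, op x 0 = x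
  zero_op : ∀ x, op 0 x = x
  assoc : ∀ x y z, op (op x y) z = op x (op y z)
  op_neg : ∀ x, op x (-x) = 0

namespace Star

variable (S : Star L)

/-- the product of a list -/
def prod (l : List L) : L := l.foldr S.op 0

@[simp] theorem prod_nil : S.prod [] = 0 := rfl
@[simp] theorem prod_cons (x : L) (l : List L) : S.prod (x :: l) = S.op x (S.prod l) := rfl

theorem prod_append (l l' : List L) : S.prod (l ++ l') = S.op (S.prod l) (S.prod l') := by
  induction l with
  | nil => rw [List.nil_append, prod_nil, S.zero_op]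
  | cons x l ih => rw [List.cons_append, prod_cons, prod_cons, ih, S.assoc]

/-- the product of finitely many variables is a Lie polynomial -/
theorem prod_lp {σ : Type*} (κ : List σ) : (fun v : σ → L => S.prod (κ.map v)) ∈ LP σ L := by
  induction κ with
  | nil => exact Submodule.zero_mem _
  | cons i κ ih =>
    exact LP.comp S.lp (G := fun (v : σ → L) (b : Bool) => if b = false then v i else S.prod (κ.map v))
      (fun b => by cases b <;> simp [LP.proj, ih])

/-- quantitative near-additivity, uniform in the family. -/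
theorem exists_op_mem (ι : Type*) [Fintype ι] (c : ℕ) :
    ∃ C : ℝ, 0 ≤ C ∧ ∀ g : ι → L, Nil c g → ∀ s t : ℝ, 0 ≤ s → s ≤ 1 → 0 ≤ t → t ≤ 1 →
      ∀ x ∈ Bx c g s, ∀ y ∈ Bx c g t, S.op x y ∈ Bx c g (s + t + C * s * t) := by
  have hf : (fun v : Bool → L => S.op (v false) (v true) - v false - v true) ∈ LP Bool L :=
    Submodule.sub_mem _ (Submodule.sub_mem _ S.lp (LP.proj false)) (LP.proj true)
  obtain ⟨C, hC, h⟩ := LP.mixed hf (fun v hv => by rw [hv, S.zero_op]; simp)
    (fun v hv => by rw [hv, S.op_zero]; simp) ι c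
  refine ⟨C, hC, fun g hN s t hs hs1 ht ht1 x hx y hy => ?_⟩
  have h1 := h g hN s t hs hs1 ht ht1 (fun b => if b = false then x else y) (by simpa using hx)
    (by simpa using hy)
  have h2 : S.op x y = x + y + (S.op x y - x - y) := by abel
  rw [h2]
  exact Bx_add (Bx_add hx hy) (by simpa using h1)

/-- **Products of many elements** (R-scaling trick). -/
theorem exists_prod_mem (ι : Type*) [Fintype ι] (c : ℕ) (hL : NilC c L) :
    ∃ C : ℝ, 1 ≤ C ∧ ∀ g : ι → L, ∀ l : List L, (∀ x ∈ l, x ∈ Bx c g 1) → ∀ R : ℝ,
      C * (l.length + 1) ≤ R → S.prod l ∈ Bx c (fun i => R • g i) (2 * l.length / R) := by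
  obtain ⟨C₀, hC₀, h⟩ := S.exists_op_mem ι c
  refine ⟨2 * C₀ + 2, by linarith, fun g l hl R hR => ?_⟩
  have hlen : (0:ℝ) ≤ l.length := Nat.cast_nonneg _
  have hR1 : 1 ≤ R := by nlinarith
  have hR0 : 0 < R := by linarith
  set g' : ι → L := fun i => R • g i with hg'
  have hx : ∀ x ∈ l, x ∈ Bx c g' (1 / R) := fun x hx => Bx_scale hR1 zero_le_one (hl x hx)
  have key : ∀ l' : List L, (∀ x ∈ l', x ∈ Bx c g' (1 / R)) → (l'.length : ℝ) ≤ l.length →
      S.prod l' ∈ Bx c g' (2 * l'.length / R) := by
    intro l'
    induction l' with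
    | nil =>
      intro _ _
      simpa using Bx_zero_mem (le_refl (0:ℝ))
    | cons x l' ih =>
      intro hx' hlen'
      rw [List.length_cons, Nat.cast_succ] at hlen'
      have h1 := ih (fun y hy => hx' y (List.mem_cons_of_mem _ hy)) (by linarith)
      have h2 := hx' x List.mem_cons_self
      have hl0 : (0:ℝ) ≤ l'.length := Nat.cast_nonneg _
      have h3 : 2 * (l'.length : ℝ) / R ≤ 1 := by
        rw [div_le_one hR0]; nlinarith
      have h4 := h g' (hL.nil g') (1 / R) (2 * l'.length / R) (by positivity)
        (by rw [div_le_one hR0]; exact hR1) (by positivity) h3 x h2 _ h1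
      rw [prod_cons]
      refine Bx_mono ?_ h4
      rw [List.length_cons, Nat.cast_succ]
      have h5 : C₀ * (1 / R) * (2 * l'.length / R) ≤ 1 / R := by
        have h6 : C₀ * (2 * l'.length / R) ≤ 1 := by
          rw [← mul_div_assoc, div_le_one hR0]; nlinarith
        have h7 : 0 ≤ 1 / R := by positivity
        nlinarith
      have h8 : 2 * ((l'.length : ℝ) + 1) / R = 1 / R + 2 * l'.length / R + 1 / R := by ring
      rw [h8]; linarith
  exact key l hx le_rfl

end Star

end Crest.Agent.R182.Nb
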