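/-
R182, module CORE (helper848): the facts about the real model `G ⊇ Γ` which are used by the
geometric blocks (MICRO, NILBOX, CAP, STAR, FACET, HOLE).  `BModel S π` is proved to be inhabited by
the MODEL block; everything else is deduced from an arbitrary `M : BModel S π`.
-/
import Mathlib
import Crest.Agent.R182.NbStar
import Crest.Agent.R182.BndLaw

set_option autoImplicit false

open MeasureTheory

namespace Crest.Agent.R182.Core

open Crest.GroupTheory Crest.Geometry Crest.Agent.R182.QI Crest.Agent.R182.FinPath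
  Crest.Agent.R182.FinRed Crest.Agent.R182.Bnd

/-- The real model `G = E · C`.  `L = 𝔢` is the ideal of `𝔫 = Lie N_ℝ` generated by the nonzero
weight spaces (NOT all of `𝔫`: there are no zero-weight generators), `E = ex L` is normal in `G` and
exponentially distorted, `C` preserves the weight spaces and has polynomial growth (it may contain
rotations, it is solvable but not nilpotent in general), `E ∩ C = ex (𝔢_0)`; `CN ≤ C` is a nilpotent
subgroup containing the verticals `t v`. -/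
structure BModel {Γ : Type*} [Group Γ] {k : ℕ} (S : Set Γ)
    (π : Γ →* Multiplicative (Fin k → ℤ)) where
  /-- the real group -/
  G : Type
  [grpG : Group G]
  /-- the nilpotent Lie algebra `𝔢` -/
  L : Type
  [lieL : LieRing L]
  [algL : LieAlgebra ℝ L]
  -- (A) coarse geometry
  ι : Γ →* G
  len : G → ℝ
  isLen : IsLen len
  a : ℝ
  one_le_a : 1 ≤ a
  len_ι : ∀ γ, len (ι γ) ≤ a * wordLength S γ
  ι_len : ∀ γ, (wordLength S γ : ℝ) ≤ a * len (ι γ) + a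
  /-- rounding to the lattice -/
  rnd : G → Γ
  len_rnd : ∀ g, len ((ι (rnd g))⁻¹ * g) ≤ a
  letters : ∀ g, ∃ l : List G, g = l.prod ∧ (l.length : ℝ) ≤ len g + 1 ∧ ∀ s ∈ l, len s ≤ a
  -- (B) heights
  h : G → Fin k → ℝ
  h_mul : ∀ g g', h (g * g') = h g + h g'
  h_ι : ∀ γ, h (ι γ) = hgtR π γ
  h_int : ∀ g, ∃ v : Fin k → ℤ, ∀ i, h g i = v i
  h_le : ∀ g i, |h g i| ≤ a * len g
  -- (C) the exponentially distorted nilpotent normal subgroup `E = ex L`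
  c : ℕ
  nilC : Nb.NilC c L
  star : Nb.Star L
  ex : L → G
  ex_op : ∀ x y, ex (star.op x y) = ex x * ex y
  ex_inj : Function.Injective ex
  h_ex : ∀ x, h (ex x) = 0
  Ad : G →* (L ≃ₗ[ℝ] L)
  Ad_lie : ∀ (g : G) (x y : L), Ad g ⁅x, y⁆ = ⁅Ad g x, Ad g y⁆
  /-- `Ad (ex x) = exp (ad x)` -/
  star_cj : ∀ x y : L, star.op (star.op x y) (-x) =
    ∑ n ∈ Finset.range (c + 1), ((n.factorial : ℝ)⁻¹) • (fun z => ⁅x, z⁆)^[n] y
  conj_ex : ∀ g x, g * ex x * g⁻¹ = ex (Ad g x)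
  -- (D) weights: a basis adapted to the weight spaces and to `[L, L]`
  r : ℕ
  bas : Module.Basis (Fin r) ℝ L
  wt : Fin r → ((Fin k → ℝ) →ₗ[ℝ] ℝ)
  lie_wt : ∀ i j l, bas.repr ⁅bas i, bas j⁆ l ≠ 0 → wt l = wt i + wt j
  /-- the generating basis vectors -/
  gen : Finset (Fin r)
  lie_gen : ∀ x y : L, ∀ i ∈ gen, bas.repr ⁅x, y⁆ i = 0
  gen_span : ∀ i ∉ gen, bas i ∈ Submodule.span ℝ {z | ∃ x y : L, z = ⁅x, y⁆}
  /-- there are no zero-weight generators -/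
  wt_gen_ne : ∀ i ∈ gen, wt i ≠ 0
  /-- unimodularity -/
  tr : ∑ i, wt i = 0
  sep : ∀ v, (∀ i ∈ gen, wt i v = 0) → v = 0
  -- (E) verticals
  C : Subgroup G
  C_solv : Group.IsSolvable C
  /-- polynomial growth -/
  C_growth : ∀ R : ℝ, ∃ A : ℕ, ∀ n : ℕ, ∃ F : Finset G, F.card ≤ A * (1 + n) ^ A ∧
    ∀ l : List G, l.length ≤ n → (∀ s ∈ l, s ∈ C ∧ len s ≤ R) →
      ∃ f ∈ F, f ∈ C ∧ len (f⁻¹ * l.prod) ≤ a
  /-- the nilpotent subgroup containing the verticals -/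
  CN : Subgroup G
  CN_le : CN ≤ C
  CN_nil : Group.IsNilpotent CN
  /-- conjugates of bounded elements of `C` by powers of a vertical have sublinear length -/
  sub_conj : ∀ b ∈ CN, ∀ R δ : ℝ, 0 < δ → ∃ (R' : ℝ) (N₀ : ℕ), ∀ N : ℕ, N₀ ≤ N → ∀ j : ℕ, j ≤ N →
    ∀ y ∈ C, len y ≤ R →
      (∃ l : List G, b ^ j * y * (b ^ j)⁻¹ = l.prod ∧ (l.length : ℝ) ≤ δ * N ∧
        ∀ s ∈ l, s ∈ C ∧ len s ≤ R') ∧
      (∃ l : List G, (b ^ j)⁻¹ * y * b ^ j = l.prod ∧ (l.length : ℝ) ≤ δ * N ∧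
        ∀ s ∈ l, s ∈ C ∧ len s ≤ R')
  /-- `E ∩ C` is the exponential of the zero-weight part of `𝔢` -/
  ex_mem_C : ∀ x, ex x ∈ C ↔ ∀ i, wt i ≠ 0 → bas.repr x i = 0
  t : (Fin k → ℤ) → G
  h_t : ∀ v i, h (t v) i = v i
  t_list : ∀ v, ∃ l : List G, t v = l.prod ∧ l.length ≤ n1 v ∧ ∀ s ∈ l, s ∈ CN ∧ len s ≤ a
  Ad_C : ∀ g ∈ C, ∀ i j, bas.repr (Ad g (bas j)) i ≠ 0 → wt i = wt j
  d : ℕ
  Ad_C_le : ∀ R : ℝ, ∃ A : ℝ, ∀ l : List G, (∀ s ∈ l, s ∈ C ∧ len s ≤ R) → ∀ i j,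
    |bas.repr (Ad l.prod (bas j)) i| ≤ A * (1 + l.length) ^ d * Real.exp (wt i (h l.prod))
  /-- `G = E · C`, with bounds for bounded elements -/
  dec : ∀ R : ℝ, ∃ R' : ℝ, ∀ g, len g ≤ R → ∃ x, ∃ g' ∈ C, g = ex x * g' ∧
    ‖bas.equivFun x‖ ≤ R' ∧ len g' ≤ R'
  /-- elements of height zero are products of elements which stay bounded under conjugation by
  balls -/
  tiny : ∀ (n : ℝ) (u : G), h u = 0 → ∃ l : List G, u = l.prod ∧
    ∀ r ∈ l, h r = 0 ∧ ∀ g, len g ≤ n → len (g⁻¹ * r * g) ≤ a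
  -- (F) sizes of unipotents: `E` is exponentially distorted
  Ad_le : ∀ g i j, |bas.repr (Ad g (bas j)) i| ≤ Real.exp (a * len g + a)
  le_len_ex : ∀ x, ‖bas.equivFun x‖ ≤ Real.exp (a * len (ex x) + a)
  len_ex_le : ∀ x, len (ex x) ≤ a * Real.log (2 + ‖bas.equivFun x‖)
  -- (G) Lebesgue measure = Haar measure of `E`, invariant under `G`
  vol_left : ∀ x : L, MeasurePreserving
    (fun y : Fin r → ℝ => bas.equivFun (star.op x (bas.equivFun.symm y)))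
  vol_right : ∀ x : L, MeasurePreserving
    (fun y : Fin r → ℝ => bas.equivFun (star.op (bas.equivFun.symm y) x))
  vol_Ad : ∀ g : G, MeasurePreserving
    (fun y : Fin r → ℝ => bas.equivFun (Ad g (bas.equivFun.symm y)))
  rnd_meas : ∀ (g g' : G) (γ : Γ),
    MeasurableSet {y : Fin r → ℝ | rnd (g * ex (bas.equivFun.symm y) * g') = γ}
  -- (H) crossed homomorphisms, for the nonzero generating weights
  m : ℕ
  Λ : Fin m → ((Fin k → ℝ) →ₗ[ℝ] ℝ)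
  Λ_ne : ∀ j, Λ j ≠ 0
  Λ_surj : ∀ i ∈ gen, ∃ j, Λ j = wt i
  χ : Fin m → G → ℂ
  δ : Fin m → G → ℂ
  crossed : ∀ j, ∃ c B, Crossed len (fun g => Λ j (h g)) (χ j) (δ j) c B
  χ_one : ∀ j g, h g = 0 → χ j g = 1
  lδ : Fin m → L →ₗ[ℝ] ℂ
  δ_ex : ∀ j x, δ j (ex x) = lδ j x
  lδ_supp : ∀ j i, lδ j (bas i) ≠ 0 → i ∈ gen ∧ wt i = Λ j
  lδ_ne : ∀ j, ∃ i, lδ j (bas i) ≠ 0

attribute [instance] BModel.grpG BModel.lieL BModel.algL

end Crest.Agent.R182.Core
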