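/-
R182, module D5 (helper860): from the law at one scale at every base point to the sublinear law
along the verticals `b ∈ Bf` (`Bf` depends on the accuracy `η`).
-/
import Mathlib
import Crest.Agent.R182.Core

set_option autoImplicit false

namespace Crest.Agent.R182.OneScale

open Crest.GroupTheory Crest.Geometry Crest.Agent.R182.QI Crest.Agent.R182.FinPath
  Crest.Agent.R182.FinRed Crest.Agent.R182.Bnd Crest.Agent.R182.Core

variable {Γ : Type*} [Group Γ] {k : ℕ} {S : Set Γ} {π : Γ →* Multiplicative (Fin k → ℤ)}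

/-- height of the image of `g` under the extension `ι ∘ Ψ ∘ rnd` -/
def fh (M : BModel S π) (Ψ : Γ → Γ) (g : M.G) : Fin k → ℝ := M.h (M.ι (Ψ (M.rnd g)))

/-- the norm of a linear form (dual to the sup norm) -/
noncomputable def nu1 (ν : (Fin k → ℝ) →ₗ[ℝ] ℝ) : ℝ := ∑ i, |ν (Pi.single i 1)|

/-- a finite set of verticals whose heights positively span, quantitatively. -/
structure Verts (M : BModel S π) (c0 : ℝ) (Bf : Set M.G) : Prop where
  fin : Bf.Finite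
  mem_C : ∀ b ∈ Bf, b ∈ M.C
  h_ne : ∀ b ∈ Bf, M.h b ≠ 0
  pos : ∀ ν : (Fin k → ℝ) →ₗ[ℝ] ℝ, ν ≠ 0 → ∃ b ∈ Bf, c0 * nu1 ν * ‖M.h b‖ ≤ ν (M.h b)

/-- **What the one-scale law must provide** (output of HOLE): a step `δ`, and for every `η` a finite
set of verticals `Bf` and one scale `n` with offsets `θ` and types `L` at EVERY base point, such that
types are locally constant and offsets follow the type along the verticals `b ∈ Bf`, up to `η n`, for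
displacements `≤ δ n`. -/
def OneScaleLaw (M : BModel S π) (LL : Set ((Fin k → ℝ) →ₗ[ℝ] (Fin k → ℝ))) (c0 : ℝ)
    (K : ℕ) : Prop :=
  ∃ δ : ℝ, 0 < δ ∧ ∀ η : ℝ, 0 < η → ∃ Bf : Set M.G, Verts M c0 Bf ∧ ∃ n D : ℝ,
    (∀ b ∈ Bf, ‖M.h b‖ ≤ δ * n) ∧ ∀ Ψ : Γ → Γ, QIMap S S Ψ K →
      ∃ (θ : M.G → Fin k → ℝ) (Lx : M.G → (Fin k → ℝ) →ₗ[ℝ] (Fin k → ℝ)),
        (∀ g, Lx g ∈ LL) ∧
        (∀ g i, |θ g i - fh M Ψ g i| ≤ D) ∧
        (∀ g s, M.len s ≤ M.a → Lx (g * s) = Lx g) ∧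
        ∀ g, ∀ b ∈ Bf, ∀ j : ℕ, j * ‖M.h b‖ ≤ δ * n → ∀ i,
          |θ (g * b ^ j) i - θ g i - Lx g (M.h (b ^ j)) i| ≤ η * n

/-- The sublinear law of one map along the verticals `b ∈ Bf`, with fixed constants. -/
def RayAt (M : BModel S π) (Bf : Set M.G) (L : (Fin k → ℝ) →ₗ[ℝ] (Fin k → ℝ)) (κ B : ℝ)
    (Ψ : Γ → Γ) : Prop :=
  ∀ g, ∀ b ∈ Bf, ∀ n : ℕ, ∀ i,
    |fh M Ψ (g * b ^ n) i - fh M Ψ g i - n * L (M.h b) i| ≤ κ * (n * ‖M.h b‖) + B

section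

variable (M : BModel S π)

theorem a0 : 0 ≤ M.a := zero_le_one.trans M.one_le_a

theorem h_one : M.h 1 = 0 := by
  have h1 := M.h_mul 1 1
  rw [mul_one] at h1
  simpa using h1

theorem h_inv (g : M.G) : M.h g⁻¹ = - M.h g := by
  have h1 := M.h_mul g g⁻¹
  rw [mul_inv_cancel, h_one] at h1
  exact (neg_eq_of_add_eq_zero_right h1.symm).symm

theorem h_pow (g : M.G) (n : ℕ) : M.h (g ^ n) = (n : ℝ) • M.h g := by
  induction n with
  | zero => simp [h_one]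
  | succ n ih => rw [pow_succ, M.h_mul, ih, Nat.cast_succ, add_smul, one_smul]

theorem near (g u : M.G) : (wordLength S ((M.rnd g)⁻¹ * M.rnd (g * u)) : ℝ) ≤
    M.a * (M.len u + 2 * M.a) + M.a := by
  refine (M.ι_len _).trans ?_
  have h1 : M.ι ((M.rnd g)⁻¹ * M.rnd (g * u)) =
      ((M.ι (M.rnd g))⁻¹ * g) * u * ((M.ι (M.rnd (g * u)))⁻¹ * (g * u))⁻¹ := by
    rw [map_mul, map_inv]; group
  rw [h1]
  have h2 := M.isLen.mul (((M.ι (M.rnd g))⁻¹ * g) * u) ((M.ι (M.rnd (g * u)))⁻¹ * (g * u))⁻¹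
  have h3 := M.isLen.mul ((M.ι (M.rnd g))⁻¹ * g) u
  rw [M.isLen.inv] at h2
  have h4 := M.len_rnd g
  have h5 := M.len_rnd (g * u)
  have ha := a0 M
  have h6 : M.len (((M.ι (M.rnd g))⁻¹ * g) * u * ((M.ι (M.rnd (g * u)))⁻¹ * (g * u))⁻¹) ≤
      M.len u + 2 * M.a := by linarith
  nlinarith [mul_le_mul_of_nonneg_left h6 ha]

/-- the height of the image is coarsely Lipschitz. -/
theorem fh_lip (K : ℕ) : ∃ c : ℝ, 0 ≤ c ∧ ∀ Ψ : Γ → Γ, QIMap S S Ψ K → ∀ (g u : M.G) (i : Fin k),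
    |fh M Ψ (g * u) i - fh M Ψ g i| ≤ c * (M.len u + 1) := by
  have ha := a0 M
  refine ⟨M.a * (M.a * (K * (M.a * (1 + 2 * M.a) + M.a) + K)), by positivity,
    fun Ψ hΨ g u i => ?_⟩
  have h1 : fh M Ψ (g * u) i - fh M Ψ g i =
      M.h (M.ι ((Ψ (M.rnd g))⁻¹ * Ψ (M.rnd (g * u)))) i := by
    rw [map_mul, map_inv, M.h_mul, h_inv]
    simp only [fh, Pi.add_apply, Pi.neg_apply]
    ring
  rw [h1]
  refine (M.h_le _ _).trans ?_
  have h2 := M.len_ι ((Ψ (M.rnd g))⁻¹ * Ψ (M.rnd (g * u)))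
  have h3 : (wordLength S ((Ψ (M.rnd g))⁻¹ * Ψ (M.rnd (g * u))) : ℝ) ≤
      K * wordLength S ((M.rnd g)⁻¹ * M.rnd (g * u)) + K := by exact_mod_cast hΨ.up _ _
  have h4 := near M g u
  have hu := M.isLen.nonneg u
  have hK : (0 : ℝ) ≤ K := Nat.cast_nonneg K
  calc M.a * M.len (M.ι ((Ψ (M.rnd g))⁻¹ * Ψ (M.rnd (g * u))))
      ≤ M.a * (M.a * (K * (M.a * (M.len u + 2 * M.a) + M.a) + K)) := by
        refine mul_le_mul_of_nonneg_left (h2.trans (mul_le_mul_of_nonneg_left ?_ ha)) ha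
        exact h3.trans (by gcongr)
    _ ≤ M.a * (M.a * (K * (M.a * (1 + 2 * M.a) + M.a) + K)) * (M.len u + 1) := by
        have h5 : K * (M.a * (M.len u + 2 * M.a) + M.a) + K ≤
            (K * (M.a * (1 + 2 * M.a) + M.a) + K) * (M.len u + 1) := by
          nlinarith [mul_nonneg hK ha, mul_nonneg hK hu, mul_nonneg (mul_nonneg hK ha) hu,
            mul_nonneg (mul_nonneg (mul_nonneg hK ha) ha) hu]
        calc _ ≤ M.a * (M.a * ((K * (M.a * (1 + 2 * M.a) + M.a) + K) * (M.len u + 1))) := by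
              gcongr
          _ = _ := by ring

/-- types are globally constant. -/
theorem type_const {Lx : M.G → (Fin k → ℝ) →ₗ[ℝ] (Fin k → ℝ)}
    (h : ∀ g s, M.len s ≤ M.a → Lx (g * s) = Lx g) (g : M.G) : Lx g = Lx 1 := by
  obtain ⟨l, rfl, -, hl⟩ := M.letters g
  induction l using List.reverseRecOn with
  | nil => rfl
  | append_singleton l s ih =>
    rw [List.prod_append, List.prod_singleton, h _ _ (hl s (by simp))]
    exact ih fun s' hs' => hl s' (by simp [hs'])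

/-- a chain of steps at one scale -/
theorem chain_law {θ : M.G → Fin k → ℝ} {L : (Fin k → ℝ) →ₗ[ℝ] (Fin k → ℝ)} {b : M.G} {j : ℕ}
    {E : ℝ} (h : ∀ g i, |θ (g * b ^ j) i - θ g i - L (M.h (b ^ j)) i| ≤ E) (q : ℕ) (g : M.G)
    (i : Fin k) : |θ (g * b ^ (j * q)) i - θ g i - L (M.h (b ^ (j * q))) i| ≤ q * E := by
  induction q with
  | zero => simp [h_one]
  | succ q ih =>
    have e1 : g * b ^ (j * (q + 1)) = g * b ^ (j * q) * b ^ j := by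
      rw [mul_add, mul_one, pow_add, mul_assoc]
    have e2 : M.h (b ^ (j * (q + 1))) = M.h (b ^ (j * q)) + M.h (b ^ j) := by
      rw [mul_add, mul_one, pow_add, M.h_mul]
    have h1 := h (g * b ^ (j * q)) i
    rw [e1, e2, map_add, Pi.add_apply]
    have e3 : θ (g * b ^ (j * q) * b ^ j) i - θ g i -
        (L (M.h (b ^ (j * q))) i + L (M.h (b ^ j)) i) =
        (θ (g * b ^ (j * q) * b ^ j) i - θ (g * b ^ (j * q)) i - L (M.h (b ^ j)) i) +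
        (θ (g * b ^ (j * q)) i - θ g i - L (M.h (b ^ (j * q))) i) := by ring
    rw [e3]
    refine (abs_add_le _ _).trans ?_
    push_cast
    linarith

end

/-- **One scale suffices**: the law along `b ∈ Bf` for one `η`. -/
theorem rayAt_of_oneScale (M : BModel S π) {LL : Set ((Fin k → ℝ) →ₗ[ℝ] (Fin k → ℝ))}
    (hLL : LL.Finite) {c0 : ℝ} {Bf : Set M.G} (hBf : Verts M c0 Bf) {δ η n D : ℝ} (hδ : 0 < δ)
    (hη : 0 < η) (hn : ∀ b ∈ Bf, ‖M.h b‖ ≤ δ * n) (K : ℕ) :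
    ∃ B : ℝ, ∀ Ψ : Γ → Γ, QIMap S S Ψ K →
      ∀ (θ : M.G → Fin k → ℝ) (Lx : M.G → (Fin k → ℝ) →ₗ[ℝ] (Fin k → ℝ)),
        (∀ g, Lx g ∈ LL) → (∀ g i, |θ g i - fh M Ψ g i| ≤ D) →
        (∀ g s, M.len s ≤ M.a → Lx (g * s) = Lx g) →
        (∀ g, ∀ b ∈ Bf, ∀ j : ℕ, j * ‖M.h b‖ ≤ δ * n → ∀ i,
          |θ (g * b ^ j) i - θ g i - Lx g (M.h (b ^ j)) i| ≤ η * n) →
        RayAt M Bf (Lx 1) (2 * η / δ) B Ψ := by
  classical
  obtain ⟨c, hc, hlip⟩ := fh_lip M K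
  have hD : 0 ≤ |D| := abs_nonneg D
  -- bounds over Bf
  obtain ⟨R, hR0, hR⟩ : ∃ R : ℝ, 0 ≤ R ∧ ∀ b ∈ Bf, M.len b ≤ R := by
    refine ⟨∑ b ∈ hBf.fin.toFinset, M.len b, Finset.sum_nonneg fun b _ => M.isLen.nonneg b,
      fun b hb => ?_⟩
    exact Finset.single_le_sum (f := fun b => M.len b) (fun b _ => M.isLen.nonneg b)
      (hBf.fin.mem_toFinset.2 hb)
  obtain ⟨R', hR'0, hR'⟩ : ∃ R' : ℝ, 0 ≤ R' ∧ ∀ L ∈ LL, ∀ b ∈ Bf, ∀ i, |L (M.h b) i| ≤ R' := by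
    refine ⟨∑ L ∈ hLL.toFinset, ∑ b ∈ hBf.fin.toFinset, ∑ i, |L (M.h b) i|,
      Finset.sum_nonneg fun L _ => Finset.sum_nonneg fun b _ => Finset.sum_nonneg fun i _ =>
        abs_nonneg _, fun L hL b hb i => ?_⟩
    refine (Finset.single_le_sum (f := fun i => |L (M.h b) i|) (fun i _ => abs_nonneg _)
      (Finset.mem_univ i)).trans ?_
    refine (Finset.single_le_sum (f := fun b => ∑ i, |L (M.h b) i|)
      (fun b _ => Finset.sum_nonneg fun i _ => abs_nonneg _)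
      (hBf.fin.mem_toFinset.2 hb)).trans ?_
    exact Finset.single_le_sum (f := fun L => ∑ b ∈ hBf.fin.toFinset, ∑ i, |L (M.h b) i|)
      (fun L _ => Finset.sum_nonneg fun b _ => Finset.sum_nonneg fun i _ => abs_nonneg _)
      (hLL.mem_toFinset.2 hL)
  -- a bound for the step numbers
  obtain ⟨J, hJ0, hJ⟩ : ∃ J : ℝ, 0 ≤ J ∧ ∀ b ∈ Bf, (⌊δ * n / ‖M.h b‖⌋₊ : ℝ) ≤ J := by
    refine ⟨∑ b ∈ hBf.fin.toFinset, (⌊δ * n / ‖M.h b‖⌋₊ : ℝ),
      Finset.sum_nonneg fun b _ => Nat.cast_nonneg _, fun b hb => ?_⟩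
    exact Finset.single_le_sum (f := fun b => (⌊δ * n / ‖M.h b‖⌋₊ : ℝ))
      (fun b _ => Nat.cast_nonneg _) (hBf.fin.mem_toFinset.2 hb)
  refine ⟨2 * |D| + c * (J * R + 1) + J * R', fun Ψ hQ θ Lx hL hθ hloc hlaw g b hb m i => ?_⟩
  have hcon : ∀ g, Lx g = Lx 1 := type_const M hloc
  have hb0 : 0 < ‖M.h b‖ := norm_pos_iff.2 (hBf.h_ne b hb)
  have hδn : 0 < δ * n := hb0.trans_le (hn b hb)
  have hn0 : 0 < n := pos_of_mul_pos_right hδn hδ.le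
  set j : ℕ := ⌊δ * n / ‖M.h b‖⌋₊ with hj
  have hj1 : 1 ≤ j := Nat.le_floor (by
    rw [Nat.cast_one, le_div_iff₀ hb0, one_mul]; exact hn b hb)
  have hjle : (j : ℝ) ≤ δ * n / ‖M.h b‖ := Nat.floor_le (by positivity)
  have hjle' : j * ‖M.h b‖ ≤ δ * n := (le_div_iff₀ hb0).1 hjle
  have hjge : δ * n ≤ 2 * j * ‖M.h b‖ := by
    have h1 : δ * n / ‖M.h b‖ < j + 1 := Nat.lt_floor_add_one _
    have h2 : (1 : ℝ) ≤ j := by exact_mod_cast hj1
    have h3 : δ * n / ‖M.h b‖ ≤ 2 * j := by linarith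
    rwa [div_le_iff₀ hb0] at h3
  have hjJ : (j : ℝ) ≤ J := hJ b hb
  have h1 : ∀ g i, |θ (g * b ^ j) i - θ g i - Lx 1 (M.h (b ^ j)) i| ≤ η * n := by
    intro g i
    have := hlaw g b hb j hjle' i
    rwa [hcon g] at this
  set q := m / j with hq
  set r := m % j with hr
  have hm : j * q + r = m := Nat.div_add_mod m j
  have hrj : r < j := Nat.mod_lt _ (by omega)
  have h2 := chain_law M h1 q g i
  have h3 := hlip Ψ hQ (g * b ^ (j * q)) (b ^ r) i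
  have h4 := hθ g i
  have h5 := hθ (g * b ^ (j * q)) i
  have hDD : D ≤ |D| := le_abs_self D
  have e1 : g * b ^ (j * q) * b ^ r = g * b ^ m := by rw [mul_assoc, ← pow_add, hm]
  rw [e1] at h3
  rw [h_pow, map_smul, Pi.smul_apply, smul_eq_mul] at h2
  have hrJ : (r : ℝ) ≤ J := by
    have : (r : ℝ) ≤ j := by exact_mod_cast hrj.le
    linarith
  have hlenr : M.len (b ^ r) ≤ J * R := by
    refine (M.isLen.pow b r).trans ?_
    exact mul_le_mul hrJ (hR b hb) (M.isLen.nonneg _) hJ0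
  have h6 : (q : ℝ) * (η * n) ≤ 2 * η / δ * (m * ‖M.h b‖) := by
    have h7 : (q : ℝ) * j ≤ m := by
      have : j * q ≤ m := by omega
      have h8 : ((j * q : ℕ) : ℝ) ≤ m := by exact_mod_cast this
      push_cast at h8
      linarith
    rw [div_mul_eq_mul_div, le_div_iff₀ hδ]
    have h8 : (q : ℝ) * (δ * n) ≤ q * (2 * j * ‖M.h b‖) :=
      mul_le_mul_of_nonneg_left hjge (Nat.cast_nonneg _)
    have h9 : (q : ℝ) * j * ‖M.h b‖ ≤ m * ‖M.h b‖ := mul_le_mul_of_nonneg_right h7 hb0.le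
    have h10 : (q : ℝ) * (δ * n) ≤ 2 * (m * ‖M.h b‖) := by nlinarith
    calc (q : ℝ) * (η * n) * δ = η * (q * (δ * n)) := by ring
      _ ≤ η * (2 * (m * ‖M.h b‖)) := mul_le_mul_of_nonneg_left h10 hη.le
      _ = _ := by ring
  have h7 : |(m : ℝ) * Lx 1 (M.h b) i - ((j * q : ℕ) : ℝ) * Lx 1 (M.h b) i| ≤ J * R' := by
    have e2 : (m : ℝ) * Lx 1 (M.h b) i - ((j * q : ℕ) : ℝ) * Lx 1 (M.h b) i =
        r * Lx 1 (M.h b) i := by
      have : (m : ℝ) = ((j * q : ℕ) : ℝ) + r := by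
        rw [← Nat.cast_add, hm]
      rw [this]; ring
    rw [e2, abs_mul, Nat.abs_cast]
    exact mul_le_mul hrJ (hR' _ (hL 1) b hb i) (abs_nonneg _) hJ0
  have h8 : c * (M.len (b ^ r) + 1) ≤ c * (J * R + 1) := by gcongr
  rw [abs_le] at h2 h3 h4 h5 h7 ⊢
  constructor <;> linarith [h2.1, h2.2, h3.1, h3.2, h4.1, h4.2, h5.1, h5.2, h7.1, h7.2]

end Crest.Agent.R182.OneScale
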