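/-
R182, module BND (helper658): greedy decomposition of integer vectors along a positively spanning
finite family.
-/
import Mathlib
import Crest.Agent.R182.BndLegs
import Crest.Agent.R182.OneScale

set_option autoImplicit false

namespace Crest.Agent.R182.Bnd

open Crest.Agent.R182.OneScale Crest.Agent.R182.FinPath

variable {k : ℕ}

/-- Euclidean norm -/
noncomputable def e2 (v : Fin k → ℝ) : ℝ := Real.sqrt (∑ j, v j ^ 2)

theorem e2_nonneg (v : Fin k → ℝ) : 0 ≤ e2 v := Real.sqrt_nonneg _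

theorem e2_sq (v : Fin k → ℝ) : e2 v ^ 2 = ∑ j, v j ^ 2 :=
  Real.sq_sqrt (Finset.sum_nonneg fun _ _ => sq_nonneg _)

theorem abs_le_e2 (v : Fin k → ℝ) (j : Fin k) : |v j| ≤ e2 v := by
  rw [← Real.sqrt_sq_eq_abs]
  exact Real.sqrt_le_sqrt (Finset.single_le_sum (f := fun j => v j ^ 2)
    (fun _ _ => sq_nonneg _) (Finset.mem_univ j))

theorem e2_le_ht1 (v : Fin k → ℝ) : e2 v ≤ ht1 v := by
  refine Real.sqrt_le_iff.2 ⟨ht1_nonneg v, ?_⟩
  have h1 : ∑ j, v j ^ 2 = ∑ j, |v j| * |v j| := Finset.sum_congr rfl fun j _ => by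
    rw [← sq_abs]; ring
  rw [h1, sq]
  calc ∑ j, |v j| * |v j| ≤ ∑ j, |v j| * ht1 v :=
        Finset.sum_le_sum fun j _ => mul_le_mul_of_nonneg_left
          (Finset.single_le_sum (f := fun j => |v j|) (fun _ _ => abs_nonneg _)
            (Finset.mem_univ j)) (abs_nonneg _)
    _ = ht1 v * ht1 v := by rw [← Finset.sum_mul]; rfl

theorem ht1_le_norm (v : Fin k → ℝ) : ht1 v ≤ k * ‖v‖ := by
  unfold ht1
  calc ∑ j, |v j| ≤ ∑ _j : Fin k, ‖v‖ := Finset.sum_le_sum fun j _ => norm_le_pi_norm v j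
    _ = k * ‖v‖ := by rw [Finset.sum_const, Finset.card_univ, Fintype.card_fin, nsmul_eq_mul]

theorem norm_le_ht1 (v : Fin k → ℝ) : ‖v‖ ≤ ht1 v :=
  (pi_norm_le_iff_of_nonneg (ht1_nonneg v)).2 fun j =>
    Finset.single_le_sum (f := fun j => |v j|) (fun _ _ => abs_nonneg _) (Finset.mem_univ j)

/-- the linear functional of a vector -/
def dotL (v : Fin k → ℝ) : (Fin k → ℝ) →ₗ[ℝ] ℝ where
  toFun u := ∑ j, v j * u j
  map_add' u w := by simp [mul_add, Finset.sum_add_distrib]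
  map_smul' c u := by
    simp only [Pi.smul_apply, smul_eq_mul, RingHom.id_apply, Finset.mul_sum]
    exact Finset.sum_congr rfl fun j _ => by ring

theorem nu1_dotL (v : Fin k → ℝ) : nu1 (dotL v) = ht1 v := by
  unfold nu1 ht1
  refine Finset.sum_congr rfl fun i _ => ?_
  congr 1
  show ∑ j, v j * (Pi.single i (1:ℝ) : Fin k → ℝ) j = v i
  rw [Finset.sum_eq_single i]
  · simp
  · intro j _ hj; simp [hj]
  · intro h; exact absurd (Finset.mem_univ _) h

/-- one greedy step -/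
theorem e2_sub_le {v w : Fin k → ℝ} {c0 : ℝ} (hc0 : 0 < c0)
    (h : c0 * ht1 v * ‖w‖ ≤ dotL v w) (hv : k * ‖w‖ ≤ c0 * e2 v) (hc1 : c0 ≤ 1) :
    e2 (v - w) ≤ e2 v - c0 / 2 * ‖w‖ := by
  have hw0 := norm_nonneg w
  have hv0 := e2_nonneg v
  have h1 : e2 (v - w) ^ 2 = e2 v ^ 2 - 2 * dotL v w + e2 w ^ 2 := by
    rw [e2_sq, e2_sq, e2_sq]
    show ∑ j, (v - w) j ^ 2 = ∑ j, v j ^ 2 - 2 * (∑ j, v j * w j) + ∑ j, w j ^ 2
    rw [Finset.mul_sum, ← Finset.sum_sub_distrib, ← Finset.sum_add_distrib]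
    refine Finset.sum_congr rfl fun j _ => ?_
    rw [Pi.sub_apply]; ring
  have h2 : e2 w ^ 2 ≤ k * ‖w‖ ^ 2 := by
    rw [e2_sq]
    calc ∑ j, w j ^ 2 ≤ ∑ _j : Fin k, ‖w‖ ^ 2 := Finset.sum_le_sum fun j _ => by
          rw [← sq_abs]
          have := norm_le_pi_norm w j
          rw [Real.norm_eq_abs] at this
          gcongr
      _ = k * ‖w‖ ^ 2 := by
          rw [Finset.sum_const, Finset.card_univ, Fintype.card_fin, nsmul_eq_mul]
  have h3 : c0 * e2 v * ‖w‖ ≤ dotL v w := by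
    refine le_trans ?_ h
    have := e2_le_ht1 v
    gcongr
  have h4 : (k : ℝ) * ‖w‖ ^ 2 ≤ c0 * e2 v * ‖w‖ := by
    have := mul_le_mul_of_nonneg_right hv hw0
    nlinarith
  have h5 : e2 (v - w) ^ 2 ≤ e2 v ^ 2 - c0 * e2 v * ‖w‖ := by
    rw [h1]; linarith
  have h6 : e2 (v - w) ^ 2 ≤ (e2 v - c0 / 2 * ‖w‖) ^ 2 := by
    have : (e2 v - c0 / 2 * ‖w‖) ^ 2 = e2 v ^ 2 - c0 * e2 v * ‖w‖ + (c0 / 2 * ‖w‖) ^ 2 := by ring
    rw [this]
    have := sq_nonneg (c0 / 2 * ‖w‖)
    linarith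
  have h7 : 0 ≤ e2 v - c0 / 2 * ‖w‖ := by
    by_cases hk : k = 0
    · subst hk
      have hw : w = 0 := Subsingleton.elim _ _
      rw [hw, norm_zero]; linarith
    have hk1 : (1 : ℝ) ≤ k := by exact_mod_cast Nat.one_le_iff_ne_zero.2 hk
    have h8 : ‖w‖ ≤ c0 * e2 v := by nlinarith
    have h9 : c0 * e2 v ≤ e2 v := by nlinarith
    nlinarith
  exact le_of_sq_le_sq h6 h7

/-- **Greedy decomposition.** -/
theorem greedy {I : Type*} [Fintype I] (w : I → Fin k → ℤ) {c0 : ℝ} (hc0 : 0 < c0) (hc1 : c0 ≤ 1)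
    (hne : ∀ i, w i ≠ 0)
    (h : ∀ ν : (Fin k → ℝ) →ₗ[ℝ] ℝ, ν ≠ 0 → ∃ i, c0 * nu1 ν * ‖fun j => (w i j : ℝ)‖ ≤
      ν (fun j => (w i j : ℝ))) {H : ℝ} (hH : ∀ i, k * ‖fun j => (w i j : ℝ)‖ ≤ c0 * H) :
    ∀ v : Fin k → ℤ, ∃ n : I → ℕ,
      c0 / 2 * (∑ i, (n i : ℝ) * ‖fun j => (w i j : ℝ)‖) ≤ e2 (fun j => (v j : ℝ)) ∧
      ∀ j, |(v j : ℝ) - ∑ i, (n i : ℝ) * (w i j : ℝ)| ≤ max H 0 := by
  classical
  have hind : ∀ (N : ℕ) (v : Fin k → ℤ), (∑ j, (v j) ^ 2).toNat ≤ N → ∃ n : I → ℕ,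
      c0 / 2 * (∑ i, (n i : ℝ) * ‖fun j => (w i j : ℝ)‖) ≤ e2 (fun j => (v j : ℝ)) ∧
      ∀ j, |(v j : ℝ) - ∑ i, (n i : ℝ) * (w i j : ℝ)| ≤ max H 0 := by
    intro N
    induction N with
    | zero =>
      intro v hv
      have hv0 : ∀ j, v j = 0 := by
        intro j
        have h0 : (0 : ℤ) ≤ ∑ j, (v j) ^ 2 := Finset.sum_nonneg fun _ _ => sq_nonneg _
        have h1 : ∑ j, (v j) ^ 2 = 0 := by omega
        rw [Finset.sum_eq_zero_iff_of_nonneg (fun _ _ => sq_nonneg _)] at h1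
        exact pow_eq_zero_iff (two_ne_zero) |>.1 (h1 j (Finset.mem_univ j))
      refine ⟨0, by simp [e2_nonneg], fun j => by simp [hv0 j]⟩
    | succ N ih =>
      intro v hv
      by_cases hsmall : e2 (fun j => (v j : ℝ)) ≤ H
      · refine ⟨0, by simp [e2_nonneg], fun j => ?_⟩
        have := abs_le_e2 (fun j => (v j : ℝ)) j
        simp only [Pi.zero_apply, Nat.cast_zero, zero_mul, Finset.sum_const_zero, sub_zero]
        exact (this.trans hsmall).trans (le_max_left _ _)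
      push Not at hsmall
      by_cases hzero : v = 0
      · refine ⟨0, by simp [e2_nonneg], fun j => by simp [hzero]⟩
      set vR : Fin k → ℝ := fun j => (v j : ℝ) with hvR
      have hvR0 : dotL vR ≠ 0 := by
        intro h0
        have h1 : dotL vR vR = 0 := by rw [h0]; rfl
        have h2 : ∑ j, vR j * vR j = 0 := h1
        rw [Finset.sum_eq_zero_iff_of_nonneg (fun _ _ => mul_self_nonneg _)] at h2
        apply hzero
        funext j
        have := mul_self_eq_zero.1 (h2 j (Finset.mem_univ j))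
        simpa [hvR] using this
      obtain ⟨i, hi⟩ := h (dotL vR) hvR0
      rw [nu1_dotL] at hi
      set wR : Fin k → ℝ := fun j => (w i j : ℝ) with hwR
      have hstep := e2_sub_le hc0 hi ((hH i).trans (mul_le_mul_of_nonneg_left hsmall.le hc0.le))
        hc1
      have hwne : 0 < ‖wR‖ := by
        rw [norm_pos_iff]
        intro h0
        apply hne i
        funext j
        have := congrFun h0 j
        simpa [hwR] using this
      have hsub : (fun j => ((v - w i) j : ℝ)) = vR - wR := by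
        funext j; simp [hvR, hwR]
      have hlt : e2 (fun j => ((v - w i) j : ℝ)) < e2 vR := by
        rw [hsub]
        have : 0 < c0 / 2 * ‖wR‖ := by positivity
        linarith
      have hltN : (∑ j, ((v - w i) j) ^ 2).toNat ≤ N := by
        have h1 : e2 (fun j => ((v - w i) j : ℝ)) ^ 2 < e2 vR ^ 2 := by
          have := e2_nonneg (fun j => ((v - w i) j : ℝ))
          nlinarith
        rw [e2_sq, e2_sq] at h1
        have h2' : ((∑ j, ((v - w i) j) ^ 2 : ℤ) : ℝ) < ((∑ j, (v j) ^ 2 : ℤ) : ℝ) := by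
          push_cast at h1 ⊢
          exact h1
        have h2 : (∑ j, ((v - w i) j) ^ 2) < ∑ j, (v j) ^ 2 := by exact_mod_cast h2'
        have h0 : (0 : ℤ) ≤ ∑ j, ((v - w i) j) ^ 2 := Finset.sum_nonneg fun _ _ => sq_nonneg _
        omega
      obtain ⟨n, hn1, hn2⟩ := ih (v - w i) hltN
      refine ⟨fun l => n l + if l = i then 1 else 0, ?_, fun j => ?_⟩
      · have h1 : ∑ l, ((n l + if l = i then 1 else 0 : ℕ) : ℝ) * ‖fun j => (w l j : ℝ)‖ =
            ∑ l, (n l : ℝ) * ‖fun j => (w l j : ℝ)‖ + ‖wR‖ := by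
          push_cast
          simp only [add_mul, Finset.sum_add_distrib, ite_mul, one_mul, zero_mul,
            Finset.sum_ite_eq', Finset.mem_univ, if_true]
          rfl
        rw [h1, mul_add]
        rw [hsub] at hn1
        linarith
      · have h1 : ∑ l, ((n l + if l = i then 1 else 0 : ℕ) : ℝ) * (w l j : ℝ) =
            ∑ l, (n l : ℝ) * (w l j : ℝ) + (w i j : ℝ) := by
          push_cast
          simp only [add_mul, Finset.sum_add_distrib, ite_mul, one_mul, zero_mul,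
            Finset.sum_ite_eq', Finset.mem_univ, if_true]
        rw [h1]
        have h2 := hn2 j
        simp only [Pi.sub_apply] at h2
        push_cast at h2
        have h3 : (v j : ℝ) - (∑ l, (n l : ℝ) * (w l j : ℝ) + (w i j : ℝ)) =
            (v j : ℝ) - (w i j : ℝ) - ∑ l, (n l : ℝ) * (w l j : ℝ) := by ring
        rw [h3]
        exact h2
  exact fun v => hind _ v le_rfl

end Crest.Agent.R182.Bnd
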