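/-
R182, module D5 (helper860), part 2: from the law along the verticals `b ∈ Bf` to the law for
displacements `ex x * b ^ n`.
-/
import Mathlib
import Crest.Agent.R182.OneScale

set_option autoImplicit false

namespace Crest.Agent.R182.OneScale

open Crest.GroupTheory Crest.Geometry Crest.Agent.R182.QI Crest.Agent.R182.FinPath
  Crest.Agent.R182.FinRed Crest.Agent.R182.Bnd Crest.Agent.R182.Core

variable {Γ : Type*} [Group Γ] {k : ℕ} {S : Set Γ} {π : Γ →* Multiplicative (Fin k → ℤ)}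

/-- the `ν`-weight space of `𝔢` -/
def WS (M : BModel S π) (ν : (Fin k → ℝ) →ₗ[ℝ] ℝ) : Set M.L :=
  {x | ∀ i, M.wt i ≠ ν → M.bas.repr x i = 0}

/-- bounded generation of `E = ex 𝔢` by one-weight elements (nonzero weights). -/
def BG (M : BModel S π) (J : ℕ) (A : ℝ) : Prop :=
  ∀ x : M.L, ∃ l : List M.L, l.length ≤ J ∧
    (∀ y ∈ l, (∃ ν : (Fin k → ℝ) →ₗ[ℝ] ℝ, ν ≠ 0 ∧ y ∈ WS M ν) ∧
      ‖M.bas.equivFun y‖ ≤ A * (1 + ‖M.bas.equivFun x‖)) ∧ M.ex x = (l.map M.ex).prod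

/-- the sublinear law of one map for displacements in `E`, with fixed constants -/
def EAt (M : BModel S π) (κ B : ℝ) (Ψ : Γ → Γ) : Prop :=
  ∀ g x i, |fh M Ψ (g * M.ex x) i - fh M Ψ g i| ≤ κ * M.len (M.ex x) + B

/-- **Output**: the sublinear law for displacements `ex x * b ^ n`, `b ∈ Bf` (`Bf` depends on
`η`). -/
def CoreLaw (M : BModel S π) (LL : Set ((Fin k → ℝ) →ₗ[ℝ] (Fin k → ℝ))) (c0 : ℝ)
    (K : ℕ) : Prop :=
  ∀ η : ℝ, 0 < η → ∃ Bf : Set M.G, Verts M c0 Bf ∧ ∃ B : ℝ, ∀ Ψ : Γ → Γ, QIMap S S Ψ K →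
    ∃ L ∈ LL, RayAt M Bf L η B Ψ ∧ EAt M η B Ψ ∧ ∀ g x, ∀ b ∈ Bf, ∀ n : ℕ, ∀ i,
      |fh M Ψ (g * (M.ex x * b ^ n)) i - fh M Ψ g i - n * L (M.h b) i| ≤
        η * (M.len (M.ex x) + n * ‖M.h b‖) + B

/-- polynomials against exponentials -/
theorem exists_poly_exp (d : ℕ) {c : ℝ} (hc : 0 < c) :
    ∃ B : ℝ, 0 ≤ B ∧ ∀ m : ℕ, (1 + (m : ℝ)) ^ d * Real.exp (-(m * c)) ≤ B := by
  refine ⟨d.factorial / c ^ d * Real.exp c, by positivity, fun m => ?_⟩
  have h1 := Real.pow_div_factorial_le_exp (c * (1 + m)) (by positivity) d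
  rw [div_le_iff₀ (by positivity), mul_pow] at h1
  have h2 : (1 + (m : ℝ)) ^ d ≤ d.factorial / c ^ d * Real.exp (c * (1 + m)) := by
    rw [div_mul_eq_mul_div, le_div_iff₀ (by positivity)]
    linarith
  calc (1 + (m : ℝ)) ^ d * Real.exp (-(m * c))
      ≤ d.factorial / c ^ d * Real.exp (c * (1 + m)) * Real.exp (-(m * c)) :=
        mul_le_mul_of_nonneg_right h2 (Real.exp_pos _).le
    _ = d.factorial / c ^ d * Real.exp c := by
        rw [mul_assoc, ← Real.exp_add]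
        congr 2
        ring

theorem ex_zero (M : BModel S π) : M.ex 0 = 1 := by
  have h := M.ex_op 0 0
  rw [M.star.op_zero] at h
  exact (mul_eq_left.1 h.symm)

theorem nu1_pos {ν : (Fin k → ℝ) →ₗ[ℝ] ℝ} (h : ν ≠ 0) : 0 < nu1 ν := by
  have h0 : 0 ≤ nu1 ν := Finset.sum_nonneg fun _ _ => abs_nonneg _
  refine lt_of_le_of_ne h0 fun h1 => h ?_
  have h2 := (Finset.sum_eq_zero_iff_of_nonneg (s := Finset.univ)
    (f := fun i => |ν (Pi.single i 1)|) fun _ _ => abs_nonneg _).1 h1.symm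
  refine LinearMap.pi_ext' fun i => LinearMap.ext_ring ?_
  simpa using h2 i (Finset.mem_univ i)

section

variable (M : BModel S π)

/-- contraction of a one-weight element by a vertical. -/
theorem exists_contract {b : M.G} (hb : b ∈ M.C) {ν : (Fin k → ℝ) →ₗ[ℝ] ℝ}
    (hpos : 0 < ν (M.h b)) :
    ∃ B : ℝ, 0 ≤ B ∧ ∀ x ∈ WS M ν, ∀ m : ℕ,
      Real.log (2 + ‖M.bas.equivFun x‖) ≤ m * (ν (M.h b) / 2) →
      ‖M.bas.equivFun (M.Ad (b ^ m)⁻¹ x)‖ ≤ B := by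
  classical
  obtain ⟨A, hA⟩ := M.Ad_C_le (M.len b)
  obtain ⟨B, hB0, hB⟩ := exists_poly_exp M.d (c := ν (M.h b) / 2) (by positivity)
  refine ⟨∑ _j : Fin M.r, |A| * B, Finset.sum_nonneg fun _ _ => by positivity,
    fun x hx m hm => ?_⟩
  have hprod : (List.replicate m b⁻¹).prod = (b ^ m)⁻¹ := by
    rw [List.prod_replicate, inv_pow]
  have hent : ∀ i j, |M.bas.repr (M.Ad (b ^ m)⁻¹ (M.bas j)) i| ≤
      |A| * ((1 + (m : ℝ)) ^ M.d) * Real.exp (M.wt i (M.h (b ^ m)⁻¹)) := by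
    intro i j
    have h1 := hA (List.replicate m b⁻¹) (fun s hs => by
      rw [List.eq_of_mem_replicate hs]
      exact ⟨M.C.inv_mem hb, by rw [M.isLen.inv]⟩) i j
    rw [hprod, List.length_replicate] at h1
    refine h1.trans ?_
    gcongr
    exact le_abs_self A
  refine (pi_norm_le_iff_of_nonneg (Finset.sum_nonneg fun _ _ => by positivity)).2 fun i => ?_
  rw [Real.norm_eq_abs, Module.Basis.equivFun_apply]
  have hx1 : x = ∑ j, M.bas.repr x j • M.bas j := (M.bas.sum_repr x).symm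
  have h2 : M.bas.repr (M.Ad (b ^ m)⁻¹ x) i =
      ∑ j, M.bas.repr x j * M.bas.repr (M.Ad (b ^ m)⁻¹ (M.bas j)) i := by
    conv_lhs => rw [hx1]
    rw [map_sum, map_sum, Finsupp.coe_finsetSum, Finset.sum_apply]
    refine Finset.sum_congr rfl fun j _ => ?_
    rw [map_smul, map_smul, Finsupp.smul_apply, smul_eq_mul]
  rw [h2]
  refine (Finset.abs_sum_le_sum_abs _ _).trans (Finset.sum_le_sum fun j _ => ?_)
  rw [abs_mul]
  by_cases hj : M.bas.repr x j = 0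
  · rw [hj, abs_zero, zero_mul]; positivity
  have hwj : M.wt j = ν := by
    by_contra hne; exact hj (hx j hne)
  by_cases hi : M.bas.repr (M.Ad (b ^ m)⁻¹ (M.bas j)) i = 0
  · rw [hi, abs_zero, mul_zero]; positivity
  have hwi : M.wt i = ν := by
    rw [← hwj]
    exact M.Ad_C _ (M.C.inv_mem (M.C.pow_mem hb m)) i j hi
  have h3 := hent i j
  rw [hwi, h_inv, h_pow, map_neg, map_smul, smul_eq_mul] at h3
  have h4 : |M.bas.repr x j| ≤ Real.exp (m * (ν (M.h b) / 2)) := by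
    have h5 : |M.bas.repr x j| ≤ 2 + ‖M.bas.equivFun x‖ := by
      have h6 : |M.bas.repr x j| ≤ ‖M.bas.equivFun x‖ := norm_le_pi_norm (M.bas.equivFun x) j
      linarith
    refine h5.trans ?_
    have h6 : (0 : ℝ) < 2 + ‖M.bas.equivFun x‖ := by positivity
    rw [← Real.exp_log h6]
    exact Real.exp_le_exp.2 hm
  calc |M.bas.repr x j| * |M.bas.repr (M.Ad (b ^ m)⁻¹ (M.bas j)) i|
      ≤ Real.exp (m * (ν (M.h b) / 2)) *
        (|A| * ((1 + (m : ℝ)) ^ M.d) * Real.exp (-(m * ν (M.h b)))) := by gcongr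
    _ = |A| * ((1 + (m : ℝ)) ^ M.d *
        (Real.exp (m * (ν (M.h b) / 2)) * Real.exp (-(m * ν (M.h b))))) := by ring
    _ = |A| * ((1 + (m : ℝ)) ^ M.d * Real.exp (-(m * (ν (M.h b) / 2)))) := by
        rw [← Real.exp_add]
        congr 3
        ring
    _ ≤ |A| * B := mul_le_mul_of_nonneg_left (hB m) (abs_nonneg _)

/-- law for the exponential of a one-weight element. -/
theorem one_weight_law {c0 : ℝ} (hc0 : 0 < c0) {Bf : Set M.G} (hBf : Verts M c0 Bf)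
    {ν : (Fin k → ℝ) →ₗ[ℝ] ℝ} (hν : ν ≠ 0) (K : ℕ) :
    ∃ B' H : ℝ, 0 ≤ B' ∧ 0 ≤ H ∧ ∀ Ψ : Γ → Γ, QIMap S S Ψ K →
      ∀ (L : (Fin k → ℝ) →ₗ[ℝ] (Fin k → ℝ)) (κ B : ℝ), RayAt M Bf L κ B Ψ → 0 ≤ κ →
      ∀ g, ∀ x ∈ WS M ν, ∀ i, |fh M Ψ (g * M.ex x) i - fh M Ψ g i| ≤
        κ * (4 / (c0 * nu1 ν) * Real.log (2 + ‖M.bas.equivFun x‖) + H) + 2 * B + B' := by
  obtain ⟨b, hb, hνb⟩ := hBf.pos ν hν
  have hb0 : 0 < ‖M.h b‖ := norm_pos_iff.2 (hBf.h_ne b hb)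
  have hν0 := nu1_pos hν
  have hcn : 0 < c0 * nu1 ν := mul_pos hc0 hν0
  have hpos : 0 < ν (M.h b) := (mul_pos hcn hb0).trans_le hνb
  obtain ⟨B₀, hB0, hB⟩ := exists_contract M (hBf.mem_C b hb) hpos
  obtain ⟨c, hc, hlip⟩ := fh_lip M K
  have ha := a0 M
  refine ⟨c * (M.a * (1 + B₀) + 1), 2 * ‖M.h b‖, by positivity, by positivity,
    fun Ψ hΨ L κ B hlaw hκ g x hx i => ?_⟩
  set s := Real.log (2 + ‖M.bas.equivFun x‖) with hs
  have hs0 : 0 ≤ s := Real.log_nonneg (by have := norm_nonneg (M.bas.equivFun x); linarith)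
  set m : ℕ := ⌈2 / (ν (M.h b)) * s⌉₊ with hm
  have hm1 : 2 / (ν (M.h b)) * s ≤ m := Nat.le_ceil _
  have hm2 : (m : ℝ) ≤ 2 / (ν (M.h b)) * s + 1 := by
    have := Nat.ceil_lt_add_one (a := 2 / (ν (M.h b)) * s) (by positivity)
    exact this.le
  have hms : s ≤ m * (ν (M.h b) / 2) := by
    rw [div_mul_eq_mul_div, div_le_iff₀ hpos] at hm1
    linarith
  have hmh : m * ‖M.h b‖ ≤ 2 / (c0 * nu1 ν) * s + ‖M.h b‖ := by
    have h1 : 2 / (ν (M.h b)) * s * ‖M.h b‖ ≤ 2 / (c0 * nu1 ν) * s := by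
      have h2 : ‖M.h b‖ / ν (M.h b) ≤ 1 / (c0 * nu1 ν) := by
        rw [div_le_div_iff₀ hpos hcn]; linarith
      calc 2 / (ν (M.h b)) * s * ‖M.h b‖ = 2 * s * (‖M.h b‖ / ν (M.h b)) := by ring
        _ ≤ 2 * s * (1 / (c0 * nu1 ν)) := mul_le_mul_of_nonneg_left h2 (by positivity)
        _ = _ := by ring
    have h3 := mul_le_mul_of_nonneg_right hm2 hb0.le
    linarith
  set y := M.Ad (b ^ m)⁻¹ x with hy
  have hyB : ‖M.bas.equivFun y‖ ≤ B₀ := hB x hx m hms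
  have hex : M.ex x = b ^ m * M.ex y * (b ^ m)⁻¹ := by
    rw [M.conj_ex, hy, ← LinearEquiv.mul_apply, ← map_mul, mul_inv_cancel, map_one]
    rfl
  have hlen : M.len (M.ex y) ≤ M.a * (1 + B₀) := by
    refine (M.len_ex_le y).trans (mul_le_mul_of_nonneg_left ?_ ha)
    have h0 := norm_nonneg (M.bas.equivFun y)
    have h1 := Real.log_le_sub_one_of_pos (x := 2 + ‖M.bas.equivFun y‖) (by linarith)
    linarith
  have h1 := hlaw g b hb m i
  have h2 := hlip Ψ hΨ (g * b ^ m) (M.ex y) i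
  have h3 := hlaw (g * M.ex x) b hb m i
  have e1 : g * M.ex x * b ^ m = g * b ^ m * M.ex y := by rw [hex]; group
  rw [e1] at h3
  have h4 : c * (M.len (M.ex y) + 1) ≤ c * (M.a * (1 + B₀) + 1) := by gcongr
  have h5 : κ * (m * ‖M.h b‖) ≤ κ * (2 / (c0 * nu1 ν) * s + ‖M.h b‖) :=
    mul_le_mul_of_nonneg_left hmh hκ
  have h6 : κ * (4 / (c0 * nu1 ν) * s + 2 * ‖M.h b‖) =
      2 * (κ * (2 / (c0 * nu1 ν) * s + ‖M.h b‖)) := by ring
  rw [h6]
  rw [abs_le] at h1 h2 h3 ⊢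
  constructor <;> linarith [h1.1, h1.2, h2.1, h2.2, h3.1, h3.2]

/-- telescoping over a list -/
theorem list_law {f : M.G → ℝ} {E : ℝ} (l : List M.G)
    (h : ∀ s ∈ l, ∀ g, |f (g * s) - f g| ≤ E) (g : M.G) :
    |f (g * l.prod) - f g| ≤ l.length * E := by
  induction l generalizing g with
  | nil => simp
  | cons s l ih =>
    rw [List.prod_cons, ← mul_assoc, List.length_cons]
    have h1 := ih (fun s' hs' => h s' (List.mem_cons_of_mem _ hs')) (g * s)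
    have h2 := h s (by simp) g
    have e : f (g * s * l.prod) - f g = (f (g * s * l.prod) - f (g * s)) + (f (g * s) - f g) := by
      ring
    rw [e]
    refine (abs_add_le _ _).trans ?_
    push_cast
    linarith

/-- **E-moves from rays**, with a constant `C₁` depending only on the model and on `c0`. -/
theorem exists_eAt {J : ℕ} {A : ℝ} (hA : 0 ≤ A) (hBG : BG M J A) {c0 : ℝ} (hc0 : 0 < c0) :
    ∃ C₁ : ℝ, 0 ≤ C₁ ∧ ∀ (K : ℕ) (Bf : Set M.G), Verts M c0 Bf → ∀ κ B : ℝ, 0 ≤ κ → 0 ≤ B →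
      ∃ B' : ℝ, 0 ≤ B' ∧ ∀ Ψ : Γ → Γ, QIMap S S Ψ K → ∀ (L : (Fin k → ℝ) →ₗ[ℝ] (Fin k → ℝ)),
        RayAt M Bf L κ B Ψ → EAt M (C₁ * κ) B' Ψ := by
  classical
  set Q := ∑ i, |4 / (c0 * nu1 (M.wt i))| with hQ
  have hQ0 : 0 ≤ Q := Finset.sum_nonneg fun i _ => abs_nonneg _
  have hJ0 : (0 : ℝ) ≤ J := Nat.cast_nonneg J
  have ha := a0 M
  have hlA : 0 ≤ Real.log (2 + A) := Real.log_nonneg (by linarith)
  refine ⟨J * (Q * M.a), by positivity, fun K Bf hBf κ B hκ hB => ?_⟩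
  have hone : ∀ i : Fin M.r, ∃ B' H : ℝ, 0 ≤ B' ∧ 0 ≤ H ∧ (M.wt i ≠ 0 → ∀ Ψ : Γ → Γ,
      QIMap S S Ψ K → ∀ (L : (Fin k → ℝ) →ₗ[ℝ] (Fin k → ℝ)) (κ B : ℝ), RayAt M Bf L κ B Ψ → 0 ≤ κ →
      ∀ g, ∀ x ∈ WS M (M.wt i), ∀ i', |fh M Ψ (g * M.ex x) i' - fh M Ψ g i'| ≤
        κ * (4 / (c0 * nu1 (M.wt i)) * Real.log (2 + ‖M.bas.equivFun x‖) + H) + 2 * B + B') := by
    intro i
    by_cases hi : M.wt i = 0
    · exact ⟨0, 0, le_rfl, le_rfl, fun hne => absurd hi hne⟩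
    · obtain ⟨B', H, hB', hH, h⟩ := one_weight_law M hc0 hBf hi K
      exact ⟨B', H, hB', hH, fun _ => h⟩
  choose B' H hB'0 hH0 hone using hone
  set Bs := ∑ i, B' i with hBs
  have hBs0 : 0 ≤ Bs := Finset.sum_nonneg fun i _ => hB'0 i
  set Hs := ∑ i, H i with hHs
  have hHs0 : 0 ≤ Hs := Finset.sum_nonneg fun i _ => hH0 i
  -- law for one exponential, uniformly over the nonzero weights
  have hex : ∀ Ψ : Γ → Γ, QIMap S S Ψ K → ∀ (L : (Fin k → ℝ) →ₗ[ℝ] (Fin k → ℝ)),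
      RayAt M Bf L κ B Ψ → ∀ g x, (∃ ν : (Fin k → ℝ) →ₗ[ℝ] ℝ, ν ≠ 0 ∧ x ∈ WS M ν) → ∀ i',
        |fh M Ψ (g * M.ex x) i' - fh M Ψ g i'| ≤
        κ * (Q * Real.log (2 + ‖M.bas.equivFun x‖) + Hs) + 2 * B + Bs := by
    rintro Ψ hΨ L hlaw g x ⟨ν, hν, hx⟩ i'
    have hlog : 0 ≤ Real.log (2 + ‖M.bas.equivFun x‖) :=
      Real.log_nonneg (by have := norm_nonneg (M.bas.equivFun x); linarith)
    by_cases hex : ∃ i, M.wt i = ν
    · obtain ⟨i, rfl⟩ := hex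
      refine (hone i hν Ψ hΨ L κ B hlaw hκ g x hx i').trans ?_
      have h1 : B' i ≤ Bs := Finset.single_le_sum (f := B') (fun i _ => hB'0 i) (Finset.mem_univ i)
      have h3 : H i ≤ Hs := Finset.single_le_sum (f := H) (fun i _ => hH0 i) (Finset.mem_univ i)
      have h2 : 4 / (c0 * nu1 (M.wt i)) ≤ Q := (le_abs_self _).trans
        (Finset.single_le_sum (f := fun i => |4 / (c0 * nu1 (M.wt i))|)
          (fun i _ => abs_nonneg _) (Finset.mem_univ i))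
      gcongr
    · push Not at hex
      have hx0 : x = 0 := by
        apply M.bas.repr.injective
        ext i
        rw [hx i (hex i), map_zero]
        rfl
      rw [hx0] at hlog
      rw [hx0, ex_zero, mul_one, sub_self, abs_zero]
      have h1 := mul_nonneg hQ0 hlog
      have h2 : 0 ≤ κ * (Q * Real.log (2 + ‖M.bas.equivFun 0‖) + Hs) :=
        mul_nonneg hκ (by linarith)
      linarith
  refine ⟨J * (κ * (Q * (M.a + 2 + Real.log (2 + A)) + Hs) + 2 * B + Bs), by positivity,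
    fun Ψ hΨ L hlaw g x i => ?_⟩
  obtain ⟨l, hlJ, hl, hxl⟩ := hBG x
  set ℓ := M.len (M.ex x) with hℓ
  have hℓ0 : 0 ≤ ℓ := M.isLen.nonneg _
  have hlogy : ∀ y ∈ l, Real.log (2 + ‖M.bas.equivFun y‖) ≤
      M.a * ℓ + (M.a + 2 + Real.log (2 + A)) := by
    intro y hy
    have h1 := (hl y hy).2
    have h2 := M.le_len_ex x
    set nx := ‖M.bas.equivFun x‖ with hnx
    have hnx0 : 0 ≤ nx := norm_nonneg _
    have h3 : 2 + ‖M.bas.equivFun y‖ ≤ (2 + A) * (2 + nx) := by nlinarith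
    have h4 : 2 + nx ≤ Real.exp (M.a * ℓ + M.a + 2) := by
      have h5 : (3 : ℝ) ≤ Real.exp 2 := by
        have := Real.add_one_le_exp (2 : ℝ); linarith
      have h6 : (1 : ℝ) ≤ Real.exp (M.a * ℓ + M.a) := Real.one_le_exp (by positivity)
      rw [Real.exp_add (M.a * ℓ + M.a) 2]
      nlinarith
    calc Real.log (2 + ‖M.bas.equivFun y‖) ≤ Real.log ((2 + A) * (2 + nx)) :=
          Real.log_le_log (by positivity) h3
      _ = Real.log (2 + A) + Real.log (2 + nx) := Real.log_mul (by positivity) (by positivity)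
      _ ≤ Real.log (2 + A) + (M.a * ℓ + M.a + 2) := by
          have := (Real.log_le_iff_le_exp (by positivity)).2 h4
          linarith
      _ = _ := by ring
  have h1 := list_law M (f := fun g => fh M Ψ g i) (l.map M.ex)
    (E := κ * (Q * (M.a * ℓ + (M.a + 2 + Real.log (2 + A))) + Hs) + 2 * B + Bs) (by
      intro s hs g
      obtain ⟨y, hy, rfl⟩ := List.mem_map.1 hs
      refine (hex Ψ hΨ L hlaw g y (hl y hy).1 i).trans ?_
      have := hlogy y hy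
      gcongr) g
  rw [List.length_map, ← hxl] at h1
  refine h1.trans ?_
  have hE0 : 0 ≤ κ * (Q * (M.a * ℓ + (M.a + 2 + Real.log (2 + A))) + Hs) + 2 * B + Bs := by
    positivity
  calc (l.length : ℝ) * (κ * (Q * (M.a * ℓ + (M.a + 2 + Real.log (2 + A))) + Hs) + 2 * B + Bs)
      ≤ J * (κ * (Q * (M.a * ℓ + (M.a + 2 + Real.log (2 + A))) + Hs) + 2 * B + Bs) :=
        mul_le_mul_of_nonneg_right (by exact_mod_cast hlJ) hE0
    _ = _ := by ring

/-- **One scale ⇒ the core law.** -/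
theorem coreLaw_of_oneScale {J : ℕ} {A : ℝ} (hA : 0 ≤ A) (hBG : BG M J A) {c0 : ℝ}
    (hc0 : 0 < c0) {LL : Set ((Fin k → ℝ) →ₗ[ℝ] (Fin k → ℝ))} (hLL : LL.Finite) {K : ℕ}
    (h : OneScaleLaw M LL c0 K) : CoreLaw M LL c0 K := by
  obtain ⟨C₁, hC₁, hE⟩ := exists_eAt M hA hBG hc0
  obtain ⟨δ, hδ, h⟩ := h
  intro η hη
  obtain ⟨Bf, hBf, n, D, hn, hΨ⟩ := h (δ * η / (2 * (1 + C₁))) (by positivity)
  obtain ⟨B, hB⟩ := rayAt_of_oneScale M hLL hBf hδ (η := δ * η / (2 * (1 + C₁))) (D := D)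
    (by positivity) hn K
  have hκ : 2 * (δ * η / (2 * (1 + C₁))) / δ = η / (1 + C₁) := by
    field_simp
  obtain ⟨B', hB'0, hB'⟩ := hE K Bf hBf (η / (1 + C₁)) |B| (by positivity) (abs_nonneg B)
  refine ⟨Bf, hBf, |B| + B', fun Ψ hQ => ?_⟩
  obtain ⟨θ, Lx, h1, h2, h3, h4⟩ := hΨ Ψ hQ
  have hray := hB Ψ hQ θ Lx h1 h2 h3 h4
  rw [hκ] at hray
  have hray' : RayAt M Bf (Lx 1) (η / (1 + C₁)) |B| Ψ := fun g b hb n i =>
    (hray g b hb n i).trans (by have := le_abs_self B; linarith)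
  have hEE := hB' Ψ hQ (Lx 1) hray'
  have hle1 : η / (1 + C₁) ≤ η := div_le_self hη.le (by linarith)
  have hle2 : C₁ * (η / (1 + C₁)) ≤ η := by
    rw [mul_div_assoc', div_le_iff₀ (by positivity)]
    nlinarith
  have hR : ∀ g, ∀ b ∈ Bf, ∀ n : ℕ, ∀ i,
      |fh M Ψ (g * b ^ n) i - fh M Ψ g i - n * Lx 1 (M.h b) i| ≤ η * (n * ‖M.h b‖) + |B| := by
    intro g b hb n i
    refine (hray' g b hb n i).trans ?_
    have : η / (1 + C₁) * (n * ‖M.h b‖) ≤ η * (n * ‖M.h b‖) :=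
      mul_le_mul_of_nonneg_right hle1 (by positivity)
    linarith
  have hEA : ∀ g x i, |fh M Ψ (g * M.ex x) i - fh M Ψ g i| ≤ η * M.len (M.ex x) + B' := by
    intro g x i
    refine (hEE g x i).trans ?_
    have := mul_le_mul_of_nonneg_right hle2 (M.isLen.nonneg (M.ex x))
    linarith
  refine ⟨Lx 1, h1 1, fun g b hb n i => ?_, fun g x i => ?_, fun g x b hb n i => ?_⟩
  · exact (hR g b hb n i).trans (by linarith)
  · exact (hEA g x i).trans (by have := abs_nonneg B; linarith)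
  · have h5 := hEA g x i
    have h6 := hR (g * M.ex x) b hb n i
    rw [mul_assoc] at h6
    rw [abs_le] at h5 h6 ⊢
    constructor <;> linarith [h5.1, h5.2, h6.1, h6.2]

end

end Crest.Agent.R182.OneScale
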