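/-
R182, module BND (helper658): the sublinear law in the core model implies the law used by the final
reduction.
-/
import Mathlib
import Crest.Agent.R182.BndMain2
import Crest.Agent.R182.BndSpan
import Crest.Agent.R182.OneScale2

set_option autoImplicit false

open scoped Pointwise

namespace Crest.Agent.R182.Bnd

open Crest.GroupTheory Crest.Geometry Crest.Agent.R182.QI Crest.Agent.R182.FinPath
  Crest.Agent.R182.FinRed Crest.Agent.R182.Core Crest.Agent.R182.OneScale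

variable {Γ : Type*} [Group Γ] {k : ℕ} {S : Set Γ} {π : Γ →* Multiplicative (Fin k → ℤ)}

/-- The facts about the real model which are used for the passage from the sublinear law to the
logarithmic law, on top of `BModel`. -/
structure BExt (M : BModel S π) (A : Set Γ) (x : Fin k → Γ) where
  /-- size function (norm of the matrix) -/
  sz : M.G → ℝ
  sz_nonneg : ∀ g, 0 ≤ sz g
  sz_inv : ∀ g, sz g⁻¹ = sz g
  fine : ∀ b ∈ M.C, ∀ v ∈ M.C, M.h v = 0 → Fine M.len b v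
  dec : Dec M.len sz (M.C : Set M.G) {v | v ∈ M.C ∧ M.h v = 0}
  growth : ∀ R : ℝ, ∃ B : ℝ, ∀ l : List M.G, (∀ s ∈ l, s ∈ M.C ∧ M.len s ≤ R) → M.h l.prod = 0 →
    Real.log (2 + sz l.prod) ≤ B * Real.log (2 + l.length)
  as : ℝ
  split : ∀ (y : Γ) (m : ℕ), y * (z x (hgt π y))⁻¹ ∈ A ^ m →
    ∃ (e : M.L) (l : List M.G), M.ι y = M.ex e * l.prod ∧
      M.len (M.ex e) ≤
        as * ((n1 (hgt π y) : ℝ) + Real.log (2 + m) + Real.log (2 + wordLength S y)) ∧
      (l.length : ℝ) ≤ as * (wordLength S y + 1) ∧ ∀ s ∈ l, s ∈ M.C ∧ M.len s ≤ as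

variable {M : BModel S π} {A : Set Γ} {x : Fin k → Γ}

/-- the model for the law -/
noncomputable def BExt.toD (E : BExt M A x) : DModel S π A x M.G where
  ι := M.ι
  len := M.len
  isLen := M.isLen
  a := M.a + |E.as|
  one_le_a := by
    have := M.one_le_a
    have := abs_nonneg E.as
    linarith
  len_ι γ := (M.len_ι γ).trans (mul_le_mul_of_nonneg_right
    (by have := abs_nonneg E.as; linarith) (Nat.cast_nonneg _))
  ι_len γ := (M.ι_len γ).trans (by
    have h1 := abs_nonneg E.as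
    have h2 := M.isLen.nonneg (M.ι γ)
    nlinarith [mul_nonneg h1 h2])
  round g := ⟨M.rnd g, (M.len_rnd g).trans (by have := abs_nonneg E.as; linarith)⟩
  h := M.h
  h_mul := M.h_mul
  h_ι := M.h_ι
  h_int := M.h_int
  h_le g i := (M.h_le g i).trans (mul_le_mul_of_nonneg_right
    (by have := abs_nonneg E.as; linarith) (M.isLen.nonneg g))
  m := M.m
  Λ := M.Λ
  Λ_inj v hv := M.sep v fun i hi => by
    obtain ⟨j, hj⟩ := M.Λ_surj i hi
    rw [← hj]; exact hv j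
  Λ_ne := M.Λ_ne
  χ := M.χ
  δ := M.δ
  crossed := M.crossed
  nontriv j := by
    obtain ⟨i, hi⟩ := M.lδ_ne j
    exact ⟨M.ex (M.bas i), M.h_ex _, by rw [M.δ_ex]; exact hi⟩
  χ_one := M.χ_one
  C := M.C
  t := M.t
  t_mem v := by
    obtain ⟨l, hl, -, h⟩ := M.t_list v
    rw [hl]
    exact M.C.list_prod_mem fun s hs => M.CN_le (h s hs).1
  h_t := M.h_t
  sz := E.sz
  sz_nonneg := E.sz_nonneg
  sz_inv := E.sz_inv
  fine := E.fine
  dec := E.dec
  growth := E.growth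
  E := Set.range M.ex
  E_h := by
    rintro _ ⟨e, rfl⟩
    exact M.h_ex e
  split y m hm := by
    obtain ⟨e, l, h1, h2, h3, h4⟩ := E.split y m hm
    have ha := M.one_le_a
    have hle : E.as ≤ M.a + |E.as| := by
      have := le_abs_self E.as
      linarith
    refine ⟨M.ex e, l, h1, ⟨e, rfl⟩, h2.trans (mul_le_mul_of_nonneg_right hle ?_),
      h3.trans (mul_le_mul_of_nonneg_right hle (by positivity)),
      fun s hs => ⟨(h4 s hs).1, (h4 s hs).2.trans hle⟩⟩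
    have e1 : 0 ≤ Real.log (2 + (m : ℝ)) := Real.log_nonneg (by
      have : (0 : ℝ) ≤ m := Nat.cast_nonneg _
      linarith)
    have e2 : 0 ≤ Real.log (2 + (wordLength S y : ℝ)) := Real.log_nonneg (by
      have : (0 : ℝ) ≤ wordLength S y := Nat.cast_nonneg _
      linarith)
    positivity

theorem height_int (M : BModel S π) {g : M.G} (hg : M.h g ≠ 0) : 1 ≤ ‖M.h g‖ := by
  obtain ⟨v, hv⟩ := M.h_int g
  have hne : v ≠ 0 := by
    rintro rfl
    apply hg
    funext i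
    simpa using hv i
  obtain ⟨i, hi⟩ := Function.ne_iff.1 hne
  have h1 : (1 : ℝ) ≤ |(v i : ℝ)| := by
    have : 1 ≤ |v i| := Int.one_le_abs hi
    exact_mod_cast this
  calc (1 : ℝ) ≤ |(v i : ℝ)| := h1
    _ = ‖M.h g i‖ := by rw [← hv i, Real.norm_eq_abs]
    _ ≤ ‖M.h g‖ := norm_le_pi_norm _ i

/-- the constant of the legs -/
noncomputable def legC (k : ℕ) (c0 : ℝ) : ℝ := k * (2 / min c0 1)

/-- Legs from a quantitatively positively spanning set of verticals. -/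
theorem exists_legs (E : BExt M A x) {c0 : ℝ} (hc0 : 0 < c0) {Bf : Set M.G}
    (hB : Verts M c0 Bf) : ∃ B : E.toD.Legs (legC k c0), (∀ i, B.b i ∈ Bf) := by
  classical
  have : Fintype Bf := hB.fin.fintype
  set c : ℝ := min c0 1 with hc
  have hcpos : 0 < c := lt_min hc0 one_pos
  have hc1 : c ≤ 1 := min_le_right _ _
  choose w hw using fun b : Bf => M.h_int b
  have hwR : ∀ b : Bf, (fun j => (w b j : ℝ)) = M.h b := fun b => by
    funext j; rw [← hw b j]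
  have hwne : ∀ b : Bf, w b ≠ 0 := by
    intro b h0
    apply hB.h_ne b b.2
    rw [← hwR b, h0]
    funext j; simp
  set H : ℝ := ∑ b : Bf, k * ‖M.h b‖ / c with hH
  have hH0 : 0 ≤ H := Finset.sum_nonneg fun b _ => by positivity
  have hgreedy := greedy w hcpos hc1 hwne (fun ν hν => by
      obtain ⟨b, hb, hνb⟩ := hB.pos ν hν
      refine ⟨⟨b, hb⟩, ?_⟩
      rw [hwR]
      refine le_trans ?_ hνb
      have h1 : 0 ≤ nu1 ν := Finset.sum_nonneg fun _ _ => abs_nonneg _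
      have h2 := min_le_left c0 1
      gcongr) (H := H) (fun b => by
      rw [hwR]
      have h1 : k * ‖M.h b‖ / c ≤ H := Finset.single_le_sum
        (f := fun b : Bf => k * ‖M.h b‖ / c) (fun b _ => by positivity) (Finset.mem_univ b)
      rw [div_le_iff₀ hcpos] at h1
      linarith)
  have hlegC : legC k c0 = k * (2 / c) := rfl
  have hk0 : (0 : ℝ) ≤ k := Nat.cast_nonneg k
  have hspan : ∀ v : Fin k → ℤ, ∃ n : Bf → ℕ,
      (∑ i, (n i : ℝ) * ht1 (M.h i) ≤ legC k c0 * ((n1 v : ℝ) + 1)) ∧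
      (∑ i, (n i : ℝ) ≤ (H + 2 / c) * ((n1 v : ℝ) + 1)) ∧
      ∀ j, |(v j : ℝ) - ∑ i, (n i : ℝ) * M.h i j| ≤ H + 2 / c := by
    intro v
    obtain ⟨n, hn1, hn2⟩ := hgreedy v
    have hv1 : e2 (fun j => (v j : ℝ)) ≤ n1 v := by
      refine (e2_le_ht1 _).trans ?_
      rw [ht1_intCast]
    have hsum : ∑ i : Bf, (n i : ℝ) * ‖M.h i‖ ≤ 2 / c * n1 v := by
      simp only [hwR] at hn1
      rw [div_mul_eq_mul_div, le_div_iff₀ hcpos]
      linarith
    have hn0 : (0 : ℝ) ≤ n1 v := Nat.cast_nonneg _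
    refine ⟨n, ?_, ?_, fun j => ?_⟩
    · calc ∑ i : Bf, (n i : ℝ) * ht1 (M.h i) ≤ ∑ i : Bf, (n i : ℝ) * (k * ‖M.h i‖) :=
            Finset.sum_le_sum fun i _ => mul_le_mul_of_nonneg_left (ht1_le_norm _)
              (Nat.cast_nonneg _)
        _ = k * ∑ i : Bf, (n i : ℝ) * ‖M.h i‖ := by
            rw [Finset.mul_sum]; exact Finset.sum_congr rfl fun i _ => by ring
        _ ≤ k * (2 / c * n1 v) := mul_le_mul_of_nonneg_left hsum hk0
        _ ≤ legC k c0 * ((n1 v : ℝ) + 1) := by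
            rw [hlegC]
            have : 0 ≤ (k : ℝ) * (2 / c) := by positivity
            nlinarith
    · calc ∑ i : Bf, (n i : ℝ) ≤ ∑ i : Bf, (n i : ℝ) * ‖M.h i‖ :=
            Finset.sum_le_sum fun i _ => le_mul_of_one_le_right (Nat.cast_nonneg _)
              (height_int M (hB.h_ne i i.2))
        _ ≤ 2 / c * n1 v := hsum
        _ ≤ _ := by
            have : 0 ≤ 2 / c := by positivity
            nlinarith [mul_nonneg hH0 hn0]
    · have h1 := hn2 j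
      have h2 : ∀ b : Bf, (w b j : ℝ) = M.h b j := fun b => (hw b j).symm
      simp only [h2] at h1
      refine h1.trans (max_le ?_ ?_)
      · have : 0 ≤ 2 / c := by positivity
        linarith
      · have : 0 ≤ 2 / c := by positivity
        linarith
  let B : E.toD.Legs (legC k c0) :=
    { idx := Bf
      b := fun i => i
      mem := fun i => hB.mem_C i i.2
      R := H + 2 / c
      span := hspan }
  exact ⟨B, fun i => i.2⟩

/-- comparison of the two extensions of a self-map. -/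
theorem ext_fh (E : BExt M A x) (K : ℕ) : ∃ κ : ℝ, 0 ≤ κ ∧ ∀ Ψ : Γ → Γ, QIMap S S Ψ K →
    ∀ (g : M.G) (i : Fin k), |E.toD.h (E.toD.ext Ψ g) i - fh M Ψ g i| ≤ κ := by
  set D := E.toD with hD
  have ha := D.a0
  refine ⟨D.a * (D.a * (K * (D.a * (2 * D.a) + D.a) + K)), by positivity, fun Ψ hΨ g i => ?_⟩
  rw [D.h_ext]
  have h1 : fh M Ψ g i = hgtR π (Ψ (M.rnd g)) i := by
    unfold fh
    rw [M.h_ι]
  rw [h1]
  refine (D.hgt_diff hΨ (M.rnd g) (D.r g) i).trans ?_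
  have h2 : (wordLength S ((M.rnd g)⁻¹ * D.r g) : ℝ) ≤ D.a * (2 * D.a) + D.a := by
    refine (D.ι_len _).trans ?_
    have h3 : D.ι ((M.rnd g)⁻¹ * D.r g) = ((M.ι (M.rnd g))⁻¹ * g) * (g⁻¹ * D.ι (D.r g)) := by
      rw [map_mul, map_inv]
      show _ = ((D.ι (M.rnd g))⁻¹ * g) * (g⁻¹ * D.ι (D.r g))
      group
    rw [h3]
    have h4 := D.isLen.mul ((M.ι (M.rnd g))⁻¹ * g) (g⁻¹ * D.ι (D.r g))
    have h5 : D.len ((M.ι (M.rnd g))⁻¹ * g) ≤ D.a := (M.len_rnd g).trans (by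
      show M.a ≤ M.a + |E.as|
      have := abs_nonneg E.as
      linarith)
    have h6 := D.hr' g
    have h7 : D.len (((M.ι (M.rnd g))⁻¹ * g) * (g⁻¹ * D.ι (D.r g))) ≤ 2 * D.a := by linarith
    have := mul_le_mul_of_nonneg_left h7 ha
    linarith
  gcongr

/-- The core law for all `K`. -/
def CoreLawAll (M : BModel S π) : Prop :=
  ∀ K : ℕ, ∃ (LL : Set ((Fin k → ℝ) →ₗ[ℝ] (Fin k → ℝ))) (c0 : ℝ), 0 < c0 ∧ LL.Finite ∧
    (∀ L ∈ LL, ∀ j, M.Λ j ∘ₗ L ≠ 0) ∧ CoreLaw M LL c0 K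

/-- **CoreLaw ⇒ USLB.** -/
theorem uslB_of_coreLaw (E : BExt M A x) (h : CoreLawAll M) : E.toD.USLB := by
  intro K
  obtain ⟨LL, c0, hc0, hLL, hne, hlaw⟩ := h K
  refine ⟨LL, legC k c0, hLL, hne, fun ε hε => ?_⟩
  obtain ⟨Bf, hBf, B, hB⟩ := hlaw ε hε
  obtain ⟨Lg, hLg⟩ := exists_legs E hc0 hBf
  obtain ⟨κ, hκ, hext⟩ := ext_fh E K
  refine ⟨Lg, |B| + 2 * κ, fun Ψ hΨ => ?_⟩
  obtain ⟨L, hL, hray, hE, -⟩ := hB Ψ hΨ
  refine ⟨L, hL, ?_, ?_⟩
  · intro g i n j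
    have h1 := hray g (Lg.b i) (hLg i) n j
    have h2 := hext Ψ hΨ (g * Lg.b i ^ n) j
    have h3 := hext Ψ hΨ g j
    have h4 : ε * (n * ‖M.h (Lg.b i)‖) ≤ ε * (n * ht1 (M.h (Lg.b i))) :=
      mul_le_mul_of_nonneg_left (mul_le_mul_of_nonneg_left (norm_le_ht1 _) (Nat.cast_nonneg _))
        hε.le
    have h5 := le_abs_self B
    have e1 : E.toD.h (E.toD.ext Ψ (g * Lg.b i ^ n)) j - E.toD.h (E.toD.ext Ψ g) j -
        (n : ℝ) * L (E.toD.h (Lg.b i)) j =
        (E.toD.h (E.toD.ext Ψ (g * Lg.b i ^ n)) j - fh M Ψ (g * Lg.b i ^ n) j) -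
        (E.toD.h (E.toD.ext Ψ g) j - fh M Ψ g j) +
        (fh M Ψ (g * Lg.b i ^ n) j - fh M Ψ g j - (n : ℝ) * L (M.h (Lg.b i)) j) := by
      show _ - _ - (n : ℝ) * L (M.h (Lg.b i)) j = _
      ring
    rw [e1]
    refine (abs_add_le _ _).trans ?_
    have h6 := abs_sub (E.toD.h (E.toD.ext Ψ (g * Lg.b i ^ n)) j - fh M Ψ (g * Lg.b i ^ n) j)
      (E.toD.h (E.toD.ext Ψ g) j - fh M Ψ g j)
    show _ ≤ ε * (n * ht1 (M.h (Lg.b i))) + (|B| + 2 * κ)
    linarith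
  · rintro g _ ⟨e, rfl⟩ j
    have h1 := hE g e j
    have h2 := hext Ψ hΨ (g * M.ex e) j
    have h3 := hext Ψ hΨ g j
    have h5 := le_abs_self B
    have e1 : E.toD.h (E.toD.ext Ψ (g * M.ex e)) j - E.toD.h (E.toD.ext Ψ g) j =
        (E.toD.h (E.toD.ext Ψ (g * M.ex e)) j - fh M Ψ (g * M.ex e) j) -
        (E.toD.h (E.toD.ext Ψ g) j - fh M Ψ g j) +
        (fh M Ψ (g * M.ex e) j - fh M Ψ g j) := by ring
    rw [e1]
    refine (abs_add_le _ _).trans ?_
    have h6 := abs_sub (E.toD.h (E.toD.ext Ψ (g * M.ex e)) j - fh M Ψ (g * M.ex e) j)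
      (E.toD.h (E.toD.ext Ψ g) j - fh M Ψ g j)
    show _ ≤ ε * M.len (M.ex e) + (|B| + 2 * κ)
    linarith

/-- **CoreLaw ⇒ LAW.** -/
theorem law_of_coreLaw (E : BExt M A x) (hx : ∀ i, hgt π (x i) = Pi.single i 1)
    (h : CoreLawAll M) : Law S π A x :=
  E.toD.law_of_uslB hx (uslB_of_coreLaw E h)

end Crest.Agent.R182.Bnd
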