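/-
R182, CORE (helper848): additional facts about the real model (kept outside `BModel`, which is
frozen).
-/
import Mathlib
import Crest.Agent.R182.Core

set_option autoImplicit false

namespace Crest.Agent.R182.Core

variable {Γ : Type*} [Group Γ] {k : ℕ} {S : Set Γ} {π : Γ →* Multiplicative (Fin k → ℤ)}

/-- Facts about the real model in addition to the fields of `BModel`. -/
structure XModel (M : BModel S π) : Prop where
  /-- conjugating a bounded element of `C` by `b ^ j`, `j ≤ N`, `b ∈ CN`, gives an element of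
  word length `o(N)`, with letters of a bounded size which does not depend on `δ`, `R`, `b`. -/
  sub_conj : ∃ R₀ : ℝ, ∀ b ∈ M.CN, ∀ R δ : ℝ, 0 < δ → ∃ N₀ : ℕ, ∀ N : ℕ, N₀ ≤ N →
    ∀ j : ℕ, j ≤ N → ∀ y ∈ M.C, M.len y ≤ R → ∃ l : List M.G, b ^ j * y * (b ^ j)⁻¹ = l.prod ∧
      (l.length : ℝ) ≤ δ * N ∧ ∀ s ∈ l, s ∈ M.C ∧ M.len s ≤ R₀
  /-- `E ∩ C` is at most polynomially distorted in `C` -/
  C_dist : ∀ R : ℝ, ∃ A : ℕ, ∀ l : List M.G, (∀ s ∈ l, s ∈ M.C ∧ M.len s ≤ R) → ∀ x : M.L,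
    M.ex x = l.prod → ‖M.bas.equivFun x‖ ≤ A * (1 + l.length) ^ A

end Crest.Agent.R182.Core
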