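/-
R182, module BOXGRP (helper468): boxes in the nilpotent group `(L, op)` with logarithmic sizes:
monotonicity, products, conjugation, factorisation along a set `w` of generators (a ray).
All constants are uniform in the sizes.
-/
import Mathlib
import Crest.Agent.R182.NbStar

set_option autoImplicit false
set_option linter.unusedSectionVars false

namespace Crest.Agent.R182.Nb

open Finset

variable {L : Type*} [LieRing L] [LieAlgebra ℝ L] {σ : Type*}

theorem mon_smul_fam (a : σ → ℝ) (v : σ → L) (κ : List σ) :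
    mon (fun i => a i • v i) κ = (κ.map a).prod • mon v κ := by
  induction κ with
  | nil => simp
  | cons i κ ih =>
    by_cases hκ : κ = []
    · subst hκ; simp
    · rw [mon_cons _ i hκ, ih, mon_cons v i hκ, smul_lie, lie_smul, smul_smul, List.map_cons,
        List.prod_cons]

/-- the family `e^{Z i} v i` -/
noncomputable def gZ (v : σ → L) (Z : σ → ℝ) : σ → L := fun i => Real.exp (Z i) • v i

theorem mon_gZ (v : σ → L) (Z : σ → ℝ) (κ : List σ) :
    mon (gZ v Z) κ = Real.exp (κ.map Z).sum • mon v κ := by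
  have h : ∀ κ : List σ, (κ.map fun i => Real.exp (Z i)).prod = Real.exp (κ.map Z).sum := by
    intro κ
    induction κ with
    | nil => simp
    | cons i κ ih => rw [List.map_cons, List.prod_cons, ih, List.map_cons, List.sum_cons, Real.exp_add]
  rw [← h]; exact mon_smul_fam _ v κ

theorem mon_gZ_eq_zero {v : σ → L} {Z : σ → ℝ} {κ : List σ} (h : mon v κ = 0) :
    mon (gZ v Z) κ = 0 := by rw [mon_gZ, h, smul_zero]

theorem Nil.gZ {c : ℕ} {v : σ → L} (h : Nil c v) (Z : σ → ℝ) : Nil c (gZ v Z) :=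
  fun κ hκ => mon_gZ_eq_zero (h κ hκ)

/-- restriction of a family to a set of indices -/
noncomputable def rst (v : σ → L) (w : σ → Prop) [DecidablePred w] : σ → L :=
  fun i => if w i then v i else 0

section

variable (w : σ → Prop) [DecidablePred w]

theorem mon_rst_of {v : σ → L} {κ : List σ} (h : ∀ i ∈ κ, w i) : mon (rst v w) κ = mon v κ := by
  induction κ with
  | nil => rfl
  | cons i κ ih =>
    have h1 : rst v w i = v i := if_pos (h i List.mem_cons_self)
    by_cases hκ : κ = []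
    · subst hκ; exact h1
    · rw [mon_cons _ i hκ, ih fun j hj => h j (List.mem_cons_of_mem _ hj), mon_cons v i hκ, h1]

theorem mon_rst_not {v : σ → L} {κ : List σ} (h : ¬ ∀ i ∈ κ, w i) : mon (rst v w) κ = 0 := by
  induction κ with
  | nil => rfl
  | cons i κ ih =>
    by_cases hκ : κ = []
    · subst hκ
      have : ¬ w i := fun hi => h (by simpa using hi)
      exact if_neg this
    · rw [mon_cons _ i hκ]
      by_cases hi : w i
      · rw [ih, lie_zero]
        intro h'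
        exact h (List.forall_mem_cons.2 ⟨hi, h'⟩)
      · have : rst v w i = 0 := if_neg hi
        rw [this, zero_lie]

theorem Nil.rst {c : ℕ} {v : σ → L} (h : Nil c v) : Nil c (rst v w) := by
  intro κ hκ
  by_cases h' : ∀ i ∈ κ, w i
  · rw [mon_rst_of w h', h κ hκ]
  · exact mon_rst_not w h'

end

variable [Fintype σ]

/-- the box `{Σ s_κ e^{Z(κ)} mon v κ, |s_κ| ≤ e^p}` -/
noncomputable def BZ (c : ℕ) (v : σ → L) (Z : σ → ℝ) (p : ℝ) : Set L := Bx c (gZ v Z) (Real.exp p)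

variable {c : ℕ} {v : σ → L} {Z Z' : σ → ℝ} {p q : ℝ}

theorem mem_BZ {x : L} : x ∈ BZ c v Z p ↔
    ∃ s : List σ → ℝ, (∀ κ, |s κ| ≤ Real.exp (p + (κ.map Z).sum)) ∧
      x = ∑ κ ∈ KL σ c, s κ • mon v κ := by
  constructor
  · rintro ⟨s, hs, rfl⟩
    refine ⟨fun κ => s κ * Real.exp (κ.map Z).sum, fun κ => ?_, ?_⟩
    · rw [abs_mul, abs_of_pos (Real.exp_pos _), Real.exp_add]
      exact mul_le_mul_of_nonneg_right (hs κ) (Real.exp_pos _).le
    · exact Finset.sum_congr rfl fun κ _ => by rw [mon_gZ, smul_smul]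
  · rintro ⟨s, hs, rfl⟩
    refine ⟨fun κ => s κ * Real.exp (-(κ.map Z).sum), fun κ => ?_, ?_⟩
    · rw [abs_mul, abs_of_pos (Real.exp_pos _)]
      calc |s κ| * Real.exp (-(κ.map Z).sum)
          ≤ Real.exp (p + (κ.map Z).sum) * Real.exp (-(κ.map Z).sum) :=
            mul_le_mul_of_nonneg_right (hs κ) (Real.exp_pos _).le
        _ = Real.exp p := by rw [← Real.exp_add]; congr 1; ring
    · refine Finset.sum_congr rfl fun κ _ => ?_
      rw [mon_gZ, smul_smul, mul_assoc, ← Real.exp_add, neg_add_cancel, Real.exp_zero, mul_one]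

/-- general comparison of boxes -/
theorem BZ_le (h : ∀ κ : List σ, κ ≠ [] → κ.length ≤ c → mon v κ ≠ 0 →
    p + (κ.map Z).sum ≤ q + (κ.map Z').sum) : BZ c v Z p ⊆ BZ c v Z' q := by
  classical
  intro x hx
  rw [mem_BZ] at hx ⊢
  obtain ⟨s, hs, rfl⟩ := hx
  refine ⟨fun κ => if κ ≠ [] ∧ κ.length ≤ c ∧ mon v κ ≠ 0 then s κ else 0, fun κ => ?_, ?_⟩
  · beta_reduce
    split_ifs with h'
    · exact (hs κ).trans (Real.exp_le_exp.2 (h κ h'.1 h'.2.1 h'.2.2))
    · rw [abs_zero]; exact (Real.exp_pos _).le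
  · refine Finset.sum_congr rfl fun κ hκ => ?_
    rw [mem_KL] at hκ
    beta_reduce
    split_ifs with h'
    · rfl
    · have : mon v κ = 0 := by
        by_contra h0
        apply h'
        refine ⟨?_, hκ, h0⟩
        rintro rfl
        exact h0 rfl
      rw [this, smul_zero, smul_zero]

theorem sum_map_le {κ : List σ} (h : ∀ i, Z i ≤ Z' i) : (κ.map Z).sum ≤ (κ.map Z').sum := by
  induction κ with
  | nil => simp
  | cons i κ ih => simp only [List.map_cons, List.sum_cons]; linarith [h i]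

theorem sum_map_add (κ : List σ) (Z Z' : σ → ℝ) :
    (κ.map fun i => Z i + Z' i).sum = (κ.map Z).sum + (κ.map Z').sum := by
  induction κ with
  | nil => simp
  | cons i κ ih => simp only [List.map_cons, List.sum_cons, ih]; ring

theorem sum_map_const (κ : List σ) (a : ℝ) : (κ.map fun _ => a).sum = κ.length * a := by
  simp

theorem sum_map_mul (κ : List σ) (b : ℝ) (t : σ → ℝ) :
    (κ.map fun i => b * t i).sum = b * (κ.map t).sum := by
  induction κ with
  | nil => simp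
  | cons i κ ih => simp only [List.map_cons, List.sum_cons, ih]; ring

theorem one_le_length {κ : List σ} (h : κ ≠ []) : (1:ℝ) ≤ κ.length := by
  have : κ.length ≠ 0 := by simpa using h
  exact_mod_cast Nat.one_le_iff_ne_zero.2 this

theorem length_le_sum {t : σ → ℝ} (ht : ∀ i, 1 ≤ t i) (κ : List σ) :
    (κ.length : ℝ) ≤ (κ.map t).sum := by
  induction κ with
  | nil => simp
  | cons i κ ih =>
    simp only [List.map_cons, List.sum_cons, List.length_cons, Nat.cast_succ]; linarith [ht i]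

theorem BZ_mono (hZ : ∀ i, Z i ≤ Z' i) (hp : p ≤ q) : BZ c v Z p ⊆ BZ c v Z' q :=
  BZ_le fun κ _ _ _ => by linarith [sum_map_le (κ := κ) hZ]

/-- absorb a constant of the coefficients into the sides -/
theorem BZ_shift {a : ℝ} (ha : 0 ≤ a) (hZ : ∀ i, Z i + a ≤ Z' i) :
    BZ c v Z (p + a) ⊆ BZ c v Z' p :=
  BZ_le fun κ hκ _ _ => by
    have h1 := sum_map_le (κ := κ) hZ
    rw [sum_map_add, sum_map_const] at h1
    have h2 := one_le_length hκ
    nlinarith

/-- and conversely -/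
theorem BZ_unshift {a : ℝ} (ha : 0 ≤ a) (hZ : ∀ i, Z' i ≤ Z i + a) :
    BZ c v Z' p ⊆ BZ c v Z (p + c * a) :=
  BZ_le fun κ _ hκ _ => by
    have h1 := sum_map_le (κ := κ) hZ
    rw [sum_map_add, sum_map_const] at h1
    have h2 : (κ.length : ℝ) ≤ c := by exact_mod_cast hκ
    nlinarith

theorem BZ_zero_mem : (0 : L) ∈ BZ c v Z p := Bx_zero_mem (Real.exp_pos _).le

theorem BZ_neg {x : L} (hx : x ∈ BZ c v Z p) : -x ∈ BZ c v Z p := Bx_neg hx

theorem BZ_add {x y : L} (hx : x ∈ BZ c v Z p) (hy : y ∈ BZ c v Z p) :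
    x + y ∈ BZ c v Z (p + Real.log 2) := by
  have := Bx_add hx hy
  rw [BZ, Real.exp_add, Real.exp_log (by norm_num)]
  rwa [← mul_two] at this

theorem BZ_smul {x : L} (hx : x ∈ BZ c v Z p) {r : ℝ} (hr : |r| ≤ 1) : r • x ∈ BZ c v Z p :=
  Bx_mono (by nlinarith [Real.exp_pos p, abs_nonneg r]) (Bx_smul hx r)

theorem gZ_rst (w : σ → Prop) [DecidablePred w] (v : σ → L) (Z : σ → ℝ) :
    gZ (rst v w) Z = rst (gZ v Z) w := by
  funext i
  by_cases h : w i <;> simp [gZ, rst, h]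

/-- the box of the generators in `w` is contained in the box -/
theorem BZ_rst_le (w : σ → Prop) [DecidablePred w] : BZ c (rst v w) Z p ⊆ BZ c v Z p := by
  classical
  intro x hx
  rw [mem_BZ] at hx ⊢
  obtain ⟨s, hs, rfl⟩ := hx
  refine ⟨fun κ => if ∀ i ∈ κ, w i then s κ else 0, fun κ => ?_, ?_⟩
  · beta_reduce
    split_ifs
    · exact hs κ
    · rw [abs_zero]; exact (Real.exp_pos _).le
  · refine Finset.sum_congr rfl fun κ _ => ?_
    beta_reduce
    split_ifs with h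
    · rw [mon_rst_of w h]
    · rw [mon_rst_not w h, smul_zero, zero_smul]

namespace Star

variable (S : Star L)

theorem neg_op (x : L) : S.op (-x) x = 0 := by
  have := S.op_neg (-x)
  rwa [neg_neg] at this

theorem op_neg_cancel (x y : L) : S.op (S.op x (-y)) y = x := by
  rw [S.assoc, S.neg_op, S.op_zero]

theorem op_cancel_neg (x y : L) : S.op (S.op x y) (-y) = x := by
  rw [S.assoc, S.op_neg, S.op_zero]

theorem neg_op_cancel (x y : L) : S.op (-x) (S.op x y) = y := by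
  rw [← S.assoc, S.neg_op, S.zero_op]

theorem op_neg_op (x y : L) : S.op x (S.op (-x) y) = y := by
  rw [← S.assoc, S.op_neg, S.zero_op]

theorem eq_neg_of_op_eq_zero {x y : L} (h : S.op x y = 0) : x = -y := by
  have := congrArg (fun z => S.op z (-y)) h
  simpa [S.op_cancel_neg, S.zero_op] using this

theorem neg_op_rev (x y : L) : -(S.op x y) = S.op (-y) (-x) := by
  symm
  apply S.eq_neg_of_op_eq_zero
  rw [S.assoc, ← S.assoc (-x) x y, S.neg_op, S.zero_op, S.neg_op]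

/-- conjugation -/
def cj (x y : L) : L := S.op (S.op x y) (-x)

theorem cj_op (x y z : L) : S.cj x (S.op y z) = S.op (S.cj x y) (S.cj x z) := by
  unfold cj
  rw [S.assoc (S.op x y) (-x), ← S.assoc (-x) (S.op x z), ← S.assoc (-x) x z, S.neg_op, S.zero_op,
    S.assoc x y (S.op z (-x)), ← S.assoc y z, S.assoc x]

theorem op_eq_cj_op (x y : L) : S.op x y = S.op (S.cj x y) x := by
  unfold cj; rw [S.op_neg_cancel]

theorem cj_neg_cj (x y : L) : S.cj (-x) (S.cj x y) = y := by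
  unfold cj
  rw [neg_neg, S.assoc (-x), S.op_neg_cancel, S.neg_op_cancel]

theorem cj_cj_neg (x y : L) : S.cj x (S.cj (-x) y) = y := by
  have := S.cj_neg_cj (-x) y
  rwa [neg_neg] at this

/-- quantitative conjugation -/
theorem exists_cj_mem (c : ℕ) (ι : Type*) [Fintype ι] :
    ∃ C : ℝ, 0 ≤ C ∧ ∀ g : ι → L, Nil c g → ∀ s t : ℝ, 0 ≤ s → s ≤ 1 → 0 ≤ t → t ≤ 1 →
      ∀ x ∈ Bx c g s, ∀ y ∈ Bx c g t, S.cj x y - y ∈ Bx c g (C * s * t) := by
  have hf : (fun v : Bool → L => S.cj (v false) (v true) - v true) ∈ LP Bool L := by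
    refine Submodule.sub_mem _ ?_ (LP.proj true)
    refine LP.comp S.lp
      (G := fun (v : Bool → L) (b : Bool) => if b = false then S.op (v false) (v true) else -v false)
      (fun b => ?_)
    cases b
    · simp only [if_true]; exact S.lp
    · simp only [Bool.true_eq_false, if_false]; exact Submodule.neg_mem _ (LP.proj false)
  obtain ⟨C, hC, h⟩ := LP.mixed hf
    (fun v hv => by
      simp only [cj, hv, S.zero_op, neg_zero, S.op_zero, sub_self])
    (fun v hv => by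
      simp only [cj, hv, S.op_zero, S.op_neg, sub_zero]) ι c
  exact ⟨C, hC, fun g hN s t hs hs1 ht ht1 x hx y hy => by
    simpa using h g hN s t hs hs1 ht ht1 (fun b => if b = false then x else y) (by simpa using hx)
      (by simpa using hy)⟩

/-- quantitative splitting `u + k = k' u` -/
theorem exists_split (c : ℕ) (ι : Type*) [Fintype ι] :
    ∃ C : ℝ, 0 ≤ C ∧ ∀ g : ι → L, Nil c g → ∀ s t : ℝ, 0 ≤ s → s ≤ 1 → 0 ≤ t → t ≤ 1 →
      ∀ u ∈ Bx c g s, ∀ k ∈ Bx c g t, S.op (u + k) (-u) - k ∈ Bx c g (C * s * t) := by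
  have hf : (fun v : Bool → L => S.op (v false + v true) (-v false) - v true) ∈ LP Bool L := by
    refine Submodule.sub_mem _ ?_ (LP.proj true)
    refine LP.comp S.lp
      (G := fun (v : Bool → L) (b : Bool) => if b = false then v false + v true else -v false)
      (fun b => ?_)
    cases b
    · simp only [if_true]; exact Submodule.add_mem _ (LP.proj false) (LP.proj true)
    · simp only [Bool.true_eq_false, if_false]; exact Submodule.neg_mem _ (LP.proj false)
  obtain ⟨C, hC, h⟩ := LP.mixed hf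
    (fun v hv => by simp only [hv, neg_zero, S.op_zero, zero_add, sub_self])
    (fun v hv => by simp only [hv, add_zero, S.op_neg, sub_zero]) ι c
  exact ⟨C, hC, fun g hN s t hs hs1 ht ht1 x hx y hy => by
    simpa using h g hN s t hs hs1 ht ht1 (fun b => if b = false then x else y) (by simpa using hx)
      (by simpa using hy)⟩

theorem exists_op_mixed (c : ℕ) (ι : Type*) [Fintype ι] :
    ∃ C : ℝ, 0 ≤ C ∧ ∀ g : ι → L, Nil c g → ∀ s t : ℝ, 0 ≤ s → s ≤ 1 → 0 ≤ t → t ≤ 1 →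
      ∀ x ∈ Bx c g s, ∀ y ∈ Bx c g t, S.op x y - x - y ∈ Bx c g (C * s * t) := by
  have hf : (fun v : Bool → L => S.op (v false) (v true) - v false - v true) ∈ LP Bool L :=
    Submodule.sub_mem _ (Submodule.sub_mem _ S.lp (LP.proj false)) (LP.proj true)
  obtain ⟨C, hC, h⟩ := LP.mixed hf (fun v hv => by rw [hv, S.zero_op]; simp)
    (fun v hv => by rw [hv, S.op_zero]; simp) ι c
  exact ⟨C, hC, fun g hN s t hs hs1 ht ht1 x hx y hy => by
    simpa using h g hN s t hs hs1 ht ht1 (fun b => if b = false then x else y) (by simpa using hx)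
      (by simpa using hy)⟩

/-- the logarithmic constant of the group law, uniform in the generators and the sides -/
structure BoxConst (c : ℕ) (σ : Type*) [Fintype σ] (a : ℝ) : Prop where
  nonneg : 0 ≤ a
  add_mem : ∀ v : σ → L, ∀ Z : σ → ℝ, ∀ p : ℝ, ∀ x ∈ BZ c v Z p, ∀ y ∈ BZ c v Z p,
    x + y ∈ BZ c v Z (p + a)
  op_sub : ∀ v : σ → L, Nil c v → ∀ Z : σ → ℝ, ∀ p q : ℝ, p ≤ 0 → q ≤ 0 →
    ∀ x ∈ BZ c v Z p, ∀ y ∈ BZ c v Z q, S.op x y - x - y ∈ BZ c v Z (p + q + a)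
  op_mem : ∀ v : σ → L, Nil c v → ∀ Z : σ → ℝ, ∀ p q : ℝ, p ≤ 0 → q ≤ 0 →
    ∀ x ∈ BZ c v Z p, ∀ y ∈ BZ c v Z q, S.op x y ∈ BZ c v Z (max p q + a)
  cj_sub : ∀ v : σ → L, Nil c v → ∀ Z : σ → ℝ, ∀ p q : ℝ, p ≤ 0 → q ≤ 0 →
    ∀ x ∈ BZ c v Z p, ∀ y ∈ BZ c v Z q, S.cj x y - y ∈ BZ c v Z (p + q + a)
  cj_mem : ∀ v : σ → L, Nil c v → ∀ Z : σ → ℝ, ∀ p q : ℝ, p ≤ 0 → q ≤ 0 →
    ∀ x ∈ BZ c v Z p, ∀ y ∈ BZ c v Z q, S.cj x y ∈ BZ c v Z (q + a)
  split : ∀ v : σ → L, Nil c v → ∀ Z : σ → ℝ, ∀ q : ℝ, q ≤ 0 →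
    ∀ u ∈ BZ c v Z 0, ∀ k ∈ BZ c v Z q, S.op (u + k) (-u) ∈ BZ c v Z (q + a)

theorem exists_boxConst (c : ℕ) (σ : Type*) [Fintype σ] : ∃ a, S.BoxConst c σ a := by
  obtain ⟨C₁, hC₁, h₁⟩ := S.exists_op_mixed c σ
  obtain ⟨C₂, hC₂, h₂⟩ := S.exists_cj_mem c σ
  obtain ⟨C₃, hC₃, h₃⟩ := S.exists_split c σ
  set A : ℝ := C₁ + C₂ + C₃ + 2 with hA
  have hA0 : 0 < A := by linarith
  have hexp : Real.exp (Real.log A) = A := Real.exp_log hA0
  have e1 : ∀ p : ℝ, p ≤ 0 → Real.exp p ≤ 1 := fun p hp => Real.exp_le_one_iff.2 hp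
  refine ⟨Real.log A, Real.log_nonneg (by linarith), ?_, ?_, ?_, ?_, ?_, ?_⟩
  · intro v Z p x hx y hy
    refine Bx_mono ?_ (Bx_add hx hy)
    rw [Real.exp_add, hexp]; nlinarith [Real.exp_pos p]
  · intro v hN Z p q hp hq x hx y hy
    refine Bx_mono ?_ (h₁ _ (hN.gZ Z) _ _ (Real.exp_pos p).le (e1 p hp) (Real.exp_pos q).le (e1 q hq)
      x hx y hy)
    rw [Real.exp_add, Real.exp_add, hexp, mul_assoc, mul_comm]
    have := mul_pos (Real.exp_pos p) (Real.exp_pos q)
    nlinarith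
  · intro v hN Z p q hp hq x hx y hy
    have h4 := h₁ _ (hN.gZ Z) _ _ (Real.exp_pos p).le (e1 p hp) (Real.exp_pos q).le (e1 q hq)
      x hx y hy
    have h5 : S.op x y = x + y + (S.op x y - x - y) := by abel
    rw [h5]
    refine Bx_mono ?_ (Bx_add (Bx_add hx hy) h4)
    rw [Real.exp_add, hexp]
    have h6 : Real.exp p ≤ Real.exp (max p q) := Real.exp_le_exp.2 (le_max_left _ _)
    have h7 : Real.exp q ≤ Real.exp (max p q) := Real.exp_le_exp.2 (le_max_right _ _)
    have h8 : C₁ * Real.exp p * Real.exp q ≤ C₁ * Real.exp (max p q) := by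
      have h9 : Real.exp p * Real.exp q ≤ Real.exp (max p q) * 1 :=
        mul_le_mul h6 (e1 q hq) (Real.exp_pos q).le (Real.exp_pos _).le
      rw [mul_assoc]
      exact mul_le_mul_of_nonneg_left (by linarith) hC₁
    nlinarith [Real.exp_pos (max p q)]
  · intro v hN Z p q hp hq x hx y hy
    refine Bx_mono ?_ (h₂ _ (hN.gZ Z) _ _ (Real.exp_pos p).le (e1 p hp) (Real.exp_pos q).le (e1 q hq)
      x hx y hy)
    rw [Real.exp_add, Real.exp_add, hexp, mul_assoc, mul_comm]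
    have := mul_pos (Real.exp_pos p) (Real.exp_pos q)
    nlinarith
  · intro v hN Z p q hp hq x hx y hy
    have h4 := h₂ _ (hN.gZ Z) _ _ (Real.exp_pos p).le (e1 p hp) (Real.exp_pos q).le (e1 q hq)
      x hx y hy
    have h5 : S.cj x y = y + (S.cj x y - y) := by abel
    rw [h5]
    refine Bx_mono ?_ (Bx_add hy h4)
    rw [Real.exp_add, hexp]
    have h8 : C₂ * Real.exp p * Real.exp q ≤ C₂ * 1 * Real.exp q := by
      have := e1 p hp
      gcongr
    nlinarith [Real.exp_pos q]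
  · intro v hN Z q hq u hu k hk
    have h4 := h₃ _ (hN.gZ Z) _ _ (Real.exp_pos 0).le (e1 0 le_rfl) (Real.exp_pos q).le (e1 q hq)
      u hu k hk
    have h5 : S.op (u + k) (-u) = k + (S.op (u + k) (-u) - k) := by abel
    rw [h5]
    refine Bx_mono ?_ (Bx_add hk h4)
    rw [Real.exp_add, hexp, Real.exp_zero]
    nlinarith [Real.exp_pos q]

namespace BoxConst

variable {S} {a : ℝ} {t : σ → ℝ} {b : ℝ} {w : σ → Prop} [DecidablePred w]

/-- products in a shifted box -/
theorem op_shift (H : S.BoxConst c σ a) (hN : Nil c v) (hp : p ≤ 0) (hZ : ∀ i, Z i + a ≤ Z' i)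
    {x y : L} (hx : x ∈ BZ c v Z p) (hy : y ∈ BZ c v Z p) : S.op x y ∈ BZ c v Z' p := by
  have h1 := H.op_mem v hN Z p p hp hp x hx y hy
  rw [max_self] at h1
  exact BZ_shift H.nonneg hZ h1

theorem cj_shift (H : S.BoxConst c σ a) (hN : Nil c v) (hp : p ≤ 0) (hZ : ∀ i, Z i + a ≤ Z' i)
    {x y : L} (hx : x ∈ BZ c v Z 0) (hy : y ∈ BZ c v Z p) : S.cj x y ∈ BZ c v Z' p :=
  BZ_shift H.nonneg hZ (H.cj_mem v hN Z 0 p le_rfl hp x hx y hy)

/-- products of finitely many elements -/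
theorem prod_shift (H : S.BoxConst c σ a) (hN : Nil c v) (hp : p ≤ 0) (l : List L)
    (hl : ∀ x ∈ l, x ∈ BZ c v Z p) : S.prod l ∈ BZ c v (fun i => Z i + l.length * a) p := by
  have ha := H.nonneg
  induction l with
  | nil => exact BZ_zero_mem
  | cons x l ih =>
    have h1 := ih fun y hy => hl y (List.mem_cons_of_mem _ hy)
    have hl0 : (0:ℝ) ≤ l.length * a := by positivity
    have h2 : x ∈ BZ c v (fun i => Z i + l.length * a) p :=
      BZ_mono (fun i => by linarith) le_rfl (hl x List.mem_cons_self)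
    rw [S.prod_cons]
    refine H.op_shift hN hp (fun i => ?_) h2 h1
    rw [List.length_cons, Nat.cast_succ]; linarith

/-- **Factorisation along the generators in `w`**: `N(Z₃) ⊆ BZ Z₁ (q + a) · U_w(Z₂)`. -/
theorem factor (H : S.BoxConst c σ a) (hN : Nil c v) (hq : q ≤ 0) {Z₁ Z₂ Z₃ : σ → ℝ}
    (h32 : ∀ i, w i → Z₃ i ≤ Z₂ i) (h21 : ∀ i, w i → Z₂ i ≤ Z₁ i)
    (hk : ∀ κ : List σ, κ ≠ [] → κ.length ≤ c → mon v κ ≠ 0 → ¬ (∀ i ∈ κ, w i) →
      (κ.map Z₃).sum ≤ q + (κ.map Z₁).sum) {x : L} (hx : x ∈ BZ c v Z₃ 0) :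
    ∃ k ∈ BZ c v Z₁ (q + a), ∃ u ∈ BZ c (rst v w) Z₂ 0, x = S.op k u := by
  classical
  have hsum : ∀ {Y Y' : σ → ℝ}, (∀ i, w i → Y i ≤ Y' i) → ∀ κ : List σ, (∀ i ∈ κ, w i) →
      (κ.map Y).sum ≤ (κ.map Y').sum := by
    intro Y Y' hY κ
    induction κ with
    | nil => simp
    | cons i κ ih =>
      intro hκ
      simp only [List.map_cons, List.sum_cons]
      linarith [hY i (hκ i List.mem_cons_self), ih fun j hj => hκ j (List.mem_cons_of_mem _ hj)]
  rw [mem_BZ] at hx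
  obtain ⟨s, hs, rfl⟩ := hx
  set u : L := ∑ κ ∈ KL σ c, (if ∀ i ∈ κ, w i then s κ else 0) • mon v κ with hu
  set k : L := ∑ κ ∈ KL σ c, (if ∀ i ∈ κ, w i then 0 else s κ) • mon v κ with hk'
  have huk : ∑ κ ∈ KL σ c, s κ • mon v κ = u + k := by
    rw [hu, hk', ← Finset.sum_add_distrib]
    refine Finset.sum_congr rfl fun κ _ => ?_
    rw [← add_smul]; split_ifs <;> simp
  have hu1 : u ∈ BZ c (rst v w) Z₂ 0 := by
    rw [mem_BZ]
    refine ⟨fun κ => if ∀ i ∈ κ, w i then s κ else 0, fun κ => ?_, ?_⟩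
    · beta_reduce
      split_ifs with h
      · refine (hs κ).trans (Real.exp_le_exp.2 ?_)
        linarith [hsum h32 κ h]
      · rw [abs_zero]; exact (Real.exp_pos _).le
    · rw [hu]
      refine Finset.sum_congr rfl fun κ _ => ?_
      beta_reduce
      by_cases h : ∀ i ∈ κ, w i
      · rw [mon_rst_of w h]
      · rw [if_neg h, zero_smul, zero_smul]
  have hu2 : u ∈ BZ c v Z₁ 0 := by
    rw [mem_BZ]
    refine ⟨fun κ => if ∀ i ∈ κ, w i then s κ else 0, fun κ => ?_, hu⟩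
    beta_reduce
    split_ifs with h
    · refine (hs κ).trans (Real.exp_le_exp.2 ?_)
      linarith [hsum h32 κ h, hsum h21 κ h]
    · rw [abs_zero]; exact (Real.exp_pos _).le
  have hk1 : k ∈ BZ c v Z₁ q := by
    rw [mem_BZ]
    refine ⟨fun κ => if (∀ i ∈ κ, w i) ∨ κ = [] ∨ c < κ.length ∨ mon v κ = 0 then 0 else s κ,
      fun κ => ?_, ?_⟩
    · beta_reduce
      split_ifs with h
      · rw [abs_zero]; exact (Real.exp_pos _).le
      · push Not at h
        refine (hs κ).trans (Real.exp_le_exp.2 ?_)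
        have := hk κ h.2.1 h.2.2.1 h.2.2.2 (by push Not; exact h.1)
        linarith
    · rw [hk']
      refine Finset.sum_congr rfl fun κ hκ => ?_
      rw [mem_KL] at hκ
      beta_reduce
      by_cases h : ∀ i ∈ κ, w i
      · rw [if_pos h, if_pos (Or.inl h)]
      · by_cases h' : mon v κ = 0
        · rw [h', smul_zero, smul_zero]
        · have h1 : κ ≠ [] := by rintro rfl; exact h' rfl
          have h2 : ¬ ((∀ i ∈ κ, w i) ∨ κ = [] ∨ c < κ.length ∨ mon v κ = 0) := by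
            rintro (h3 | h3 | h3 | h3)
            · exact h h3
            · exact h1 h3
            · omega
            · exact h' h3
          rw [if_neg h, if_neg h2]
  refine ⟨S.op (u + k) (-u), H.split v hN Z₁ q hq u hu2 k hk1, u, hu1, ?_⟩
  rw [S.op_neg_cancel, huk]

/-- `K · U_w · N(Z₃) ⊆ K⁺ · U_w⁺`, `K = BZ Z₁ q`, `U_w = BZ (rst v w) Z₂ 0`. -/
theorem S_op (H : S.BoxConst c σ a) (hN : Nil c v) (hq : q ≤ 0) {Z₁ Z₂ Z₃ : σ → ℝ}
    (h32 : ∀ i, w i → Z₃ i ≤ Z₂ i) (h21 : ∀ i, w i → Z₂ i ≤ Z₁ i)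
    (hk : ∀ κ : List σ, κ ≠ [] → κ.length ≤ c → mon v κ ≠ 0 → ¬ (∀ i ∈ κ, w i) →
      (κ.map Z₃).sum ≤ q + (κ.map Z₁).sum) {k u n : L} (hk0 : k ∈ BZ c v Z₁ q)
    (hu0 : u ∈ BZ c (rst v w) Z₂ 0) (hn : n ∈ BZ c v Z₃ 0) :
    ∃ k' ∈ BZ c v (fun i => Z₁ i + 3 * a) q, ∃ u' ∈ BZ c (rst v w) (fun i => Z₂ i + a) 0,
      S.op (S.op k u) n = S.op k' u' := by
  have ha := H.nonneg
  obtain ⟨k₁, hk₁, u₁, hu₁, rfl⟩ := H.factor hN hq h32 h21 hk hn
  have hk₁' : k₁ ∈ BZ c v (fun i => Z₁ i + a) q := BZ_shift ha (fun i => le_rfl) hk₁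
  have hu2 : u ∈ BZ c v (fun i => Z₁ i + a) 0 := by
    have h1 : u ∈ BZ c v Z₂ 0 := BZ_rst_le w hu0
    -- compare on the restricted family
    have h2 : u ∈ BZ c (rst v w) Z₁ 0 := by
      refine BZ_le (fun κ _ _ h0 => ?_) hu0
      have h3 : ∀ i ∈ κ, w i := by
        by_contra h4; exact h0 (mon_rst_not w h4)
      have : ∀ κ : List σ, (∀ i ∈ κ, w i) → (κ.map Z₂).sum ≤ (κ.map Z₁).sum := by
        intro κ
        induction κ with
        | nil => simp
        | cons i κ ih =>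
          intro hκ
          simp only [List.map_cons, List.sum_cons]
          linarith [h21 i (hκ i List.mem_cons_self), ih fun j hj => hκ j (List.mem_cons_of_mem _ hj)]
      linarith [this κ h3]
    exact BZ_mono (fun i => by linarith) le_rfl (BZ_rst_le w h2)
  have hcj : S.cj u k₁ ∈ BZ c v (fun i => Z₁ i + 2 * a) q :=
    H.cj_shift hN hq (fun i => by linarith) hu2 hk₁'
  refine ⟨S.op k (S.cj u k₁), ?_, S.op u u₁, ?_, ?_⟩
  · refine H.op_shift (Z := fun i => Z₁ i + 2 * a) hN hq (fun i => by linarith) ?_ hcj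
    exact BZ_mono (fun i => by linarith) le_rfl hk0
  · exact H.op_shift (hN.rst w) le_rfl (fun i => le_rfl) hu0 hu₁
  · rw [S.assoc k u, ← S.assoc u k₁ u₁, S.op_eq_cj_op u k₁, S.assoc (S.cj u k₁), ← S.assoc k]

end BoxConst

end Star

/-! ### The sets `K_b(Z)` -/

/-- `K_b(Z)`: layer `l` has extents `Z + (l - 1) b` -/
noncomputable def KB (c : ℕ) (v : σ → L) (t : σ → ℝ) (b : ℝ) (Z : σ → ℝ) : Set L :=
  BZ c v (fun i => Z i + b * t i) (-b)

section KB

variable {t : σ → ℝ} {b b' : ℝ}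

theorem map_sum_aux (κ : List σ) (Z : σ → ℝ) (b : ℝ) (t : σ → ℝ) :
    (κ.map fun i => Z i + b * t i).sum = (κ.map Z).sum + b * (κ.map t).sum := by
  rw [sum_map_add κ Z (fun i => b * t i), sum_map_mul]

theorem BZ_subset_KB (ht : ∀ i, 1 ≤ t i) (hb : 0 ≤ b) : BZ c v Z 0 ⊆ KB c v t b Z :=
  BZ_le fun κ hκ _ _ => by
    rw [map_sum_aux]
    nlinarith [length_le_sum ht κ, one_le_length hκ]

theorem KB_subset (hb : 0 ≤ b) : KB c v t b Z ⊆ BZ c v (fun i => Z i + b * t i) 0 :=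
  BZ_mono (fun i => le_rfl) (by linarith)

/-- `K_b(Z) ⊆ N(Z + b' t)` if `(b - b') t(κ) ≤ b` for all monomials -/
theorem KB_subset_BZ
    (h : ∀ κ : List σ, κ ≠ [] → κ.length ≤ c → mon v κ ≠ 0 → (b - b') * (κ.map t).sum ≤ b) :
    KB c v t b Z ⊆ BZ c v (fun i => Z i + b' * t i) 0 :=
  BZ_le fun κ h1 h2 h3 => by
    rw [map_sum_aux, map_sum_aux]
    nlinarith [h κ h1 h2 h3]

theorem KB_mono_b (ht : ∀ i, 1 ≤ t i) (hb : b ≤ b') : KB c v t b Z ⊆ KB c v t b' Z :=
  BZ_le fun κ hκ _ _ => by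
    rw [map_sum_aux, map_sum_aux]
    nlinarith [length_le_sum ht κ, one_le_length hκ]

theorem KB_mono (hZ : ∀ i, Z i ≤ Z' i) : KB c v t b Z ⊆ KB c v t b Z' :=
  BZ_mono (fun i => by linarith [hZ i]) le_rfl

end KB

namespace Star

variable {S : Star L} {a : ℝ} {t : σ → ℝ} {b b' : ℝ} {w : σ → Prop} [DecidablePred w]

theorem BoxConst.KB_op (H : S.BoxConst c σ a) (hN : Nil c v) (hb : 0 ≤ b) {x y : L}
    (hx : x ∈ KB c v t b Z) (hy : y ∈ KB c v t b Z) :
    S.op x y ∈ KB c v t b (fun i => Z i + a) :=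
  H.op_shift hN (by linarith) (fun i => by linarith) hx hy

/-- `K_b(Z)` is normalised by `N(Z + b t)` -/
theorem BoxConst.KB_cj (H : S.BoxConst c σ a) (hN : Nil c v) (hb : 0 ≤ b) {x y : L}
    (hx : x ∈ BZ c v (fun i => Z i + b * t i) 0) (hy : y ∈ KB c v t b Z) :
    S.cj x y ∈ KB c v t b (fun i => Z i + a) :=
  H.cj_shift hN (by linarith) (fun i => by linarith) hx hy

/-- the shape `Z + b' e_w` -/
noncomputable def addw (Z t : σ → ℝ) (w : σ → Prop) [DecidablePred w] (b : ℝ) : σ → ℝ :=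
  fun i => Z i + if w i then b * t i else 0

omit [Fintype σ] in
theorem addw_hyp (ht : ∀ i, 1 ≤ t i) (hb' : 0 ≤ b') (hb : b' ≤ b) (κ : List σ)
    (h : ¬ ∀ i ∈ κ, w i) :
    (κ.map (addw Z t w b')).sum ≤ -b + (κ.map fun i => Z i + b * t i).sum := by
  have h0 : ∀ κ : List σ, (κ.map (addw Z t w b')).sum ≤ (κ.map fun i => Z i + b * t i).sum := by
    intro κ
    induction κ with
    | nil => simp
    | cons i κ ih =>
      simp only [List.map_cons, List.sum_cons]
      have : addw Z t w b' i ≤ Z i + b * t i := by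
        unfold addw
        split_ifs
        · nlinarith [ht i]
        · nlinarith [ht i]
      linarith
  induction κ with
  | nil => simp at h
  | cons i κ ih =>
    simp only [List.map_cons, List.sum_cons]
    by_cases hi : w i
    · have h1 : ¬ ∀ j ∈ κ, w j := fun h' => h (List.forall_mem_cons.2 ⟨hi, h'⟩)
      have h2 : addw Z t w b' i ≤ Z i + b * t i := by
        unfold addw; rw [if_pos hi]; nlinarith [ht i]
      linarith [ih h1]
    · have h2 : addw Z t w b' i = Z i := by unfold addw; rw [if_neg hi, add_zero]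
      have h3 := h0 κ
      rw [h2]
      nlinarith [ht i]

/-- `N(Z + b' e_w) ⊆ K_b(Z) · U_w(Z + b' t)`, `0 ≤ b' ≤ b` -/
theorem BoxConst.KB_factor (H : S.BoxConst c σ a) (hN : Nil c v) (ht : ∀ i, 1 ≤ t i)
    (hb' : 0 ≤ b') (hb : b' ≤ b) {x : L} (hx : x ∈ BZ c v (addw Z t w b') 0) :
    ∃ k ∈ KB c v t b (fun i => Z i + a), ∃ u ∈ BZ c (rst v w) (fun i => Z i + b' * t i) 0,
      x = S.op k u := by
  obtain ⟨k, hk, u, hu, h⟩ := H.factor (w := w) (q := -b) (Z₁ := fun i => Z i + b * t i)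
    (Z₂ := fun i => Z i + b' * t i) hN (by linarith)
    (fun i hi => by unfold addw; rw [if_pos hi]) (fun i _ => by nlinarith [ht i])
    (fun κ _ _ _ h => addw_hyp ht hb' hb κ h) hx
  exact ⟨k, BZ_shift H.nonneg (fun i => by linarith) hk, u, hu, h⟩

/-- `K_b(Z) · U_w(Z + b' t) · N(Z + b' e_w) ⊆ K_b(Z + 3a) · U_w(Z + b' t + a)` -/
theorem BoxConst.KB_S_op (H : S.BoxConst c σ a) (hN : Nil c v) (ht : ∀ i, 1 ≤ t i)
    (hb' : 0 ≤ b') (hb : b' ≤ b) {k u n : L} (hk : k ∈ KB c v t b Z)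
    (hu : u ∈ BZ c (rst v w) (fun i => Z i + b' * t i) 0) (hn : n ∈ BZ c v (addw Z t w b') 0) :
    ∃ k' ∈ KB c v t b (fun i => Z i + 3 * a),
      ∃ u' ∈ BZ c (rst v w) (fun i => Z i + b' * t i + a) 0, S.op (S.op k u) n = S.op k' u' := by
  obtain ⟨k', hk', u', hu', h⟩ := H.S_op (w := w) (q := -b) (Z₁ := fun i => Z i + b * t i)
    (Z₂ := fun i => Z i + b' * t i) (Z₃ := addw Z t w b') hN (by linarith)
    (fun i hi => by unfold addw; rw [if_pos hi]) (fun i _ => by nlinarith [ht i])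
    (fun κ _ _ _ h => addw_hyp ht hb' hb κ h) hk hu hn
  exact ⟨k', BZ_mono (fun i => by linarith) le_rfl hk', u', hu', h⟩

end Star

end Crest.Agent.R182.Nb
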