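/-
R182, module CONV (helper89): the exponent functional of nilpotent boxes.
`Gt X = max_{n ∈ B} ∑ i, n i * X i`, a maximum of finitely many linear functions with coefficients `≥ 1`
which vanish on all `(l i v)_i`.
-/
import Mathlib

set_option autoImplicit false

namespace Crest.Agent.R182.Conv

open Finset

variable {ι : Type*} [Fintype ι] {E : Type*} [AddCommGroup E] [Module ℝ E]

/-- generating weights together with the finite set of multiplicity vectors of monomial bases. -/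
structure GenSys (ι : Type*) [Fintype ι] (E : Type*) [AddCommGroup E] [Module ℝ E] where
  l : ι → E →ₗ[ℝ] ℝ
  B : Finset (ι → ℕ)
  ne : B.Nonempty
  one_le : ∀ n ∈ B, ∀ i, 1 ≤ n i
  tr : ∀ n ∈ B, ∀ v, ∑ i, (n i : ℝ) * l i v = 0
  sep : ∀ v, (∀ i, l i v = 0) → v = 0

namespace GenSys

variable (S : GenSys ι E)

/-- the exponent functional -/
noncomputable def Gt (X : ι → ℝ) : ℝ := S.B.sup' S.ne (fun n => ∑ i, (n i : ℝ) * X i)

theorem le_Gt {n : ι → ℕ} (hn : n ∈ S.B) (X : ι → ℝ) : ∑ i, (n i : ℝ) * X i ≤ S.Gt X :=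
  Finset.le_sup' (fun n => ∑ i, (n i : ℝ) * X i) hn

theorem exists_Gt (X : ι → ℝ) : ∃ n ∈ S.B, S.Gt X = ∑ i, (n i : ℝ) * X i := by
  obtain ⟨n, hn, h⟩ := Finset.exists_mem_eq_sup' S.ne (fun n => ∑ i, (n i : ℝ) * X i)
  exact ⟨n, hn, h⟩

theorem Gt_le {X : ι → ℝ} {a : ℝ} (h : ∀ n ∈ S.B, ∑ i, (n i : ℝ) * X i ≤ a) : S.Gt X ≤ a := by
  obtain ⟨n, hn, h'⟩ := S.exists_Gt X
  rw [h']; exact h n hn

theorem Gt_mono {X Y : ι → ℝ} (h : ∀ i, X i ≤ Y i) : S.Gt X ≤ S.Gt Y := by
  refine S.Gt_le fun n hn => le_trans ?_ (S.le_Gt hn Y)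
  exact Finset.sum_le_sum fun i _ => mul_le_mul_of_nonneg_left (h i) (Nat.cast_nonneg _)

theorem Gt_add_le (X Y : ι → ℝ) : S.Gt (fun i => X i + Y i) ≤ S.Gt X + S.Gt Y := by
  refine S.Gt_le fun n hn => ?_
  have : ∑ i, (n i : ℝ) * (X i + Y i) = ∑ i, (n i : ℝ) * X i + ∑ i, (n i : ℝ) * Y i := by
    rw [← Finset.sum_add_distrib]; exact Finset.sum_congr rfl fun i _ => by ring
  rw [this]
  exact add_le_add (S.le_Gt hn X) (S.le_Gt hn Y)

theorem Gt_smul {c : ℝ} (hc : 0 ≤ c) (X : ι → ℝ) : S.Gt (fun i => c * X i) = c * S.Gt X := by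
  apply le_antisymm
  · refine S.Gt_le fun n hn => ?_
    have : ∑ i, (n i : ℝ) * (c * X i) = c * ∑ i, (n i : ℝ) * X i := by
      rw [Finset.mul_sum]; exact Finset.sum_congr rfl fun i _ => by ring
    rw [this]
    exact mul_le_mul_of_nonneg_left (S.le_Gt hn X) hc
  · obtain ⟨n, hn, h⟩ := S.exists_Gt X
    rw [h]
    have : c * ∑ i, (n i : ℝ) * X i = ∑ i, (n i : ℝ) * (c * X i) := by
      rw [Finset.mul_sum]; exact Finset.sum_congr rfl fun i _ => by ring
    rw [this]
    exact S.le_Gt hn _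

theorem Gt_zero : S.Gt (fun _ => 0) = 0 := by
  have := S.Gt_smul (c := 0) le_rfl (fun _ => 0)
  simpa using this

/-- translation invariance (unimodularity) -/
theorem Gt_add_l (X : ι → ℝ) (v : E) : S.Gt (fun i => X i + S.l i v) = S.Gt X := by
  apply le_antisymm
  · refine S.Gt_le fun n hn => ?_
    have : ∑ i, (n i : ℝ) * (X i + S.l i v) = ∑ i, (n i : ℝ) * X i := by
      have h1 : ∑ i, (n i : ℝ) * (X i + S.l i v)
          = ∑ i, (n i : ℝ) * X i + ∑ i, (n i : ℝ) * S.l i v := by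
        rw [← Finset.sum_add_distrib]; exact Finset.sum_congr rfl fun i _ => by ring
      rw [h1, S.tr n hn v, add_zero]
    rw [this]; exact S.le_Gt hn X
  · obtain ⟨n, hn, h⟩ := S.exists_Gt X
    rw [h]
    have : ∑ i, (n i : ℝ) * X i = ∑ i, (n i : ℝ) * (X i + S.l i v) := by
      have h1 : ∑ i, (n i : ℝ) * (X i + S.l i v)
          = ∑ i, (n i : ℝ) * X i + ∑ i, (n i : ℝ) * S.l i v := by
        rw [← Finset.sum_add_distrib]; exact Finset.sum_congr rfl fun i _ => by ring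
      rw [h1, S.tr n hn v, add_zero]
    rw [this]
    exact S.le_Gt hn _

/-- strict monotonicity in every coordinate -/
theorem Gt_add_ge (X Y : ι → ℝ) (hY : ∀ i, 0 ≤ Y i) :
    S.Gt X + ∑ i, Y i ≤ S.Gt (fun i => X i + Y i) := by
  obtain ⟨n, hn, h⟩ := S.exists_Gt X
  refine le_trans ?_ (S.le_Gt hn _)
  rw [h, ← Finset.sum_add_distrib]
  refine Finset.sum_le_sum fun i _ => ?_
  have : (1 : ℝ) ≤ n i := by exact_mod_cast S.one_le n hn i
  nlinarith [hY i]

/-- equality analysis for unions -/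
theorem Gt_sup_le (X Y : ι → ℝ) (hX : ∀ i, 0 ≤ X i) (hY : ∀ i, 0 ≤ Y i) :
    S.Gt (fun i => max (X i) (Y i)) + ∑ i, min (X i) (Y i) ≤ S.Gt X + S.Gt Y := by
  have h1 := S.Gt_add_ge (fun i => max (X i) (Y i)) (fun i => min (X i) (Y i))
    (fun i => le_min (hX i) (hY i))
  have h2 : (fun i => max (X i) (Y i) + min (X i) (Y i)) = fun i => X i + Y i := by
    funext i; exact max_add_min _ _
  rw [h2] at h1
  exact h1.trans (S.Gt_add_le X Y)

/-- the Lipschitz constant -/
noncomputable def Lip : ℝ := S.B.sup' S.ne (fun n => ∑ i, (n i : ℝ))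

theorem Lip_nonneg : 0 ≤ S.Lip := by
  obtain ⟨n, hn⟩ := S.ne
  refine le_trans ?_ (Finset.le_sup' (fun n : ι → ℕ => ∑ i, (n i : ℝ)) hn)
  exact Finset.sum_nonneg fun i _ => Nat.cast_nonneg _

theorem Gt_le_add {X Y : ι → ℝ} {a : ℝ} (ha : 0 ≤ a) (h : ∀ i, X i ≤ Y i + a) :
    S.Gt X ≤ S.Gt Y + S.Lip * a := by
  refine S.Gt_le fun n hn => ?_
  have h1 : ∑ i, (n i : ℝ) * X i ≤ ∑ i, (n i : ℝ) * Y i + (∑ i, (n i : ℝ)) * a := by
    rw [Finset.sum_mul, ← Finset.sum_add_distrib]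
    refine Finset.sum_le_sum fun i _ => ?_
    have : (0 : ℝ) ≤ n i := Nat.cast_nonneg _
    nlinarith [h i]
  have h2 : (∑ i, (n i : ℝ)) ≤ S.Lip := Finset.le_sup' (fun n : ι → ℕ => ∑ i, (n i : ℝ)) hn
  have h3 := S.le_Gt hn Y
  nlinarith

theorem sum_le_Gt (X : ι → ℝ) (hX : ∀ i, 0 ≤ X i) : ∑ i, X i ≤ S.Gt X := by
  have := S.Gt_add_ge (fun _ => 0) X hX
  rw [S.Gt_zero] at this
  simpa using this

/-! ### the norm `g` -/

/-- the exponent of the segment `[0, x]` -/
noncomputable def g (x : E) : ℝ := S.Gt (fun i => max (S.l i x) 0)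

theorem g_nonneg (x : E) : 0 ≤ S.g x :=
  le_trans (Finset.sum_nonneg fun _ _ => le_max_right _ _)
    (S.sum_le_Gt _ fun _ => le_max_right _ _)

theorem g_neg (x : E) : S.g (-x) = S.g x := by
  have h : (fun i => max (S.l i (-x)) 0) = fun i => max (S.l i x) 0 + S.l i (-x) := by
    funext i
    rw [map_neg]
    rcases le_total (S.l i x) 0 with h | h
    · rw [max_eq_left (by linarith), max_eq_right h]; ring
    · rw [max_eq_right (by linarith), max_eq_left h]; ring
  unfold g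
  rw [h, S.Gt_add_l]

/-- subadditivity with the cancellation term -/
theorem g_add_le' (x y : E) : S.g (x + y)
    + ∑ i, (max (S.l i x) 0 + max (S.l i y) 0 - max (S.l i x + S.l i y) 0) ≤ S.g x + S.g y := by
  have h0 : ∀ i, 0 ≤ max (S.l i x) 0 + max (S.l i y) 0 - max (S.l i x + S.l i y) 0 := by
    intro i
    have : max (S.l i x + S.l i y) 0 ≤ max (S.l i x) 0 + max (S.l i y) 0 :=
      max_le (add_le_add (le_max_left _ _) (le_max_left _ _))
        (add_nonneg (le_max_right _ _) (le_max_right _ _))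
    linarith
  have h1 := S.Gt_add_ge (fun i => max (S.l i x + S.l i y) 0) _ h0
  have h2 := S.Gt_add_le (fun i => max (S.l i x) 0) (fun i => max (S.l i y) 0)
  have h3 : (fun i => max (S.l i x + S.l i y) 0
      + (max (S.l i x) 0 + max (S.l i y) 0 - max (S.l i x + S.l i y) 0))
      = fun i => max (S.l i x) 0 + max (S.l i y) 0 := by funext i; ring
  have h4 : S.g (x + y) = S.Gt (fun i => max (S.l i x + S.l i y) 0) := by
    unfold g; congr 1; funext i; rw [map_add]
  rw [h3] at h1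
  rw [h4]
  unfold g
  linarith

theorem g_add_le (x y : E) : S.g (x + y) ≤ S.g x + S.g y := by
  have h := S.g_add_le' x y
  have h0 : 0 ≤ ∑ i, (max (S.l i x) 0 + max (S.l i y) 0 - max (S.l i x + S.l i y) 0) := by
    refine Finset.sum_nonneg fun i _ => ?_
    have : max (S.l i x + S.l i y) 0 ≤ max (S.l i x) 0 + max (S.l i y) 0 :=
      max_le (add_le_add (le_max_left _ _) (le_max_left _ _))
        (add_nonneg (le_max_right _ _) (le_max_right _ _))
    linarith
  linarith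

theorem g_smul_of_nonneg {c : ℝ} (hc : 0 ≤ c) (x : E) : S.g (c • x) = c * S.g x := by
  unfold g
  rw [← S.Gt_smul hc]
  congr 1
  funext i
  rw [map_smul, smul_eq_mul, mul_max_of_nonneg _ _ hc, mul_zero]

theorem g_smul (c : ℝ) (x : E) : S.g (c • x) = |c| * S.g x := by
  rcases le_total 0 c with h | h
  · rw [abs_of_nonneg h]; exact S.g_smul_of_nonneg h x
  · rw [abs_of_nonpos h, ← S.g_smul_of_nonneg (by linarith : (0:ℝ) ≤ -c) x, neg_smul, S.g_neg]

theorem g_zero : S.g 0 = 0 := by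
  have := S.g_smul 0 0
  simpa using this

theorem abs_l_le_g (i : ι) (x : E) : |S.l i x| ≤ S.g x := by
  have h : ∀ y, max (S.l i y) 0 ≤ S.g y := fun y =>
    le_trans (Finset.single_le_sum (f := fun i => max (S.l i y) 0)
      (fun j _ => le_max_right _ _) (Finset.mem_univ i)) (S.sum_le_Gt _ fun _ => le_max_right _ _)
  rw [abs_le]
  constructor
  · have h1 := h (-x)
    rw [S.g_neg, map_neg] at h1
    have := (le_max_left (-(S.l i x)) 0).trans h1
    linarith
  · exact (le_max_left _ _).trans (h x)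

theorem eq_zero_of_g_eq_zero {x : E} (h : S.g x = 0) : x = 0 := by
  refine S.sep x fun i => ?_
  have := S.abs_l_le_g i x
  rw [h] at this
  exact abs_nonpos_iff.1 this

end GenSys

end Crest.Agent.R182.Conv
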