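/-
R182, module NILBOX (helper89): the generating system of a `BModel` and the determinant bounds.
-/
import Mathlib
import Crest.Agent.R182.NbVol
import Crest.Agent.R182.BoxGrp
import Crest.Agent.R182.ConvG
import Crest.Agent.R182.Core

set_option autoImplicit false
set_option linter.unusedSectionVars false

namespace Crest.Agent.R182.Nb

open Finset Module Crest.Agent.R182.Core

section abstract

variable {L : Type*} [LieRing L] [LieAlgebra ℝ L] {σ : Type*}

/-- span of the long monomials -/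
def Ql (L : Type*) [LieRing L] [LieAlgebra ℝ L] (k : ℕ) : Submodule ℝ L :=
  Submodule.span ℝ {z | ∃ κ : List L, k < κ.length ∧ z = mon id κ}

theorem Ql_zero : Ql L 0 = ⊤ := by
  rw [eq_top_iff]
  intro x _
  exact Submodule.subset_span ⟨[x], by simp, rfl⟩

theorem Ql_eq_bot {c : ℕ} (hL : NilC c L) : Ql L c = ⊥ := by
  rw [eq_bot_iff]
  refine Submodule.span_le.mpr ?_
  rintro _ ⟨κ, hκ, rfl⟩
  exact hL κ hκ

theorem lie_mem_Ql {k : ℕ} (x : L) {y : L} (hy : y ∈ Ql L k) : ⁅x, y⁆ ∈ Ql L (k + 1) := by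
  induction hy using Submodule.span_induction with
  | mem y hy =>
    obtain ⟨κ, hκ, rfl⟩ := hy
    have hne : κ ≠ [] := by rintro rfl; simp at hκ
    exact Submodule.subset_span ⟨x :: κ, by simpa using hκ, by rw [mon_cons _ _ hne]; rfl⟩
  | zero => rw [lie_zero]; exact Submodule.zero_mem _
  | add a b _ _ h h' => rw [lie_add]; exact Submodule.add_mem _ h h'
  | smul r a _ h => rw [lie_smul]; exact Submodule.smul_mem _ _ h

theorem lie_mem_Ql' {k : ℕ} (x : L) {y : L} (hy : y ∈ Ql L k) : ⁅y, x⁆ ∈ Ql L (k + 1) := by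
  rw [← lie_skew]
  exact Submodule.neg_mem _ (lie_mem_Ql x hy)

/-- span of the monomials in a family -/
def Pm (v : σ → L) : Submodule ℝ L := Submodule.span ℝ (Set.range fun κ : List σ => mon v κ)

theorem lie_mem_Pm (v : σ → L) {x y : L} (hx : x ∈ Pm v) (hy : y ∈ Pm v) : ⁅x, y⁆ ∈ Pm v := by
  -- evaluate Lie polynomials at `v`
  have key : ∀ x ∈ Pm v, ∃ f ∈ LP σ L, f v = x := by
    intro x hx
    induction hx using Submodule.span_induction with
    | mem x hx => obtain ⟨κ, rfl⟩ := hx; exact ⟨_, LP.of_mon κ, rfl⟩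
    | zero => exact ⟨0, Submodule.zero_mem _, rfl⟩
    | add a b _ _ h h' =>
      obtain ⟨f, hf, rfl⟩ := h
      obtain ⟨g, hg, rfl⟩ := h'
      exact ⟨f + g, Submodule.add_mem _ hf hg, rfl⟩
    | smul r a _ h =>
      obtain ⟨f, hf, rfl⟩ := h
      exact ⟨r • f, Submodule.smul_mem _ _ hf, rfl⟩
  have key' : ∀ f ∈ LP σ L, f v ∈ Pm v := by
    intro f hf
    induction hf using Submodule.span_induction with
    | mem f hf => obtain ⟨κ, rfl⟩ := hf; exact Submodule.subset_span ⟨κ, rfl⟩
    | zero => exact Submodule.zero_mem _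
    | add f g _ _ h h' => exact Submodule.add_mem _ h h'
    | smul r f _ h => exact Submodule.smul_mem _ _ h
  obtain ⟨f, hf, rfl⟩ := key x hx
  obtain ⟨g, hg, rfl⟩ := key y hy
  exact key' _ (LP.lie hf hg)

/-- monomials in a family which generates modulo brackets span -/
theorem Pm_eq_top {c : ℕ} (hL : NilC c L) (v : σ → L)
    (h : (⊤ : Submodule ℝ L) ≤ Pm v ⊔ Submodule.span ℝ {z | ∃ x y : L, z = ⁅x, y⁆}) :
    Pm v = ⊤ := by
  have key : ∀ k, (⊤ : Submodule ℝ L) ≤ Pm v ⊔ Ql L k := by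
    intro k
    induction k with
    | zero => rw [Ql_zero]; exact le_sup_right
    | succ k ih =>
      refine h.trans (sup_le le_sup_left ?_)
      refine Submodule.span_le.mpr ?_
      rintro _ ⟨x, y, rfl⟩
      obtain ⟨p, hp, u, hu, rfl⟩ := Submodule.mem_sup.mp (ih (Submodule.mem_top (x := x)))
      obtain ⟨q, hq, w, hw, rfl⟩ := Submodule.mem_sup.mp (ih (Submodule.mem_top (x := y)))
      have e : ⁅p + u, q + w⁆ = ⁅p, q⁆ + (⁅p, w⁆ + ⁅u, q + w⁆) := by
        rw [add_lie, lie_add p]; abel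
      rw [e]
      exact Submodule.add_mem_sup (lie_mem_Pm v hp hq)
        (Submodule.add_mem _ (lie_mem_Ql p hw) (lie_mem_Ql' (q + w) hu))
  have := key c
  rw [Ql_eq_bot hL, sup_bot_eq] at this
  exact top_le_iff.mp this

/-- a tuple of monomials which is a basis -/
theorem exists_tup [Fintype σ] {c r : ℕ} (hL : NilC c L) (b : Basis (Fin r) ℝ L) (v : σ → L)
    (h : Pm v = ⊤) : ∃ κ : Tup σ c r, dt b v κ ≠ 0 := by
  set s : Set L := Set.range fun κ : KL σ c => mon v (κ : List σ) with hs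
  have hspan : ⊤ ≤ Submodule.span ℝ s := by
    rw [← h]
    refine Submodule.span_le.mpr ?_
    rintro _ ⟨κ, rfl⟩
    by_cases hκ : κ ∈ KL σ c
    · exact Submodule.subset_span ⟨⟨κ, hκ⟩, rfl⟩
    · have : mon v κ = 0 := hL.nil v κ (by rw [mem_KL] at hκ; omega)
      simp only [this]
      exact Submodule.zero_mem _
  set B₀ := Basis.ofSpan hspan with hB₀
  have hfin := (B₀.indexEquiv b)
  set B := B₀.reindex hfin with hB
  have hmem : ∀ k, ∃ κ : KL σ c, mon v (κ : List σ) = B k := by
    intro k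
    have h1 : B k ∈ s := by
      rw [hB, Basis.reindex_apply]
      exact Basis.ofSpan_subset hspan ⟨_, rfl⟩
    exact h1
  choose κ hκ using hmem
  refine ⟨κ, ?_⟩
  have e : (fun k => mon v (κ k : List σ)) = B := funext hκ
  rw [dt, e]
  exact (b.isUnit_det B).ne_zero

theorem MD_pos_of [Fintype σ] {c r : ℕ} {b : Basis (Fin r) ℝ L} {v : σ → L} {κ : Tup σ c r}
    (h : dt b v κ ≠ 0) : 0 < MD b c v :=
  lt_of_lt_of_le (abs_pos.mpr h) (le_MD κ)

/-- multiplicities of the letters in a tuple -/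
def cnt [Fintype σ] [DecidableEq σ] {c r : ℕ} (κ : Tup σ c r) (i : σ) : ℕ :=
  ∑ k, (κ k : List σ).count i

theorem one_le_cnt [Fintype σ] [DecidableEq σ] {c r : ℕ} (κ : Tup σ c r) (i : σ) (l : Fin r)
    (h : (κ l : List σ) = [i]) : 1 ≤ cnt κ i := by
  have h3 : 1 ≤ (κ l : List σ).count i := by rw [h]; simp
  exact h3.trans (Finset.single_le_sum (f := fun l => (κ l : List σ).count i)
    (fun _ _ => Nat.zero_le _) (Finset.mem_univ l))

theorem prod_map_eq [Fintype σ] [DecidableEq σ] (a : σ → ℝ) (κ : List σ) :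
    (κ.map a).prod = ∏ i, a i ^ κ.count i := by
  rw [Finset.prod_list_map_count]
  refine Finset.prod_subset (Finset.subset_univ _) fun i _ hi => ?_
  have : κ.count i = 0 := List.count_eq_zero.mpr fun h => hi (List.mem_toFinset.mpr h)
  rw [this, pow_zero]

theorem sum_map_eq [Fintype σ] [DecidableEq σ] {E : Type*} [AddCommGroup E] [Module ℝ E]
    (a : σ → E) (κ : List σ) : (κ.map a).sum = ∑ i, (κ.count i : ℝ) • a i := by
  induction κ with
  | nil => simp
  | cons j κ ih =>
    rw [List.map_cons, List.sum_cons, ih]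
    have : ∀ i, (((j :: κ).count i : ℕ) : ℝ) • a i =
        (if i = j then a j else 0) + (κ.count i : ℝ) • a i := by
      intro i
      rw [List.count_cons]
      by_cases h : i = j
      · subst h
        simp [add_smul, add_comm]
      · have : ¬ (j == i) = true := by simpa using Ne.symm h
        simp [this, h]
    simp only [this, Finset.sum_add_distrib]
    simp

/-- scaled families -/
theorem dt_smul [Fintype σ] [DecidableEq σ] {c r : ℕ} (b : Basis (Fin r) ℝ L) (a : σ → ℝ)
    (v : σ → L) (κ : Tup σ c r) :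
    dt b (fun i => a i • v i) κ = (∏ i, a i ^ cnt κ i) * dt b v κ := by
  rw [dt]
  simp only [mon_smul_fam]
  have h1 := b.det.toMultilinearMap.map_smul_univ (fun k => ((κ k : List σ).map a).prod)
    (fun k => mon v (κ k : List σ))
  have h2 : b.det (fun k => ((κ k : List σ).map a).prod • mon v (κ k : List σ)) =
      (∏ k, ((κ k : List σ).map a).prod) • dt b v κ := h1
  rw [h2, smul_eq_mul]
  congr 1
  simp only [prod_map_eq]
  rw [Finset.prod_comm]
  refine Finset.prod_congr rfl fun i _ => ?_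
  rw [cnt, Finset.prod_pow_eq_pow_sum]

theorem cnt_sum_le [Fintype σ] [DecidableEq σ] {c r : ℕ} (κ : Tup σ c r) :
    ∑ i, cnt κ i ≤ c * r := by
  have h1 : ∀ κ : List σ, ∑ i, κ.count i = κ.length := by
    intro κ
    induction κ with
    | nil => simp
    | cons j κ ih =>
      rw [List.length_cons, ← ih]
      have : ∀ i, (j :: κ).count i = κ.count i + (if i = j then 1 else 0) := by
        intro i
        rw [List.count_cons]
        by_cases h : i = j
        · subst h; simp
        · have : ¬ (j == i) = true := by simpa using Ne.symm h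
          simp [this, h]
      simp only [this, Finset.sum_add_distrib]
      simp
  unfold cnt
  rw [Finset.sum_comm]
  simp only [h1]
  calc ∑ k : Fin r, (κ k : List σ).length ≤ ∑ _k : Fin r, c :=
        Finset.sum_le_sum fun k _ => mem_KL.mp (κ k).2
    _ = c * r := by simp [mul_comm]

/-- the multiplicity vectors of the monomial bases -/
noncomputable def BB [Fintype σ] [DecidableEq σ] (c : ℕ) {r : ℕ} (b : Basis (Fin r) ℝ L)
    (v : σ → L) : Finset (σ → ℕ) :=
  open Classical in (Finset.univ.filter fun κ : Tup σ c r => dt b v κ ≠ 0).image cnt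

theorem mem_BB [Fintype σ] [DecidableEq σ] {c r : ℕ} {b : Basis (Fin r) ℝ L} {v : σ → L}
    {n : σ → ℕ} : n ∈ BB c b v ↔ ∃ κ : Tup σ c r, dt b v κ ≠ 0 ∧ cnt κ = n := by
  classical
  unfold BB
  rw [Finset.mem_image]
  simp

end abstract

section model

variable {Γ : Type*} [Group Γ] {k : ℕ} {S : Set Γ} {π : Γ →* Multiplicative (Fin k → ℤ)}
  (M : BModel S π)

/-- the generating letters -/
abbrev GI : Type := {i // i ∈ M.gen}

/-- the generating family -/
noncomputable def eg (i : GI M) : M.L := M.bas i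

/-- the weights of the generating letters -/
noncomputable def wg (i : GI M) : (Fin k → ℝ) →ₗ[ℝ] ℝ := M.wt i

theorem repr_bas_lie (z : M.L) (i l : Fin M.r) :
    M.bas.repr ⁅M.bas i, z⁆ l = ∑ j, M.bas.repr z j * M.bas.repr ⁅M.bas i, M.bas j⁆ l := by
  conv_lhs => rw [← M.bas.sum_repr z]
  rw [lie_sum, map_sum, Finsupp.finsetSum_apply]
  refine Finset.sum_congr rfl fun j _ => ?_
  rw [lie_smul, map_smul, Finsupp.smul_apply, smul_eq_mul]

/-- monomials are weight vectors -/
theorem mon_wt {σ : Type*} (v : σ → Fin M.r) (κ : List σ) (l : Fin M.r)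
    (h : M.bas.repr (mon (fun i => M.bas (v i)) κ) l ≠ 0) :
    M.wt l = (κ.map fun i => M.wt (v i)).sum := by
  induction κ generalizing l with
  | nil => simp at h
  | cons i κ ih =>
    by_cases hκ : κ = []
    · subst hκ
      rw [mon_single, Basis.repr_self, Finsupp.single_apply] at h
      have : v i = l := by by_contra hne; simp [hne] at h
      simp [this]
    · rw [mon_cons _ i hκ, repr_bas_lie] at h
      obtain ⟨j, _, hj⟩ := Finset.exists_ne_zero_of_sum_ne_zero h
      have h1 := ih j (left_ne_zero_of_mul hj)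
      have h2 := M.lie_wt _ _ _ (right_ne_zero_of_mul hj)
      rw [h2, h1, List.map_cons, List.sum_cons]

/-- the monomials in the generating letters span -/
theorem span_mon : Pm (eg M) = ⊤ := by
  refine Pm_eq_top M.nilC _ ?_
  rw [← M.bas.span_eq]
  refine Submodule.span_le.mpr ?_
  rintro _ ⟨i, rfl⟩
  by_cases hi : i ∈ M.gen
  · exact Submodule.mem_sup_left (Submodule.subset_span ⟨[⟨i, hi⟩], rfl⟩)
  · exact Submodule.mem_sup_right (M.gen_span i hi)

theorem exists_tup_eg : ∃ κ : Tup (GI M) M.c M.r, dt M.bas (eg M) κ ≠ 0 :=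
  exists_tup M.nilC M.bas _ (span_mon M)

/-- generating coordinates of a monomial -/
theorem coord_mon (i : GI M) (κ : List (GI M)) (h : M.bas.repr (mon (eg M) κ) i ≠ 0) : κ = [i] := by
  rcases κ with _ | ⟨j, κ⟩
  · simp at h
  · by_cases hκ : κ = []
    · subst hκ
      rw [mon_single] at h
      change M.bas.repr (M.bas j) i ≠ 0 at h
      rw [Basis.repr_self, Finsupp.single_apply] at h
      have : (j : Fin M.r) = i := by by_contra hne; simp [hne] at h
      rw [Subtype.ext this]
    · exfalso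
      rw [mon_cons _ j hκ] at h
      exact h (M.lie_gen _ _ i i.2)

theorem sum_wt_tup {κ : Tup (GI M) M.c M.r} (h : dt M.bas (eg M) κ ≠ 0) :
    ∑ l, ((κ l : List (GI M)).map (wg M)).sum = 0 := by
  rw [dt, Basis.det_apply, Matrix.det_apply'] at h
  obtain ⟨τ, _, hτ⟩ := Finset.exists_ne_zero_of_sum_ne_zero h
  have h1 := right_ne_zero_of_mul hτ
  rw [Finset.prod_ne_zero_iff] at h1
  have h2 : ∀ l, M.wt (τ l) = ((κ l : List (GI M)).map (wg M)).sum := by
    intro l
    have h3 := h1 l (Finset.mem_univ l)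
    rw [Basis.toMatrix_apply] at h3
    exact mon_wt M (fun i : GI M => (i : Fin M.r)) (κ l) (τ l) h3
  rw [← M.tr, ← Equiv.sum_comp τ M.wt]
  exact Finset.sum_congr rfl fun l _ => (h2 l).symm

/-- **the generating system of the model** -/
noncomputable def gsys : Conv.GenSys (GI M) (Fin k → ℝ) where
  l := wg M
  B := BB M.c M.bas (eg M)
  ne := by
    obtain ⟨κ, hκ⟩ := exists_tup_eg M
    exact ⟨cnt κ, mem_BB.mpr ⟨κ, hκ, rfl⟩⟩
  one_le := by
    intro n hn i
    obtain ⟨κ, hκ, rfl⟩ := mem_BB.mp hn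
    -- some monomial of the basis has a nonzero `i`-coordinate
    have h1 : ∃ l, M.bas.repr (mon (eg M) (κ l : List (GI M))) i ≠ 0 := by
      by_contra hcon
      push Not at hcon
      apply hκ
      rw [dt, Basis.det_apply]
      refine Matrix.det_eq_zero_of_row_eq_zero (i : Fin M.r) fun l => ?_
      rw [Basis.toMatrix_apply]
      exact hcon l
    obtain ⟨l, hl⟩ := h1
    have h2 := coord_mon M i _ hl
    exact one_le_cnt κ i l h2
  tr := by
    intro n hn v
    obtain ⟨κ, hκ, rfl⟩ := mem_BB.mp hn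
    have h1 := sum_wt_tup M hκ
    simp only [sum_map_eq] at h1
    rw [Finset.sum_comm] at h1
    have h2 := congrArg (fun f : (Fin k → ℝ) →ₗ[ℝ] ℝ => f v) h1
    simp only [LinearMap.sum_apply, LinearMap.smul_apply, smul_eq_mul, LinearMap.zero_apply] at h2
    rw [← h2]
    refine Finset.sum_congr rfl fun i _ => ?_
    rw [cnt]; push_cast
    rw [Finset.sum_mul]
  sep := fun v hv => M.sep v fun i hi => hv ⟨i, hi⟩

/-- upper bound for the maximal determinant -/
theorem MD_scaled_le : ∃ C : ℝ, 0 < C ∧ ∀ (P : ℝ) (Z : GI M → ℝ), 1 ≤ P →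
    MD M.bas M.c (fun i => (P * Real.exp (Z i)) • eg M i) ≤
      C * P ^ (M.c * M.r) * Real.exp ((gsys M).Gt Z) := by
  obtain ⟨κ₀, hκ₀⟩ := exists_tup_eg M
  refine ⟨MD M.bas M.c (eg M), MD_pos_of hκ₀, fun P Z hP => MD_le fun κ => ?_⟩
  rw [dt_smul, abs_mul]
  by_cases h : dt M.bas (eg M) κ = 0
  · rw [h, abs_zero, mul_zero]
    have : 0 ≤ MD M.bas M.c (eg M) := MD_nonneg
    positivity
  · have h1 : |∏ i, (P * Real.exp (Z i)) ^ cnt κ i| ≤
        P ^ (M.c * M.r) * Real.exp ((gsys M).Gt Z) := by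
      rw [abs_of_pos (Finset.prod_pos fun i _ => by positivity)]
      have e1 : ∏ i, (P * Real.exp (Z i)) ^ cnt κ i =
          P ^ (∑ i, cnt κ i) * Real.exp (∑ i, (cnt κ i : ℝ) * Z i) := by
        simp only [mul_pow, Finset.prod_mul_distrib, Finset.prod_pow_eq_pow_sum]
        rw [Real.exp_sum]
        congr 1
        exact Finset.prod_congr rfl fun i _ => by rw [← Real.exp_nat_mul]
      rw [e1]
      have h2 := (gsys M).le_Gt (n := cnt κ) (mem_BB.mpr ⟨κ, h, rfl⟩) Z
      have h3 : P ^ (∑ i, cnt κ i) ≤ P ^ (M.c * M.r) := pow_le_pow_right₀ hP (cnt_sum_le κ)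
      exact mul_le_mul h3 (Real.exp_le_exp.mpr h2) (Real.exp_pos _).le (by positivity)
    have h2 := le_MD (b := M.bas) (c := M.c) (g := eg M) κ
    calc _ ≤ (P ^ (M.c * M.r) * Real.exp ((gsys M).Gt Z)) * MD M.bas M.c (eg M) := by gcongr
      _ = _ := by ring

/-- lower bound for the maximal determinant -/
theorem le_MD_scaled : ∃ C : ℝ, 0 < C ∧ ∀ (Z : GI M → ℝ),
    C * Real.exp ((gsys M).Gt Z) ≤ MD M.bas M.c (fun i => Real.exp (Z i) • eg M i) := by
  classical
  set T : Finset (Tup (GI M) M.c M.r) := Finset.univ.filter fun κ => dt M.bas (eg M) κ ≠ 0 with hT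
  have hTne : T.Nonempty := by
    obtain ⟨κ₀, hκ₀⟩ := exists_tup_eg M
    exact ⟨κ₀, by rw [hT, Finset.mem_filter]; exact ⟨Finset.mem_univ _, hκ₀⟩⟩
  refine ⟨T.inf' hTne fun κ => |dt M.bas (eg M) κ|, ?_, fun Z => ?_⟩
  · rw [Finset.lt_inf'_iff]
    intro κ hκ
    rw [hT, Finset.mem_filter] at hκ
    exact abs_pos.mpr hκ.2
  · obtain ⟨n, hn, h⟩ := (gsys M).exists_Gt Z
    obtain ⟨κ, hκ, rfl⟩ := mem_BB.mp hn
    have h1 : |dt M.bas (fun i => Real.exp (Z i) • eg M i) κ| =
        Real.exp ((gsys M).Gt Z) * |dt M.bas (eg M) κ| := by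
      rw [dt_smul, abs_mul, abs_of_pos (Finset.prod_pos fun i _ => by positivity), h, Real.exp_sum]
      congr 1
      exact Finset.prod_congr rfl fun i _ => by rw [← Real.exp_nat_mul]
    have h2 : T.inf' hTne (fun κ => |dt M.bas (eg M) κ|) ≤ |dt M.bas (eg M) κ| :=
      Finset.inf'_le _ (by rw [hT, Finset.mem_filter]; exact ⟨Finset.mem_univ _, hκ⟩)
    calc _ ≤ |dt M.bas (eg M) κ| * Real.exp ((gsys M).Gt Z) := by gcongr
      _ = |dt M.bas (fun i => Real.exp (Z i) • eg M i) κ| := by rw [h1]; ring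
      _ ≤ _ := le_MD κ

end model

end Crest.Agent.R182.Nb
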