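/-
R182, module D5 (helper860), part 4: constancy of the type from tiny zero-height moves and the
verticals; from the one-scale law to `CoreLawAll`.
-/
import Mathlib
import Crest.Agent.R182.OneScaleBG
import Crest.Agent.R182.BndCore

set_option autoImplicit false

namespace Crest.Agent.R182.OneScale

open Crest.GroupTheory Crest.Geometry Crest.Agent.R182.QI Crest.Agent.R182.FinPath
  Crest.Agent.R182.FinRed Crest.Agent.R182.Bnd Crest.Agent.R182.Core Crest.Agent.R182.Nb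

variable {Γ : Type*} [Group Γ] {k : ℕ} {S : Set Γ} {π : Γ →* Multiplicative (Fin k → ℤ)}

/-- `r` is tiny at scale `ρ`: a zero-height element which is moved only by `a` under the conjugation
by all elements of length `≤ ρ`. -/
def Tiny (M : BModel S π) (ρ : ℝ) (r : M.G) : Prop :=
  M.h r = 0 ∧ ∀ g, M.len g ≤ ρ → M.len (g⁻¹ * r * g) ≤ M.a

/-- a function which is invariant under tiny moves and under the verticals `b ∈ Bf` is constant if
the heights of `⟨Bf⟩` are everything. -/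
theorem const_of_tiny (M : BModel S π) {X : Type*} {F : M.G → X} {ρ : ℝ}
    (h1 : ∀ g r, Tiny M ρ r → F (g * r) = F g) {Bf : Set M.G}
    (h2 : ∀ g, ∀ b ∈ Bf, F (g * b) = F g)
    (hgen : ∀ g, ∃ w ∈ Subgroup.closure Bf, M.h w = M.h g) (g s : M.G) : F (g * s) = F g := by
  -- the subgroup of all invariant displacements
  let H : Subgroup M.G :=
    { carrier := {s | ∀ g, F (g * s) = F g}
      mul_mem' := fun {a b} ha hb g => by
        rw [← mul_assoc, hb, ha]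
      one_mem' := fun g => by rw [mul_one]
      inv_mem' := fun {a} ha g => by
        have h := ha (g * a⁻¹)
        rw [inv_mul_cancel_right] at h
        exact h.symm }
  have hB : Subgroup.closure Bf ≤ H := (Subgroup.closure_le H).2 fun b hb g => h2 g b hb
  obtain ⟨w, hw, hwg⟩ := hgen s
  have hs : s ∈ H := by
    have e1 : s = w * (w⁻¹ * s) := by group
    rw [e1]
    refine H.mul_mem (hB hw) ?_
    have h0 : M.h (w⁻¹ * s) = 0 := by rw [M.h_mul, h_inv, hwg, neg_add_cancel]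
    obtain ⟨l, hl, hlr⟩ := M.tiny ρ _ h0
    rw [hl]
    exact H.list_prod_mem fun r hr g => h1 g r (hlr r hr)
  exact hs g

/-- The law at one scale, with the type invariant only under tiny moves and verticals. -/
def OneScaleLaw' (M : BModel S π) (LL : Set ((Fin k → ℝ) →ₗ[ℝ] (Fin k → ℝ))) (c0 : ℝ)
    (K : ℕ) : Prop :=
  ∃ δ : ℝ, 0 < δ ∧ ∀ η : ℝ, 0 < η → ∃ Bf : Set M.G, Verts M c0 Bf ∧
    (∀ g, ∃ w ∈ Subgroup.closure Bf, M.h w = M.h g) ∧ ∃ n D ρ : ℝ,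
    (∀ b ∈ Bf, ‖M.h b‖ ≤ δ * n) ∧ ∀ Ψ : Γ → Γ, QIMap S S Ψ K →
      ∃ (θ : M.G → Fin k → ℝ) (Lx : M.G → (Fin k → ℝ) →ₗ[ℝ] (Fin k → ℝ)),
        (∀ g, Lx g ∈ LL) ∧
        (∀ g i, |θ g i - fh M Ψ g i| ≤ D) ∧
        (∀ g r, Tiny M ρ r → Lx (g * r) = Lx g) ∧
        (∀ g, ∀ b ∈ Bf, Lx (g * b) = Lx g) ∧
        ∀ g, ∀ b ∈ Bf, ∀ j : ℕ, j * ‖M.h b‖ ≤ δ * n → ∀ i,
          |θ (g * b ^ j) i - θ g i - Lx g (M.h (b ^ j)) i| ≤ η * n

theorem oneScaleLaw_of' {M : BModel S π} {LL : Set ((Fin k → ℝ) →ₗ[ℝ] (Fin k → ℝ))} {c0 : ℝ}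
    {K : ℕ} (h : OneScaleLaw' M LL c0 K) : OneScaleLaw M LL c0 K := by
  obtain ⟨δ, hδ, h⟩ := h
  refine ⟨δ, hδ, fun η hη => ?_⟩
  obtain ⟨Bf, hBf, hgen, n, D, ρ, hn, hΨ⟩ := h η hη
  refine ⟨Bf, hBf, n, D, hn, fun Ψ hQ => ?_⟩
  obtain ⟨θ, Lx, a1, a2, a3, a4, a5⟩ := hΨ Ψ hQ
  exact ⟨θ, Lx, a1, a2, fun g s _ => const_of_tiny M a3 a4 hgen g s, a5⟩

theorem comp_ne {φ : (Fin k → ℝ) →ₗ[ℝ] ℝ} {L : (Fin k → ℝ) →ₗ[ℝ] (Fin k → ℝ)}
    (hφ : φ ≠ 0) (hL : Function.Injective L) : φ ∘ₗ L ≠ 0 := by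
  intro h0
  have hs : Function.Surjective L := LinearMap.surjective_of_injective hL
  refine hφ (LinearMap.ext fun y => ?_)
  obtain ⟨x, rfl⟩ := hs y
  have := congrArg (fun g : (Fin k → ℝ) →ₗ[ℝ] ℝ => g x) h0
  simpa using this

/-- **One scale ⇒ `CoreLawAll`.** -/
theorem coreLawAll_of_oneScale (M : BModel S π)
    (h : ∀ K : ℕ, ∃ (LL : Set ((Fin k → ℝ) →ₗ[ℝ] (Fin k → ℝ))) (c0 : ℝ), 0 < c0 ∧ LL.Finite ∧
      (∀ L ∈ LL, Function.Injective L) ∧ OneScaleLaw M LL c0 K) : CoreLawAll M := by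
  intro K
  obtain ⟨J, A, hA, hJ⟩ := exists_BG M
  obtain ⟨LL, c0, hc0, hLL, hinj, hl⟩ := h K
  exact ⟨LL, c0, hc0, hLL, fun L hL j => comp_ne (M.Λ_ne j) (hinj L hL),
    coreLaw_of_oneScale M hA hJ hc0 hLL hl⟩

end Crest.Agent.R182.OneScale
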