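/-
R182, final assembly with the additional facts `XModel` (helper848, after helper658's Asm2 and
helper860's OneScaleTiny).
-/
import Mathlib
import Crest.Agent.R182.Asm2
import Crest.Agent.R182.CoreX
import Crest.Agent.R182.OneScaleTiny

set_option autoImplicit false

namespace Crest.Agent.R182.Asm3

open Crest.GroupTheory Crest.Geometry Crest.Agent.R182.QI Crest.Agent.R182.FinPath
  Crest.Agent.R182.FinRed Crest.Agent.R182.FinNil Crest.Agent.R182.Polyc Crest.Agent.R182.Wk
  Crest.Agent.R182.Bnd Crest.Agent.R182.Core Crest.Agent.R182.OneScale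
open scoped Pointwise

universe u v

/-- A real model with all facts exists for (every generating set of) `Γ`. -/
def HasModel (Γ : Type u) [Group Γ] (D : RootData Γ) : Prop :=
  ∀ (S : Finset Γ), Subgroup.closure (S : Set Γ) = ⊤ → ∀ (A : Set Γ), Sym A → A.Finite →
    Subgroup.closure A = D.π.ker →
    ∃ x : Fin D.k → Γ, (∀ i, hgt D.π (x i) = Pi.single i 1) ∧
      ∃ M : BModel (S : Set Γ) D.π, Nonempty (BExt M A x) ∧ XModel M

/-- The one-scale law holds in every real model of `Γ` (with the additional facts). -/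
def HasScale (Γ : Type u) [Group Γ] (D : RootData Γ) : Prop :=
  ∀ (S : Finset Γ), Subgroup.closure (S : Set Γ) = ⊤ → ∀ M : BModel (S : Set Γ) D.π,
    XModel M → ∀ K : ℕ, ∃ (LL : Set ((Fin D.k → ℝ) →ₗ[ℝ] (Fin D.k → ℝ))) (c0 : ℝ), 0 < c0 ∧
      LL.Finite ∧ (∀ L ∈ LL, Function.Injective L) ∧ OneScaleLaw M LL c0 K

theorem final {P : Type u} {H : Type v} [Group P] [Group H]
    (hM : ∀ (Γ : Type u) [Group Γ] (D : RootData Γ), HasModel Γ D)
    (hU : ∀ (Γ : Type u) [Group Γ] (D : RootData Γ), HasScale Γ D) (S : Finset P)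
    (hS : Subgroup.closure (S : Set P) = ⊤) (T : Finset H)
    (hT : Subgroup.closure (T : Set H) = ⊤) (hP : IsVirtuallyPolycyclic P) (F : H → P)
    (hF : IsQuasiIsometry (wordDist (T : Set H)) (wordDist (S : Set P)) F) :
    IsVirtuallyPolycyclic H := by
  obtain ⟨G₁, -, hG₁, -, ⟨D⟩⟩ := exists_rootData hP (K := ⊤) (by simp)
  have hfg : Group.FG P := ⟨S, hS⟩
  have hfg₁ : Group.FG G₁ := inferInstance
  obtain ⟨S₁, hS₁⟩ := hfg₁
  have hker : D.π.ker = D.N := by
    ext g
    rw [MonoidHom.mem_ker]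
    exact D.mem_N g
  have hPC : PC D.π.ker := D.pz.pc.mono le_top
  have hnil : Group.IsNilpotent D.π.ker := by
    rw [hker]; exact D.nilp
  obtain ⟨A, hA, hAf, hcl, Cg, d, hgrow⟩ := pgr_of_nilpotent hPC hnil
  obtain ⟨x, hx, M, ⟨E⟩, hX⟩ := hM G₁ D S₁ hS₁ A hA hAf hcl
  have hlaw := law_of_coreLaw E hx (coreLawAll_of_oneScale M (hU G₁ D S₁ hS₁ M hX))
  exact final_of_law S hS T hT hP F hF G₁ S₁ hS₁ D.π D.surj A hA hAf hcl Cg d hgrow x hx hlaw

end Crest.Agent.R182.Asm3
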