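/-
R182, module BOXGRP (helper468): boxes of arbitrary families (word tuples): comparison of families,
products, conjugation, factorisation `N(g') ⊆ K · U_w(g')`, volumes.
-/
import Mathlib
import Crest.Agent.R182.BoxGrp

set_option autoImplicit false
set_option linter.unusedSectionVars false

namespace Crest.Agent.R182.Nb

open Finset

variable {L : Type*} [LieRing L] [LieAlgebra ℝ L] {σ τ : Type*} [Fintype σ] [Fintype τ]
variable {c : ℕ} {g : σ → L} {s t : ℝ} {x y : L}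

theorem Bx_unscale {R : ℝ} (hR : 1 ≤ R) (ht : 0 ≤ t) (hx : x ∈ Bx c (fun i => R • g i) t) :
    x ∈ Bx c g (R ^ c * t) := by
  classical
  obtain ⟨a, ha, rfl⟩ := hx
  have hR0 : 0 < R := by linarith
  refine ⟨fun κ => if κ.length ≤ c then R ^ κ.length * a κ else 0, fun κ => ?_, ?_⟩
  · beta_reduce
    split_ifs with h
    · rw [abs_mul, abs_of_pos (pow_pos hR0 _)]
      have h1 : R ^ κ.length ≤ R ^ c := pow_le_pow_right₀ hR h
      exact mul_le_mul h1 (ha κ) (abs_nonneg _) (pow_pos hR0 _).le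
    · rw [abs_zero]; positivity
  · refine Finset.sum_congr rfl fun κ hκ => ?_
    rw [mem_KL] at hκ
    beta_reduce
    rw [if_pos hκ, mon_smul_fam (fun _ => R) g κ, smul_smul]
    congr 1
    rw [List.map_const', List.prod_replicate, mul_comm]

theorem Nil.smul {R : ℝ} (hN : Nil c g) : Nil c (fun i => R • g i) := by
  intro κ hκ
  rw [mon_smul_fam (fun _ => R) g κ, hN κ hκ, smul_zero]

/-- exact scaling -/
theorem Bx_eq_smul {r : ℝ} (hr : 0 < r) (t : ℝ) : Bx c g (r * t) = (fun x => r • x) '' Bx c g t := by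
  ext x
  constructor
  · intro hx
    refine ⟨r⁻¹ • x, ?_, by beta_reduce; rw [smul_smul, mul_inv_cancel₀ hr.ne', one_smul]⟩
    have := Bx_smul hx r⁻¹
    rw [abs_of_pos (inv_pos.2 hr)] at this
    rwa [← mul_assoc, inv_mul_cancel₀ hr.ne', one_mul] at this
  · rintro ⟨y, hy, rfl⟩
    have := Bx_smul hy r
    rwa [abs_of_pos hr] at this

/-- **comparison of two families** -/
theorem exists_Bx_comp (c : ℕ) (σ τ : Type*) [Fintype σ] [Fintype τ] (T : ℝ) (hT : 1 ≤ T) :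
    ∃ A : ℝ, 1 ≤ A ∧ ∀ {L : Type*} [LieRing L] [LieAlgebra ℝ L] (g : σ → L) (g' : τ → L), Nil c g →
      (∀ i, g' i ∈ Bx c g T) → ∀ s, 0 ≤ s → Bx c g' s ⊆ Bx c g (A * s) := by
  have hC := brC_pos σ c
  set A : ℝ := (KL τ c).card * (brC σ c ^ c * T ^ c) + 1 with hA
  have hA1 : 0 ≤ (KL τ c).card * (brC σ c ^ c * T ^ c) := by positivity
  refine ⟨A, by linarith, ?_⟩
  intro L _ _ g g' hN hg s hs x hx
  obtain ⟨a, ha, rfl⟩ := hx
  have h1 : ∀ κ ∈ KL τ c, a κ • mon g' κ ∈ Bx c g (s * (brC σ c ^ c * T ^ c)) := by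
    intro κ hκ
    rw [mem_KL] at hκ
    have h2 := mon_comp_mem hN (v := g') (t := fun _ => T) (fun _ => by linarith) hg κ
    refine Bx_mono ?_ (Bx_smul h2 (a κ))
    rw [List.map_const', List.prod_replicate]
    have h3 : brC σ c ^ κ.length ≤ brC σ c ^ c := pow_le_pow_right₀ hC hκ
    have h4 : T ^ κ.length ≤ T ^ c := pow_le_pow_right₀ hT hκ
    have h5 := ha κ
    gcongr
  refine Bx_mono ?_ (Bx_sum _ _ _ h1)
  rw [Finset.sum_const, nsmul_eq_mul, hA]
  nlinarith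

theorem prod_w_le {w : σ → Prop} [DecidablePred w] {T e : ℝ} (hT : 1 ≤ T) (he : 0 ≤ e) (he1 : e ≤ 1)
    (κ : List σ) : 0 ≤ (κ.map fun i => if w i then T else e).prod ∧
      (κ.map fun i => if w i then T else e).prod ≤ T ^ κ.length ∧
      (¬ (∀ i ∈ κ, w i) → (κ.map fun i => if w i then T else e).prod ≤ e * T ^ κ.length) := by
  induction κ with
  | nil => simp
  | cons i κ ih =>
    obtain ⟨i0, i1, i2⟩ := ih
    have hTk : 1 ≤ T ^ κ.length := one_le_pow₀ hT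
    simp only [List.map_cons, List.prod_cons, List.length_cons, pow_succ']
    by_cases hi : w i
    · simp only [hi, if_true]
      refine ⟨by positivity, by gcongr, fun h => ?_⟩
      have h1 : ¬ ∀ j ∈ κ, w j := fun h' => h (List.forall_mem_cons.2 ⟨hi, h'⟩)
      have := i2 h1
      nlinarith
    · simp only [hi, if_false]
      refine ⟨by positivity, by nlinarith, fun _ => ?_⟩
      have h3 : e * (κ.map fun i => if w i then T else e).prod ≤ e * T ^ κ.length := by gcongr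
      have h4 : e * T ^ κ.length ≤ e * (T * T ^ κ.length) := by
        gcongr
        nlinarith
      linarith

/-- split of an element of `Bx c g' s` into its `w`-part and the rest -/
theorem exists_Bx_split (c : ℕ) (σ τ : Type*) [Fintype σ] [Fintype τ] (T : ℝ) (hT : 1 ≤ T) :
    ∃ A : ℝ, 1 ≤ A ∧ ∀ {L : Type*} [LieRing L] [LieAlgebra ℝ L] (g : σ → L) (g' : τ → L)
      (w : τ → Prop) [DecidablePred w], Nil c g → ∀ e, 0 ≤ e → e ≤ 1 →
      (∀ i, w i → g' i ∈ Bx c g T) → (∀ i, ¬ w i → g' i ∈ Bx c g e) → ∀ s, 0 ≤ s → ∀ x ∈ Bx c g' s,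
      ∃ u ∈ Bx c (rst g' w) s, ∃ k ∈ Bx c g (A * (e * s)), x = u + k := by
  have hC := brC_pos σ c
  set A : ℝ := (KL τ c).card * (brC σ c ^ c * T ^ c) + 1 with hA
  have hA1 : 0 ≤ (KL τ c).card * (brC σ c ^ c * T ^ c) := by positivity
  refine ⟨A, by linarith, ?_⟩
  intro L _ _ g g' w _ hN e he he1 hw hw' s hs x hx
  classical
  obtain ⟨a, ha, rfl⟩ := hx
  refine ⟨∑ κ ∈ KL τ c, (if ∀ i ∈ κ, w i then a κ else 0) • mon g' κ, ?_,
    ∑ κ ∈ KL τ c, (if ∀ i ∈ κ, w i then 0 else a κ) • mon g' κ, ?_, ?_⟩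
  · refine ⟨fun κ => if ∀ i ∈ κ, w i then a κ else 0, fun κ => ?_, ?_⟩
    · beta_reduce
      split_ifs
      · exact ha κ
      · rwa [abs_zero]
    · refine Finset.sum_congr rfl fun κ _ => ?_
      beta_reduce
      split_ifs with h
      · rw [mon_rst_of w h]
      · rw [zero_smul, zero_smul]
  · have h1 : ∀ κ ∈ KL τ c, (if ∀ i ∈ κ, w i then 0 else a κ) • mon g' κ ∈
        Bx c g (s * (brC σ c ^ c * (e * T ^ c))) := by
      intro κ hκ
      rw [mem_KL] at hκ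
      split_ifs with h
      · rw [zero_smul]; exact Bx_zero_mem (by positivity)
      · have h2 := mon_comp_mem hN (v := g') (t := fun i => if w i then T else e)
          (fun i => by split_ifs <;> linarith)
          (fun i => by
            by_cases hi : w i
            · rw [if_pos hi]; exact hw i hi
            · rw [if_neg hi]; exact hw' i hi) κ
        refine Bx_mono ?_ (Bx_smul h2 (a κ))
        obtain ⟨p0, p1, p2⟩ := prod_w_le (w := w) hT he he1 κ
        have h3 : brC σ c ^ κ.length ≤ brC σ c ^ c := pow_le_pow_right₀ hC hκ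
        have h4 : T ^ κ.length ≤ T ^ c := pow_le_pow_right₀ hT hκ
        have h5 := ha κ
        have h6 := p2 h
        have h7 : (κ.map fun i => if w i then T else e).prod ≤ e * T ^ c :=
          h6.trans (by gcongr)
        gcongr
    refine Bx_mono ?_ (Bx_sum _ _ _ h1)
    rw [Finset.sum_const, nsmul_eq_mul, hA]
    have : 0 ≤ e * s := mul_nonneg he hs
    nlinarith
  · rw [← Finset.sum_add_distrib]
    refine Finset.sum_congr rfl fun κ _ => ?_
    rw [← add_smul]; split_ifs <;> simp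

namespace Star

variable (S : Star L)

/-- constants for the group law, for elements of `Bx c g s`, `s ≤ T` -/
structure FamConst (c : ℕ) (σ : Type*) [Fintype σ] (T A : ℝ) : Prop where
  one_le : 1 ≤ A
  op_sub : ∀ g : σ → L, Nil c g → ∀ s t, 0 ≤ s → s ≤ T → 0 ≤ t → t ≤ T →
    ∀ x ∈ Bx c g s, ∀ y ∈ Bx c g t, S.op x y - x - y ∈ Bx c g (A * (s * t))
  op_mem : ∀ g : σ → L, Nil c g → ∀ s t, 0 ≤ s → s ≤ T → 0 ≤ t → t ≤ T →
    ∀ x ∈ Bx c g s, ∀ y ∈ Bx c g t, S.op x y ∈ Bx c g (A * max s t)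
  cj_sub : ∀ g : σ → L, Nil c g → ∀ s t, 0 ≤ s → s ≤ T → 0 ≤ t → t ≤ T →
    ∀ x ∈ Bx c g s, ∀ y ∈ Bx c g t, S.cj x y - y ∈ Bx c g (A * (s * t))
  cj_mem : ∀ g : σ → L, Nil c g → ∀ s t, 0 ≤ s → s ≤ T → 0 ≤ t → t ≤ T →
    ∀ x ∈ Bx c g s, ∀ y ∈ Bx c g t, S.cj x y ∈ Bx c g (A * t)
  split_sub : ∀ g : σ → L, Nil c g → ∀ s t, 0 ≤ s → s ≤ T → 0 ≤ t → t ≤ T →
    ∀ u ∈ Bx c g s, ∀ k ∈ Bx c g t, S.op (u + k) (-u) - k ∈ Bx c g (A * (s * t))
  split : ∀ g : σ → L, Nil c g → ∀ s t, 0 ≤ s → s ≤ T → 0 ≤ t → t ≤ T →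
    ∀ u ∈ Bx c g s, ∀ k ∈ Bx c g t, S.op (u + k) (-u) ∈ Bx c g (A * t)

theorem exists_famConst (c : ℕ) (σ : Type*) [Fintype σ] (T : ℝ) (hT : 1 ≤ T) :
    ∃ A, S.FamConst c σ T A := by
  obtain ⟨C₁, hC₁, h₁⟩ := S.exists_op_mixed c σ
  obtain ⟨C₂, hC₂, h₂⟩ := S.exists_cj_mem c σ
  obtain ⟨C₃, hC₃, h₃⟩ := S.exists_split c σ
  have hT0 : 0 < T := by linarith
  set C := C₁ + C₂ + C₃ + 1 with hC
  -- the general principle
  have key : ∀ (C' : ℝ), 0 ≤ C' → C' ≤ C → ∀ (f : L → L → L),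
      (∀ g : σ → L, Nil c g → ∀ s t : ℝ, 0 ≤ s → s ≤ 1 → 0 ≤ t → t ≤ 1 →
        ∀ x ∈ Bx c g s, ∀ y ∈ Bx c g t, f x y ∈ Bx c g (C' * s * t)) →
      ∀ g : σ → L, Nil c g → ∀ s t, 0 ≤ s → s ≤ T → 0 ≤ t → t ≤ T →
        ∀ x ∈ Bx c g s, ∀ y ∈ Bx c g t, f x y ∈ Bx c g (T ^ c * C * (s * t)) := by
    intro C' hC'0 hC' f hf g hN s t hs hsT ht htT x hx y hy
    have h1 := Bx_scale hT hs hx
    have h2 := Bx_scale hT ht hy
    have h3 := hf _ hN.smul (s / T) (t / T) (by positivity) ((div_le_one hT0).2 hsT) (by positivity)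
      ((div_le_one hT0).2 htT) x h1 y h2
    refine Bx_mono ?_ (Bx_unscale hT (by positivity) h3)
    have h4 : s / T ≤ s := div_le_self hs hT
    have h5 : t / T ≤ t := div_le_self ht hT
    calc T ^ c * (C' * (s / T) * (t / T)) ≤ T ^ c * (C * s * t) := by gcongr
      _ = T ^ c * C * (s * t) := by ring
  have k1 := key C₁ hC₁ (by linarith) (fun x y => S.op x y - x - y) h₁
  have k2 := key C₂ hC₂ (by linarith) (fun x y => S.cj x y - y) h₂
  have k3 := key C₃ hC₃ (by linarith) (fun u k => S.op (u + k) (-u) - k) h₃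
  have hTc : 1 ≤ T ^ c := one_le_pow₀ hT
  have hTC : 1 ≤ T ^ c * C := by nlinarith
  refine ⟨T ^ c * C * T + 2, by nlinarith, ?_, ?_, ?_, ?_, ?_, ?_⟩
  · intro g hN s t hs hsT ht htT x hx y hy
    refine Bx_mono ?_ (k1 g hN s t hs hsT ht htT x hx y hy)
    have : 0 ≤ s * t := mul_nonneg hs ht
    nlinarith [mul_nonneg (by linarith : (0:ℝ) ≤ T ^ c * C) this]
  · intro g hN s t hs hsT ht htT x hx y hy
    have h5 : S.op x y = x + y + (S.op x y - x - y) := by abel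
    rw [h5]
    refine Bx_mono ?_ (Bx_add (Bx_add hx hy) (k1 g hN s t hs hsT ht htT x hx y hy))
    have h6 := le_max_left s t
    have h7 := le_max_right s t
    have h8 : s * t ≤ T * max s t := mul_le_mul hsT h7 ht (by linarith)
    have h9 : T ^ c * C * (s * t) ≤ T ^ c * C * (T * max s t) := by gcongr
    nlinarith
  · intro g hN s t hs hsT ht htT x hx y hy
    refine Bx_mono ?_ (k2 g hN s t hs hsT ht htT x hx y hy)
    have : 0 ≤ s * t := mul_nonneg hs ht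
    nlinarith [mul_nonneg (by linarith : (0:ℝ) ≤ T ^ c * C) this]
  · intro g hN s t hs hsT ht htT x hx y hy
    have h5 : S.cj x y = y + (S.cj x y - y) := by abel
    rw [h5]
    refine Bx_mono ?_ (Bx_add hy (k2 g hN s t hs hsT ht htT x hx y hy))
    have h8 : s * t ≤ T * t := by gcongr
    have h9 : T ^ c * C * (s * t) ≤ T ^ c * C * (T * t) := by gcongr
    nlinarith
  · intro g hN s t hs hsT ht htT x hx y hy
    refine Bx_mono ?_ (k3 g hN s t hs hsT ht htT x hx y hy)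
    have : 0 ≤ s * t := mul_nonneg hs ht
    nlinarith [mul_nonneg (by linarith : (0:ℝ) ≤ T ^ c * C) this]
  · intro g hN s t hs hsT ht htT x hx y hy
    have h5 : S.op (x + y) (-x) = y + (S.op (x + y) (-x) - y) := by abel
    rw [h5]
    refine Bx_mono ?_ (Bx_add hy (k3 g hN s t hs hsT ht htT x hx y hy))
    have h8 : s * t ≤ T * t := by gcongr
    have h9 : T ^ c * C * (s * t) ≤ T ^ c * C * (T * t) := by gcongr
    nlinarith

/-- **Factorisation** `N(g') ⊆ K · U_w(g')`, `K = Bx c g (A e)`. -/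
theorem exists_factor (c : ℕ) (σ : Type*) [Fintype σ] (T : ℝ) (hT : 1 ≤ T) :
    ∃ A : ℝ, 1 ≤ A ∧ ∀ (g g' : σ → L) (w : σ → Prop) [DecidablePred w], Nil c g → ∀ e, 0 ≤ e →
      e ≤ 1 → (∀ i, w i → g' i ∈ Bx c g T) → (∀ i, ¬ w i → g' i ∈ Bx c g e) → ∀ s, 0 ≤ s → s ≤ T →
      ∀ x ∈ Bx c g' s, ∃ k ∈ Bx c g (A * (e * s)), ∃ u ∈ Bx c (rst g' w) s, x = S.op k u := by
  obtain ⟨A₁, hA₁, h₁⟩ := exists_Bx_split c σ σ T hT
  obtain ⟨A₂, hA₂, h₂⟩ := exists_Bx_comp c σ σ T hT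
  set T' := A₁ * T + A₂ * T with hT'
  have hT1 : 1 ≤ T' := by nlinarith
  obtain ⟨A₃, H₃⟩ := S.exists_famConst c σ T' hT1
  have hA₃ := H₃.one_le
  refine ⟨A₃ * A₁, by nlinarith, ?_⟩
  intro g g' w _ hN e he he1 hw hw' s hs hsT x hx
  obtain ⟨u, hu, k, hk, rfl⟩ := h₁ g g' w hN e he he1 hw hw' s hs x hx
  have hT0 : 0 ≤ T := by linarith
  have hg' : ∀ i, rst g' w i ∈ Bx c g T := by
    intro i
    unfold rst
    split_ifs with h
    · exact hw i h
    · exact Bx_zero_mem hT0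
  have hu2 : u ∈ Bx c g (A₂ * s) := h₂ g (rst g' w) hN hg' s hs hu
  have hes : e * s ≤ T := (mul_le_mul he1 hsT hs zero_le_one).trans (by linarith)
  have hes0 : 0 ≤ e * s := mul_nonneg he hs
  have h3 := H₃.split g hN (A₂ * s) (A₁ * (e * s)) (by positivity)
    (by rw [hT']; nlinarith) (by positivity) (by rw [hT']; nlinarith) u hu2 k hk
  refine ⟨S.op (u + k) (-u), ?_, u, hu, (S.op_neg_cancel (u + k) u).symm⟩
  rwa [← mul_assoc] at h3

/-- **The set `K · U_w(g')` is right-invariant under `N(g')`**, up to constants. -/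
theorem exists_S_op (c : ℕ) (σ : Type*) [Fintype σ] (T : ℝ) (hT : 1 ≤ T) :
    ∃ A : ℝ, 1 ≤ A ∧ ∀ (g g' : σ → L) (w : σ → Prop) [DecidablePred w], Nil c g → Nil c g' →
      ∀ e, 0 ≤ e → e ≤ 1 → (∀ i, w i → g' i ∈ Bx c g T) → (∀ i, ¬ w i → g' i ∈ Bx c g e) →
      ∀ k ∈ Bx c g (T * e), ∀ u ∈ Bx c (rst g' w) T, ∀ n ∈ Bx c g' T,
      ∃ k' ∈ Bx c g (A * e), ∃ u' ∈ Bx c (rst g' w) A, S.op (S.op k u) n = S.op k' u' := by
  obtain ⟨A₁, hA₁, h₁⟩ := S.exists_factor c σ T hT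
  obtain ⟨A₂, hA₂, h₂⟩ := exists_Bx_comp c σ σ T hT
  set T' := (A₁ * T + A₂ * T) with hT'
  have hT1 : 1 ≤ T' := by nlinarith
  obtain ⟨A₃, H₃⟩ := S.exists_famConst c σ T' hT1
  have hA₃ := H₃.one_le
  set T'' := T' + A₃ * T' with hT''
  have hT2 : 1 ≤ T'' := by nlinarith
  obtain ⟨A₄, H₄⟩ := S.exists_famConst c σ T'' hT2
  have hA₄ := H₄.one_le
  have hT0 : 0 ≤ T := by linarith
  refine ⟨A₄ * T'' + A₃ * T', by nlinarith, ?_⟩
  intro g g' w _ hN hN' e he he1 hw hw' k hk u hu n hn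
  obtain ⟨k₁, hk₁, u₁, hu₁, rfl⟩ := h₁ g g' w hN e he he1 hw hw' T hT0 le_rfl n hn
  have hg' : ∀ i, rst g' w i ∈ Bx c g T := by
    intro i
    unfold rst
    split_ifs with h
    · exact hw i h
    · exact Bx_zero_mem hT0
  have hu2 : u ∈ Bx c g (A₂ * T) := h₂ g (rst g' w) hN hg' T hT0 hu
  have h0 : 0 ≤ A₁ * (e * T) := by positivity
  have h1 : A₁ * (e * T) ≤ T' := by
    have : e * T ≤ T := by nlinarith
    nlinarith
  have h2 : A₂ * T ≤ T' := by nlinarith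
  -- conjugate k₁ by u
  have hcj := H₃.cj_mem g hN (A₂ * T) (A₁ * (e * T)) (by positivity) h2 h0 h1 u hu2 k₁ hk₁
  -- multiply with k
  have h3 : A₃ * (A₁ * (e * T)) ≤ T'' := by nlinarith
  have h4 : T * e ≤ T'' := by nlinarith
  have hkk := H₄.op_mem g hN (T * e) (A₃ * (A₁ * (e * T))) (by positivity) h4 (by positivity) h3
    k hk _ hcj
  -- multiply u with u₁
  have hTT' : T ≤ T' := by nlinarith
  have huu := H₃.op_mem (rst g' w) (hN'.rst w) T T hT0 hTT' hT0 hTT' u hu u₁ hu₁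
  refine ⟨_, ?_, _, ?_, (?_ : S.op (S.op k u) (S.op k₁ u₁) =
    S.op (S.op k (S.cj u k₁)) (S.op u u₁))⟩
  · refine Bx_mono ?_ hkk
    have h5 : max (T * e) (A₃ * (A₁ * (e * T))) ≤ T'' * e := by
      refine max_le ?_ ?_
      · have h6 : T ≤ T'' := by nlinarith
        exact mul_le_mul_of_nonneg_right h6 he
      · have : A₃ * (A₁ * (e * T)) = A₃ * (A₁ * T) * e := by ring
        rw [this]
        have h6 : A₃ * (A₁ * T) ≤ T'' := by nlinarith
        gcongr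
    have h7 : A₄ * max (T * e) (A₃ * (A₁ * (e * T))) ≤ A₄ * (T'' * e) := by gcongr
    have h8 : 0 ≤ A₃ * T' * e := by positivity
    nlinarith
  · refine Bx_mono ?_ huu
    rw [max_self]
    nlinarith
  · rw [S.assoc k u, ← S.assoc u k₁ u₁, S.op_eq_cj_op u k₁, S.assoc (S.cj u k₁), ← S.assoc k]

/-- products of at most `J` elements of `Bx c g T` -/
theorem exists_prod_mem_T (c : ℕ) (σ : Type*) [Fintype σ] (T : ℝ) (hT : 1 ≤ T) (J : ℕ) :
    ∃ A : ℝ, 1 ≤ A ∧ ∀ g : σ → L, Nil c g → ∀ s, 0 ≤ s → s ≤ T → ∀ l : List L, l.length ≤ J →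
      (∀ x ∈ l, x ∈ Bx c g s) → S.prod l ∈ Bx c g (A * s) := by
  induction J with
  | zero =>
    refine ⟨1, le_rfl, fun g hN s hs hsT l hl hx => ?_⟩
    have : l = [] := List.length_eq_zero_iff.1 (by omega)
    rw [this, S.prod_nil]
    exact Bx_zero_mem (by linarith)
  | succ J ih =>
    obtain ⟨A, hA, h⟩ := ih
    obtain ⟨B, H⟩ := S.exists_famConst c σ (A * T) (by nlinarith)
    have hB := H.one_le
    refine ⟨B * A, by nlinarith, fun g hN s hs hsT l hl hx => ?_⟩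
    cases l with
    | nil => rw [S.prod_nil]; exact Bx_zero_mem (by positivity)
    | cons x l =>
      rw [S.prod_cons]
      have h1 := h g hN s hs hsT l (by simpa using hl) fun y hy => hx y (List.mem_cons_of_mem _ hy)
      have h2 := hx x List.mem_cons_self
      have h3 : A * s ≤ A * T := by gcongr
      have h4 : s ≤ A * T := by nlinarith
      refine Bx_mono ?_ (H.op_mem g hN s (A * s) hs h4 (by positivity) h3 x h2 _ h1)
      rw [max_eq_right (by nlinarith), mul_assoc]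

end Star

end Crest.Agent.R182.Nb
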