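/-
R182, module BOXGRP (helper468): boxes as subsets of the group `M.NN` of a `BModel`: compactness,
volumes, doubling of `K · U_w`, and the coupling lemma.
-/
import Mathlib
import Crest.Agent.R182.CoreN
import Crest.Agent.R182.BoxFam

set_option autoImplicit false
set_option linter.unusedSectionVars false

open MeasureTheory

namespace Crest.Agent.R182.Core

open Pointwise

variable {Γ : Type*} [Group Γ] {k : ℕ} {S : Set Γ} {π : Γ →* Multiplicative (Fin k → ℤ)}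

namespace BModel

variable (M : BModel S π) {σ : Type*} [Fintype σ]

/-- the box of a family, as a subset of the group `M.NN` -/
def NB (fam : σ → M.L) (s : ℝ) : Set M.NN := {n | M.E n ∈ Nb.Bx M.c fam s}

variable {M} {fam g g' : σ → M.L} {s t : ℝ} {x y : M.NN}

theorem mem_NB : x ∈ M.NB fam s ↔ M.E x ∈ Nb.Bx M.c fam s := Iff.rfl

theorem NB_mono (h : s ≤ t) : M.NB fam s ⊆ M.NB fam t := fun _ hx => Nb.Bx_mono h hx

theorem NB_one_mem (hs : 0 ≤ s) : (1 : M.NN) ∈ M.NB fam s := by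
  rw [mem_NB, one_def, map_zero]; exact Nb.Bx_zero_mem hs

theorem NB_inv (hx : x ∈ M.NB fam s) : x⁻¹ ∈ M.NB fam s := by
  rw [mem_NB, inv_def, map_neg]; exact Nb.Bx_neg hx

theorem NB_inv_eq : (M.NB fam s)⁻¹ = M.NB fam s := by
  ext x
  rw [Set.mem_inv]
  exact ⟨fun h => by simpa using NB_inv h, NB_inv⟩

theorem E_inv (x : M.NN) : M.E x⁻¹ = - M.E x := by rw [inv_def, map_neg]

theorem E_conj (x y : M.NN) : M.E (x * y * x⁻¹) = M.star.cj (M.E x) (M.E y) := by
  rw [E_mul, E_mul, E_inv]; rfl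

theorem E_prod (l : List M.NN) : M.E l.prod = M.star.prod (l.map M.E) := by
  induction l with
  | nil => rw [List.prod_nil, one_def, map_zero]; rfl
  | cons x l ih => rw [List.prod_cons, E_mul, ih, List.map_cons, Nb.Star.prod_cons]

theorem Ad_mon {σ : Type*} (M : BModel S π) (a : M.G) (fam : σ → M.L) (κ : List σ) :
    Nb.mon (fun i => M.Ad a (fam i)) κ = M.Ad a (Nb.mon fam κ) := by
  induction κ with
  | nil => simp
  | cons i κ ih =>
    by_cases hκ : κ = []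
    · subst hκ; rfl
    · rw [Nb.mon_cons _ i hκ, ih, Nb.mon_cons fam i hκ, M.Ad_lie]

theorem mem_Bx_Ad (a : M.G) (z : M.L) :
    M.Ad a z ∈ Nb.Bx M.c (fun i => M.Ad a (fam i)) s ↔ z ∈ Nb.Bx M.c fam s := by
  constructor
  · rintro ⟨c, hc, h⟩
    refine ⟨c, hc, (M.Ad a).injective ?_⟩
    rw [h, map_sum]
    exact Finset.sum_congr rfl fun κ _ => by rw [Ad_mon, map_smul]
  · rintro ⟨c, hc, rfl⟩
    refine ⟨c, hc, ?_⟩
    rw [map_sum]
    exact Finset.sum_congr rfl fun κ _ => by rw [Ad_mon, map_smul]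

theorem conjN_mem_NB (a : M.G) :
    M.conjN a x ∈ M.NB (fun i => M.Ad a (fam i)) s ↔ x ∈ M.NB fam s := by
  rw [mem_NB, conjN_apply, LinearEquiv.apply_symm_apply, mem_Bx_Ad]; rfl

theorem conjN_image_NB (a : M.G) :
    M.conjN a '' M.NB fam s = M.NB (fun i => M.Ad a (fam i)) s := by
  ext x
  constructor
  · rintro ⟨y, hy, rfl⟩; exact (conjN_mem_NB a).2 hy
  · intro hx
    refine ⟨(M.conjN a).symm x, ?_, MulEquiv.apply_symm_apply _ _⟩
    rw [← conjN_mem_NB a, MulEquiv.apply_symm_apply]; exact hx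

theorem NB_eq_image (M : BModel S π) (fam : σ → M.L) (s : ℝ) :
    M.NB fam s = (fun a : (Nb.KL σ M.c) → ℝ => ∑ κ, a κ • M.E.symm (Nb.mon fam κ.1)) ''
      Set.pi Set.univ fun _ => Set.Icc (-s) s := by
  classical
  ext x
  constructor
  · rintro ⟨a, ha, hx⟩
    refine ⟨fun κ => a κ.1, fun κ _ => abs_le.1 (ha κ.1), ?_⟩
    apply M.E.injective
    rw [hx, map_sum, ← Finset.sum_coe_sort (Nb.KL σ M.c) fun κ => a κ • Nb.mon fam κ]
    exact Finset.sum_congr rfl fun κ _ => by rw [map_smul, LinearEquiv.apply_symm_apply]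
  · rintro ⟨a, ha, rfl⟩
    by_cases hs : 0 ≤ s
    · refine ⟨fun κ => if h : κ ∈ Nb.KL σ M.c then a ⟨κ, h⟩ else 0, fun κ => ?_, ?_⟩
      · beta_reduce
        split_ifs with h
        · exact abs_le.2 (ha ⟨κ, h⟩ (Set.mem_univ _))
        · rwa [abs_zero]
      · rw [map_sum, ← Finset.sum_coe_sort (Nb.KL σ M.c)]
        refine Finset.sum_congr rfl fun κ _ => ?_
        rw [map_smul, LinearEquiv.apply_symm_apply]
        beta_reduce
        rw [dif_pos κ.2]
    · exfalso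
      have hmem : ([] : List σ) ∈ Nb.KL σ M.c := Nb.mem_KL.2 (by simp)
      have h2 := ha ⟨[], hmem⟩ (Set.mem_univ _)
      rw [Set.mem_Icc] at h2
      linarith [h2.1, h2.2]

theorem isCompact_NB (M : BModel S π) (fam : σ → M.L) (s : ℝ) : IsCompact (M.NB fam s) := by
  rw [NB_eq_image]
  refine (isCompact_univ_pi fun _ => isCompact_Icc).image ?_
  exact continuous_finsetSum _ fun κ _ => (continuous_apply κ).smul continuous_const

theorem measurableSet_NB (M : BModel S π) (fam : σ → M.L) (s : ℝ) :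
    MeasurableSet (M.NB fam s) := (isCompact_NB M fam s).measurableSet

theorem volume_NB_lt_top (M : BModel S π) (fam : σ → M.L) (s : ℝ) :
    volume (M.NB fam s) < ⊤ := (isCompact_NB M fam s).measure_lt_top

theorem finrank_NN (M : BModel S π) : Module.finrank ℝ M.NN = M.r := by
  have : Module.finrank ℝ (Fin M.r → ℝ) = M.r := by simp
  exact this

theorem volume_smul_NN (M : BModel S π) {r : ℝ} (hr : 0 < r) (A : Set M.NN) :
    volume (r • A) = ENNReal.ofReal (r ^ M.r) * volume A := by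
  rw [Measure.addHaar_smul, finrank_NN, abs_of_pos (pow_pos hr _)]

theorem NB_smul {r : ℝ} (hr : 0 < r) : M.NB fam (r * s) = r • M.NB fam s := by
  ext x
  rw [mem_NB, Nb.Bx_eq_smul hr, Set.mem_smul_set]
  constructor
  · rintro ⟨y, hy, h⟩
    refine ⟨M.E.symm y, ?_, ?_⟩
    · rw [mem_NB, LinearEquiv.apply_symm_apply]; exact hy
    · apply M.E.injective
      rw [map_smul, LinearEquiv.apply_symm_apply]; exact h
  · rintro ⟨y, hy, rfl⟩
    exact ⟨M.E y, hy, by rw [map_smul]⟩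

theorem volume_NB_smul {r : ℝ} (hr : 0 < r) :
    volume (M.NB fam (r * s)) = ENNReal.ofReal (r ^ M.r) * volume (M.NB fam s) := by
  rw [NB_smul hr, volume_smul_NN M hr]

theorem volume_NB_Ad (a : M.G) :
    volume (M.NB (fun i => M.Ad a (fam i)) s) = volume (M.NB fam s) := by
  have h := (M.measurePreserving_conjN a).measure_preimage
    (measurableSet_NB M (fun i => M.Ad a (fam i)) s).nullMeasurableSet
  rw [← h]
  congr 1
  ext x
  exact conjN_mem_NB a

/-- the box of a family whose monomials span has positive volume -/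
theorem volume_NB_pos (hN : Nb.Nil M.c fam)
    (hspan : ∀ x : M.L, x ∈ Submodule.span ℝ (Set.range fun κ : List σ => Nb.mon fam κ))
    (hs : 0 < s) : 0 < volume (M.NB fam s) := by
  by_contra h
  have h0 : volume (M.NB fam s) = 0 := by simpa using h
  have h1 : ∀ n : ℕ, volume (M.NB fam ((n + 1 : ℝ) * s)) = 0 := by
    intro n
    rw [volume_NB_smul (by positivity), h0, mul_zero]
  have h2 : (⋃ n : ℕ, M.NB fam ((n + 1 : ℝ) * s)) = Set.univ := by
    rw [Set.eq_univ_iff_forall]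
    intro x
    obtain ⟨t, ht, hx⟩ := Nb.exists_mem_Bx hspan hN (M.E x)
    obtain ⟨n, hn⟩ := exists_nat_gt (t / s)
    refine Set.mem_iUnion.2 ⟨n, Nb.Bx_mono ?_ hx⟩
    rw [div_lt_iff₀ hs] at hn
    nlinarith
  have h3 : volume (⋃ n : ℕ, M.NB fam ((n + 1 : ℝ) * s)) = 0 := measure_iUnion_null h1
  rw [h2] at h3
  exact (isOpen_univ.measure_pos (volume : Measure M.NN) Set.univ_nonempty).ne' h3

/-- **doubling of `K · U_w`**: with `K = NB g e`, `U = NB (rst g' w) 1`. -/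
theorem exists_volume_KU (M : BModel S π) (σ : Type*) [Fintype σ] (T : ℝ) (hT : 1 ≤ T) :
    ∃ C : ℝ, 1 ≤ C ∧ ∀ (g g' : σ → M.L) (w : σ → Prop) [DecidablePred w], Nb.Nil M.c g →
      ∀ e, 0 ≤ e → e ≤ 1 → (∀ i, w i → g' i ∈ Nb.Bx M.c g T) →
      M.NB g (T * e) * M.NB (Nb.rst g' w) T ⊆ C • (M.NB g e * M.NB (Nb.rst g' w) 1) := by
  obtain ⟨A₁, H₁⟩ := M.star.exists_famConst M.c σ T hT
  obtain ⟨A₂, hA₂, h₂⟩ := Nb.exists_Bx_comp M.c σ σ T hT
  set T' := A₂ * T + T with hT'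
  have hT1 : 1 ≤ T' := by nlinarith
  obtain ⟨A₃, H₃⟩ := M.star.exists_famConst M.c σ T' hT1
  have hA₃ := H₃.one_le
  have hT0 : 0 ≤ T := by linarith
  set B := T + A₃ * (T' * T') with hB
  have hB1 : 1 ≤ B := by nlinarith [mul_nonneg (by linarith : (0:ℝ) ≤ A₃) (by nlinarith : 0 ≤ T' * T')]
  refine ⟨A₃ * B, by nlinarith, ?_⟩
  intro g g' w _ hN e he he1 hw
  have hg' : ∀ i, Nb.rst g' w i ∈ Nb.Bx M.c g T := by
    intro i
    unfold Nb.rst
    split_ifs with h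
    · exact hw i h
    · exact Nb.Bx_zero_mem hT0
  rintro _ ⟨k₀, hk, u₀, hu, rfl⟩
  set R := A₃ * B with hR
  have hR1 : 1 ≤ R := by nlinarith
  have hR0 : 0 < R := by linarith
  rw [mem_NB] at hk hu
  have hu2 : M.E u₀ ∈ Nb.Bx M.c g (A₂ * T) := h₂ g (Nb.rst g' w) hN hg' T hT0 hu
  have hTe : T * e ≤ T' := by nlinarith
  have hTe0 : 0 ≤ T * e := by positivity
  have h3 := H₃.op_sub g hN (T * e) (A₂ * T) hTe0 hTe (by positivity) (by nlinarith) _ hk _ hu2
  set p : M.L := M.star.op (M.E k₀) (M.E u₀) - M.E u₀ with hp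
  have hpm : p ∈ Nb.Bx M.c g (B * e) := by
    have : p = M.E k₀ + (M.star.op (M.E k₀) (M.E u₀) - M.E k₀ - M.E u₀) := by rw [hp]; abel
    rw [this]
    refine Nb.Bx_mono ?_ (Nb.Bx_add hk h3)
    rw [hB]
    have h5 : T * e * (A₂ * T) ≤ T' * T' * e := by
      have h6 : A₂ * T ≤ T' := by nlinarith
      have h7 : T ≤ T' := by nlinarith
      calc T * e * (A₂ * T) = T * (A₂ * T) * e := by ring
        _ ≤ T' * T' * e := by gcongr
    have : A₃ * (T * e * (A₂ * T)) ≤ A₃ * (T' * T' * e) := by gcongr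
    nlinarith
  -- rescale
  have hpR : R⁻¹ • p ∈ Nb.Bx M.c g (A₃⁻¹ * e) := by
    have h5 := Nb.Bx_smul hpm R⁻¹
    rw [abs_of_pos (inv_pos.2 hR0)] at h5
    refine Nb.Bx_mono (le_of_eq ?_) h5
    rw [hR, mul_inv]
    have hB0 : B ≠ 0 := by linarith
    field_simp
  have huR : R⁻¹ • M.E u₀ ∈ Nb.Bx M.c (Nb.rst g' w) 1 := by
    have h5 := Nb.Bx_smul hu R⁻¹
    rw [abs_of_pos (inv_pos.2 hR0)] at h5
    refine Nb.Bx_mono ?_ h5
    rw [inv_mul_le_iff₀ hR0, mul_one]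
    nlinarith [mul_nonneg (by linarith : (0:ℝ) ≤ A₃) (by nlinarith : 0 ≤ T' * T')]
  have huR2 : R⁻¹ • M.E u₀ ∈ Nb.Bx M.c g A₂ := by
    have := h₂ g (Nb.rst g' w) hN hg' 1 zero_le_one huR
    rwa [mul_one] at this
  have hA₃e : A₃⁻¹ * e ≤ 1 := by
    have : A₃⁻¹ ≤ 1 := inv_le_one_of_one_le₀ hA₃
    have h0 : 0 ≤ A₃⁻¹ := by positivity
    nlinarith
  have h6 := H₃.split g hN A₂ (A₃⁻¹ * e) (by linarith) (by nlinarith) (by positivity)
    (by linarith) _ huR2 _ hpR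
  rw [← mul_assoc, mul_inv_cancel₀ (by linarith), one_mul] at h6
  rw [Set.mem_smul_set]
  refine ⟨R⁻¹ • (k₀ * u₀), ?_, by rw [smul_smul, mul_inv_cancel₀ hR0.ne', one_smul]⟩
  refine ⟨M.E.symm (M.star.op (R⁻¹ • M.E u₀ + R⁻¹ • p) (-(R⁻¹ • M.E u₀))), ?_,
    M.E.symm (R⁻¹ • M.E u₀), ?_, ?_⟩
  · rw [mem_NB, LinearEquiv.apply_symm_apply]; exact h6
  · rw [mem_NB, LinearEquiv.apply_symm_apply]; exact huR
  · apply M.E.injective
    rw [E_mul, LinearEquiv.apply_symm_apply, LinearEquiv.apply_symm_apply, M.star.op_neg_cancel,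
      map_smul, E_mul, ← smul_add, hp]
    congr 1
    abel

/-- **coupling**: for every fixed `v = k u` with `k ∈ K'`, `K K'⁻¹ ⊆ K⁺`:
`μ {n ∈ K : n u ∈ Bad} ≤ μ {n ∈ K⁺ : n v ∈ Bad}`. -/
theorem volume_coupling {H : Type*} [Group H] [MeasurableSpace H] [MeasurableMul H]
    (μ : Measure H) [μ.IsMulRightInvariant] {K Kp Bad : Set H} {v k u : H} (hv : v = k * u)
    (hK : ∀ n ∈ K, n * k⁻¹ ∈ Kp) :
    μ {n | n ∈ K ∧ n * u ∈ Bad} ≤ μ {n | n ∈ Kp ∧ n * v ∈ Bad} := by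
  have h1 : {n | n ∈ K ∧ n * u ∈ Bad} ⊆ (fun n => n * k⁻¹) ⁻¹' {n | n ∈ Kp ∧ n * v ∈ Bad} := by
    rintro n ⟨hn, hb⟩
    refine ⟨hK n hn, ?_⟩
    have : n * k⁻¹ * v = n * u := by rw [hv]; group
    change n * k⁻¹ * v ∈ Bad
    rwa [this]
  refine (measure_mono h1).trans ?_
  rw [measure_preimage_mul_right]

end BModel

end Crest.Agent.R182.Core
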