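/-
R182, module BOXGRP (helper468): word length of conjugates of elements of boxes along a ray (W3).
-/
import Mathlib
import Crest.Agent.R182.BoxNN

set_option autoImplicit false
set_option linter.unusedSectionVars false

open MeasureTheory

namespace Crest.Agent.R182.Core

variable {Γ : Type*} [Group Γ] {k : ℕ} {S : Set Γ} {π : Γ →* Multiplicative (Fin k → ℤ)}

namespace BModel

variable (M : BModel S π)

/-- the norm in coordinates -/
noncomputable def nm (x : M.L) : ℝ := ‖M.bas.equivFun x‖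

theorem nm_nonneg (x : M.L) : 0 ≤ M.nm x := norm_nonneg _

theorem nm_smul (r : ℝ) (x : M.L) : M.nm (r • x) = |r| * M.nm x := by
  unfold nm; rw [map_smul, norm_smul, Real.norm_eq_abs]

theorem nm_add (x y : M.L) : M.nm (x + y) ≤ M.nm x + M.nm y := by
  unfold nm; rw [map_add]; exact norm_add_le _ _

theorem nm_sum {ι : Type*} (s : Finset ι) (f : ι → M.L) : M.nm (∑ i ∈ s, f i) ≤ ∑ i ∈ s, M.nm (f i) := by
  unfold nm; rw [map_sum]; exact norm_sum_le _ _

theorem nm_zero : M.nm 0 = 0 := by unfold nm; rw [map_zero, norm_zero]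

theorem abs_repr_le (x : M.L) (i : Fin M.r) : |M.bas.repr x i| ≤ M.nm x := by
  have := norm_le_pi_norm (M.bas.equivFun x) i
  rwa [Real.norm_eq_abs] at this

theorem nm_le {x : M.L} {t : ℝ} (ht : 0 ≤ t) (h : ∀ i, |M.bas.repr x i| ≤ t) : M.nm x ≤ t := by
  refine (pi_norm_le_iff_of_nonneg ht).2 fun i => ?_
  rw [Real.norm_eq_abs]; exact h i

/-- the bracket is bounded -/
theorem exists_nm_lie : ∃ B : ℝ, 1 ≤ B ∧ ∀ x y : M.L, M.nm ⁅x, y⁆ ≤ B * M.nm x * M.nm y := by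
  refine ⟨∑ i, ∑ j, M.nm ⁅M.bas i, M.bas j⁆ + 1, ?_, fun x y => ?_⟩
  · have : 0 ≤ ∑ i, ∑ j, M.nm ⁅M.bas i, M.bas j⁆ :=
      Finset.sum_nonneg fun i _ => Finset.sum_nonneg fun j _ => M.nm_nonneg _
    linarith
  · have h1 : ⁅x, y⁆ = ∑ i, ∑ j, (M.bas.repr x i * M.bas.repr y j) • ⁅M.bas i, M.bas j⁆ := by
      conv_lhs => rw [← M.bas.sum_repr x, ← M.bas.sum_repr y]
      rw [sum_lie]
      refine Finset.sum_congr rfl fun i _ => ?_
      rw [lie_sum]
      refine Finset.sum_congr rfl fun j _ => ?_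
      rw [smul_lie, lie_smul, smul_smul]
    rw [h1]
    refine (M.nm_sum _ _).trans ?_
    have hx := M.nm_nonneg x
    have hy := M.nm_nonneg y
    calc ∑ i, M.nm (∑ j, (M.bas.repr x i * M.bas.repr y j) • ⁅M.bas i, M.bas j⁆)
        ≤ ∑ i, ∑ j, M.nm ⁅M.bas i, M.bas j⁆ * (M.nm x * M.nm y) := by
          refine Finset.sum_le_sum fun i _ => (M.nm_sum _ _).trans (Finset.sum_le_sum fun j _ => ?_)
          rw [nm_smul, mul_comm, abs_mul]
          exact mul_le_mul_of_nonneg_left (mul_le_mul (M.abs_repr_le x i) (M.abs_repr_le y j)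
            (abs_nonneg _) hx) (M.nm_nonneg _)
      _ = (∑ i, ∑ j, M.nm ⁅M.bas i, M.bas j⁆) * (M.nm x * M.nm y) := by
          rw [Finset.sum_mul]; exact Finset.sum_congr rfl fun i _ => (Finset.sum_mul _ _ _).symm
      _ ≤ (∑ i, ∑ j, M.nm ⁅M.bas i, M.bas j⁆ + 1) * M.nm x * M.nm y := by
          nlinarith [mul_nonneg hx hy]

/-- monomials are bounded -/
theorem exists_nm_mon : ∃ B : ℝ, 1 ≤ B ∧ ∀ {σ : Type} (v : σ → M.L) (t : ℝ), 0 ≤ t →
    (∀ i, M.nm (v i) ≤ t) → ∀ κ : List σ, M.nm (Nb.mon v κ) ≤ (B * t) ^ κ.length := by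
  obtain ⟨B, hB, h⟩ := M.exists_nm_lie
  refine ⟨B, hB, fun v t ht hv κ => ?_⟩
  induction κ with
  | nil => rw [Nb.mon_nil, nm_zero]; simp
  | cons i κ ih =>
    by_cases hκ : κ = []
    · subst hκ
      simp only [Nb.mon_single, List.length_cons, List.length_nil, zero_add, pow_one]
      have := hv i
      nlinarith
    · rw [Nb.mon_cons _ i hκ, List.length_cons, pow_succ']
      refine (h _ _).trans ?_
      have h1 := hv i
      have h2 := M.nm_nonneg (v i)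
      have h3 := M.nm_nonneg (Nb.mon v κ)
      have h4 : B * M.nm (v i) ≤ B * t := by gcongr
      calc B * M.nm (v i) * M.nm (Nb.mon v κ) ≤ (B * t) * (B * t) ^ κ.length := by gcongr
        _ = _ := rfl

/-- size of an element of a box -/
theorem exists_nm_Bx (σ : Type) [Fintype σ] : ∃ B : ℝ, 1 ≤ B ∧ ∀ (v : σ → M.L) (t : ℝ), 1 ≤ t →
    (∀ i, M.nm (v i) ≤ t) → ∀ s, 0 ≤ s → ∀ x ∈ Nb.Bx M.c v s, M.nm x ≤ B * t ^ M.c * s := by
  obtain ⟨B, hB, h⟩ := M.exists_nm_mon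
  refine ⟨(Nb.KL σ M.c).card * B ^ M.c + 1, by
    have : 0 ≤ ((Nb.KL σ M.c).card : ℝ) * B ^ M.c := by positivity
    linarith, ?_⟩
  rintro v t ht hv s hs x ⟨a, ha, rfl⟩
  refine (M.nm_sum _ _).trans ?_
  have h1 : ∀ κ ∈ Nb.KL σ M.c, M.nm (a κ • Nb.mon v κ) ≤ s * (B ^ M.c * t ^ M.c) := by
    intro κ hκ
    rw [Nb.mem_KL] at hκ
    rw [nm_smul]
    have h2 := h v t (by linarith) hv κ
    have h3 : (B * t) ^ κ.length ≤ (B * t) ^ M.c := pow_le_pow_right₀ (by nlinarith) hκ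
    rw [mul_pow, mul_pow] at h3
    exact mul_le_mul (ha κ) (h2.trans (by rw [mul_pow]; exact h3)) (M.nm_nonneg _) hs
  refine (Finset.sum_le_sum h1).trans ?_
  rw [Finset.sum_const, nsmul_eq_mul]
  have h4 : 0 ≤ t ^ M.c * s := by positivity
  nlinarith

/-- `Ad` of a word in `C` of a basis vector -/
theorem exists_nm_Ad_word (R : ℝ) : ∃ A : ℝ, 1 ≤ A ∧ ∀ l : List M.G,
    (∀ s ∈ l, s ∈ M.C ∧ M.len s ≤ R) → ∀ j,
    M.nm (M.Ad l.prod (M.bas j)) ≤ A * (1 + l.length) ^ M.d * Real.exp (M.wt j (M.h l.prod)) := by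
  obtain ⟨A, hA⟩ := M.Ad_C_le R
  refine ⟨max A 1, le_max_right _ _, fun l hl j => ?_⟩
  have hpos : (0:ℝ) ≤ (1 + l.length) ^ M.d * Real.exp (M.wt j (M.h l.prod)) := by positivity
  refine M.nm_le (by positivity) fun i => ?_
  by_cases h0 : M.bas.repr (M.Ad l.prod (M.bas j)) i = 0
  · rw [h0, abs_zero]; positivity
  · have hC : l.prod ∈ M.C := M.C.list_prod_mem fun s hs => (hl s hs).1
    have hw := M.Ad_C l.prod hC i j h0
    have := hA l hl i j
    rw [hw, mul_assoc] at this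
    rw [mul_assoc]
    exact this.trans (mul_le_mul_of_nonneg_right (le_max_left _ _) hpos)

/-- inverse of a word -/
theorem word_inv {R : ℝ} {l : List M.G} (hl : ∀ s ∈ l, s ∈ M.C ∧ M.len s ≤ R) :
    ∀ s ∈ l.reverse.map (·⁻¹), s ∈ M.C ∧ M.len s ≤ R := by
  intro s hs
  rw [List.mem_map] at hs
  obtain ⟨t, ht, rfl⟩ := hs
  have := hl t (List.mem_reverse.1 ht)
  exact ⟨M.C.inv_mem this.1, by rw [M.isLen.inv]; exact this.2⟩

theorem prod_word_inv (l : List M.G) : (l.reverse.map (·⁻¹)).prod = l.prod⁻¹ := by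
  rw [List.prod_inv_reverse, List.map_reverse]

/-- the length of an element of `E` in terms of `nm` -/
theorem len_ex_nm (x : M.L) : M.len (M.ex x) ≤ M.a * Real.log (2 + M.nm x) := M.len_ex_le x

/-- conjugate of an exponential -/
theorem conj_ex' (g : M.G) (x : M.L) : g⁻¹ * M.ex x * g = M.ex (M.Ad g⁻¹ x) := by
  have := M.conj_ex g⁻¹ x
  rwa [inv_inv] at this

/-- **(W3)** Length of the conjugate of an element of the box spanned by the `w`-letters moved by
the word `l` (of any length), seen from the end of the word `l'`. -/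
theorem exists_len_conj (R T : ℝ) (hT : 0 ≤ T) : ∃ A : ℝ, 1 ≤ A ∧
    ∀ (l l' : List M.G), (∀ s ∈ l, s ∈ M.C ∧ M.len s ≤ R) → (∀ s ∈ l', s ∈ M.C ∧ M.len s ≤ R) →
    ∀ (w : Fin M.r → Prop) [DecidablePred w] (Z : ℝ), 0 ≤ Z →
    (∀ i, w i → M.wt i (M.h l.prod) ≤ M.wt i (M.h l'.prod) + Z) →
    ∀ u ∈ Nb.Bx M.c (Nb.rst (fun i => M.Ad l.prod (M.bas i)) w) T,
    M.len (l'.prod⁻¹ * M.ex u * l'.prod) ≤ A * (1 + Z + Real.log (1 + l.length + l'.length)) := by
  obtain ⟨A₁, hA₁, h₁⟩ := M.exists_nm_Ad_word R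
  obtain ⟨B, hB, h₂⟩ := M.exists_nm_Bx (Fin M.r)
  have ha := M.one_le_a
  have ha0 := M.a0
  -- the final constant
  set D : ℝ := B * A₁ ^ M.c * (T + 1) with hD
  have hA₁c : 1 ≤ A₁ ^ M.c := one_le_pow₀ hA₁
  have hD1 : 1 ≤ D := by nlinarith [mul_nonneg (by linarith : (0:ℝ) ≤ B) (by linarith : 0 ≤ A₁ ^ M.c)]
  refine ⟨M.a * (Real.log (3 * D) + M.c * M.d + M.c) + 1, ?_, ?_⟩
  · have : 0 ≤ M.a * (Real.log (3 * D) + M.c * M.d + M.c) := by
      have : 0 ≤ Real.log (3 * D) := Real.log_nonneg (by linarith)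
      positivity
    linarith
  intro l l' hl hl' w _ Z hZ hw u hu
  rw [conj_ex']
  set n : ℝ := 1 + l.length + l'.length with hn
  have hn1 : 1 ≤ n := by
    have h1 : (0:ℝ) ≤ l.length := Nat.cast_nonneg _
    have h2 : (0:ℝ) ≤ l'.length := Nat.cast_nonneg _
    linarith
  -- the family seen from `l'`
  set g : M.G := l'.prod⁻¹ * l.prod with hg
  have hAdg : M.Ad l'.prod⁻¹ u ∈
      Nb.Bx M.c (Nb.rst (fun i => M.Ad g (M.bas i)) w) T := by
    have h3 : Nb.rst (fun i => M.Ad g (M.bas i)) w =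
        fun i => M.Ad l'.prod⁻¹ (Nb.rst (fun i => M.Ad l.prod (M.bas i)) w i) := by
      funext i
      unfold Nb.rst
      split_ifs
      · rw [hg, map_mul]; rfl
      · rw [map_zero]
    rw [h3, mem_Bx_Ad]
    exact hu
  have hlg : l'.reverse.map (·⁻¹) ++ l = (l'.reverse.map (·⁻¹)) ++ l := rfl
  have hgprod : ((l'.reverse.map (·⁻¹)) ++ l).prod = g := by
    rw [List.prod_append, prod_word_inv]
  have hgl : ∀ s ∈ (l'.reverse.map (·⁻¹)) ++ l, s ∈ M.C ∧ M.len s ≤ R := by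
    intro s hs
    rcases List.mem_append.1 hs with hs | hs
    · exact M.word_inv hl' s hs
    · exact hl s hs
  have hlen : (1 + (((l'.reverse.map (·⁻¹)) ++ l).length : ℝ)) = n := by
    rw [List.length_append, List.length_map, List.length_reverse, hn]; push_cast; ring
  set t : ℝ := A₁ * n ^ M.d * Real.exp Z with ht
  have hexpZ : 1 ≤ Real.exp Z := Real.one_le_exp hZ
  have hnd : 1 ≤ n ^ M.d := one_le_pow₀ hn1
  have ht1 : 1 ≤ t := by
    rw [ht]
    have : 1 ≤ A₁ * n ^ M.d := by nlinarith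
    nlinarith
  have hfam : ∀ i, M.nm (Nb.rst (fun i => M.Ad g (M.bas i)) w i) ≤ t := by
    intro i
    unfold Nb.rst
    split_ifs with hi
    · have h4 := h₁ _ hgl i
      rw [hgprod, hlen] at h4
      refine h4.trans ?_
      have h5 : M.wt i (M.h g) ≤ Z := by
        have h6 := hw i hi
        rw [hg, M.h_mul, M.h_inv, map_add, map_neg]
        linarith
      rw [ht]
      have := Real.exp_le_exp.2 h5
      gcongr
    · rw [nm_zero]; linarith
  have h7 := h₂ _ t ht1 hfam T hT _ hAdg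
  -- take logarithms
  have h8 : M.nm (M.Ad l'.prod⁻¹ u) ≤ D * (n ^ (M.c * M.d) * Real.exp (M.c * Z)) := by
    refine h7.trans ?_
    rw [ht, mul_pow, mul_pow, ← pow_mul, ← Real.exp_nat_mul, hD, mul_comm M.d M.c]
    have hp : 0 ≤ B * (A₁ ^ M.c * n ^ (M.c * M.d) * Real.exp (M.c * Z)) := by positivity
    nlinarith
  set Y : ℝ := n ^ (M.c * M.d) * Real.exp (M.c * Z) with hY
  have hY1 : 1 ≤ Y := by
    have h9 : 1 ≤ n ^ (M.c * M.d) := one_le_pow₀ hn1
    have h10 : 1 ≤ Real.exp (M.c * Z) := Real.one_le_exp (by positivity)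
    nlinarith
  have h11 : 2 + M.nm (M.Ad l'.prod⁻¹ u) ≤ 3 * D * Y := by
    have : 1 ≤ D * Y := by nlinarith
    nlinarith
  have h12 : Real.log (2 + M.nm (M.Ad l'.prod⁻¹ u)) ≤
      Real.log (3 * D) + (M.c * M.d * Real.log n + M.c * Z) := by
    have hpos : 0 < 2 + M.nm (M.Ad l'.prod⁻¹ u) := by linarith [M.nm_nonneg (M.Ad l'.prod⁻¹ u)]
    refine (Real.log_le_log hpos h11).trans (le_of_eq ?_)
    rw [Real.log_mul (by positivity) (by linarith), hY,
      Real.log_mul (by positivity) (Real.exp_pos _).ne', Real.log_pow, Real.log_exp]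
    push_cast
    ring
  refine (M.len_ex_nm _).trans ?_
  have hlogn : 0 ≤ Real.log n := Real.log_nonneg hn1
  have hlog3 : 0 ≤ Real.log (3 * D) := Real.log_nonneg (by linarith)
  have hcd : (0:ℝ) ≤ M.c * M.d := by positivity
  have hc0 : (0:ℝ) ≤ M.c := Nat.cast_nonneg _
  calc M.a * Real.log (2 + M.nm (M.Ad l'.prod⁻¹ u)) ≤
        M.a * (Real.log (3 * D) + (M.c * M.d * Real.log n + M.c * Z)) := by gcongr
    _ ≤ M.a * ((Real.log (3 * D) + M.c * M.d + M.c) * (1 + Z + Real.log n)) := by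
        gcongr
        nlinarith [mul_nonneg hlog3 hZ, mul_nonneg hlog3 hlogn, mul_nonneg hcd hZ,
          mul_nonneg hc0 hlogn, mul_nonneg hcd hlogn, mul_nonneg hc0 hZ]
    _ ≤ (M.a * (Real.log (3 * D) + M.c * M.d + M.c) + 1) * (1 + Z + Real.log n) := by
        nlinarith

end BModel

end Crest.Agent.R182.Core
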