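/-
R182, module BND (helper658): the facts used by the passage from the sublinear law to the logarithmic
law, for an arbitrary `BModel`, from two inputs: fine subdivision of the elements of height zero of
`C`, and polynomial distortion of `E ∩ C` in `C`.
-/
import Mathlib
import Crest.Agent.R182.BndCore
import Crest.Agent.R182.CLaw1
import Crest.Agent.R182.BoxReach
import Crest.Agent.R182.BoxLen

set_option autoImplicit false
set_option linter.unusedSectionVars false

open scoped Pointwise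

namespace Crest.Agent.R182.Bnd

open Crest.GroupTheory Crest.Geometry Crest.Agent.R182.QI Crest.Agent.R182.FinPath
  Crest.Agent.R182.FinRed Crest.Agent.R182.Core Crest.Agent.R182.OneScale Crest.Agent.R182.Nb

variable {Γ : Type*} [Group Γ] {k : ℕ} {S : Set Γ} {π : Γ →* Multiplicative (Fin k → ℤ)}

/-- elements of height zero of `C` are finely subdivided -/
def FineAll (M : BModel S π) : Prop := ∀ b ∈ M.C, ∀ v ∈ M.C, M.h v = 0 → Fine M.len b v

/-- `E ∩ C` is polynomially distorted in `C` -/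
def EDist (M : BModel S π) : Prop := ∀ R : ℝ, ∃ A : ℕ, ∀ l : List M.G,
  (∀ s ∈ l, s ∈ M.C ∧ M.len s ≤ R) → ∀ x : M.L, M.ex x = l.prod →
    ‖M.bas.equivFun x‖ ≤ A * (1 + l.length) ^ A

variable (M : BModel S π)

/-- norm of a product in `E` -/
theorem exists_nm_op : ∃ B : ℝ, 1 ≤ B ∧ ∀ (x y : M.L) (T : ℝ), 1 ≤ T → M.nm x ≤ T → M.nm y ≤ T →
    M.nm (M.star.op x y) ≤ B * T ^ M.c := by
  classical
  obtain ⟨A, hA, h1⟩ := M.star.exists_prod_poly (Fin M.r) M.c M.nilC
  obtain ⟨B, hB, h2⟩ := M.exists_nm_Bx (Fin M.r)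
  obtain ⟨t, ht1, ht⟩ : ∃ t : ℝ, 1 ≤ t ∧ ∀ i, M.nm (M.bas i) ≤ t := by
    refine ⟨1 + ∑ i, M.nm (M.bas i), ?_, fun i => ?_⟩
    · have : 0 ≤ ∑ i, M.nm (M.bas i) := Finset.sum_nonneg fun i _ => M.nm_nonneg _
      linarith
    · have := Finset.single_le_sum (f := fun i => M.nm (M.bas i)) (fun i _ => M.nm_nonneg _)
        (Finset.mem_univ i)
      linarith
  have hmem : ∀ (x : M.L) (T : ℝ), 1 ≤ T → M.nm x ≤ T →
      x ∈ Bx M.c (fun i => M.bas i) ((1 + M.r) * T) := by
    intro x T hT hx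
    have h3 : x = ∑ i, M.bas.repr x i • M.bas i := (M.bas.sum_repr x).symm
    rw [h3]
    have h4 := Bx_sum (c := M.c) (g := fun i => M.bas i) Finset.univ
      (fun i => M.bas.repr x i • M.bas i) (fun i => |M.bas.repr x i| * 1)
      (fun i _ => Bx_smul (gen_mem_Bx (M.nilC.nil _) i) _)
    refine Bx_mono ?_ h4
    calc ∑ i, |M.bas.repr x i| * 1 ≤ ∑ _i : Fin M.r, T := by
          refine Finset.sum_le_sum fun i _ => ?_
          rw [mul_one]
          exact (M.abs_repr_le x i).trans hx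
      _ = M.r * T := by rw [Finset.sum_const, Finset.card_univ, Fintype.card_fin, nsmul_eq_mul]
      _ ≤ _ := by nlinarith
  have hr : (1 : ℝ) ≤ 1 + M.r := by
    have : (0 : ℝ) ≤ M.r := Nat.cast_nonneg _
    linarith
  refine ⟨B * t ^ M.c * (A * (3 * (1 + M.r)) ^ M.c), ?_, fun x y T hT hx hy => ?_⟩
  · have e1 : (1 : ℝ) ≤ t ^ M.c := one_le_pow₀ ht1
    have e2 : (1 : ℝ) ≤ (3 * (1 + (M.r : ℝ))) ^ M.c := one_le_pow₀ (by linarith)
    have e3 : 1 ≤ B * t ^ M.c := by nlinarith
    have e4 : 1 ≤ A * (3 * (1 + (M.r : ℝ))) ^ M.c := by nlinarith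
    nlinarith
  · have hT' : 1 ≤ (1 + (M.r : ℝ)) * T := by nlinarith
    have h5 := h1 (fun i => M.bas i) ((1 + M.r) * T) hT' [x, y] (by
      intro z hz
      rcases List.mem_cons.1 hz with rfl | hz
      · exact hmem _ T hT hx
      · rw [List.mem_singleton] at hz
        subst hz
        exact hmem _ T hT hy)
    rw [Nb.Star.prod_cons, Nb.Star.prod_cons, Nb.Star.prod_nil, M.star.op_zero] at h5
    have h6 := h2 (fun i => M.bas i) t ht1 ht _ (by positivity) _ h5
    refine h6.trans (le_of_eq ?_)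
    simp only [List.length_cons, List.length_nil]
    push_cast
    have e1 : (1 + (0 + 1 + 1) : ℝ) * ((1 + M.r) * T) = (3 * (1 + M.r)) * T := by ring
    norm_num at e1 ⊢
    rw [e1, mul_pow]
    ring

/-- **Decomposition of a product** with control of the unipotent part by the heights. -/
theorem exists_list_dec (R : ℝ) : ∃ (A : ℝ) (E : ℕ), 1 ≤ A ∧ ∀ (ls : List M.G) (Z : ℝ), 0 ≤ Z →
    (∀ s ∈ ls, M.len s ≤ R) → (∀ j ≤ ls.length, ‖M.h (ls.take j).prod‖ ≤ Z) →
    ∃ (X : M.L) (l : List M.G), l.length = ls.length ∧ (∀ s ∈ l, s ∈ M.C ∧ M.len s ≤ A) ∧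
      ls.prod = M.ex X * l.prod ∧
      M.nm X ≤ A * (1 + ls.length : ℝ) ^ E * Real.exp (A * Z) := by
  classical
  obtain ⟨A, E, hA, h1⟩ := M.reach_mem R 0
  obtain ⟨B, hB, h2⟩ := M.exists_nm_Bx (GI M)
  obtain ⟨t, ht1, ht⟩ : ∃ t : ℝ, 1 ≤ t ∧ ∀ i : GI M, M.nm (eg M i) ≤ t := by
    refine ⟨1 + ∑ i, M.nm (eg M i), ?_, fun i => ?_⟩
    · have : 0 ≤ ∑ i, M.nm (eg M i) := Finset.sum_nonneg fun i _ => M.nm_nonneg _
      linarith
    · have := Finset.single_le_sum (f := fun i => M.nm (eg M i)) (fun i _ => M.nm_nonneg _)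
        (Finset.mem_univ i)
      linarith
  obtain ⟨W, hW0, hW⟩ : ∃ W : ℝ, 0 ≤ W ∧ ∀ (i : GI M) (v : Fin k → ℝ), wg M i v ≤ W * ‖v‖ := by
    have h3 : ∀ i : GI M, ∃ W : ℝ, 0 ≤ W ∧ ∀ v : Fin k → ℝ, wg M i v ≤ W * ‖v‖ := by
      intro i
      refine ⟨‖LinearMap.toContinuousLinearMap (wg M i)‖, norm_nonneg _, fun v => ?_⟩
      exact (le_abs_self _).trans ((LinearMap.toContinuousLinearMap (wg M i)).le_opNorm v)
    choose W hW0 hW using h3
    refine ⟨∑ i, W i, Finset.sum_nonneg fun i _ => hW0 i, fun i v => (hW i v).trans ?_⟩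
    exact mul_le_mul_of_nonneg_right (Finset.single_le_sum (f := W) (fun i _ => hW0 i)
      (Finset.mem_univ i)) (norm_nonneg _)
  set A' : ℝ := max A (B * t ^ M.c * A + M.c * W) with hA'
  have hA'A : A ≤ A' := le_max_left _ _
  have hA'0 : 0 ≤ A' := by linarith
  refine ⟨A', E, hA.trans hA'A, fun ls Z hZ hlen hht => ?_⟩
  obtain ⟨y, l, hl, hlC, hprod, hy⟩ := h1 (fun _ => W * Z) (fun j => (ls.take j).prod) ls.length 0 []
    (by simp) (by
      show (ls.take 0).prod = M.ex 0 * ([] : List M.G).prod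
      rw [List.take_zero, List.prod_nil, mul_one, M.ex_zero])
    (fun j hj => by
      show M.len ((ls.take j).prod⁻¹ * (ls.take (j + 1)).prod) ≤ R
      rw [List.take_succ_eq_append_getElem hj, List.prod_append, List.prod_singleton,
        inv_mul_cancel_left]
      exact hlen _ (List.getElem_mem hj))
    (fun j hj i => (hW i _).trans (mul_le_mul_of_nonneg_left (hht j hj) hW0))
  refine ⟨y, l, hl, fun s hs => ⟨(hlC s hs).1, (hlC s hs).2.trans hA'A⟩, ?_, ?_⟩
  · have h3 : (ls.take ls.length).prod = M.ex (M.star.op 0 y) * ([].prod * l.prod) := hprod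
    rw [List.take_length, M.star.zero_op, List.prod_nil, one_mul] at h3
    exact h3
  · have hexp : 1 ≤ Real.exp (W * Z) := Real.one_le_exp (by positivity)
    have h4 : 1 ≤ t * Real.exp (W * Z) := by nlinarith
    have h5 := h2 (gZ (eg M) fun _ => W * Z) (t * Real.exp (W * Z)) h4 (fun i => by
      show M.nm (Real.exp (W * Z) • eg M i) ≤ _
      rw [M.nm_smul, abs_of_pos (Real.exp_pos _), mul_comm]
      exact mul_le_mul_of_nonneg_right (ht i) (Real.exp_pos _).le) _ (by positivity) y hy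
    refine h5.trans ?_
    rw [mul_pow, ← Real.exp_nat_mul]
    simp only [List.length_nil, Nat.cast_zero, add_zero]
    have hn : (0 : ℝ) ≤ (1 + (ls.length : ℝ)) ^ E := by positivity
    have h6 : Real.exp (M.c * (W * Z)) ≤ Real.exp (A' * Z) := by
      refine Real.exp_le_exp.2 ?_
      have : (M.c : ℝ) * W ≤ A' := by
        refine le_trans ?_ (le_max_right _ _)
        have : 0 ≤ B * t ^ M.c * A := by positivity
        linarith
      nlinarith
    have h7 : B * t ^ M.c * A ≤ A' := by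
      refine le_trans ?_ (le_max_right _ _)
      have : 0 ≤ (M.c : ℝ) * W := by positivity
      linarith
    calc B * (t ^ M.c * Real.exp (M.c * (W * Z))) * (A * (1 + (ls.length : ℝ)) ^ E)
        = (B * t ^ M.c * A) * (1 + (ls.length : ℝ)) ^ E * Real.exp (M.c * (W * Z)) := by ring
      _ ≤ A' * (1 + (ls.length : ℝ)) ^ E * Real.exp (A' * Z) := by gcongr

theorem h_list_le (l : List M.G) : ‖M.h l.prod‖ ≤ (l.map fun s => ‖M.h s‖).sum := by
  induction l with
  | nil => rw [List.prod_nil, M.h_one, norm_zero]; simp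
  | cons s l ih =>
    rw [List.prod_cons, M.h_mul, List.map_cons, List.sum_cons]
    exact (norm_add_le _ _).trans (by linarith)

theorem h_take_le (l : List M.G) (j : ℕ) :
    ‖M.h (l.take j).prod‖ ≤ (l.map fun s => ‖M.h s‖).sum := by
  refine (h_list_le M _).trans ?_
  refine List.Sublist.sum_le_sum ((List.take_sublist j l).map _) ?_
  intro a ha
  obtain ⟨s, -, rfl⟩ := List.mem_map.1 ha
  exact norm_nonneg _

/-- exponential bookkeeping -/
theorem le_exp_mul {K u : ℝ} (hK : 0 ≤ K) (hu : 1 ≤ u) : K ≤ Real.exp (K * u) := by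
  have h1 := Real.add_one_le_exp K
  have h2 : Real.exp K ≤ Real.exp (K * u) := Real.exp_le_exp.2 (by nlinarith)
  linarith

theorem three_le_exp {u : ℝ} (hu : 1 ≤ u) : 3 ≤ Real.exp (2 * u) := by
  have h1 := Real.add_one_le_exp (2 * u)
  linarith

set_option maxHeartbeats 1600000 in
variable {M} in
/-- **the splitting of a lattice element** -/
theorem exists_split {A : Set Γ} {x : Fin k → Γ} (hE : EDist M) (hA : A.Finite)
    (hAk : ∀ a ∈ A, hgtR π a = 0) :
    ∃ as : ℝ, ∀ (y : Γ) (m : ℕ), y * (z x (hgt π y))⁻¹ ∈ A ^ m →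
    ∃ (e : M.L) (l : List M.G), M.ι y = M.ex e * l.prod ∧
      M.len (M.ex e) ≤
        as * ((n1 (hgt π y) : ℝ) + Real.log (2 + m) + Real.log (2 + wordLength S y)) ∧
      (l.length : ℝ) ≤ as * (wordLength S y + 1) ∧ ∀ s ∈ l, s ∈ M.C ∧ M.len s ≤ as := by
  classical
  have ha := M.one_le_a
  -- a common bound for the letters
  obtain ⟨R₁, hR₁⟩ : ∃ R₁ : ℝ, ∀ a ∈ A, M.len (M.ι a) ≤ R₁ := by
    obtain ⟨R₁, h⟩ := (hA.image fun a => M.len (M.ι a)).bddAbove
    exact ⟨R₁, fun a ha => h ⟨a, ha, rfl⟩⟩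
  set R : ℝ := M.a + |R₁| + ∑ i, M.len (M.ι (x i)) with hR
  have hRa : M.a ≤ R := by
    have : 0 ≤ ∑ i, M.len (M.ι (x i)) := Finset.sum_nonneg fun i _ => M.isLen.nonneg _
    have := abs_nonneg R₁
    linarith
  have hRA : ∀ a ∈ A, M.len (M.ι a) ≤ R := by
    intro a haA
    have h1 := hR₁ a haA
    have : 0 ≤ ∑ i, M.len (M.ι (x i)) := Finset.sum_nonneg fun i _ => M.isLen.nonneg _
    have := le_abs_self R₁
    linarith
  have hRx : ∀ i, M.len (M.ι (x i)) ≤ R := by
    intro i
    have h1 := Finset.single_le_sum (f := fun i => M.len (M.ι (x i)))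
      (fun i _ => M.isLen.nonneg _) (Finset.mem_univ i)
    have := abs_nonneg R₁
    have h2 : M.len (M.ι (x i)) ≤ ∑ i, M.len (M.ι (x i)) := h1
    linarith
  set c₁ : ℝ := ∑ i, ‖M.h (M.ι (x i))‖ with hc₁
  have hc₁0 : 0 ≤ c₁ := Finset.sum_nonneg fun i _ => norm_nonneg _
  have hcx : ∀ i, ‖M.h (M.ι (x i))‖ ≤ c₁ := fun i =>
    Finset.single_le_sum (f := fun i => ‖M.h (M.ι (x i))‖) (fun i _ => norm_nonneg _)
      (Finset.mem_univ i)
  obtain ⟨A₁, E, hA₁, hdec⟩ := exists_list_dec M R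
  obtain ⟨A₃, hA₃⟩ := hE A₁
  obtain ⟨B, hB, hop⟩ := exists_nm_op M
  -- exponents
  set α : ℝ := A₁ + 3 * E + A₁ * c₁ with hα
  set β : ℝ := A₃ + (5 + M.a) * A₃ with hβ
  set γ : ℝ := B + M.c * (α + β + 2) + 2 with hγ
  have hα0 : 0 ≤ α := by positivity
  have hβ0 : 0 ≤ β := by positivity
  have hγ0 : 0 ≤ γ := by positivity
  refine ⟨A₁ + M.a * γ + M.a, fun y m hy => ?_⟩
  set w : ℝ := (wordLength S y : ℝ) with hw
  have hw0 : 0 ≤ w := Nat.cast_nonneg _
  have hm0 : (0 : ℝ) ≤ m := Nat.cast_nonneg _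
  set n : ℝ := (n1 (hgt π y) : ℝ) with hn
  have hn0 : 0 ≤ n := Nat.cast_nonneg _
  set u : ℝ := n + Real.log (2 + m) + Real.log (2 + w) with hu
  have hlog2 : 0.6931471803 < Real.log 2 := Real.log_two_gt_d9
  have hlm : Real.log 2 ≤ Real.log (2 + m) := Real.log_le_log (by norm_num) (by linarith)
  have hlw : Real.log 2 ≤ Real.log (2 + w) := Real.log_le_log (by norm_num) (by linarith)
  have hu1 : 1 ≤ u := by rw [hu]; norm_num at hlog2 ⊢; linarith
  have hu0 : 0 ≤ u := by linarith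
  have hnu : n ≤ Real.exp u := by
    have h1 := Real.add_one_le_exp u
    have h2 : n ≤ u := by rw [hu]; linarith
    linarith
  have hmu : 2 + (m : ℝ) ≤ Real.exp u := by
    have h1 : Real.exp (Real.log (2 + m)) ≤ Real.exp u := Real.exp_le_exp.2 (by linarith)
    rwa [Real.exp_log (by linarith)] at h1
  have hwu : 2 + w ≤ Real.exp u := by
    have h1 : Real.exp (Real.log (2 + w)) ≤ Real.exp u := Real.exp_le_exp.2 (by linarith)
    rwa [Real.exp_log (by linarith)] at h1
  -- the first path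
  obtain ⟨l₁, hl₁, hl₁n, hl₁s⟩ := M.letters (M.ι y)
  have hl₁n' : (l₁.length : ℝ) ≤ M.a * w + 1 := hl₁n.trans (by
    have := M.len_ι y
    linarith)
  obtain ⟨X, l, hl, hlC, hX, -⟩ := hdec l₁ (l₁.map fun s => ‖M.h s‖).sum (List.sum_nonneg (by
      intro a ha
      obtain ⟨s, -, rfl⟩ := List.mem_map.1 ha
      exact norm_nonneg _)) (fun s hs => (hl₁s s hs).trans hRa) (fun j _ => h_take_le M l₁ j)
  rw [← hl₁] at hX
  -- the second path
  obtain ⟨f, hf⟩ := Set.mem_pow.1 hy
  set l₂ : List M.G := (List.ofFn fun i => (f i : Γ)).map M.ι ++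
    ((ms x (hgt π y)).toList).map M.ι with hl₂
  have hl₂p : l₂.prod = M.ι y := by
    rw [hl₂, List.prod_append, ← map_list_prod, ← map_list_prod, hf, ← map_mul]
    change M.ι (y * (z x (hgt π y))⁻¹ * z x (hgt π y)) = _
    rw [inv_mul_cancel_right]
  have hl₂n : (l₂.length : ℝ) = m + n := by
    rw [hl₂, List.length_append, List.length_map, List.length_map, List.length_ofFn,
      Multiset.length_toList, card_ms]
    push_cast
    rfl
  have hl₂s : ∀ s ∈ l₂, M.len s ≤ R := by
    intro s hs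
    rw [hl₂, List.mem_append, List.mem_map, List.mem_map] at hs
    rcases hs with ⟨g, hg, rfl⟩ | ⟨g, hg, rfl⟩
    · rw [List.mem_ofFn'] at hg
      obtain ⟨i, rfl⟩ := hg
      exact hRA _ (f i).2
    · obtain ⟨i, rfl | rfl⟩ := mem_ms (Multiset.mem_toList.1 hg)
      · exact hRx i
      · rw [map_inv, M.isLen.inv]; exact hRx i
  have hl₂h : (l₂.map fun s => ‖M.h s‖).sum ≤ c₁ * n := by
    rw [hl₂, List.map_append, List.sum_append]
    have h1 : (((List.ofFn fun i => (f i : Γ)).map M.ι).map fun s => ‖M.h s‖).sum = 0 := by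
      refine List.sum_eq_zero ?_
      intro a ha
      obtain ⟨s, hs, rfl⟩ := List.mem_map.1 ha
      obtain ⟨g, hg, rfl⟩ := List.mem_map.1 hs
      rw [List.mem_ofFn'] at hg
      obtain ⟨i, rfl⟩ := hg
      rw [M.h_ι, hAk _ (f i).2, norm_zero]
    have h2 : ((((ms x (hgt π y)).toList).map M.ι).map fun s => ‖M.h s‖).sum ≤ n * c₁ := by
      refine (List.sum_le_card_nsmul _ c₁ ?_).trans (le_of_eq ?_)
      · intro a ha
        obtain ⟨s, hs, rfl⟩ := List.mem_map.1 ha
        obtain ⟨g, hg, rfl⟩ := List.mem_map.1 hs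
        obtain ⟨i, rfl | rfl⟩ := mem_ms (Multiset.mem_toList.1 hg)
        · exact hcx i
        · rw [map_inv, OneScale.h_inv, norm_neg]; exact hcx i
      · rw [List.length_map, List.length_map, Multiset.length_toList, card_ms, nsmul_eq_mul]
    linarith
  obtain ⟨X', l', hl', hlC', hX', hX'n⟩ := hdec l₂ (c₁ * n) (by positivity) hl₂s
    (fun j _ => (h_take_le M l₂ j).trans hl₂h)
  rw [hl₂p] at hX'
  rw [hl₂n] at hX'n
  -- the difference
  have hl'n : (l'.length : ℝ) = m + n := by rw [hl', hl₂n]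
  have hln : (l.length : ℝ) ≤ M.a * w + 1 := by rw [hl]; exact hl₁n'
  have hdiff : M.ex (M.star.op (-X') X) = (l' ++ l.reverse.map (·⁻¹)).prod := by
    rw [M.ex_op, List.prod_append, M.prod_word_inv]
    have e1 : M.ex (-X') = (M.ex X')⁻¹ := by
      have e2 := M.ex_op (-X') X'
      rw [M.op_neg', M.ex_zero] at e2
      exact eq_inv_of_mul_eq_one_left e2.symm
    rw [e1]
    have e3 : M.ex X = M.ι y * l.prod⁻¹ := by rw [hX]; group
    have e4 : (M.ex X')⁻¹ * M.ι y = l'.prod := by rw [hX']; group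
    rw [e3, ← mul_assoc, e4]
  have hY := hA₃ (l' ++ l.reverse.map (·⁻¹)) (by
    intro s hs
    rcases List.mem_append.1 hs with hs | hs
    · exact hlC' s hs
    · exact M.word_inv hlC s hs) _ hdiff
  have hYn : ((l' ++ l.reverse.map (·⁻¹)).length : ℝ) ≤ m + n + M.a * w + 1 := by
    rw [List.length_append, List.length_map, List.length_reverse]
    push_cast
    linarith
  -- estimates
  have hX'1 : M.nm X' ≤ Real.exp (α * u) := by
    refine hX'n.trans ?_
    have e1 : (1 + (m + n)) ^ E ≤ Real.exp (3 * E * u) := by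
      have e2 : 1 + (m + n) ≤ Real.exp (3 * u) := by
        have e3 := three_le_exp hu1
        have e4 : Real.exp (3 * u) = Real.exp (2 * u) * Real.exp u := by
          rw [← Real.exp_add]; congr 1; ring
        have e5 := Real.exp_pos u
        rw [e4]
        have e6 : 1 + ((m : ℝ) + n) ≤ 3 * Real.exp u := by linarith
        exact e6.trans (mul_le_mul_of_nonneg_right e3 e5.le)
      calc (1 + (m + n)) ^ E ≤ (Real.exp (3 * u)) ^ E := pow_le_pow_left₀ (by positivity) e2 _
        _ = Real.exp (3 * E * u) := by rw [← Real.exp_nat_mul]; congr 1; ring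
    have e6 : Real.exp (A₁ * (c₁ * n)) ≤ Real.exp (A₁ * c₁ * u) := by
      refine Real.exp_le_exp.2 ?_
      have e7 : n ≤ u := by rw [hu]; linarith
      have e8 : 0 ≤ A₁ * c₁ := by positivity
      calc A₁ * (c₁ * n) = A₁ * c₁ * n := by ring
        _ ≤ _ := mul_le_mul_of_nonneg_left e7 e8
    calc A₁ * (1 + (m + n)) ^ E * Real.exp (A₁ * (c₁ * n))
        ≤ Real.exp (A₁ * u) * Real.exp (3 * E * u) * Real.exp (A₁ * c₁ * u) := by
          exact mul_le_mul (mul_le_mul (le_exp_mul (by linarith) hu1) e1 (by positivity)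
            (Real.exp_pos _).le) e6 (Real.exp_pos _).le (by positivity)
      _ = Real.exp (α * u) := by rw [← Real.exp_add, ← Real.exp_add]; congr 1; rw [hα]; ring
  have hY1 : M.nm (M.star.op (-X') X) ≤ Real.exp (β * u) := by
    refine hY.trans ?_
    have e1 : (1 + ((l' ++ l.reverse.map (·⁻¹)).length : ℝ)) ≤ Real.exp ((5 + M.a) * u) := by
      have e2 := le_exp_mul (show (0 : ℝ) ≤ 4 + M.a by linarith) hu1
      have e3 : Real.exp ((5 + M.a) * u) = Real.exp ((4 + M.a) * u) * Real.exp u := by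
        rw [← Real.exp_add]; congr 1; ring
      have e5 := Real.exp_pos u
      rw [e3]
      have e7 : M.a * w ≤ M.a * Real.exp u :=
        mul_le_mul_of_nonneg_left (by linarith) (by linarith)
      have e6 : m + n + M.a * w + 1 + 1 ≤ (4 + M.a) * Real.exp u := by
        rw [add_mul]
        linarith
      calc (1 + ((l' ++ l.reverse.map (·⁻¹)).length : ℝ)) ≤ m + n + M.a * w + 1 + 1 := by linarith
        _ ≤ (4 + M.a) * Real.exp u := e6
        _ ≤ _ := mul_le_mul_of_nonneg_right e2 e5.le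
    calc (A₃ : ℝ) * (1 + ((l' ++ l.reverse.map (·⁻¹)).length : ℝ)) ^ A₃
        ≤ Real.exp (A₃ * u) * (Real.exp ((5 + M.a) * u)) ^ A₃ := by
          exact mul_le_mul (le_exp_mul (Nat.cast_nonneg _) hu1)
            (pow_le_pow_left₀ (by positivity) e1 _) (by positivity) (Real.exp_pos _).le
      _ = Real.exp (β * u) := by
          rw [← Real.exp_nat_mul, ← Real.exp_add]; congr 1; rw [hβ]; ring
  have hXop : X = M.star.op X' (M.star.op (-X') X) := by
    rw [← M.star.assoc, M.star.op_neg, M.star.zero_op]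
  have hXn : M.nm X ≤ Real.exp ((B + M.c * (α + β + 2)) * u) := by
    have e1 : M.nm X' ≤ Real.exp ((α + β + 2) * u) :=
      hX'1.trans (Real.exp_le_exp.2 (by nlinarith))
    have e2 : M.nm (M.star.op (-X') X) ≤ Real.exp ((α + β + 2) * u) :=
      hY1.trans (Real.exp_le_exp.2 (by nlinarith))
    have e3 := hop X' (M.star.op (-X') X) _ (Real.one_le_exp (by positivity)) e1 e2
    rw [← hXop] at e3
    refine e3.trans ?_
    rw [← Real.exp_nat_mul]
    calc B * Real.exp (M.c * ((α + β + 2) * u)) ≤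
          Real.exp (B * u) * Real.exp (M.c * ((α + β + 2) * u)) :=
          mul_le_mul_of_nonneg_right (le_exp_mul (by linarith) hu1) (Real.exp_pos _).le
      _ = _ := by rw [← Real.exp_add]; congr 1; ring
  refine ⟨X, l, hX, ?_, ?_, fun s hs => ⟨(hlC s hs).1, (hlC s hs).2.trans ?_⟩⟩
  · refine (M.len_ex_nm X).trans ?_
    have e1 : 2 + M.nm X ≤ Real.exp (γ * u) := by
      have e2 := three_le_exp hu1
      have e3 : Real.exp (γ * u) =
          Real.exp (2 * u) * Real.exp ((B + M.c * (α + β + 2)) * u) := by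
        rw [← Real.exp_add]; congr 1; rw [hγ]; ring
      have e4 : 1 ≤ Real.exp ((B + M.c * (α + β + 2)) * u) := Real.one_le_exp (by positivity)
      rw [e3]
      nlinarith
    have e5 : Real.log (2 + M.nm X) ≤ γ * u := by
      have := M.nm_nonneg X
      rw [Real.log_le_iff_le_exp (by linarith)]
      exact e1
    calc M.a * Real.log (2 + M.nm X) ≤ M.a * (γ * u) :=
          mul_le_mul_of_nonneg_left e5 (by linarith)
      _ = (M.a * γ) * u := by ring
      _ ≤ (A₁ + M.a * γ + M.a) * u := mul_le_mul_of_nonneg_right (by linarith) hu0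
  · refine hln.trans ?_
    have e1 : 0 ≤ M.a * γ := by positivity
    nlinarith
  · have e1 : 0 ≤ M.a * γ := by positivity
    linarith

variable {M} in
/-- **The extension for every `BModel`.** -/
theorem exists_bExt {A : Set Γ} {x : Fin k → Γ} (hF : FineAll M) (hE : EDist M) (hA : A.Finite)
    (hAk : ∀ a ∈ A, hgtR π a = 0) : Nonempty (BExt M A x) := by
  obtain ⟨as, has⟩ := exists_split (x := x) hE hA hAk
  exact ⟨{
    sz := CLaw.szA M
    sz_nonneg := CLaw.szA_nonneg
    sz_inv := CLaw.szA_inv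
    fine := hF
    dec := CLaw.dec_szA
    growth := fun R => by
      obtain ⟨C, hC, h⟩ := CLaw.exists_szA M R
      exact ⟨C, fun l hl h0 => h l.length l.prod ⟨l, hl, le_rfl, rfl⟩ h0⟩
    as := as
    split := has }⟩

end Crest.Agent.R182.Bnd
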