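/-
R182, module POLYC: interface of the Auslander embedding (PC4) used by PC6.
-/
import Mathlib

set_option autoImplicit false

namespace Crest.Agent.R182.Polyc

/-- ordered product of powers -/
def prodE {Γ : Type*} [Group Γ] {r : ℕ} (a : Fin r → Γ) (e : Fin r → ℤ) : Γ :=
  (List.ofFn fun i => a i ^ e i).prod

/-- Integral matrix embedding of `Γ` with `N` unipotent and Mal'cev coordinates of `N` given by
linear functions of the matrix entries. -/
structure EmbData (Γ : Type*) [Group Γ] (N : Subgroup Γ) where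
  /-- size of the matrices -/
  n : ℕ
  /-- the embedding -/
  ρ : Γ →* Matrix (Fin n) (Fin n) ℤ
  inj : Function.Injective ρ
  unip : ∀ x ∈ N, (ρ x - 1) ^ n = 0
  /-- length of the Mal'cev basis -/
  r : ℕ
  /-- Mal'cev basis -/
  a : Fin r → Γ
  mem : ∀ i, a i ∈ N
  surj : ∀ x ∈ N, ∃ e : Fin r → ℤ, x = prodE a e
  /-- coordinates as linear functions of the matrix -/
  coord : Fin r → (Matrix (Fin n) (Fin n) ℤ →ₗ[ℤ] ℤ)
  coord_spec : ∀ (e : Fin r → ℤ) (i : Fin r), coord i (ρ (prodE a e)) = e i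
  /-- the subgroups `N_j` of elements with vanishing coordinates of index `≥ j` are normal in
  `N` -/
  normal : ∀ (j : ℕ) (e f : Fin r → ℤ), (∀ i : Fin r, j ≤ (i : ℕ) → e i = 0) →
    ∀ i : Fin r, j ≤ (i : ℕ) →
      coord i (ρ (prodE a f * prodE a e * (prodE a f)⁻¹)) = 0

end Crest.Agent.R182.Polyc
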