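/-
R182, module POLYC (PC6, part 1): polynomial functions, Zariski density of integer points,
real powers of unipotent matrices.
-/
import Mathlib

set_option autoImplicit false

namespace Crest.Agent.R182.Polyc

open MvPolynomial

section poly

variable {σ τ : Type*}

/-- Polynomial functions on `σ → ℝ`. -/
def IsPoly (f : (σ → ℝ) → ℝ) : Prop := ∃ p : MvPolynomial σ ℝ, ∀ x, f x = eval x p

theorem IsPoly.const (c : ℝ) : IsPoly (fun _ : σ → ℝ => c) := ⟨C c, fun x => by simp⟩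

theorem IsPoly.coord (i : σ) : IsPoly (fun x : σ → ℝ => x i) := ⟨X i, fun x => by simp⟩

theorem IsPoly.add {f g : (σ → ℝ) → ℝ} (hf : IsPoly f) (hg : IsPoly g) :
    IsPoly (fun x => f x + g x) := by
  obtain ⟨p, hp⟩ := hf
  obtain ⟨q, hq⟩ := hg
  exact ⟨p + q, fun x => by simp [hp, hq]⟩

theorem IsPoly.mul {f g : (σ → ℝ) → ℝ} (hf : IsPoly f) (hg : IsPoly g) :
    IsPoly (fun x => f x * g x) := by
  obtain ⟨p, hp⟩ := hf
  obtain ⟨q, hq⟩ := hg
  exact ⟨p * q, fun x => by simp [hp, hq]⟩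

theorem IsPoly.neg {f : (σ → ℝ) → ℝ} (hf : IsPoly f) : IsPoly (fun x => - f x) := by
  obtain ⟨p, hp⟩ := hf
  exact ⟨-p, fun x => by simp [hp]⟩

theorem IsPoly.sub {f g : (σ → ℝ) → ℝ} (hf : IsPoly f) (hg : IsPoly g) :
    IsPoly (fun x => f x - g x) := by
  obtain ⟨p, hp⟩ := hf
  obtain ⟨q, hq⟩ := hg
  exact ⟨p - q, fun x => by simp [hp, hq]⟩

theorem IsPoly.pow {f : (σ → ℝ) → ℝ} (hf : IsPoly f) (n : ℕ) : IsPoly (fun x => f x ^ n) := by
  obtain ⟨p, hp⟩ := hf
  exact ⟨p ^ n, fun x => by simp [hp]⟩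

theorem IsPoly.sum {ι : Type*} (s : Finset ι) {f : ι → (σ → ℝ) → ℝ} (hf : ∀ i ∈ s, IsPoly (f i)) :
    IsPoly (fun x => ∑ i ∈ s, f i x) := by
  classical
  induction s using Finset.induction_on with
  | empty => simpa using IsPoly.const (σ := σ) 0
  | @insert a s ha ih =>
    simp only [Finset.sum_insert ha]
    exact (hf a (Finset.mem_insert_self _ _)).add
      (ih fun i hi => hf i (Finset.mem_insert_of_mem hi))

/-- composition -/
theorem IsPoly.comp {f : (σ → ℝ) → ℝ} (hf : IsPoly f) {g : (τ → ℝ) → (σ → ℝ)}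
    (hg : ∀ i, IsPoly (fun y => g y i)) : IsPoly (fun y => f (g y)) := by
  obtain ⟨p, hp⟩ := hf
  have h1 : ∀ p : MvPolynomial σ ℝ, IsPoly (fun y => eval (g y) p) := by
    intro p
    induction p using MvPolynomial.induction_on with
    | C a => simpa using IsPoly.const (σ := τ) a
    | add p q hp hq => simpa using hp.add hq
    | mul_X p i hp => simpa using hp.mul (hg i)
  have h2 : (fun y => f (g y)) = fun y => eval (g y) p := funext fun y => hp (g y)
  rw [h2]
  exact h1 p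

/-- A polynomial vanishing on an infinite box `∏ s i` vanishes; here for natural points. -/
theorem IsPoly.eq_zero_of_nat {f : (σ → ℝ) → ℝ} (hf : IsPoly f)
    (h : ∀ z : σ → ℕ, f (fun i => (z i : ℝ)) = 0) (x : σ → ℝ) : f x = 0 := by
  obtain ⟨p, hp⟩ := hf
  have h1 : p = 0 := by
    refine MvPolynomial.funext_set (s := fun _ : σ => Set.range (fun k : ℕ => (k : ℝ)))
      (fun i => Set.infinite_range_of_injective Nat.cast_injective) ?_
    intro y hy
    have h2 : ∀ i, ∃ k : ℕ, (k : ℝ) = y i := fun i => hy i (Set.mem_univ i)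
    choose z hz using h2
    have h3 : y = fun i => (z i : ℝ) := by funext i; exact (hz i).symm
    rw [h3, ← hp, h]; simp
  rw [hp, h1]; simp

theorem IsPoly.eq_of_nat {f g : (σ → ℝ) → ℝ} (hf : IsPoly f) (hg : IsPoly g)
    (h : ∀ z : σ → ℕ, f (fun i => (z i : ℝ)) = g (fun i => (z i : ℝ))) (x : σ → ℝ) :
    f x = g x := by
  have := (hf.sub hg).eq_zero_of_nat (fun z => by simp [h z]) x
  linarith

theorem IsPoly.eq_of_int {f g : (σ → ℝ) → ℝ} (hf : IsPoly f) (hg : IsPoly g)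
    (h : ∀ z : σ → ℤ, f (fun i => (z i : ℝ)) = g (fun i => (z i : ℝ))) (x : σ → ℝ) :
    f x = g x := by
  refine hf.eq_of_nat hg (fun z => ?_) x
  have := h (fun i => (z i : ℤ))
  simpa using this

theorem IsPoly.continuous {f : (σ → ℝ) → ℝ} (hf : IsPoly f) : Continuous f := by
  obtain ⟨p, hp⟩ := hf
  have : f = fun x => eval x p := funext hp
  rw [this]
  exact MvPolynomial.continuous_eval p

end poly

section matrix

variable {σ τ : Type*} {n : ℕ}

/-- matrix valued polynomial functions -/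
def IsPolyM (f : (σ → ℝ) → Matrix (Fin n) (Fin n) ℝ) : Prop := ∀ i j, IsPoly (fun x => f x i j)

theorem IsPolyM.const (M : Matrix (Fin n) (Fin n) ℝ) : IsPolyM (fun _ : σ → ℝ => M) :=
  fun i j => IsPoly.const (M i j)

theorem IsPolyM.add {f g : (σ → ℝ) → Matrix (Fin n) (Fin n) ℝ} (hf : IsPolyM f)
    (hg : IsPolyM g) : IsPolyM (fun x => f x + g x) :=
  fun i j => (hf i j).add (hg i j)

theorem IsPolyM.sub {f g : (σ → ℝ) → Matrix (Fin n) (Fin n) ℝ} (hf : IsPolyM f)
    (hg : IsPolyM g) : IsPolyM (fun x => f x - g x) :=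
  fun i j => (hf i j).sub (hg i j)

theorem IsPolyM.neg {f : (σ → ℝ) → Matrix (Fin n) (Fin n) ℝ} (hf : IsPolyM f) :
    IsPolyM (fun x => - f x) :=
  fun i j => (hf i j).neg

theorem IsPolyM.mul {f g : (σ → ℝ) → Matrix (Fin n) (Fin n) ℝ} (hf : IsPolyM f)
    (hg : IsPolyM g) : IsPolyM (fun x => f x * g x) := by
  intro i j
  have : (fun x => (f x * g x) i j) = fun x => ∑ k, f x i k * g x k j := by
    funext x; rw [Matrix.mul_apply]
  rw [this]
  exact IsPoly.sum _ fun k _ => (hf i k).mul (hg k j)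

theorem IsPolyM.smul {c : (σ → ℝ) → ℝ} {f : (σ → ℝ) → Matrix (Fin n) (Fin n) ℝ}
    (hc : IsPoly c) (hf : IsPolyM f) : IsPolyM (fun x => c x • f x) :=
  fun i j => hc.mul (hf i j)

theorem IsPolyM.pow {f : (σ → ℝ) → Matrix (Fin n) (Fin n) ℝ} (hf : IsPolyM f) (k : ℕ) :
    IsPolyM (fun x => f x ^ k) := by
  induction k with
  | zero => simpa using IsPolyM.const (σ := σ) (1 : Matrix (Fin n) (Fin n) ℝ)
  | succ k ih =>
    simp only [pow_succ]
    exact ih.mul hf

theorem IsPolyM.sum {ι : Type*} (s : Finset ι) {f : ι → (σ → ℝ) → Matrix (Fin n) (Fin n) ℝ}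
    (hf : ∀ i ∈ s, IsPolyM (f i)) : IsPolyM (fun x => ∑ i ∈ s, f i x) := by
  classical
  induction s using Finset.induction_on with
  | empty => simpa using IsPolyM.const (σ := σ) (0 : Matrix (Fin n) (Fin n) ℝ)
  | @insert a s ha ih =>
    simp only [Finset.sum_insert ha]
    exact (hf a (Finset.mem_insert_self _ _)).add
      (ih fun i hi => hf i (Finset.mem_insert_of_mem hi))

theorem IsPolyM.listProd (l : List ((σ → ℝ) → Matrix (Fin n) (Fin n) ℝ))
    (hl : ∀ f ∈ l, IsPolyM f) : IsPolyM (fun x => (l.map (fun f => f x)).prod) := by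
  induction l with
  | nil => simpa using IsPolyM.const (σ := σ) (1 : Matrix (Fin n) (Fin n) ℝ)
  | cons f l ih =>
    simp only [List.map_cons, List.prod_cons]
    exact (hl f List.mem_cons_self).mul (ih fun g hg => hl g (List.mem_cons_of_mem _ hg))

theorem IsPolyM.comp {f : (σ → ℝ) → Matrix (Fin n) (Fin n) ℝ} (hf : IsPolyM f)
    {g : (τ → ℝ) → (σ → ℝ)} (hg : ∀ i, IsPoly (fun y => g y i)) :
    IsPolyM (fun y => f (g y)) :=
  fun i j => (hf i j).comp hg

/-- applying a linear functional -/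
theorem IsPolyM.linear {f : (σ → ℝ) → Matrix (Fin n) (Fin n) ℝ} (hf : IsPolyM f)
    (c : Matrix (Fin n) (Fin n) ℝ →ₗ[ℝ] ℝ) : IsPoly (fun x => c (f x)) := by
  have : (fun x => c (f x)) = fun x => ∑ i, ∑ j, f x i j * c (Matrix.single i j 1) := by
    funext x
    conv_lhs => rw [Matrix.matrix_eq_sum_single (f x)]
    rw [map_sum]
    refine Finset.sum_congr rfl fun i _ => ?_
    rw [map_sum]
    refine Finset.sum_congr rfl fun j _ => ?_
    have : Matrix.single i j (f x i j) = (f x i j) • Matrix.single i j (1 : ℝ) := by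
      rw [Matrix.smul_single]; simp
    rw [this, map_smul, smul_eq_mul]
  rw [this]
  exact IsPoly.sum _ fun i _ => IsPoly.sum _ fun j _ => (hf i j).mul (IsPoly.const _)

theorem IsPolyM.eq_of_nat {f g : (σ → ℝ) → Matrix (Fin n) (Fin n) ℝ} (hf : IsPolyM f)
    (hg : IsPolyM g) (h : ∀ z : σ → ℕ, f (fun i => (z i : ℝ)) = g (fun i => (z i : ℝ)))
    (x : σ → ℝ) : f x = g x := by
  ext i j
  exact (hf i j).eq_of_nat (hg i j) (fun z => by rw [h z]) x

theorem IsPolyM.eq_of_int {f g : (σ → ℝ) → Matrix (Fin n) (Fin n) ℝ} (hf : IsPolyM f)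
    (hg : IsPolyM g) (h : ∀ z : σ → ℤ, f (fun i => (z i : ℝ)) = g (fun i => (z i : ℝ)))
    (x : σ → ℝ) : f x = g x := by
  ext i j
  exact (hf i j).eq_of_int (hg i j) (fun z => by rw [h z]) x

theorem IsPolyM.continuous {f : (σ → ℝ) → Matrix (Fin n) (Fin n) ℝ} (hf : IsPolyM f) :
    Continuous f :=
  continuous_matrix fun i j => (hf i j).continuous

end matrix

section powers

variable {n : ℕ}

/-- generalized binomial coefficient, a polynomial in `t` -/
noncomputable def bin (t : ℝ) (k : ℕ) : ℝ := (descPochhammer ℝ k).eval t / k.factorial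

theorem isPoly_bin {σ : Type*} {f : (σ → ℝ) → ℝ} (hf : IsPoly f) (k : ℕ) :
    IsPoly (fun x => bin (f x) k) := by
  have h1 : ∀ q : Polynomial ℝ, IsPoly (fun x => q.eval (f x)) := by
    intro q
    have : (fun x => q.eval (f x)) = fun x => ∑ i ∈ Finset.range (q.natDegree + 1),
        q.coeff i * f x ^ i := by
      funext x; rw [Polynomial.eval_eq_sum_range]
    rw [this]
    exact IsPoly.sum _ fun i _ => (IsPoly.const _).mul (hf.pow i)
  have h2 := (h1 (descPochhammer ℝ k)).mul (IsPoly.const ((k.factorial : ℝ)⁻¹))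
  simpa [bin, div_eq_mul_inv] using h2

theorem bin_nat (m k : ℕ) : bin (m : ℝ) k = (m.choose k : ℝ) := by
  rw [bin, descPochhammer_eval_eq_descFactorial, Nat.descFactorial_eq_factorial_mul_choose]
  have : (k.factorial : ℝ) ≠ 0 := by exact_mod_cast k.factorial_ne_zero
  push_cast
  field_simp

/-- real powers of a unipotent matrix -/
noncomputable def pw (g : Matrix (Fin n) (Fin n) ℝ) (t : ℝ) : Matrix (Fin n) (Fin n) ℝ :=
  ∑ k ∈ Finset.range n, bin t k • (g - 1) ^ k

theorem isPolyM_pw {σ : Type*} (g : Matrix (Fin n) (Fin n) ℝ) {f : (σ → ℝ) → ℝ}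
    (hf : IsPoly f) : IsPolyM (fun x => pw g (f x)) :=
  IsPolyM.sum _ fun k _ => IsPolyM.smul (isPoly_bin hf k) (IsPolyM.const _)

theorem pw_nat {g : Matrix (Fin n) (Fin n) ℝ} (hg : (g - 1) ^ n = 0) (m : ℕ) :
    pw g (m : ℝ) = g ^ m := by
  have h1 : g ^ m = ((g - 1) + 1) ^ m := by simp
  rw [h1, (Commute.one_right (g - 1)).add_pow, pw]
  have h2 : ∀ k, bin (m : ℝ) k • (g - 1) ^ k =
      (g - 1) ^ k * 1 ^ (m - k) * ((m.choose k : ℕ) : Matrix (Fin n) (Fin n) ℝ) := by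
    intro k
    rw [bin_nat, one_pow, mul_one, ← nsmul_eq_mul', ← Nat.cast_smul_eq_nsmul ℝ]
  simp only [h2]
  -- both sums equal the sum over `range (max n (m+1))`
  have h3 : ∀ N, n ≤ N → ∑ k ∈ Finset.range N,
      (g - 1) ^ k * 1 ^ (m - k) * ((m.choose k : ℕ) : Matrix (Fin n) (Fin n) ℝ) =
      ∑ k ∈ Finset.range n,
      (g - 1) ^ k * 1 ^ (m - k) * ((m.choose k : ℕ) : Matrix (Fin n) (Fin n) ℝ) := by
    intro N hN
    refine (Finset.sum_subset (Finset.range_mono hN) ?_).symm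
    intro k _ hk
    rw [Finset.mem_range, not_lt] at hk
    rw [pow_eq_zero_of_le hk hg, zero_mul, zero_mul]
  have h4 : ∀ N, m + 1 ≤ N → ∑ k ∈ Finset.range N,
      (g - 1) ^ k * 1 ^ (m - k) * ((m.choose k : ℕ) : Matrix (Fin n) (Fin n) ℝ) =
      ∑ k ∈ Finset.range (m + 1),
      (g - 1) ^ k * 1 ^ (m - k) * ((m.choose k : ℕ) : Matrix (Fin n) (Fin n) ℝ) := by
    intro N hN
    refine (Finset.sum_subset (Finset.range_mono hN) ?_).symm
    intro k _ hk
    rw [Finset.mem_range, not_lt] at hk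
    rw [Nat.choose_eq_zero_of_lt (by omega), Nat.cast_zero, mul_zero]
  rw [← h3 (max n (m + 1)) (le_max_left _ _), h4 (max n (m + 1)) (le_max_right _ _)]

theorem pw_zero {g : Matrix (Fin n) (Fin n) ℝ} (hg : (g - 1) ^ n = 0) : pw g 0 = 1 := by
  have := pw_nat hg 0
  simpa using this

theorem pw_one {g : Matrix (Fin n) (Fin n) ℝ} (hg : (g - 1) ^ n = 0) : pw g 1 = g := by
  have := pw_nat hg 1
  simpa using this

theorem pw_add {g : Matrix (Fin n) (Fin n) ℝ} (hg : (g - 1) ^ n = 0) (s t : ℝ) :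
    pw g (s + t) = pw g s * pw g t := by
  have h1 : IsPolyM (fun x : Fin 2 → ℝ => pw g (x 0 + x 1)) :=
    isPolyM_pw g ((IsPoly.coord 0).add (IsPoly.coord 1))
  have h2 : IsPolyM (fun x : Fin 2 → ℝ => pw g (x 0) * pw g (x 1)) :=
    (isPolyM_pw g (IsPoly.coord 0)).mul (isPolyM_pw g (IsPoly.coord 1))
  have h3 := h1.eq_of_nat h2 (fun z => by
    simp only
    rw [← Nat.cast_add, pw_nat hg, pw_nat hg, pw_nat hg, pow_add]) ![s, t]
  simpa using h3

theorem pw_neg_mul {g : Matrix (Fin n) (Fin n) ℝ} (hg : (g - 1) ^ n = 0) (t : ℝ) :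
    pw g (-t) * pw g t = 1 := by
  rw [← pw_add hg, neg_add_cancel, pw_zero hg]

theorem pw_mul_neg {g : Matrix (Fin n) (Fin n) ℝ} (hg : (g - 1) ^ n = 0) (t : ℝ) :
    pw g t * pw g (-t) = 1 := by
  rw [← pw_add hg, add_neg_cancel, pw_zero hg]

end powers

end Crest.Agent.R182.Polyc
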