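/-
R182, module MODEL (M1, part 1): exponential and logarithm of nilpotent/unipotent matrices.
-/
import Mathlib
import Crest.Agent.R182.PolycReal

set_option autoImplicit false

namespace Crest.Agent.R182.Model

open Polyc

variable {n : ℕ}

/-- truncated exponential -/
noncomputable def ex (X : Matrix (Fin n) (Fin n) ℝ) : Matrix (Fin n) (Fin n) ℝ :=
  ∑ k ∈ Finset.range n, ((k.factorial : ℝ)⁻¹) • X ^ k

theorem ex_eq_exp {X : Matrix (Fin n) (Fin n) ℝ} (hX : X ^ n = 0) : ex X = IsNilpotent.exp X := by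
  rw [IsNilpotent.exp_eq_sum hX, ex]
  refine Finset.sum_congr rfl fun k _ => ?_
  ext i j
  simp [Matrix.smul_apply, Rat.smul_def]

theorem ex_add {X Y : Matrix (Fin n) (Fin n) ℝ} (hX : X ^ n = 0) (hY : Y ^ n = 0)
    (hXY : (X + Y) ^ n = 0) (h : Commute X Y) : ex (X + Y) = ex X * ex Y := by
  rw [ex_eq_exp hX, ex_eq_exp hY, ex_eq_exp hXY]
  exact IsNilpotent.exp_add_of_commute h ⟨n, hX⟩ ⟨n, hY⟩

theorem smul_pow_zero {X : Matrix (Fin n) (Fin n) ℝ} (hX : X ^ n = 0) (t : ℝ) :
    (t • X) ^ n = 0 := by rw [smul_pow, hX, smul_zero]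

theorem ex_add_smul {X : Matrix (Fin n) (Fin n) ℝ} (hX : X ^ n = 0) (s t : ℝ) :
    ex ((s + t) • X) = ex (s • X) * ex (t • X) := by
  rw [add_smul]
  refine ex_add (smul_pow_zero hX s) (smul_pow_zero hX t) ?_ ?_
  · rw [← add_smul]; exact smul_pow_zero hX _
  · exact ((Commute.refl X).smul_left s).smul_right t

theorem ex_zero : ex (0 : Matrix (Fin n) (Fin n) ℝ) = 1 := by
  rcases Nat.eq_zero_or_pos n with h | h
  · subst h; exact Subsingleton.elim _ _
  · rw [ex, Finset.sum_eq_single 0]
    · simp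
    · intro k _ hk
      rw [zero_pow hk, smul_zero]
    · intro h'; exact absurd (Finset.mem_range.mpr h) h'

theorem ex_mul_ex_neg {X : Matrix (Fin n) (Fin n) ℝ} (hX : X ^ n = 0) :
    ex X * ex (-X) = 1 := by
  have := ex_add_smul hX 1 (-1)
  rw [add_neg_cancel, zero_smul, ex_zero, one_smul, neg_smul, one_smul] at this
  exact this.symm

theorem ex_neg_mul_ex {X : Matrix (Fin n) (Fin n) ℝ} (hX : X ^ n = 0) :
    ex (-X) * ex X = 1 := by
  have := ex_add_smul hX (-1) 1
  rw [neg_add_cancel, zero_smul, ex_zero, one_smul, neg_smul, one_smul] at this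
  exact this.symm

theorem ex_nat {X : Matrix (Fin n) (Fin n) ℝ} (hX : X ^ n = 0) (m : ℕ) :
    ex ((m : ℝ) • X) = ex X ^ m := by
  induction m with
  | zero => simp [ex_zero]
  | succ m ih => rw [Nat.cast_succ, ex_add_smul hX, ih, one_smul, pow_succ]

/-- `ex X - 1` is `X` times something commuting -/
theorem ex_sub_one_pow {X : Matrix (Fin n) (Fin n) ℝ} (hX : X ^ n = 0) :
    (ex X - 1) ^ n = 0 := by
  obtain ⟨Y, hY, hXY⟩ : ∃ Y, ex X - 1 = X * Y ∧ Commute X Y := by
    rcases Nat.eq_zero_or_pos n with h | h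
    · subst h; exact ⟨1, Subsingleton.elim _ _, Commute.one_right _⟩
    · obtain ⟨m, rfl⟩ : ∃ m, n = m + 1 := ⟨n - 1, by omega⟩
      refine ⟨∑ k ∈ Finset.range m, (((k + 1).factorial : ℝ)⁻¹) • X ^ k, ?_, ?_⟩
      · rw [ex, Finset.sum_range_succ', Finset.mul_sum]
        simp only [Nat.factorial_zero, Nat.cast_one, inv_one, pow_zero, one_smul,
          add_sub_cancel_right]
        refine Finset.sum_congr rfl fun k _ => ?_
        rw [pow_succ', mul_smul_comm]
      · refine Commute.sum_right _ _ _ fun k _ => ?_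
        exact ((Commute.refl X).pow_right k).smul_right _
  rw [hY, hXY.mul_pow, hX, zero_mul]

theorem isPolyM_ex {σ : Type*} {f : (σ → ℝ) → Matrix (Fin n) (Fin n) ℝ} (hf : IsPolyM f) :
    IsPolyM (fun x => ex (f x)) :=
  IsPolyM.sum _ fun k _ => IsPolyM.smul (Polyc.IsPoly.const _) (hf.pow k)

/-- coefficients of the logarithm series -/
noncomputable def lc (k : ℕ) : ℝ := if k = 0 then 0 else (-1) ^ (k + 1) / k

/-- truncated logarithm -/
noncomputable def lg (g : Matrix (Fin n) (Fin n) ℝ) : Matrix (Fin n) (Fin n) ℝ :=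
  ∑ k ∈ Finset.range n, lc k • (g - 1) ^ k

theorem isPolyM_lg {σ : Type*} {f : (σ → ℝ) → Matrix (Fin n) (Fin n) ℝ} (hf : IsPolyM f) :
    IsPolyM (fun x => lg (f x)) :=
  IsPolyM.sum _ fun k _ => IsPolyM.smul (Polyc.IsPoly.const _) ((hf.sub (IsPolyM.const 1)).pow k)

/-- the linear coefficient of the falling factorial -/
theorem coeff_one_descPochhammer (k : ℕ) :
    (descPochhammer ℝ k).coeff 1 / k.factorial = lc k := by
  rcases Nat.eq_zero_or_pos k with h | h
  · subst h
    simp [lc, Polynomial.coeff_one]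
  · obtain ⟨m, rfl⟩ : ∃ m, k = m + 1 := ⟨k - 1, by omega⟩
    have h1 : (descPochhammer ℝ (m + 1)).coeff 1 =
        ((descPochhammer ℝ m).comp (Polynomial.X - 1)).coeff 0 := by
      rw [descPochhammer_succ_left, Polynomial.coeff_X_mul]
    have h2 : ((descPochhammer ℝ m).comp (Polynomial.X - 1)).coeff 0 =
        (-1) ^ m * (m.factorial : ℝ) := by
      rw [Polynomial.coeff_zero_eq_eval_zero, Polynomial.eval_comp]
      simp only [Polynomial.eval_sub, Polynomial.eval_X, Polynomial.eval_one, zero_sub]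
      induction m with
      | zero => simp
      | succ m ih =>
        rw [descPochhammer_succ_right, Polynomial.eval_mul, ih (by omega) (by
          rw [descPochhammer_succ_left, Polynomial.coeff_X_mul])]
        simp only [Polynomial.eval_sub, Polynomial.eval_X, Polynomial.eval_natCast,
          Nat.factorial_succ]
        push_cast
        ring
    rw [h1, h2, lc, if_neg (by omega), Nat.factorial_succ]
    have : (m.factorial : ℝ) ≠ 0 := by exact_mod_cast m.factorial_ne_zero
    have h3 : ((m : ℝ) + 1) ≠ 0 := by positivity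
    push_cast
    field_simp
    ring

theorem hasDerivAt_pw {g : Matrix (Fin n) (Fin n) ℝ} (i j : Fin n) :
    HasDerivAt (fun t : ℝ => pw g t i j) (lg g i j) 0 := by
  have h1 : (fun t : ℝ => pw g t i j) =
      fun t : ℝ => ∑ k ∈ Finset.range n, bin t k * ((g - 1) ^ k) i j := by
    funext t
    rw [pw, Matrix.sum_apply]
    rfl
  have h2 : lg g i j = ∑ k ∈ Finset.range n, lc k * ((g - 1) ^ k) i j := by
    rw [lg, Matrix.sum_apply]
    rfl
  rw [h1, h2]
  refine HasDerivAt.fun_sum fun k _ => ?_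
  refine HasDerivAt.mul_const ?_ _
  have h3 := (descPochhammer ℝ k).hasDerivAt (0 : ℝ)
  have h4 := h3.div_const (k.factorial : ℝ)
  have h5 : Polynomial.eval 0 (Polynomial.derivative (descPochhammer ℝ k)) / k.factorial =
      lc k := by
    rw [← coeff_one_descPochhammer]
    congr 1
    rw [← Polynomial.coeff_zero_eq_eval_zero, Polynomial.coeff_derivative]
    simp
  rw [h5] at h4
  exact h4

theorem hasDerivAt_ex_zero {X : Matrix (Fin n) (Fin n) ℝ} (hX : X ^ n = 0) (i j : Fin n) :
    HasDerivAt (fun t : ℝ => ex (t • X) i j) (X i j) 0 := by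
  have h1 : (fun t : ℝ => ex (t • X) i j) =
      fun t : ℝ => ∑ k ∈ Finset.range n, t ^ k * (((k.factorial : ℝ)⁻¹) * (X ^ k) i j) := by
    funext t
    rw [ex, Matrix.sum_apply]
    refine Finset.sum_congr rfl fun k _ => ?_
    rw [smul_pow, Matrix.smul_apply, Matrix.smul_apply, smul_eq_mul, smul_eq_mul]
    ring
  have h2 : X i j = ∑ k ∈ Finset.range n,
      (if k = 1 then (1 : ℝ) else 0) * (((k.factorial : ℝ)⁻¹) * (X ^ k) i j) := by
    rcases Nat.lt_or_ge 1 n with h | h
    · rw [Finset.sum_eq_single 1]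
      · simp
      · intro k _ hk
        rw [if_neg hk, zero_mul]
      · intro h'; exact absurd (Finset.mem_range.mpr h) h'
    · have h3 : X = 0 := by
        have : X ^ 1 = 0 := by
          have := pow_eq_zero_of_le h hX
          exact this
        simpa using this
      rw [h3]
      symm
      apply Finset.sum_eq_zero
      intro k hk
      rw [Finset.mem_range] at hk
      rw [if_neg (by omega), zero_mul]
  rw [h1, h2]
  refine HasDerivAt.fun_sum fun k _ => ?_
  refine HasDerivAt.mul_const ?_ _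
  have h3 := hasDerivAt_pow k (0 : ℝ)
  have h4 : (k : ℝ) * 0 ^ (k - 1) = if k = 1 then (1 : ℝ) else 0 := by
    split_ifs with h
    · subst h; simp
    · rcases Nat.eq_zero_or_pos k with h' | h'
      · subst h'; simp
      · rw [zero_pow (by omega), mul_zero]
  rw [h4] at h3
  exact h3

/-- derivative of a one-parameter group from the derivative at zero -/
theorem hasDerivAt_of_group {F : ℝ → Matrix (Fin n) (Fin n) ℝ}
    (hF : ∀ s t, F (s + t) = F s * F t) {A : Matrix (Fin n) (Fin n) ℝ}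
    (h0 : ∀ i j, HasDerivAt (fun s => F s i j) (A i j) 0) (t : ℝ) (i j : Fin n) :
    HasDerivAt (fun s => F s i j) ((A * F t) i j) t := by
  have h1 : HasDerivAt (fun s => ∑ k, F s i k * F t k j) (∑ k, A i k * F t k j) 0 :=
    HasDerivAt.fun_sum fun k _ => (h0 i k).mul_const _
  have h2 : (fun s => ∑ k, F s i k * F t k j) = fun s => F (s + t) i j := by
    funext s
    rw [hF, Matrix.mul_apply]
  rw [h2] at h1
  have h3 : (A * F t) i j = ∑ k, A i k * F t k j := Matrix.mul_apply
  rw [h3]
  have h4 : HasDerivAt (fun s => F s i j) (∑ k, A i k * F t k j) (0 + t) := by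
    have h5 : HasDerivAt (fun s => F (s + t) i j) (∑ k, A i k * F t k j) (t - t) := by
      rw [sub_self]; exact h1
    have h6 := HasDerivAt.comp_sub_const (x := t) (a := t) h5
    simp only [sub_add_cancel] at h6
    rw [zero_add]; exact h6
  rwa [zero_add] at h4

theorem lg_pow_zero {g : Matrix (Fin n) (Fin n) ℝ} (hg : (g - 1) ^ n = 0) :
    (lg g) ^ n = 0 := by
  obtain ⟨Y, hY, hXY⟩ : ∃ Y, lg g = (g - 1) * Y ∧ Commute (g - 1) Y := by
    rcases Nat.eq_zero_or_pos n with h | h
    · subst h; exact ⟨1, Subsingleton.elim _ _, Commute.one_right _⟩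
    · obtain ⟨m, rfl⟩ : ∃ m, n = m + 1 := ⟨n - 1, by omega⟩
      refine ⟨∑ k ∈ Finset.range m, lc (k + 1) • (g - 1) ^ k, ?_, ?_⟩
      · have lc0 : lc 0 = 0 := by simp [lc]
        rw [lg, Finset.sum_range_succ', Finset.mul_sum, lc0, zero_smul, add_zero]
        refine Finset.sum_congr rfl fun k _ => ?_
        rw [pow_succ', mul_smul_comm]
      · refine Commute.sum_right _ _ _ fun k _ => ?_
        exact ((Commute.refl (g - 1)).pow_right k).smul_right _
  rw [hY, hXY.mul_pow, hg, zero_mul]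

theorem commute_ex {X Y : Matrix (Fin n) (Fin n) ℝ} (h : Commute X Y) : Commute X (ex Y) :=
  Commute.sum_right _ _ _ fun k _ => (h.pow_right k).smul_right _

/-- The real power is the exponential of the logarithm. -/
theorem pw_eq_ex {g : Matrix (Fin n) (Fin n) ℝ} (hg : (g - 1) ^ n = 0) (t : ℝ) :
    pw g t = ex (t • lg g) := by
  set L := lg g with hL
  have hLn : L ^ n = 0 := lg_pow_zero hg
  have hLn' : (-L) ^ n = 0 := by rw [neg_pow, hLn, mul_zero]
  -- derivative of the product
  have h1 : ∀ t i j, HasDerivAt (fun s => pw g s i j) ((L * pw g t) i j) t := fun t i j =>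
    hasDerivAt_of_group (pw_add hg) (fun i j => hasDerivAt_pw i j) t i j
  have h2 : ∀ t i j, HasDerivAt (fun s : ℝ => ex (s • (-L)) i j)
      (((-L) * ex (t • (-L))) i j) t := fun t i j =>
    hasDerivAt_of_group (F := fun s => ex (s • (-L))) (fun s t => ex_add_smul hLn' s t)
      (fun i j => hasDerivAt_ex_zero hLn' i j) t i j
  have h3 : ∀ t i j, HasDerivAt (fun s : ℝ => (ex (s • (-L)) * pw g s) i j) 0 t := by
    intro t i j
    have e1 : (fun s : ℝ => (ex (s • (-L)) * pw g s) i j) =
        fun s : ℝ => ∑ k, ex (s • (-L)) i k * pw g s k j := by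
      funext s; rw [Matrix.mul_apply]
    have h4 : HasDerivAt (fun s : ℝ => ∑ k, ex (s • (-L)) i k * pw g s k j)
        (∑ k, (((-L) * ex (t • (-L))) i k * pw g t k j +
          ex (t • (-L)) i k * (L * pw g t) k j)) t :=
      HasDerivAt.fun_sum fun k _ => (h2 t i k).mul (h1 t k j)
    rw [e1]
    have e2 : (∑ k, (((-L) * ex (t • (-L))) i k * pw g t k j +
          ex (t • (-L)) i k * (L * pw g t) k j)) = 0 := by
      rw [Finset.sum_add_distrib, ← Matrix.mul_apply, ← Matrix.mul_apply]
      have hc : Commute L (ex (t • (-L))) :=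
        commute_ex (((Commute.refl L).neg_right).smul_right t)
      have : (-L) * ex (t • (-L)) * pw g t = - (ex (t • (-L)) * (L * pw g t)) := by
        rw [neg_mul, neg_mul, hc.eq, mul_assoc]
      rw [this, Matrix.neg_apply, neg_add_cancel]
    rw [e2] at h4
    exact h4
  have h5 : ∀ t, ex (t • (-L)) * pw g t = 1 := by
    intro t
    ext i j
    have h6 : ∀ x, deriv (fun s : ℝ => (ex (s • (-L)) * pw g s) i j) x = 0 := fun x =>
      (h3 x i j).deriv
    have h7 := is_const_of_deriv_eq_zero (fun x => (h3 x i j).differentiableAt) h6 t 0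
    rw [h7, zero_smul, ex_zero, pw_zero hg, one_mul]
  have h8 := ex_mul_ex_neg (smul_pow_zero hLn t)
  calc pw g t = (ex (t • L) * ex (-(t • L))) * pw g t := by rw [h8, one_mul]
    _ = ex (t • L) * (ex (t • (-L)) * pw g t) := by rw [mul_assoc, smul_neg]
    _ = ex (t • L) := by rw [h5, mul_one]

theorem ex_lg {g : Matrix (Fin n) (Fin n) ℝ} (hg : (g - 1) ^ n = 0) : ex (lg g) = g := by
  have := pw_eq_ex hg 1
  rw [pw_one hg, one_smul] at this
  exact this.symm

theorem lg_ex {X : Matrix (Fin n) (Fin n) ℝ} (hX : X ^ n = 0) : lg (ex X) = X := by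
  have hg := ex_sub_one_pow hX
  -- real powers of `ex X`
  have h1 : ∀ t : ℝ, pw (ex X) t = ex (t • X) := by
    intro t
    have hf : IsPolyM (fun x : Fin 1 → ℝ => pw (ex X) (x 0)) :=
      isPolyM_pw _ (Polyc.IsPoly.coord 0)
    have hg' : IsPolyM (fun x : Fin 1 → ℝ => ex (x 0 • X)) :=
      isPolyM_ex (IsPolyM.smul (Polyc.IsPoly.coord 0) (IsPolyM.const X))
    exact hf.eq_of_nat hg' (fun z => by
      simp only
      rw [pw_nat hg, ex_nat hX]) (fun _ => t)
  ext i j
  have h2 := hasDerivAt_pw (g := ex X) i j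
  have h3 := hasDerivAt_ex_zero hX i j
  have h4 : (fun t : ℝ => pw (ex X) t i j) = fun t : ℝ => ex (t • X) i j := by
    funext t; rw [h1]
  rw [h4] at h2
  exact h2.unique h3

theorem lg_pw {g : Matrix (Fin n) (Fin n) ℝ} (hg : (g - 1) ^ n = 0) (t : ℝ) :
    lg (pw g t) = t • lg g := by
  rw [pw_eq_ex hg, lg_ex (smul_pow_zero (lg_pow_zero hg) t)]

theorem conj_pow {A B X : Matrix (Fin n) (Fin n) ℝ} (hBA : B * A = 1) (k : ℕ)
    (hk : 0 < k) : (A * X * B) ^ k = A * X ^ k * B := by
  induction k with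
  | zero => exact absurd hk (lt_irrefl _)
  | succ k ih =>
    rcases Nat.eq_zero_or_pos k with h | h
    · subst h; simp
    · rw [pow_succ, ih h, pow_succ]
      calc A * X ^ k * B * (A * X * B) = A * X ^ k * (B * A) * X * B := by
            simp only [mul_assoc]
        _ = A * (X ^ k * X) * B := by rw [hBA, mul_one]; simp only [mul_assoc]

theorem ex_conj {A B X : Matrix (Fin n) (Fin n) ℝ} (hAB : A * B = 1) (hBA : B * A = 1) :
    ex (A * X * B) = A * ex X * B := by
  rw [ex, ex, Finset.mul_sum, Finset.sum_mul]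
  refine Finset.sum_congr rfl fun k _ => ?_
  rcases Nat.eq_zero_or_pos k with h | h
  · subst h; simp [hAB]
  · rw [conj_pow hBA k h, mul_smul_comm, smul_mul_assoc]

theorem ex_neg {X : Matrix (Fin n) (Fin n) ℝ} (hX : X ^ n = 0) :
    IsUnit (ex X) := by
  exact ⟨⟨ex X, ex (-X), ex_mul_ex_neg hX, ex_neg_mul_ex hX⟩, rfl⟩

/-- exponential as a unit -/
noncomputable def exU (X : Matrix (Fin n) (Fin n) ℝ) (hX : X ^ n = 0) :
    (Matrix (Fin n) (Fin n) ℝ)ˣ :=
  ⟨ex X, ex (-X), ex_mul_ex_neg hX, ex_neg_mul_ex hX⟩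

end Crest.Agent.R182.Model
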