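/-
R182, module MODEL (M1, part 3): calculus of polynomial matrix curves.
-/
import Mathlib
import Crest.Agent.R182.ModelLie

set_option autoImplicit false

namespace Crest.Agent.R182.Model

open Polyc

variable {n : ℕ}

/-- entrywise derivative of a matrix curve -/
def HDM (f : ℝ → Matrix (Fin n) (Fin n) ℝ) (A : Matrix (Fin n) (Fin n) ℝ) (s : ℝ) : Prop :=
  ∀ i j, HasDerivAt (fun s => f s i j) (A i j) s

namespace HDM

variable {f g : ℝ → Matrix (Fin n) (Fin n) ℝ} {A B : Matrix (Fin n) (Fin n) ℝ} {s : ℝ}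

theorem const (M : Matrix (Fin n) (Fin n) ℝ) (s : ℝ) : HDM (fun _ => M) 0 s :=
  fun i j => hasDerivAt_const s (M i j)

theorem add (hf : HDM f A s) (hg : HDM g B s) : HDM (fun s => f s + g s) (A + B) s :=
  fun i j => (hf i j).add (hg i j)

theorem sub (hf : HDM f A s) (hg : HDM g B s) : HDM (fun s => f s - g s) (A - B) s :=
  fun i j => (hf i j).sub (hg i j)

theorem neg (hf : HDM f A s) : HDM (fun s => - f s) (-A) s :=
  fun i j => (hf i j).neg

theorem mul (hf : HDM f A s) (hg : HDM g B s) :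
    HDM (fun s => f s * g s) (A * g s + f s * B) s := by
  intro i j
  have h1 : (fun s => (f s * g s) i j) = fun s => ∑ k, f s i k * g s k j := by
    funext s; rw [Matrix.mul_apply]
  have h2 : (A * g s + f s * B) i j = ∑ k, (A i k * g s k j + f s i k * B k j) := by
    rw [Matrix.add_apply, Matrix.mul_apply, Matrix.mul_apply, Finset.sum_add_distrib]
  rw [h1, h2]
  exact HasDerivAt.fun_sum fun k _ => (hf i k).mul (hg k j)

theorem smul {c : ℝ → ℝ} {c' : ℝ} (hc : HasDerivAt c c' s) (hf : HDM f A s) :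
    HDM (fun s => c s • f s) (c' • f s + c s • A) s := by
  intro i j
  exact hc.mul (hf i j)

theorem const_smul (c : ℝ) (hf : HDM f A s) : HDM (fun s => c • f s) (c • A) s :=
  fun i j => (hf i j).const_mul c

theorem const_mul (M : Matrix (Fin n) (Fin n) ℝ) (hf : HDM f A s) :
    HDM (fun s => M * f s) (M * A) s := by
  have := (const M s).mul hf
  rwa [zero_mul, zero_add] at this

theorem mul_const (hf : HDM f A s) (M : Matrix (Fin n) (Fin n) ℝ) :
    HDM (fun s => f s * M) (A * M) s := by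
  have := hf.mul (const M s)
  rwa [mul_zero, add_zero] at this

theorem sum {ι : Type*} (u : Finset ι) {f : ι → ℝ → Matrix (Fin n) (Fin n) ℝ}
    {A : ι → Matrix (Fin n) (Fin n) ℝ} (h : ∀ i ∈ u, HDM (f i) (A i) s) :
    HDM (fun s => ∑ i ∈ u, f i s) (∑ i ∈ u, A i) s := by
  intro i j
  have h1 : (fun s => (∑ k ∈ u, f k s) i j) = fun s => ∑ k ∈ u, f k s i j := by
    funext s; rw [Matrix.sum_apply]
  rw [h1, Matrix.sum_apply]
  exact HasDerivAt.fun_sum fun k hk => h k hk i j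

theorem unique (hf : HDM f A s) (hg : HDM f B s) : A = B := by
  ext i j
  exact (hf i j).unique (hg i j)

theorem congr (hf : HDM f A s) (h : ∀ s, g s = f s) : HDM g A s := by
  have : g = f := funext h
  rw [this]; exact hf

theorem congr_deriv (hf : HDM f A s) (h : A = B) : HDM f B s := h ▸ hf

theorem comp_add (t : ℝ) (hf : HDM f A (s + t)) : HDM (fun s => f (s + t)) A s :=
  fun i j => HasDerivAt.comp_add_const s t (hf i j)

theorem linear (F : Matrix (Fin n) (Fin n) ℝ →ₗ[ℝ] ℝ) (hf : HDM f A s) :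
    HasDerivAt (fun s => F (f s)) (F A) s := by
  have key : ∀ M : Matrix (Fin n) (Fin n) ℝ, F M = ∑ i, ∑ j, M i j * F (Matrix.single i j 1) := by
    intro M
    conv_lhs => rw [Matrix.matrix_eq_sum_single M]
    rw [map_sum]
    refine Finset.sum_congr rfl fun i _ => ?_
    rw [map_sum]
    refine Finset.sum_congr rfl fun j _ => ?_
    have : Matrix.single i j (M i j) = M i j • Matrix.single i j (1 : ℝ) := by
      rw [Matrix.smul_single, smul_eq_mul, mul_one]
    rw [this, map_smul, smul_eq_mul]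
  have h1 : (fun s => F (f s)) = fun s => ∑ i, ∑ j, f s i j * F (Matrix.single i j 1) := by
    funext s; exact key _
  rw [h1, key A]
  exact HasDerivAt.fun_sum fun i _ => HasDerivAt.fun_sum fun j _ => (hf i j).mul_const _

end HDM

/-- a polynomial curve has a polynomial derivative -/
theorem PCM.exists_deriv {f : ℝ → Matrix (Fin n) (Fin n) ℝ} (hf : PCM f) :
    ∃ f' : ℝ → Matrix (Fin n) (Fin n) ℝ, PCM f' ∧ ∀ s, HDM f (f' s) s := by
  choose q hq using fun i j => PC1.exists_poly (f := fun s => f s i j) (hf i j)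
  refine ⟨fun s => Matrix.of fun i j => (Polynomial.derivative (q i j)).eval s, ?_, ?_⟩
  · intro i j
    exact PC1.of_poly _
  · intro s i j
    have h2 : (fun s => f s i j) = fun s => (q i j).eval s := funext (hq i j)
    rw [h2]
    exact (q i j).hasDerivAt s

theorem PCM.comp_add {f : ℝ → Matrix (Fin n) (Fin n) ℝ} (hf : PCM f) (t : ℝ) :
    PCM (fun s => f (s + t)) :=
  IsPolyM.comp (f := fun x : Fin 1 → ℝ => f (x 0)) hf
    (g := fun (y : Fin 1 → ℝ) (_ : Fin 1) => y 0 + t)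
    (fun _ => (IsPoly.coord 0).add (Polyc.IsPoly.const t))

theorem PCM.of_const (M : Matrix (Fin n) (Fin n) ℝ) : PCM (fun _ => M) := IsPolyM.const M

theorem PCM.of_smul (M : Matrix (Fin n) (Fin n) ℝ) : PCM (fun s => s • M) :=
  IsPolyM.smul (IsPoly.coord 0) (IsPolyM.const M)

theorem PCM.mul {f g : ℝ → Matrix (Fin n) (Fin n) ℝ} (hf : PCM f) (hg : PCM g) :
    PCM (fun s => f s * g s) := IsPolyM.mul hf hg

theorem PCM.add {f g : ℝ → Matrix (Fin n) (Fin n) ℝ} (hf : PCM f) (hg : PCM g) :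
    PCM (fun s => f s + g s) := IsPolyM.add hf hg

theorem PCM.sub {f g : ℝ → Matrix (Fin n) (Fin n) ℝ} (hf : PCM f) (hg : PCM g) :
    PCM (fun s => f s - g s) := IsPolyM.sub hf hg

/-- a differentiable curve starting in a subspace with derivative in the subspace stays in it -/
theorem mem_of_deriv_mem {L : Submodule ℝ (Matrix (Fin n) (Fin n) ℝ)}
    {f f' : ℝ → Matrix (Fin n) (Fin n) ℝ} (hf : ∀ s, HDM f (f' s) s) (h0 : f 0 ∈ L)
    (h : ∀ s, f' s ∈ L) (s : ℝ) : f s ∈ L := by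
  by_contra hcon
  obtain ⟨ℓ, hℓ1, hℓ2⟩ := Submodule.exists_le_ker_of_notMem hcon
  apply hℓ1
  have h1 : ∀ s, HasDerivAt (fun s => ℓ (f s)) 0 s := by
    intro s
    have h2 := (hf s).linear ℓ
    have h3 : ℓ (f' s) = 0 := hℓ2 (h s)
    rwa [h3] at h2
  have h2 := is_const_of_deriv_eq_zero (f := fun s => ℓ (f s))
    (fun s => (h1 s).differentiableAt) (fun s => (h1 s).deriv) s 0
  rw [h2]
  exact hℓ2 h0

/-- derivative of a polynomial curve in a subspace -/
theorem deriv_mem' {L : Submodule ℝ (Matrix (Fin n) (Fin n) ℝ)}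
    {f : ℝ → Matrix (Fin n) (Fin n) ℝ} (hf : PCM f) (hL : ∀ s, f s ∈ L)
    {A : Matrix (Fin n) (Fin n) ℝ} {s : ℝ} (hA : HDM f A s) : A ∈ L := by
  refine deriv_mem (hf.comp_add s) (fun t => hL _) (A := A) ?_
  exact HDM.comp_add s (by rwa [zero_add])

/-- derivative of the powers of a curve at a point -/
def dpow (Z W : Matrix (Fin n) (Fin n) ℝ) : ℕ → Matrix (Fin n) (Fin n) ℝ
  | 0 => 0
  | k + 1 => dpow Z W k * Z + Z ^ k * W

theorem HDM.pow {f : ℝ → Matrix (Fin n) (Fin n) ℝ} {A : Matrix (Fin n) (Fin n) ℝ} {s : ℝ}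
    (hf : HDM f A s) (k : ℕ) : HDM (fun s => f s ^ k) (dpow (f s) A k) s := by
  induction k with
  | zero => simpa [dpow] using HDM.const 1 s
  | succ k ih => simpa [dpow, pow_succ] using ih.mul hf

/-- derivative of the exponential -/
noncomputable def dex (u : ℝ) (Z W : Matrix (Fin n) (Fin n) ℝ) : Matrix (Fin n) (Fin n) ℝ :=
  ∑ k ∈ Finset.range n, (((k.factorial : ℝ)⁻¹) * u ^ k) • dpow Z W k

theorem HDM.ex {f : ℝ → Matrix (Fin n) (Fin n) ℝ} {A : Matrix (Fin n) (Fin n) ℝ} {s : ℝ}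
    (hf : HDM f A s) (u : ℝ) : HDM (fun s => ex (u • f s)) (dex u (f s) A) s := by
  have h1 : ∀ s, Model.ex (u • f s) = ∑ k ∈ Finset.range n,
      (((k.factorial : ℝ)⁻¹) * u ^ k) • f s ^ k := by
    intro s
    rw [Model.ex]
    refine Finset.sum_congr rfl fun k _ => ?_
    rw [smul_pow, smul_smul]
  exact (HDM.sum _ fun k _ => (hf.pow k).const_smul _).congr h1

theorem pcm_dex (Z W : Matrix (Fin n) (Fin n) ℝ) : PCM (fun u => dex u Z W) :=
  IsPolyM.sum _ fun _ _ => IsPolyM.smul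
    ((Polyc.IsPoly.const _).mul ((IsPoly.coord 0).pow _)) (IsPolyM.const _)

theorem dex_zero (Z W : Matrix (Fin n) (Fin n) ℝ) : dex 0 Z W = 0 := by
  apply Finset.sum_eq_zero
  intro k _
  rcases Nat.eq_zero_or_pos k with hk | hk
  · subst hk; simp [dpow]
  · rw [zero_pow (by omega), mul_zero, zero_smul]

theorem hdm_dex_zero (Z W : Matrix (Fin n) (Fin n) ℝ) (hn : n ≤ 1 → W = 0) :
    HDM (fun u => dex u Z W) W 0 := by
  have h1 : W = ∑ k ∈ Finset.range n, (((k.factorial : ℝ)⁻¹) * (k * (0 : ℝ) ^ (k - 1))) •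
      dpow Z W k := by
    rcases Nat.lt_or_ge 1 n with h | h
    · rw [Finset.sum_eq_single 1]
      · simp [dpow]
      · intro k _ hk
        rcases Nat.eq_zero_or_pos k with h' | h'
        · subst h'; simp
        · rw [zero_pow (by omega), mul_zero, mul_zero, zero_smul]
      · intro h'; exact absurd (Finset.mem_range.mpr h) h'
    · rw [hn h]
      symm
      apply Finset.sum_eq_zero
      intro k hk
      rw [Finset.mem_range] at hk
      have : k = 0 := by omega
      subst this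
      simp
  have h2 : HDM (fun u => dex u Z W) (∑ k ∈ Finset.range n,
      (((k.factorial : ℝ)⁻¹) * (k * (0 : ℝ) ^ (k - 1))) • dpow Z W k) 0 := by
    refine HDM.sum _ fun k _ => ?_
    have h3 := HDM.smul (((hasDerivAt_pow k (0 : ℝ)).const_mul ((k.factorial : ℝ)⁻¹)))
      (HDM.const (dpow Z W k) 0)
    rwa [smul_zero, add_zero] at h3
  exact h2.congr_deriv h1.symm

/-- the cocycle identity -/
theorem dex_add {f : ℝ → Matrix (Fin n) (Fin n) ℝ} {A : Matrix (Fin n) (Fin n) ℝ} {s : ℝ}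
    (hf : HDM f A s) (hnil : ∀ s, f s ^ n = 0) (u v : ℝ) :
    dex (u + v) (f s) A = dex u (f s) A * ex (v • f s) + ex (u • f s) * dex v (f s) A := by
  have h1 := (hf.ex u).mul (hf.ex v)
  have h2 := hf.ex (u + v)
  refine h2.unique (h1.congr fun s => ?_)
  exact ex_add_smul (hnil s) u v

/-- derivative of `u ↦ ex (u Z)` -/
theorem hdm_ex_smul {Z : Matrix (Fin n) (Fin n) ℝ} (hZ : Z ^ n = 0) (u : ℝ) :
    HDM (fun u => ex (u • Z)) (Z * ex (u • Z)) u := by
  intro i j
  exact hasDerivAt_of_group (F := fun u => ex (u • Z)) (fun s t => ex_add_smul hZ s t)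
    (hasDerivAt_ex_zero hZ) u i j

/-- logarithmic derivative -/
noncomputable def ld (u : ℝ) (Z W : Matrix (Fin n) (Fin n) ℝ) : Matrix (Fin n) (Fin n) ℝ :=
  ex (-(u • Z)) * dex u Z W

theorem pcm_ld (Z W : Matrix (Fin n) (Fin n) ℝ) : PCM (fun u => ld u Z W) :=
  IsPolyM.mul (isPolyM_ex (IsPolyM.smul (IsPoly.coord 0) (IsPolyM.const Z)).neg) (pcm_dex Z W)

theorem ld_zero (Z W : Matrix (Fin n) (Fin n) ℝ) : ld 0 Z W = 0 := by
  rw [ld, dex_zero, mul_zero]

theorem hdm_ld_zero (Z W : Matrix (Fin n) (Fin n) ℝ) (hn : n ≤ 1 → W = 0) (hZ : Z ^ n = 0) :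
    HDM (fun u => ld u Z W) W 0 := by
  have hZ' : (-Z) ^ n = 0 := by rw [neg_pow, hZ, mul_zero]
  have h1 : HDM (fun u : ℝ => ex (-(u • Z))) (-Z * ex ((0 : ℝ) • -Z)) 0 :=
    (hdm_ex_smul hZ' 0).congr fun s => by rw [smul_neg]
  have h2 := h1.mul (hdm_dex_zero Z W hn)
  refine h2.congr_deriv ?_
  rw [dex_zero, mul_zero, zero_add, zero_smul, neg_zero, ex_zero, one_mul]

theorem ld_add {f : ℝ → Matrix (Fin n) (Fin n) ℝ} {A : Matrix (Fin n) (Fin n) ℝ} {s : ℝ}
    (hf : HDM f A s) (hnil : ∀ s, f s ^ n = 0) (u v : ℝ) :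
    ld (v + u) (f s) A = ld v (f s) A + ex (v • (-f s)) * ld u (f s) A * ex (v • f s) := by
  have hZ := hnil s
  have hZ' : (-f s) ^ n = 0 := by rw [neg_pow, hZ, mul_zero]
  rw [ld, ld, ld, add_comm v u, dex_add hf hnil, mul_add]
  have e1 : ex (-((u + v) • f s)) = ex (-(v • f s)) * ex (-(u • f s)) := by
    rw [← smul_neg, ← smul_neg, ← smul_neg, add_comm u v]
    exact ex_add_smul hZ' v u
  have e2 : ex (-(u • f s)) * ex (u • f s) = 1 := ex_neg_mul_ex (smul_pow_zero hZ u)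
  have e3 : ex (-(v • f s)) * ex (-(u • f s)) * (ex (u • f s) * dex v (f s) A) =
      ex (-(v • f s)) * dex v (f s) A := by
    calc _ = ex (-(v • f s)) * (ex (-(u • f s)) * ex (u • f s)) * dex v (f s) A := by
          noncomm_ring
      _ = _ := by rw [e2, mul_one]
  rw [e1, e3, smul_neg]
  noncomm_ring

/-- the differential equation of the logarithmic derivative -/
theorem hdm_ld {f : ℝ → Matrix (Fin n) (Fin n) ℝ} {A : Matrix (Fin n) (Fin n) ℝ} {s : ℝ}
    (hf : HDM f A s) (hn : n ≤ 1 → A = 0) (hnil : ∀ s, f s ^ n = 0) (u : ℝ) :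
    HDM (fun u => ld u (f s) A)
      (A + (ld u (f s) A * f s - f s * ld u (f s) A)) u := by
  have hZ := hnil s
  have hZ' : (-f s) ^ n = 0 := by rw [neg_pow, hZ, mul_zero]
  have h1 : HDM (fun v => ld v (f s) A + ex (v • (-f s)) * ld u (f s) A * ex (v • f s))
      (A + ((-f s * ex ((0 : ℝ) • -f s) * ld u (f s) A) * ex ((0 : ℝ) • f s) +
        ex ((0 : ℝ) • -f s) * ld u (f s) A * (f s * ex ((0 : ℝ) • f s)))) 0 :=
    (hdm_ld_zero (f s) A hn hZ).add
      (((hdm_ex_smul hZ' 0).mul_const (ld u (f s) A)).mul (hdm_ex_smul hZ 0))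
  have h2 : HDM (fun v => ld (v + u) (f s) A)
      (A + (ld u (f s) A * f s - f s * ld u (f s) A)) 0 := by
    refine (h1.congr fun v => ld_add hf hnil u v).congr_deriv ?_
    rw [zero_smul, zero_smul, ex_zero]
    noncomm_ring
  intro i j
  have h3 : HasDerivAt (fun v => ld (v + u) (f s) A i j)
      ((A + (ld u (f s) A * f s - f s * ld u (f s) A)) i j) (u - u) := by
    rw [sub_self]; exact h2 i j
  have h4 := HasDerivAt.comp_sub_const (x := u) (a := u) h3
  simpa only [sub_add_cancel] using h4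

end Crest.Agent.R182.Model
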