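/-
R182, module MODEL (M1, part 4): subalgebras exponentiate to subgroups; products modulo ideals.
-/
import Mathlib
import Crest.Agent.R182.ModelCalc

set_option autoImplicit false

namespace Crest.Agent.R182.Model

open Polyc

section

attribute [local instance 100] LieRing.ofAssociativeRing

variable {Γ : Type*} [Group Γ] {N : Subgroup Γ} (D : EmbData Γ N)

/-- `𝔫` as a Lie subalgebra of the matrices -/
def lieA : LieSubalgebra ℝ (Matrix (Fin D.n) (Fin D.n) ℝ) :=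
  { lie D with
    lie_mem' := fun {X Y} hX hY => by
      rw [Ring.lie_def]
      exact bracket_mem D hX hY }

theorem mem_lieA {X : Matrix (Fin D.n) (Fin D.n) ℝ} : X ∈ lieA D ↔ X ∈ lie D := Iff.rfl

instance lieA_nilpotent : LieRing.IsNilpotent (lieA D) := by
  rw [LieAlgebra.isNilpotent_iff_forall (R := ℝ)]
  intro x
  have h1 : IsNilpotent (x : Matrix (Fin D.n) (Fin D.n) ℝ) := ⟨D.n, lie_pow_zero D x.2⟩
  exact LieSubalgebra.isNilpotent_ad_of_isNilpotent_ad (lieA D) (x := x)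
    (LieAlgebra.ad_nilpotent_of_nilpotent h1)

/-- descending central series of `𝔫` in the matrices -/
def lcs : ℕ → Submodule ℝ (Matrix (Fin D.n) (Fin D.n) ℝ)
  | 0 => lie D
  | k + 1 => Submodule.span ℝ {Z | ∃ X ∈ lie D, ∃ Y ∈ lcs k, Z = X * Y - Y * X}

theorem bracket_mem_lcs {X Y : Matrix (Fin D.n) (Fin D.n) ℝ} (hX : X ∈ lie D) {k : ℕ}
    (hY : Y ∈ lcs D k) : X * Y - Y * X ∈ lcs D (k + 1) :=
  Submodule.subset_span ⟨X, hX, Y, hY, rfl⟩

theorem bracket_mem_lcs' {X Y : Matrix (Fin D.n) (Fin D.n) ℝ} (hX : X ∈ lie D) {k : ℕ}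
    (hY : Y ∈ lcs D k) : Y * X - X * Y ∈ lcs D (k + 1) := by
  rw [← neg_sub]
  exact Submodule.neg_mem _ (bracket_mem_lcs D hX hY)

theorem lcs_le_lie (k : ℕ) : lcs D k ≤ lie D := by
  induction k with
  | zero => exact le_rfl
  | succ k ih =>
    refine Submodule.span_le.mpr ?_
    rintro _ ⟨X, hX, Y, hY, rfl⟩
    exact bracket_mem D hX (ih hY)

theorem lcs_succ_le (k : ℕ) : lcs D (k + 1) ≤ lcs D k := by
  induction k with
  | zero => exact lcs_le_lie D 1
  | succ k ih =>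
    refine Submodule.span_le.mpr ?_
    rintro _ ⟨X, hX, Y, hY, rfl⟩
    exact bracket_mem_lcs D hX (ih hY)

theorem lcs_le (k : ℕ) : lcs D k ≤ ((LieModule.lowerCentralSeries ℝ (lieA D) (lieA D) k :
    Submodule ℝ (lieA D))).map (lieA D).toSubmodule.subtype := by
  induction k with
  | zero =>
    intro X hX
    exact ⟨⟨X, hX⟩, by simp, rfl⟩
  | succ k ih =>
    refine Submodule.span_le.mpr ?_
    rintro _ ⟨X, hX, Y, hY, rfl⟩
    obtain ⟨y, hy, rfl⟩ := ih hY
    refine ⟨⁅(⟨X, hX⟩ : lieA D), y⁆, ?_, ?_⟩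
    · rw [LieModule.lowerCentralSeries_succ]
      exact LieSubmodule.lie_mem_lie (LieSubmodule.mem_top _) hy
    · change ((⁅(⟨X, hX⟩ : lieA D), y⁆ : lieA D) : Matrix (Fin D.n) (Fin D.n) ℝ) = _
      rw [LieSubalgebra.coe_bracket, Ring.lie_def]
      rfl

theorem exists_lcs_eq_bot : ∃ k, lcs D k = ⊥ := by
  obtain ⟨k, hk⟩ := LieModule.isNilpotent_iff ℝ (lieA D) (lieA D) |>.mp (lieA_nilpotent D)
  refine ⟨k, ?_⟩
  rw [eq_bot_iff]
  intro X hX
  obtain ⟨y, hy, rfl⟩ := lcs_le D k hX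
  have h1 : y ∈ (LieModule.lowerCentralSeries ℝ (lieA D) (lieA D) k : Submodule ℝ (lieA D)) := hy
  rw [hk] at h1
  have h2 : y = 0 := by simpa using h1
  rw [h2, map_zero]
  exact Submodule.zero_mem _

/-- `H` is a Lie subalgebra contained in `𝔫` -/
structure IsSub (H : Submodule ℝ (Matrix (Fin D.n) (Fin D.n) ℝ)) : Prop where
  le : H ≤ lie D
  br : ∀ X ∈ H, ∀ Y ∈ H, X * Y - Y * X ∈ H

variable {D}

theorem IsSub.sup_lcs {H : Submodule ℝ (Matrix (Fin D.n) (Fin D.n) ℝ)} (h : IsSub D H) (k : ℕ) :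
    ∀ X ∈ H ⊔ lcs D k, ∀ Y ∈ H ⊔ lcs D k, X * Y - Y * X ∈ H ⊔ lcs D (k + 1) := by
  intro X hX Y hY
  obtain ⟨a, ha, b, hb, rfl⟩ := Submodule.mem_sup.mp hX
  obtain ⟨a', ha', b', hb', rfl⟩ := Submodule.mem_sup.mp hY
  have e : (a + b) * (a' + b') - (a' + b') * (a + b) = (a * a' - a' * a) +
      ((b * (a' + b') - (a' + b') * b) + (a * b' - b' * a)) := by noncomm_ring
  rw [e]
  refine Submodule.add_mem_sup (h.br a ha a' ha') (Submodule.add_mem _ ?_ ?_)
  · exact bracket_mem_lcs' D ((lie D).add_mem (h.le ha') (lcs_le_lie D k hb')) hb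
  · exact bracket_mem_lcs D (h.le ha) hb'

theorem IsSub.sup_lcs_isSub {H : Submodule ℝ (Matrix (Fin D.n) (Fin D.n) ℝ)} (h : IsSub D H)
    (k : ℕ) : IsSub D (H ⊔ lcs D k) where
  le := sup_le h.le (lcs_le_lie D k)
  br X hX Y hY := by
    have := h.sup_lcs k X hX Y hY
    exact sup_le_sup_left (lcs_succ_le D k) H this

/-- the logarithmic derivative stays in the subalgebra -/
theorem IsSub.ld_mem {H : Submodule ℝ (Matrix (Fin D.n) (Fin D.n) ℝ)} (h : IsSub D H)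
    {f : ℝ → Matrix (Fin D.n) (Fin D.n) ℝ} {W : Matrix (Fin D.n) (Fin D.n) ℝ} {s : ℝ}
    (hf : PCM f) (hfl : ∀ s, f s ∈ lie D) (hW : HDM f W s) (hfs : f s ∈ H) (hWH : W ∈ H)
    (u : ℝ) : ld u (f s) W ∈ H := by
  have hnil : ∀ s, f s ^ D.n = 0 := fun s => lie_pow_zero D (hfl s)
  have hn : D.n ≤ 1 → W = 0 := by
    intro hn
    have h1 := lie_pow_zero D (h.le hWH)
    have h2 := pow_eq_zero_of_le hn h1
    simpa using h2
  have hld := hdm_ld hW hn hnil
  -- first: `ld` is in the Lie algebra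
  have hlie : ∀ u, ld u (f s) W ∈ lie D := by
    intro u
    refine tangent D (c := fun x => exU (-(u • f s))
        (by rw [neg_pow, smul_pow_zero (hnil s), mul_zero]) *
      exU (u • f (x + s)) (smul_pow_zero (hnil _) u)) ?_ ?_ ?_ ?_
    · refine IsPolyU.mul (IsPolyU.const _) ?_
      exact isPolyU_exU D (IsPolyM.smul (Polyc.IsPoly.const u) (hf.comp_add s)) _
    · apply Units.ext
      change ex (-(u • f s)) * ex (u • f (0 + s)) = 1
      rw [zero_add]
      exact ex_neg_mul_ex (smul_pow_zero (hnil s) u)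
    · intro x
      refine D.NR.mul_mem ?_ ?_
      · exact exU_mem_of_lie D ((lie D).neg_mem ((lie D).smul_mem u (hfl s)))
      · exact exU_mem_of_lie D ((lie D).smul_mem u (hfl _))
    · have h1 : HDM (fun x => f (x + s)) W 0 := HDM.comp_add s (by rwa [zero_add])
      have h2 := (h1.ex u).const_mul (ex (-(u • f s)))
      simp only [zero_add] at h2
      exact h2
  obtain ⟨K, hK⟩ := exists_lcs_eq_bot D
  have key : ∀ k, ∀ u, ld u (f s) W ∈ H ⊔ lcs D k := by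
    intro k
    induction k with
    | zero => exact fun u => Submodule.mem_sup_right (hlie u)
    | succ k ih =>
      refine mem_of_deriv_mem hld ?_ ?_
      · rw [ld_zero]; exact Submodule.zero_mem _
      · intro u
        refine Submodule.add_mem _ (Submodule.mem_sup_left hWH) ?_
        exact h.sup_lcs k _ (ih u) _ (Submodule.mem_sup_left hfs)
  have := key K u
  rwa [hK, sup_bot_eq] at this

theorem ld_one_eq {f : ℝ → Matrix (Fin D.n) (Fin D.n) ℝ} {W Y : Matrix (Fin D.n) (Fin D.n) ℝ}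
    {s : ℝ} (hfs : f s ^ D.n = 0) (hY : Y ^ D.n = 0) (hW : HDM f W s)
    (he : ∀ x, ex (f (s + x)) = ex (f s) * ex (x • Y)) : ld 1 (f s) W = Y := by
  have h1 : HDM (fun x => ex (f x)) (dex 1 (f s) W) s :=
    (hW.ex 1).congr fun x => by rw [one_smul]
  have h2 : HDM (fun x => ex (f (x + s))) (dex 1 (f s) W) 0 :=
    HDM.comp_add (f := fun x => ex (f x)) s (by rwa [zero_add])
  have h3 : HDM (fun x => ex (f (x + s))) (ex (f s) * (Y * ex ((0 : ℝ) • Y))) 0 :=
    ((hdm_ex_smul hY 0).const_mul (ex (f s))).congr fun x => by rw [add_comm x s, he x]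
  have h4 := h2.unique h3
  rw [ld, h4, one_smul, zero_smul, ex_zero, mul_one, ← mul_assoc, ex_neg_mul_ex hfs, one_mul]

/-- **subalgebras exponentiate to subgroups**, with the product modulo a subspace containing the
brackets. -/
theorem IsSub.lg_mul {H L : Submodule ℝ (Matrix (Fin D.n) (Fin D.n) ℝ)} (h : IsSub D H)
    (hL : L ≤ H) (hbr : ∀ X ∈ H, ∀ Y ∈ H, X * Y - Y * X ∈ L)
    {X Y : Matrix (Fin D.n) (Fin D.n) ℝ} (hX : X ∈ H) (hY : Y ∈ H) :
    lg (ex X * ex Y) - (X + Y) ∈ L := by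
  have hXn := lie_pow_zero D (h.le hX)
  have hYn := lie_pow_zero D (h.le hY)
  -- the curve
  let Z : ℝ → Matrix (Fin D.n) (Fin D.n) ℝ := fun t => lg (ex X * ex (t • Y))
  have hZp : PCM Z := isPolyM_lg (IsPolyM.mul (IsPolyM.const _)
    (isPolyM_ex (IsPolyM.smul (IsPoly.coord 0) (IsPolyM.const Y))))
  have hmem : ∀ t : ℝ, exU X hXn * exU (t • Y) (smul_pow_zero hYn t) ∈ D.NR := fun t =>
    D.NR.mul_mem (exU_mem_of_lie D (h.le hX)) (exU_mem_of_lie D ((lie D).smul_mem t (h.le hY)))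
  have hZl : ∀ t, Z t ∈ lie D := fun t => lg_mem_lie D (hmem t)
  have hZn : ∀ t, Z t ^ D.n = 0 := fun t => lie_pow_zero D (hZl t)
  have hZe : ∀ t, ex (Z t) = ex X * ex (t • Y) := fun t => ex_lg (D.unip_NR (hmem t))
  have hZ0 : Z 0 = X := by
    change lg (ex X * ex ((0 : ℝ) • Y)) = X
    rw [zero_smul, ex_zero, mul_one, lg_ex hXn]
  obtain ⟨Z', hZ'p, hZ'⟩ := hZp.exists_deriv
  have hld : ∀ t, ld 1 (Z t) (Z' t) = Y := fun t =>
    ld_one_eq (hZn t) hYn (hZ' t) (fun x => by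
      rw [hZe, hZe, ex_add_smul hYn, mul_assoc])
  -- integration of the differential equation of `ld`
  have hint : ∀ (H' L' : Submodule ℝ (Matrix (Fin D.n) (Fin D.n) ℝ)), IsSub D H' →
      (∀ X ∈ H', ∀ Y ∈ H', X * Y - Y * X ∈ L') → (∀ t, Z t ∈ H') → ∀ t, Y - Z' t ∈ L' := by
    intro H' L' hH' hL' hZH t
    have hW : Z' t ∈ H' := deriv_mem' hZp hZH (hZ' t)
    have hn : D.n ≤ 1 → Z' t = 0 := by
      intro hn
      have h1 := lie_pow_zero D (hH'.le hW)
      have h2 := pow_eq_zero_of_le hn h1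
      simpa using h2
    have h1 := fun u => hdm_ld (hZ' t) hn hZn u
    have h2 : ∀ u, HDM (fun u => ld u (Z t) (Z' t) - u • Z' t)
        (Z' t + (ld u (Z t) (Z' t) * Z t - Z t * ld u (Z t) (Z' t)) -
          ((1 : ℝ) • Z' t + u • 0)) u := fun u =>
      (h1 u).sub (HDM.smul (hasDerivAt_id u) (HDM.const (Z' t) u))
    have h3 := mem_of_deriv_mem (L := L') h2 (by
      rw [ld_zero, zero_smul, sub_zero]; exact Submodule.zero_mem _) (fun u => by
      have e : (Z' t + (ld u (Z t) (Z' t) * Z t - Z t * ld u (Z t) (Z' t)) -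
          ((1 : ℝ) • Z' t + u • 0)) = ld u (Z t) (Z' t) * Z t - Z t * ld u (Z t) (Z' t) := by
        rw [one_smul, smul_zero, add_zero]; abel
      rw [e]
      exact hL' _ (hH'.ld_mem hZp hZl (hZ' t) (hZH t) hW u) _ (hZH t)) 1
    rw [hld t, one_smul] at h3
    exact h3
  -- step 1: the curve stays in `H`
  obtain ⟨K, hK⟩ := exists_lcs_eq_bot D
  have key : ∀ k, ∀ t, Z t ∈ H ⊔ lcs D k := by
    intro k
    induction k with
    | zero => exact fun t => Submodule.mem_sup_right (hZl t)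
    | succ k ih =>
      refine mem_of_deriv_mem hZ' ?_ ?_
      · rw [hZ0]; exact Submodule.mem_sup_left hX
      · intro t
        have h1 := hint _ _ (h.sup_lcs_isSub k) (h.sup_lcs k) ih t
        have h2 : Z' t = Y - (Y - Z' t) := by abel
        rw [h2]
        exact Submodule.sub_mem _ (Submodule.mem_sup_left hY) h1
  have hZH : ∀ t, Z t ∈ H := by
    intro t
    have := key K t
    rwa [hK, sup_bot_eq] at this
  -- step 2
  have h1 := mem_of_deriv_mem (L := L) (f := fun t => Z t - (X + t • Y))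
    (f' := fun t => Z' t - (0 + ((1 : ℝ) • Y + t • 0)))
    (fun t => (hZ' t).sub ((HDM.const X t).add (HDM.smul (hasDerivAt_id t) (HDM.const Y t))))
    (by simp only [hZ0, zero_smul, add_zero, sub_self]; exact Submodule.zero_mem _)
    (fun t => by
      have e : Z' t - (0 + ((1 : ℝ) • Y + t • 0)) = -(Y - Z' t) := by
        rw [one_smul, smul_zero]; abel
      simp only [e]
      exact Submodule.neg_mem _ (hint H L h hbr hZH t)) 1
  simpa only [Z, one_smul] using h1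

theorem IsSub.lg_mul_mem {H : Submodule ℝ (Matrix (Fin D.n) (Fin D.n) ℝ)} (h : IsSub D H)
    {X Y : Matrix (Fin D.n) (Fin D.n) ℝ} (hX : X ∈ H) (hY : Y ∈ H) :
    lg (ex X * ex Y) ∈ H := by
  have h1 := h.lg_mul le_rfl h.br hX hY
  have h2 : lg (ex X * ex Y) = (lg (ex X * ex Y) - (X + Y)) + (X + Y) := by abel
  rw [h2]
  exact H.add_mem h1 (H.add_mem hX hY)

variable (D) in
theorem isSub_lie : IsSub D (lie D) := ⟨le_rfl, fun _ hX _ hY => bracket_mem D hX hY⟩

/-- product modulo an ideal -/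
theorem lg_mul_ideal {I : Submodule ℝ (Matrix (Fin D.n) (Fin D.n) ℝ)} (hI : I ≤ lie D)
    {X Y : Matrix (Fin D.n) (Fin D.n) ℝ} (hX : X ∈ lie D) (hY : Y ∈ lie D)
    (hXI : ∀ Z ∈ I, X * Z - Z * X ∈ I) (hYI : ∀ Z ∈ I, Y * Z - Z * Y ∈ I)
    (hII : ∀ W ∈ I, ∀ Z ∈ I, W * Z - Z * W ∈ I) (hXY : X * Y - Y * X ∈ I) :
    lg (ex X * ex Y) - (X + Y) ∈ I := by
  let H : Submodule ℝ (Matrix (Fin D.n) (Fin D.n) ℝ) := Submodule.span ℝ {X} ⊔
    (Submodule.span ℝ {Y} ⊔ I)
  have hform : ∀ Z ∈ H, ∃ a b : ℝ, ∃ W ∈ I, Z = a • X + (b • Y + W) := by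
    intro Z hZ
    obtain ⟨x, hx, z, hz, rfl⟩ := Submodule.mem_sup.mp hZ
    obtain ⟨y, hy, w, hw, rfl⟩ := Submodule.mem_sup.mp hz
    obtain ⟨a, rfl⟩ := Submodule.mem_span_singleton.mp hx
    obtain ⟨b, rfl⟩ := Submodule.mem_span_singleton.mp hy
    exact ⟨a, b, w, hw, rfl⟩
  have hIH : I ≤ H := le_sup_right.trans le_sup_right
  have hXH : X ∈ H := Submodule.mem_sup_left (Submodule.mem_span_singleton_self X)
  have hYH : Y ∈ H := Submodule.mem_sup_right (Submodule.mem_sup_left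
    (Submodule.mem_span_singleton_self Y))
  have hHl : H ≤ lie D := by
    refine sup_le ?_ (sup_le ?_ hI)
    · exact (Submodule.span_singleton_le_iff_mem _ _).mpr hX
    · exact (Submodule.span_singleton_le_iff_mem _ _).mpr hY
  have hbr : ∀ Z ∈ H, ∀ Z' ∈ H, Z * Z' - Z' * Z ∈ I := by
    intro Z hZ Z' hZ'
    obtain ⟨a, b, W, hW, rfl⟩ := hform Z hZ
    obtain ⟨a', b', W', hW', rfl⟩ := hform Z' hZ'
    have e : (a • X + (b • Y + W)) * (a' • X + (b' • Y + W')) -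
        (a' • X + (b' • Y + W')) * (a • X + (b • Y + W)) =
        (a * b' - b * a') • (X * Y - Y * X) + (a • (X * W' - W' * X) - a' • (X * W - W * X)) +
        (b • (Y * W' - W' * Y) - b' • (Y * W - W * Y)) + (W * W' - W' * W) := by
      simp only [add_mul, mul_add, smul_mul_assoc, mul_smul_comm, smul_add, smul_sub, sub_smul,
        smul_smul]
      rw [mul_comm a' a, mul_comm b' b, mul_comm a' b, mul_comm b' a]
      abel
    rw [e]
    refine I.add_mem (I.add_mem (I.add_mem (I.smul_mem _ hXY) (I.sub_mem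
      (I.smul_mem _ (hXI _ hW')) (I.smul_mem _ (hXI _ hW)))) (I.sub_mem
      (I.smul_mem _ (hYI _ hW')) (I.smul_mem _ (hYI _ hW)))) (hII _ hW _ hW')
  exact IsSub.lg_mul (H := H) ⟨hHl, fun Z hZ Z' hZ' => hIH (hbr Z hZ Z' hZ')⟩ hIH hbr hXH hYH

/-- the subgroup `exp H` of a subalgebra -/
noncomputable def expG {H : Submodule ℝ (Matrix (Fin D.n) (Fin D.n) ℝ)} (h : IsSub D H) :
    Subgroup (Matrix (Fin D.n) (Fin D.n) ℝ)ˣ where
  carrier := {g | g ∈ D.NR ∧ lg (g : Matrix (Fin D.n) (Fin D.n) ℝ) ∈ H}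
  one_mem' := by
    refine ⟨D.NR.one_mem, ?_⟩
    have h1 : lg ((1 : (Matrix (Fin D.n) (Fin D.n) ℝ)ˣ) : Matrix (Fin D.n) (Fin D.n) ℝ) = 0 := by
      have h0 := lg_ex (lie_pow_zero D (lie D).zero_mem)
      rwa [ex_zero] at h0
    rw [h1]; exact H.zero_mem
  mul_mem' := by
    rintro a b ⟨ha, ha'⟩ ⟨hb, hb'⟩
    refine ⟨D.NR.mul_mem ha hb, ?_⟩
    have h1 := h.lg_mul_mem ha' hb'
    rwa [ex_lg (D.unip_NR ha), ex_lg (D.unip_NR hb), ← Units.val_mul] at h1
  inv_mem' := by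
    rintro a ⟨ha, ha'⟩
    refine ⟨D.NR.inv_mem ha, ?_⟩
    have h1 : ((a⁻¹ : (Matrix (Fin D.n) (Fin D.n) ℝ)ˣ) : Matrix (Fin D.n) (Fin D.n) ℝ) =
        ex (-lg (a : Matrix (Fin D.n) (Fin D.n) ℝ)) := by
      have h2 := ex_neg_mul_ex (lg_pow_zero (D.unip_NR ha))
      rw [ex_lg (D.unip_NR ha)] at h2
      calc ((a⁻¹ : (Matrix (Fin D.n) (Fin D.n) ℝ)ˣ) : Matrix (Fin D.n) (Fin D.n) ℝ) =
          (ex (-lg (a : Matrix (Fin D.n) (Fin D.n) ℝ)) * a) *
            ((a⁻¹ : (Matrix (Fin D.n) (Fin D.n) ℝ)ˣ) : Matrix (Fin D.n) (Fin D.n) ℝ) := by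
            rw [h2, one_mul]
        _ = _ := by rw [mul_assoc, Units.mul_inv, mul_one]
    rw [h1, lg_ex (by rw [neg_pow, lg_pow_zero (D.unip_NR ha), mul_zero])]
    exact H.neg_mem ha'

end

end Crest.Agent.R182.Model
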