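/-
R182, module BOXGRP (helper468): `Ad (ex x) = exp (ad x)` for the group law `starA D` of `N_ℝ`.
-/
import Mathlib
import Crest.Agent.R182.NbModel
import Crest.Agent.R182.BoxGen

set_option autoImplicit false
set_option linter.unusedSectionVars false

namespace Crest.Agent.R182.Nb

open Finset Model Polyc

section matrix

variable {n : ℕ}

theorem qsmul_End (q : ℚ) (f : Module.End ℝ (Matrix (Fin n) (Fin n) ℝ))
    (y : Matrix (Fin n) (Fin n) ℝ) : (q • f) y = (q : ℝ) • f y := by
  rw [LinearMap.smul_apply]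
  ext i j
  simp [Matrix.smul_apply, Rat.smul_def]

theorem ex_mul_mul_ex_neg {X : Matrix (Fin n) (Fin n) ℝ} (hX : X ^ n = 0)
    (Y : Matrix (Fin n) (Fin n) ℝ) (K : ℕ) (hK : 2 * n ≤ K) :
    ex X * Y * ex (-X) =
      ∑ i ∈ range K, ((i.factorial : ℝ)⁻¹) • (fun Z => X * Z - Z * X)^[i] Y := by
  set a : Module.End ℝ (Matrix (Fin n) (Fin n) ℝ) := LinearMap.mulLeft ℝ X with ha
  set b : Module.End ℝ (Matrix (Fin n) (Fin n) ℝ) := LinearMap.mulRight ℝ (-X) with hb
  have ha0 : a ^ n = 0 := by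
    rw [ha, LinearMap.pow_mulLeft, hX]; ext; simp
  have hb0 : b ^ n = 0 := by
    have : (-X) ^ n = 0 := by rw [neg_pow, hX, mul_zero]
    rw [hb, LinearMap.pow_mulRight, this]; ext; simp
  have hcomm : Commute a b := by
    rw [ha, hb]
    change _ * _ = _ * _
    apply LinearMap.ext
    intro Z
    simp only [Module.End.mul_apply, LinearMap.mulLeft_apply, LinearMap.mulRight_apply, mul_assoc]
  have h1 := IsNilpotent.exp_add_of_commute hcomm ⟨n, ha0⟩ ⟨n, hb0⟩
  have hab : (a + b) ^ K = 0 := by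
    rcases Nat.eq_zero_or_pos n with h | h
    · subst h
      have : Subsingleton (Matrix (Fin 0) (Fin 0) ℝ) := inferInstance
      exact Subsingleton.elim _ _
    · exact Commute.add_pow_eq_zero_of_add_le_succ_of_pow_eq_zero hcomm ha0 hb0 (by omega)
  have h2 : IsNilpotent.exp (a + b) Y = ∑ i ∈ range K, ((i.factorial : ℝ)⁻¹) •
      (fun Z => X * Z - Z * X)^[i] Y := by
    rw [IsNilpotent.exp_eq_sum hab, LinearMap.sum_apply]
    refine Finset.sum_congr rfl fun i _ => ?_
    rw [qsmul_End, Module.End.pow_apply]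
    push_cast
    have : ((a + b : Module.End ℝ (Matrix (Fin n) (Fin n) ℝ)) : Matrix (Fin n) (Fin n) ℝ →
        Matrix (Fin n) (Fin n) ℝ) = fun Z => X * Z - Z * X := by
      funext Z
      rw [LinearMap.add_apply, ha, hb, LinearMap.mulLeft_apply, LinearMap.mulRight_apply, mul_neg,
        sub_eq_add_neg]
    rw [this]
  have h3 : ∀ Z, IsNilpotent.exp a Z = ex X * Z := by
    intro Z
    rw [IsNilpotent.exp_eq_sum ha0, LinearMap.sum_apply, ex, Finset.sum_mul]
    refine Finset.sum_congr rfl fun i _ => ?_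
    rw [qsmul_End, ha, LinearMap.pow_mulLeft, LinearMap.mulLeft_apply, smul_mul_assoc]
    push_cast; rfl
  have h4 : ∀ Z, IsNilpotent.exp b Z = Z * ex (-X) := by
    intro Z
    rw [IsNilpotent.exp_eq_sum hb0, LinearMap.sum_apply, ex, Finset.mul_sum]
    refine Finset.sum_congr rfl fun i _ => ?_
    rw [qsmul_End, hb, LinearMap.pow_mulRight, LinearMap.mulRight_apply, mul_smul_comm]
    push_cast; rfl
  rw [← h2, h1]
  change _ = IsNilpotent.exp a (IsNilpotent.exp b Y)
  rw [h3, h4, mul_assoc]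

end matrix

section

attribute [local instance 100] LieRing.ofAssociativeRing

variable {Γ : Type*} [Group Γ] {N : Subgroup Γ} (D : EmbData Γ N)

theorem coe_iter_lie (x y : lieA D) (i : ℕ) :
    (((fun z : lieA D => ⁅x, z⁆)^[i] y : lieA D) : Matrix (Fin D.n) (Fin D.n) ℝ) =
      (fun Z => (x : Matrix (Fin D.n) (Fin D.n) ℝ) * Z - Z * x)^[i] (y : Matrix _ _ ℝ) := by
  induction i with
  | zero => rfl
  | succ i ih =>
    rw [Function.iterate_succ_apply', Function.iterate_succ_apply', ← ih,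
      LieSubalgebra.coe_bracket, Ring.lie_def]

theorem mon_replicate (x y : lieA D) (i : ℕ) :
    mon id (List.replicate i x ++ [y]) = (fun z : lieA D => ⁅x, z⁆)^[i] y := by
  induction i with
  | zero => rfl
  | succ i ih =>
    rw [List.replicate_succ, List.cons_append, mon_cons id x (by simp), ih,
      Function.iterate_succ_apply']
    rfl

theorem starA_bch {c : ℕ} (hN : NilC c (lieA D)) : (starA D).BCH1 c := by
  intro x y
  have hvan : ∀ i, c ≤ i → (fun z : lieA D => ⁅x, z⁆)^[i] y = 0 := by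
    intro i hi
    rw [← mon_replicate]
    apply hN
    rw [List.length_append, List.length_replicate, List.length_singleton]
    omega
  apply ex_injA D
  have h1 : ex (((starA D).cj x y : lieA D) : Matrix (Fin D.n) (Fin D.n) ℝ) =
      ex (x : Matrix (Fin D.n) (Fin D.n) ℝ) * ex (y : Matrix (Fin D.n) (Fin D.n) ℝ) *
        ex (-(x : Matrix (Fin D.n) (Fin D.n) ℝ)) := by
    change ex ((opA D (opA D x y) (-x) : lieA D) : Matrix (Fin D.n) (Fin D.n) ℝ) = _
    rw [ex_opA, ex_opA, NegMemClass.coe_neg]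
  have hx0 := lie_pow_zero D x.2
  rw [h1, ← ex_conj (ex_mul_ex_neg hx0) (ex_neg_mul_ex hx0)]
  congr 1
  set K := max (2 * D.n) (c + 1) with hK
  rw [ex_mul_mul_ex_neg hx0 (y : Matrix (Fin D.n) (Fin D.n) ℝ) K (le_max_left _ _)]
  have h2 : ∑ n ∈ range (c + 1), ((n.factorial : ℝ)⁻¹) • (fun z : lieA D => ⁅x, z⁆)^[n] y =
      ∑ n ∈ range K, ((n.factorial : ℝ)⁻¹) • (fun z : lieA D => ⁅x, z⁆)^[n] y := by
    refine Finset.sum_subset (Finset.range_mono (le_max_right _ _)) fun i _ hi => ?_
    rw [Finset.mem_range, not_lt] at hi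
    rw [hvan i (by omega), smul_zero]
  rw [h2]
  symm
  change ((lieA D).toSubmodule.subtype _) = _
  rw [map_sum]
  refine Finset.sum_congr rfl fun i _ => ?_
  rw [map_smul]
  congr 1
  exact coe_iter_lie D x y i

end

end Crest.Agent.R182.Nb
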