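/-
R182, module MODEL (M2): the group `G1 = N_ℝ · ρ(Γ)`, its word length, and the comparison with `Γ`.
-/
import Mathlib
import Crest.Agent.R182.ModelLie
import Crest.Agent.R182.QIBasic
import Crest.Agent.R182.BndZL

set_option autoImplicit false
set_option linter.unusedSectionVars false

namespace Crest.Agent.R182.Model

open Polyc Crest.GroupTheory Crest.Geometry

/-! ### a submultiplicative norm on matrices -/

section Nrm

variable {n : ℕ}

/-- sum of the absolute values of the entries -/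
noncomputable def nrm (M : Matrix (Fin n) (Fin n) ℝ) : ℝ := ∑ i, ∑ j, |M i j|

theorem nrm_nonneg (M : Matrix (Fin n) (Fin n) ℝ) : 0 ≤ nrm M :=
  Finset.sum_nonneg fun _ _ => Finset.sum_nonneg fun _ _ => abs_nonneg _

theorem abs_le_nrm (M : Matrix (Fin n) (Fin n) ℝ) (i j : Fin n) : |M i j| ≤ nrm M := by
  refine (Finset.single_le_sum (f := fun j => |M i j|)
    (fun j _ => abs_nonneg _) (Finset.mem_univ j)).trans ?_
  exact Finset.single_le_sum (f := fun i => ∑ j, |M i j|)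
    (fun i _ => Finset.sum_nonneg fun j _ => abs_nonneg _) (Finset.mem_univ i)

theorem nrm_le {M : Matrix (Fin n) (Fin n) ℝ} {C : ℝ} (h : ∀ i j, |M i j| ≤ C) :
    nrm M ≤ n * (n * C) := by
  have h1 : nrm M ≤ ∑ _i : Fin n, ∑ _j : Fin n, C :=
    Finset.sum_le_sum fun i _ => Finset.sum_le_sum fun j _ => h i j
  simpa using h1

theorem nrm_zero : nrm (0 : Matrix (Fin n) (Fin n) ℝ) = 0 := by simp [nrm]

theorem nrm_one : nrm (1 : Matrix (Fin n) (Fin n) ℝ) = n := by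
  have : ∀ i : Fin n, ∑ j, |(1 : Matrix (Fin n) (Fin n) ℝ) i j| = 1 := by
    intro i
    rw [Finset.sum_eq_single i]
    · simp
    · intro j _ hj; rw [Matrix.one_apply_ne (Ne.symm hj), abs_zero]
    · intro h; exact absurd (Finset.mem_univ i) h
  simp only [nrm, this]
  simp

theorem nrm_add (A B : Matrix (Fin n) (Fin n) ℝ) : nrm (A + B) ≤ nrm A + nrm B := by
  simp only [nrm, ← Finset.sum_add_distrib]
  exact Finset.sum_le_sum fun i _ => Finset.sum_le_sum fun j _ => abs_add_le _ _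

theorem nrm_neg (A : Matrix (Fin n) (Fin n) ℝ) : nrm (-A) = nrm A := by
  simp [nrm]

theorem nrm_sub (A B : Matrix (Fin n) (Fin n) ℝ) : nrm (A - B) ≤ nrm A + nrm B := by
  rw [sub_eq_add_neg, ← nrm_neg B]; exact nrm_add _ _

theorem nrm_smul (c : ℝ) (A : Matrix (Fin n) (Fin n) ℝ) : nrm (c • A) = |c| * nrm A := by
  simp [nrm, Finset.mul_sum, abs_mul]

theorem nrm_mul (A B : Matrix (Fin n) (Fin n) ℝ) : nrm (A * B) ≤ nrm A * nrm B := by
  have h1 : ∀ i j, |(A * B) i j| ≤ ∑ k, |A i k| * |B k j| := by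
    intro i j
    rw [Matrix.mul_apply]
    refine (Finset.abs_sum_le_sum_abs _ _).trans_eq ?_
    simp [abs_mul]
  calc nrm (A * B) ≤ ∑ i, ∑ j, ∑ k, |A i k| * |B k j| :=
        Finset.sum_le_sum fun i _ => Finset.sum_le_sum fun j _ => h1 i j
    _ = ∑ i, ∑ k, |A i k| * ∑ j, |B k j| := by
        refine Finset.sum_congr rfl fun i _ => ?_
        rw [Finset.sum_comm]
        refine Finset.sum_congr rfl fun k _ => ?_
        rw [Finset.mul_sum]
    _ ≤ ∑ i, ∑ k, |A i k| * nrm B := by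
        refine Finset.sum_le_sum fun i _ => Finset.sum_le_sum fun k _ => ?_
        refine mul_le_mul_of_nonneg_left ?_ (abs_nonneg _)
        exact Finset.single_le_sum (f := fun k => ∑ j, |B k j|)
          (fun k _ => Finset.sum_nonneg fun j _ => abs_nonneg _) (Finset.mem_univ k)
    _ = nrm A * nrm B := by
        simp only [nrm, ← Finset.sum_mul]

theorem nrm_pow (A : Matrix (Fin n) (Fin n) ℝ) (k : ℕ) : nrm (A ^ k) ≤ (n + 1) * nrm A ^ k := by
  induction k with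
  | zero => rw [pow_zero, pow_zero, nrm_one]; linarith
  | succ k ih =>
    rw [pow_succ, pow_succ, ← mul_assoc]
    exact (nrm_mul _ _).trans (mul_le_mul_of_nonneg_right ih (nrm_nonneg _))

theorem nrm_sum {ι : Type*} (s : Finset ι) (f : ι → Matrix (Fin n) (Fin n) ℝ) :
    nrm (∑ i ∈ s, f i) ≤ ∑ i ∈ s, nrm (f i) := by
  classical
  induction s using Finset.induction_on with
  | empty => simp [nrm_zero]
  | insert a s ha ih =>
    rw [Finset.sum_insert ha, Finset.sum_insert ha]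
    exact (nrm_add _ _).trans (by linarith)

theorem nrm_eq_zero {A : Matrix (Fin n) (Fin n) ℝ} (h : nrm A = 0) : A = 0 := by
  ext i j
  have h1 := abs_le_nrm A i j
  rw [h] at h1
  exact abs_nonpos_iff.mp h1

/-- a submultiplicative size on invertible matrices -/
noncomputable def sz (g : (Matrix (Fin n) (Fin n) ℝ)ˣ) : ℝ :=
  1 + nrm (g : Matrix (Fin n) (Fin n) ℝ) + nrm ((g⁻¹ : (Matrix (Fin n) (Fin n) ℝ)ˣ) :
    Matrix (Fin n) (Fin n) ℝ)

theorem one_le_sz (g : (Matrix (Fin n) (Fin n) ℝ)ˣ) : 1 ≤ sz g := by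
  have h1 := nrm_nonneg (g : Matrix (Fin n) (Fin n) ℝ)
  have h2 := nrm_nonneg ((g⁻¹ : (Matrix (Fin n) (Fin n) ℝ)ˣ) : Matrix (Fin n) (Fin n) ℝ)
  unfold sz
  linarith

theorem sz_inv (g : (Matrix (Fin n) (Fin n) ℝ)ˣ) : sz g⁻¹ = sz g := by
  unfold sz
  rw [inv_inv]
  ring

theorem sz_one : sz (1 : (Matrix (Fin n) (Fin n) ℝ)ˣ) = 1 + 2 * n := by
  unfold sz
  rw [inv_one, Units.val_one, nrm_one]
  ring

theorem sz_mul (g h : (Matrix (Fin n) (Fin n) ℝ)ˣ) : sz (g * h) ≤ sz g * sz h := by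
  unfold sz
  rw [mul_inv_rev, Units.val_mul, Units.val_mul]
  have h1 := nrm_mul (g : Matrix (Fin n) (Fin n) ℝ) (h : Matrix (Fin n) (Fin n) ℝ)
  have h2 := nrm_mul ((h⁻¹ : (Matrix (Fin n) (Fin n) ℝ)ˣ) : Matrix (Fin n) (Fin n) ℝ)
    ((g⁻¹ : (Matrix (Fin n) (Fin n) ℝ)ˣ) : Matrix (Fin n) (Fin n) ℝ)
  have a1 := nrm_nonneg (g : Matrix (Fin n) (Fin n) ℝ)
  have a2 := nrm_nonneg (h : Matrix (Fin n) (Fin n) ℝ)
  have a3 := nrm_nonneg ((g⁻¹ : (Matrix (Fin n) (Fin n) ℝ)ˣ) : Matrix (Fin n) (Fin n) ℝ)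
  have a4 := nrm_nonneg ((h⁻¹ : (Matrix (Fin n) (Fin n) ℝ)ˣ) : Matrix (Fin n) (Fin n) ℝ)
  nlinarith [mul_nonneg a1 a4, mul_nonneg a3 a2]

theorem nrm_le_sz (g : (Matrix (Fin n) (Fin n) ℝ)ˣ) :
    nrm (g : Matrix (Fin n) (Fin n) ℝ) ≤ sz g := by
  have h2 := nrm_nonneg ((g⁻¹ : (Matrix (Fin n) (Fin n) ℝ)ˣ) : Matrix (Fin n) (Fin n) ℝ)
  unfold sz
  linarith

theorem nrm_inv_le_sz (g : (Matrix (Fin n) (Fin n) ℝ)ˣ) :
    nrm ((g⁻¹ : (Matrix (Fin n) (Fin n) ℝ)ˣ) : Matrix (Fin n) (Fin n) ℝ) ≤ sz g := by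
  have h2 := nrm_nonneg (g : Matrix (Fin n) (Fin n) ℝ)
  unfold sz
  linarith

theorem sz_le {g : (Matrix (Fin n) (Fin n) ℝ)ˣ} {C : ℝ}
    (h : ∀ i j, |(g : Matrix (Fin n) (Fin n) ℝ) i j| ≤ C ∧
      |((g⁻¹ : (Matrix (Fin n) (Fin n) ℝ)ˣ) : Matrix (Fin n) (Fin n) ℝ) i j| ≤ C) :
    sz g ≤ 1 + 2 * (n * (n * C)) := by
  have h1 := nrm_le (fun i j => (h i j).1)
  have h2 := nrm_le (fun i j => (h i j).2)
  unfold sz
  linarith

theorem sz_list_prod {l : List (Matrix (Fin n) (Fin n) ℝ)ˣ} {C : ℝ} (h : ∀ x ∈ l, sz x ≤ C) :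
    sz l.prod ≤ (1 + 2 * n) * C ^ l.length := by
  induction l with
  | nil => simp [sz_one]
  | cons a l ih =>
    rw [List.prod_cons, List.length_cons, pow_succ]
    have h1 := h a (by simp)
    have h2 := ih fun x hx => h x (by simp [hx])
    have h3 := sz_mul a l.prod
    have h4 := one_le_sz a
    have h5 := one_le_sz l.prod
    calc sz (a * l.prod) ≤ sz a * sz l.prod := h3
      _ ≤ C * ((1 + 2 * n) * C ^ l.length) := mul_le_mul h1 h2 (by linarith) (by linarith)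
      _ = _ := by ring

end Nrm

variable {Γ : Type*} [Group Γ] {N : Subgroup Γ}

/-! ### the group `G1` -/

section Group

variable [hN : N.Normal] (D : EmbData Γ N)

/-- `G1 = N_ℝ · ρ(Γ)` -/
noncomputable def G1 : Subgroup (Matrix (Fin D.n) (Fin D.n) ℝ)ˣ where
  carrier := {g | ∃ u ∈ D.NR, ∃ γ, g = u * D.ρu γ}
  one_mem' := ⟨1, D.NR.one_mem, 1, by rw [map_one, mul_one]⟩
  mul_mem' := by
    rintro _ _ ⟨u, hu, γ, rfl⟩ ⟨u', hu', γ', rfl⟩
    refine ⟨u * (D.ρu γ * u' * (D.ρu γ)⁻¹), D.NR.mul_mem hu (D.conj_mem_NR γ hu'), γ * γ', ?_⟩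
    rw [map_mul]; group
  inv_mem' := by
    rintro _ ⟨u, hu, γ, rfl⟩
    refine ⟨D.ρu γ⁻¹ * u⁻¹ * (D.ρu γ⁻¹)⁻¹, D.conj_mem_NR _ (D.NR.inv_mem hu), γ⁻¹, ?_⟩
    rw [map_inv]; group

variable {D}

theorem mem_G1 {g : (Matrix (Fin D.n) (Fin D.n) ℝ)ˣ} :
    g ∈ G1 D ↔ ∃ u ∈ D.NR, ∃ γ, g = u * D.ρu γ := Iff.rfl

variable (D)

theorem NR_le : D.NR ≤ G1 D := fun u hu => ⟨u, hu, 1, by rw [map_one, mul_one]⟩

theorem ρu_mem (γ : Γ) : D.ρu γ ∈ G1 D := ⟨1, D.NR.one_mem, γ, by rw [one_mul]⟩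

/-- the inclusion of `Γ` in `G1` -/
noncomputable def inΓ : Γ →* G1 D := D.ρu.codRestrict (G1 D) (ρu_mem D)

@[simp] theorem coe_inΓ (γ : Γ) : ((inΓ D γ : G1 D) : (Matrix (Fin D.n) (Fin D.n) ℝ)ˣ) = D.ρu γ :=
  rfl

theorem inΓ_injective : Function.Injective (inΓ D) := by
  intro a b h
  exact D.ρu_injective (congrArg (Subtype.val) h)

/-- `N_ℝ` as a subgroup of `G1` -/
noncomputable def NR1 : Subgroup (G1 D) := D.NR.subgroupOf (G1 D)

variable {D}

theorem mem_NR1 {g : G1 D} : g ∈ NR1 D ↔ (g : (Matrix (Fin D.n) (Fin D.n) ℝ)ˣ) ∈ D.NR := Iff.rfl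

theorem conj_NR {g u : (Matrix (Fin D.n) (Fin D.n) ℝ)ˣ} (hg : g ∈ G1 D) (hu : u ∈ D.NR) :
    g * u * g⁻¹ ∈ D.NR := by
  obtain ⟨v, hv, γ, rfl⟩ := hg
  have h1 : v * D.ρu γ * u * (v * D.ρu γ)⁻¹ = v * (D.ρu γ * u * (D.ρu γ)⁻¹) * v⁻¹ := by group
  rw [h1]
  exact D.NR.mul_mem (D.NR.mul_mem hv (D.conj_mem_NR γ hu)) (D.NR.inv_mem hv)

variable (D)

instance NR1_normal : (NR1 D).Normal where
  conj_mem := fun _ hu g => conj_NR g.2 hu

theorem inΓ_mem_NR1 (γ : Γ) : inΓ D γ ∈ NR1 D ↔ γ ∈ N := D.ρu_mem_NR_iff γ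

/-- a representative in `Γ` -/
noncomputable def rep (g : G1 D) : Γ := g.2.choose_spec.2.choose

theorem rep_spec (g : G1 D) : ∃ u ∈ D.NR,
    (g : (Matrix (Fin D.n) (Fin D.n) ℝ)ˣ) = u * D.ρu (rep D g) :=
  ⟨g.2.choose, g.2.choose_spec.1, g.2.choose_spec.2.choose_spec⟩

variable {D}

/-- two decompositions differ by an element of `N` -/
theorem mem_N_of_eq {u v : (Matrix (Fin D.n) (Fin D.n) ℝ)ˣ} (hu : u ∈ D.NR) (hv : v ∈ D.NR)
    {γ γ' : Γ} (h : u * D.ρu γ = v * D.ρu γ') : γ * γ'⁻¹ ∈ N := by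
  rw [← D.ρu_mem_NR_iff, map_mul, map_inv]
  have h1 : D.ρu γ * (D.ρu γ')⁻¹ = u⁻¹ * v := by
    rw [mul_inv_eq_iff_eq_mul, mul_assoc, ← h]
    group
  rw [h1]
  exact D.NR.mul_mem (D.NR.inv_mem hu) hv

variable {A : Type*} [Group A]

theorem map_eq_of_eq (f : Γ →* A) (hf : ∀ n ∈ N, f n = 1)
    {u v : (Matrix (Fin D.n) (Fin D.n) ℝ)ˣ} (hu : u ∈ D.NR) (hv : v ∈ D.NR)
    {γ γ' : Γ} (h : u * D.ρu γ = v * D.ρu γ') : f γ = f γ' := by
  have h1 := hf _ (mem_N_of_eq hu hv h)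
  rw [map_mul, map_inv, mul_inv_eq_one] at h1
  exact h1

variable (D)

/-- extension to `G1` of a homomorphism trivial on `N` -/
noncomputable def lift (f : Γ →* A) (hf : ∀ n ∈ N, f n = 1) : G1 D →* A where
  toFun g := f (rep D g)
  map_one' := by
    obtain ⟨u, hu, h⟩ := rep_spec D 1
    have h1 : (1 : (Matrix (Fin D.n) (Fin D.n) ℝ)ˣ) * D.ρu 1 = u * D.ρu (rep D 1) := by
      rw [← h, map_one, mul_one]; rfl
    rw [← map_eq_of_eq f hf D.NR.one_mem hu h1, map_one]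
  map_mul' g g' := by
    obtain ⟨u, hu, h⟩ := rep_spec D g
    obtain ⟨u', hu', h'⟩ := rep_spec D g'
    obtain ⟨v, hv, h2⟩ := rep_spec D (g * g')
    rw [← map_mul]
    symm
    refine map_eq_of_eq f hf (D.NR.mul_mem hu (D.conj_mem_NR (rep D g) hu')) hv ?_
    rw [← h2]
    change _ = (g : (Matrix (Fin D.n) (Fin D.n) ℝ)ˣ) * g'
    rw [h, h', map_mul]; group

variable {D}

theorem lift_eq {f : Γ →* A} {hf : ∀ n ∈ N, f n = 1} {g : G1 D}
    {u : (Matrix (Fin D.n) (Fin D.n) ℝ)ˣ} (hu : u ∈ D.NR) {γ : Γ}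
    (h : (g : (Matrix (Fin D.n) (Fin D.n) ℝ)ˣ) = u * D.ρu γ) : lift D f hf g = f γ := by
  obtain ⟨v, hv, h2⟩ := rep_spec D g
  exact map_eq_of_eq f hf hv hu (by rw [← h2, h])

@[simp] theorem lift_inΓ (f : Γ →* A) (hf : ∀ n ∈ N, f n = 1) (γ : Γ) :
    lift D f hf (inΓ D γ) = f γ :=
  lift_eq D.NR.one_mem (by rw [one_mul]; rfl)

theorem lift_NR (f : Γ →* A) (hf : ∀ n ∈ N, f n = 1) {g : G1 D} (hg : g ∈ NR1 D) :
    lift D f hf g = 1 := by
  rw [lift_eq (γ := 1) hg (by rw [map_one, mul_one]; rfl), map_one]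

theorem lift_eq_one_iff (f : Γ →* A) (hf : ∀ n, n ∈ N ↔ f n = 1) (g : G1 D) :
    lift D f (fun n hn => (hf n).mp hn) g = 1 ↔ g ∈ NR1 D := by
  constructor
  · intro h
    obtain ⟨u, hu, hg⟩ := rep_spec D g
    rw [lift_eq hu hg, ← hf] at h
    rw [mem_NR1, hg]
    exact D.NR.mul_mem hu ((D.ρu_mem_NR_iff _).mpr h)
  · exact lift_NR f _

theorem lift_surjective {f : Γ →* A} (hf : ∀ n ∈ N, f n = 1) (h : Function.Surjective f) :
    Function.Surjective (lift D f hf) := by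
  intro a
  obtain ⟨γ, rfl⟩ := h a
  exact ⟨inΓ D γ, lift_inΓ f hf γ⟩

end Group

/-! ### the length function -/

section Len

variable [hN : N.Normal] (D : EmbData Γ N)

/-- the generating set of `G1`: bounded matrices -/
def gens (C : ℝ) : Set (G1 D) := {g | sz (g : (Matrix (Fin D.n) (Fin D.n) ℝ)ˣ) ≤ C}

/-- the length function on `G1` -/
noncomputable def len (C : ℝ) (g : G1 D) : ℕ := wordLength (gens D C) g

/-- the constant `C` is large enough for the finite generating set `S` of `Γ` -/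
structure Big (S : Set Γ) (C : ℝ) : Prop where
  fin : S.Finite
  gen : Subgroup.closure S = ⊤
  sz_one : sz (1 : (Matrix (Fin D.n) (Fin D.n) ℝ)ˣ) ≤ C
  sz_S : ∀ s ∈ S, sz (D.ρu s) ≤ C
  coc : ∀ g ∈ D.NR, ∃ ν ∈ N, sz (g * (D.ρu ν)⁻¹) ≤ C

theorem exists_big {S : Set Γ} (hf : S.Finite) (hS : Subgroup.closure S = ⊤) :
    ∃ C : ℝ, Big D S C := by
  obtain ⟨C, hC⟩ := D.exists_cocompact
  obtain ⟨C', hC'⟩ := (hf.image fun s => sz (D.ρu s)).bddAbove
  refine ⟨max (sz (1 : (Matrix (Fin D.n) (Fin D.n) ℝ)ˣ)) (max C' (1 + 2 * (D.n * (D.n * C)))),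
    hf, hS, le_max_left _ _, fun s hs => ?_, fun g hg => ?_⟩
  · exact (hC' ⟨s, hs, rfl⟩).trans ((le_max_left _ _).trans (le_max_right _ _))
  · obtain ⟨ν, hν, h⟩ := hC g hg
    exact ⟨ν, hν, (sz_le h).trans ((le_max_right _ _).trans (le_max_right _ _))⟩

theorem Big.mono {S : Set Γ} {C C' : ℝ} (h : Big D S C) (hC : C ≤ C') : Big D S C' :=
  ⟨h.fin, h.gen, h.sz_one.trans hC, fun s hs => (h.sz_S s hs).trans hC, fun g hg => by
    obtain ⟨ν, hν, h⟩ := h.coc g hg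
    exact ⟨ν, hν, h.trans hC⟩⟩

variable {D} {S : Set Γ} {C : ℝ}

/-- rounding: `G1 = ρ(Γ) · bounded` -/
theorem Big.round (h : Big D S C) (g : G1 D) : ∃ (γ : Γ) (b : G1 D), g = inΓ D γ * b ∧
    b ∈ NR1 D ∧ b ∈ gens D C := by
  obtain ⟨u, hu, hg⟩ := rep_spec D g⁻¹
  obtain ⟨ν, hν, hb⟩ := h.coc u hu
  have hbN : u * (D.ρu ν)⁻¹ ∈ D.NR :=
    D.NR.mul_mem hu (D.NR.inv_mem ((D.ρu_mem_NR_iff ν).mpr hν))
  refine ⟨(ν * rep D g⁻¹)⁻¹, ⟨(u * (D.ρu ν)⁻¹)⁻¹, NR_le D (D.NR.inv_mem hbN)⟩, ?_, ?_, ?_⟩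
  · apply inv_injective
    apply Subtype.ext
    rw [hg]
    simp only [Subgroup.coe_mul, coe_inΓ, InvMemClass.coe_inv, map_inv, map_mul]
    group
  · exact D.NR.inv_mem hbN
  · change sz ((u * (D.ρu ν)⁻¹)⁻¹) ≤ C
    rw [sz_inv]; exact hb

theorem Big.inΓ_mem (h : Big D S C) {s : Γ} (hs : s ∈ S) : inΓ D s ∈ gens D C := h.sz_S s hs

theorem Big.closure (h : Big D S C) : Subgroup.closure (gens D C) = ⊤ := by
  rw [eq_top_iff]
  rintro g -
  obtain ⟨γ, b, rfl, -, hb⟩ := h.round g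
  refine Subgroup.mul_mem _ ?_ (Subgroup.subset_closure hb)
  have h1 : γ ∈ Subgroup.closure S := by rw [h.gen]; trivial
  induction h1 using Subgroup.closure_induction with
  | mem x hx => exact Subgroup.subset_closure (h.inΓ_mem hx)
  | one => rw [map_one]; exact Subgroup.one_mem _
  | mul x y _ _ hx hy => rw [map_mul]; exact Subgroup.mul_mem _ hx hy
  | inv x _ hx => rw [map_inv]; exact Subgroup.inv_mem _ hx

theorem Big.len_one (_h : Big D S C) : len D C 1 = 0 := QI.wordLength_one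

theorem Big.len_mul (h : Big D S C) (g g' : G1 D) : len D C (g * g') ≤ len D C g + len D C g' :=
  QI.wordLength_mul_le h.closure g g'

theorem Big.len_inv (h : Big D S C) (g : G1 D) : len D C g⁻¹ = len D C g :=
  QI.wordLength_inv h.closure g

theorem Big.len_letter (_h : Big D S C) {g : G1 D} (hg : g ∈ gens D C) : len D C g ≤ 1 :=
  QI.wordLength_letter (Or.inl hg)

theorem Big.len_pow (h : Big D S C) (g : G1 D) (k : ℕ) : len D C (g ^ k) ≤ k * len D C g :=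
  QI.wordLength_pow_le h.closure g k

theorem Big.isLen (h : Big D S C) : Bnd.IsLen (fun g => (len D C g : ℝ)) where
  one := by rw [h.len_one, Nat.cast_zero]
  inv g := by rw [h.len_inv]
  mul g g' := by exact_mod_cast h.len_mul g g'

theorem Big.one_le (h : Big D S C) : 1 ≤ C := by
  obtain ⟨ν, -, hν⟩ := h.coc 1 D.NR.one_mem
  exact (one_le_sz _).trans hν

/-- matrices grow at most exponentially with the length -/
theorem Big.sz_le_len (h : Big D S C) (g : G1 D) :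
    sz (g : (Matrix (Fin D.n) (Fin D.n) ℝ)ˣ) ≤ (1 + 2 * D.n) * C ^ len D C g := by
  obtain ⟨l, hl, hw, rfl⟩ := QI.wordLength_spec h.closure g
  have h1 : sz ((l.map (Subtype.val)).prod) ≤ (1 + 2 * D.n) * C ^ (l.map (Subtype.val)).length := by
    refine sz_list_prod ?_
    intro x hx
    obtain ⟨y, hy, rfl⟩ := List.mem_map.mp hx
    rcases hw y hy with h1 | h1
    · exact h1
    · rw [← sz_inv]; exact h1
  rw [List.length_map, hl] at h1
  have h2 : ((l.prod : G1 D) : (Matrix (Fin D.n) (Fin D.n) ℝ)ˣ) = (l.map (Subtype.val)).prod :=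
    map_list_prod (G1 D).subtype l
  rw [h2]
  exact h1

theorem Big.sz_le_exp (h : Big D S C) (g : G1 D) :
    sz (g : (Matrix (Fin D.n) (Fin D.n) ℝ)ˣ) ≤
      (1 + 2 * D.n) * Real.exp (Real.log C * len D C g) := by
  refine (h.sz_le_len g).trans_eq ?_
  rw [mul_comm (Real.log C), Real.exp_nat_mul, Real.exp_log (by linarith [h.one_le])]

theorem Big.len_inΓ_le (h : Big D S C) (γ : Γ) : len D C (inΓ D γ) ≤ wordLength S γ := by
  obtain ⟨l, hl, hw, rfl⟩ := QI.wordLength_spec h.gen γ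
  rw [map_list_prod, ← hl, ← mul_one l.length, ← List.length_map (inΓ D)]
  refine QI.wordLength_list_prod_le h.closure _ 1 ?_
  intro x hx
  obtain ⟨y, hy, rfl⟩ := List.mem_map.mp hx
  rcases hw y hy with h1 | h1
  · exact h.len_letter (h.inΓ_mem h1)
  · rw [← QI.wordLength_inv h.closure, ← map_inv]
    exact h.len_letter (h.inΓ_mem h1)

theorem finite_sz (R : ℝ) : {γ : Γ | sz (D.ρu γ) ≤ R}.Finite := by
  refine (D.finite_bounded R).subset ?_
  intro γ hγ i j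
  exact (abs_le_nrm _ i j).trans ((nrm_le_sz _).trans hγ)

theorem Big.finite_ball (h : Big D S C) (R : ℕ) : {γ : Γ | len D C (inΓ D γ) ≤ R}.Finite := by
  refine (finite_sz (D := D) ((1 + 2 * D.n) * C ^ R)).subset ?_
  intro γ hγ
  refine (h.sz_le_len (inΓ D γ)).trans ?_
  refine mul_le_mul_of_nonneg_left ?_ (by positivity)
  exact pow_le_pow_right₀ h.one_le hγ

/-- bounded matrices have bounded length -/
theorem Big.len_le_of_sz (h : Big D S C) (R : ℝ) : ∃ K : ℕ, ∀ g : G1 D,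
    sz (g : (Matrix (Fin D.n) (Fin D.n) ℝ)ˣ) ≤ R → len D C g ≤ K := by
  classical
  obtain ⟨K, hK⟩ := ((finite_sz (D := D) (R * C)).image
    (fun γ => wordLength S γ)).bddAbove
  refine ⟨K + 1, fun g hg => ?_⟩
  obtain ⟨γ, b, rfl, -, hb⟩ := h.round g
  have h1 : sz (D.ρu γ) ≤ R * C := by
    have h2 : D.ρu γ = ((inΓ D γ * b : G1 D) : (Matrix (Fin D.n) (Fin D.n) ℝ)ˣ) *
        (b : (Matrix (Fin D.n) (Fin D.n) ℝ)ˣ)⁻¹ := by
      simp
    rw [h2]
    refine (sz_mul _ _).trans ?_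
    rw [sz_inv]
    have h3 : sz (b : (Matrix (Fin D.n) (Fin D.n) ℝ)ˣ) ≤ C := hb
    have h4 := one_le_sz (b : (Matrix (Fin D.n) (Fin D.n) ℝ)ˣ)
    have h5 := one_le_sz ((inΓ D γ * b : G1 D) : (Matrix (Fin D.n) (Fin D.n) ℝ)ˣ)
    exact mul_le_mul hg h3 (by linarith) (by linarith)
  refine (h.len_mul _ _).trans (add_le_add ?_ (h.len_letter hb))
  exact (h.len_inΓ_le γ).trans (hK ⟨γ, h1, rfl⟩)

/-- on `Γ`, the word length is bounded by the length in `G1`. -/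
theorem Big.wordLength_le (h : Big D S C) : ∃ K : ℕ, ∀ γ : Γ,
    wordLength S γ ≤ K * len D C (inΓ D γ) := by
  classical
  obtain ⟨K, hK⟩ := ((finite_sz (D := D) (C * C * C)).image
    (fun γ => wordLength S γ)).bddAbove
  have key : ∀ (l : List (G1 D)), QI.IsWord (gens D C) l → ∃ (γ : Γ) (b : G1 D),
      l.prod = inΓ D γ * b ∧ sz (b : (Matrix (Fin D.n) (Fin D.n) ℝ)ˣ) ≤ C ∧
      wordLength S γ ≤ K * l.length := by
    intro l
    induction l using List.reverseRecOn with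
    | nil =>
      intro _
      exact ⟨1, 1, by simp, h.sz_one, by simp [QI.wordLength_one]⟩
    | append_singleton l t ih =>
      intro hw
      obtain ⟨γ, b, hl, hb, hγ⟩ := ih fun x hx => hw x (by simp [hx])
      have ht : sz (t : (Matrix (Fin D.n) (Fin D.n) ℝ)ˣ) ≤ C := by
        rcases hw t (by simp) with h1 | h1
        · exact h1
        · rw [← sz_inv]; exact h1
      obtain ⟨γ', b', hbt, -, hb'⟩ := h.round (b * t)
      refine ⟨γ * γ', b', ?_, hb', ?_⟩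
      · rw [List.prod_append, List.prod_singleton, hl, mul_assoc, hbt, map_mul, mul_assoc]
      · have h1 : sz (D.ρu γ') ≤ C * C * C := by
          have h2 : D.ρu γ' = ((b : (Matrix (Fin D.n) (Fin D.n) ℝ)ˣ) * t) *
              (b' : (Matrix (Fin D.n) (Fin D.n) ℝ)ˣ)⁻¹ := by
            have h3 := congrArg (Subtype.val) hbt
            simp only [Subgroup.coe_mul, coe_inΓ] at h3
            rw [h3]; group
          rw [h2]
          have hC := h.one_le
          have a1 := one_le_sz (b : (Matrix (Fin D.n) (Fin D.n) ℝ)ˣ)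
          have a2 := one_le_sz (t : (Matrix (Fin D.n) (Fin D.n) ℝ)ˣ)
          have a3 := one_le_sz (b' : (Matrix (Fin D.n) (Fin D.n) ℝ)ˣ)
          have hb'' : sz (b' : (Matrix (Fin D.n) (Fin D.n) ℝ)ˣ) ≤ C := hb'
          refine (sz_mul _ _).trans ?_
          rw [sz_inv]
          refine mul_le_mul ((sz_mul _ _).trans ?_) hb'' (by linarith) (by positivity)
          exact mul_le_mul hb ht (by linarith) (by linarith)
        have h4 : wordLength S γ' ≤ K := hK ⟨γ', h1, rfl⟩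
        rw [List.length_append, List.length_singleton, mul_add, mul_one]
        exact (QI.wordLength_mul_le h.gen _ _).trans (add_le_add hγ h4)
  obtain ⟨K', hK'⟩ := ((finite_sz (D := D) C).image
    (fun γ => wordLength S γ)).bddAbove
  refine ⟨K + K', fun γ => ?_⟩
  obtain ⟨l, hl, hw, hp⟩ := QI.wordLength_spec h.closure (inΓ D γ)
  obtain ⟨γ', b, hγ', hb, hle⟩ := key l hw
  have h1 : D.ρu (γ'⁻¹ * γ) = (b : (Matrix (Fin D.n) (Fin D.n) ℝ)ˣ) := by
    rw [hp] at hγ'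
    have h2 := congrArg (Subtype.val) hγ'
    simp only [Subgroup.coe_mul, coe_inΓ] at h2
    rw [map_mul, map_inv, h2]; group
  have h2 : wordLength S (γ'⁻¹ * γ) ≤ K' := hK' ⟨_, by change sz _ ≤ C; rw [h1]; exact hb, rfl⟩
  rcases Nat.eq_zero_or_pos l.length with h0 | h0
  · have h3 : l = [] := List.length_eq_zero_iff.mp h0
    rw [h3, List.prod_nil, ← map_one (inΓ D)] at hp
    rw [← inΓ_injective D hp, QI.wordLength_one]
    exact Nat.zero_le _
  · have h3 : γ = γ' * (γ'⁻¹ * γ) := by group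
    have h4 : wordLength S γ ≤ K * l.length + K' := by
      conv_lhs => rw [h3]
      exact (QI.wordLength_mul_le h.gen _ _).trans (add_le_add hle h2)
    have h5 : len D C (inΓ D γ) = l.length := hl.symm
    rw [h5]
    nlinarith

end Len

end Crest.Agent.R182.Model
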