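/-
R182, module MODEL (M5, part 1, helper658): the ideal generated by the nonzero weight spaces and its
filtration by bracket words; group commutators modulo the filtration.
-/
import Mathlib
import Crest.Agent.R182.ModelBCH
import Crest.Agent.R182.ModelGroup

set_option autoImplicit false

namespace Crest.Agent.R182.ModelDist

open Polyc Model

variable {Γ : Type*} [Group Γ] {N : Subgroup Γ} (D : EmbData Γ N)

/-- A weight decomposition of `𝔫` (weights in an additive group, e.g. linear functionals). -/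
structure Wts {W : Type*} [AddCommGroup W]
    (V : W → Submodule ℝ (Matrix (Fin D.n) (Fin D.n) ℝ)) : Prop where
  le : ∀ μ, V μ ≤ lie D
  br : ∀ μ ν, ∀ X ∈ V μ, ∀ Y ∈ V ν, X * Y - Y * X ∈ V (μ + ν)
  span : lie D ≤ ⨆ μ, V μ

variable {D} {W : Type*} [AddCommGroup W]
  {V : W → Submodule ℝ (Matrix (Fin D.n) (Fin D.n) ℝ)}

/-- homogeneous elements of nonzero weight -/
def T0 (V : W → Submodule ℝ (Matrix (Fin D.n) (Fin D.n) ℝ)) :
    Set (Matrix (Fin D.n) (Fin D.n) ℝ) := {X | ∃ μ, μ ≠ 0 ∧ X ∈ V μ}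

/-- bracket words in homogeneous elements of nonzero weight -/
def T (V : W → Submodule ℝ (Matrix (Fin D.n) (Fin D.n) ℝ)) :
    ℕ → Set (Matrix (Fin D.n) (Fin D.n) ℝ)
  | 0 => T0 V
  | j + 1 => {Z | ∃ X ∈ T0 V, ∃ Y ∈ T V j, Z = X * Y - Y * X}

/-- the filtration of the ideal generated by the nonzero weight spaces -/
def eN (V : W → Submodule ℝ (Matrix (Fin D.n) (Fin D.n) ℝ)) (j : ℕ) :
    Submodule ℝ (Matrix (Fin D.n) (Fin D.n) ℝ) :=
  Submodule.span ℝ {Z | ∃ r, j ≤ r ∧ Z ∈ T V r}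

theorem T_mem_eN {j : ℕ} {Z : Matrix (Fin D.n) (Fin D.n) ℝ} (h : Z ∈ T V j) : Z ∈ eN V j :=
  Submodule.subset_span ⟨j, le_rfl, h⟩

theorem eN_anti {i j : ℕ} (h : i ≤ j) : eN V j ≤ eN V i :=
  Submodule.span_mono fun _ ⟨r, hr, hZ⟩ => ⟨r, h.trans hr, hZ⟩

theorem T0_smul {X : Matrix (Fin D.n) (Fin D.n) ℝ} (h : X ∈ T0 V) (c : ℝ) : c • X ∈ T0 V := by
  obtain ⟨μ, hμ, hX⟩ := h
  exact ⟨μ, hμ, (V μ).smul_mem c hX⟩

theorem Wts.T0_le (hV : Wts D V) {X : Matrix (Fin D.n) (Fin D.n) ℝ} (h : X ∈ T0 V) :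
    X ∈ lie D := by
  obtain ⟨μ, -, hX⟩ := h
  exact hV.le μ hX

theorem Wts.T_hom (hV : Wts D V) {j : ℕ} {Z : Matrix (Fin D.n) (Fin D.n) ℝ} (h : Z ∈ T V j) :
    ∃ μ, Z ∈ V μ := by
  induction j generalizing Z with
  | zero => obtain ⟨μ, -, hX⟩ := h; exact ⟨μ, hX⟩
  | succ j ih =>
    obtain ⟨X, ⟨μ, -, hX⟩, Y, hY, rfl⟩ := h
    obtain ⟨ν, hν⟩ := ih hY
    exact ⟨μ + ν, hV.br μ ν X hX Y hν⟩

theorem Wts.T_lcs (hV : Wts D V) {j : ℕ} {Z : Matrix (Fin D.n) (Fin D.n) ℝ} (h : Z ∈ T V j) :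
    Z ∈ lcs D j := by
  induction j generalizing Z with
  | zero => exact hV.T0_le h
  | succ j ih =>
    obtain ⟨X, hX, Y, hY, rfl⟩ := h
    exact bracket_mem_lcs D (hV.T0_le hX) (ih hY)

theorem lcs_anti {i j : ℕ} (h : i ≤ j) : lcs D j ≤ lcs D i := by
  induction h with
  | refl => exact le_rfl
  | step _ ih => exact (lcs_succ_le D _).trans ih

theorem Wts.eN_le_lcs (hV : Wts D V) (j : ℕ) : eN V j ≤ lcs D j := by
  refine Submodule.span_le.mpr ?_
  rintro Z ⟨r, hr, hZ⟩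
  exact lcs_anti hr (hV.T_lcs hZ)

theorem Wts.eN_le (hV : Wts D V) (j : ℕ) : eN V j ≤ lie D :=
  (hV.eN_le_lcs j).trans (lcs_le_lie D j)

theorem Wts.exists_bot (hV : Wts D V) : ∃ k, eN V k = ⊥ := by
  obtain ⟨k, hk⟩ := exists_lcs_eq_bot D
  exact ⟨k, le_bot_iff.mp (hk ▸ hV.eN_le_lcs k)⟩

/-- bracket with a fixed element, as a linear map -/
def adL (X : Matrix (Fin D.n) (Fin D.n) ℝ) :
    Matrix (Fin D.n) (Fin D.n) ℝ →ₗ[ℝ] Matrix (Fin D.n) (Fin D.n) ℝ where
  toFun Y := X * Y - Y * X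
  map_add' Y Z := by rw [mul_add, add_mul]; abel
  map_smul' c Y := by simp only [mul_smul_comm, smul_mul_assoc, smul_sub, RingHom.id_apply]

theorem adL_apply (X Y : Matrix (Fin D.n) (Fin D.n) ℝ) : adL X Y = X * Y - Y * X := rfl

theorem br_T0 {X : Matrix (Fin D.n) (Fin D.n) ℝ} (hX : X ∈ T0 V) {j : ℕ}
    {Z : Matrix (Fin D.n) (Fin D.n) ℝ} (hZ : Z ∈ eN V j) : X * Z - Z * X ∈ eN V (j + 1) := by
  have h1 : eN V j ≤ (eN V (j + 1)).comap (adL X) := by
    refine Submodule.span_le.mpr ?_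
    rintro Y ⟨r, hr, hY⟩
    exact Submodule.subset_span ⟨r + 1, by omega, X, hX, Y, hY, rfl⟩
  exact h1 hZ

theorem br_T (i : ℕ) : ∀ {X : Matrix (Fin D.n) (Fin D.n) ℝ}, X ∈ T V i → ∀ {j : ℕ}
    {Z : Matrix (Fin D.n) (Fin D.n) ℝ}, Z ∈ eN V j → X * Z - Z * X ∈ eN V (i + j + 1) := by
  induction i with
  | zero =>
    intro X hX j Z hZ
    rw [Nat.zero_add]
    exact br_T0 hX hZ
  | succ i ih =>
    rintro _ ⟨x, hx, w, hw, rfl⟩ j Z hZ
    have e : (x * w - w * x) * Z - Z * (x * w - w * x) =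
        (x * (w * Z - Z * w) - (w * Z - Z * w) * x) -
          (w * (x * Z - Z * x) - (x * Z - Z * x) * w) := by noncomm_ring
    rw [e]
    refine Submodule.sub_mem _ ?_ ?_
    · have := br_T0 hx (ih hw hZ)
      rwa [show i + j + 1 + 1 = i + 1 + j + 1 by ring] at this
    · have := ih hw (br_T0 hx hZ)
      rwa [show i + (j + 1) + 1 = i + 1 + j + 1 by ring] at this

theorem br_eN {i j : ℕ} {X Z : Matrix (Fin D.n) (Fin D.n) ℝ} (hX : X ∈ eN V i)
    (hZ : Z ∈ eN V j) : X * Z - Z * X ∈ eN V (i + j + 1) := by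
  have h1 : eN V i ≤ (eN V (i + j + 1)).comap (-adL Z) := by
    refine Submodule.span_le.mpr ?_
    rintro Y ⟨r, hr, hY⟩
    show (-adL Z) Y ∈ eN V (i + j + 1)
    rw [LinearMap.neg_apply, adL_apply, neg_sub]
    exact eN_anti (by omega) (br_T r hY hZ)
  have h2 := h1 hX
  rw [Submodule.mem_comap, LinearMap.neg_apply, adL_apply, neg_sub] at h2
  exact h2

theorem Wts.br_zero (hV : Wts D V) {X : Matrix (Fin D.n) (Fin D.n) ℝ} (hX : X ∈ V 0) (j : ℕ) :
    ∀ {Z : Matrix (Fin D.n) (Fin D.n) ℝ}, Z ∈ Submodule.span ℝ (T V j) →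
      X * Z - Z * X ∈ Submodule.span ℝ (T V j) := by
  induction j with
  | zero =>
    intro Z hZ
    have h1 : Submodule.span ℝ (T V 0) ≤ (Submodule.span ℝ (T V 0)).comap (adL X) := by
      refine Submodule.span_le.mpr ?_
      rintro Y ⟨μ, hμ, hY⟩
      refine Submodule.subset_span ⟨μ, hμ, ?_⟩
      have := hV.br 0 μ X hX Y hY
      rwa [zero_add] at this
    exact h1 hZ
  | succ j ih =>
    intro Z hZ
    have h1 : Submodule.span ℝ (T V (j + 1)) ≤
        (Submodule.span ℝ (T V (j + 1))).comap (adL X) := by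
      refine Submodule.span_le.mpr ?_
      rintro _ ⟨x, hx, w, hw, rfl⟩
      show X * (x * w - w * x) - (x * w - w * x) * X ∈ Submodule.span ℝ (T V (j + 1))
      have e : X * (x * w - w * x) - (x * w - w * x) * X =
          ((X * x - x * X) * w - w * (X * x - x * X)) +
            (x * (X * w - w * X) - (X * w - w * X) * x) := by noncomm_ring
      rw [e]
      refine Submodule.add_mem _ ?_ ?_
      · refine Submodule.subset_span ⟨X * x - x * X, ?_, w, hw, rfl⟩
        obtain ⟨μ, hμ, hxμ⟩ := hx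
        refine ⟨μ, hμ, ?_⟩
        have := hV.br 0 μ X hX x hxμ
        rwa [zero_add] at this
      · have h2 := ih (Submodule.subset_span hw)
        have h3 : Submodule.span ℝ (T V j) ≤
            (Submodule.span ℝ (T V (j + 1))).comap (adL x) := by
          refine Submodule.span_le.mpr ?_
          intro Y hY
          exact Submodule.subset_span ⟨x, hx, Y, hY, rfl⟩
        exact h3 h2
    exact h1 hZ

/-- the filtration consists of ideals of `𝔫` -/
theorem Wts.br_lie (hV : Wts D V) {X : Matrix (Fin D.n) (Fin D.n) ℝ} (hX : X ∈ lie D) {j : ℕ}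
    {Z : Matrix (Fin D.n) (Fin D.n) ℝ} (hZ : Z ∈ eN V j) : X * Z - Z * X ∈ eN V j := by
  have key : ∀ Y ∈ ⨆ μ, V μ, Y * Z - Z * Y ∈ eN V j := by
    intro Y hY
    induction hY using Submodule.iSup_induction' with
    | mem μ Y hY =>
      by_cases hμ : μ = 0
      · subst hμ
        have h1 : eN V j ≤ (eN V j).comap (adL Y) := by
          refine Submodule.span_le.mpr ?_
          rintro U ⟨r, hr, hU⟩
          have h2 := hV.br_zero hY r (Submodule.subset_span hU)
          have h3 : Submodule.span ℝ (T V r) ≤ eN V j :=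
            Submodule.span_mono fun U hU => ⟨r, hr, hU⟩
          exact h3 h2
        exact h1 hZ
      · exact eN_anti (Nat.le_succ j) (br_T0 ⟨μ, hμ, hY⟩ hZ)
    | zero => simp
    | add Y Y' _ _ hY hY' =>
      have e : (Y + Y') * Z - Z * (Y + Y') = (Y * Z - Z * Y) + (Y' * Z - Z * Y') := by
        noncomm_ring
      rw [e]
      exact Submodule.add_mem _ hY hY'
  exact key X (hV.span hX)

/-! ### conjugation modulo the filtration -/

theorem hdm_conj {a : Matrix (Fin D.n) (Fin D.n) ℝ} (ha : a ^ D.n = 0)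
    (b : Matrix (Fin D.n) (Fin D.n) ℝ) (s : ℝ) :
    HDM (fun s => ex (s • a) * b * ex (s • (-a)))
      (a * (ex (s • a) * b * ex (s • (-a))) - (ex (s • a) * b * ex (s • (-a))) * a) s := by
  have hna : (-a) ^ D.n = 0 := by rw [neg_pow, ha, mul_zero]
  have h1 := ((hdm_ex_smul ha s).mul_const b).mul (hdm_ex_smul hna s)
  refine h1.congr_deriv ?_
  have hc : Commute a (ex (s • (-a))) :=
    commute_ex (((Commute.refl a).neg_right).smul_right s)
  have e : (-a) * ex (s • (-a)) = -(ex (s • (-a)) * a) := by rw [neg_mul, hc.eq]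
  rw [e]
  noncomm_ring

theorem Wts.conj_mem (hV : Wts D V) {a : Matrix (Fin D.n) (Fin D.n) ℝ} (ha : a ∈ eN V 0) {j : ℕ}
    {b : Matrix (Fin D.n) (Fin D.n) ℝ} (hb : b ∈ eN V j) (s : ℝ) :
    ex (s • a) * b * ex (s • (-a)) ∈ eN V j := by
  have haL : a ∈ lie D := hV.eN_le 0 ha
  have han := lie_pow_zero D haL
  have hlie : ∀ s : ℝ, ex (s • a) * b * ex (s • (-a)) ∈ lie D := by
    intro s
    have h1 := conj_mem_lie D (u := exU (s • a) (smul_pow_zero han s))
      (fun g hg => D.NR.mul_mem (D.NR.mul_mem (haL.2 s) hg) (D.NR.inv_mem (haL.2 s)))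
      (hV.eN_le j hb)
    have h2 : ex (s • (-a)) = ex (-(s • a)) := by rw [smul_neg]
    rw [h2]
    exact h1
  have hzero : ex ((0:ℝ) • a) * b * ex ((0:ℝ) • (-a)) = b := by
    rw [zero_smul, zero_smul, ex_zero, one_mul, mul_one]
  have key : ∀ i, i ≤ j → ∀ s : ℝ, ex (s • a) * b * ex (s • (-a)) ∈ eN V i := by
    intro i
    induction i with
    | zero =>
      intro _
      refine mem_of_deriv_mem (hdm_conj han b) ?_ ?_
      · rw [hzero]; exact eN_anti (Nat.zero_le _) hb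
      · intro s
        have h1 := hV.br_lie (hlie s) ha
        have e : a * (ex (s • a) * b * ex (s • (-a))) - (ex (s • a) * b * ex (s • (-a))) * a =
            -((ex (s • a) * b * ex (s • (-a))) * a - a * (ex (s • a) * b * ex (s • (-a)))) := by
          abel
        rw [e]
        exact Submodule.neg_mem _ h1
    | succ i ih =>
      intro hi
      refine mem_of_deriv_mem (hdm_conj han b) ?_ ?_
      · rw [hzero]; exact eN_anti hi hb
      · intro s
        have h1 := br_eN ha (ih (by omega) s)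
        rwa [Nat.zero_add] at h1
  exact key j le_rfl s

theorem Wts.conj_sub (hV : Wts D V) {a : Matrix (Fin D.n) (Fin D.n) ℝ} (ha : a ∈ eN V 0) {j : ℕ}
    {b : Matrix (Fin D.n) (Fin D.n) ℝ} (hb : b ∈ eN V j) (s : ℝ) :
    ex (s • a) * b * ex (s • (-a)) - b ∈ eN V (j + 1) := by
  have han := lie_pow_zero D (hV.eN_le 0 ha)
  refine mem_of_deriv_mem (f := fun s => ex (s • a) * b * ex (s • (-a)) - b)
    (fun s => (hdm_conj han b s).sub (HDM.const b s)) ?_ ?_ s
  · show ex ((0:ℝ) • a) * b * ex ((0:ℝ) • (-a)) - b ∈ _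
    rw [zero_smul, zero_smul, ex_zero, one_mul, mul_one, sub_self]
    exact Submodule.zero_mem _
  · intro s
    rw [sub_zero]
    have h1 := br_eN ha (hV.conj_mem ha hb s)
    rwa [Nat.zero_add] at h1

theorem Wts.conj_sub₂ (hV : Wts D V) {a : Matrix (Fin D.n) (Fin D.n) ℝ} (ha : a ∈ eN V 0) {j : ℕ}
    {b : Matrix (Fin D.n) (Fin D.n) ℝ} (hb : b ∈ eN V j) (s : ℝ) :
    ex (s • a) * b * ex (s • (-a)) - b - s • (a * b - b * a) ∈ eN V (j + 2) := by
  have han := lie_pow_zero D (hV.eN_le 0 ha)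
  refine mem_of_deriv_mem
    (f := fun s => ex (s • a) * b * ex (s • (-a)) - b - s • (a * b - b * a))
    (fun s => ((hdm_conj han b s).sub (HDM.const b s)).sub
      (HDM.smul (hasDerivAt_id s) (HDM.const (a * b - b * a) s))) ?_ ?_ s
  · show ex ((0:ℝ) • a) * b * ex ((0:ℝ) • (-a)) - b - (0:ℝ) • (a * b - b * a) ∈ _
    rw [zero_smul, zero_smul, zero_smul, ex_zero, one_mul, mul_one, sub_self, sub_zero]
    exact Submodule.zero_mem _
  · intro s
    have h1 := br_eN ha (hV.conj_sub ha hb s)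
    have e : (a * (ex (s • a) * b * ex (s • (-a))) - (ex (s • a) * b * ex (s • (-a))) * a) - 0 -
        ((1 : ℝ) • (a * b - b * a) + s • 0) =
        a * (ex (s • a) * b * ex (s • (-a)) - b) - (ex (s • a) * b * ex (s • (-a)) - b) * a := by
      rw [one_smul, smul_zero, add_zero]
      noncomm_ring
    rw [e]
    rwa [Nat.zero_add, show j + 1 + 1 = j + 2 by ring] at h1

end Crest.Agent.R182.ModelDist
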