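/-
R182, block (LA1): decomposition of a finite-dimensional real space under one invertible map
according to the moduli of the (complex) eigenvalues.

  `growSpace T s = {v | ∃ C D, ∀ j : ℤ, ‖T^j v‖ ≤ C (1+|j|)^D exp (s j)}`

* `growSpace` is a `T`-invariant subspace, stable under every continuous linear map commuting with `T`
* over `ℂ` : `growSpace S s = ⨆ (log ‖μ‖ = s) maxGenEigenspace μ`
* over `ℝ` : `iSupIndep (growSpace T)`, `⨆ s, growSpace T s = ⊤`, finitely many nonzero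
* uniform two sided bound on `growSpace T s`
* complex roots of the characteristic polynomial of `T` on `growSpace T s` have modulus `exp s`
-/
import Mathlib

set_option autoImplicit false

namespace Crest.Agent.R182.LinMod

open Module

section Gen

variable {𝕜 : Type*} [NontriviallyNormedField 𝕜] {V : Type*} [NormedAddCommGroup V]
  [NormedSpace 𝕜 V]

/-- two-sided growth bound for one vector -/
def Grows (T : V ≃ₗ[𝕜] V) (s : ℝ) (v : V) : Prop :=
  ∃ C : ℝ, ∃ D : ℕ, ∀ j : ℤ, ‖(T ^ j) v‖ ≤ C * (1 + |(j : ℝ)|) ^ D * Real.exp (s * j)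

theorem one_le_one_add_abs (j : ℤ) : (1 : ℝ) ≤ 1 + |(j : ℝ)| := by
  have := abs_nonneg (j : ℝ)
  linarith

theorem Grows.exists_nonneg {T : V ≃ₗ[𝕜] V} {s : ℝ} {v : V} (h : Grows T s v) :
    ∃ C : ℝ, 0 ≤ C ∧ ∃ D : ℕ, ∀ j : ℤ,
      ‖(T ^ j) v‖ ≤ C * (1 + |(j : ℝ)|) ^ D * Real.exp (s * j) := by
  obtain ⟨C, D, h⟩ := h
  refine ⟨C, ?_, D, h⟩
  have h0 := h 0
  simp at h0
  exact (norm_nonneg v).trans h0

theorem Grows.exists_le {T : V ≃ₗ[𝕜] V} {s : ℝ} {v : V} (h : Grows T s v) :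
    ∃ C : ℝ, 0 ≤ C ∧ ∃ D₀ : ℕ, ∀ D, D₀ ≤ D → ∀ j : ℤ,
      ‖(T ^ j) v‖ ≤ C * (1 + |(j : ℝ)|) ^ D * Real.exp (s * j) := by
  obtain ⟨C, hC, D, h⟩ := h.exists_nonneg
  refine ⟨C, hC, D, fun D' hD j => (h j).trans ?_⟩
  have : (1 + |(j : ℝ)|) ^ D ≤ (1 + |(j : ℝ)|) ^ D' :=
    pow_le_pow_right₀ (one_le_one_add_abs j) hD
  have he := (Real.exp_pos (s * j)).le
  exact mul_le_mul_of_nonneg_right (mul_le_mul_of_nonneg_left this hC) he

/-- the subspace of vectors of exact exponential growth rate `s` (up to polynomial factors) -/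
def growSpace (T : V ≃ₗ[𝕜] V) (s : ℝ) : Submodule 𝕜 V where
  carrier := {v | Grows T s v}
  zero_mem' := ⟨0, 0, fun j => by simp⟩
  add_mem' := by
    intro a b ha hb
    obtain ⟨C₁, h₁, D₁, ha⟩ := ha.exists_le
    obtain ⟨C₂, h₂, D₂, hb⟩ := hb.exists_le
    refine ⟨C₁ + C₂, max D₁ D₂, fun j => ?_⟩
    rw [map_add]
    refine (norm_add_le _ _).trans ?_
    have := ha _ (le_max_left D₁ D₂) j
    have := hb _ (le_max_right D₁ D₂) j
    linarith
  smul_mem' := by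
    intro c v hv
    obtain ⟨C, hC, D, h⟩ := Grows.exists_nonneg hv
    refine ⟨‖c‖ * C, D, fun j => ?_⟩
    rw [map_smul, norm_smul]
    have := mul_le_mul_of_nonneg_left (h j) (norm_nonneg c)
    linarith

theorem mem_growSpace {T : V ≃ₗ[𝕜] V} {s : ℝ} {v : V} :
    v ∈ growSpace T s ↔ ∃ C : ℝ, ∃ D : ℕ, ∀ j : ℤ,
      ‖(T ^ j) v‖ ≤ C * (1 + |(j : ℝ)|) ^ D * Real.exp (s * j) := Iff.rfl

/-- general transfer: a bounded additive map intertwining the powers of `T` and `T'` -/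
theorem Grows.map {𝕜' : Type*} [NontriviallyNormedField 𝕜'] {V' : Type*} [NormedAddCommGroup V']
    [NormedSpace 𝕜' V'] {T : V ≃ₗ[𝕜] V} {T' : V' ≃ₗ[𝕜'] V'} {s : ℝ} {v : V} (h : Grows T s v)
    (f : V → V') (B : ℝ) (hB : ∀ x, ‖f x‖ ≤ B * ‖x‖) (hf : ∀ j : ℤ, (T' ^ j) (f v) = f ((T ^ j) v)) :
    Grows T' s (f v) := by
  obtain ⟨C, hC, D, h⟩ := h.exists_nonneg
  refine ⟨|B| * C, D, fun j => ?_⟩
  rw [hf]
  calc ‖f ((T ^ j) v)‖ ≤ B * ‖(T ^ j) v‖ := hB _
    _ ≤ |B| * ‖(T ^ j) v‖ := mul_le_mul_of_nonneg_right (le_abs_self B) (norm_nonneg _)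
    _ ≤ |B| * (C * (1 + |(j : ℝ)|) ^ D * Real.exp (s * j)) :=
        mul_le_mul_of_nonneg_left (h j) (abs_nonneg _)
    _ = |B| * C * (1 + |(j : ℝ)|) ^ D * Real.exp (s * j) := by ring

theorem zpow_comm_of_comm {𝕜' : Type*} [NontriviallyNormedField 𝕜'] {V' : Type*}
    [NormedAddCommGroup V'] [NormedSpace 𝕜' V'] {T : V ≃ₗ[𝕜] V} {T' : V' ≃ₗ[𝕜'] V'}
    (f : V → V') (hf : ∀ x, T' (f x) = f (T x)) (j : ℤ) (x : V) :
    (T' ^ j) (f x) = f ((T ^ j) x) := by
  have hnat : ∀ (n : ℕ) (x : V), (T' ^ n) (f x) = f ((T ^ n) x) := by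
    intro n
    induction n with
    | zero => intro x; simp
    | succ n ih =>
      intro x
      rw [pow_succ, pow_succ, LinearEquiv.mul_apply, LinearEquiv.mul_apply, hf, ih]
  have hneg : ∀ (n : ℕ) (x : V), ((T' ^ n)⁻¹) (f x) = f (((T ^ n)⁻¹) x) := by
    intro n x
    have h1 : (T' ^ n) (f (((T ^ n)⁻¹) x)) = f x := by
      rw [hnat, ← LinearEquiv.mul_apply, mul_inv_cancel]; rfl
    rw [← h1, ← LinearEquiv.mul_apply, inv_mul_cancel]; rfl
  cases j with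
  | ofNat n => simpa using hnat n x
  | negSucc n => simpa [zpow_negSucc] using hneg (n + 1) x

theorem growSpace_map_zpow (T : V ≃ₗ[𝕜] V) (s : ℝ) {v : V} (hv : v ∈ growSpace T s) (i : ℤ) :
    (T ^ i) v ∈ growSpace T s := by
  obtain ⟨C, hC, D, h⟩ := Grows.exists_nonneg hv
  refine ⟨C * (1 + |(i : ℝ)|) ^ D * Real.exp (s * i), D, fun j => ?_⟩
  rw [← LinearEquiv.mul_apply, ← zpow_add]
  refine (h (j + i)).trans ?_
  have h1 : 1 + |((j + i : ℤ) : ℝ)| ≤ (1 + |(j : ℝ)|) * (1 + |(i : ℝ)|) := by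
    push_cast
    have := abs_add_le (j : ℝ) (i : ℝ)
    nlinarith [abs_nonneg (j : ℝ), abs_nonneg (i : ℝ)]
  have h2 : (1 + |((j + i : ℤ) : ℝ)|) ^ D ≤ (1 + |(j : ℝ)|) ^ D * (1 + |(i : ℝ)|) ^ D := by
    rw [← mul_pow]
    exact pow_le_pow_left₀ (by positivity) h1 D
  have h3 : Real.exp (s * ((j + i : ℤ) : ℝ)) = Real.exp (s * j) * Real.exp (s * i) := by
    rw [← Real.exp_add]; push_cast; ring_nf
  rw [h3]
  calc C * (1 + |((j + i : ℤ) : ℝ)|) ^ D * (Real.exp (s * j) * Real.exp (s * i))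
      ≤ C * ((1 + |(j : ℝ)|) ^ D * (1 + |(i : ℝ)|) ^ D) * (Real.exp (s * j) * Real.exp (s * i)) := by
        gcongr
    _ = _ := by ring

theorem growSpace_map (T : V ≃ₗ[𝕜] V) (s : ℝ) {v : V} (hv : v ∈ growSpace T s) :
    T v ∈ growSpace T s := by
  simpa using growSpace_map_zpow T s hv 1

theorem growSpace_map_symm (T : V ≃ₗ[𝕜] V) (s : ℝ) {v : V} (hv : v ∈ growSpace T s) :
    T.symm v ∈ growSpace T s := by
  have := growSpace_map_zpow T s hv (-1)
  simpa using this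

theorem exp_growth_le {a : ℝ} {x C : ℝ} {D : ℕ} (hx : 0 < x) (hC : 0 ≤ C)
    (h : ∀ j : ℕ, Real.exp (a * j) * x ≤ C * (1 + (j : ℝ)) ^ D) : a ≤ 0 := by
  by_contra ha
  push Not at ha
  have ht : Filter.Tendsto (fun y : ℝ => Real.exp y / y ^ (D + 1)) Filter.atTop Filter.atTop :=
    Real.tendsto_exp_div_pow_atTop (D + 1)
  -- `(1+j)^D ≤ K (a j)^(D+1) ` for `j ≥ 1`
  have ht2 : Filter.Tendsto (fun j : ℕ => a * (j : ℝ)) Filter.atTop Filter.atTop :=
    Filter.Tendsto.const_mul_atTop ha tendsto_natCast_atTop_atTop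
  have ht3 := (ht.comp ht2).eventually_ge_atTop (C * 2 ^ D / (x * a ^ (D + 1)) + 1)
  obtain ⟨N, hN⟩ := (ht3.and (Filter.eventually_ge_atTop 1)).exists
  obtain ⟨h1, h2⟩ := hN
  simp only [Function.comp] at h1
  have hNpos : (0 : ℝ) < N := by exact_mod_cast h2
  have hN1 : (1 : ℝ) ≤ N := by exact_mod_cast h2
  have haN : 0 < (a * (N : ℝ)) ^ (D + 1) := by positivity
  rw [le_div_iff₀ haN] at h1
  have h3 := h N
  have h4 : (1 + (N : ℝ)) ^ D ≤ 2 ^ D * (N : ℝ) ^ (D + 1) := by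
    calc (1 + (N : ℝ)) ^ D ≤ (2 * N) ^ D := by
          apply pow_le_pow_left₀ (by positivity); linarith
      _ = 2 ^ D * (N : ℝ) ^ D := by rw [mul_pow]
      _ ≤ 2 ^ D * (N : ℝ) ^ (D + 1) := by
          apply mul_le_mul_of_nonneg_left _ (by positivity)
          exact pow_le_pow_right₀ hN1 (Nat.le_succ D)
  have h5 : Real.exp (a * N) * x ≤ C * 2 ^ D * (N : ℝ) ^ (D + 1) := by
    calc _ ≤ C * (1 + (N : ℝ)) ^ D := h3
      _ ≤ C * (2 ^ D * (N : ℝ) ^ (D + 1)) := mul_le_mul_of_nonneg_left h4 hC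
      _ = _ := by ring
  have h6 : (C * 2 ^ D / (x * a ^ (D + 1)) + 1) * (a * (N : ℝ)) ^ (D + 1) * x
      ≤ C * 2 ^ D * (N : ℝ) ^ (D + 1) := (mul_le_mul_of_nonneg_right h1 hx.le).trans h5
  have h7 : (C * 2 ^ D / (x * a ^ (D + 1)) + 1) * (a * (N : ℝ)) ^ (D + 1) * x
      = C * 2 ^ D * (N : ℝ) ^ (D + 1) + (a * (N : ℝ)) ^ (D + 1) * x := by
    have : a ^ (D + 1) ≠ 0 := by positivity
    rw [mul_pow]
    field_simp
  rw [h7] at h6
  have : 0 < (a * (N : ℝ)) ^ (D + 1) * x := by positivity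
  linarith

/-- an eigenvector of growth rate `s` has eigenvalue of modulus `exp s` -/
theorem log_norm_of_eigen {T : V ≃ₗ[𝕜] V} {s : ℝ} {v : V} {μ : 𝕜} (hμ : μ ≠ 0) (hv0 : v ≠ 0)
    (hv : v ∈ growSpace T s) (he : T v = μ • v) : Real.log ‖μ‖ = s := by
  obtain ⟨C, hC, D, h⟩ := Grows.exists_nonneg hv
  have hμ' : 0 < ‖μ‖ := norm_pos_iff.mpr hμ
  have hv' : 0 < ‖v‖ := norm_pos_iff.mpr hv0
  have hpow : ∀ n : ℕ, (T ^ n) v = μ ^ n • v := by
    intro n
    induction n with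
    | zero => simp
    | succ n ih => rw [pow_succ', LinearEquiv.mul_apply, ih, map_smul, he, smul_smul, pow_succ]
  have hneg : ∀ n : ℕ, ((T ^ n)⁻¹) v = (μ ^ n)⁻¹ • v := by
    intro n
    have h1 : (T ^ n) ((μ ^ n)⁻¹ • v) = v := by
      rw [map_smul, hpow, smul_smul, inv_mul_cancel₀ (pow_ne_zero _ hμ), one_smul]
    conv_lhs => rw [← h1]
    rw [← LinearEquiv.mul_apply, inv_mul_cancel]; rfl
  apply le_antisymm
  · have := exp_growth_le (a := Real.log ‖μ‖ - s) (x := ‖v‖) (C := C) (D := D) hv' hC ?_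
    · linarith
    · intro j
      have h1 := h j
      rw [zpow_natCast, hpow, norm_smul, norm_pow] at h1
      have h2 : ‖μ‖ ^ j = Real.exp (Real.log ‖μ‖ * j) := by
        rw [mul_comm, Real.exp_nat_mul, Real.exp_log hμ']
      rw [h2] at h1
      have h3 : Real.exp ((Real.log ‖μ‖ - s) * j) =
          Real.exp (Real.log ‖μ‖ * j) * Real.exp (-(s * j)) := by
        rw [← Real.exp_add]; ring_nf
      rw [h3]
      have h4 : Real.exp (s * (j : ℝ)) * Real.exp (-(s * j)) = 1 := by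
        rw [← Real.exp_add]; simp
      have h5 := mul_le_mul_of_nonneg_right h1 (Real.exp_pos (-(s * (j : ℝ)))).le
      simp only [Int.cast_natCast, Nat.abs_cast] at h5
      calc Real.exp (Real.log ‖μ‖ * j) * Real.exp (-(s * j)) * ‖v‖
          = Real.exp (Real.log ‖μ‖ * j) * ‖v‖ * Real.exp (-(s * j)) := by ring
        _ ≤ C * (1 + (j : ℝ)) ^ D * Real.exp (s * j) * Real.exp (-(s * j)) := h5
        _ = C * (1 + (j : ℝ)) ^ D * (Real.exp (s * j) * Real.exp (-(s * j))) := by ring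
        _ = C * (1 + (j : ℝ)) ^ D := by rw [h4, mul_one]
  · have := exp_growth_le (a := s - Real.log ‖μ‖) (x := ‖v‖) (C := C) (D := D) hv' hC ?_
    · linarith
    · intro j
      have h1 := h (-(j : ℤ))
      rw [zpow_neg, zpow_natCast, hneg, norm_smul, norm_inv, norm_pow] at h1
      have h2 : (‖μ‖ ^ j)⁻¹ = Real.exp (-(Real.log ‖μ‖ * j)) := by
        rw [Real.exp_neg, mul_comm, Real.exp_nat_mul, Real.exp_log hμ']
      rw [h2] at h1
      have h3 : Real.exp ((s - Real.log ‖μ‖) * j) =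
          Real.exp (-(Real.log ‖μ‖ * j)) * Real.exp (s * j) := by
        rw [← Real.exp_add]; ring_nf
      rw [h3]
      have h4 : Real.exp (s * (-(j : ℝ))) * Real.exp (s * j) = 1 := by
        rw [← Real.exp_add]; simp
      have h5 := mul_le_mul_of_nonneg_right h1 (Real.exp_pos (s * (j : ℝ))).le
      simp only [Int.cast_neg, Int.cast_natCast, abs_neg, Nat.abs_cast] at h5
      calc Real.exp (-(Real.log ‖μ‖ * j)) * Real.exp (s * j) * ‖v‖
          = Real.exp (-(Real.log ‖μ‖ * j)) * ‖v‖ * Real.exp (s * j) := by ring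
        _ ≤ C * (1 + (j : ℝ)) ^ D * Real.exp (s * -(j : ℝ)) * Real.exp (s * j) := h5
        _ = C * (1 + (j : ℝ)) ^ D * (Real.exp (s * -(j : ℝ)) * Real.exp (s * j)) := by ring
        _ = C * (1 + (j : ℝ)) ^ D := by rw [h4, mul_one]

/-- integration step: if `T w - μ w` has growth rate `log ‖μ‖` then so has `w` -/
theorem grows_of_sub {T : V ≃ₗ[𝕜] V} {w : V} {μ : 𝕜} (hμ : μ ≠ 0)
    (h : T w - μ • w ∈ growSpace T (Real.log ‖μ‖)) : w ∈ growSpace T (Real.log ‖μ‖) := by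
  obtain ⟨C, hC, D, h⟩ := Grows.exists_nonneg h
  have hμ' : 0 < ‖μ‖ := norm_pos_iff.mpr hμ
  have hexp : ∀ j : ℤ, Real.exp (Real.log ‖μ‖ * j) = ‖μ‖ ^ j := by
    intro j
    rw [← Real.rpow_intCast, Real.rpow_def_of_pos hμ']
  set M : ℝ := ‖μ‖⁻¹ * C with hM
  have hM0 : 0 ≤ M := by positivity
  set a : ℤ → V := fun j => μ ^ (-j) • (T ^ j) w with ha
  have hstep : ∀ j : ℤ, ‖a (j + 1) - a j‖ ≤ M * (1 + |(j : ℝ)|) ^ D := by
    intro j
    have h1 : a (j + 1) - a j = μ ^ (-j - 1) • (T ^ j) (T w - μ • w) := by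
      simp only [ha]
      rw [map_sub, map_smul, smul_sub, smul_smul]
      have e1 : (T ^ (j + 1)) w = (T ^ j) (T w) := by
        rw [zpow_add, zpow_one, LinearEquiv.mul_apply]
      have e2 : μ ^ (-(j + 1)) = μ ^ (-j - 1) := by congr 1; ring
      have e3 : μ ^ (-j - 1) * μ = μ ^ (-j) := by
        rw [← zpow_add_one₀ hμ]; congr 1; ring
      rw [e1, e2, e3]
    rw [h1, norm_smul, norm_zpow]
    have h2 := h j
    rw [hexp] at h2
    have h3 : ‖μ‖ ^ (-j - 1) * (C * (1 + |(j : ℝ)|) ^ D * ‖μ‖ ^ j)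
        = M * (1 + |(j : ℝ)|) ^ D := by
      have : ‖μ‖ ^ (-j - 1) * ‖μ‖ ^ j = ‖μ‖⁻¹ := by
        rw [← zpow_add₀ hμ'.ne']
        have : -j - 1 + j = (-1 : ℤ) := by ring
        rw [this, zpow_neg_one]
      rw [hM, ← this]; ring
    rw [← h3]
    exact mul_le_mul_of_nonneg_left h2 (by positivity)
  have hpos : ∀ n : ℕ, ‖a n‖ ≤ ‖w‖ + M * n * (1 + (n : ℝ)) ^ D := by
    intro n
    induction n with
    | zero => simp [ha]
    | succ n ih =>
      have h1 : a ((n : ℤ) + 1) = a n + (a ((n : ℤ) + 1) - a n) := by abel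
      have h2 := hstep n
      simp only [Int.cast_natCast, Nat.abs_cast] at h2
      push_cast
      rw [h1]
      refine (norm_add_le _ _).trans ((add_le_add ih h2).trans ?_)
      have h3 : (1 + (n : ℝ)) ^ D ≤ (1 + ((n : ℝ) + 1)) ^ D :=
        pow_le_pow_left₀ (by positivity) (by linarith) D
      have h4 : M * (n : ℝ) * (1 + (n : ℝ)) ^ D ≤ M * (n : ℝ) * (1 + ((n : ℝ) + 1)) ^ D :=
        mul_le_mul_of_nonneg_left h3 (by positivity)
      have h5 : M * (1 + (n : ℝ)) ^ D ≤ M * (1 + ((n : ℝ) + 1)) ^ D :=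
        mul_le_mul_of_nonneg_left h3 hM0
      nlinarith
  have hneg : ∀ n : ℕ, ‖a (-(n : ℤ))‖ ≤ ‖w‖ + M * n * (1 + (n : ℝ)) ^ D := by
    intro n
    induction n with
    | zero => simp [ha]
    | succ n ih =>
      have h1 : a (-((n : ℤ) + 1)) = a (-(n : ℤ)) - (a (-((n : ℤ) + 1) + 1) - a (-((n : ℤ) + 1))) := by
        have : (-((n : ℤ) + 1) + 1) = -(n : ℤ) := by ring
        rw [this]; abel
      have h2 := hstep (-((n : ℤ) + 1))
      have h2' : |((-((n : ℤ) + 1) : ℤ) : ℝ)| = (n : ℝ) + 1 := by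
        push_cast
        rw [abs_neg, abs_of_nonneg (by positivity)]
      rw [h2'] at h2
      push_cast
      rw [h1]
      refine (norm_sub_le _ _).trans ((add_le_add ih h2).trans ?_)
      have h3 : (1 + (n : ℝ)) ^ D ≤ (1 + ((n : ℝ) + 1)) ^ D :=
        pow_le_pow_left₀ (by positivity) (by linarith) D
      have h4 : M * (n : ℝ) * (1 + (n : ℝ)) ^ D ≤ M * (n : ℝ) * (1 + ((n : ℝ) + 1)) ^ D :=
        mul_le_mul_of_nonneg_left h3 (by positivity)
      nlinarith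
  have hall : ∀ j : ℤ, ‖a j‖ ≤ ‖w‖ + M * |(j : ℝ)| * (1 + |(j : ℝ)|) ^ D := by
    intro j
    obtain ⟨n, rfl | rfl⟩ := j.eq_nat_or_neg
    · simpa using hpos n
    · simpa using hneg n
  refine ⟨‖w‖ + M, D + 1, fun j => ?_⟩
  have h1 : (T ^ j) w = μ ^ j • a j := by
    simp only [ha]
    rw [smul_smul, ← zpow_add₀ hμ]; simp
  rw [h1, norm_smul, norm_zpow, hexp, mul_comm]
  apply mul_le_mul_of_nonneg_right _ (by positivity)
  refine (hall j).trans ?_
  have h2 : (1 : ℝ) ≤ (1 + |(j : ℝ)|) ^ (D + 1) := one_le_pow₀ (one_le_one_add_abs j)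
  have h3 : M * |(j : ℝ)| * (1 + |(j : ℝ)|) ^ D ≤ M * (1 + |(j : ℝ)|) ^ (D + 1) := by
    rw [pow_succ]
    have : |(j : ℝ)| ≤ 1 + |(j : ℝ)| := by linarith
    calc M * |(j : ℝ)| * (1 + |(j : ℝ)|) ^ D ≤ M * (1 + |(j : ℝ)|) * (1 + |(j : ℝ)|) ^ D := by
          gcongr
      _ = _ := by ring
  nlinarith [norm_nonneg w]

theorem mem_growSpace_of_pow {T : V ≃ₗ[𝕜] V} {μ : 𝕜} (hμ : μ ≠ 0) (k : ℕ) :
    ∀ w : V, (((T : V →ₗ[𝕜] V) - μ • (1 : End 𝕜 V)) ^ k) w = 0 →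
      w ∈ growSpace T (Real.log ‖μ‖) := by
  induction k with
  | zero => intro w hw; simp at hw; rw [hw]; exact zero_mem _
  | succ k ih =>
    intro w hw
    apply grows_of_sub hμ
    have h1 := ih (((T : V →ₗ[𝕜] V) - μ • (1 : End 𝕜 V)) w) (by
      rw [pow_succ] at hw; exact hw)
    simpa using h1

theorem mem_growSpace_of_mem_maxGenEigenspace {T : V ≃ₗ[𝕜] V} {μ : 𝕜} (hμ : μ ≠ 0) {w : V}
    (hw : w ∈ End.maxGenEigenspace (T : V →ₗ[𝕜] V) μ) : w ∈ growSpace T (Real.log ‖μ‖) := by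
  rw [End.mem_maxGenEigenspace] at hw
  obtain ⟨k, hk⟩ := hw
  exact mem_growSpace_of_pow hμ k w hk

end Gen

/-! ### complex case -/
section Complex

variable {W : Type*} [NormedAddCommGroup W] [NormedSpace ℂ W] [FiniteDimensional ℂ W]

omit [FiniteDimensional ℂ W] in
theorem growSpace_inf_maxGenEigenspace {S : W ≃ₗ[ℂ] W} {s : ℝ} {μ : ℂ}
    (h : ¬ (μ ≠ 0 ∧ Real.log ‖μ‖ = s)) :
    growSpace S s ⊓ End.maxGenEigenspace (S : W →ₗ[ℂ] W) μ = ⊥ := by
  rw [eq_bot_iff]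
  rintro w ⟨hw1, hw2⟩
  rw [Submodule.mem_bot]
  by_contra hw0
  have hw2' := hw2
  simp only [SetLike.mem_coe] at hw1 hw2'
  rw [End.mem_maxGenEigenspace] at hw2'
  classical
  let P : ℕ → Prop := fun k => (((S : W →ₗ[ℂ] W) - μ • (1 : End ℂ W)) ^ k) w = 0
  have hP : ∃ k, P k := hw2'
  set k := Nat.find hP with hk
  have hk1 : P k := Nat.find_spec hP
  have hk0 : k ≠ 0 := by
    intro h0
    rw [h0] at hk1
    exact hw0 (by simpa [P] using hk1)
  obtain ⟨m, hm⟩ := Nat.exists_eq_succ_of_ne_zero hk0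
  have hm1 : ¬ P m := Nat.find_min hP (by omega)
  set u : W := (((S : W →ₗ[ℂ] W) - μ • (1 : End ℂ W)) ^ m) w with hu
  have hu0 : u ≠ 0 := hm1
  have hSu : S u = μ • u := by
    have h1 : (((S : W →ₗ[ℂ] W) - μ • (1 : End ℂ W)) ^ (m + 1)) w = 0 := by
      have := hk1
      rw [hm] at this
      exact this
    rw [pow_succ'] at h1
    have h2 : ((S : W →ₗ[ℂ] W) - μ • (1 : End ℂ W)) u = 0 := h1
    simpa [sub_eq_zero] using h2
  have hinv : ∀ n : ℕ, ∀ v ∈ growSpace S s,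
      (((S : W →ₗ[ℂ] W) - μ • (1 : End ℂ W)) ^ n) v ∈ growSpace S s := by
    intro n
    induction n with
    | zero => intro v hv; simpa using hv
    | succ n ih =>
      intro v hv
      rw [pow_succ]
      apply ih
      have : ((S : W →ₗ[ℂ] W) - μ • (1 : End ℂ W)) v = S v - μ • v := by simp
      rw [this]
      exact sub_mem (growSpace_map S s hv) (Submodule.smul_mem _ _ hv)
  have hus : u ∈ growSpace S s := hinv m w hw1
  have hμ : μ ≠ 0 := by
    intro h0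
    rw [h0, zero_smul] at hSu
    exact hu0 ((LinearEquiv.map_eq_zero_iff S).mp hSu)
  exact h ⟨hμ, log_norm_of_eigen hμ hu0 hus hSu⟩

theorem iSup_maxGen_top (S : W ≃ₗ[ℂ] W) :
    ⨆ μ, End.genEigenspace (S : W →ₗ[ℂ] W) μ ⊤ = ⊤ :=
  End.iSup_maxGenEigenspace_eq_top (S : W →ₗ[ℂ] W)

theorem growSpace_eq_biSup (S : W ≃ₗ[ℂ] W) (s : ℝ) :
    growSpace S s = ⨆ μ ∈ {μ : ℂ | μ ≠ 0 ∧ Real.log ‖μ‖ = s},
      End.maxGenEigenspace (S : W →ₗ[ℂ] W) μ := by
  apply le_antisymm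
  · have h1 := Submodule.eq_iSup_inf_genEigenspace (p := growSpace S s)
      (f := (S : W →ₗ[ℂ] W)) ⊤ (fun x hx => growSpace_map S s hx) (iSup_maxGen_top S)
    rw [h1]
    apply iSup_le
    intro μ
    by_cases hμ : μ ≠ 0 ∧ Real.log ‖μ‖ = s
    · refine le_trans inf_le_right ?_
      exact le_iSup₂ (f := fun μ (_ : μ ∈ {μ : ℂ | μ ≠ 0 ∧ Real.log ‖μ‖ = s}) =>
        End.maxGenEigenspace (S : W →ₗ[ℂ] W) μ) μ hμ
    · have := growSpace_inf_maxGenEigenspace (S := S) hμ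
      change growSpace S s ⊓ End.maxGenEigenspace (S : W →ₗ[ℂ] W) μ ≤ _
      rw [this]
      exact bot_le
  · apply iSup₂_le
    rintro μ ⟨hμ, hs⟩ w hw
    rw [← hs]
    exact mem_growSpace_of_mem_maxGenEigenspace hμ hw

omit [FiniteDimensional ℂ W] in
theorem maxGenEigenspace_zero (S : W ≃ₗ[ℂ] W) :
    End.maxGenEigenspace (S : W →ₗ[ℂ] W) 0 = ⊥ := by
  rw [eq_bot_iff]
  intro w hw
  rw [End.mem_maxGenEigenspace] at hw
  obtain ⟨k, hk⟩ := hw
  rw [Submodule.mem_bot]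
  simp only [zero_smul, sub_zero] at hk
  induction k generalizing w with
  | zero => simpa using hk
  | succ k ih =>
    rw [pow_succ'] at hk
    apply ih
    have : S (((S : W →ₗ[ℂ] W) ^ k) w) = 0 := hk
    exact (LinearEquiv.map_eq_zero_iff S).mp this

theorem iSup_growSpace_complex (S : W ≃ₗ[ℂ] W) : ⨆ s, growSpace S s = ⊤ := by
  rw [eq_top_iff, ← iSup_maxGen_top S]
  apply iSup_le
  intro μ
  by_cases hμ : μ = 0
  · subst hμ
    change End.maxGenEigenspace (S : W →ₗ[ℂ] W) 0 ≤ _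
    rw [maxGenEigenspace_zero]; exact bot_le
  · refine le_trans ?_ (le_iSup _ (Real.log ‖μ‖))
    intro w hw
    exact mem_growSpace_of_mem_maxGenEigenspace hμ hw

theorem iSupIndep_growSpace_complex (S : W ≃ₗ[ℂ] W) : iSupIndep (growSpace S) := by
  intro s
  have h1 : (⨆ (j) (_ : j ≠ s), growSpace S j) ≤ ⨆ μ ∈ {μ : ℂ | μ ≠ 0 ∧ Real.log ‖μ‖ ≠ s},
      End.maxGenEigenspace (S : W →ₗ[ℂ] W) μ := by
    apply iSup₂_le
    intro j hj
    rw [growSpace_eq_biSup]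
    apply iSup₂_le
    rintro μ ⟨hμ, hμj⟩
    exact le_iSup₂ (f := fun μ (_ : μ ∈ {μ : ℂ | μ ≠ 0 ∧ Real.log ‖μ‖ ≠ s}) =>
        End.maxGenEigenspace (S : W →ₗ[ℂ] W) μ) μ ⟨hμ, by rw [hμj]; exact hj⟩
  refine Disjoint.mono_right h1 ?_
  rw [growSpace_eq_biSup S s]
  refine iSupIndep.disjoint_biSup_biSup (End.independent_maxGenEigenspace (S : W →ₗ[ℂ] W)) ?_
  rw [Set.disjoint_left]
  rintro μ ⟨_, h⟩ ⟨_, h'⟩
  exact h' h

end Complex

/-! ### real case -/
section Real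

variable {V : Type*} [NormedAddCommGroup V] [NormedSpace ℝ V] [FiniteDimensional ℝ V]

variable (V) in
/-- complex coordinates of a real vector -/
noncomputable def coordC : V →ₗ[ℝ] (Fin (finrank ℝ V) → ℂ) :=
  (LinearMap.pi fun i => Complex.ofRealCLM.toLinearMap ∘ₗ (LinearMap.proj i)) ∘ₗ
    (finBasis ℝ V).equivFun.toLinearMap

variable (V) in
/-- real part of a complex coordinate vector -/
noncomputable def reC : (Fin (finrank ℝ V) → ℂ) →ₗ[ℝ] V :=
  (finBasis ℝ V).equivFun.symm.toLinearMap ∘ₗ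
    (LinearMap.pi fun i => Complex.reCLM.toLinearMap ∘ₗ (LinearMap.proj i))

theorem coordC_apply (v : V) (i) : coordC V v i = (((finBasis ℝ V).equivFun v i : ℝ) : ℂ) := rfl

theorem equivFun_reC (w : Fin (finrank ℝ V) → ℂ) (i) :
    (finBasis ℝ V).equivFun (reC V w) i = (w i).re := by
  simp only [reC, LinearMap.comp_apply, LinearEquiv.coe_coe, LinearEquiv.apply_symm_apply]
  rfl

theorem reC_coordC (v : V) : reC V (coordC V v) = v := by
  apply (finBasis ℝ V).equivFun.injective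
  funext i
  rw [equivFun_reC, coordC_apply, Complex.ofReal_re]

/-- the complexified matrix -/
noncomputable def cMat (T : V →ₗ[ℝ] V) :
    Matrix (Fin (finrank ℝ V)) (Fin (finrank ℝ V)) ℂ :=
  (LinearMap.toMatrix (finBasis ℝ V) (finBasis ℝ V) T).map (algebraMap ℝ ℂ)

theorem cMat_mul (T T' : V →ₗ[ℝ] V) : cMat (T ∘ₗ T') = cMat T * cMat T' := by
  unfold cMat
  rw [LinearMap.toMatrix_comp (finBasis ℝ V) (finBasis ℝ V) (finBasis ℝ V), Matrix.map_mul]

theorem cMat_id : cMat (LinearMap.id : V →ₗ[ℝ] V) = 1 := by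
  unfold cMat
  rw [LinearMap.toMatrix_id, Matrix.map_one _ (map_zero _) (map_one _)]

/-- the complexification of an automorphism -/
noncomputable def cplx (T : V ≃ₗ[ℝ] V) :
    (Fin (finrank ℝ V) → ℂ) ≃ₗ[ℂ] (Fin (finrank ℝ V) → ℂ) :=
  LinearEquiv.ofLinearMap (Matrix.toLin' (cMat (T : V →ₗ[ℝ] V)))
    (Matrix.toLin' (cMat (T.symm : V →ₗ[ℝ] V)))
    (by rw [← Matrix.toLin'_mul, ← cMat_mul]; simp [cMat_id])
    (by rw [← Matrix.toLin'_mul, ← cMat_mul]; simp [cMat_id])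

theorem cplx_coe (T : V ≃ₗ[ℝ] V) :
    ((cplx T : (Fin (finrank ℝ V) → ℂ) ≃ₗ[ℂ] (Fin (finrank ℝ V) → ℂ)) :
      (Fin (finrank ℝ V) → ℂ) →ₗ[ℂ] (Fin (finrank ℝ V) → ℂ))
      = Matrix.toLin' (cMat (T : V →ₗ[ℝ] V)) := rfl

theorem cplx_apply (T : V ≃ₗ[ℝ] V) (w : Fin (finrank ℝ V) → ℂ) :
    cplx T w = (cMat (T : V →ₗ[ℝ] V)).mulVec w := rfl

theorem toMatrix_mulVec_equivFun (T : V →ₗ[ℝ] V) (v : V) :
    (LinearMap.toMatrix (finBasis ℝ V) (finBasis ℝ V) T).mulVec ((finBasis ℝ V).equivFun v)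
      = (finBasis ℝ V).equivFun (T v) :=
  LinearMap.toMatrix_mulVec_repr _ _ T v

theorem cplx_coordC (T : V ≃ₗ[ℝ] V) (v : V) : cplx T (coordC V v) = coordC V (T v) := by
  funext i
  rw [cplx_apply, coordC_apply]
  have h1 := congrFun (toMatrix_mulVec_equivFun (T : V →ₗ[ℝ] V) v) i
  rw [LinearEquiv.coe_coe] at h1
  rw [← h1]
  simp only [Matrix.mulVec, dotProduct, cMat, Matrix.map_apply, coordC_apply,
    Complex.coe_algebraMap, Complex.ofReal_sum, Complex.ofReal_mul]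

theorem reC_cplx (T : V ≃ₗ[ℝ] V) (w : Fin (finrank ℝ V) → ℂ) :
    T (reC V w) = reC V (cplx T w) := by
  apply (finBasis ℝ V).equivFun.injective
  funext i
  have h1 := congrFun (toMatrix_mulVec_equivFun (T : V →ₗ[ℝ] V) (reC V w)) i
  rw [LinearEquiv.coe_coe] at h1
  rw [← h1, equivFun_reC, cplx_apply]
  simp only [Matrix.mulVec, dotProduct, cMat, Matrix.map_apply, Complex.coe_algebraMap,
    Complex.re_sum]
  refine Finset.sum_congr rfl fun j _ => ?_
  rw [equivFun_reC, Complex.re_ofReal_mul]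

theorem exists_bound_of_real_linear {E F : Type*} [NormedAddCommGroup E] [NormedSpace ℝ E]
    [FiniteDimensional ℝ E] [NormedAddCommGroup F] [NormedSpace ℝ F] (f : E →ₗ[ℝ] F) :
    ∃ B : ℝ, 0 ≤ B ∧ ∀ x, ‖f x‖ ≤ B * ‖x‖ := by
  refine ⟨‖LinearMap.toContinuousLinearMap f‖, norm_nonneg _, fun x => ?_⟩
  exact (LinearMap.toContinuousLinearMap f).le_opNorm x

theorem coordC_mem_growSpace {T : V ≃ₗ[ℝ] V} {s : ℝ} {v : V} (hv : v ∈ growSpace T s) :
    coordC V v ∈ growSpace (cplx T) s := by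
  obtain ⟨B, _, hB⟩ := exists_bound_of_real_linear (coordC V)
  refine Grows.map (T := T) (T' := cplx T) hv (coordC V) B hB ?_
  intro j
  exact zpow_comm_of_comm (coordC V) (cplx_coordC T) j v

theorem reC_mem_growSpace {T : V ≃ₗ[ℝ] V} {s : ℝ} {w : Fin (finrank ℝ V) → ℂ}
    (hw : w ∈ growSpace (cplx T) s) : reC V w ∈ growSpace T s := by
  obtain ⟨B, _, hB⟩ := exists_bound_of_real_linear (reC V)
  refine Grows.map (T := cplx T) (T' := T) hw (reC V) B hB ?_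
  intro j
  exact zpow_comm_of_comm (reC V) (reC_cplx T) j w

theorem iSup_growSpace (T : V ≃ₗ[ℝ] V) : ⨆ s, growSpace T s = ⊤ := by
  rw [eq_top_iff]
  intro v _
  have h1 : coordC V v ∈ ⨆ s, growSpace (cplx T) s := by
    rw [iSup_growSpace_complex]; trivial
  have h2 : ∀ w ∈ ⨆ s, growSpace (cplx T) s, reC V w ∈ ⨆ s, growSpace T s := by
    intro w hw
    refine Submodule.iSup_induction (fun s => growSpace (cplx T) s)
      (motive := fun w => reC V w ∈ ⨆ s, growSpace T s) hw ?_ ?_ ?_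
    · intro s x hx
      exact Submodule.mem_iSup_of_mem s (reC_mem_growSpace hx)
    · rw [map_zero]; exact zero_mem _
    · intro x y hx hy
      rw [map_add]; exact add_mem hx hy
  have h3 := h2 _ h1
  rwa [reC_coordC] at h3

theorem coordC_injective : Function.Injective (coordC V) := by
  intro a b h
  rw [← reC_coordC a, ← reC_coordC b, h]

theorem iSupIndep_growSpace (T : V ≃ₗ[ℝ] V) : iSupIndep (growSpace T) := by
  intro s
  rw [Submodule.disjoint_def]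
  intro v hv hv'
  have h1 := coordC_mem_growSpace hv
  have h2 : coordC V v ∈ ⨆ (j) (_ : j ≠ s), growSpace (cplx T) j := by
    have h3 : (⨆ (j) (_ : j ≠ s), growSpace T j) ≤
        Submodule.comap (coordC V)
          ((⨆ (j) (_ : j ≠ s), growSpace (cplx T) j).restrictScalars ℝ) := by
      apply iSup₂_le
      intro j hj x hx
      rw [Submodule.mem_comap, Submodule.restrictScalars_mem]
      exact (le_iSup₂ (f := fun j (_ : j ≠ s) => growSpace (cplx T) j) j hj)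
        (coordC_mem_growSpace hx)
    exact h3 hv'
  have h4 := Submodule.disjoint_def.mp (iSupIndep_growSpace_complex (cplx T) s) _ h1 h2
  exact coordC_injective (by rw [h4, map_zero])

theorem finite_growSpace (T : V ≃ₗ[ℝ] V) : {s | growSpace T s ≠ ⊥}.Finite :=
  WellFoundedGT.finite_ne_bot_of_iSupIndep (iSupIndep_growSpace T)

/-- the (finite) set of growth rates -/
noncomputable def rates (T : V ≃ₗ[ℝ] V) : Finset ℝ := (finite_growSpace T).toFinset

theorem mem_rates {T : V ≃ₗ[ℝ] V} {s : ℝ} : s ∈ rates T ↔ growSpace T s ≠ ⊥ := by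
  simp [rates]

theorem growSpace_eq_bot {T : V ≃ₗ[ℝ] V} {s : ℝ} (hs : s ∉ rates T) : growSpace T s = ⊥ := by
  rw [mem_rates] at hs
  exact not_not.mp hs

theorem biSup_growSpace (T : V ≃ₗ[ℝ] V) : ⨆ s ∈ rates T, growSpace T s = ⊤ := by
  rw [eq_top_iff, ← iSup_growSpace T]
  apply iSup_le
  intro s
  by_cases hs : s ∈ rates T
  · exact le_iSup₂ (f := fun s (_ : s ∈ rates T) => growSpace T s) s hs
  · rw [growSpace_eq_bot hs]; exact bot_le

theorem isInternal_growSpace (T : V ≃ₗ[ℝ] V) :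
    DirectSum.IsInternal (fun s : rates T => growSpace T (s : ℝ)) := by
  rw [DirectSum.isInternal_submodule_iff_iSupIndep_and_iSup_eq_top]
  refine ⟨(iSupIndep_growSpace T).comp Subtype.val_injective, ?_⟩
  rw [← biSup_growSpace T, iSup_subtype]

/-- every vector is a sum of its components -/
theorem exists_decomp (T : V ≃ₗ[ℝ] V) (v : V) :
    ∃ f : ℝ → V, (∀ s, f s ∈ growSpace T s) ∧ (∀ s, s ∉ rates T → f s = 0) ∧
      v = ∑ s ∈ rates T, f s := by
  have h : v ∈ ⨆ s ∈ rates T, growSpace T s := by rw [biSup_growSpace]; trivial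
  rw [Submodule.mem_iSup_finset_iff_exists_sum] at h
  obtain ⟨μ, hμ⟩ := h
  classical
  refine ⟨fun s => if s ∈ rates T then (μ s : V) else 0, ?_, ?_, ?_⟩
  · intro s
    by_cases hs : s ∈ rates T
    · simp only [if_pos hs]; exact (μ s).2
    · simp only [if_neg hs]; exact zero_mem _
  · intro s hs; simp only [if_neg hs]
  · rw [← hμ]
    refine Finset.sum_congr rfl fun s hs => ?_
    simp only [if_pos hs]

/-- uniform two-sided bound on a finite dimensional space of growing vectors -/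
theorem exists_uniform (T : V ≃ₗ[ℝ] V) (s : ℝ) :
    ∃ C : ℝ, 0 ≤ C ∧ ∃ D : ℕ, ∀ v ∈ growSpace T s, ∀ j : ℤ,
      ‖(T ^ j) v‖ ≤ C * (1 + |(j : ℝ)|) ^ D * Real.exp (s * j) * ‖v‖ := by
  classical
  let p := growSpace T s
  let b := finBasis ℝ p
  have hb : ∀ i, ∃ C : ℝ, 0 ≤ C ∧ ∃ D₀ : ℕ, ∀ D, D₀ ≤ D → ∀ j : ℤ,
      ‖(T ^ j) (b i : V)‖ ≤ C * (1 + |(j : ℝ)|) ^ D * Real.exp (s * j) :=
    fun i => Grows.exists_le (b i).2
  choose C hC D₀ hD using hb
  obtain ⟨B, hB0, hB⟩ := exists_bound_of_real_linear b.equivFun.toLinearMap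
  refine ⟨B * ∑ i, C i, mul_nonneg hB0 (Finset.sum_nonneg fun i _ => hC i),
    Finset.univ.sup D₀, fun v hv j => ?_⟩
  have h1 : v = ∑ i, b.equivFun ⟨v, hv⟩ i • (b i : V) := by
    have := b.sum_equivFun ⟨v, hv⟩
    have h2 := congrArg (Submodule.subtype p) this
    simp only [map_sum, map_smul, Submodule.subtype_apply] at h2
    exact h2.symm
  have h3 : ∀ i, |b.equivFun ⟨v, hv⟩ i| ≤ B * ‖v‖ := by
    intro i
    have h4 := hB ⟨v, hv⟩
    have h5 := norm_le_pi_norm (b.equivFun ⟨v, hv⟩) i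
    rw [Real.norm_eq_abs] at h5
    exact h5.trans h4
  have hE : 0 ≤ (1 + |(j : ℝ)|) ^ (Finset.univ.sup D₀) * Real.exp (s * j) := by positivity
  calc ‖(T ^ j) v‖ = ‖∑ i, b.equivFun ⟨v, hv⟩ i • (T ^ j) (b i : V)‖ := by
        conv_lhs => rw [h1]
        rw [map_sum]
        simp only [map_smul]
    _ ≤ ∑ i, ‖b.equivFun ⟨v, hv⟩ i • (T ^ j) (b i : V)‖ := norm_sum_le _ _
    _ ≤ ∑ i, (B * ‖v‖) * (C i * (1 + |(j : ℝ)|) ^ (Finset.univ.sup D₀) * Real.exp (s * j)) := by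
        apply Finset.sum_le_sum
        intro i _
        rw [norm_smul, Real.norm_eq_abs]
        exact mul_le_mul (h3 i) (hD i _ (Finset.le_sup (Finset.mem_univ i)) j) (norm_nonneg _)
          (mul_nonneg hB0 (norm_nonneg _))
    _ = _ := by
        rw [← Finset.mul_sum]
        have : ∑ i, C i * (1 + |(j : ℝ)|) ^ (Finset.univ.sup D₀) * Real.exp (s * j)
            = (∑ i, C i) * ((1 + |(j : ℝ)|) ^ (Finset.univ.sup D₀) * Real.exp (s * j)) := by
          rw [Finset.sum_mul]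
          refine Finset.sum_congr rfl fun i _ => by ring
        rw [this]; ring

/-! #### restriction to an invariant subspace -/

/-- restriction of an automorphism to an invariant subspace -/
noncomputable def restrictE (T : V ≃ₗ[ℝ] V) (p : Submodule ℝ V) (h : ∀ x ∈ p, T x ∈ p)
    (h' : ∀ x ∈ p, T.symm x ∈ p) : p ≃ₗ[ℝ] p :=
  LinearEquiv.ofLinearMap ((T : V →ₗ[ℝ] V).restrict h) ((T.symm : V →ₗ[ℝ] V).restrict h')
    (by ext x; simp [LinearMap.restrict_apply]) (by ext x; simp [LinearMap.restrict_apply])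

omit [FiniteDimensional ℝ V] in
theorem restrictE_coe (T : V ≃ₗ[ℝ] V) (p : Submodule ℝ V) (h : ∀ x ∈ p, T x ∈ p)
    (h' : ∀ x ∈ p, T.symm x ∈ p) (x : p) : ((restrictE T p h h' x : p) : V) = T x := rfl

omit [FiniteDimensional ℝ V] in
theorem restrictE_zpow_coe (T : V ≃ₗ[ℝ] V) (p : Submodule ℝ V) (h : ∀ x ∈ p, T x ∈ p)
    (h' : ∀ x ∈ p, T.symm x ∈ p) (j : ℤ) (x : p) :
    ((((restrictE T p h h') ^ j) x : p) : V) = (T ^ j) (x : V) :=
  (zpow_comm_of_comm (T := restrictE T p h h') (T' := T) (fun x : p => (x : V))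
    (fun _ => rfl) j x).symm

/-- `T` restricted to its growth space -/
noncomputable def growRestrict (T : V ≃ₗ[ℝ] V) (s : ℝ) : growSpace T s ≃ₗ[ℝ] growSpace T s :=
  restrictE T (growSpace T s) (fun _ hx => growSpace_map T s hx)
    (fun _ hx => growSpace_map_symm T s hx)

omit [FiniteDimensional ℝ V] in
theorem growSpace_growRestrict (T : V ≃ₗ[ℝ] V) (s : ℝ) :
    growSpace (growRestrict T s) s = ⊤ := by
  rw [eq_top_iff]
  intro x _
  obtain ⟨C, D, h⟩ := mem_growSpace.mp x.2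
  refine mem_growSpace.mpr ⟨C, D, fun j => ?_⟩
  have := h j
  rw [← restrictE_zpow_coe T (growSpace T s) (fun _ hx => growSpace_map T s hx)
    (fun _ hx => growSpace_map_symm T s hx) j x] at this
  exact this

theorem coordC_basis (i : Fin (finrank ℝ V)) :
    coordC V (finBasis ℝ V i) = Pi.single i (1 : ℂ) := by
  funext j
  rw [coordC_apply, Basis.equivFun_self]
  by_cases h : i = j
  · subst h; simp
  · rw [if_neg h, Pi.single_eq_of_ne (Ne.symm h)]; simp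

theorem growSpace_cplx_eq_top {T : V ≃ₗ[ℝ] V} {s : ℝ} (h : growSpace T s = ⊤) :
    growSpace (cplx T) s = ⊤ := by
  rw [eq_top_iff]
  intro w _
  have h1 : w = ∑ i, w i • coordC V (finBasis ℝ V i) := by
    funext j
    rw [Finset.sum_apply]
    simp only [coordC_basis, Pi.smul_apply, smul_eq_mul]
    rw [Finset.sum_eq_single j]
    · simp
    · intro b _ hb
      rw [Pi.single_eq_of_ne (Ne.symm hb), mul_zero]
    · intro h; exact absurd (Finset.mem_univ j) h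
  rw [h1]
  refine sum_mem fun i _ => Submodule.smul_mem _ _ (coordC_mem_growSpace ?_)
  rw [h]; trivial

theorem charpoly_map_eq (T : V ≃ₗ[ℝ] V) :
    (LinearMap.charpoly (T : V →ₗ[ℝ] V)).map (algebraMap ℝ ℂ)
      = LinearMap.charpoly ((cplx T : (Fin (finrank ℝ V) → ℂ) ≃ₗ[ℂ] (Fin (finrank ℝ V) → ℂ)) :
        (Fin (finrank ℝ V) → ℂ) →ₗ[ℂ] (Fin (finrank ℝ V) → ℂ)) := by
  rw [cplx_coe, Matrix.charpoly_toLin', cMat, Matrix.charpoly_map, LinearMap.charpoly_toMatrix]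

theorem isRoot_imp_growSpace {T : V ≃ₗ[ℝ] V} {μ : ℂ}
    (hμ : ((LinearMap.charpoly (T : V →ₗ[ℝ] V)).map (algebraMap ℝ ℂ)).IsRoot μ) :
    μ ≠ 0 ∧ ∃ w : Fin (finrank ℝ V) → ℂ, w ≠ 0 ∧ cplx T w = μ • w := by
  rw [charpoly_map_eq, ← End.hasEigenvalue_iff_isRoot_charpoly] at hμ
  obtain ⟨w, hw⟩ := hμ.exists_hasEigenvector
  have hw0 := hw.2
  have hw1 : cplx T w = μ • w := hw.apply_eq_smul
  refine ⟨?_, w, hw0, hw1⟩
  intro h0
  rw [h0, zero_smul] at hw1
  exact hw0 ((LinearEquiv.map_eq_zero_iff _).mp hw1)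

/-- if everything grows at rate `s`, all complex eigenvalues have modulus `exp s` -/
theorem log_norm_of_isRoot {T : V ≃ₗ[ℝ] V} {s : ℝ} (h : growSpace T s = ⊤) {μ : ℂ}
    (hμ : ((LinearMap.charpoly (T : V →ₗ[ℝ] V)).map (algebraMap ℝ ℂ)).IsRoot μ) :
    μ ≠ 0 ∧ Real.log ‖μ‖ = s ∧ ‖μ‖ = Real.exp s := by
  obtain ⟨h0, w, hw0, hw⟩ := isRoot_imp_growSpace hμ
  have h1 : Real.log ‖μ‖ = s :=
    log_norm_of_eigen h0 hw0 (by rw [growSpace_cplx_eq_top h]; trivial) hw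
  refine ⟨h0, h1, ?_⟩
  rw [← h1, Real.exp_log (norm_pos_iff.mpr h0)]

/-- complex eigenvalues of `T` on `growSpace T s` have modulus `exp s` -/
theorem norm_root_growRestrict (T : V ≃ₗ[ℝ] V) (s : ℝ) {μ : ℂ}
    (hμ : ((LinearMap.charpoly (growRestrict T s : growSpace T s →ₗ[ℝ] growSpace T s)).map
      (algebraMap ℝ ℂ)).IsRoot μ) : ‖μ‖ = Real.exp s :=
  (log_norm_of_isRoot (growSpace_growRestrict T s) hμ).2.2

/-- every complex root of the characteristic polynomial gives a nonzero growth space -/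
theorem growSpace_ne_bot_of_isRoot {T : V ≃ₗ[ℝ] V} {μ : ℂ}
    (hμ : ((LinearMap.charpoly (T : V →ₗ[ℝ] V)).map (algebraMap ℝ ℂ)).IsRoot μ) :
    growSpace T (Real.log ‖μ‖) ≠ ⊥ := by
  obtain ⟨h0, w, hw0, hw⟩ := isRoot_imp_growSpace hμ
  have hwg : w ∈ growSpace (cplx T) (Real.log ‖μ‖) := by
    apply grows_of_sub h0
    rw [hw, sub_self]; exact zero_mem _
  intro hbot
  have h1 : reC V w = 0 := by
    have := reC_mem_growSpace hwg
    rwa [hbot, Submodule.mem_bot] at this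
  have h2 : reC V ((Complex.I) • w) = 0 := by
    have := reC_mem_growSpace (Submodule.smul_mem _ Complex.I hwg)
    rwa [hbot, Submodule.mem_bot] at this
  apply hw0
  funext i
  have h3 := congrFun (congrArg (finBasis ℝ V).equivFun h1) i
  have h4 := congrFun (congrArg (finBasis ℝ V).equivFun h2) i
  rw [equivFun_reC, map_zero] at h3 h4
  simp only [Pi.smul_apply, smul_eq_mul, Complex.mul_re, Complex.I_re, zero_mul, Complex.I_im,
    one_mul, zero_sub, Pi.zero_apply, neg_eq_zero] at h3 h4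
  exact Complex.ext h3 h4

theorem mem_rates_of_isRoot {T : V ≃ₗ[ℝ] V} {μ : ℂ}
    (hμ : ((LinearMap.charpoly (T : V →ₗ[ℝ] V)).map (algebraMap ℝ ℂ)).IsRoot μ) :
    Real.log ‖μ‖ ∈ rates T := mem_rates.mpr (growSpace_ne_bot_of_isRoot hμ)

theorem eq_zero_of_pow_sub {K : Type*} [Field K] {M : Type*} [AddCommGroup M] [Module K M]
    {f : End K M} {μ : K} (h6 : End.eigenspace f μ = ⊥) (k : ℕ) :
    ∀ w : M, ((f - μ • (1 : End K M)) ^ k) w = 0 → w = 0 := by
  induction k with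
  | zero => intro w hw; simpa using hw
  | succ k ih =>
    intro w hw
    rw [pow_succ'] at hw
    apply ih
    have h8 : (f - μ • (1 : End K M)) (((f - μ • (1 : End K M)) ^ k) w) = 0 := hw
    have h9 : ((f - μ • (1 : End K M)) ^ k) w ∈ End.eigenspace f μ := by
      rw [End.mem_eigenspace_iff]
      simpa [sub_eq_zero] using h8
    rw [h6] at h9
    simpa using h9

/-- conversely every rate is `log ‖μ‖` for a complex root `μ` -/
theorem exists_root_of_mem_rates {T : V ≃ₗ[ℝ] V} {s : ℝ} (hs : s ∈ rates T) :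
    ∃ μ : ℂ, ((LinearMap.charpoly (T : V →ₗ[ℝ] V)).map (algebraMap ℝ ℂ)).IsRoot μ ∧
      μ ≠ 0 ∧ Real.log ‖μ‖ = s := by
  rw [mem_rates] at hs
  obtain ⟨v, hv, hv0⟩ := Submodule.exists_mem_ne_zero_of_ne_bot hs
  have h1 := coordC_mem_growSpace hv
  have h2 : coordC V v ≠ 0 := fun h => hv0 (coordC_injective (by rw [h, map_zero]))
  have h3 : growSpace (cplx T) s ≠ ⊥ := fun h => h2 (by rwa [h, Submodule.mem_bot] at h1)
  rw [growSpace_eq_biSup] at h3
  have h4 : ∃ μ : ℂ, (μ ≠ 0 ∧ Real.log ‖μ‖ = s) ∧ End.maxGenEigenspace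
      ((cplx T : (Fin (finrank ℝ V) → ℂ) ≃ₗ[ℂ] (Fin (finrank ℝ V) → ℂ)) :
        (Fin (finrank ℝ V) → ℂ) →ₗ[ℂ] (Fin (finrank ℝ V) → ℂ)) μ ≠ ⊥ := by
    by_contra hcon
    push Not at hcon
    apply h3
    rw [eq_bot_iff]
    apply iSup₂_le
    intro μ hμ
    rw [hcon μ hμ]
  obtain ⟨μ, hμ, h5⟩ := h4
  refine ⟨μ, ?_, hμ.1, hμ.2⟩
  rw [charpoly_map_eq, ← End.hasEigenvalue_iff_isRoot_charpoly]
  by_contra h6
  apply h5
  have h6' := End.hasEigenvalue_iff.not.mp h6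
  rw [not_not] at h6'
  rw [eq_bot_iff]
  intro w hw
  rw [Submodule.mem_bot]
  rw [End.mem_maxGenEigenspace] at hw
  obtain ⟨k, hk⟩ := hw
  exact eq_zero_of_pow_sub h6' k w hk

/-! #### stability -/

omit [FiniteDimensional ℝ V] in
/-- intertwiners map growth spaces to growth spaces -/
theorem map_mem_growSpace {V' : Type*} [NormedAddCommGroup V'] [NormedSpace ℝ V']
    [FiniteDimensional ℝ V] {T : V ≃ₗ[ℝ] V} {T' : V' ≃ₗ[ℝ] V'} (g : V →ₗ[ℝ] V')
    (hg : ∀ x, T' (g x) = g (T x)) {s : ℝ} {v : V} (hv : v ∈ growSpace T s) :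
    g v ∈ growSpace T' s := by
  obtain ⟨B, _, hB⟩ := exists_bound_of_real_linear g
  exact Grows.map (T := T) (T' := T') hv g B hB (fun j => zpow_comm_of_comm g hg j v)

omit [FiniteDimensional ℝ V] in
/-- equivariant bilinear maps add the rates -/
theorem bilin_mem_growSpace {V' V'' : Type*} [NormedAddCommGroup V'] [NormedSpace ℝ V']
    [NormedAddCommGroup V''] [NormedSpace ℝ V'']
    {T : V ≃ₗ[ℝ] V} {T' : V' ≃ₗ[ℝ] V'} {T'' : V'' ≃ₗ[ℝ] V''} (B : V → V' → V'') (K : ℝ)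
    (hK : ∀ x y, ‖B x y‖ ≤ K * (‖x‖ * ‖y‖)) (hB : ∀ x y, T'' (B x y) = B (T x) (T' y))
    {s s' : ℝ} {v : V} (hv : v ∈ growSpace T s) {v' : V'} (hv' : v' ∈ growSpace T' s') :
    B v v' ∈ growSpace T'' (s + s') := by
  obtain ⟨C, hC, D, h⟩ := Grows.exists_nonneg hv
  obtain ⟨C', hC', D', h'⟩ := Grows.exists_nonneg hv'
  have hj : ∀ j : ℤ, (T'' ^ j) (B v v') = B ((T ^ j) v) ((T' ^ j) v') := by
    intro j
    have hT : ∀ x : V × V', T'' (B x.1 x.2) = B ((T.prodCongr T') x).1 ((T.prodCongr T') x).2 :=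
      fun x => hB x.1 x.2
    have h1 := zpow_comm_of_comm (T := T.prodCongr T') (T' := T'')
      (fun x : V × V' => B x.1 x.2) hT j (v, v')
    have h2 : ((T.prodCongr T') ^ j) (v, v') = ((T ^ j) v, (T' ^ j) v') := by
      have e1 := zpow_comm_of_comm (T := T.prodCongr T') (T' := T)
        (fun x : V × V' => x.1) (fun x => rfl) j (v, v')
      have e2 := zpow_comm_of_comm (T := T.prodCongr T') (T' := T')
        (fun x : V × V' => x.2) (fun x => rfl) j (v, v')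
      exact Prod.ext e1.symm e2.symm
    rw [h2] at h1
    exact h1
  refine mem_growSpace.mpr ⟨|K| * (C * C'), D + D', fun j => ?_⟩
  rw [hj]
  have hx := h j
  have hy := h' j
  have hnn : 0 ≤ C' * (1 + |(j : ℝ)|) ^ D' * Real.exp (s' * j) := by positivity
  calc ‖B ((T ^ j) v) ((T' ^ j) v')‖ ≤ K * (‖(T ^ j) v‖ * ‖(T' ^ j) v'‖) := hK _ _
    _ ≤ |K| * (‖(T ^ j) v‖ * ‖(T' ^ j) v'‖) :=
        mul_le_mul_of_nonneg_right (le_abs_self K) (by positivity)
    _ ≤ |K| * ((C * (1 + |(j : ℝ)|) ^ D * Real.exp (s * j)) *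
          (C' * (1 + |(j : ℝ)|) ^ D' * Real.exp (s' * j))) := by
        apply mul_le_mul_of_nonneg_left _ (abs_nonneg K)
        exact mul_le_mul hx hy (norm_nonneg _) ((norm_nonneg _).trans hx)
    _ = |K| * (C * C') * (1 + |(j : ℝ)|) ^ (D + D') * Real.exp ((s + s') * j) := by
        rw [pow_add, add_mul, Real.exp_add]; ring

/-- uniform bound for the components in the decomposition -/
theorem exists_comp_bound (T : V ≃ₗ[ℝ] V) : ∃ B : ℝ, 0 ≤ B ∧ ∀ f : ℝ → V,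
    (∀ s, f s ∈ growSpace T s) → ∀ s ∈ rates T, ‖f s‖ ≤ B * ‖∑ s ∈ rates T, f s‖ := by
  classical
  let e : (DirectSum (rates T) fun s => growSpace T (s : ℝ)) ≃ₗ[ℝ] V :=
    LinearEquiv.ofBijective (DirectSum.coeLinearMap fun s : rates T => growSpace T (s : ℝ))
      (isInternal_growSpace T)
  have hb : ∀ s : rates T, ∃ B : ℝ, 0 ≤ B ∧ ∀ x : V, ‖((e.symm x s : growSpace T (s : ℝ)) : V)‖
      ≤ B * ‖x‖ := by
    intro s
    let g : V →ₗ[ℝ] V := (growSpace T (s : ℝ)).subtype ∘ₗ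
      (DirectSum.component ℝ (rates T) (fun s => growSpace T (s : ℝ)) s) ∘ₗ e.symm.toLinearMap
    obtain ⟨B, hB0, hB⟩ := exists_bound_of_real_linear g
    exact ⟨B, hB0, fun x => hB x⟩
  choose B hB0 hB using hb
  refine ⟨∑ s, B s, Finset.sum_nonneg fun s _ => hB0 s, fun f hf s hs => ?_⟩
  set x : V := ∑ s ∈ rates T, f s with hx
  have h1 : e.symm x = ∑ s : rates T, DirectSum.lof ℝ (rates T) (fun s => growSpace T (s : ℝ)) s
      ⟨f s, hf s⟩ := by
    rw [LinearEquiv.symm_apply_eq, map_sum, hx, ← Finset.sum_coe_sort]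
    refine Finset.sum_congr rfl fun i _ => ?_
    change _ = DirectSum.coeLinearMap _ _
    rw [DirectSum.coeLinearMap_lof]
  have h2 : ((e.symm x ⟨s, hs⟩ : growSpace T s) : V) = f s := by
    rw [h1, DirectSum.sum_apply, Finset.sum_eq_single ⟨s, hs⟩]
    · rw [DirectSum.lof_apply]
    · intro b _ hb
      rw [DirectSum.lof_eq_of, DirectSum.of_eq_of_ne _ _ _ (Ne.symm hb)]
    · intro h; exact absurd (Finset.mem_univ _) h
  have h3 := hB ⟨s, hs⟩ x
  rw [h2] at h3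
  refine h3.trans (mul_le_mul_of_nonneg_right ?_ (norm_nonneg _))
  exact Finset.single_le_sum (f := B) (fun s _ => hB0 s) (Finset.mem_univ _)

end Real

end Crest.Agent.R182.LinMod
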