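/-
R182, module MODEL, block LA2: unipotent normal subgroups, invariant flags, growth.
-/
import Mathlib
import Crest.Agent.R182.PolycComm

set_option autoImplicit false
set_option linter.unusedSectionVars false

namespace Crest.Agent.R182.LinUni

open Module

universe u v w

section kolchin

variable {K : Type u} [Field K] [IsAlgClosed K]

theorem trace_unip {V : Type v} [AddCommGroup V] [Module K V] [FiniteDimensional K V]
    {T : V →ₗ[K] V} {d : ℕ} (h : (T - 1) ^ d = 0) :
    LinearMap.trace K V T = (finrank K V : K) := by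
  have h1 : IsNilpotent (T - 1) := ⟨d, h⟩
  have h2 := LinearMap.isNilpotent_trace_of_isNilpotent h1
  have h3 := h2.eq_zero
  rw [map_sub, sub_eq_zero] at h3
  rw [h3]
  exact LinearMap.trace_one K V

theorem eq_zero_of_trace {V : Type v} [AddCommGroup V] [Module K V] [FiniteDimensional K V]
    {T : V →ₗ[K] V} (h : ∀ a : V →ₗ[K] V, LinearMap.trace K V (T * a) = 0) : T = 0 := by
  ext v
  rw [LinearMap.zero_apply, ← Module.forall_dual_apply_eq_zero_iff K]
  intro f
  have h1 := h (dualTensorHom K V V (f ⊗ₜ[K] v))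
  have h2 : T * (dualTensorHom K V V (f ⊗ₜ[K] v)) = dualTensorHom K V V (f ⊗ₜ[K] (T v)) := by
    ext w
    simp [dualTensorHom_apply]
  rw [h2, LinearMap.trace_eq_contract_apply] at h1
  simpa using h1

/-- Burnside's theorem: an irreducible algebra of operators is everything. -/
theorem burnside {V : Type v} [AddCommGroup V] [Module K V] [FiniteDimensional K V]
    [Nontrivial V] (A : Subalgebra K (Module.End K V))
    (hA : ∀ W : Submodule K V, (∀ a ∈ A, W ≤ W.comap a) → W = ⊥ ∨ W = ⊤) : A = ⊤ := by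
  have hsimple : IsSimpleModule A V := by
    rw [isSimpleModule_iff]
    refine { exists_pair_ne := ⟨⊥, ⊤, bot_ne_top⟩, eq_bot_or_eq_top := ?_ }
    intro W
    let W' : Submodule K V := W.restrictScalars K
    rcases hA W' (fun a ha w hw => W.smul_mem (⟨a, ha⟩ : A) hw) with h | h
    · left
      ext x
      have : x ∈ W' ↔ x ∈ (⊥ : Submodule K V) := by rw [h]
      exact this
    · right
      ext x
      have : x ∈ W' ↔ x ∈ (⊤ : Submodule K V) := by rw [h]
      exact ⟨fun _ => trivial, fun _ => this.2 trivial⟩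
  classical
  have hbij := IsSimpleModule.algebraMap_end_bijective_of_isAlgClosed (A := A) (V := V) K
  rw [eq_top_iff]
  intro f _
  let f' : Module.End (Module.End A V) V :=
    { toFun := f
      map_add' := map_add f
      map_smul' := by
        intro φ v
        obtain ⟨c, rfl⟩ := hbij.2 φ
        simp only [Module.algebraMap_end_eq_smul_id]
        exact map_smul f c v }
  let b := Module.finBasis K V
  obtain ⟨r, hr⟩ := jacobson_density (R := A) f' (Finset.univ.image b)
  have : f = (r : Module.End K V) := by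
    refine b.ext fun i => ?_
    have := hr (b i) (by simp)
    exact this
  rw [this]
  exact r.2

/-- **Kolchin**: a group of unipotent operators has a common fixed vector. -/
theorem exists_fixed {V : Type v} [AddCommGroup V] [Module K V] [FiniteDimensional K V]
    [Nontrivial V] {N : Type w} [Group N] (ρ : Representation K N V)
    (hρ : ∀ n, ∃ d : ℕ, (ρ n - 1) ^ d = 0) : ∃ v : V, v ≠ 0 ∧ ∀ n, ρ n v = v := by
  have hwf : WellFounded (fun A B : Submodule K V => A < B) := wellFounded_lt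
  obtain ⟨W, ⟨hW0, hWi⟩, hmin⟩ := hwf.has_min
    {W : Submodule K V | W ≠ ⊥ ∧ ∀ g, W ≤ W.comap (ρ g)}
    ⟨⊤, by simp⟩
  have hnt : Nontrivial W := Submodule.nontrivial_iff_ne_bot.mpr hW0
  let σ : Representation K N W := Representation.subrepresentation ρ W hWi
  have hσ : ∀ n (w : W), ((σ n w : W) : V) = ρ n w := fun n w => rfl
  have hσu : ∀ n, ∃ d : ℕ, (σ n - 1) ^ d = 0 := by
    intro n
    obtain ⟨d, hd⟩ := hρ n
    refine ⟨d, ?_⟩
    have key : ∀ (j : ℕ) (w : W), ((((σ n - 1) ^ j) w : W) : V) = ((ρ n - 1) ^ j) (w : V) := by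
      intro j
      induction j with
      | zero => intro w; rfl
      | succ j ih =>
        intro w
        rw [pow_succ, pow_succ, Module.End.mul_apply, Module.End.mul_apply, ih]
        rfl
    ext w
    rw [key, hd]; rfl
  let A : Subalgebra K (Module.End K W) := Algebra.adjoin K (Set.range σ)
  have hA : A = ⊤ := by
    refine burnside A ?_
    intro U hU
    by_cases hU0 : U = ⊥
    · exact Or.inl hU0
    · right
      have h1 : ¬ U.map W.subtype < W := by
        refine hmin _ ⟨?_, ?_⟩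
        · intro h
          exact hU0 (Submodule.map_injective_of_injective W.subtype_injective
            (by rw [h, Submodule.map_bot]))
        · rintro g _ ⟨w, hw, rfl⟩
          exact ⟨σ g w, hU _ (Algebra.subset_adjoin ⟨g, rfl⟩) hw, rfl⟩
      have h2 : U.map W.subtype ≤ W := Submodule.map_subtype_le W U
      have h3 : U.map W.subtype = W := by
        by_contra hne
        exact h1 (lt_of_le_of_ne h2 hne)
      rw [eq_top_iff]
      intro w _
      have h4 : (w : V) ∈ U.map W.subtype := by rw [h3]; exact w.2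
      obtain ⟨w', hw', hww⟩ := h4
      have : w' = w := Subtype.ext hww
      rwa [← this]
  have htr : ∀ n (a : Module.End K W), LinearMap.trace K W ((σ n - 1) * a) = 0 := by
    intro n a
    have ha : a ∈ A := by rw [hA]; trivial
    have hspan : A.toSubmodule = Submodule.span K (Set.range σ) := by
      have h1 : (Set.range σ) = ((MonoidHom.mrange σ : Submonoid (Module.End K W)) :
          Set (Module.End K W)) := by
        ext x; simp
      rw [show A.toSubmodule = (Algebra.adjoin K (Set.range σ)).toSubmodule from rfl,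
        Algebra.adjoin_eq_span]
      congr 1
      rw [h1, Submonoid.closure_eq]
    have ha' : a ∈ Submodule.span K (Set.range σ) := by
      rw [← hspan]; exact ha
    induction ha' using Submodule.span_induction with
    | mem x hx =>
      obtain ⟨m, rfl⟩ := hx
      rw [sub_mul, one_mul, map_sub, ← map_mul]
      obtain ⟨d1, hd1⟩ := hσu (n * m)
      obtain ⟨d2, hd2⟩ := hσu m
      rw [trace_unip hd1, trace_unip hd2, sub_self]
    | zero => rw [mul_zero, map_zero]
    | add x y hx hy ihx ihy =>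
      rw [mul_add, map_add, ihx (by rw [hA]; trivial), ihy (by rw [hA]; trivial), add_zero]
    | smul c x hx ihx =>
      rw [mul_smul_comm, map_smul, ihx (by rw [hA]; trivial), smul_zero]
  obtain ⟨w, hw⟩ := exists_ne (0 : W)
  refine ⟨w, fun h => hw (Subtype.ext h), fun n => ?_⟩
  have h1 : σ n - 1 = 0 := eq_zero_of_trace (htr n)
  have h2 : σ n w = w := by
    have := LinearMap.congr_fun h1 w
    rw [LinearMap.sub_apply, LinearMap.zero_apply, sub_eq_zero] at this
    exact this
  rw [← hσ, h2]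

end kolchin

section flag

variable {K : Type u} [Field K] [IsAlgClosed K]

/-- one eigenvector -/
theorem exists_eigenvector {V : Type v} [AddCommGroup V] [Module K V] [FiniteDimensional K V]
    [Nontrivial V] {G : Type w} [Group G] (N : Subgroup G) [hN : N.Normal]
    (hab : ∀ g h : G, g * h * g⁻¹ * h⁻¹ ∈ N) (ρ : Representation K G V)
    (hρ : ∀ n ∈ N, ∃ d : ℕ, (ρ n - 1) ^ d = 0) :
    ∃ v : V, v ≠ 0 ∧ (∀ g, ∃ c : K, ρ g v = c • v) ∧ ∀ n ∈ N, ρ n v = v := by
  let W : Submodule K V :=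
    { carrier := {v | ∀ n ∈ N, ρ n v = v}
      zero_mem' := fun n _ => map_zero _
      add_mem' := fun {a b} ha hb n hn => by rw [map_add, ha n hn, hb n hn]
      smul_mem' := fun c v hv n hn => by rw [map_smul, hv n hn] }
  have hmem : ∀ v, v ∈ W ↔ ∀ n ∈ N, ρ n v = v := fun v => Iff.rfl
  have hWi : ∀ g, W ≤ W.comap (ρ g) := by
    intro g v hv n hn
    have h1 : ρ n (ρ g v) = ρ g (ρ (g⁻¹ * n * g) v) := by
      rw [← Module.End.mul_apply, ← map_mul, ← Module.End.mul_apply, ← map_mul]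
      congr 2; group
    have h2 : g⁻¹ * n * g ∈ N := by
      have := hN.conj_mem n hn g⁻¹
      simpa using this
    rw [h1, hv _ h2]
  obtain ⟨v0, hv0, hv0N⟩ := exists_fixed (ρ.comp N.subtype) (fun n => hρ n n.2)
  have hnt : Nontrivial W := by
    refine Submodule.nontrivial_iff_ne_bot.mpr ?_
    intro h
    have : v0 ∈ W := fun n hn => hv0N ⟨n, hn⟩
    rw [h, Submodule.mem_bot] at this
    exact hv0 this
  let σ : Representation K G W := Representation.subrepresentation ρ W hWi
  have hcomm : ∀ g h, Commute (σ g) (σ h) := by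
    intro g h
    have h1 : ∀ v : W, σ (g * h) v = σ (h * g) v := by
      intro v
      have h2 : g * h = (g * h * g⁻¹ * h⁻¹) * (h * g) := by group
      ext
      show ρ (g * h) v = ρ (h * g) v
      rw [h2, map_mul, Module.End.mul_apply]
      exact hWi (h * g) v.2 _ (hab g h)
    show σ g * σ h = σ h * σ g
    rw [← map_mul, ← map_mul]
    exact LinearMap.ext h1
  obtain ⟨w, hw0, hw⟩ := Polyc.exists_common_eigenvector_comm σ hcomm
  refine ⟨w, fun h => hw0 (Subtype.ext h), fun g => ?_, fun n hn => w.2 n hn⟩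
  obtain ⟨c, hc⟩ := hw g
  exact ⟨c, congrArg Subtype.val hc⟩

theorem unip_quot {V : Type v} [AddCommGroup V] [Module K V]
    {U : Submodule K V} {T : V →ₗ[K] V} (hU : U ≤ U.comap T) {d : ℕ} (h : (T - 1) ^ d = 0) :
    (Submodule.mapQ U U T hU - 1) ^ d = 0 := by
  have key : ∀ (j : ℕ) (v : V), ((Submodule.mapQ U U T hU - 1) ^ j) (U.mkQ v) =
      U.mkQ (((T - 1) ^ j) v) := by
    intro j
    induction j with
    | zero => intro v; rfl
    | succ j ih =>
      intro v
      rw [pow_succ, pow_succ, Module.End.mul_apply, Module.End.mul_apply, ← ih]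
      rfl
  ext v
  rw [LinearMap.comp_apply, key, h]
  rfl

/-- full invariant flag, `N` acting trivially on the graded pieces -/
theorem exists_flag (n : ℕ) : ∀ (V : Type v) [AddCommGroup V] [Module K V]
    [FiniteDimensional K V], finrank K V = n → ∀ (G : Type w) [Group G] (N : Subgroup G)
    [N.Normal], (∀ g h : G, g * h * g⁻¹ * h⁻¹ ∈ N) → ∀ ρ : Representation K G V,
    (∀ n ∈ N, ∃ d : ℕ, (ρ n - 1) ^ d = 0) →
    ∃ W : Fin (n + 1) → Submodule K V, Monotone W ∧ W 0 = ⊥ ∧ W (Fin.last n) = ⊤ ∧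
      (∀ i, finrank K (W i) = i) ∧ (∀ g, ∀ i, (W i).map (ρ g) ≤ W i) ∧
      ∀ g ∈ N, ∀ i : Fin n, ∀ v ∈ W i.succ, ρ g v - v ∈ W i.castSucc := by
  induction n with
  | zero =>
    intro V _ _ _ hV G _ N _ hab ρ hρ
    have hsub : Subsingleton V := finrank_zero_iff.1 hV
    refine ⟨fun _ => ⊥, monotone_const, rfl, Subsingleton.elim _ _, ?_, ?_,
      fun _ _ i => i.elim0⟩
    · intro i
      rw [finrank_bot]
      omega
    · intro g i
      rw [Submodule.map_bot]
  | succ n ih =>
    intro V _ _ _ hV G _ N _ hab ρ hρ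
    have hnt : Nontrivial V := Module.nontrivial_of_finrank_pos (R := K) (by omega)
    obtain ⟨v, hv0, hv, hvN⟩ := exists_eigenvector N hab ρ hρ
    have hinv : ∀ g : G, (K ∙ v) ≤ (K ∙ v).comap (ρ g) := by
      intro g
      rw [Submodule.span_singleton_le_iff_mem, Submodule.mem_comap]
      obtain ⟨c, hc⟩ := hv g
      rw [hc]
      exact Submodule.smul_mem _ _ (Submodule.mem_span_singleton_self v)
    have hdim : finrank K (V ⧸ (K ∙ v)) = n := by
      have h1 := (K ∙ v).finrank_quotient_add_finrank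
      rw [finrank_span_singleton hv0] at h1
      omega
    obtain ⟨W, hWm, hW0, hWl, hWd, hWi, hWN⟩ := ih (V ⧸ (K ∙ v)) hdim G N hab
      (Representation.quotient ρ (K ∙ v) hinv) (fun g hg => by
        obtain ⟨d, hd⟩ := hρ g hg
        exact ⟨d, unip_quot (hinv g) hd⟩)
    refine ⟨Fin.cons ⊥ (fun i => (W i).comap (K ∙ v).mkQ), ?_, ?_, ?_, ?_, ?_, ?_⟩
    · intro i j
      refine Fin.cases ?_ (fun i => ?_) i
      · intro _
        exact bot_le
      · refine Fin.cases ?_ (fun j => ?_) j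
        · intro hij
          exact absurd hij (by simp)
        · intro hij
          exact Submodule.comap_mono (hWm (Fin.succ_le_succ_iff.1 hij))
    · rfl
    · rw [← Fin.succ_last]
      simp only [Fin.cons_succ]
      rw [hWl, Submodule.comap_top]
    · intro i
      refine Fin.cases ?_ (fun i => ?_) i
      · simp
      · change finrank K ((W i).comap (K ∙ v).mkQ) = _
        rw [PolycLK.finrank_comap_mkQ, hWd, finrank_span_singleton hv0, Fin.val_succ]
    · intro g i
      refine Fin.cases ?_ (fun i => ?_) i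
      · simp
      · simp only [Fin.cons_succ]
        rintro _ ⟨x, hx, rfl⟩
        refine hWi g i ⟨(K ∙ v).mkQ x, hx, ?_⟩
        rfl
    · intro g hg i
      refine Fin.cases ?_ (fun i => ?_) i
      · intro x hx
        have hx' : (K ∙ v).mkQ x ∈ W 0 := hx
        rw [hW0, Submodule.mem_bot] at hx'
        have hx'' : x ∈ (K ∙ v) := by
          rwa [Submodule.mkQ_apply, Submodule.Quotient.mk_eq_zero] at hx'
        obtain ⟨c, rfl⟩ := Submodule.mem_span_singleton.1 hx''
        have h1 : ρ g (c • v) - c • v = 0 := by rw [map_smul, hvN g hg, sub_self]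
        rw [h1]
        exact Submodule.zero_mem _
      · intro x hx
        have h1 := hWN g hg i ((K ∙ v).mkQ x) hx
        show (K ∙ v).mkQ (ρ g x - x) ∈ W i.castSucc
        rw [map_sub]
        exact h1

/-- **LA2 (a)**: basis with triangular action, characters trivial on `N`. -/
theorem exists_triangular {V : Type v} [AddCommGroup V] [Module K V]
    [FiniteDimensional K V] {G : Type w} [Group G] (N : Subgroup G) [N.Normal]
    (hab : ∀ g h : G, g * h * g⁻¹ * h⁻¹ ∈ N) (ρ : Representation K G V)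
    (hρ : ∀ n ∈ N, ∃ d : ℕ, (ρ n - 1) ^ d = 0) :
    ∃ (b : Basis (Fin (finrank K V)) K V) (χ : Fin (finrank K V) → G →* Kˣ),
      (∀ (i : Fin (finrank K V)) (g : G), ∀ v ∈ b.flag i.succ,
          ρ g v - (χ i g : K) • v ∈ b.flag i.castSucc) ∧
      (∀ g : G, (LinearMap.toMatrix b b (ρ g)).IsUpperTriangular) ∧
      (∀ (g : G) i, LinearMap.toMatrix b b (ρ g) i i = χ i g) ∧
      (∀ g : G, LinearMap.charpoly (ρ g) =
          ∏ i, (Polynomial.X - Polynomial.C ((χ i g : Kˣ) : K))) ∧
      (∀ n ∈ N, ∀ i, χ i n = 1) := by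
  obtain ⟨W, hWm, hW0, hWl, hWd, hWi, hWN⟩ := exists_flag (finrank K V) V rfl G N hab ρ hρ
  obtain ⟨b, hb⟩ := PolycLK.exists_basis W hWm hWl hWd
  obtain ⟨χ, hχ⟩ := PolycLK.exists_chars ρ W hWm hWd (fun g i => hWi g i)
  have hχ' : ∀ (i : Fin (finrank K V)) (g : G), ∀ v ∈ b.flag i.succ,
      ρ g v - (χ i g : K) • v ∈ b.flag i.castSucc := by
    intro i g v hv
    rw [← hb] at hv ⊢
    exact hχ i g v hv
  refine ⟨b, χ, hχ', fun g => (PolycLK.toMatrix_tri ρ b χ hχ' g).1,
    fun g i => (PolycLK.toMatrix_tri ρ b χ hχ' g).2 i,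
    fun g => PolycLK.charpoly_eq_prod ρ b χ hχ' g, ?_⟩
  intro n hn i
  have h1 : ρ n (b i) - (χ i n : K) • b i ∈ b.flag i.castSucc :=
    hχ' i n _ (b.self_mem_flag Fin.castSucc_lt_succ)
  have h2 : ρ n (b i) - b i ∈ b.flag i.castSucc := by
    have h3 : b i ∈ W i.succ := by
      rw [hb]; exact b.self_mem_flag Fin.castSucc_lt_succ
    have h4 := hWN n hn i _ h3
    rwa [hb] at h4
  have h3 : ((χ i n : K) - 1) • b i ∈ b.flag i.castSucc := by
    have := Submodule.sub_mem _ h2 h1
    rwa [show ρ n (b i) - b i - (ρ n (b i) - (χ i n : K) • b i) = ((χ i n : K) - 1) • b i by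
      rw [sub_smul, one_smul]; abel] at this
  by_contra hne
  have hne' : ((χ i n : K) - 1) ≠ 0 := by
    intro h
    apply hne
    ext
    rw [sub_eq_zero] at h
    simpa using h
  have h4 := Submodule.smul_mem _ ((χ i n : K) - 1)⁻¹ h3
  rw [smul_smul, inv_mul_cancel₀ hne', one_smul, Basis.self_mem_flag_iff] at h4
  exact lt_irrefl _ h4

end flag

section growth

/-- products of upper triangular matrices with diagonal of modulus `≤ 1` and bounded entries -/
theorem tri_prod_aux {n : ℕ} {A t : ℝ} (hA : 0 ≤ A) (ht : 0 ≤ t) (ht1 : t ≤ 1)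
    (l : List (Matrix (Fin n) (Fin n) ℂ))
    (hl : ∀ M ∈ l, M.IsUpperTriangular ∧ (∀ i, ‖M i i‖ ≤ 1) ∧ ∀ i j, ‖M i j‖ ≤ A) :
    ∀ i, ∑ j, ‖l.prod i j‖ * t ^ (j : ℕ) ≤ (1 + n * A * t) ^ l.length * t ^ (i : ℕ) := by
  induction l with
  | nil =>
    intro i
    rw [List.prod_nil, List.length_nil, pow_zero, one_mul]
    rw [Finset.sum_eq_single i]
    · simp
    · intro j _ hj
      rw [Matrix.one_apply_ne (Ne.symm hj), norm_zero, zero_mul]
    · intro h; exact absurd (Finset.mem_univ i) h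
  | cons M l ih =>
    intro i
    have ih' := ih (fun M' hM' => hl M' (List.mem_cons_of_mem _ hM'))
    obtain ⟨hM1, hM2, hM3⟩ := hl M List.mem_cons_self
    set B : ℝ := (1 + n * A * t) ^ l.length with hB
    have hB0 : 0 ≤ B := by positivity
    have h1 : ∀ j, ‖(M :: l).prod i j‖ * t ^ (j : ℕ) ≤
        ∑ k, ‖M i k‖ * (‖l.prod k j‖ * t ^ (j : ℕ)) := by
      intro j
      rw [List.prod_cons, Matrix.mul_apply]
      calc ‖∑ k, M i k * l.prod k j‖ * t ^ (j : ℕ)
          ≤ (∑ k, ‖M i k * l.prod k j‖) * t ^ (j : ℕ) :=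
            mul_le_mul_of_nonneg_right (norm_sum_le _ _) (by positivity)
        _ = ∑ k, ‖M i k‖ * (‖l.prod k j‖ * t ^ (j : ℕ)) := by
            rw [Finset.sum_mul]
            refine Finset.sum_congr rfl fun k _ => ?_
            rw [norm_mul]; ring
    have h2 : ∑ k, ‖M i k‖ * t ^ (k : ℕ) ≤ t ^ (i : ℕ) * (1 + n * A * t) := by
      have h3 : ∀ k : Fin n, ‖M i k‖ * t ^ (k : ℕ) ≤
          (if k = i then t ^ (i : ℕ) else 0) + A * t * t ^ (i : ℕ) := by
        intro k
        rcases lt_trichotomy k i with h | h | h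
        · have : M i k = 0 := hM1 h
          rw [this, norm_zero, zero_mul, if_neg h.ne, zero_add]
          positivity
        · subst h
          rw [if_pos rfl]
          have := hM2 k
          have h4 : ‖M k k‖ * t ^ (k : ℕ) ≤ 1 * t ^ (k : ℕ) :=
            mul_le_mul_of_nonneg_right this (by positivity)
          have h5 : 0 ≤ A * t * t ^ (k : ℕ) := by positivity
          linarith
        · rw [if_neg h.ne', zero_add]
          have h4 : t ^ (k : ℕ) ≤ t * t ^ (i : ℕ) := by
            rw [← pow_succ']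
            exact pow_le_pow_of_le_one ht ht1 (Nat.succ_le_of_lt h)
          calc ‖M i k‖ * t ^ (k : ℕ) ≤ A * (t * t ^ (i : ℕ)) :=
                mul_le_mul (hM3 i k) h4 (by positivity) hA
            _ = A * t * t ^ (i : ℕ) := by ring
      calc ∑ k, ‖M i k‖ * t ^ (k : ℕ)
          ≤ ∑ k : Fin n, ((if k = i then t ^ (i : ℕ) else 0) + A * t * t ^ (i : ℕ)) :=
            Finset.sum_le_sum fun k _ => h3 k
        _ = t ^ (i : ℕ) * (1 + n * A * t) := by
            rw [Finset.sum_add_distrib, Finset.sum_ite_eq' Finset.univ i, if_pos (Finset.mem_univ i),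
              Finset.sum_const, Finset.card_univ, Fintype.card_fin, nsmul_eq_mul]
            ring
    calc ∑ j, ‖(M :: l).prod i j‖ * t ^ (j : ℕ)
        ≤ ∑ j, ∑ k, ‖M i k‖ * (‖l.prod k j‖ * t ^ (j : ℕ)) :=
          Finset.sum_le_sum fun j _ => h1 j
      _ = ∑ k, ‖M i k‖ * ∑ j, ‖l.prod k j‖ * t ^ (j : ℕ) := by
          rw [Finset.sum_comm]
          refine Finset.sum_congr rfl fun k _ => ?_
          rw [Finset.mul_sum]
      _ ≤ ∑ k, ‖M i k‖ * (B * t ^ (k : ℕ)) :=
          Finset.sum_le_sum fun k _ => mul_le_mul_of_nonneg_left (ih' k) (norm_nonneg _)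
      _ = B * ∑ k, ‖M i k‖ * t ^ (k : ℕ) := by
          rw [Finset.mul_sum]
          refine Finset.sum_congr rfl fun k _ => ?_
          ring
      _ ≤ B * (t ^ (i : ℕ) * (1 + n * A * t)) := mul_le_mul_of_nonneg_left h2 hB0
      _ = (1 + n * A * t) ^ (M :: l).length * t ^ (i : ℕ) := by
          rw [List.length_cons, pow_succ, hB]; ring

theorem tri_prod_bound {n : ℕ} {A : ℝ} (hA : 0 ≤ A)
    (l : List (Matrix (Fin n) (Fin n) ℂ))
    (hl : ∀ M ∈ l, M.IsUpperTriangular ∧ (∀ i, ‖M i i‖ ≤ 1) ∧ ∀ i j, ‖M i j‖ ≤ A)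
    (i j : Fin n) : ‖l.prod i j‖ ≤ Real.exp (n * A) * (1 + l.length : ℝ) ^ n := by
  set m : ℝ := 1 + l.length with hm
  have hm1 : 1 ≤ m := by rw [hm]; have : (0 : ℝ) ≤ l.length := Nat.cast_nonneg _; linarith
  have hm0 : 0 < m := by linarith
  set t : ℝ := 1 / m with ht
  have ht0 : 0 < t := by positivity
  have ht1 : t ≤ 1 := by rw [ht, div_le_one hm0]; exact hm1
  have h1 := tri_prod_aux hA ht0.le ht1 l hl i
  have h2 : ‖l.prod i j‖ * t ^ (j : ℕ) ≤ (1 + n * A * t) ^ l.length * t ^ (i : ℕ) :=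
    (Finset.single_le_sum (f := fun j : Fin n => ‖l.prod i j‖ * t ^ (j : ℕ))
      (fun j _ => by positivity) (Finset.mem_univ j)).trans h1
  have h3 : (1 + n * A * t) ^ l.length ≤ Real.exp (n * A) := by
    have h4 : 1 + n * A * t ≤ Real.exp (n * A * t) := by
      have := Real.add_one_le_exp (n * A * t)
      linarith
    calc (1 + n * A * t) ^ l.length ≤ (Real.exp (n * A * t)) ^ l.length :=
          pow_le_pow_left₀ (by positivity) h4 _
      _ = Real.exp (n * A * (t * l.length)) := by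
          rw [← Real.exp_nat_mul]; congr 1; ring
      _ ≤ Real.exp (n * A) := by
          refine Real.exp_le_exp.2 ?_
          have h5 : t * l.length ≤ 1 := by
            rw [ht, one_div, inv_mul_le_one₀ hm0, hm]; linarith
          have h6 : 0 ≤ n * A := by positivity
          nlinarith
  have h4 : t ^ (i : ℕ) ≤ 1 := pow_le_one₀ ht0.le ht1
  have h5 : ‖l.prod i j‖ * t ^ (j : ℕ) ≤ Real.exp (n * A) := by
    refine h2.trans ?_
    calc (1 + n * A * t) ^ l.length * t ^ (i : ℕ) ≤ Real.exp (n * A) * 1 :=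
          mul_le_mul h3 h4 (by positivity) (Real.exp_pos _).le
      _ = Real.exp (n * A) := mul_one _
  have h6 : m ^ (j : ℕ) * t ^ (j : ℕ) = 1 := by
    rw [← mul_pow, ht, mul_one_div_cancel hm0.ne', one_pow]
  calc ‖l.prod i j‖ = m ^ (j : ℕ) * (‖l.prod i j‖ * t ^ (j : ℕ)) := by
        rw [mul_comm ‖l.prod i j‖, ← mul_assoc, h6, one_mul]
    _ ≤ m ^ n * Real.exp (n * A) :=
        mul_le_mul (pow_le_pow_right₀ hm1 j.2.le) h5 (by positivity) (by positivity)
    _ = Real.exp (n * A) * m ^ n := mul_comm _ _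

/-- **LA2 (b)**: growth. `S` is a (possibly infinite) set on which `ρ` and `w` are bounded. -/
theorem growth {V : Type v} [NormedAddCommGroup V] [NormedSpace ℂ V] [FiniteDimensional ℂ V]
    {G : Type w} [Group G] (N : Subgroup G) [N.Normal]
    (hab : ∀ g h : G, g * h * g⁻¹ * h⁻¹ ∈ N) (ρ : Representation ℂ G V)
    (hρ : ∀ n ∈ N, ∃ d : ℕ, (ρ n - 1) ^ d = 0) (ω : G → ℝ) (hω : ∀ g h, ω (g * h) = ω g + ω h)
    (hspec : ∀ g, ∀ z ∈ (LinearMap.charpoly (ρ g)).roots, ‖z‖ ≤ Real.exp (ω g))
    (S : Set G) {A : ℝ} (hA : ∀ s ∈ S, |ω s| ≤ A) (hS : ∀ s ∈ S, ∀ v, ‖ρ s v‖ ≤ A * ‖v‖) :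
    ∃ (C : ℝ) (D : ℕ), 0 ≤ C ∧ ∀ l : List G, (∀ s ∈ l, s ∈ S) → ∀ v,
      ‖ρ l.prod v‖ ≤ C * (1 + l.length : ℝ) ^ D * Real.exp (ω l.prod) * ‖v‖ := by
  classical
  obtain ⟨n, b, χ, htri, hdiag, hchar⟩ : ∃ (n : ℕ) (b : Basis (Fin n) ℂ V)
      (χ : Fin n → G →* ℂˣ), (∀ g : G, (LinearMap.toMatrix b b (ρ g)).IsUpperTriangular) ∧
      (∀ (g : G) i, LinearMap.toMatrix b b (ρ g) i i = χ i g) ∧
      (∀ g : G, LinearMap.charpoly (ρ g) =
          ∏ i, (Polynomial.X - Polynomial.C ((χ i g : ℂˣ) : ℂ))) := by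
    obtain ⟨b, χ, -, htri, hdiag, hchar, -⟩ := exists_triangular N hab ρ hρ
    exact ⟨_, b, χ, htri, hdiag, hchar⟩
  -- the norm of `χ`
  have hχ : ∀ g i, ‖(χ i g : ℂ)‖ ≤ Real.exp (ω g) := by
    intro g i
    refine hspec g _ ?_
    rw [hchar g, Polynomial.roots_prod _ _
      (Finset.prod_ne_zero_iff.2 fun i _ => Polynomial.X_sub_C_ne_zero _)]
    rw [Multiset.mem_bind]
    exact ⟨i, Finset.mem_univ i, by rw [Polynomial.roots_X_sub_C]; exact Multiset.mem_singleton_self _⟩
  -- constants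
  have hcoord : ∃ c : ℝ, 0 ≤ c ∧ ∀ i v, ‖b.repr v i‖ ≤ c * ‖v‖ := by
    let φ : V →L[ℂ] (Fin n → ℂ) := LinearMap.toContinuousLinearMap b.equivFun.toLinearMap
    refine ⟨‖φ‖, norm_nonneg _, fun i v => ?_⟩
    have h1 : ‖φ v i‖ ≤ ‖φ v‖ := norm_le_pi_norm _ i
    exact h1.trans (φ.le_opNorm v)
  obtain ⟨c, hc0, hc⟩ := hcoord
  set B : ℝ := ∑ i, ‖b i‖ with hB
  have hB0 : 0 ≤ B := Finset.sum_nonneg fun i _ => norm_nonneg _
  have hBi : ∀ i, ‖b i‖ ≤ B := fun i =>
    Finset.single_le_sum (f := fun i => ‖b i‖) (fun _ _ => norm_nonneg _) (Finset.mem_univ i)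
  -- scaled matrices
  have hw1 : ω 1 = 0 := by
    have := hω 1 1
    rw [mul_one] at this
    linarith
  let M : G →* Matrix (Fin n) (Fin n) ℂ :=
    { toFun := fun g => (Real.exp (-ω g) : ℂ) • LinearMap.toMatrix b b (ρ g)
      map_one' := by
        rw [hw1, neg_zero, Real.exp_zero, map_one, LinearMap.toMatrix_one]
        simp
      map_mul' := fun g h => by
        rw [hω, neg_add, Real.exp_add, map_mul, LinearMap.toMatrix_mul, Matrix.smul_mul,
          Matrix.mul_smul, smul_smul]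
        push_cast
        rfl }
  have hM : ∀ g i j, ‖M g i j‖ = Real.exp (-ω g) * ‖LinearMap.toMatrix b b (ρ g) i j‖ := by
    intro g i j
    show ‖((Real.exp (-ω g) : ℂ) • LinearMap.toMatrix b b (ρ g)) i j‖ = _
    rw [Matrix.smul_apply, smul_eq_mul, norm_mul, Complex.norm_real, Real.norm_eq_abs,
      abs_of_pos (Real.exp_pos _)]
  set A' : ℝ := Real.exp A * (c * (|A| * B)) with hA'
  have hA'0 : 0 ≤ A' := by positivity
  have hentry : ∀ g ∈ S, (M g).IsUpperTriangular ∧ (∀ i, ‖M g i i‖ ≤ 1) ∧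
      ∀ i j, ‖M g i j‖ ≤ A' := by
    intro g hg
    refine ⟨?_, ?_, ?_⟩
    · intro i j hij
      show ((Real.exp (-ω g) : ℂ) • LinearMap.toMatrix b b (ρ g)) i j = 0
      rw [Matrix.smul_apply, htri g hij, smul_zero]
    · intro i
      rw [hM, hdiag]
      calc Real.exp (-ω g) * ‖(χ i g : ℂ)‖ ≤ Real.exp (-ω g) * Real.exp (ω g) :=
            mul_le_mul_of_nonneg_left (hχ g i) (Real.exp_pos _).le
        _ = 1 := by rw [← Real.exp_add]; simp
    · intro i j
      rw [hM, LinearMap.toMatrix_apply]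
      refine mul_le_mul (Real.exp_le_exp.2 ((neg_le_abs _).trans (hA g hg))) ?_
        (norm_nonneg _) (Real.exp_pos _).le
      refine (hc i _).trans (mul_le_mul_of_nonneg_left ?_ hc0)
      refine (hS g hg _).trans ?_
      exact mul_le_mul (le_abs_self A) (hBi j) (norm_nonneg _) (abs_nonneg _)
  refine ⟨n * (n * (c * (Real.exp (n * A') * B))), n, by positivity, fun l hl v => ?_⟩
  have h1 : M l.prod = (l.map M).prod := map_list_prod M l
  have h2 : ∀ i j, ‖LinearMap.toMatrix b b (ρ l.prod) i j‖ ≤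
      Real.exp (ω l.prod) * (Real.exp (n * A') * (1 + l.length : ℝ) ^ n) := by
    intro i j
    have h3 := tri_prod_bound hA'0 (l.map M) (by
      intro M' hM'
      rw [List.mem_map] at hM'
      obtain ⟨g, hg, rfl⟩ := hM'
      exact hentry g (hl g hg)) i j
    rw [← h1, hM, List.length_map] at h3
    have h4 : ‖LinearMap.toMatrix b b (ρ l.prod) i j‖ = Real.exp (ω l.prod) *
        (Real.exp (-ω l.prod) * ‖LinearMap.toMatrix b b (ρ l.prod) i j‖) := by
      rw [← mul_assoc, ← Real.exp_add]; simp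
    rw [h4]
    exact mul_le_mul_of_nonneg_left h3 (Real.exp_pos _).le
  set Q : ℝ := Real.exp (ω l.prod) * (Real.exp (n * A') * (1 + l.length : ℝ) ^ n) with hQ
  have hQ0 : 0 ≤ Q := by positivity
  have h3 : ρ l.prod v = ∑ i, (∑ j, LinearMap.toMatrix b b (ρ l.prod) i j * b.repr v j) • b i := by
    conv_lhs => rw [← b.sum_repr (ρ l.prod v)]
    refine Finset.sum_congr rfl fun i _ => ?_
    congr 1
    have := LinearMap.toMatrix_mulVec_repr b b (ρ l.prod) v
    rw [← this]; rfl
  rw [h3]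
  calc ‖∑ i, (∑ j, LinearMap.toMatrix b b (ρ l.prod) i j * b.repr v j) • b i‖
      ≤ ∑ i, ‖(∑ j, LinearMap.toMatrix b b (ρ l.prod) i j * b.repr v j) • b i‖ :=
        norm_sum_le _ _
    _ ≤ ∑ _i : Fin n, (n * (Q * (c * ‖v‖))) * B := by
        refine Finset.sum_le_sum fun i _ => ?_
        rw [norm_smul]
        refine mul_le_mul ?_ (hBi i) (norm_nonneg _) (by positivity)
        calc ‖∑ j, LinearMap.toMatrix b b (ρ l.prod) i j * b.repr v j‖
            ≤ ∑ j, ‖LinearMap.toMatrix b b (ρ l.prod) i j * b.repr v j‖ := norm_sum_le _ _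
          _ ≤ ∑ _j : Fin n, Q * (c * ‖v‖) := by
              refine Finset.sum_le_sum fun j _ => ?_
              rw [norm_mul]
              exact mul_le_mul (h2 i j) (hc j v) (norm_nonneg _) hQ0
          _ = n * (Q * (c * ‖v‖)) := by
              rw [Finset.sum_const, Finset.card_univ, Fintype.card_fin, nsmul_eq_mul]
    _ = n * (n * (c * (Real.exp (n * A') * B))) * (1 + l.length : ℝ) ^ n *
          Real.exp (ω l.prod) * ‖v‖ := by
        rw [Finset.sum_const, Finset.card_univ, Fintype.card_fin, nsmul_eq_mul, hQ]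
        ring

end growth

end Crest.Agent.R182.LinUni
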