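/-
R182, module MODEL (M3), linear part: weights of a linear representation of a group `G` with a
normal subgroup acting unipotently and `G / N = ℤ^k`; generic elements; the weight spaces; the
subgroup preserving them.
-/
import Mathlib
import Crest.Agent.R182.LinMod
import Crest.Agent.R182.LinUni
import Crest.Agent.R182.PolycRoot

set_option autoImplicit false

namespace Crest.Agent.R182.ModelWt

open Module LinMod

section generic

/-- A finite family of nonzero linear forms on `ℝ^k` is simultaneously nonzero at an integer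
vector. -/
theorem exists_generic_vec {k : ℕ} (F : Finset ((Fin k → ℝ) →ₗ[ℝ] ℝ)) (hF : ∀ f ∈ F, f ≠ 0) :
    ∃ v : Fin k → ℤ, ∀ f ∈ F, f (fun j => ((v j : ℤ) : ℝ)) ≠ 0 := by
  classical
  induction F using Finset.induction_on with
  | empty => exact ⟨0, by simp⟩
  | insert f F hf ih =>
    obtain ⟨v, hv⟩ := ih fun g hg => hF g (Finset.mem_insert_of_mem hg)
    have hf0 : f ≠ 0 := hF f (Finset.mem_insert_self _ _)
    obtain ⟨j, hj⟩ : ∃ j, f (Pi.single j 1) ≠ 0 := by
      by_contra hcon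
      push Not at hcon
      apply hf0
      apply LinearMap.pi_ext'
      intro j
      ext
      simpa using hcon j
    -- `v + m e_j`
    have key : ∀ g ∈ insert f F, {m : ℕ | g (fun i => ((v i : ℤ) : ℝ)) +
        m * g (Pi.single j 1) = 0}.Subsingleton := by
      intro g hg m hm m' hm'
      simp only [Set.mem_ofPred_eq] at hm hm'
      by_cases h0 : g (Pi.single j 1) = 0
      · rcases Finset.mem_insert.1 hg with rfl | hg'
        · exact absurd h0 hj
        · rw [h0, mul_zero, add_zero] at hm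
          exact absurd hm (hv g hg')
      · have h1 : ((m : ℝ) - m') * g (Pi.single j 1) = 0 := by linarith
        have h2 := (mul_eq_zero.1 h1).resolve_right h0
        have h3 : (m : ℝ) = m' := by linarith
        exact_mod_cast h3
    have hfin : (⋃ g ∈ insert f F, {m : ℕ | g (fun i => ((v i : ℤ) : ℝ)) +
        m * g (Pi.single j 1) = 0}).Finite :=
      Set.Finite.biUnion (Finset.finite_toSet _) fun g hg => (key g hg).finite
    obtain ⟨m, hm⟩ := hfin.exists_notMem
    refine ⟨fun i => v i + (m : ℤ) * (Pi.single j 1 : Fin k → ℤ) i, ?_⟩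
    intro g hg hzero
    apply hm
    rw [Set.mem_iUnion₂]
    refine ⟨g, hg, ?_⟩
    rw [Set.mem_ofPred_eq, ← smul_eq_mul, ← map_smul, ← map_add, ← hzero]
    congr 1
    ext i
    simp only [Pi.add_apply, Pi.smul_apply, smul_eq_mul]
    by_cases h : i = j
    · subst h; simp
    · simp [Pi.single_eq_of_ne h]

end generic

/-- the height as a real vector -/
def hv {G : Type*} [Group G] {k : ℕ} (π : G →* Multiplicative (Fin k → ℤ)) (g : G) : Fin k → ℝ :=
  fun j => ((Multiplicative.toAdd (π g) j : ℤ) : ℝ)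

section hv

variable {G : Type*} [Group G] {k : ℕ} (π : G →* Multiplicative (Fin k → ℤ))

theorem hv_one : hv π 1 = 0 := by
  funext j; simp [hv]

theorem hv_mul (g h : G) : hv π (g * h) = hv π g + hv π h := by
  funext j; simp [hv]

theorem hv_inv (g : G) : hv π g⁻¹ = - hv π g := by
  funext j; simp [hv]

theorem hv_pow (g : G) (n : ℕ) : hv π (g ^ n) = (n : ℝ) • hv π g := by
  funext j; simp [hv]

theorem hv_zpow (g : G) (n : ℤ) : hv π (g ^ n) = (n : ℝ) • hv π g := by
  funext j; simp [hv]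

theorem hv_conj (g h : G) : hv π (g * h * g⁻¹) = hv π h := by
  rw [hv_mul, hv_mul, hv_inv]; abel

end hv

section rep

variable {V : Type*} [NormedAddCommGroup V] [NormedSpace ℝ V] [FiniteDimensional ℝ V]
  {G : Type*} [Group G]

/-- complexified representation -/
noncomputable def cRep (ρ : G →* (V ≃ₗ[ℝ] V)) : Representation ℂ G (Fin (finrank ℝ V) → ℂ) where
  toFun g := Matrix.toLin' (cMat (ρ g : V →ₗ[ℝ] V))
  map_one' := by
    rw [map_one]
    change Matrix.toLin' (cMat (LinearMap.id : V →ₗ[ℝ] V)) = 1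
    rw [cMat_id, Matrix.toLin'_one]; rfl
  map_mul' g h := by
    rw [map_mul]
    change Matrix.toLin' (cMat ((ρ g : V →ₗ[ℝ] V) ∘ₗ (ρ h : V →ₗ[ℝ] V))) = _
    rw [cMat_mul, Matrix.toLin'_mul]; rfl

theorem cRep_apply (ρ : G →* (V ≃ₗ[ℝ] V)) (g : G) (w : Fin (finrank ℝ V) → ℂ) :
    cRep ρ g w = cplx (ρ g) w := rfl

theorem cRep_coordC (ρ : G →* (V ≃ₗ[ℝ] V)) (g : G) (v : V) :
    cRep ρ g (coordC V v) = coordC V (ρ g v) := cplx_coordC (ρ g) v

theorem reC_cRep (ρ : G →* (V ≃ₗ[ℝ] V)) (g : G) (w : Fin (finrank ℝ V) → ℂ) :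
    reC V (cRep ρ g w) = ρ g (reC V w) := (reC_cplx (ρ g) w).symm

theorem cplx_mul (S T : V ≃ₗ[ℝ] V) : cplx (S * T) = cplx S * cplx T := by
  apply LinearEquiv.toLinearMap_injective
  change Matrix.toLin' (cMat ((S : V →ₗ[ℝ] V) ∘ₗ (T : V →ₗ[ℝ] V))) = _
  rw [cMat_mul, Matrix.toLin'_mul]; rfl

theorem cplx_one : cplx (1 : V ≃ₗ[ℝ] V) = 1 := by
  apply LinearEquiv.toLinearMap_injective
  change Matrix.toLin' (cMat (LinearMap.id : V →ₗ[ℝ] V)) = _
  rw [cMat_id, Matrix.toLin'_one]; rfl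

/-- `cplx` as a homomorphism -/
noncomputable def cplxHom : (V ≃ₗ[ℝ] V) →*
    ((Fin (finrank ℝ V) → ℂ) ≃ₗ[ℂ] (Fin (finrank ℝ V) → ℂ)) where
  toFun := cplx
  map_one' := cplx_one
  map_mul' := cplx_mul

theorem cplx_zpow (S : V ≃ₗ[ℝ] V) (j : ℤ) : cplx (S ^ j) = (cplx S) ^ j :=
  map_zpow cplxHom S j

theorem cMat_sub_one (T : V →ₗ[ℝ] V) : cMat (T - 1) = cMat T - 1 := by
  have h1 : cMat (1 : V →ₗ[ℝ] V) = 1 := cMat_id
  unfold cMat at *
  rw [map_sub, Matrix.map_sub _ (fun a b => map_sub _ a b), h1]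

theorem cMat_pow (T : V →ₗ[ℝ] V) (d : ℕ) : cMat (T ^ d) = cMat T ^ d := by
  induction d with
  | zero => simp only [pow_zero]; exact cMat_id
  | succ d ih =>
    rw [pow_succ, pow_succ, ← ih, ← cMat_mul]; rfl

theorem cRep_unip (ρ : G →* (V ≃ₗ[ℝ] V)) {g : G} {d : ℕ}
    (h : ((ρ g : V →ₗ[ℝ] V) - 1) ^ d = 0) : (cRep ρ g - 1) ^ d = 0 := by
  have h1 : cRep ρ g - 1 = Matrix.toLin' (cMat ((ρ g : V →ₗ[ℝ] V) - 1)) := by
    rw [cMat_sub_one, map_sub, Matrix.toLin'_one]; rfl
  rw [h1]
  have h2 : (Matrix.toLin' (cMat ((ρ g : V →ₗ[ℝ] V) - 1))) ^ d =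
      Matrix.toLin' ((cMat ((ρ g : V →ₗ[ℝ] V) - 1)) ^ d) := by
    induction d with
    | zero => simp only [pow_zero, Matrix.toLin'_one]; rfl
    | succ d _ =>
      exact (map_pow Matrix.toLinAlgEquiv' (cMat ((ρ g : V →ₗ[ℝ] V) - 1)) (d + 1)).symm
  rw [h2, ← cMat_pow, h]
  have h3 : cMat (0 : V →ₗ[ℝ] V) = 0 := by
    unfold cMat; simp
  rw [h3, map_zero]

/-- Weight data of a linear representation. -/
structure WtData (ρ : G →* (V ≃ₗ[ℝ] V)) {k : ℕ} (π : G →* Multiplicative (Fin k → ℤ)) where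
  n : ℕ
  b : Basis (Fin n) ℂ (Fin (finrank ℝ V) → ℂ)
  χ : Fin n → G →* ℂˣ
  M : Fin n → ((Fin k → ℝ) →ₗ[ℝ] ℝ)
  flag : ∀ (i : Fin n) (g : G), ∀ v ∈ b.flag i.succ,
    cRep ρ g v - (χ i g : ℂ) • v ∈ b.flag i.castSucc
  tri : ∀ g : G, (LinearMap.toMatrix b b (cRep ρ g)).IsUpperTriangular
  diag : ∀ (g : G) i, LinearMap.toMatrix b b (cRep ρ g) i i = χ i g
  charpoly : ∀ g : G, LinearMap.charpoly (cRep ρ g) =
    ∏ i, (Polynomial.X - Polynomial.C ((χ i g : ℂˣ) : ℂ))
  χ_ker : ∀ g, π g = 1 → ∀ i, χ i g = 1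
  log_χ : ∀ i g, Real.log ‖((χ i g : ℂˣ) : ℂ)‖ = M i (hv π g)

theorem exists_wtData (ρ : G →* (V ≃ₗ[ℝ] V)) {k : ℕ} (π : G →* Multiplicative (Fin k → ℤ))
    (hπ : Function.Surjective π)
    (hunip : ∀ g, π g = 1 → ∃ d : ℕ, ((ρ g : V →ₗ[ℝ] V) - 1) ^ d = 0) :
    Nonempty (WtData ρ π) := by
  obtain ⟨n, b, χ, h1, h2, h3, h4, h5⟩ : ∃ (n : ℕ) (b : Basis (Fin n) ℂ (Fin (finrank ℝ V) → ℂ))
      (χ : Fin n → G →* ℂˣ),
      (∀ (i : Fin n) (g : G), ∀ v ∈ b.flag i.succ,
          cRep ρ g v - (χ i g : ℂ) • v ∈ b.flag i.castSucc) ∧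
      (∀ g : G, (LinearMap.toMatrix b b (cRep ρ g)).IsUpperTriangular) ∧
      (∀ (g : G) i, LinearMap.toMatrix b b (cRep ρ g) i i = χ i g) ∧
      (∀ g : G, LinearMap.charpoly (cRep ρ g) =
          ∏ i, (Polynomial.X - Polynomial.C ((χ i g : ℂˣ) : ℂ))) ∧
      (∀ n ∈ π.ker, ∀ i, χ i n = 1) := by
    obtain ⟨b, χ, h⟩ := LinUni.exists_triangular π.ker (by
      intro g h
      rw [MonoidHom.mem_ker, map_mul, map_mul, map_mul, map_inv, map_inv, mul_comm (π g) (π h)]
      group) (cRep ρ) (by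
      intro g hg
      obtain ⟨d, hd⟩ := hunip g hg
      exact ⟨d, cRep_unip ρ hd⟩)
    exact ⟨_, b, χ, h⟩
  choose M hM using fun i => Polyc.exists_log_linear π hπ (χ i) (fun g hg => by
    rw [h5 g hg i]; simp)
  exact ⟨⟨n, b, χ, M, h1, h2, h3, h4, fun g hg => h5 g hg, hM⟩⟩

/-! ### weights -/

variable {ρ : G →* (V ≃ₗ[ℝ] V)} {k : ℕ} {π : G →* Multiplicative (Fin k → ℤ)}

theorem WtData.isRoot_iff (W : WtData ρ π) (g : G) (z : ℂ) :
    ((LinearMap.charpoly (ρ g : V →ₗ[ℝ] V)).map (algebraMap ℝ ℂ)).IsRoot z ↔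
      ∃ i, z = W.χ i g := by
  rw [charpoly_map_eq]
  change (LinearMap.charpoly (cRep ρ g)).IsRoot z ↔ _
  rw [W.charpoly, Polynomial.IsRoot.def, Polynomial.eval_prod, Finset.prod_eq_zero_iff]
  constructor
  · rintro ⟨i, -, hi⟩
    refine ⟨i, ?_⟩
    rw [Polynomial.eval_sub, Polynomial.eval_X, Polynomial.eval_C, sub_eq_zero] at hi
    exact hi
  · rintro ⟨i, rfl⟩
    exact ⟨i, Finset.mem_univ i, by simp⟩

/-- the rates of `ρ g` are the values of the weights -/
theorem WtData.mem_rates (W : WtData ρ π) (g : G) (s : ℝ) :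
    s ∈ rates (ρ g) ↔ ∃ i, W.M i (hv π g) = s := by
  constructor
  · intro hs
    obtain ⟨z, hz, -, hz2⟩ := exists_root_of_mem_rates hs
    obtain ⟨i, hi⟩ := (W.isRoot_iff g z).1 hz
    exact ⟨i, by rw [← W.log_χ, ← hi, hz2]⟩
  · rintro ⟨i, rfl⟩
    rw [← W.log_χ]
    exact mem_rates_of_isRoot ((W.isRoot_iff g _).2 ⟨i, rfl⟩)

/-- `v` separates the weights, `0` and the sums of two weights. -/
def WtData.Generic (W : WtData ρ π) (v : Fin k → ℝ) : Prop :=
  (∀ i j, W.M i v = W.M j v → W.M i = W.M j) ∧ (∀ i, W.M i v = 0 → W.M i = 0) ∧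
    (∀ i j l, W.M i v + W.M j v = W.M l v → W.M i + W.M j = W.M l)

theorem WtData.exists_generic (W : WtData ρ π) :
    ∃ v : Fin k → ℤ, W.Generic (fun j => ((v j : ℤ) : ℝ)) := by
  classical
  let F : Finset ((Fin k → ℝ) →ₗ[ℝ] ℝ) :=
    ((Finset.univ.image fun p : Fin W.n × Fin W.n => W.M p.1 - W.M p.2) ∪
      (Finset.univ.image W.M ∪ Finset.univ.image fun p : Fin W.n × Fin W.n × Fin W.n =>
        W.M p.1 + W.M p.2.1 - W.M p.2.2)).filter (fun f => f ≠ 0)
  obtain ⟨v, hv⟩ := exists_generic_vec F (fun f hf => (Finset.mem_filter.1 hf).2)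
  refine ⟨v, fun i j hij => ?_, fun i hi => ?_, fun i j l hl => ?_⟩
  · by_contra hne
    refine hv (W.M i - W.M j) ?_ ?_
    · refine Finset.mem_filter.2 ⟨Finset.mem_union_left _ (Finset.mem_image.2
        ⟨(i, j), Finset.mem_univ _, rfl⟩), sub_ne_zero.2 hne⟩
    · rw [LinearMap.sub_apply, hij, sub_self]
  · by_contra hne
    refine hv (W.M i) ?_ hi
    exact Finset.mem_filter.2 ⟨Finset.mem_union_right _ (Finset.mem_union_left _
      (Finset.mem_image.2 ⟨i, Finset.mem_univ _, rfl⟩)), hne⟩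
  · by_contra hne
    refine hv (W.M i + W.M j - W.M l) ?_ ?_
    · exact Finset.mem_filter.2 ⟨Finset.mem_union_right _ (Finset.mem_union_right _
        (Finset.mem_image.2 ⟨(i, j, l), Finset.mem_univ _, rfl⟩)), sub_ne_zero.2 hne⟩
    · rw [LinearMap.sub_apply, LinearMap.add_apply, hl, sub_self]

/-- the finite set of weights -/
noncomputable def WtData.wts (W : WtData ρ π) : Finset ((Fin k → ℝ) →ₗ[ℝ] ℝ) := by
  classical
  exact Finset.univ.image W.M

theorem WtData.mem_wts (W : WtData ρ π) {μ : (Fin k → ℝ) →ₗ[ℝ] ℝ} :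
    μ ∈ W.wts ↔ ∃ i, W.M i = μ := by
  classical
  simp [WtData.wts]

/-- complexification of an invariant subspace -/
theorem mem_growSpace_cplx_iff {T : V ≃ₗ[ℝ] V} {s : ℝ} {w : Fin (finrank ℝ V) → ℂ} :
    w ∈ growSpace (cplx T) s ↔ reC V w ∈ growSpace T s ∧
      reC V ((-Complex.I) • w) ∈ growSpace T s := by
  constructor
  · intro hw
    exact ⟨reC_mem_growSpace hw, reC_mem_growSpace (Submodule.smul_mem _ _ hw)⟩
  · rintro ⟨h1, h2⟩
    have h3 : w = coordC V (reC V w) + Complex.I • coordC V (reC V ((-Complex.I) • w)) := by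
      funext i
      rw [Pi.add_apply, Pi.smul_apply, coordC_apply, coordC_apply, equivFun_reC, equivFun_reC]
      apply Complex.ext
      · simp
      · simp
    rw [h3]
    exact add_mem (coordC_mem_growSpace h1)
      (Submodule.smul_mem _ _ (coordC_mem_growSpace h2))

theorem reim_eq (w : Fin (finrank ℝ V) → ℂ) :
    w = coordC V (reC V w) + Complex.I • coordC V (reC V ((-Complex.I) • w)) := by
  funext i
  rw [Pi.add_apply, Pi.smul_apply, coordC_apply, coordC_apply, equivFun_reC, equivFun_reC]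
  apply Complex.ext
  · simp
  · simp

theorem cRep_mem_growSpace {t g : G} {s : ℝ}
    (hg : ∀ v ∈ growSpace (ρ t) s, ρ g v ∈ growSpace (ρ t) s)
    {w : Fin (finrank ℝ V) → ℂ} (hw : w ∈ growSpace (cplx (ρ t)) s) :
    cRep ρ g w ∈ growSpace (cplx (ρ t)) s := by
  rw [mem_growSpace_cplx_iff] at hw ⊢
  refine ⟨?_, ?_⟩
  · rw [reC_cRep]; exact hg _ hw.1
  · rw [← map_smul, reC_cRep]; exact hg _ hw.2

/-- a nonzero vector enters the flag at some step -/
theorem WtData.exists_step (W : WtData ρ π) {w : Fin (finrank ℝ V) → ℂ} (hw0 : w ≠ 0) :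
    ∃ i : Fin W.n, w ∈ W.b.flag i.succ ∧ w ∉ W.b.flag i.castSucc := by
  classical
  have hex : ∃ m : ℕ, ∃ hm : m < W.n + 1, w ∈ W.b.flag ⟨m, hm⟩ := by
    refine ⟨W.n, by omega, ?_⟩
    have : W.b.flag (⟨W.n, by omega⟩ : Fin (W.n + 1)) = ⊤ := W.b.flag_last
    rw [this]; trivial
  obtain ⟨hm, hmem⟩ := Nat.find_spec hex
  set m := Nat.find hex with hmdef
  have hm0 : m ≠ 0 := by
    intro h0
    have h1 : W.b.flag (⟨m, hm⟩ : Fin (W.n + 1)) = ⊥ := by
      have h2 : (⟨m, hm⟩ : Fin (W.n + 1)) = 0 := Fin.ext (by simp [h0])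
      rw [h2, W.b.flag_zero]
    rw [h1, Submodule.mem_bot] at hmem
    exact hw0 hmem
  obtain ⟨m', hm'⟩ := Nat.exists_eq_succ_of_ne_zero hm0
  refine ⟨⟨m', by omega⟩, ?_, ?_⟩
  · have : (⟨m', by omega⟩ : Fin W.n).succ = ⟨m, hm⟩ := Fin.ext (by simp [hm'])
    rw [this]; exact hmem
  · intro hcon
    exact Nat.find_min hex (m := m') (by omega) ⟨by omega, hcon⟩

/-- the action on a step of the flag -/
theorem WtData.exists_dual (W : WtData ρ π) {w : Fin (finrank ℝ V) → ℂ} {i : Fin W.n}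
    (hi1 : w ∈ W.b.flag i.succ) (hi2 : w ∉ W.b.flag i.castSucc) :
    ∃ f : Module.Dual ℂ (Fin (finrank ℝ V) → ℂ), f w ≠ 0 ∧
      ∀ x : G, f (cRep ρ x w) = W.χ i x * f w := by
  obtain ⟨f, hf1, hf2⟩ := Submodule.exists_le_ker_of_notMem hi2
  refine ⟨f, hf1, fun x => ?_⟩
  have h1 : f (cRep ρ x w - (W.χ i x : ℂ) • w) = 0 := hf2 (W.flag i x w hi1)
  rw [map_sub, map_smul, sub_eq_zero, smul_eq_mul] at h1
  exact h1

/-- Vectors of growth rate `s` live in the steps of the flag of rate `s`. -/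
theorem WtData.rate_of_step (W : WtData ρ π) {t : G} {s : ℝ} {w : Fin (finrank ℝ V) → ℂ}
    (hw : w ∈ growSpace (cplx (ρ t)) s) {i : Fin W.n}
    (hi1 : w ∈ W.b.flag i.succ) (hi2 : w ∉ W.b.flag i.castSucc) : W.M i (hv π t) = s := by
  obtain ⟨f, hf1, hact⟩ := W.exists_dual hi1 hi2
  rw [← W.log_χ]
  -- use the growth lemma on the one-dimensional space
  obtain ⟨B, hB0, hB⟩ : ∃ B : ℝ, 0 ≤ B ∧ ∀ x, ‖f x‖ ≤ B * ‖x‖ := by
    refine ⟨‖LinearMap.toContinuousLinearMap f‖, norm_nonneg _, fun x => ?_⟩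
    exact (LinearMap.toContinuousLinearMap f).le_opNorm x
  let S : ℂ ≃ₗ[ℂ] ℂ := LinearEquiv.smulOfNeZero ℂ ℂ (W.χ i t : ℂ) (Units.ne_zero _)
  have hS : ∀ x, S x = (W.χ i t : ℂ) * x := fun x => rfl
  have hgr : f w ∈ growSpace S s := by
    refine Grows.map (T := cplx (ρ t)) (T' := S) hw f B hB ?_
    intro j
    have h1 : ∀ j : ℤ, (S ^ j) (f w) = ((W.χ i t : ℂ)) ^ j * f w := by
      intro j
      induction j using Int.induction_on with
      | zero => simp
      | succ j ih =>
        rw [add_comm, zpow_add, LinearEquiv.mul_apply, ih, zpow_one, hS, zpow_add₀ (Units.ne_zero _),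
          zpow_one]
        ring
      | pred j ih =>
        have h2 : S ((S ^ (-(j : ℤ) - 1)) (f w)) = (W.χ i t : ℂ) ^ (-(j : ℤ)) * f w := by
          rw [← ih, ← LinearEquiv.mul_apply]
          congr 1
          rw [← zpow_one_add]
          congr 1
          ring
        rw [hS] at h2
        have h3 : (W.χ i t : ℂ) ≠ 0 := Units.ne_zero _
        apply mul_left_cancel₀ h3
        rw [h2, zpow_sub_one₀ h3]
        field_simp
    rw [h1 j, ← cplx_zpow, ← map_zpow]
    have h2 := hact (t ^ j)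
    rw [cRep_apply] at h2
    rw [h2, map_zpow, Units.val_zpow_eq_zpow_val]
  exact log_norm_of_eigen (Units.ne_zero _) hf1 hgr (by rw [hS]; rfl)

/-- Spectrum on a weight space: if `w ≠ 0` in the `s`-growth space of `t` is an eigenvector of `g`
with eigenvalue `z` then `z = χ i g` for some `i` with `M i (t) = s`. -/
theorem WtData.exists_of_eigen (W : WtData ρ π) {t g : G} {s : ℝ} {w : Fin (finrank ℝ V) → ℂ}
    (hw0 : w ≠ 0) (hw : w ∈ growSpace (cplx (ρ t)) s) {z : ℂ} (hz : cRep ρ g w = z • w) :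
    ∃ i, z = W.χ i g ∧ W.M i (hv π t) = s := by
  obtain ⟨i, hi1, hi2⟩ := W.exists_step hw0
  refine ⟨i, ?_, W.rate_of_step hw hi1 hi2⟩
  obtain ⟨f, hf1, hact⟩ := W.exists_dual hi1 hi2
  have h1 := hact g
  rw [hz, map_smul, smul_eq_mul] at h1
  exact mul_right_cancel₀ hf1 h1

/-! ### multiplicities -/

theorem finrank_le_ker {K E : Type*} [Field K] [AddCommGroup E] [Module K E]
    [FiniteDimensional K E] (Q : Submodule K E) (f : Module.Dual K E) :
    finrank K Q ≤ finrank K (Q ⊓ LinearMap.ker f : Submodule K E) + 1 := by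
  have h1 := LinearMap.finrank_range_add_finrank_ker (f.domRestrict Q)
  have h2 : finrank K (LinearMap.range (f.domRestrict Q)) ≤ 1 := by
    have := Submodule.finrank_le (LinearMap.range (f.domRestrict Q))
    rwa [Module.finrank_self] at this
  have h3 : finrank K (LinearMap.ker (f.domRestrict Q)) =
      finrank K (Q ⊓ LinearMap.ker f : Submodule K E) := by
    have e : (Q ⊓ LinearMap.ker f : Submodule K E) =
        (LinearMap.ker (f.domRestrict Q)).map Q.subtype := by
      ext x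
      simp only [Submodule.mem_inf, LinearMap.mem_ker, Submodule.mem_map, Submodule.subtype_apply,
        Subtype.exists, exists_and_right, exists_eq_right]
      constructor
      · rintro ⟨h, h'⟩; exact ⟨h, h'⟩
      · rintro ⟨h, h'⟩; exact ⟨h, h'⟩
    rw [e, Submodule.finrank_map_subtype_eq]
  omega

theorem WtData.finrank_cplx_le (W : WtData ρ π) (t : G) (s : ℝ) :
    finrank ℂ (growSpace (cplx (ρ t)) s) ≤
      (Finset.univ.filter fun i => W.M i (hv π t) = s).card := by
  classical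
  set P := growSpace (cplx (ρ t)) s with hP
  have key : ∀ m : ℕ, ∀ hm : m < W.n + 1,
      finrank ℂ (P ⊓ W.b.flag ⟨m, hm⟩ : Submodule ℂ (Fin (finrank ℝ V) → ℂ)) ≤
        (Finset.univ.filter fun i : Fin W.n => (i : ℕ) < m ∧ W.M i (hv π t) = s).card := by
    intro m
    induction m with
    | zero =>
      intro hm
      have h2 : (⟨0, hm⟩ : Fin (W.n + 1)) = 0 := rfl
      rw [h2, W.b.flag_zero, inf_bot_eq, finrank_bot]
      exact Nat.zero_le _
    | succ m ih =>
      intro hm
      have hm' : m < W.n := by omega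
      have ih' := ih (by omega)
      set i : Fin W.n := ⟨m, hm'⟩ with hi
      have e1 : (⟨m + 1, hm⟩ : Fin (W.n + 1)) = i.succ := rfl
      have e2 : (⟨m, by omega⟩ : Fin (W.n + 1)) = i.castSucc := rfl
      rw [e1]
      rw [e2] at ih'
      by_cases hs : W.M i (hv π t) = s
      · have h1 := finrank_le_ker (P ⊓ W.b.flag i.succ) (W.b.coord i)
        have h2 : (P ⊓ W.b.flag i.succ ⊓ LinearMap.ker (W.b.coord i) :
            Submodule ℂ (Fin (finrank ℝ V) → ℂ)) ≤ P ⊓ W.b.flag i.castSucc := by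
          rintro x ⟨⟨hx1, hx2⟩, hx3⟩
          refine ⟨hx1, ?_⟩
          have hx2' : x ∈ W.b.flag i.succ := hx2
          rw [Basis.flag_succ, Submodule.mem_sup] at hx2'
          obtain ⟨y, hy, z, hz, rfl⟩ := hx2'
          obtain ⟨c, rfl⟩ := Submodule.mem_span_singleton.1 hy
          have h4 : W.b.coord i z = 0 := by
            have := W.b.flag_le_ker_coord (k := i.castSucc) (l := i) le_rfl hz
            exact this
          have h3 : W.b.coord i (c • W.b i + z) = 0 := hx3
          rw [map_add, h4, add_zero, map_smul, W.b.coord_apply, W.b.repr_self,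
            Finsupp.single_eq_same, smul_eq_mul, mul_one] at h3
          rw [h3, zero_smul, zero_add]
          exact hz
        have h3 := Submodule.finrank_mono h2
        have h5 : (Finset.univ.filter fun j : Fin W.n => (j : ℕ) < m ∧ W.M j (hv π t) = s).card + 1
            ≤ (Finset.univ.filter fun j : Fin W.n => (j : ℕ) < m + 1 ∧
              W.M j (hv π t) = s).card := by
          rw [← Finset.card_insert_of_notMem (a := i)]
          · apply Finset.card_le_card
            intro j hj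
            rcases Finset.mem_insert.1 hj with rfl | hj
            · exact Finset.mem_filter.2 ⟨Finset.mem_univ _, by simp [hi], hs⟩
            · obtain ⟨-, hj1, hj2⟩ := Finset.mem_filter.1 hj
              exact Finset.mem_filter.2 ⟨Finset.mem_univ _, by omega, hj2⟩
          · intro hj
            have := (Finset.mem_filter.1 hj).2.1
            simp [hi] at this
        omega
      · have h2 : (P ⊓ W.b.flag i.succ : Submodule ℂ (Fin (finrank ℝ V) → ℂ)) ≤
            P ⊓ W.b.flag i.castSucc := by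
          rintro x ⟨hx1, hx2⟩
          refine ⟨hx1, ?_⟩
          by_contra hx3
          exact hs (W.rate_of_step hx1 hx2 hx3)
        have h3 := Submodule.finrank_mono h2
        have h5 : (Finset.univ.filter fun j : Fin W.n => (j : ℕ) < m ∧ W.M j (hv π t) = s).card
            ≤ (Finset.univ.filter fun j : Fin W.n => (j : ℕ) < m + 1 ∧
              W.M j (hv π t) = s).card := by
          apply Finset.card_le_card
          intro j hj
          obtain ⟨-, hj1, hj2⟩ := Finset.mem_filter.1 hj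
          exact Finset.mem_filter.2 ⟨Finset.mem_univ _, by omega, hj2⟩
        omega
  have h := key W.n (by omega)
  have h1 : W.b.flag (⟨W.n, by omega⟩ : Fin (W.n + 1)) = ⊤ := W.b.flag_last
  rw [h1, inf_top_eq] at h
  refine h.trans (Finset.card_le_card ?_)
  intro j hj
  exact Finset.mem_filter.2 ⟨Finset.mem_univ _, (Finset.mem_filter.1 hj).2.2⟩

theorem reC_smul_coordC (z : ℂ) (v : V) : reC V (z • coordC V v) = z.re • v := by
  apply (finBasis ℝ V).equivFun.injective
  funext i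
  rw [equivFun_reC, map_smul, Pi.smul_apply, Pi.smul_apply, coordC_apply]
  simp

theorem finrank_growSpace_le_cplx (T : V ≃ₗ[ℝ] V) (s : ℝ) :
    finrank ℝ (growSpace T s) ≤ finrank ℂ (growSpace (cplx T) s) := by
  classical
  let b := finBasis ℝ (growSpace T s)
  let f : Fin (finrank ℝ (growSpace T s)) → growSpace (cplx T) s := fun j =>
    ⟨coordC V (b j : V), coordC_mem_growSpace (b j).2⟩
  have hf : LinearIndependent ℂ f := by
    have hb := b.linearIndependent
    rw [Fintype.linearIndependent_iff] at hb ⊢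
    intro z hz
    have hz' : ∑ j, z j • coordC V (b j : V) = 0 := by
      have := congrArg (Submodule.subtype _) hz
      simpa [f] using this
    have hre : ∀ y : Fin (finrank ℝ (growSpace T s)) → ℂ,
        ∑ j, y j • coordC V (b j : V) = 0 → ∀ j, (y j).re = 0 := by
      intro y hy
      apply hb (fun j => (y j).re)
      apply Subtype.ext
      have h1 := congrArg (reC V) hy
      rw [map_sum, map_zero] at h1
      simp only [reC_smul_coordC] at h1
      simpa using h1
    intro j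
    apply Complex.ext
    · exact hre z hz' j
    · have h2 := hre (fun j => (-Complex.I) * z j) (by
        simp only [mul_smul]
        rw [← Finset.smul_sum, hz', smul_zero]) j
      simpa using h2
  have := hf.fintype_card_le_finrank
  simpa using this

theorem sum_finrank_growSpace (T : V ≃ₗ[ℝ] V) :
    ∑ s ∈ rates T, finrank ℝ (growSpace T s) = finrank ℝ V := by
  classical
  let e : (DirectSum (rates T) fun s => growSpace T (s : ℝ)) ≃ₗ[ℝ] V :=
    LinearEquiv.ofBijective (DirectSum.coeLinearMap fun s : rates T => growSpace T (s : ℝ))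
      (isInternal_growSpace T)
  rw [← e.finrank_eq, Module.finrank_directSum, ← Finset.sum_coe_sort]

/-- **Multiplicities.** -/
theorem WtData.finrank_growSpace (W : WtData ρ π) (t : G) (s : ℝ) :
    finrank ℝ (growSpace (ρ t) s) = (Finset.univ.filter fun i => W.M i (hv π t) = s).card := by
  classical
  have hle : ∀ s, finrank ℝ (growSpace (ρ t) s) ≤
      (Finset.univ.filter fun i => W.M i (hv π t) = s).card := fun s =>
    (finrank_growSpace_le_cplx (ρ t) s).trans (W.finrank_cplx_le t s)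
  have hn : W.n = finrank ℝ V := by
    have h1 := Module.finrank_eq_card_basis W.b
    simpa using h1.symm
  have hsum : ∑ s ∈ rates (ρ t), (Finset.univ.filter fun i => W.M i (hv π t) = s).card = W.n := by
    have h1 := Finset.card_eq_sum_card_fiberwise (s := (Finset.univ : Finset (Fin W.n)))
      (f := fun i => W.M i (hv π t)) (t := rates (ρ t)) (fun i _ => by
        simp only [Finset.mem_coe]
        exact (W.mem_rates t _).2 ⟨i, rfl⟩)
    rw [Finset.card_univ, Fintype.card_fin] at h1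
    exact h1.symm
  by_cases hs : s ∈ rates (ρ t)
  · have h1 := sum_finrank_growSpace (ρ t)
    rw [← hn, ← hsum] at h1
    exact (Finset.sum_eq_sum_iff_of_le fun s _ => hle s).1 h1 s hs
  · rw [growSpace_eq_bot hs, finrank_bot]
    symm
    rw [Finset.card_eq_zero, Finset.filter_eq_empty_iff]
    intro i _ hi
    exact hs ((W.mem_rates t s).2 ⟨i, hi⟩)

/-- the sum of the weights is the logarithm of the determinant -/
theorem WtData.sum_M (W : WtData ρ π) (g : G) :
    ∑ i, W.M i (hv π g) = Real.log |LinearMap.det (ρ g : V →ₗ[ℝ] V)| := by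
  have h1 : LinearMap.det (cRep ρ g) = ∏ i, (W.χ i g : ℂ) := by
    rw [← LinearMap.det_toMatrix W.b, Matrix.det_of_isUpperTriangular (W.tri g)]
    exact Finset.prod_congr rfl fun i _ => W.diag g i
  have h2 : LinearMap.det (cRep ρ g) = ((LinearMap.det (ρ g : V →ₗ[ℝ] V) : ℝ) : ℂ) := by
    change LinearMap.det (Matrix.toLin' (cMat (ρ g : V →ₗ[ℝ] V))) = _
    rw [LinearMap.det_toLin', ← LinearMap.det_toMatrix (finBasis ℝ V)]
    exact (RingHom.map_det (algebraMap ℝ ℂ)
      (LinearMap.toMatrix (finBasis ℝ V) (finBasis ℝ V) (ρ g : V →ₗ[ℝ] V))).symm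
  have h3 : |LinearMap.det (ρ g : V →ₗ[ℝ] V)| = ∏ i, ‖(W.χ i g : ℂ)‖ := by
    rw [← norm_prod, ← h1, h2, Complex.norm_real, Real.norm_eq_abs]
  rw [h3, Real.log_prod]
  · exact Finset.sum_congr rfl fun i _ => (W.log_χ i g).symm
  · intro i _
    exact norm_ne_zero_iff.2 (Units.ne_zero _)

/-- Sum of the weights with multiplicities. -/
theorem WtData.sum_wts (W : WtData ρ π) {t : G} (ht : W.Generic (hv π t)) :
    ∑ μ ∈ W.wts, (finrank ℝ (growSpace (ρ t) (μ (hv π t)))) • μ = ∑ i, W.M i := by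
  classical
  rw [← Finset.sum_fiberwise_of_maps_to (s := Finset.univ) (t := W.wts) (g := W.M)
    (fun i _ => W.mem_wts.2 ⟨i, rfl⟩)]
  refine Finset.sum_congr rfl fun μ hμ => ?_
  obtain ⟨j, rfl⟩ := W.mem_wts.1 hμ
  rw [W.finrank_growSpace, Finset.sum_congr rfl (g := fun _ => W.M j)
    (fun i hi => (Finset.mem_filter.1 hi).2), Finset.sum_const]
  congr 2
  ext i
  simp only [Finset.mem_filter, Finset.mem_univ, true_and]
  exact ⟨fun h => ht.1 i j h, fun h => by rw [h]⟩

variable (V) in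
theorem exists_cplx_bound : ∃ B : ℝ, 0 ≤ B ∧ ∀ (T : V ≃ₗ[ℝ] V) (a : ℝ), (∀ v, ‖T v‖ ≤ a * ‖v‖) →
    ∀ w, ‖cplx T w‖ ≤ B * |a| * ‖w‖ := by
  obtain ⟨B₁, h1, hB₁⟩ := exists_bound_of_real_linear (coordC V)
  obtain ⟨B₂, h2, hB₂⟩ := exists_bound_of_real_linear (reC V)
  refine ⟨2 * (B₁ * B₂), by positivity, fun T a ha w => ?_⟩
  have key : ∀ u : Fin (finrank ℝ V) → ℂ, ‖u‖ = ‖w‖ →
      ‖coordC V (T (reC V u))‖ ≤ B₁ * (|a| * (B₂ * ‖w‖)) := by
    intro u hu
    refine (hB₁ _).trans (mul_le_mul_of_nonneg_left ?_ h1)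
    refine (ha _).trans ((mul_le_mul_of_nonneg_right (le_abs_self a) (norm_nonneg _)).trans ?_)
    refine mul_le_mul_of_nonneg_left ?_ (abs_nonneg a)
    rw [← hu]; exact hB₂ u
  have e : cplx T w = coordC V (T (reC V w)) +
      Complex.I • coordC V (T (reC V ((-Complex.I) • w))) := by
    have h3 := reim_eq (cplx T w)
    rw [← (cplx T).map_smul (-Complex.I) w, ← reC_cplx, ← reC_cplx] at h3
    exact h3
  have k1 := key w rfl
  have k2 := key ((-Complex.I) • w) (by rw [norm_smul]; simp)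
  rw [e]
  refine (norm_add_le _ _).trans ?_
  rw [norm_smul, Complex.norm_I, one_mul]
  nlinarith

/-- Uniform growth of products of elements of a bounded subset of a group preserving a growth
space. -/
theorem WtData.growth (W : WtData ρ π) {t : G} {s : ℝ} {μ : (Fin k → ℝ) →ₗ[ℝ] ℝ}
    (hμ : ∀ i, W.M i (hv π t) = s → W.M i = μ)
    (hunip : ∀ g, π g = 1 → ∃ d : ℕ, ((ρ g : V →ₗ[ℝ] V) - 1) ^ d = 0)
    (C : Subgroup G) (hC : ∀ g ∈ C, ∀ v ∈ growSpace (ρ t) s, ρ g v ∈ growSpace (ρ t) s)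
    (S : Set G) (hS : ∀ g ∈ S, g ∈ C) {A : ℝ} (hA : ∀ g ∈ S, |μ (hv π g)| ≤ A)
    (hA' : ∀ g ∈ S, ∀ v, ‖ρ g v‖ ≤ A * ‖v‖) :
    ∃ (K : ℝ) (D : ℕ), 0 ≤ K ∧ ∀ l : List G, (∀ g ∈ l, g ∈ S) → ∀ v ∈ growSpace (ρ t) s,
      ‖ρ l.prod v‖ ≤ K * (1 + l.length : ℝ) ^ D * Real.exp (μ (hv π l.prod)) * ‖v‖ := by
  classical
  let P : Submodule ℂ (Fin (finrank ℝ V) → ℂ) := growSpace (cplx (ρ t)) s
  have hP : ∀ g ∈ C, ∀ w ∈ P, cRep ρ g w ∈ P := fun g hg w hw =>
    cRep_mem_growSpace (hC g hg) hw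
  let σ : Representation ℂ C P :=
    { toFun := fun g => (cRep ρ (g : G)).restrict (hP g g.2)
      map_one' := by
        ext x
        simp [LinearMap.restrict_apply]
      map_mul' := fun g h => by
        ext x
        simp [LinearMap.restrict_apply] }
  have hσ : ∀ (g : C) (x : P), ((σ g x : P) : Fin (finrank ℝ V) → ℂ) = cRep ρ (g : G) x :=
    fun g x => rfl
  let N : Subgroup C := (π.comp C.subtype).ker
  have hNmem : ∀ g : C, g ∈ N ↔ π (g : G) = 1 := fun g => Iff.rfl
  obtain ⟨B₀, hB₀, hcb⟩ := exists_cplx_bound V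
  have h := LinUni.growth N (by
    intro g h
    rw [hNmem]
    change π ((g : G) * h * (g : G)⁻¹ * (h : G)⁻¹) = 1
    rw [map_mul, map_mul, map_mul, map_inv, map_inv, mul_comm (π (g : G)) (π (h : G))]
    group) σ (by
    intro n hn
    obtain ⟨d, hd⟩ := hunip (n : G) ((hNmem n).1 hn)
    refine ⟨d, ?_⟩
    have h1 := cRep_unip ρ hd
    have h2 : ∀ (d : ℕ) (x : P), ((((σ n - 1) ^ d) x : P) : Fin (finrank ℝ V) → ℂ) =
        ((cRep ρ (n : G) - 1) ^ d) x := by
      intro d
      induction d with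
      | zero => intro x; rfl
      | succ d ih =>
        intro x
        rw [pow_succ, pow_succ, Module.End.mul_apply, Module.End.mul_apply, ih]
        rfl
    ext x : 1
    apply Subtype.ext
    rw [h2, h1]; rfl) (fun g => μ (hv π (g : G))) (by
    intro g h
    rw [Subgroup.coe_mul, hv_mul, map_add]) (by
    intro g z hz
    have hz' : (LinearMap.charpoly (σ g)).IsRoot z := Polynomial.isRoot_of_mem_roots hz
    rw [← End.hasEigenvalue_iff_isRoot_charpoly] at hz'
    obtain ⟨w, hw⟩ := hz'.exists_hasEigenvector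
    have hw0 : (w : Fin (finrank ℝ V) → ℂ) ≠ 0 := by
      intro h; exact hw.2 (Subtype.ext h)
    have hw1 : cRep ρ (g : G) w = z • (w : Fin (finrank ℝ V) → ℂ) := by
      rw [← hσ, hw.apply_eq_smul]; rfl
    obtain ⟨i, hi, hi2⟩ := W.exists_of_eigen hw0 w.2 hw1
    rw [hi, ← hμ i hi2, ← W.log_χ, Real.exp_log (norm_pos_iff.2 (Units.ne_zero _))])
    ({g : C | (g : G) ∈ S}) (A := max A (B₀ * |A|)) (by
    intro g hg
    exact (hA g hg).trans (le_max_left _ _)) (by
    intro g hg x
    refine le_trans ?_ (mul_le_mul_of_nonneg_right (le_max_right _ _) (norm_nonneg _))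
    change ‖cRep ρ (g : G) x‖ ≤ _
    rw [cRep_apply]
    exact hcb _ A (hA' g hg) _)
  obtain ⟨K, D, hK0, hK⟩ := h
  obtain ⟨B₁, h1, hB₁⟩ := exists_bound_of_real_linear (coordC V)
  obtain ⟨B₂, h2, hB₂⟩ := exists_bound_of_real_linear (reC V)
  refine ⟨B₂ * (K * B₁), D, by positivity, fun l hl v hv' => ?_⟩
  let l' : List C := l.attach.map fun x => ⟨x.1, hS _ (hl x.1 x.2)⟩
  have hl'1 : l'.map C.subtype = l := by
    rw [List.map_map]
    have : (C.subtype ∘ fun x : {x // x ∈ l} => (⟨x.1, hS _ (hl x.1 x.2)⟩ : C)) = Subtype.val := by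
      funext x; rfl
    rw [this, List.attach_map_subtype_val]
  have hl'2 : ((l'.prod : C) : G) = l.prod := by
    have := map_list_prod C.subtype l'
    rw [hl'1] at this
    exact this
  have hl'3 : l'.length = l.length := by simp [l']
  have h3 := hK l' (by
    intro g hg
    obtain ⟨x, -, rfl⟩ := List.mem_map.1 hg
    exact hl x.1 x.2) ⟨coordC V v, coordC_mem_growSpace hv'⟩
  rw [hl'3] at h3
  have h4 : ‖cRep ρ l.prod (coordC V v)‖ ≤
      K * (1 + l.length : ℝ) ^ D * Real.exp (μ (hv π l.prod)) * ‖coordC V v‖ := by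
    have := h3
    simp only [hl'2] at this
    rw [← hl'2]
    rw [← hl'2] at this
    exact this
  have hE : 0 ≤ K * (1 + l.length : ℝ) ^ D * Real.exp (μ (hv π l.prod)) := by positivity
  calc ‖ρ l.prod v‖ = ‖reC V (coordC V (ρ l.prod v))‖ := by rw [reC_coordC]
    _ ≤ B₂ * ‖coordC V (ρ l.prod v)‖ := hB₂ _
    _ = B₂ * ‖cRep ρ l.prod (coordC V v)‖ := by rw [cRep_coordC]
    _ ≤ B₂ * (K * (1 + l.length : ℝ) ^ D * Real.exp (μ (hv π l.prod)) * (B₁ * ‖v‖)) := by
        refine mul_le_mul_of_nonneg_left (h4.trans ?_) h2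
        exact mul_le_mul_of_nonneg_left (hB₁ v) hE
    _ = _ := by ring

/-- An element preserving the growth space of `t` acts on it with growth rate `μ`. -/
theorem WtData.mem_growSpace (W : WtData ρ π) {t : G} {s : ℝ} {μ : (Fin k → ℝ) →ₗ[ℝ] ℝ}
    (hμ : ∀ i, W.M i (hv π t) = s → W.M i = μ)
    (hunip : ∀ g, π g = 1 → ∃ d : ℕ, ((ρ g : V →ₗ[ℝ] V) - 1) ^ d = 0)
    {g : G} (hg : ∀ v ∈ growSpace (ρ t) s, ρ g v ∈ growSpace (ρ t) s)
    (hg' : ∀ v ∈ growSpace (ρ t) s, ρ g⁻¹ v ∈ growSpace (ρ t) s) {v : V}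
    (hvv : v ∈ growSpace (ρ t) s) : v ∈ growSpace (ρ g) (μ (hv π g)) := by
  let C : Subgroup G := Subgroup.zpowers g
  have hC : ∀ x ∈ C, ∀ v ∈ growSpace (ρ t) s, ρ x v ∈ growSpace (ρ t) s := by
    have hCl : C = Subgroup.closure {g} := Subgroup.zpowers_eq_closure g
    rw [hCl]
    intro x hx
    induction hx using Subgroup.closure_induction'' with
    | one => intro v hv; rw [map_one]; exact hv
    | mem x hx => rw [Set.mem_singleton_iff.1 hx]; exact hg
    | inv_mem x hx => rw [Set.mem_singleton_iff.1 hx]; exact hg'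
    | mul x y _ _ ihx ihy =>
      intro v hv
      rw [map_mul]
      exact ihx _ (ihy v hv)
  obtain ⟨a, ha⟩ : ∃ a : ℝ, ∀ x ∈ ({g, g⁻¹} : Set G), |μ (hv π x)| ≤ a ∧
      ∀ v, ‖ρ x v‖ ≤ a * ‖v‖ := by
    obtain ⟨B₁, h1, hB₁⟩ := exists_bound_of_real_linear (ρ g : V →ₗ[ℝ] V)
    obtain ⟨B₂, h2, hB₂⟩ := exists_bound_of_real_linear (ρ g⁻¹ : V →ₗ[ℝ] V)
    refine ⟨|μ (hv π g)| + |μ (hv π g⁻¹)| + B₁ + B₂, ?_⟩
    have a1 := abs_nonneg (μ (hv π g))
    have a2 := abs_nonneg (μ (hv π g⁻¹))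
    rintro x (rfl | rfl)
    · refine ⟨by linarith, fun v => (hB₁ v).trans ?_⟩
      exact mul_le_mul_of_nonneg_right (by linarith) (norm_nonneg _)
    · refine ⟨by linarith, fun v => (hB₂ v).trans ?_⟩
      exact mul_le_mul_of_nonneg_right (by linarith) (norm_nonneg _)
  obtain ⟨K, D, hK0, hK⟩ := W.growth hμ hunip C hC {g, g⁻¹} (by
    rintro x (rfl | rfl)
    · exact Subgroup.mem_zpowers _
    · exact C.inv_mem (Subgroup.mem_zpowers _)) (fun x hx => (ha x hx).1)
    (fun x hx => (ha x hx).2)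
  refine LinMod.mem_growSpace.2 ⟨K * ‖v‖, D, fun j => ?_⟩
  obtain ⟨m, rfl | rfl⟩ := j.eq_nat_or_neg
  · have h1 := hK (List.replicate m g) (by
      intro x hx
      rw [List.eq_of_mem_replicate hx]; simp) v hvv
    rw [List.prod_replicate, List.length_replicate, hv_pow, map_smul, smul_eq_mul] at h1
    rw [zpow_natCast, ← map_pow]
    refine h1.trans_eq ?_
    rw [Int.cast_natCast, Nat.abs_cast]
    ring_nf
  · have h1 := hK (List.replicate m g⁻¹) (by
      intro x hx
      rw [List.eq_of_mem_replicate hx]; simp) v hvv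
    rw [List.prod_replicate, List.length_replicate, hv_pow, map_smul, smul_eq_mul, hv_inv,
      map_neg] at h1
    rw [zpow_neg, zpow_natCast, ← inv_pow, ← map_inv, ← map_pow]
    refine h1.trans_eq ?_
    rw [Int.cast_neg, Int.cast_natCast, abs_neg, Nat.abs_cast]
    ring_nf

end rep

/-! ### the projections on the growth spaces -/

section pr

variable {V : Type*} [NormedAddCommGroup V] [NormedSpace ℝ V] [FiniteDimensional ℝ V]
  (T : V ≃ₗ[ℝ] V)

/-- the decomposition as a linear equivalence -/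
noncomputable def dirE : (DirectSum (rates T) fun s => growSpace T (s : ℝ)) ≃ₗ[ℝ] V := by
  classical
  exact LinearEquiv.ofBijective
    (DirectSum.coeLinearMap fun s : rates T => growSpace T (s : ℝ)) (isInternal_growSpace T)

open Classical in
/-- the projection on `growSpace T s` -/
noncomputable def pr (s : ℝ) : V →ₗ[ℝ] V :=
  if h : s ∈ rates T then (growSpace T s).subtype ∘ₗ
    (DirectSum.component ℝ (rates T) (fun s => growSpace T (s : ℝ)) ⟨s, h⟩) ∘ₗ
      (dirE T).symm.toLinearMap else 0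

theorem pr_mem (s : ℝ) (v : V) : pr T s v ∈ growSpace T s := by
  classical
  unfold pr
  split_ifs with h
  · exact Submodule.coe_mem _
  · exact Submodule.zero_mem _

theorem dirE_symm_of_mem {s : ℝ} (hs : s ∈ rates T) {v : V} (hv : v ∈ growSpace T s) :
    (dirE T).symm v = DirectSum.lof ℝ (rates T) (fun s => growSpace T (s : ℝ)) ⟨s, hs⟩ ⟨v, hv⟩ := by
  classical
  rw [LinearEquiv.symm_apply_eq]
  change v = DirectSum.coeLinearMap _ _
  convert (DirectSum.coeLinearMap_lof (fun s : rates T => growSpace T (s : ℝ)) ⟨s, hs⟩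
    (⟨v, hv⟩ : growSpace T s)).symm

theorem pr_of_mem {s : ℝ} {v : V} (hv : v ∈ growSpace T s) : pr T s v = v := by
  classical
  by_cases hs : s ∈ rates T
  · unfold pr
    rw [dif_pos hs]
    simp only [LinearMap.comp_apply, LinearEquiv.coe_coe]
    rw [dirE_symm_of_mem T hs hv, DirectSum.component.lof_self]
    rfl
  · rw [growSpace_eq_bot hs, Submodule.mem_bot] at hv
    rw [hv, map_zero]

theorem pr_of_mem_ne {s s' : ℝ} (hss : s ≠ s') {v : V} (hv : v ∈ growSpace T s) :
    pr T s' v = 0 := by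
  classical
  by_cases hs : s ∈ rates T
  · unfold pr
    split_ifs with hs'
    · simp only [LinearMap.comp_apply, LinearEquiv.coe_coe]
      rw [dirE_symm_of_mem T hs hv, DirectSum.component.of, dif_neg]
      · rfl
      · intro h
        exact hss (congrArg Subtype.val h)
    · rfl
  · rw [growSpace_eq_bot hs, Submodule.mem_bot] at hv
    rw [hv, map_zero]

theorem sum_pr (v : V) : ∑ s ∈ rates T, pr T s v = v := by
  classical
  obtain ⟨f, hf, -, h⟩ := exists_decomp T v
  conv_lhs => rw [h]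
  conv_rhs => rw [h]
  refine Finset.sum_congr rfl fun s hs => ?_
  rw [map_sum, Finset.sum_eq_single s]
  · exact pr_of_mem T (hf s)
  · intro b _ hb
    exact pr_of_mem_ne T hb (hf b)
  · intro h; exact absurd hs h

/-- an invariant subspace is the sum of its intersections with the growth spaces -/
theorem pr_mem_of_invariant {p : Submodule ℝ V} (h : ∀ x ∈ p, T x ∈ p)
    (h' : ∀ x ∈ p, T.symm x ∈ p) (s : ℝ) {v : V} (hv : v ∈ p) : pr T s v ∈ p := by
  classical
  have h1 : (⟨v, hv⟩ : p) ∈ ⨆ s, growSpace (restrictE T p h h') s := by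
    rw [iSup_growSpace]; trivial
  have h2 : ∀ x ∈ ⨆ s, growSpace (restrictE T p h h') s, pr T s (x : V) ∈ p := by
    intro x hx
    refine Submodule.iSup_induction (fun s => growSpace (restrictE T p h h') s)
      (motive := fun x => pr T s (x : V) ∈ p) hx ?_ ?_ ?_
    · intro s' y hy
      have hy' : (y : V) ∈ growSpace T s' := by
        obtain ⟨C, D, hCD⟩ := mem_growSpace.1 hy
        refine mem_growSpace.2 ⟨C, D, fun j => ?_⟩
        rw [← restrictE_zpow_coe T p h h' j y]
        exact hCD j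
      by_cases hs : s' = s
      · subst hs; rw [pr_of_mem T hy']; exact y.2
      · rw [pr_of_mem_ne T hs hy']; exact p.zero_mem
    · rw [Submodule.coe_zero, map_zero]; exact p.zero_mem
    · intro x y hx hy
      rw [Submodule.coe_add, map_add]
      exact p.add_mem hx hy
  exact h2 _ h1

omit [FiniteDimensional ℝ V] in
theorem mem_growSpace_zero_of_fixed {v : V} (h : T v = v) : v ∈ growSpace T 0 := by
  have h1 := grows_of_sub (T := T) (w := v) (μ := (1 : ℝ)) one_ne_zero (by
    rw [h, one_smul, sub_self]; exact Submodule.zero_mem _)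
  simpa using h1

theorem eq_zero_of_mem_ne {s s' : ℝ} (hss : s ≠ s') {v : V} (hv : v ∈ growSpace T s)
    (hv' : v ∈ growSpace T s') : v = 0 := by
  rw [← pr_of_mem T hv, pr_of_mem_ne T hss.symm hv']

/-- cohomological equation, linear version (Fitting) -/
theorem exists_solve {p : Submodule ℝ V} (h : ∀ x ∈ p, T x ∈ p) {x : V} (hx : x ∈ p) :
    ∃ y ∈ p, ∃ z ∈ p, y ∈ growSpace T 0 ∧ x = y + (T z - z) := by
  let f : Module.End ℝ p := ((T : V →ₗ[ℝ] V).restrict h) - 1
  have hf : ∀ y : p, ((f y : p) : V) = T y - y := fun y => rfl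
  obtain ⟨n, hn⟩ := (LinearMap.eventually_isCompl_ker_pow_range_pow f).exists_forall_of_atTop
  have hc := hn (n + 1) (by omega)
  obtain ⟨y, hy, w, hw, hyw⟩ := Submodule.mem_sup.1
    (show (⟨x, hx⟩ : p) ∈ LinearMap.ker (f ^ (n + 1)) ⊔ LinearMap.range (f ^ (n + 1)) by
      rw [hc.sup_eq_top]; trivial)
  obtain ⟨z, hz⟩ := hw
  refine ⟨y, y.2, ((f ^ n) z : p), Submodule.coe_mem _, ?_, ?_⟩
  · have h1 : ∀ (m : ℕ) (y : p), (((f ^ m) y : p) : V) =
        (((T : V →ₗ[ℝ] V) - (1 : ℝ) • (1 : End ℝ V)) ^ m) (y : V) := by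
      intro m
      induction m with
      | zero => intro y; rfl
      | succ m ih =>
        intro y
        rw [pow_succ, pow_succ, Module.End.mul_apply, Module.End.mul_apply, ih, hf]
        simp
    have h2 := mem_growSpace_of_pow (T := T) (μ := (1 : ℝ)) one_ne_zero (n + 1) (y : V) (by
      rw [← h1, LinearMap.mem_ker.1 hy]; rfl)
    simpa using h2
  · have h3 := congrArg (Subtype.val) hyw
    rw [← hz, pow_succ', Module.End.mul_apply] at h3
    rw [← hf]
    exact h3.symm

/-- uniqueness in the cohomological equation -/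
theorem mem_sup_of_sub_mem {p p' : Submodule ℝ V} (hp : ∀ x ∈ p, T x ∈ p)
    (hps : ∀ x ∈ p, T.symm x ∈ p) (hp' : ∀ x ∈ p', T x ∈ p') (hps' : ∀ x ∈ p', T.symm x ∈ p')
    {x : V} (hx : x ∈ p) {a b : V} (ha : a ∈ growSpace T 0) (hb : b ∈ p') (h : T x - x = a + b) :
    ∃ y ∈ p, ∃ z ∈ p', y ∈ growSpace T 0 ∧ x = y + z := by
  classical
  refine ⟨pr T 0 x, pr_mem_of_invariant T hp hps 0 hx, x - pr T 0 x, ?_, pr_mem T 0 x, by abel⟩
  -- each component of nonzero rate is in `p'`
  have hcomp : ∀ s, s ≠ 0 → pr T s x ∈ p' := by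
    intro s hs
    have hTpr : ∀ v, pr T s (T v) = T (pr T s v) := by
      intro v
      conv_lhs => rw [← sum_pr T v]
      rw [map_sum, map_sum]
      by_cases hsr : s ∈ rates T
      · rw [Finset.sum_eq_single s]
        · exact pr_of_mem T (growSpace_map T s (pr_mem T s v))
        · intro s' _ hs'
          exact pr_of_mem_ne T hs' (growSpace_map T s' (pr_mem T s' v))
        · intro h; exact absurd hsr h
      · have h0 : ∀ v, pr T s v = 0 := by
          intro v
          have := pr_mem T s v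
          rwa [growSpace_eq_bot hsr, Submodule.mem_bot] at this
        simp only [h0, map_zero, Finset.sum_const_zero]
    have h1 : T (pr T s x) - pr T s x = pr T s b := by
      have h2 := congrArg (pr T s) h
      rw [map_sub, map_add, hTpr, pr_of_mem_ne T hs.symm ha, zero_add] at h2
      exact h2
    -- `T - 1` is bijective on `growSpace T s ⊓ p'`
    let q : Submodule ℝ V := growSpace T s ⊓ p'
    have hq : ∀ y ∈ q, T y ∈ q := fun y hy => ⟨growSpace_map T s hy.1, hp' y hy.2⟩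
    let f : q →ₗ[ℝ] q := ((T : V →ₗ[ℝ] V).restrict hq) - 1
    have hfv : ∀ y : q, ((f y : q) : V) = T y - y := fun y => rfl
    have hinj : Function.Injective f := by
      rw [← LinearMap.ker_eq_bot, LinearMap.ker_eq_bot']
      intro y hy
      have h3 : T (y : V) = y := by
        have := congrArg Subtype.val hy
        rw [hfv] at this
        exact sub_eq_zero.1 this
      apply Subtype.ext
      exact eq_zero_of_mem_ne T hs y.2.1 (mem_growSpace_zero_of_fixed T h3)
    obtain ⟨y, hy⟩ := (LinearMap.injective_iff_surjective.1 hinj)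
      ⟨pr T s b, pr_mem T s b, pr_mem_of_invariant T hp' hps' s hb⟩
    have h4 : T (y : V) - y = pr T s b := by
      have := congrArg Subtype.val hy
      rwa [hfv] at this
    have h5 : pr T s x = y := by
      have h6 : T (pr T s x - y) = pr T s x - y := by
        rw [map_sub]
        have : T (pr T s x) - T (y : V) - (pr T s x - y) = 0 := by
          have : T (pr T s x) - T (y : V) - (pr T s x - y) =
            (T (pr T s x) - pr T s x) - (T (y : V) - y) := by abel
          rw [this, h1, h4, sub_self]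
        exact sub_eq_zero.1 this
      exact sub_eq_zero.1 (eq_zero_of_mem_ne T hs
        (Submodule.sub_mem _ (pr_mem T s x) y.2.1) (mem_growSpace_zero_of_fixed T h6))
    rw [h5]; exact y.2.2
  have h7 : x - pr T 0 x = ∑ s ∈ (rates T).erase 0, pr T s x := by
    by_cases h0 : (0 : ℝ) ∈ rates T
    · have h8 := Finset.add_sum_erase (rates T) (fun s => pr T s x) h0
      rw [sum_pr] at h8
      rw [sub_eq_iff_eq_add, add_comm]
      exact h8.symm
    · have h8 : pr T 0 x = 0 := by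
        have := pr_mem T 0 x
        rwa [growSpace_eq_bot h0, Submodule.mem_bot] at this
      rw [Finset.erase_eq_of_notMem h0, sum_pr, h8, sub_zero]
  rw [h7]
  exact Submodule.sum_mem _ fun s hs => hcomp s (Finset.ne_of_mem_erase hs)

end pr

end Crest.Agent.R182.ModelWt
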