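/-
R182, module MODEL (M3 + M4): weight spaces of the Lie algebra `𝔫`, the Cartan-type subgroup `C`
with `G1 = N_ℝ · C`.
-/
import Mathlib
import Crest.Agent.R182.ModelWtLin
import Crest.Agent.R182.ModelBCH
import Crest.Agent.R182.ModelGroup

set_option autoImplicit false
set_option linter.unusedSectionVars false

namespace Crest.Agent.R182.ModelWt

open Module LinMod Polyc Model

section mat

attribute [local instance] Matrix.linftyOpNormedRing Matrix.linftyOpNormedAlgebra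

variable {n : ℕ}

/-- conjugation on matrices -/
noncomputable def cj (g : (Matrix (Fin n) (Fin n) ℝ)ˣ) :
    Matrix (Fin n) (Fin n) ℝ ≃ₗ[ℝ] Matrix (Fin n) (Fin n) ℝ where
  toFun X := (g : Matrix (Fin n) (Fin n) ℝ) * X *
    ((g⁻¹ : (Matrix (Fin n) (Fin n) ℝ)ˣ) : Matrix (Fin n) (Fin n) ℝ)
  invFun X := ((g⁻¹ : (Matrix (Fin n) (Fin n) ℝ)ˣ) : Matrix (Fin n) (Fin n) ℝ) * X *
    (g : Matrix (Fin n) (Fin n) ℝ)
  map_add' X Y := by rw [mul_add, add_mul]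
  map_smul' c X := by rw [mul_smul_comm, smul_mul_assoc]; rfl
  left_inv X := by
    simp only [← mul_assoc]
    rw [Units.inv_mul, one_mul, mul_assoc, Units.inv_mul, mul_one]
  right_inv X := by
    simp only [← mul_assoc]
    rw [Units.mul_inv, one_mul, mul_assoc, Units.mul_inv, mul_one]

theorem cj_apply (g : (Matrix (Fin n) (Fin n) ℝ)ˣ) (X : Matrix (Fin n) (Fin n) ℝ) :
    cj g X = (g : Matrix (Fin n) (Fin n) ℝ) * X *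
      ((g⁻¹ : (Matrix (Fin n) (Fin n) ℝ)ˣ) : Matrix (Fin n) (Fin n) ℝ) := rfl

theorem cj_symm_apply (g : (Matrix (Fin n) (Fin n) ℝ)ˣ) (X : Matrix (Fin n) (Fin n) ℝ) :
    (cj g).symm X = cj g⁻¹ X := by
  rw [cj_apply, inv_inv]; rfl

/-- conjugation as a homomorphism -/
noncomputable def cjHom : (Matrix (Fin n) (Fin n) ℝ)ˣ →*
    (Matrix (Fin n) (Fin n) ℝ ≃ₗ[ℝ] Matrix (Fin n) (Fin n) ℝ) where
  toFun := cj
  map_one' := by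
    apply LinearEquiv.ext
    intro X
    rw [cj_apply, inv_one, Units.val_one, one_mul, mul_one]; rfl
  map_mul' g h := by
    apply LinearEquiv.ext
    intro X
    rw [LinearEquiv.mul_apply, cj_apply, cj_apply, cj_apply, mul_inv_rev, Units.val_mul,
      Units.val_mul]
    simp only [mul_assoc]

theorem cj_mul (g h : (Matrix (Fin n) (Fin n) ℝ)ˣ) (X : Matrix (Fin n) (Fin n) ℝ) :
    cj (g * h) X = cj g (cj h X) := by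
  have := congrArg (fun f => f X) (cjHom.map_mul g h)
  exact this

theorem cj_one (X : Matrix (Fin n) (Fin n) ℝ) :
    cj (1 : (Matrix (Fin n) (Fin n) ℝ)ˣ) X = X := by
  have := congrArg (fun f => f X) (cjHom (n := n)).map_one
  exact this

theorem cj_inv_cj (g : (Matrix (Fin n) (Fin n) ℝ)ˣ) (X : Matrix (Fin n) (Fin n) ℝ) :
    cj g⁻¹ (cj g X) = X := by
  rw [← cj_mul, inv_mul_cancel, cj_one]

theorem cj_cj_inv (g : (Matrix (Fin n) (Fin n) ℝ)ˣ) (X : Matrix (Fin n) (Fin n) ℝ) :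
    cj g (cj g⁻¹ X) = X := by
  rw [← cj_mul, mul_inv_cancel, cj_one]

theorem cj_zpow (g : (Matrix (Fin n) (Fin n) ℝ)ˣ) (j : ℤ) : cj (g ^ j) = (cj g) ^ j :=
  map_zpow cjHom g j

theorem cj_matmul (g : (Matrix (Fin n) (Fin n) ℝ)ˣ) (X Y : Matrix (Fin n) (Fin n) ℝ) :
    cj g (X * Y) = cj g X * cj g Y := by
  rw [cj_apply, cj_apply, cj_apply]
  calc (g : Matrix (Fin n) (Fin n) ℝ) * (X * Y) *
      ((g⁻¹ : (Matrix (Fin n) (Fin n) ℝ)ˣ) : Matrix (Fin n) (Fin n) ℝ) =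
      (g : Matrix (Fin n) (Fin n) ℝ) * X * 1 * Y *
      ((g⁻¹ : (Matrix (Fin n) (Fin n) ℝ)ˣ) : Matrix (Fin n) (Fin n) ℝ) := by
        rw [mul_one]; simp only [mul_assoc]
    _ = _ := by
        rw [← Units.inv_mul g]; simp only [mul_assoc]

theorem cj_bracket (g : (Matrix (Fin n) (Fin n) ℝ)ˣ) (X Y : Matrix (Fin n) (Fin n) ℝ) :
    cj g (X * Y - Y * X) = cj g X * cj g Y - cj g Y * cj g X := by
  rw [map_sub, cj_matmul, cj_matmul]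

theorem cj_ex (g : (Matrix (Fin n) (Fin n) ℝ)ˣ) (X : Matrix (Fin n) (Fin n) ℝ) :
    cj g (ex X) = ex (cj g X) := (ex_conj g.mul_inv g.inv_mul).symm

theorem cj_matone (g : (Matrix (Fin n) (Fin n) ℝ)ˣ) :
    cj g (1 : Matrix (Fin n) (Fin n) ℝ) = 1 := by
  rw [cj_apply, mul_one, Units.mul_inv]

/-- the space of matrices of growth rate `s` under conjugation by `t` -/
noncomputable def gm (t : (Matrix (Fin n) (Fin n) ℝ)ˣ) (s : ℝ) :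
    Submodule ℝ (Matrix (Fin n) (Fin n) ℝ) := growSpace (cj t) s

theorem mul_mem_gm {t : (Matrix (Fin n) (Fin n) ℝ)ˣ} {s s' : ℝ}
    {X Y : Matrix (Fin n) (Fin n) ℝ} (hX : X ∈ gm t s) (hY : Y ∈ gm t s') :
    X * Y ∈ gm t (s + s') :=
  bilin_mem_growSpace (T := cj t) (T' := cj t) (T'' := cj t) (fun X Y => X * Y) 1
    (fun X Y => by rw [one_mul]; exact norm_mul_le X Y) (fun X Y => cj_matmul t X Y) hX hY

theorem one_mem_gm (t : (Matrix (Fin n) (Fin n) ℝ)ˣ) :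
    (1 : Matrix (Fin n) (Fin n) ℝ) ∈ gm t 0 :=
  mem_growSpace_zero_of_fixed (cj t) (cj_matone t)

theorem pow_mem_gm {t : (Matrix (Fin n) (Fin n) ℝ)ˣ} {X : Matrix (Fin n) (Fin n) ℝ}
    (hX : X ∈ gm t 0) (k : ℕ) : X ^ k ∈ gm t 0 := by
  induction k with
  | zero => rw [pow_zero]; exact one_mem_gm t
  | succ k ih =>
    rw [pow_succ]
    have := mul_mem_gm ih hX
    rwa [add_zero] at this

theorem ex_mem_gm {t : (Matrix (Fin n) (Fin n) ℝ)ˣ} {X : Matrix (Fin n) (Fin n) ℝ}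
    (hX : X ∈ gm t 0) : ex X ∈ gm t 0 :=
  Submodule.sum_mem _ fun k _ => Submodule.smul_mem _ _ (pow_mem_gm hX k)

theorem lg_mem_gm {t : (Matrix (Fin n) (Fin n) ℝ)ˣ} {g : Matrix (Fin n) (Fin n) ℝ}
    (hg : g ∈ gm t 0) : lg g ∈ gm t 0 :=
  Submodule.sum_mem _ fun k _ => Submodule.smul_mem _ _
    (pow_mem_gm (Submodule.sub_mem _ hg (one_mem_gm t)) k)

theorem cj_mem_gm {t : (Matrix (Fin n) (Fin n) ℝ)ˣ} {s : ℝ} {X : Matrix (Fin n) (Fin n) ℝ}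
    (hX : X ∈ gm t s) : cj t X ∈ gm t s := growSpace_map (cj t) s hX

theorem cj_inv_mem_gm {t : (Matrix (Fin n) (Fin n) ℝ)ˣ} {s : ℝ} {X : Matrix (Fin n) (Fin n) ℝ}
    (hX : X ∈ gm t s) : cj t⁻¹ X ∈ gm t s := by
  rw [← cj_symm_apply]
  exact growSpace_map_symm (cj t) s hX

/-- conjugating the base point -/
theorem cj_mem_gm_conj {t g : (Matrix (Fin n) (Fin n) ℝ)ˣ} {s : ℝ}
    {X : Matrix (Fin n) (Fin n) ℝ} (hX : X ∈ gm t s) : cj g X ∈ gm (g * t * g⁻¹) s := by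
  have h : ∀ Y, cj (g * t * g⁻¹) ((cj g).toLinearMap Y) = (cj g).toLinearMap (cj t Y) := by
    intro Y
    rw [LinearEquiv.coe_coe, cj_mul, cj_mul, cj_inv_cj]
  exact map_mem_growSpace (T := cj t) (T' := cj (g * t * g⁻¹)) (cj g).toLinearMap h hX

end mat

section lie

attribute [local instance] Matrix.linftyOpNormedRing Matrix.linftyOpNormedAlgebra

variable {Γ : Type*} [Group Γ] {N : Subgroup Γ} [hN : N.Normal] (D : EmbData Γ N)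

theorem cj_mem_lie {g : (Matrix (Fin D.n) (Fin D.n) ℝ)ˣ} (hg : g ∈ G1 D)
    {X : Matrix (Fin D.n) (Fin D.n) ℝ} (hX : X ∈ lie D) : cj g X ∈ lie D :=
  conj_mem_lie D (fun _ hu => conj_NR hg hu) hX

theorem cj_mem_lcs {g : (Matrix (Fin D.n) (Fin D.n) ℝ)ˣ} (hg : g ∈ G1 D) (k : ℕ)
    {X : Matrix (Fin D.n) (Fin D.n) ℝ} (hX : X ∈ lcs D k) : cj g X ∈ lcs D k := by
  induction k generalizing X with
  | zero => exact cj_mem_lie D hg hX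
  | succ k ih =>
    have h1 : lcs D (k + 1) ≤ (lcs D (k + 1)).comap (cj g).toLinearMap := by
      refine Submodule.span_le.2 ?_
      rintro _ ⟨X, hX, Y, hY, rfl⟩
      change cj g (X * Y - Y * X) ∈ lcs D (k + 1)
      rw [cj_bracket]
      exact bracket_mem_lcs D (cj_mem_lie D hg hX) (ih hY)
    exact h1 hX

/-- `Ad` of `G1` on `𝔫` -/
noncomputable def adE : G1 D →* (lie D ≃ₗ[ℝ] lie D) where
  toFun g :=
    { toFun := fun X => ⟨cj (g : (Matrix (Fin D.n) (Fin D.n) ℝ)ˣ) X, cj_mem_lie D g.2 X.2⟩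
      invFun := fun X => ⟨cj (g : (Matrix (Fin D.n) (Fin D.n) ℝ)ˣ)⁻¹ X,
        cj_mem_lie D ((G1 D).inv_mem g.2) X.2⟩
      map_add' := fun X Y => Subtype.ext (map_add _ _ _)
      map_smul' := fun c X => Subtype.ext (map_smul _ _ _)
      left_inv := fun X => Subtype.ext (cj_inv_cj _ _)
      right_inv := fun X => Subtype.ext (cj_cj_inv _ _) }
  map_one' := by
    apply LinearEquiv.ext
    intro X
    exact Subtype.ext (cj_one _)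
  map_mul' g h := by
    apply LinearEquiv.ext
    intro X
    exact Subtype.ext (cj_mul _ _ _)

theorem coe_adE (g : G1 D) (X : lie D) : ((adE D g X : lie D) : Matrix (Fin D.n) (Fin D.n) ℝ) =
    cj (g : (Matrix (Fin D.n) (Fin D.n) ℝ)ˣ) X := rfl

/-- the growth spaces in `𝔫` -/
noncomputable def gs (t : (Matrix (Fin D.n) (Fin D.n) ℝ)ˣ) (s : ℝ) :
    Submodule ℝ (Matrix (Fin D.n) (Fin D.n) ℝ) := lie D ⊓ gm t s

theorem coe_mem_gm_iff (t : G1 D) (s : ℝ) (X : lie D) :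
    (X : Matrix (Fin D.n) (Fin D.n) ℝ) ∈ gm (t : (Matrix (Fin D.n) (Fin D.n) ℝ)ˣ) s ↔
      X ∈ growSpace (adE D t) s := by
  have h1 : ∀ j : ℤ, (((adE D t) ^ j) X : Matrix (Fin D.n) (Fin D.n) ℝ) =
      ((cj (t : (Matrix (Fin D.n) (Fin D.n) ℝ)ˣ)) ^ j) X := by
    intro j
    rw [← map_zpow, coe_adE, Subgroup.coe_zpow, cj_zpow]
  constructor
  · intro h
    obtain ⟨C, E, hCE⟩ := mem_growSpace.1 h
    refine mem_growSpace.2 ⟨C, E, fun j => ?_⟩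
    have := hCE j
    rw [← h1] at this
    exact this
  · intro h
    obtain ⟨C, E, hCE⟩ := mem_growSpace.1 h
    refine mem_growSpace.2 ⟨C, E, fun j => ?_⟩
    rw [← h1]
    exact hCE j

theorem gs_eq_map (t : G1 D) (s : ℝ) : gs D (t : (Matrix (Fin D.n) (Fin D.n) ℝ)ˣ) s =
    (growSpace (adE D t) s).map (lie D).subtype := by
  ext X
  constructor
  · rintro ⟨h1, h2⟩
    exact ⟨⟨X, h1⟩, (coe_mem_gm_iff D t s ⟨X, h1⟩).1 h2, rfl⟩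
  · rintro ⟨Y, hY, rfl⟩
    exact ⟨Y.2, (coe_mem_gm_iff D t s Y).2 hY⟩

theorem gs_le (t : (Matrix (Fin D.n) (Fin D.n) ℝ)ˣ) (s : ℝ) : gs D t s ≤ lie D := inf_le_left

theorem bracket_mem_gs {t : (Matrix (Fin D.n) (Fin D.n) ℝ)ˣ} {s s' : ℝ}
    {X Y : Matrix (Fin D.n) (Fin D.n) ℝ} (hX : X ∈ gs D t s) (hY : Y ∈ gs D t s') :
    X * Y - Y * X ∈ gs D t (s + s') := by
  refine ⟨bracket_mem D hX.1 hY.1, Submodule.sub_mem _ (mul_mem_gm hX.2 hY.2) ?_⟩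
  rw [add_comm]
  exact mul_mem_gm hY.2 hX.2

theorem isSub_gs_zero (t : (Matrix (Fin D.n) (Fin D.n) ℝ)ˣ) : IsSub D (gs D t 0) where
  le := gs_le D t 0
  br X hX Y hY := by
    have := bracket_mem_gs D hX hY
    rwa [add_zero] at this

/-- `exp` of the zero growth space -/
noncomputable def E0 (t : (Matrix (Fin D.n) (Fin D.n) ℝ)ˣ) :
    Subgroup (Matrix (Fin D.n) (Fin D.n) ℝ)ˣ := expG (isSub_gs_zero D t)

variable {D}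

theorem mem_E0 {t g : (Matrix (Fin D.n) (Fin D.n) ℝ)ˣ} : g ∈ E0 D t ↔ g ∈ D.NR ∧
    lg (g : Matrix (Fin D.n) (Fin D.n) ℝ) ∈ gs D t 0 := Iff.rfl

theorem E0_le {t g : (Matrix (Fin D.n) (Fin D.n) ℝ)ˣ} (h : g ∈ E0 D t) : g ∈ D.NR := h.1

theorem mem_E0_iff {t g : (Matrix (Fin D.n) (Fin D.n) ℝ)ˣ} : g ∈ E0 D t ↔ g ∈ D.NR ∧
    (g : Matrix (Fin D.n) (Fin D.n) ℝ) ∈ gm t 0 := by
  constructor
  · rintro ⟨h1, h2⟩
    refine ⟨h1, ?_⟩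
    rw [← ex_lg (D.unip_NR h1)]
    exact ex_mem_gm h2.2
  · rintro ⟨h1, h2⟩
    exact ⟨h1, lg_mem_lie D h1, lg_mem_gm h2⟩

/-- elements of `E0` preserve the growth spaces -/
theorem cj_mem_gs_of_E0 {t u : (Matrix (Fin D.n) (Fin D.n) ℝ)ˣ} (hu : u ∈ E0 D t) {s : ℝ}
    {X : Matrix (Fin D.n) (Fin D.n) ℝ} (hX : X ∈ gs D t s) : cj u X ∈ gs D t s := by
  refine ⟨cj_mem_lie D (NR_le D hu.1) hX.1, ?_⟩
  have h1 := (mem_E0_iff.1 hu).2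
  have h2 := (mem_E0_iff.1 ((E0 D t).inv_mem hu)).2
  have h3 := mul_mem_gm (mul_mem_gm h1 hX.2) h2
  rwa [zero_add, add_zero] at h3

/-- `t` normalises `E0` -/
theorem conj_mem_E0 {t u : (Matrix (Fin D.n) (Fin D.n) ℝ)ˣ} (ht : t ∈ G1 D) (hu : u ∈ E0 D t) :
    t * u * t⁻¹ ∈ E0 D t := by
  rw [mem_E0_iff] at hu ⊢
  refine ⟨conj_NR ht hu.1, ?_⟩
  rw [Units.val_mul, Units.val_mul]
  exact cj_mem_gm hu.2

/-! ### the cohomological equation -/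

theorem isSub_lcs (k : ℕ) : IsSub D (lcs D k) where
  le := lcs_le_lie D k
  br _ hX _ hY := lcs_succ_le D k (bracket_mem_lcs D (lcs_le_lie D k hX) hY)

/-- `N_ℝ` acts trivially on the quotients of the lower central series -/
theorem cj_sub_mem_lcs {u : (Matrix (Fin D.n) (Fin D.n) ℝ)ˣ} (hu : u ∈ D.NR) {k : ℕ}
    {Z : Matrix (Fin D.n) (Fin D.n) ℝ} (hZ : Z ∈ lcs D k) : cj u Z - Z ∈ lcs D (k + 1) := by
  set X := lg (u : Matrix (Fin D.n) (Fin D.n) ℝ) with hX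
  have hXl : X ∈ lie D := lg_mem_lie D hu
  have hXn := lie_pow_zero D hXl
  have hXn' : (-X) ^ D.n = 0 := by rw [neg_pow, hXn, mul_zero]
  let f : ℝ → Matrix (Fin D.n) (Fin D.n) ℝ := fun s =>
    cj (exU (s • X) (smul_pow_zero hXn s)) Z
  have hf : ∀ s, f s = ex (s • X) * Z * ex (s • (-X)) := by
    intro s
    change ex (s • X) * Z * ex (-(s • X)) = _
    rw [smul_neg]
  have hmem : ∀ s, f s ∈ lcs D k := fun s =>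
    cj_mem_lcs D (NR_le D (exU_mem_of_lie D ((lie D).smul_mem s hXl))) k hZ
  have hder : ∀ s, HDM f (X * f s - f s * X) s := by
    intro s
    have h1 : HDM (fun s => ex (s • X) * Z * ex (s • (-X)))
        (X * ex (s • X) * Z * ex (s • (-X)) +
          ex (s • X) * Z * (-X * ex (s • (-X)))) s :=
      ((hdm_ex_smul hXn s).mul_const Z).mul (hdm_ex_smul hXn' s)
    refine (h1.congr hf).congr_deriv ?_
    have hc : Commute X (ex (s • (-X))) :=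
      commute_ex (((Commute.refl X).neg_right).smul_right s)
    rw [hf, neg_mul, hc.eq]
    noncomm_ring
  have h1 := mem_of_deriv_mem (L := lcs D (k + 1)) (f := fun s => f s - Z)
    (f' := fun s => (X * f s - f s * X) - 0) (fun s => (hder s).sub (HDM.const Z s))
    (by
      simp only [hf, zero_smul, ex_zero, one_mul, mul_one, sub_self]
      exact Submodule.zero_mem _)
    (fun s => by rw [sub_zero]; exact bracket_mem_lcs D hXl (hmem s)) 1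
  have h2 : f 1 = cj u Z := by
    change cj (exU ((1 : ℝ) • X) (smul_pow_zero hXn 1)) Z = cj u Z
    rw [exU_congr (smul_pow_zero hXn 1) hXn (one_smul ℝ X)]
    congr 1
    exact congrArg cj (exU_lg D hu)
  rw [← h2]
  exact h1

/-- `g ≡ exp X` modulo the next term of the lower central series -/
structure Q (k : ℕ) (g : (Matrix (Fin D.n) (Fin D.n) ℝ)ˣ) (X : Matrix (Fin D.n) (Fin D.n) ℝ) :
    Prop where
  mem : g ∈ D.NR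
  lg_mem : lg (g : Matrix (Fin D.n) (Fin D.n) ℝ) ∈ lcs D k
  congr : lg (g : Matrix (Fin D.n) (Fin D.n) ℝ) - X ∈ lcs D (k + 1)

theorem Q.mul {k : ℕ} {g h : (Matrix (Fin D.n) (Fin D.n) ℝ)ˣ}
    {X Y : Matrix (Fin D.n) (Fin D.n) ℝ} (hg : Q k g X) (hh : Q k h Y) :
    Q k (g * h) (X + Y) := by
  have h1 := (isSub_lcs (D := D) k).lg_mul (lcs_succ_le D k)
    (fun X hX Y hY => bracket_mem_lcs D (lcs_le_lie D k hX) hY) hg.lg_mem hh.lg_mem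
  rw [ex_lg (D.unip_NR hg.mem), ex_lg (D.unip_NR hh.mem), ← Units.val_mul] at h1
  refine ⟨D.NR.mul_mem hg.mem hh.mem, ?_, ?_⟩
  · have h2 : lg ((g * h : (Matrix (Fin D.n) (Fin D.n) ℝ)ˣ) : Matrix (Fin D.n) (Fin D.n) ℝ) =
        (lg ((g * h : (Matrix (Fin D.n) (Fin D.n) ℝ)ˣ) : Matrix (Fin D.n) (Fin D.n) ℝ) -
          (lg (g : Matrix (Fin D.n) (Fin D.n) ℝ) + lg (h : Matrix (Fin D.n) (Fin D.n) ℝ))) +
        (lg (g : Matrix (Fin D.n) (Fin D.n) ℝ) + lg (h : Matrix (Fin D.n) (Fin D.n) ℝ)) := by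
      abel
    rw [h2]
    exact Submodule.add_mem _ (lcs_succ_le D k h1) (Submodule.add_mem _ hg.lg_mem hh.lg_mem)
  · have h2 : lg ((g * h : (Matrix (Fin D.n) (Fin D.n) ℝ)ˣ) : Matrix (Fin D.n) (Fin D.n) ℝ) -
        (X + Y) =
        (lg ((g * h : (Matrix (Fin D.n) (Fin D.n) ℝ)ˣ) : Matrix (Fin D.n) (Fin D.n) ℝ) -
          (lg (g : Matrix (Fin D.n) (Fin D.n) ℝ) + lg (h : Matrix (Fin D.n) (Fin D.n) ℝ))) +
        ((lg (g : Matrix (Fin D.n) (Fin D.n) ℝ) - X) +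
          (lg (h : Matrix (Fin D.n) (Fin D.n) ℝ) - Y)) := by
      abel
    rw [h2]
    exact Submodule.add_mem _ h1 (Submodule.add_mem _ hg.congr hh.congr)

theorem Q.of_mem {k : ℕ} {g : (Matrix (Fin D.n) (Fin D.n) ℝ)ˣ} (hg : g ∈ D.NR)
    (h : lg (g : Matrix (Fin D.n) (Fin D.n) ℝ) ∈ lcs D k) :
    Q k g (lg (g : Matrix (Fin D.n) (Fin D.n) ℝ)) :=
  ⟨hg, h, by rw [sub_self]; exact Submodule.zero_mem _⟩

/-- `exp` as a unit of an element of `𝔫` -/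
noncomputable def eU (X : Matrix (Fin D.n) (Fin D.n) ℝ) (hX : X ∈ lie D) :
    (Matrix (Fin D.n) (Fin D.n) ℝ)ˣ := exU X (lie_pow_zero D hX)

theorem eU_mem {X : Matrix (Fin D.n) (Fin D.n) ℝ} (hX : X ∈ lie D) : eU X hX ∈ D.NR :=
  exU_mem_of_lie D hX

theorem coe_eU {X : Matrix (Fin D.n) (Fin D.n) ℝ} (hX : X ∈ lie D) :
    ((eU X hX : (Matrix (Fin D.n) (Fin D.n) ℝ)ˣ) : Matrix (Fin D.n) (Fin D.n) ℝ) = ex X := rfl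

theorem lg_eU {X : Matrix (Fin D.n) (Fin D.n) ℝ} (hX : X ∈ lie D) :
    lg ((eU X hX : (Matrix (Fin D.n) (Fin D.n) ℝ)ˣ) : Matrix (Fin D.n) (Fin D.n) ℝ) = X :=
  lg_ex (lie_pow_zero D hX)

theorem eU_neg {X : Matrix (Fin D.n) (Fin D.n) ℝ} (hX : X ∈ lie D) :
    eU (-X) ((lie D).neg_mem hX) = (eU X hX)⁻¹ := Units.ext rfl

theorem eU_lg {g : (Matrix (Fin D.n) (Fin D.n) ℝ)ˣ} (hg : g ∈ D.NR) :
    eU (lg (g : Matrix (Fin D.n) (Fin D.n) ℝ)) (lg_mem_lie D hg) = g := exU_lg D hg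

theorem conj_eU {g : (Matrix (Fin D.n) (Fin D.n) ℝ)ˣ} (hg : g ∈ G1 D)
    {X : Matrix (Fin D.n) (Fin D.n) ℝ} (hX : X ∈ lie D) :
    g * eU X hX * g⁻¹ = eU (cj g X) (cj_mem_lie D hg hX) := by
  apply Units.ext
  rw [Units.val_mul, Units.val_mul, coe_eU, coe_eU, ← cj_ex]; rfl

theorem eq_one_of_lg {g : (Matrix (Fin D.n) (Fin D.n) ℝ)ˣ} (hg : g ∈ D.NR)
    (h : lg (g : Matrix (Fin D.n) (Fin D.n) ℝ) = 0) : g = 1 := by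
  rw [← eU_lg hg]
  apply Units.ext
  rw [coe_eU, h, ex_zero]; rfl

theorem Q.eU {k : ℕ} {X : Matrix (Fin D.n) (Fin D.n) ℝ} (hX : X ∈ lcs D k) :
    Q k (eU X (lcs_le_lie D k hX)) X := by
  have h1 := lg_eU (lcs_le_lie D k hX)
  exact ⟨eU_mem _, by rw [h1]; exact hX, by rw [h1, sub_self]; exact Submodule.zero_mem _⟩

theorem eU_mem_E0 {t : (Matrix (Fin D.n) (Fin D.n) ℝ)ˣ} {X : Matrix (Fin D.n) (Fin D.n) ℝ}
    (hX : X ∈ lie D) (h : X ∈ gm t 0) : ModelWt.eU X hX ∈ E0 D t :=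
  mem_E0.2 ⟨eU_mem hX, by rw [lg_eU]; exact ⟨hX, h⟩⟩

/-- **Cohomological equation**: every `n₁ ∈ N_ℝ` is `t`-twisted conjugate to an element of
`E0`. -/
theorem exists_coh {t n₁ : (Matrix (Fin D.n) (Fin D.n) ℝ)ˣ} (ht : t ∈ G1 D) (hn₁ : n₁ ∈ D.NR) :
    ∃ m ∈ D.NR, m * n₁ * (t * m⁻¹ * t⁻¹) ∈ E0 D t := by
  have key : ∀ k, ∃ m ∈ D.NR, ∃ u ∈ E0 D t, ∃ w ∈ D.NR,
      lg (w : Matrix (Fin D.n) (Fin D.n) ℝ) ∈ lcs D k ∧ m * n₁ * (t * m⁻¹ * t⁻¹) = u * w := by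
    intro k
    induction k with
    | zero =>
      refine ⟨1, D.NR.one_mem, 1, (E0 D t).one_mem, n₁, hn₁, lg_mem_lie D hn₁, ?_⟩
      group
    | succ k ih =>
      obtain ⟨m, hm, u, hu, w, hw, hwk, h⟩ := ih
      obtain ⟨y, hy, z, hz, hy0, hyz⟩ := exists_solve (cj t)
        (p := lcs D k) (fun x hx => cj_mem_lcs D ht k hx) hwk
      have hyl := lcs_le_lie D k hy
      have hzl := lcs_le_lie D k hz
      have hTz : cj t z ∈ lcs D k := cj_mem_lcs D ht k hz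
      have huG := NR_le D (E0_le hu)
      have huz : cj u⁻¹ z ∈ lcs D k := cj_mem_lcs D ((G1 D).inv_mem huG) k hz
      refine ⟨eU z hzl * m, D.NR.mul_mem (eU_mem hzl) hm, u * eU y hyl,
        (E0 D t).mul_mem hu (eU_mem_E0 hyl hy0),
        eU (-y) ((lie D).neg_mem hyl) * eU (cj u⁻¹ z) (lcs_le_lie D k huz) * w *
          eU (-(cj t z)) ((lie D).neg_mem (lcs_le_lie D k hTz)), ?_, ?_, ?_⟩
      · exact D.NR.mul_mem (D.NR.mul_mem (D.NR.mul_mem (eU_mem _) (eU_mem _)) hw) (eU_mem _)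
      · have q1 := Q.eU (k := k) ((lcs D k).neg_mem hy)
        have q2 := Q.eU (k := k) huz
        have q3 := Q.of_mem hw hwk
        have q4 := Q.eU (k := k) ((lcs D k).neg_mem hTz)
        have q := ((q1.mul q2).mul q3).mul q4
        have h1 := cj_sub_mem_lcs (D.NR.inv_mem (E0_le hu)) hz
        have h2 := Submodule.add_mem _ q.congr h1
        have h3 : lg ((eU (-y) ((lie D).neg_mem hyl) * eU (cj u⁻¹ z) (lcs_le_lie D k huz) * w *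
          eU (-(cj t z)) ((lie D).neg_mem (lcs_le_lie D k hTz)) :
            (Matrix (Fin D.n) (Fin D.n) ℝ)ˣ) : Matrix (Fin D.n) (Fin D.n) ℝ) =
          lg ((eU (-y) ((lie D).neg_mem hyl) * eU (cj u⁻¹ z) (lcs_le_lie D k huz) * w *
          eU (-(cj t z)) ((lie D).neg_mem (lcs_le_lie D k hTz)) :
            (Matrix (Fin D.n) (Fin D.n) ℝ)ˣ) : Matrix (Fin D.n) (Fin D.n) ℝ) -
            (-y + cj u⁻¹ z + lg (w : Matrix (Fin D.n) (Fin D.n) ℝ) + -(cj t z)) +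
            (cj u⁻¹ z - z) := by
          conv_rhs => rw [hyz]
          abel
        rw [h3]
        exact h2
      · rw [← conj_eU ((G1 D).inv_mem huG) hzl, eU_neg hyl, eU_neg (lcs_le_lie D k hTz),
          ← conj_eU ht hzl]
        calc eU z hzl * m * n₁ * (t * (eU z hzl * m)⁻¹ * t⁻¹) =
            eU z hzl * (m * n₁ * (t * m⁻¹ * t⁻¹)) * (t * (eU z hzl)⁻¹ * t⁻¹) := by group
          _ = eU z hzl * (u * w) * (t * (eU z hzl)⁻¹ * t⁻¹) := by rw [h]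
          _ = _ := by group
  obtain ⟨K, hK⟩ := exists_lcs_eq_bot D
  obtain ⟨m, hm, u, hu, w, hw, hwk, h⟩ := key K
  rw [hK, Submodule.mem_bot] at hwk
  rw [eq_one_of_lg hw hwk, mul_one] at h
  exact ⟨m, hm, by rw [h]; exact hu⟩

/-- Uniqueness: a twisted coboundary in `E0` comes from `E0`. -/
theorem mem_E0_of_coh {t g : (Matrix (Fin D.n) (Fin D.n) ℝ)ˣ} (ht : t ∈ G1 D) (hg : g ∈ D.NR)
    (h : g * (t * g * t⁻¹)⁻¹ ∈ E0 D t) : g ∈ E0 D t := by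
  have key : ∀ k, ∃ u ∈ E0 D t, ∃ w ∈ D.NR,
      lg (w : Matrix (Fin D.n) (Fin D.n) ℝ) ∈ lcs D k ∧ g = u * w := by
    intro k
    induction k with
    | zero => exact ⟨1, (E0 D t).one_mem, g, hg, lg_mem_lie D hg, by rw [one_mul]⟩
    | succ k ih =>
      obtain ⟨u, hu, w, hw, hwk, hguw⟩ := ih
      -- the twisted coboundary of `w` is in `E0`
      have hwE : w * (t * w * t⁻¹)⁻¹ ∈ E0 D t := by
        have h1 := (E0 D t).mul_mem ((E0 D t).mul_mem ((E0 D t).inv_mem hu) h)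
          (conj_mem_E0 ht hu)
        have e : u⁻¹ * (g * (t * g * t⁻¹)⁻¹) * (t * u * t⁻¹) = w * (t * w * t⁻¹)⁻¹ := by
          rw [hguw]; group
        rwa [e] at h1
      set Y := lg (w : Matrix (Fin D.n) (Fin D.n) ℝ) with hY
      have hYl := lcs_le_lie D k hwk
      have hTY : cj t Y ∈ lcs D k := cj_mem_lcs D ht k hwk
      have hwe : (t * w * t⁻¹)⁻¹ = eU (-(cj t Y)) ((lie D).neg_mem (lcs_le_lie D k hTY)) := by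
        rw [eU_neg (lcs_le_lie D k hTY), ← conj_eU ht hYl, eU_lg hw]
      have q := (Q.of_mem hw hwk).mul (Q.eU (k := k) ((lcs D k).neg_mem hTY))
      rw [← hwe] at q
      have ha : lg ((w * (t * w * t⁻¹)⁻¹ : (Matrix (Fin D.n) (Fin D.n) ℝ)ˣ) :
          Matrix (Fin D.n) (Fin D.n) ℝ) ∈ gs D t 0 := (mem_E0.1 hwE).2
      obtain ⟨y, hy, z, hz, hy0, hyz⟩ := mem_sup_of_sub_mem (cj t)
        (p := lcs D k) (p' := lcs D (k + 1)) (fun x hx => cj_mem_lcs D ht k hx)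
        (fun x hx => by rw [cj_symm_apply]; exact cj_mem_lcs D ((G1 D).inv_mem ht) k hx)
        (fun x hx => cj_mem_lcs D ht (k + 1) hx)
        (fun x hx => by rw [cj_symm_apply]; exact cj_mem_lcs D ((G1 D).inv_mem ht) (k + 1) hx)
        hwk ((growSpace (cj t) 0).neg_mem ha.2) q.congr (by abel)
      have hyl := lcs_le_lie D k hy
      refine ⟨u * eU y hyl, (E0 D t).mul_mem hu (eU_mem_E0 hyl hy0),
        eU (-y) ((lie D).neg_mem hyl) * w, D.NR.mul_mem (eU_mem _) hw, ?_, ?_⟩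
      · have q2 := (Q.eU (k := k) ((lcs D k).neg_mem hy)).mul (Q.of_mem hw hwk)
        have h2 := Submodule.add_mem _ q2.congr hz
        have h3 : lg ((eU (-y) ((lie D).neg_mem hyl) * w :
            (Matrix (Fin D.n) (Fin D.n) ℝ)ˣ) : Matrix (Fin D.n) (Fin D.n) ℝ) =
            lg ((eU (-y) ((lie D).neg_mem hyl) * w :
            (Matrix (Fin D.n) (Fin D.n) ℝ)ˣ) : Matrix (Fin D.n) (Fin D.n) ℝ) -
            (-y + lg (w : Matrix (Fin D.n) (Fin D.n) ℝ)) + z := by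
          rw [← hY, hyz]; abel
        rw [h3]
        exact h2
      · rw [hguw, eU_neg hyl]; group
  obtain ⟨K, hK⟩ := exists_lcs_eq_bot D
  obtain ⟨u, hu, w, hw, hwk, h⟩ := key K
  rw [hK, Submodule.mem_bot] at hwk
  rw [eq_one_of_lg hw hwk, mul_one] at h
  rw [h]; exact hu

theorem unip_ad {g : G1 D} (hg : g ∈ NR1 D) :
    ∃ d : ℕ, ((adE D g : lie D →ₗ[ℝ] lie D) - 1) ^ d = 0 := by
  obtain ⟨K, hK⟩ := exists_lcs_eq_bot D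
  refine ⟨K, ?_⟩
  have key : ∀ (k : ℕ) (X : lie D), ((((adE D g : lie D →ₗ[ℝ] lie D) - 1) ^ k) X :
      Matrix (Fin D.n) (Fin D.n) ℝ) ∈ lcs D k := by
    intro k
    induction k with
    | zero => intro X; exact X.2
    | succ k ih =>
      intro X
      rw [pow_succ', Module.End.mul_apply]
      exact cj_sub_mem_lcs hg (ih X)
  ext X : 1
  apply Subtype.ext
  have h1 := key K X
  rw [hK, Submodule.mem_bot] at h1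
  rw [h1]; rfl

end lie

/-! ### the weight spaces and the group `C` -/

section cartan

attribute [local instance] Matrix.linftyOpNormedRing Matrix.linftyOpNormedAlgebra

variable {Γ : Type*} [Group Γ] {N : Subgroup Γ} [hN : N.Normal]

/-- Weight data of the model: a generic element of `G1`. -/
structure Cartan (D : EmbData Γ N) {k : ℕ} (π₁ : G1 D →* Multiplicative (Fin k → ℤ)) where
  ker : ∀ g, π₁ g = 1 ↔ g ∈ NR1 D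
  W : WtData (adE D) π₁
  t : G1 D
  gen : W.Generic (hv π₁ t)

variable {D : EmbData Γ N} {k : ℕ} {π₁ : G1 D →* Multiplicative (Fin k → ℤ)}

theorem exists_cartan (hk : ∀ g, π₁ g = 1 ↔ g ∈ NR1 D)
    (hs : ∀ v : Fin k → ℤ, ∃ γ : Γ, Multiplicative.toAdd (π₁ (inΓ D γ)) = v) :
    ∃ 𝒞 : Cartan D π₁, ∃ γ : Γ, 𝒞.t = inΓ D γ := by
  have hsurj : Function.Surjective π₁ := by
    intro v
    obtain ⟨γ, hγ⟩ := hs (Multiplicative.toAdd v)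
    exact ⟨inΓ D γ, by rw [← ofAdd_toAdd (π₁ (inΓ D γ)), hγ, ofAdd_toAdd]⟩
  obtain ⟨W⟩ := exists_wtData (adE D) π₁ hsurj (fun g hg => unip_ad ((hk g).1 hg))
  obtain ⟨v, hvg⟩ := W.exists_generic
  obtain ⟨γ, hγ⟩ := hs v
  refine ⟨⟨hk, W, inΓ D γ, ?_⟩, γ, rfl⟩
  have : hv π₁ (inΓ D γ) = fun j => ((v j : ℤ) : ℝ) := by
    funext j
    rw [hv, hγ]
  rw [this]; exact hvg

namespace Cartan

variable (𝒞 : Cartan D π₁)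

include 𝒞 in
theorem unip {g : G1 D} (hg : π₁ g = 1) :
    ∃ d : ℕ, ((adE D g : lie D →ₗ[ℝ] lie D) - 1) ^ d = 0 := unip_ad ((𝒞.ker g).1 hg)

/-- the base point -/
noncomputable def tm : (Matrix (Fin D.n) (Fin D.n) ℝ)ˣ := (𝒞.t : (Matrix (Fin D.n) (Fin D.n) ℝ)ˣ)

theorem tm_mem : 𝒞.tm ∈ G1 D := 𝒞.t.2

theorem unique_wt (i : Fin 𝒞.W.n) :
    ∀ j, 𝒞.W.M j (hv π₁ 𝒞.t) = 𝒞.W.M i (hv π₁ 𝒞.t) → 𝒞.W.M j = 𝒞.W.M i := fun j h =>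
  𝒞.gen.1 j i h

/-- If `c` has the same height as the generic element and preserves its growth spaces, then it has
the same growth spaces. -/
theorem growSpace_eq {c : G1 D} (hc : hv π₁ c = hv π₁ 𝒞.t) {s : ℝ}
    (h1 : ∀ v ∈ growSpace (adE D 𝒞.t) s, adE D c v ∈ growSpace (adE D 𝒞.t) s)
    (h2 : ∀ v ∈ growSpace (adE D 𝒞.t) s, adE D c⁻¹ v ∈ growSpace (adE D 𝒞.t) s) :
    growSpace (adE D c) s = growSpace (adE D 𝒞.t) s := by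
  symm
  refine Submodule.eq_of_le_of_finrank_eq ?_ ?_
  · by_cases hs : s ∈ rates (adE D 𝒞.t)
    · obtain ⟨i, hi⟩ := (𝒞.W.mem_rates 𝒞.t s).1 hs
      intro v hv
      have h3 := 𝒞.W.mem_growSpace (t := 𝒞.t) (s := s) (μ := 𝒞.W.M i)
        (fun j hj => 𝒞.gen.1 j i (by rw [hj, hi])) (fun g hg => 𝒞.unip hg) h1 h2 hv
      rwa [hc, hi] at h3
    · rw [growSpace_eq_bot hs]; exact bot_le
  · rw [𝒞.W.finrank_growSpace, 𝒞.W.finrank_growSpace, hc]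

theorem gs_eq_of_E0 {c : G1 D} {u : (Matrix (Fin D.n) (Fin D.n) ℝ)ˣ} (hu : u ∈ E0 D 𝒞.tm)
    (hc : (c : (Matrix (Fin D.n) (Fin D.n) ℝ)ˣ) = u * 𝒞.tm) (s : ℝ) :
    gs D (c : (Matrix (Fin D.n) (Fin D.n) ℝ)ˣ) s = gs D 𝒞.tm s := by
  have hht : hv π₁ c = hv π₁ 𝒞.t := by
    have h1 : c = (⟨u, NR_le D hu.1⟩ : G1 D) * 𝒞.t := Subtype.ext hc
    rw [h1, hv_mul]
    have h2 : π₁ (⟨u, NR_le D hu.1⟩ : G1 D) = 1 := (𝒞.ker _).2 hu.1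
    have h3 : hv π₁ (⟨u, NR_le D hu.1⟩ : G1 D) = 0 := by
      funext j
      rw [hv, h2]; simp
    rw [h3, zero_add]
  have htt : gs D 𝒞.tm s = (growSpace (adE D 𝒞.t) s).map (lie D).subtype := gs_eq_map D 𝒞.t s
  rw [htt, gs_eq_map D c s]
  congr 1
  have key : ∀ x : G1 D, (∀ X ∈ gs D 𝒞.tm s,
      cj (x : (Matrix (Fin D.n) (Fin D.n) ℝ)ˣ) X ∈ gs D 𝒞.tm s) →
      ∀ v ∈ growSpace (adE D 𝒞.t) s, adE D x v ∈ growSpace (adE D 𝒞.t) s := by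
    intro x hx v hv
    rw [← coe_mem_gm_iff]
    exact (hx v ⟨v.2, (coe_mem_gm_iff D 𝒞.t s v).2 hv⟩).2
  refine 𝒞.growSpace_eq hht (key c ?_) (key c⁻¹ ?_)
  · intro X hX
    rw [hc, cj_mul]
    exact cj_mem_gs_of_E0 hu ⟨cj_mem_lie D 𝒞.tm_mem hX.1, cj_mem_gm hX.2⟩
  · intro X hX
    have h1 : ((c⁻¹ : G1 D) : (Matrix (Fin D.n) (Fin D.n) ℝ)ˣ) = 𝒞.tm⁻¹ * u⁻¹ := by
      rw [Subgroup.coe_inv, hc, mul_inv_rev]
    have h2 := cj_mem_gs_of_E0 ((E0 D 𝒞.tm).inv_mem hu) hX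
    rw [h1, cj_mul]
    exact ⟨cj_mem_lie D ((G1 D).inv_mem 𝒞.tm_mem) h2.1, cj_inv_mem_gm h2.2⟩

/-- the condition defining `C` -/
def InC (g : G1 D) : Prop :=
  (g : (Matrix (Fin D.n) (Fin D.n) ℝ)ˣ) * 𝒞.tm * (g : (Matrix (Fin D.n) (Fin D.n) ℝ)ˣ)⁻¹ *
    𝒞.tm⁻¹ ∈ E0 D 𝒞.tm

variable {𝒞}

theorem InC.conj_gs {g : G1 D} (hg : 𝒞.InC g) (s : ℝ) :
    gs D ((g : (Matrix (Fin D.n) (Fin D.n) ℝ)ˣ) * 𝒞.tm *
      (g : (Matrix (Fin D.n) (Fin D.n) ℝ)ˣ)⁻¹) s = gs D 𝒞.tm s := by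
  have h1 : ((g * 𝒞.t * g⁻¹ : G1 D) : (Matrix (Fin D.n) (Fin D.n) ℝ)ˣ) =
      ((g : (Matrix (Fin D.n) (Fin D.n) ℝ)ˣ) * 𝒞.tm *
        (g : (Matrix (Fin D.n) (Fin D.n) ℝ)ˣ)⁻¹) := rfl
  rw [← h1]
  refine 𝒞.gs_eq_of_E0 hg ?_ s
  rw [h1]; group

/-- elements of `C` preserve the growth spaces of `t` -/
theorem InC.cj_mem {g : G1 D} (hg : 𝒞.InC g) {s : ℝ} {X : Matrix (Fin D.n) (Fin D.n) ℝ}
    (hX : X ∈ gs D 𝒞.tm s) : cj (g : (Matrix (Fin D.n) (Fin D.n) ℝ)ˣ) X ∈ gs D 𝒞.tm s := by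
  rw [← hg.conj_gs s]
  exact ⟨cj_mem_lie D g.2 hX.1, cj_mem_gm_conj hX.2⟩

theorem InC.cj_inv_mem {g : G1 D} (hg : 𝒞.InC g) {s : ℝ} {X : Matrix (Fin D.n) (Fin D.n) ℝ}
    (hX : X ∈ gs D 𝒞.tm s) : cj (g : (Matrix (Fin D.n) (Fin D.n) ℝ)ˣ)⁻¹ X ∈ gs D 𝒞.tm s := by
  rw [← hg.conj_gs s] at hX
  refine ⟨cj_mem_lie D ((G1 D).inv_mem g.2) hX.1, ?_⟩
  have h1 := cj_mem_gm_conj (g := (g : (Matrix (Fin D.n) (Fin D.n) ℝ)ˣ)⁻¹) hX.2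
  have h2 : (g : (Matrix (Fin D.n) (Fin D.n) ℝ)ˣ)⁻¹ *
      ((g : (Matrix (Fin D.n) (Fin D.n) ℝ)ˣ) * 𝒞.tm *
        (g : (Matrix (Fin D.n) (Fin D.n) ℝ)ˣ)⁻¹) *
      ((g : (Matrix (Fin D.n) (Fin D.n) ℝ)ˣ)⁻¹)⁻¹ = 𝒞.tm := by group
  rwa [h2] at h1

theorem InC.conj_E0 {g : G1 D} (hg : 𝒞.InC g) {u : (Matrix (Fin D.n) (Fin D.n) ℝ)ˣ}
    (hu : u ∈ E0 D 𝒞.tm) : (g : (Matrix (Fin D.n) (Fin D.n) ℝ)ˣ) * u *
      (g : (Matrix (Fin D.n) (Fin D.n) ℝ)ˣ)⁻¹ ∈ E0 D 𝒞.tm := by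
  have h1 := hg.cj_mem (mem_E0.1 hu).2
  rw [← eU_lg hu.1, conj_eU g.2]
  exact eU_mem_E0 _ h1.2

theorem InC.conj_inv_E0 {g : G1 D} (hg : 𝒞.InC g) {u : (Matrix (Fin D.n) (Fin D.n) ℝ)ˣ}
    (hu : u ∈ E0 D 𝒞.tm) : (g : (Matrix (Fin D.n) (Fin D.n) ℝ)ˣ)⁻¹ * u *
      (g : (Matrix (Fin D.n) (Fin D.n) ℝ)ˣ) ∈ E0 D 𝒞.tm := by
  have h1 := hg.cj_inv_mem (mem_E0.1 hu).2
  have h2 := conj_eU ((G1 D).inv_mem g.2) (lg_mem_lie D hu.1)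
  rw [eU_lg hu.1, inv_inv] at h2
  rw [h2]
  exact eU_mem_E0 _ h1.2

variable (𝒞)

/-- **The Cartan-type subgroup** -/
noncomputable def C : Subgroup (G1 D) where
  carrier := {g | 𝒞.InC g}
  one_mem' := by
    change ((1 : G1 D) : (Matrix (Fin D.n) (Fin D.n) ℝ)ˣ) * 𝒞.tm *
      ((1 : G1 D) : (Matrix (Fin D.n) (Fin D.n) ℝ)ˣ)⁻¹ * 𝒞.tm⁻¹ ∈ E0 D 𝒞.tm
    rw [Subgroup.coe_one]
    have : (1 : (Matrix (Fin D.n) (Fin D.n) ℝ)ˣ) * 𝒞.tm * 1⁻¹ * 𝒞.tm⁻¹ = 1 := by group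
    rw [this]
    exact (E0 D 𝒞.tm).one_mem
  mul_mem' := by
    intro g h hg hh
    have h1 := (E0 D 𝒞.tm).mul_mem (InC.conj_E0 hg hh) hg
    change ((g * h : G1 D) : (Matrix (Fin D.n) (Fin D.n) ℝ)ˣ) * 𝒞.tm *
      ((g * h : G1 D) : (Matrix (Fin D.n) (Fin D.n) ℝ)ˣ)⁻¹ * 𝒞.tm⁻¹ ∈ E0 D 𝒞.tm
    have e : ((g * h : G1 D) : (Matrix (Fin D.n) (Fin D.n) ℝ)ˣ) * 𝒞.tm *
      ((g * h : G1 D) : (Matrix (Fin D.n) (Fin D.n) ℝ)ˣ)⁻¹ * 𝒞.tm⁻¹ =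
      ((g : (Matrix (Fin D.n) (Fin D.n) ℝ)ˣ) *
        ((h : (Matrix (Fin D.n) (Fin D.n) ℝ)ˣ) * 𝒞.tm *
          (h : (Matrix (Fin D.n) (Fin D.n) ℝ)ˣ)⁻¹ * 𝒞.tm⁻¹) *
        (g : (Matrix (Fin D.n) (Fin D.n) ℝ)ˣ)⁻¹) *
      ((g : (Matrix (Fin D.n) (Fin D.n) ℝ)ˣ) * 𝒞.tm *
        (g : (Matrix (Fin D.n) (Fin D.n) ℝ)ˣ)⁻¹ * 𝒞.tm⁻¹) := by
      rw [Subgroup.coe_mul]; group
    rw [e]; exact h1
  inv_mem' := by
    intro g hg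
    have h1 := (E0 D 𝒞.tm).inv_mem (InC.conj_inv_E0 hg hg)
    change ((g⁻¹ : G1 D) : (Matrix (Fin D.n) (Fin D.n) ℝ)ˣ) * 𝒞.tm *
      ((g⁻¹ : G1 D) : (Matrix (Fin D.n) (Fin D.n) ℝ)ˣ)⁻¹ * 𝒞.tm⁻¹ ∈ E0 D 𝒞.tm
    have e : ((g⁻¹ : G1 D) : (Matrix (Fin D.n) (Fin D.n) ℝ)ˣ) * 𝒞.tm *
      ((g⁻¹ : G1 D) : (Matrix (Fin D.n) (Fin D.n) ℝ)ˣ)⁻¹ * 𝒞.tm⁻¹ =
      ((g : (Matrix (Fin D.n) (Fin D.n) ℝ)ˣ)⁻¹ *
        ((g : (Matrix (Fin D.n) (Fin D.n) ℝ)ˣ) * 𝒞.tm *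
          (g : (Matrix (Fin D.n) (Fin D.n) ℝ)ˣ)⁻¹ * 𝒞.tm⁻¹) *
        (g : (Matrix (Fin D.n) (Fin D.n) ℝ)ˣ))⁻¹ := by
      rw [Subgroup.coe_inv]; group
    rw [e]; exact h1

theorem mem_C {g : G1 D} : g ∈ 𝒞.C ↔ 𝒞.InC g := Iff.rfl

theorem t_mem_C : 𝒞.t ∈ 𝒞.C := by
  rw [mem_C]
  change 𝒞.tm * 𝒞.tm * 𝒞.tm⁻¹ * 𝒞.tm⁻¹ ∈ E0 D 𝒞.tm
  have : 𝒞.tm * 𝒞.tm * 𝒞.tm⁻¹ * 𝒞.tm⁻¹ = 1 := by group
  rw [this]
  exact (E0 D 𝒞.tm).one_mem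

/-- **`G1 = N_ℝ · C`** -/
theorem exists_mul (g : G1 D) : ∃ u ∈ NR1 D, ∃ c ∈ 𝒞.C, g = u * c := by
  have hn : (g : (Matrix (Fin D.n) (Fin D.n) ℝ)ˣ) * 𝒞.tm *
      (g : (Matrix (Fin D.n) (Fin D.n) ℝ)ˣ)⁻¹ * 𝒞.tm⁻¹ ∈ D.NR := by
    have h1 : g * 𝒞.t * g⁻¹ * 𝒞.t⁻¹ ∈ NR1 D := by
      rw [← 𝒞.ker, map_mul, map_mul, map_mul, map_inv, map_inv, mul_comm (π₁ g) (π₁ 𝒞.t)]
      group
    exact h1
  obtain ⟨m, hm, h⟩ := exists_coh 𝒞.tm_mem hn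
  refine ⟨(⟨m, NR_le D hm⟩ : G1 D)⁻¹, (NR1 D).inv_mem hm, ⟨m, NR_le D hm⟩ * g, ?_, by group⟩
  rw [mem_C]
  change (m * (g : (Matrix (Fin D.n) (Fin D.n) ℝ)ˣ)) * 𝒞.tm *
    (m * (g : (Matrix (Fin D.n) (Fin D.n) ℝ)ˣ))⁻¹ * 𝒞.tm⁻¹ ∈ E0 D 𝒞.tm
  have e : (m * (g : (Matrix (Fin D.n) (Fin D.n) ℝ)ˣ)) * 𝒞.tm *
    (m * (g : (Matrix (Fin D.n) (Fin D.n) ℝ)ˣ))⁻¹ * 𝒞.tm⁻¹ =
    m * ((g : (Matrix (Fin D.n) (Fin D.n) ℝ)ˣ) * 𝒞.tm *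
      (g : (Matrix (Fin D.n) (Fin D.n) ℝ)ˣ)⁻¹ * 𝒞.tm⁻¹) * (𝒞.tm * m⁻¹ * 𝒞.tm⁻¹) := by group
  rw [e]; exact h

/-- **`C ∩ N_ℝ = exp 𝔫_0`** -/
theorem mem_C_NR_iff (g : G1 D) : (g ∈ 𝒞.C ∧ g ∈ NR1 D) ↔
    (g : (Matrix (Fin D.n) (Fin D.n) ℝ)ˣ) ∈ E0 D 𝒞.tm := by
  constructor
  · rintro ⟨h1, h2⟩
    refine mem_E0_of_coh 𝒞.tm_mem h2 ?_
    have h3 : 𝒞.InC g := h1
    have e : (g : (Matrix (Fin D.n) (Fin D.n) ℝ)ˣ) *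
      (𝒞.tm * (g : (Matrix (Fin D.n) (Fin D.n) ℝ)ˣ) * 𝒞.tm⁻¹)⁻¹ =
      (g : (Matrix (Fin D.n) (Fin D.n) ℝ)ˣ) * 𝒞.tm *
      (g : (Matrix (Fin D.n) (Fin D.n) ℝ)ˣ)⁻¹ * 𝒞.tm⁻¹ := by group
    rw [e]; exact h3
  · intro h
    refine ⟨?_, h.1⟩
    have h1 := (E0 D 𝒞.tm).mul_mem h ((E0 D 𝒞.tm).inv_mem (conj_mem_E0 𝒞.tm_mem h))
    have e : (g : (Matrix (Fin D.n) (Fin D.n) ℝ)ˣ) *
      (𝒞.tm * (g : (Matrix (Fin D.n) (Fin D.n) ℝ)ˣ) * 𝒞.tm⁻¹)⁻¹ =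
      (g : (Matrix (Fin D.n) (Fin D.n) ℝ)ˣ) * 𝒞.tm *
      (g : (Matrix (Fin D.n) (Fin D.n) ℝ)ˣ)⁻¹ * 𝒞.tm⁻¹ := by group
    rw [e] at h1
    exact h1

/-! #### weights and weight spaces -/

/-- the finite set of weights of `𝔫` -/
noncomputable def wts : Finset ((Fin k → ℝ) →ₗ[ℝ] ℝ) := 𝒞.W.wts

theorem mem_wts {μ : (Fin k → ℝ) →ₗ[ℝ] ℝ} : μ ∈ 𝒞.wts ↔ ∃ i, 𝒞.W.M i = μ := 𝒞.W.mem_wts

open Classical in
/-- the weight space -/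
noncomputable def nw (μ : (Fin k → ℝ) →ₗ[ℝ] ℝ) : Submodule ℝ (Matrix (Fin D.n) (Fin D.n) ℝ) :=
  if μ ∈ 𝒞.wts then gs D 𝒞.tm (μ (hv π₁ 𝒞.t)) else ⊥

theorem nw_of_mem {μ : (Fin k → ℝ) →ₗ[ℝ] ℝ} (h : μ ∈ 𝒞.wts) :
    𝒞.nw μ = gs D 𝒞.tm (μ (hv π₁ 𝒞.t)) := if_pos h

theorem nw_of_notMem {μ : (Fin k → ℝ) →ₗ[ℝ] ℝ} (h : μ ∉ 𝒞.wts) : 𝒞.nw μ = ⊥ := if_neg h

theorem nw_le (μ : (Fin k → ℝ) →ₗ[ℝ] ℝ) : 𝒞.nw μ ≤ lie D := by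
  by_cases h : μ ∈ 𝒞.wts
  · rw [𝒞.nw_of_mem h]; exact gs_le D _ _
  · rw [𝒞.nw_of_notMem h]; exact bot_le

theorem gs_eq_bot_iff (s : ℝ) : gs D 𝒞.tm s = ⊥ ↔ s ∉ rates (adE D 𝒞.t) := by
  have htt : gs D 𝒞.tm s = (growSpace (adE D 𝒞.t) s).map (lie D).subtype := gs_eq_map D 𝒞.t s
  rw [htt, mem_rates, not_not]
  constructor
  · intro h
    apply Submodule.map_injective_of_injective (lie D).injective_subtype
    rw [h, Submodule.map_bot]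
  · intro h
    rw [h, Submodule.map_bot]

theorem nw_ne_bot {μ : (Fin k → ℝ) →ₗ[ℝ] ℝ} (h : μ ∈ 𝒞.wts) : 𝒞.nw μ ≠ ⊥ := by
  rw [𝒞.nw_of_mem h, Ne, 𝒞.gs_eq_bot_iff, not_not, 𝒞.W.mem_rates]
  obtain ⟨i, rfl⟩ := 𝒞.mem_wts.1 h
  exact ⟨i, rfl⟩

/-- every growth space of `t` is a weight space or zero -/
theorem gs_eq_nw_or {s : ℝ} : gs D 𝒞.tm s = ⊥ ∨
    ∃ μ ∈ 𝒞.wts, s = μ (hv π₁ 𝒞.t) ∧ 𝒞.nw μ = gs D 𝒞.tm s := by
  by_cases hs : s ∈ rates (adE D 𝒞.t)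
  · obtain ⟨i, hi⟩ := (𝒞.W.mem_rates 𝒞.t s).1 hs
    right
    refine ⟨𝒞.W.M i, 𝒞.mem_wts.2 ⟨i, rfl⟩, hi.symm, ?_⟩
    rw [𝒞.nw_of_mem (𝒞.mem_wts.2 ⟨i, rfl⟩), hi]
  · left; exact (𝒞.gs_eq_bot_iff s).2 hs

theorem nw_zero : 𝒞.nw 0 = gs D 𝒞.tm 0 := by
  by_cases h : (0 : (Fin k → ℝ) →ₗ[ℝ] ℝ) ∈ 𝒞.wts
  · rw [𝒞.nw_of_mem h, LinearMap.zero_apply]
  · rw [𝒞.nw_of_notMem h]
    symm
    rw [𝒞.gs_eq_bot_iff, 𝒞.W.mem_rates]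
    rintro ⟨i, hi⟩
    exact h (𝒞.mem_wts.2 ⟨i, 𝒞.gen.2.1 i hi⟩)

/-- **brackets** -/
theorem bracket_mem_nw {μ ν : (Fin k → ℝ) →ₗ[ℝ] ℝ} {X Y : Matrix (Fin D.n) (Fin D.n) ℝ}
    (hX : X ∈ 𝒞.nw μ) (hY : Y ∈ 𝒞.nw ν) : X * Y - Y * X ∈ 𝒞.nw (μ + ν) := by
  by_cases hμ : μ ∈ 𝒞.wts
  swap
  · rw [𝒞.nw_of_notMem hμ, Submodule.mem_bot] at hX
    rw [hX, zero_mul, mul_zero, sub_zero]; exact Submodule.zero_mem _
  by_cases hν : ν ∈ 𝒞.wts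
  swap
  · rw [𝒞.nw_of_notMem hν, Submodule.mem_bot] at hY
    rw [hY, zero_mul, mul_zero, sub_zero]; exact Submodule.zero_mem _
  rw [𝒞.nw_of_mem hμ] at hX
  rw [𝒞.nw_of_mem hν] at hY
  have h1 := bracket_mem_gs D hX hY
  rcases 𝒞.gs_eq_nw_or (s := μ (hv π₁ 𝒞.t) + ν (hv π₁ 𝒞.t)) with h2 | ⟨lam, hlam, h3, h4⟩
  · rw [h2, Submodule.mem_bot] at h1
    rw [h1]; exact Submodule.zero_mem _
  · obtain ⟨i, rfl⟩ := 𝒞.mem_wts.1 hμ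
    obtain ⟨j, rfl⟩ := 𝒞.mem_wts.1 hν
    obtain ⟨l, rfl⟩ := 𝒞.mem_wts.1 hlam
    rw [← h4] at h1
    rw [𝒞.gen.2.2 i j l h3]
    exact h1

/-- `C` preserves the weight spaces -/
theorem cj_mem_nw {g : G1 D} (hg : g ∈ 𝒞.C) {μ : (Fin k → ℝ) →ₗ[ℝ] ℝ}
    {X : Matrix (Fin D.n) (Fin D.n) ℝ} (hX : X ∈ 𝒞.nw μ) :
    cj (g : (Matrix (Fin D.n) (Fin D.n) ℝ)ˣ) X ∈ 𝒞.nw μ := by
  by_cases hμ : μ ∈ 𝒞.wts
  · rw [𝒞.nw_of_mem hμ] at hX ⊢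
    exact InC.cj_mem hg hX
  · rw [𝒞.nw_of_notMem hμ, Submodule.mem_bot] at hX
    rw [hX, map_zero]; exact Submodule.zero_mem _

theorem mem_growSpace_of_mem_gs {s : ℝ} {X : Matrix (Fin D.n) (Fin D.n) ℝ}
    (hX : X ∈ gs D 𝒞.tm s) : (⟨X, hX.1⟩ : lie D) ∈ growSpace (adE D 𝒞.t) s :=
  (coe_mem_gm_iff D 𝒞.t s ⟨X, hX.1⟩).1 hX.2

/-- the decomposition of `𝔫` -/
theorem exists_decomp {X : Matrix (Fin D.n) (Fin D.n) ℝ} (hX : X ∈ lie D) :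
    ∃ f : ((Fin k → ℝ) →ₗ[ℝ] ℝ) → Matrix (Fin D.n) (Fin D.n) ℝ,
      (∀ μ, f μ ∈ 𝒞.nw μ) ∧ X = ∑ μ ∈ 𝒞.wts, f μ := by
  classical
  refine ⟨fun μ => if μ ∈ 𝒞.wts then
    (pr (adE D 𝒞.t) (μ (hv π₁ 𝒞.t)) ⟨X, hX⟩ : lie D) else 0, ?_, ?_⟩
  · intro μ
    by_cases hμ : μ ∈ 𝒞.wts
    · simp only [if_pos hμ]
      rw [𝒞.nw_of_mem hμ]
      exact ⟨Submodule.coe_mem _, (coe_mem_gm_iff D 𝒞.t _ _).2 (pr_mem _ _ _)⟩
    · simp only [if_neg hμ]; exact Submodule.zero_mem _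
  · have h1 := congrArg (Subtype.val) (sum_pr (adE D 𝒞.t) ⟨X, hX⟩)
    rw [Submodule.coe_sum] at h1
    have h2 : rates (adE D 𝒞.t) = 𝒞.wts.image (fun μ => μ (hv π₁ 𝒞.t)) := by
      ext s
      rw [𝒞.W.mem_rates, Finset.mem_image]
      constructor
      · rintro ⟨i, hi⟩
        exact ⟨𝒞.W.M i, 𝒞.mem_wts.2 ⟨i, rfl⟩, hi⟩
      · rintro ⟨μ, hμ, hs⟩
        obtain ⟨i, rfl⟩ := 𝒞.mem_wts.1 hμ
        exact ⟨i, hs⟩
    rw [h2, Finset.sum_image] at h1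
    · rw [Finset.sum_congr rfl fun μ hμ => if_pos hμ]
      exact h1.symm
    · intro μ hμ ν hν h
      obtain ⟨i, rfl⟩ := 𝒞.mem_wts.1 hμ
      obtain ⟨j, rfl⟩ := 𝒞.mem_wts.1 hν
      exact 𝒞.gen.1 i j h

/-- directness -/
theorem eq_zero_of_sum {f : ((Fin k → ℝ) →ₗ[ℝ] ℝ) → Matrix (Fin D.n) (Fin D.n) ℝ}
    (hf : ∀ μ, f μ ∈ 𝒞.nw μ) (h : ∑ μ ∈ 𝒞.wts, f μ = 0) (μ : (Fin k → ℝ) →ₗ[ℝ] ℝ) :
    f μ = 0 := by
  classical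
  by_cases hμ : μ ∈ 𝒞.wts
  swap
  · have := hf μ
    rwa [𝒞.nw_of_notMem hμ, Submodule.mem_bot] at this
  have hmem : ∀ ν ∈ 𝒞.wts, f ν ∈ gs D 𝒞.tm (ν (hv π₁ 𝒞.t)) := fun ν hν => by
    rw [← 𝒞.nw_of_mem hν]; exact hf ν
  have h1 : ∑ ν ∈ 𝒞.wts.attach, (⟨f ν, 𝒞.nw_le _ (hf ν)⟩ : lie D) = 0 := by
    apply Subtype.ext
    rw [Submodule.coe_sum]
    change ∑ ν ∈ 𝒞.wts.attach, f ν = 0
    rw [Finset.sum_attach 𝒞.wts f]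
    exact h
  have h2 := congrArg (pr (adE D 𝒞.t) (μ (hv π₁ 𝒞.t))) h1
  rw [map_sum, map_zero, Finset.sum_eq_single ⟨μ, hμ⟩] at h2
  · rw [pr_of_mem _ (𝒞.mem_growSpace_of_mem_gs (hmem μ hμ))] at h2
    exact congrArg Subtype.val h2
  · rintro ⟨ν, hν⟩ - hne
    refine pr_of_mem_ne _ ?_ (𝒞.mem_growSpace_of_mem_gs (hmem ν hν))
    intro heq
    apply hne
    obtain ⟨i, rfl⟩ := 𝒞.mem_wts.1 hμ
    obtain ⟨j, rfl⟩ := 𝒞.mem_wts.1 hν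
    exact Subtype.ext (𝒞.gen.1 j i heq)
  · intro h; exact absurd (Finset.mem_attach _ _) h

/-- components stay in subspaces invariant under `Ad` of the base point -/
theorem mem_of_invariant {p : Submodule ℝ (Matrix (Fin D.n) (Fin D.n) ℝ)}
    (h1 : ∀ X ∈ p, cj 𝒞.tm X ∈ p) (h2 : ∀ X ∈ p, cj 𝒞.tm⁻¹ X ∈ p)
    {f : ((Fin k → ℝ) →ₗ[ℝ] ℝ) → Matrix (Fin D.n) (Fin D.n) ℝ}
    (hf : ∀ μ, f μ ∈ 𝒞.nw μ) (h : ∑ μ ∈ 𝒞.wts, f μ ∈ p) (μ : (Fin k → ℝ) →ₗ[ℝ] ℝ) :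
    f μ ∈ p := by
  classical
  by_cases hμ : μ ∈ 𝒞.wts
  swap
  · have := hf μ
    rw [𝒞.nw_of_notMem hμ, Submodule.mem_bot] at this
    rw [this]; exact Submodule.zero_mem _
  have hmem : ∀ ν ∈ 𝒞.wts, f ν ∈ gs D 𝒞.tm (ν (hv π₁ 𝒞.t)) := fun ν hν => by
    rw [← 𝒞.nw_of_mem hν]; exact hf ν
  have h3 : ((∑ ν ∈ 𝒞.wts.attach, (⟨f ν, 𝒞.nw_le _ (hf ν)⟩ : lie D) : lie D) :
      Matrix (Fin D.n) (Fin D.n) ℝ) = ∑ μ ∈ 𝒞.wts, f μ := by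
    rw [Submodule.coe_sum]
    change ∑ ν ∈ 𝒞.wts.attach, f ν = _
    rw [Finset.sum_attach 𝒞.wts f]
  have h4 := pr_mem_of_invariant (adE D 𝒞.t) (p := p.comap (lie D).subtype)
    (fun x hx => h1 _ hx) (fun x hx => h2 _ hx) (μ (hv π₁ 𝒞.t))
    (v := ∑ ν ∈ 𝒞.wts.attach, (⟨f ν, 𝒞.nw_le _ (hf ν)⟩ : lie D)) (by
      rw [Submodule.mem_comap, Submodule.subtype_apply, h3]; exact h)
  rw [map_sum, Finset.sum_eq_single ⟨μ, hμ⟩] at h4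
  · rw [pr_of_mem _ (𝒞.mem_growSpace_of_mem_gs (hmem μ hμ))] at h4
    exact h4
  · rintro ⟨ν, hν⟩ - hne
    refine pr_of_mem_ne _ ?_ (𝒞.mem_growSpace_of_mem_gs (hmem ν hν))
    intro heq
    apply hne
    obtain ⟨i, rfl⟩ := 𝒞.mem_wts.1 hμ
    obtain ⟨j, rfl⟩ := 𝒞.mem_wts.1 hν
    exact Subtype.ext (𝒞.gen.1 j i heq)
  · intro h; exact absurd (Finset.mem_attach _ _) h

end Cartan

end cartan

end Crest.Agent.R182.ModelWt
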