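/-
R182, module MODEL (M3 + M4), part 2: norm bounds on the weight spaces, projections.
-/
import Mathlib
import Crest.Agent.R182.ModelWt

set_option autoImplicit false
set_option linter.unusedSectionVars false

namespace Crest.Agent.R182.ModelWt

open Module LinMod Polyc Model

section norms

attribute [local instance] Matrix.linftyOpNormedRing Matrix.linftyOpNormedAlgebra

variable {n : ℕ}

theorem exists_nrm_le : ∃ B : ℝ, 0 ≤ B ∧ ∀ X : Matrix (Fin n) (Fin n) ℝ, nrm X ≤ B * ‖X‖ := by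
  have h : ∀ i j, ∃ B : ℝ, 0 ≤ B ∧ ∀ X : Matrix (Fin n) (Fin n) ℝ, |X i j| ≤ B * ‖X‖ := by
    intro i j
    let f : Matrix (Fin n) (Fin n) ℝ →ₗ[ℝ] ℝ := Matrix.entryLinearMap ℝ ℝ i j
    obtain ⟨B, hB, h⟩ := exists_bound_of_real_linear f
    exact ⟨B, hB, h⟩
  choose B hB0 hB using h
  refine ⟨∑ i, ∑ j, B i j, Finset.sum_nonneg fun i _ => Finset.sum_nonneg fun j _ => hB0 i j,
    fun X => ?_⟩
  rw [nrm, Finset.sum_mul]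
  refine Finset.sum_le_sum fun i _ => ?_
  rw [Finset.sum_mul]
  exact Finset.sum_le_sum fun j _ => hB i j X

theorem exists_norm_le_nrm : ∃ B : ℝ, 0 ≤ B ∧ ∀ X : Matrix (Fin n) (Fin n) ℝ,
    ‖X‖ ≤ B * nrm X := by
  classical
  refine ⟨∑ i : Fin n, ∑ j : Fin n, ‖Matrix.single i j (1 : ℝ)‖,
    Finset.sum_nonneg fun i _ => Finset.sum_nonneg fun j _ => norm_nonneg _, fun X => ?_⟩
  conv_lhs => rw [Matrix.matrix_eq_sum_single X]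
  refine (norm_sum_le _ _).trans ?_
  rw [Finset.sum_mul]
  refine Finset.sum_le_sum fun i _ => ?_
  refine (norm_sum_le _ _).trans ?_
  rw [Finset.sum_mul]
  refine Finset.sum_le_sum fun j _ => ?_
  have h1 : Matrix.single i j (X i j) = X i j • Matrix.single i j (1 : ℝ) := by
    rw [Matrix.smul_single, smul_eq_mul, mul_one]
  rw [h1, norm_smul, Real.norm_eq_abs, mul_comm]
  exact mul_le_mul_of_nonneg_left (abs_le_nrm X i j) (norm_nonneg _)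

theorem nrm_cj_le (g : (Matrix (Fin n) (Fin n) ℝ)ˣ) (X : Matrix (Fin n) (Fin n) ℝ) :
    nrm (cj g X) ≤ sz g * sz g * nrm X := by
  rw [cj_apply]
  have h1 := nrm_mul ((g : Matrix (Fin n) (Fin n) ℝ) * X)
    ((g⁻¹ : (Matrix (Fin n) (Fin n) ℝ)ˣ) : Matrix (Fin n) (Fin n) ℝ)
  have h2 := nrm_mul (g : Matrix (Fin n) (Fin n) ℝ) X
  have h3 := nrm_le_sz g
  have h4 := nrm_inv_le_sz g
  have h5 := one_le_sz g
  have h6 := nrm_nonneg X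
  calc _ ≤ nrm ((g : Matrix (Fin n) (Fin n) ℝ) * X) *
      nrm ((g⁻¹ : (Matrix (Fin n) (Fin n) ℝ)ˣ) : Matrix (Fin n) (Fin n) ℝ) := h1
    _ ≤ (sz g * nrm X) * sz g := by
        refine mul_le_mul (h2.trans (mul_le_mul_of_nonneg_right h3 h6)) h4 (nrm_nonneg _) ?_
        positivity
    _ = _ := by ring

end norms

section cartan

attribute [local instance] Matrix.linftyOpNormedRing Matrix.linftyOpNormedAlgebra

variable {Γ : Type*} [Group Γ] {N : Subgroup Γ} [hN : N.Normal]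
  {D : EmbData Γ N} {k : ℕ} {π₁ : G1 D →* Multiplicative (Fin k → ℤ)}

namespace Cartan

variable (𝒞 : Cartan D π₁)

/-- **Growth on the weight spaces**: products of elements of a bounded subset of `C`. -/
theorem growth (S : Set (G1 D)) (hS : ∀ g ∈ S, g ∈ 𝒞.C) {A : ℝ}
    (hA : ∀ g ∈ S, sz (g : (Matrix (Fin D.n) (Fin D.n) ℝ)ˣ) ≤ A)
    (hA' : ∀ g ∈ S, ∀ i, |hv π₁ g i| ≤ A) :
    ∃ (K : ℝ) (E : ℕ), 0 ≤ K ∧ ∀ μ, ∀ l : List (G1 D), (∀ g ∈ l, g ∈ S) → ∀ X ∈ 𝒞.nw μ,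
      nrm (cj (l.prod : (Matrix (Fin D.n) (Fin D.n) ℝ)ˣ) X) ≤
        K * (1 + l.length : ℝ) ^ E * Real.exp (μ (hv π₁ l.prod)) * nrm X := by
  classical
  obtain ⟨B₁, hB₁, h1⟩ := exists_nrm_le (n := D.n)
  obtain ⟨B₂, hB₂, h2⟩ := exists_norm_le_nrm (n := D.n)
  -- one weight
  have key : ∀ μ, ∃ (K : ℝ) (E : ℕ), 0 ≤ K ∧ ∀ l : List (G1 D), (∀ g ∈ l, g ∈ S) →
      ∀ X ∈ 𝒞.nw μ, nrm (cj (l.prod : (Matrix (Fin D.n) (Fin D.n) ℝ)ˣ) X) ≤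
        K * (1 + l.length : ℝ) ^ E * Real.exp (μ (hv π₁ l.prod)) * nrm X := by
    intro μ
    by_cases hμ : μ ∈ 𝒞.wts
    swap
    · refine ⟨0, 0, le_rfl, fun l _ X hX => ?_⟩
      rw [𝒞.nw_of_notMem hμ, Submodule.mem_bot] at hX
      rw [hX, map_zero, nrm_zero, mul_zero]
    obtain ⟨i, hi⟩ := 𝒞.mem_wts.1 hμ
    have hC : ∀ g ∈ 𝒞.C, ∀ v ∈ growSpace (adE D 𝒞.t) (μ (hv π₁ 𝒞.t)),
        adE D g v ∈ growSpace (adE D 𝒞.t) (μ (hv π₁ 𝒞.t)) := by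
      intro g hg v hv
      rw [← coe_mem_gm_iff]
      exact (InC.cj_mem hg ⟨v.2, (coe_mem_gm_iff D 𝒞.t _ v).2 hv⟩).2
    obtain ⟨b, hb0, hb⟩ : ∃ b : ℝ, 0 ≤ b ∧ ∀ v : Fin k → ℝ, |μ v| ≤ b * ‖v‖ :=
      exists_bound_of_real_linear μ
    obtain ⟨K, E, hK, h⟩ := 𝒞.W.growth (t := 𝒞.t) (s := μ (hv π₁ 𝒞.t)) (μ := μ)
      (fun j hj => by rw [← hi]; exact 𝒞.gen.1 j i (by rw [hj, hi]))
      (fun g hg => 𝒞.unip hg) 𝒞.C hC S hS (A := max (b * |A|) (B₂ * (|A| * |A|) * B₁)) (by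
        intro g hg
        refine (hb _).trans (le_trans ?_ (le_max_left _ _))
        refine mul_le_mul_of_nonneg_left ?_ hb0
        rw [pi_norm_le_iff_of_nonneg (abs_nonneg A)]
        intro j
        exact (hA' g hg j).trans (le_abs_self A)) (by
        intro g hg v
        refine le_trans ?_ (mul_le_mul_of_nonneg_right (le_max_right _ _) (norm_nonneg _))
        change ‖cj (g : (Matrix (Fin D.n) (Fin D.n) ℝ)ˣ) (v : Matrix (Fin D.n) (Fin D.n) ℝ)‖ ≤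
          B₂ * (|A| * |A|) * B₁ * ‖(v : Matrix (Fin D.n) (Fin D.n) ℝ)‖
        have h3 := one_le_sz (g : (Matrix (Fin D.n) (Fin D.n) ℝ)ˣ)
        have h4 := (hA g hg).trans (le_abs_self A)
        calc _ ≤ B₂ * nrm (cj (g : (Matrix (Fin D.n) (Fin D.n) ℝ)ˣ) v) := h2 _
          _ ≤ B₂ * (|A| * |A| * (B₁ * ‖(v : Matrix (Fin D.n) (Fin D.n) ℝ)‖)) := by
              refine mul_le_mul_of_nonneg_left ((nrm_cj_le _ _).trans ?_) hB₂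
              refine mul_le_mul (mul_le_mul h4 h4 (by linarith) (abs_nonneg A)) (h1 _)
                (nrm_nonneg _) (by positivity)
          _ = _ := by ring)
    refine ⟨B₁ * (K * B₂), E, by positivity, fun l hl X hX => ?_⟩
    rw [𝒞.nw_of_mem hμ] at hX
    have h5 := h l hl ⟨X, hX.1⟩ (𝒞.mem_growSpace_of_mem_gs hX)
    have h6 : ‖cj (l.prod : (Matrix (Fin D.n) (Fin D.n) ℝ)ˣ) X‖ ≤
        K * (1 + l.length : ℝ) ^ E * Real.exp (μ (hv π₁ l.prod)) * ‖X‖ := h5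
    calc nrm (cj (l.prod : (Matrix (Fin D.n) (Fin D.n) ℝ)ˣ) X) ≤
          B₁ * ‖cj (l.prod : (Matrix (Fin D.n) (Fin D.n) ℝ)ˣ) X‖ := h1 _
      _ ≤ B₁ * (K * (1 + l.length : ℝ) ^ E * Real.exp (μ (hv π₁ l.prod)) * (B₂ * nrm X)) := by
          refine mul_le_mul_of_nonneg_left (h6.trans ?_) hB₁
          exact mul_le_mul_of_nonneg_left (h2 X) (by positivity)
      _ = _ := by ring
  choose K E hK h using key
  refine ⟨∑ μ ∈ 𝒞.wts, K μ, 𝒞.wts.sup E, Finset.sum_nonneg fun μ _ => hK μ,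
    fun μ l hl X hX => ?_⟩
  by_cases hμ : μ ∈ 𝒞.wts
  · refine (h μ l hl X hX).trans ?_
    have h3 : (1 + l.length : ℝ) ^ E μ ≤ (1 + l.length : ℝ) ^ (𝒞.wts.sup E) :=
      pow_le_pow_right₀ (by
        have : (0 : ℝ) ≤ l.length := Nat.cast_nonneg _
        linarith) (Finset.le_sup hμ)
    have h4 : K μ ≤ ∑ μ ∈ 𝒞.wts, K μ := Finset.single_le_sum (fun μ _ => hK μ) hμ
    have h5 := nrm_nonneg X
    have h6 := hK μ
    have h7 := h6.trans h4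
    gcongr
  · rw [𝒞.nw_of_notMem hμ, Submodule.mem_bot] at hX
    rw [hX, map_zero, nrm_zero, mul_zero]

/-- growth for the powers of one element of `C` (two-sided). -/
theorem growth_zpow {c : G1 D} (hc : c ∈ 𝒞.C) :
    ∃ (K : ℝ) (E : ℕ), 0 ≤ K ∧ ∀ μ, ∀ j : ℤ, ∀ X ∈ 𝒞.nw μ,
      nrm (cj ((c ^ j : G1 D) : (Matrix (Fin D.n) (Fin D.n) ℝ)ˣ) X) ≤
        K * (1 + |(j : ℝ)|) ^ E * Real.exp (j * μ (hv π₁ c)) * nrm X := by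
  obtain ⟨K, E, hK, h⟩ := 𝒞.growth {c, c⁻¹} (by
    rintro g (rfl | rfl)
    · exact hc
    · exact 𝒞.C.inv_mem hc)
    (A := max (sz (c : (Matrix (Fin D.n) (Fin D.n) ℝ)ˣ)) (‖hv π₁ c‖)) (by
    rintro g (rfl | rfl)
    · exact le_max_left _ _
    · rw [Subgroup.coe_inv, sz_inv]; exact le_max_left _ _) (by
    rintro g (rfl | rfl)
    · exact fun i => (norm_le_pi_norm (hv π₁ g) i).trans (le_max_right _ _)
    · intro i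
      rw [hv_inv, Pi.neg_apply, abs_neg]
      exact (norm_le_pi_norm (hv π₁ c) i).trans (le_max_right _ _))
  refine ⟨K, E, hK, fun μ j X hX => ?_⟩
  obtain ⟨m, rfl | rfl⟩ := j.eq_nat_or_neg
  · have h1 := h μ (List.replicate m c) (by
      intro x hx
      rw [List.eq_of_mem_replicate hx]; simp) X hX
    rw [List.prod_replicate, List.length_replicate, hv_pow, map_smul, smul_eq_mul] at h1
    rw [zpow_natCast, Int.cast_natCast, Nat.abs_cast]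
    exact h1
  · have h1 := h μ (List.replicate m c⁻¹) (by
      intro x hx
      rw [List.eq_of_mem_replicate hx]; simp) X hX
    rw [List.prod_replicate, List.length_replicate, hv_pow, map_smul, smul_eq_mul, hv_inv,
      map_neg, mul_neg, ← neg_mul] at h1
    rw [zpow_neg, zpow_natCast, ← inv_pow, Int.cast_neg, Int.cast_natCast, abs_neg, Nat.abs_cast]
    exact h1

open Classical in
/-- linear projections on the weight spaces (extended to all matrices) -/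
theorem exists_cmp (μ : (Fin k → ℝ) →ₗ[ℝ] ℝ) :
    ∃ P : Matrix (Fin D.n) (Fin D.n) ℝ →ₗ[ℝ] Matrix (Fin D.n) (Fin D.n) ℝ,
      ∀ X : lie D, P X = if μ ∈ 𝒞.wts then
        ((pr (adE D 𝒞.t) (μ (hv π₁ 𝒞.t)) X : lie D) : Matrix (Fin D.n) (Fin D.n) ℝ) else 0 := by
  classical
  by_cases hμ : μ ∈ 𝒞.wts
  · obtain ⟨P, hP⟩ := LinearMap.exists_extend
      ((lie D).subtype ∘ₗ pr (adE D 𝒞.t) (μ (hv π₁ 𝒞.t)))
    refine ⟨P, fun X => ?_⟩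
    rw [if_pos hμ]
    have := congrArg (fun f => f X) hP
    exact this
  · exact ⟨0, fun X => by rw [if_neg hμ]; rfl⟩

/-- the component of weight `μ` (a linear map defined on all matrices, meaningful on `𝔫`) -/
noncomputable def cmp (μ : (Fin k → ℝ) →ₗ[ℝ] ℝ) :
    Matrix (Fin D.n) (Fin D.n) ℝ →ₗ[ℝ] Matrix (Fin D.n) (Fin D.n) ℝ := (𝒞.exists_cmp μ).choose

open Classical in
theorem cmp_apply (μ : (Fin k → ℝ) →ₗ[ℝ] ℝ) (X : lie D) : 𝒞.cmp μ X = if μ ∈ 𝒞.wts then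
    ((pr (adE D 𝒞.t) (μ (hv π₁ 𝒞.t)) X : lie D) : Matrix (Fin D.n) (Fin D.n) ℝ) else 0 :=
  (𝒞.exists_cmp μ).choose_spec X

theorem cmp_mem (μ : (Fin k → ℝ) →ₗ[ℝ] ℝ) {X : Matrix (Fin D.n) (Fin D.n) ℝ} (hX : X ∈ lie D) :
    𝒞.cmp μ X ∈ 𝒞.nw μ := by
  rw [𝒞.cmp_apply μ ⟨X, hX⟩]
  by_cases hμ : μ ∈ 𝒞.wts
  · rw [if_pos hμ, 𝒞.nw_of_mem hμ]
    exact ⟨Submodule.coe_mem _, (coe_mem_gm_iff D 𝒞.t _ _).2 (pr_mem _ _ _)⟩
  · rw [if_neg hμ]; exact Submodule.zero_mem _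

theorem cmp_mem_lie (μ : (Fin k → ℝ) →ₗ[ℝ] ℝ) {X : Matrix (Fin D.n) (Fin D.n) ℝ}
    (hX : X ∈ lie D) : 𝒞.cmp μ X ∈ lie D := 𝒞.nw_le μ (𝒞.cmp_mem μ hX)

theorem cmp_of_mem {μ : (Fin k → ℝ) →ₗ[ℝ] ℝ} {X : Matrix (Fin D.n) (Fin D.n) ℝ}
    (hX : X ∈ 𝒞.nw μ) : 𝒞.cmp μ X = X := by
  rw [𝒞.cmp_apply μ ⟨X, 𝒞.nw_le μ hX⟩]
  by_cases hμ : μ ∈ 𝒞.wts
  · rw [𝒞.nw_of_mem hμ] at hX
    rw [if_pos hμ, pr_of_mem _ (𝒞.mem_growSpace_of_mem_gs hX)]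
  · rw [𝒞.nw_of_notMem hμ, Submodule.mem_bot] at hX
    rw [if_neg hμ, hX]

theorem cmp_of_mem_ne {μ ν : (Fin k → ℝ) →ₗ[ℝ] ℝ} (h : μ ≠ ν) {X : Matrix (Fin D.n) (Fin D.n) ℝ}
    (hX : X ∈ 𝒞.nw μ) : 𝒞.cmp ν X = 0 := by
  by_cases hμ : μ ∈ 𝒞.wts
  swap
  · rw [𝒞.nw_of_notMem hμ, Submodule.mem_bot] at hX
    rw [hX, map_zero]
  rw [𝒞.cmp_apply ν ⟨X, 𝒞.nw_le μ hX⟩]
  by_cases hν : ν ∈ 𝒞.wts
  swap
  · rw [if_neg hν]
  rw [𝒞.nw_of_mem hμ] at hX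
  rw [if_pos hν, pr_of_mem_ne _ _ (𝒞.mem_growSpace_of_mem_gs hX)]
  · rfl
  · intro heq
    apply h
    obtain ⟨i, rfl⟩ := 𝒞.mem_wts.1 hμ
    obtain ⟨j, rfl⟩ := 𝒞.mem_wts.1 hν
    exact 𝒞.gen.1 i j heq

theorem sum_cmp {X : Matrix (Fin D.n) (Fin D.n) ℝ} (hX : X ∈ lie D) :
    ∑ μ ∈ 𝒞.wts, 𝒞.cmp μ X = X := by
  obtain ⟨f, hf, h⟩ := 𝒞.exists_decomp hX
  conv_rhs => rw [h]
  refine Finset.sum_congr rfl fun μ hμ => ?_
  rw [h, map_sum, Finset.sum_eq_single μ]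
  · exact 𝒞.cmp_of_mem (hf μ)
  · intro ν _ hν
    exact 𝒞.cmp_of_mem_ne hν (hf ν)
  · intro h'; exact absurd hμ h'

theorem cmp_mem_of_invariant {p : Submodule ℝ (Matrix (Fin D.n) (Fin D.n) ℝ)} (hp : p ≤ lie D)
    (h1 : ∀ X ∈ p, cj 𝒞.tm X ∈ p) (h2 : ∀ X ∈ p, cj 𝒞.tm⁻¹ X ∈ p)
    (μ : (Fin k → ℝ) →ₗ[ℝ] ℝ) {X : Matrix (Fin D.n) (Fin D.n) ℝ} (hX : X ∈ p) :
    𝒞.cmp μ X ∈ p :=
  𝒞.mem_of_invariant h1 h2 (f := fun μ => 𝒞.cmp μ X) (fun μ => 𝒞.cmp_mem μ (hp hX))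
    (by rw [𝒞.sum_cmp (hp hX)]; exact hX) μ

theorem cmp_mem_lcs (μ : (Fin k → ℝ) →ₗ[ℝ] ℝ) (j : ℕ) {X : Matrix (Fin D.n) (Fin D.n) ℝ}
    (hX : X ∈ lcs D j) : 𝒞.cmp μ X ∈ lcs D j :=
  𝒞.cmp_mem_of_invariant (lcs_le_lie D j) (fun _ h => cj_mem_lcs D 𝒞.tm_mem j h)
    (fun _ h => cj_mem_lcs D ((G1 D).inv_mem 𝒞.tm_mem) j h) μ hX

/-- the projections are bounded -/
theorem exists_cmp_le : ∃ B : ℝ, 0 ≤ B ∧ ∀ μ X, nrm (𝒞.cmp μ X) ≤ B * nrm X ∨ μ ∉ 𝒞.wts := by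
  classical
  obtain ⟨B₁, hB₁, h1⟩ := exists_nrm_le (n := D.n)
  obtain ⟨B₂, hB₂, h2⟩ := exists_norm_le_nrm (n := D.n)
  choose B hB0 hB using fun μ => exists_bound_of_real_linear (𝒞.cmp μ)
  refine ⟨B₁ * ((∑ μ ∈ 𝒞.wts, B μ) * B₂), by
    have : 0 ≤ ∑ μ ∈ 𝒞.wts, B μ := Finset.sum_nonneg fun μ _ => hB0 μ
    positivity, fun μ X => ?_⟩
  by_cases hμ : μ ∈ 𝒞.wts
  · left
    have h4 : B μ ≤ ∑ μ ∈ 𝒞.wts, B μ := Finset.single_le_sum (fun μ _ => hB0 μ) hμ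
    have h5 := hB0 μ
    calc nrm (𝒞.cmp μ X) ≤ B₁ * ‖𝒞.cmp μ X‖ := h1 _
      _ ≤ B₁ * ((∑ μ ∈ 𝒞.wts, B μ) * (B₂ * nrm X)) := by
          refine mul_le_mul_of_nonneg_left ((hB μ X).trans ?_) hB₁
          exact mul_le_mul h4 (h2 X) (norm_nonneg _) (h5.trans h4)
      _ = _ := by ring
  · right; exact hμ

/-- dimension of the weight spaces -/
theorem finrank_nw {μ : (Fin k → ℝ) →ₗ[ℝ] ℝ} (hμ : μ ∈ 𝒞.wts) :
    finrank ℝ (𝒞.nw μ) = finrank ℝ (growSpace (adE D 𝒞.t) (μ (hv π₁ 𝒞.t))) := by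
  rw [𝒞.nw_of_mem hμ]
  have htt : gs D 𝒞.tm (μ (hv π₁ 𝒞.t)) =
    (growSpace (adE D 𝒞.t) (μ (hv π₁ 𝒞.t))).map (lie D).subtype := gs_eq_map D 𝒞.t _
  rw [htt, Submodule.finrank_map_subtype_eq]

theorem sum_wts : ∑ μ ∈ 𝒞.wts, (finrank ℝ (𝒞.nw μ)) • μ = ∑ i, 𝒞.W.M i := by
  rw [← 𝒞.W.sum_wts 𝒞.gen]
  exact Finset.sum_congr rfl fun μ hμ => by rw [𝒞.finrank_nw hμ]

end Cartan

end cartan

end Crest.Agent.R182.ModelWt
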