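/-
R182, module MODEL (M3 + M4), part 3: `Γ` acts on `𝔫` by integral matrices in a suitable basis;
sum of the weights is zero.
-/
import Mathlib
import Crest.Agent.R182.ModelWt2

set_option autoImplicit false
set_option linter.unusedSectionVars false

namespace Crest.Agent.R182.ModelWt

open Module LinMod Polyc Model

section lattice

variable {E : Type*} [NormedAddCommGroup E] [NormedSpace ℝ E] [FiniteDimensional ℝ E]

/-- an endomorphism preserving a lattice is given by an integral matrix -/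
theorem exists_int_matrix (L : Submodule ℤ E) [DiscreteTopology L] [IsZLattice ℝ L]
    {ι : Type*} [Fintype ι] [DecidableEq ι] (b : Basis ι ℤ L)
    (f : E →ₗ[ℝ] E) (hf : ∀ x ∈ L, f x ∈ L) :
    ∃ M : Matrix ι ι ℤ, LinearMap.toMatrix (b.ofZLatticeBasis ℝ L) (b.ofZLatticeBasis ℝ L) f =
      M.map (Int.castRingHom ℝ) := by
  refine ⟨Matrix.of fun i j => b.repr ⟨f (b j), hf _ (b j).2⟩ i, ?_⟩
  ext i j
  rw [LinearMap.toMatrix_apply, Basis.ofZLatticeBasis_apply]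
  have h := b.ofZLatticeBasis_repr_apply ℝ L ⟨f (b j), hf _ (b j).2⟩ i
  exact h

/-- integral basis of a discrete spanning subgroup -/
theorem exists_int_basis (L : Submodule ℤ E) {ε : ℝ} (hε : 0 < ε)
    (hL : ∀ x ∈ L, ‖x‖ < ε → x = 0) (hspan : Submodule.span ℝ (L : Set E) = ⊤) :
    ∃ (d : ℕ) (B : Basis (Fin d) ℝ E), ∀ f : E →ₗ[ℝ] E, (∀ x ∈ L, f x ∈ L) →
      ∃ M : Matrix (Fin d) (Fin d) ℤ,
        LinearMap.toMatrix B B f = M.map (Int.castRingHom ℝ) := by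
  have hd : DiscreteTopology L := by
    refine discreteTopology_of_isOpen_singleton_zero ?_
    rw [Metric.isOpen_singleton_iff]
    refine ⟨ε, hε, fun y hy => ?_⟩
    rw [dist_zero_right] at hy
    exact Subtype.ext (hL y y.2 hy)
  have hz : IsZLattice ℝ L := ⟨hspan⟩
  have : Module.Finite ℤ L := ZLattice.module_finite ℝ L
  have : Module.Free ℤ L := ZLattice.module_free ℝ L
  exact ⟨_, (Module.finBasis ℤ L).ofZLatticeBasis ℝ L,
    fun f hf => exists_int_matrix L (Module.finBasis ℤ L) f hf⟩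

theorem abs_det_eq_one (L : Submodule ℤ E) {ε : ℝ} (hε : 0 < ε)
    (hL : ∀ x ∈ L, ‖x‖ < ε → x = 0) (hspan : Submodule.span ℝ (L : Set E) = ⊤)
    (f : E ≃ₗ[ℝ] E) (hf : ∀ x ∈ L, f x ∈ L) (hf' : ∀ x ∈ L, f.symm x ∈ L) :
    |LinearMap.det (f : E →ₗ[ℝ] E)| = 1 := by
  classical
  obtain ⟨d, B, hB⟩ := exists_int_basis L hε hL hspan
  obtain ⟨M, hM⟩ := hB (f : E →ₗ[ℝ] E) hf
  obtain ⟨M', hM'⟩ := hB (f.symm : E →ₗ[ℝ] E) hf'
  have h1 : LinearMap.det (f : E →ₗ[ℝ] E) = ((M.det : ℤ) : ℝ) := by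
    rw [← LinearMap.det_toMatrix B, hM]
    exact (RingHom.map_det (Int.castRingHom ℝ) M).symm
  have h2 : LinearMap.det (f.symm : E →ₗ[ℝ] E) = ((M'.det : ℤ) : ℝ) := by
    rw [← LinearMap.det_toMatrix B, hM']
    exact (RingHom.map_det (Int.castRingHom ℝ) M').symm
  have h3 : LinearMap.det (f : E →ₗ[ℝ] E) * LinearMap.det (f.symm : E →ₗ[ℝ] E) = 1 := by
    rw [← LinearMap.det_comp]
    have : (f : E →ₗ[ℝ] E) ∘ₗ (f.symm : E →ₗ[ℝ] E) = LinearMap.id := by ext x; simp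
    rw [this, LinearMap.det_id]
  rw [h1, h2] at h3
  have h4 : M.det * M'.det = 1 := by exact_mod_cast h3
  have h5 : IsUnit M.det := IsUnit.of_mul_eq_one _ h4
  rw [h1, ← Int.cast_abs, Int.isUnit_iff_abs_eq.1 h5, Int.cast_one]

end lattice

section logs

attribute [local instance] Matrix.linftyOpNormedRing Matrix.linftyOpNormedAlgebra

variable {Γ : Type*} [Group Γ] {N : Subgroup Γ} [hN : N.Normal] (D : EmbData Γ N)

theorem ρu_mem_NR' (ν : N) : D.ρu ν ∈ D.NR := (D.ρu_mem_NR_iff _).2 ν.2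

/-- logarithms of the elements of `N` -/
noncomputable def lgN (ν : N) : lie D :=
  ⟨lg (D.ρu ν : Matrix (Fin D.n) (Fin D.n) ℝ), lg_mem_lie D (ρu_mem_NR' D ν)⟩

/-- the lattice spanned by the logarithms of `N` -/
noncomputable def Lg : Submodule ℤ (lie D) := Submodule.span ℤ (Set.range (lgN D))

/-- multiples of the logarithms are integral -/
theorem exists_int_lg (ν : N) : ∃ M : Matrix (Fin D.n) (Fin D.n) ℤ,
    ((D.n.factorial : ℕ) : ℝ) • (lgN D ν : Matrix (Fin D.n) (Fin D.n) ℝ) =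
      EmbData.toR D.n M := by
  have hc : ∀ k ∈ Finset.range D.n, ∃ z : ℤ, ((D.n.factorial : ℕ) : ℝ) * lc k = (z : ℝ) := by
    intro k hk
    rcases Nat.eq_zero_or_pos k with h | h
    · subst h; exact ⟨0, by simp [lc]⟩
    · obtain ⟨q, hq⟩ : k ∣ D.n.factorial :=
        Nat.dvd_factorial h (Finset.mem_range.1 hk).le
      refine ⟨(-1) ^ (k + 1) * q, ?_⟩
      rw [lc, if_neg (by omega), hq]
      have : (k : ℝ) ≠ 0 := by exact_mod_cast h.ne'
      push_cast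
      field_simp
  choose! z hz using hc
  refine ⟨∑ k ∈ Finset.range D.n, z k • (D.ρ ν - 1) ^ k, ?_⟩
  change ((D.n.factorial : ℕ) : ℝ) • lg (D.ρu ν : Matrix (Fin D.n) (Fin D.n) ℝ) = _
  rw [lg, Finset.smul_sum, map_sum]
  refine Finset.sum_congr rfl fun k hk => ?_
  rw [smul_smul, hz k hk, map_zsmul, map_pow, map_sub, map_one, D.coe_ρu,
    Int.cast_smul_eq_zsmul]

theorem exists_int_of_mem {X : lie D} (hX : X ∈ Lg D) : ∃ M : Matrix (Fin D.n) (Fin D.n) ℤ,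
    ((D.n.factorial : ℕ) : ℝ) • (X : Matrix (Fin D.n) (Fin D.n) ℝ) = EmbData.toR D.n M := by
  induction hX using Submodule.span_induction with
  | mem x hx => obtain ⟨ν, rfl⟩ := hx; exact exists_int_lg D ν
  | zero => exact ⟨0, by rw [Submodule.coe_zero, smul_zero, map_zero]⟩
  | add x y _ _ hx hy =>
    obtain ⟨M, hM⟩ := hx
    obtain ⟨M', hM'⟩ := hy
    exact ⟨M + M', by rw [Submodule.coe_add, smul_add, hM, hM', map_add]⟩
  | smul a x _ hx =>
    obtain ⟨M, hM⟩ := hx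
    refine ⟨a • M, ?_⟩
    rw [map_zsmul, ← hM, Submodule.coe_smul_of_tower, smul_comm]

theorem exists_eps_Lg : ∃ ε : ℝ, 0 < ε ∧ ∀ x ∈ Lg D, ‖x‖ < ε → x = 0 := by
  obtain ⟨B, hB0, hB⟩ := exists_nrm_le (n := D.n)
  have hpos : (0 : ℝ) < ((D.n.factorial : ℕ) : ℝ) * (B + 1) := by positivity
  refine ⟨1 / (((D.n.factorial : ℕ) : ℝ) * (B + 1)), by positivity, fun y hyL hy => ?_⟩
  obtain ⟨M, hM⟩ := exists_int_of_mem D hyL
  have hy' : ‖(y : Matrix (Fin D.n) (Fin D.n) ℝ)‖ <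
      1 / (((D.n.factorial : ℕ) : ℝ) * (B + 1)) := hy
  have hM0 : M = 0 := by
    ext i j
    have h1 : |((M i j : ℤ) : ℝ)| < 1 := by
      have h2 : ((M i j : ℤ) : ℝ) = ((D.n.factorial : ℕ) : ℝ) *
          (y : Matrix (Fin D.n) (Fin D.n) ℝ) i j := by
        have := congrFun (congrFun hM i) j
        exact this.symm
      rw [h2, abs_mul, Nat.abs_cast]
      have h3 := (abs_le_nrm (y : Matrix (Fin D.n) (Fin D.n) ℝ) i j).trans (hB _)
      rw [lt_div_iff₀ hpos] at hy'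
      have h4 : (0 : ℝ) < ((D.n.factorial : ℕ) : ℝ) := by positivity
      have h5 := norm_nonneg (y : Matrix (Fin D.n) (Fin D.n) ℝ)
      calc ((D.n.factorial : ℕ) : ℝ) * |(y : Matrix (Fin D.n) (Fin D.n) ℝ) i j| ≤
          ((D.n.factorial : ℕ) : ℝ) * (B * ‖(y : Matrix (Fin D.n) (Fin D.n) ℝ)‖) :=
            mul_le_mul_of_nonneg_left h3 h4.le
        _ ≤ ‖(y : Matrix (Fin D.n) (Fin D.n) ℝ)‖ *
            (((D.n.factorial : ℕ) : ℝ) * (B + 1)) := by
            have : 0 ≤ ((D.n.factorial : ℕ) : ℝ) *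
              ‖(y : Matrix (Fin D.n) (Fin D.n) ℝ)‖ := by positivity
            nlinarith
        _ < 1 := hy'
    have h6 : |M i j| < 1 := by exact_mod_cast h1
    rw [Int.abs_lt_one_iff] at h6
    exact h6
  rw [hM0, map_zero] at hM
  have h7 : ((D.n.factorial : ℕ) : ℝ) ≠ 0 := by positivity
  have h8 := (smul_eq_zero.1 hM).resolve_left h7
  exact Subtype.ext h8

theorem mem_span_lgN {X : Matrix (Fin D.n) (Fin D.n) ℝ} (hX : X ∈ lie D) :
    X ∈ Submodule.span ℝ (Set.range fun ν : N => (lgN D ν : Matrix (Fin D.n) (Fin D.n) ℝ)) := by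
  by_contra hcon
  obtain ⟨ℓ, hℓ1, hℓ2⟩ := Submodule.exists_le_ker_of_notMem hcon
  apply hℓ1
  obtain ⟨x, hx⟩ := eU_mem hX
  have h1 : lg (D.Eu x : Matrix (Fin D.n) (Fin D.n) ℝ) = X := by
    rw [hx]; exact lg_eU hX
  have h2 : IsPoly (fun x => ℓ (lg (D.Eu x : Matrix (Fin D.n) (Fin D.n) ℝ))) :=
    (isPolyM_lg D.isPolyU_Eu.1).linear ℓ
  have h3 := h2.eq_of_int (Polyc.IsPoly.const 0) (fun z => ?_) x
  · rw [h1] at h3; exact h3
  · rw [D.Eu_int]
    exact hℓ2 (Submodule.subset_span ⟨⟨_, D.prodE_mem z⟩, rfl⟩)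

theorem span_Lg : Submodule.span ℝ (Lg D : Set (lie D)) = ⊤ := by
  rw [eq_top_iff]
  rintro X -
  have h1 := mem_span_lgN D X.2
  have h2 : Submodule.span ℝ (Set.range fun ν : N =>
      (lgN D ν : Matrix (Fin D.n) (Fin D.n) ℝ)) =
      (Submodule.span ℝ (Set.range (lgN D))).map (lie D).subtype := by
    rw [Submodule.map_span, ← Set.range_comp]; rfl
  rw [h2] at h1
  obtain ⟨Y, hY, hYX⟩ := h1
  have h3 : Y = X := Subtype.ext hYX
  rw [← h3]
  exact Submodule.span_mono (Submodule.subset_span) hY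

theorem adE_mem_Lg (γ : Γ) {X : lie D} (hX : X ∈ Lg D) : adE D (inΓ D γ) X ∈ Lg D := by
  induction hX using Submodule.span_induction with
  | mem x hx =>
    obtain ⟨ν, rfl⟩ := hx
    refine Submodule.subset_span ⟨⟨γ * ν * γ⁻¹, hN.conj_mem _ ν.2 γ⟩, ?_⟩
    apply Subtype.ext
    rw [coe_adE, coe_inΓ]
    change lg (D.ρu (γ * ν * γ⁻¹) : Matrix (Fin D.n) (Fin D.n) ℝ) =
      cj (D.ρu γ) (lg (D.ρu ν : Matrix (Fin D.n) (Fin D.n) ℝ))
    have h1 := conj_eU (ρu_mem D γ) (lg_mem_lie D (ρu_mem_NR' D ν))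
    rw [eU_lg (ρu_mem_NR' D ν), ← map_mul, ← map_inv, ← map_mul] at h1
    rw [h1, lg_eU]
  | zero => rw [map_zero]; exact Submodule.zero_mem _
  | add x y _ _ hx hy => rw [map_add]; exact Submodule.add_mem _ hx hy
  | smul a x _ hx => rw [map_zsmul]; exact Submodule.smul_mem _ _ hx

/-- **`|det Ad(γ)| = 1`** -/
theorem abs_det_adE (γ : Γ) :
    |LinearMap.det (adE D (inΓ D γ) : lie D →ₗ[ℝ] lie D)| = 1 := by
  obtain ⟨ε, hε, h⟩ := exists_eps_Lg D
  refine abs_det_eq_one (Lg D) hε h (span_Lg D) (adE D (inΓ D γ))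
    (fun x hx => adE_mem_Lg D γ hx) (fun x hx => ?_)
  have h1 : (adE D (inΓ D γ)).symm x = adE D (inΓ D γ⁻¹) x := by
    rw [LinearEquiv.symm_apply_eq, ← LinearEquiv.mul_apply, ← map_mul, ← map_mul, mul_inv_cancel,
      map_one, map_one]; rfl
  rw [h1]
  exact adE_mem_Lg D γ⁻¹ hx

/-- `Γ` acts on `𝔫` by integral matrices in a suitable basis. -/
theorem exists_int_basis_lie : ∃ (d : ℕ) (B : Basis (Fin d) ℝ (lie D)), ∀ γ : Γ,
    ∃ M : Matrix (Fin d) (Fin d) ℤ,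
      LinearMap.toMatrix B B (adE D (inΓ D γ) : lie D →ₗ[ℝ] lie D) =
        M.map (Int.castRingHom ℝ) := by
  obtain ⟨ε, hε, h⟩ := exists_eps_Lg D
  obtain ⟨d, B, hB⟩ := exists_int_basis (Lg D) hε h (span_Lg D)
  exact ⟨d, B, fun γ => hB _ fun x hx => adE_mem_Lg D γ hx⟩

end logs

section cartan

attribute [local instance] Matrix.linftyOpNormedRing Matrix.linftyOpNormedAlgebra

variable {Γ : Type*} [Group Γ] {N : Subgroup Γ} [hN : N.Normal]
  {D : EmbData Γ N} {k : ℕ} {π₁ : G1 D →* Multiplicative (Fin k → ℤ)}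

namespace Cartan

variable (𝒞 : Cartan D π₁)

theorem sum_M_eq_zero (hs : ∀ v : Fin k → ℤ, ∃ γ : Γ, Multiplicative.toAdd (π₁ (inΓ D γ)) = v) :
    ∑ i, 𝒞.W.M i = 0 := by
  apply LinearMap.pi_ext'
  intro j
  ext
  obtain ⟨γ, hγ⟩ := hs (Pi.single j 1)
  have h1 := 𝒞.W.sum_M (inΓ D γ)
  rw [abs_det_adE, Real.log_one] at h1
  have h2 : hv π₁ (inΓ D γ) = Pi.single j 1 := by
    funext i
    rw [hv, hγ]
    by_cases h : i = j
    · subst h; simp
    · simp [Pi.single_eq_of_ne h]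
  rw [h2] at h1
  simpa using h1

/-- **Sum of the weights**: `∑ dim(𝔫_μ) μ = 0`. -/
theorem sum_wts_eq_zero
    (hs : ∀ v : Fin k → ℤ, ∃ γ : Γ, Multiplicative.toAdd (π₁ (inΓ D γ)) = v) :
    ∑ μ ∈ 𝒞.wts, (finrank ℝ (𝒞.nw μ)) • μ = 0 := by
  rw [𝒞.sum_wts, 𝒞.sum_M_eq_zero hs]

/-! #### every weight is a sum of generating weights -/

open Classical in
/-- the generating weights: those with `𝔫_μ ⊄ [𝔫, 𝔫]` -/
noncomputable def gwts : Finset ((Fin k → ℝ) →ₗ[ℝ] ℝ) :=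
  𝒞.wts.filter fun μ => ¬ 𝒞.nw μ ≤ lcs D 1

theorem mem_gwts {μ : (Fin k → ℝ) →ₗ[ℝ] ℝ} :
    μ ∈ 𝒞.gwts ↔ μ ∈ 𝒞.wts ∧ ¬ 𝒞.nw μ ≤ lcs D 1 := by
  classical
  simp [gwts]

theorem lcs_one_bracket {j : ℕ} {X Y : Matrix (Fin D.n) (Fin D.n) ℝ} (hX : X ∈ lcs D 1)
    (hY : Y ∈ lcs D j) : X * Y - Y * X ∈ lcs D (j + 2) := by
  have h : lcs D 1 ≤ (lcs D (j + 2)).comap
      (LinearMap.mulRight ℝ Y - LinearMap.mulLeft ℝ Y) := by
    refine Submodule.span_le.2 ?_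
    rintro _ ⟨A, hA, B, hB, rfl⟩
    change (A * B - B * A) * Y - Y * (A * B - B * A) ∈ lcs D (j + 2)
    have e : (A * B - B * A) * Y - Y * (A * B - B * A) =
        (A * (B * Y - Y * B) - (B * Y - Y * B) * A) -
          (B * (A * Y - Y * A) - (A * Y - Y * A) * B) := by noncomm_ring
    rw [e]
    exact Submodule.sub_mem _
      (bracket_mem_lcs D hA (bracket_mem_lcs D hB hY))
      (bracket_mem_lcs D hB (bracket_mem_lcs D hA hY))
  exact h hX

theorem exists_list_aux (j : ℕ) : ∀ μ, ¬ (𝒞.nw μ ⊓ lcs D j ≤ lcs D (j + 1)) →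
    ∃ l : List ((Fin k → ℝ) →ₗ[ℝ] ℝ), (∀ ν ∈ l, ν ∈ 𝒞.gwts) ∧ l.length = j + 1 ∧ l.sum = μ := by
  classical
  induction j with
  | zero =>
    intro μ h
    refine ⟨[μ], ?_, rfl, by simp⟩
    intro ν hν
    rw [List.mem_singleton] at hν
    subst hν
    have h1 : ¬ 𝒞.nw ν ≤ lcs D 1 := fun hle => h (inf_le_left.trans hle)
    refine 𝒞.mem_gwts.2 ⟨?_, h1⟩
    by_contra hn
    apply h1
    rw [𝒞.nw_of_notMem hn]; exact bot_le
  | succ j ih =>
    intro μ h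
    -- every component of a bracket is a sum of brackets of components
    by_contra hcon
    apply h
    -- claim: brackets of homogeneous elements of weights adding up to `μ` are in `lcs (j+2)`
    have hbr : ∀ α β, α + β = μ → ∀ X ∈ 𝒞.nw α, ∀ Y ∈ 𝒞.nw β, Y ∈ lcs D j →
        X * Y - Y * X ∈ lcs D (j + 2) := by
      intro α β hαβ X hX Y hY hYj
      by_cases h1 : 𝒞.nw β ⊓ lcs D j ≤ lcs D (j + 1)
      · exact bracket_mem_lcs D (𝒞.nw_le α hX) (h1 ⟨hY, hYj⟩)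
      · obtain ⟨l, hl1, hl2, hl3⟩ := ih β h1
        by_cases h2 : 𝒞.nw α ≤ lcs D 1
        · exact lcs_one_bracket (h2 hX) hYj
        · exfalso
          apply hcon
          refine ⟨α :: l, ?_, by simp [hl2], by simp [hl3, hαβ]⟩
          intro ν hν
          rcases List.mem_cons.1 hν with rfl | hν
          · refine 𝒞.mem_gwts.2 ⟨?_, h2⟩
            by_contra hn
            apply h2
            rw [𝒞.nw_of_notMem hn]; exact bot_le
          · exact hl1 ν hν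
    -- hence the `μ`-component of `lcs (j+1)` is in `lcs (j+2)`
    have hcmp : lcs D (j + 1) ≤ (lcs D (j + 2)).comap (𝒞.cmp μ) := by
      refine Submodule.span_le.2 ?_
      rintro _ ⟨X, hX, Y, hY, rfl⟩
      change 𝒞.cmp μ (X * Y - Y * X) ∈ lcs D (j + 2)
      have hYl := lcs_le_lie D j hY
      have e : X * Y - Y * X = ∑ α ∈ 𝒞.wts, ∑ β ∈ 𝒞.wts,
          (𝒞.cmp α X * 𝒞.cmp β Y - 𝒞.cmp β Y * 𝒞.cmp α X) := by
        conv_lhs => rw [← 𝒞.sum_cmp hX, ← 𝒞.sum_cmp hYl]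
        rw [Finset.sum_mul_sum, Finset.sum_mul_sum, Finset.sum_comm (s := 𝒞.wts) (t := 𝒞.wts)
          (f := fun i j => 𝒞.cmp i Y * 𝒞.cmp j X), ← Finset.sum_sub_distrib]
        refine Finset.sum_congr rfl fun α _ => ?_
        rw [← Finset.sum_sub_distrib]
      rw [e, map_sum]
      refine Submodule.sum_mem _ fun α _ => ?_
      rw [map_sum]
      refine Submodule.sum_mem _ fun β _ => ?_
      have h1 := 𝒞.bracket_mem_nw (𝒞.cmp_mem α hX) (𝒞.cmp_mem β hYl)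
      by_cases hαβ : α + β = μ
      · rw [hαβ] at h1
        rw [𝒞.cmp_of_mem h1]
        exact hbr α β hαβ _ (𝒞.cmp_mem α hX) _ (𝒞.cmp_mem β hYl) (𝒞.cmp_mem_lcs β j hY)
      · rw [𝒞.cmp_of_mem_ne hαβ h1]
        exact Submodule.zero_mem _
    rintro Z ⟨hZ1, hZ2⟩
    have := hcmp hZ2
    rw [Submodule.mem_comap, 𝒞.cmp_of_mem hZ1] at this
    exact this

/-- **Every weight is a sum of generating weights.** -/
theorem exists_list {μ : (Fin k → ℝ) →ₗ[ℝ] ℝ} (hμ : μ ∈ 𝒞.wts) :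
    ∃ l : List ((Fin k → ℝ) →ₗ[ℝ] ℝ), (∀ ν ∈ l, ν ∈ 𝒞.gwts) ∧ l ≠ [] ∧ l.sum = μ := by
  classical
  obtain ⟨Z, hZ, hZ0⟩ := Submodule.exists_mem_ne_zero_of_ne_bot (𝒞.nw_ne_bot hμ)
  obtain ⟨K, hK⟩ := exists_lcs_eq_bot D
  have hex : ∃ j, Z ∉ lcs D j := ⟨K, by rw [hK, Submodule.mem_bot]; exact hZ0⟩
  have h1 := Nat.find_spec hex
  have h0 : Nat.find hex ≠ 0 := by
    intro h0
    rw [h0] at h1
    exact h1 (𝒞.nw_le μ hZ)
  obtain ⟨j, hj⟩ := Nat.exists_eq_succ_of_ne_zero h0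
  have h2 : Z ∈ lcs D j := by
    by_contra h
    exact Nat.find_min hex (m := j) (by omega) h
  rw [hj] at h1
  obtain ⟨l, hl1, hl2, hl3⟩ := 𝒞.exists_list_aux j μ (fun hle => h1 (hle ⟨hZ, h2⟩))
  refine ⟨l, hl1, ?_, hl3⟩
  rintro rfl
  simp at hl2

end Cartan

end cartan

end Crest.Agent.R182.ModelWt
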