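/-
R182, module MODEL (helper936): the ideal `𝔢` generated by the nonzero weight spaces, its group law
in exponential coordinates and the adjoint action.
-/
import Mathlib
import Crest.Agent.R182.ModelWt3
import Crest.Agent.R182.ModelDist1
import Crest.Agent.R182.NbModel

set_option autoImplicit false
set_option linter.unusedSectionVars false

namespace Crest.Agent.R182.ModelWt

open Module LinMod Polyc Model

section cartan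

attribute [local instance] Matrix.linftyOpNormedRing Matrix.linftyOpNormedAlgebra
attribute [local instance 100] LieRing.ofAssociativeRing

variable {Γ : Type*} [Group Γ] {N : Subgroup Γ} [hN : N.Normal]
  {D : EmbData Γ N} {k : ℕ} {π₁ : G1 D →* Multiplicative (Fin k → ℤ)}

/-- An ideal of `𝔫` is invariant under conjugation by elements of `N_ℝ`. -/
theorem cj_NR_mem {P : Submodule ℝ (Matrix (Fin D.n) (Fin D.n) ℝ)} (hPle : P ≤ lie D)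
    (hP : ∀ X ∈ lie D, ∀ Z ∈ P, X * Z - Z * X ∈ P)
    {u : (Matrix (Fin D.n) (Fin D.n) ℝ)ˣ} (hu : u ∈ D.NR)
    {Z : Matrix (Fin D.n) (Fin D.n) ℝ} (hZ : Z ∈ P) : cj u Z ∈ P := by
  set X := lg (u : Matrix (Fin D.n) (Fin D.n) ℝ) with hX
  have hXl : X ∈ lie D := lg_mem_lie D hu
  have hXn := lie_pow_zero D hXl
  have key : ∀ i, ∀ s : ℝ, ex (s • X) * Z * ex (s • (-X)) ∈ P ⊔ lcs D i := by
    intro i
    induction i with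
    | zero =>
      intro s
      refine Submodule.mem_sup_right ?_
      have h1 := cj_mem_lie D (NR_le D (exU_mem_of_lie D ((lie D).smul_mem s hXl))) (hPle hZ)
      have e : ex (s • X) * Z * ex (s • (-X)) =
          cj (exU (s • X) (lie_pow_zero D ((lie D).smul_mem s hXl))) Z := by
        rw [smul_neg]; rfl
      rw [e]
      exact h1
    | succ i ih =>
      refine mem_of_deriv_mem (ModelDist.hdm_conj hXn Z) ?_ ?_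
      · rw [zero_smul, zero_smul, ex_zero, one_mul, mul_one]
        exact Submodule.mem_sup_left hZ
      · intro s
        obtain ⟨a, ha, b, hb, hab⟩ := Submodule.mem_sup.1 (ih s)
        rw [← hab]
        have e : X * (a + b) - (a + b) * X = (X * a - a * X) + (X * b - b * X) := by
          noncomm_ring
        rw [e]
        exact Submodule.add_mem_sup (hP X hXl a ha) (bracket_mem_lcs D hXl hb)
  obtain ⟨K, hK⟩ := exists_lcs_eq_bot D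
  have h1 := key K 1
  rw [hK, sup_bot_eq, one_smul, one_smul] at h1
  have e : cj u Z = ex X * Z * ex (-X) := by
    have h2 : exU X hXn = u := exU_lg D hu
    calc cj u Z = cj (exU X hXn) Z := by rw [h2]
      _ = _ := rfl
  rw [e]; exact h1

namespace Cartan

variable (𝒞 : Cartan D π₁)

theorem wtsD : ModelDist.Wts D 𝒞.nw where
  le := 𝒞.nw_le
  br _ _ _ hX _ hY := 𝒞.bracket_mem_nw hX hY
  span X hX := by
    obtain ⟨f, hf, rfl⟩ := 𝒞.exists_decomp hX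
    exact Submodule.sum_mem _ fun μ _ => Submodule.mem_iSup_of_mem μ (hf μ)

/-- the filtration of `𝔢`: `eN 0 = 𝔢`, `eN 1 = [𝔢, 𝔢]` -/
noncomputable abbrev eN (j : ℕ) : Submodule ℝ (Matrix (Fin D.n) (Fin D.n) ℝ) :=
  ModelDist.eN 𝒞.nw j

theorem eN_le (j : ℕ) : 𝒞.eN j ≤ lie D := 𝒞.wtsD.eN_le j

theorem eN_anti {i j : ℕ} (h : i ≤ j) : 𝒞.eN j ≤ 𝒞.eN i := ModelDist.eN_anti h

theorem nw_le_eN {μ : (Fin k → ℝ) →ₗ[ℝ] ℝ} (hμ : μ ≠ 0) : 𝒞.nw μ ≤ 𝒞.eN 0 := fun _ hX =>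
  ModelDist.T_mem_eN (j := 0) ⟨μ, hμ, hX⟩

theorem br_eN {i j : ℕ} {X Z : Matrix (Fin D.n) (Fin D.n) ℝ} (hX : X ∈ 𝒞.eN i)
    (hZ : Z ∈ 𝒞.eN j) : X * Z - Z * X ∈ 𝒞.eN (i + j + 1) := ModelDist.br_eN hX hZ

theorem br_lie {X : Matrix (Fin D.n) (Fin D.n) ℝ} (hX : X ∈ lie D) {j : ℕ}
    {Z : Matrix (Fin D.n) (Fin D.n) ℝ} (hZ : Z ∈ 𝒞.eN j) : X * Z - Z * X ∈ 𝒞.eN j :=
  𝒞.wtsD.br_lie hX hZ

theorem eN_one_eq : 𝒞.eN 1 = Submodule.span ℝ {Z | ∃ X ∈ 𝒞.eN 0, ∃ Y ∈ 𝒞.eN 0,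
    Z = X * Y - Y * X} := by
  apply le_antisymm
  · refine Submodule.span_le.2 ?_
    rintro Z ⟨r, hr, hZ⟩
    obtain ⟨r, rfl⟩ : ∃ s, r = s + 1 := ⟨r - 1, by omega⟩
    obtain ⟨X, hX, Y, hY, rfl⟩ := hZ
    exact Submodule.subset_span ⟨X, ModelDist.T_mem_eN (j := 0) hX, Y,
      𝒞.eN_anti (Nat.zero_le r) (ModelDist.T_mem_eN hY), rfl⟩
  · refine Submodule.span_le.2 ?_
    rintro Z ⟨X, hX, Y, hY, rfl⟩
    exact 𝒞.br_eN (i := 0) (j := 0) hX hY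

theorem cj_mem_T {g : G1 D} (hg : g ∈ 𝒞.C) (j : ℕ) :
    ∀ {Z : Matrix (Fin D.n) (Fin D.n) ℝ}, Z ∈ ModelDist.T 𝒞.nw j →
    cj (g : (Matrix (Fin D.n) (Fin D.n) ℝ)ˣ) Z ∈ ModelDist.T 𝒞.nw j := by
  induction j with
  | zero =>
    rintro Z ⟨μ, hμ, hX⟩
    exact ⟨μ, hμ, 𝒞.cj_mem_nw hg hX⟩
  | succ j ih =>
    rintro Z ⟨X, ⟨μ, hμ, hX⟩, Y, hY, rfl⟩
    exact ⟨_, ⟨μ, hμ, 𝒞.cj_mem_nw hg hX⟩, _, ih hY, cj_bracket _ _ _⟩

/-- **`Ad(G1)`-invariance** -/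
theorem cj_mem_eN {g : (Matrix (Fin D.n) (Fin D.n) ℝ)ˣ} (hg : g ∈ G1 D) {j : ℕ}
    {Z : Matrix (Fin D.n) (Fin D.n) ℝ} (hZ : Z ∈ 𝒞.eN j) : cj g Z ∈ 𝒞.eN j := by
  obtain ⟨u, hu, c, hc, huc⟩ := 𝒞.exists_mul ⟨g, hg⟩
  have h1 : g = (u : (Matrix (Fin D.n) (Fin D.n) ℝ)ˣ) * c := congrArg Subtype.val huc
  rw [h1, cj_mul]
  refine cj_NR_mem (𝒞.eN_le j) (fun X hX Z hZ => 𝒞.br_lie hX hZ) hu ?_
  have h2 : 𝒞.eN j ≤ (𝒞.eN j).comap (cj (c : (Matrix (Fin D.n) (Fin D.n) ℝ)ˣ)).toLinearMap := by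
    refine Submodule.span_le.2 ?_
    rintro Z ⟨r, hr, hZ⟩
    exact Submodule.subset_span ⟨r, hr, 𝒞.cj_mem_T hc r hZ⟩
  exact h2 hZ

theorem cmp_mem_eN (μ : (Fin k → ℝ) →ₗ[ℝ] ℝ) (j : ℕ) {X : Matrix (Fin D.n) (Fin D.n) ℝ}
    (hX : X ∈ 𝒞.eN j) : 𝒞.cmp μ X ∈ 𝒞.eN j :=
  𝒞.cmp_mem_of_invariant (𝒞.eN_le j) (fun _ hX => 𝒞.cj_mem_eN 𝒞.tm_mem hX)
    (fun _ hX => 𝒞.cj_mem_eN ((G1 D).inv_mem 𝒞.tm_mem) hX) μ hX

/-- `𝔢_0 ⊆ [𝔢, 𝔢]` -/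
theorem nw_zero_inf_le : 𝒞.nw 0 ⊓ 𝒞.eN 0 ≤ 𝒞.eN 1 := by
  rintro X ⟨hX0, hXe⟩
  -- the zero component of an element of `𝔢` is in `eN 1`
  have h1 : 𝒞.eN 0 ≤ (𝒞.eN 1).comap (𝒞.cmp 0) := by
    refine Submodule.span_le.2 ?_
    rintro Z ⟨r, hr, hZ⟩
    change 𝒞.cmp 0 Z ∈ 𝒞.eN 1
    rcases Nat.eq_zero_or_pos r with h | h
    · subst h
      obtain ⟨μ, hμ, hZ⟩ := hZ
      rw [𝒞.cmp_of_mem_ne hμ hZ]
      exact Submodule.zero_mem _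
    · exact 𝒞.cmp_mem_eN 0 1 (𝒞.eN_anti h (ModelDist.T_mem_eN hZ))
  have h2 := h1 hXe
  rw [Submodule.mem_comap, 𝒞.cmp_of_mem hX0] at h2
  exact h2

theorem bracket_eq_sum {X Y : Matrix (Fin D.n) (Fin D.n) ℝ} (hX : X ∈ lie D) (hY : Y ∈ lie D) :
    X * Y - Y * X = ∑ ν ∈ 𝒞.wts, ∑ ρ ∈ 𝒞.wts,
      (𝒞.cmp ν X * 𝒞.cmp ρ Y - 𝒞.cmp ρ Y * 𝒞.cmp ν X) := by
  have h1 : X * Y - Y * X = ∑ ν ∈ 𝒞.wts, (𝒞.cmp ν X * Y - Y * 𝒞.cmp ν X) := by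
    rw [Finset.sum_sub_distrib, ← Finset.sum_mul, ← Finset.mul_sum, 𝒞.sum_cmp hX]
  rw [h1]
  refine Finset.sum_congr rfl fun ν _ => ?_
  rw [Finset.sum_sub_distrib, ← Finset.sum_mul, ← Finset.mul_sum, 𝒞.sum_cmp hY]

theorem cmp_bracket_aux {μ ν ρ : (Fin k → ℝ) →ₗ[ℝ] ℝ} {P : Submodule ℝ (Matrix (Fin D.n)
    (Fin D.n) ℝ)} (ih : 𝒞.nw μ ≤ P ⊔ 𝒞.eN 1) {P' : Submodule ℝ (Matrix (Fin D.n)
    (Fin D.n) ℝ)} (hPP' : ∀ X ∈ lie D, ∀ Y ∈ P, X * Y - Y * X ∈ P')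
    {X Y : Matrix (Fin D.n) (Fin D.n) ℝ} (hX : X ∈ 𝒞.nw ν) (hY : Y ∈ 𝒞.nw ρ)
    (hs : ν + ρ = μ) : X * Y - Y * X ∈ P' ⊔ 𝒞.eN 1 := by
  have hX' := 𝒞.nw_le ν hX
  have hY' := 𝒞.nw_le ρ hY
  by_cases hν0 : ν = 0
  · have hρ : ρ = μ := by rw [← hs, hν0, zero_add]
    rw [hρ] at hY
    obtain ⟨a, ha, b, hb, hab⟩ := Submodule.mem_sup.1 (ih hY)
    have e : X * Y - Y * X = (X * a - a * X) + (X * b - b * X) := by
      rw [← hab]; noncomm_ring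
    rw [e]
    exact Submodule.add_mem_sup (hPP' X hX' a ha) (𝒞.br_lie hX' hb)
  by_cases hρ0 : ρ = 0
  · have hν : ν = μ := by rw [← hs, hρ0, add_zero]
    rw [hν] at hX
    obtain ⟨a, ha, b, hb, hab⟩ := Submodule.mem_sup.1 (ih hX)
    have e : X * Y - Y * X = -(Y * a - a * Y) + -(Y * b - b * Y) := by
      rw [← hab]; noncomm_ring
    rw [e]
    exact Submodule.add_mem_sup (Submodule.neg_mem _ (hPP' Y hY' a ha))
      (Submodule.neg_mem _ (𝒞.br_lie hY' hb))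
  exact Submodule.mem_sup_right
    (𝒞.br_eN (i := 0) (j := 0) (𝒞.nw_le_eN hν0 hX) (𝒞.nw_le_eN hρ0 hY))

/-- the generating weights of `𝔢` are the nonzero generating weights of `𝔫` -/
theorem nw_le_eN_one_of {μ : (Fin k → ℝ) →ₗ[ℝ] ℝ} (h : 𝒞.nw μ ≤ lcs D 1) :
    𝒞.nw μ ≤ 𝒞.eN 1 := by
  have key : ∀ i, 𝒞.nw μ ≤ lcs D i ⊔ 𝒞.eN 1 := by
    intro i
    induction i with
    | zero => exact (𝒞.nw_le μ).trans le_sup_left
    | succ i ih =>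
      have h1 : lcs D 1 ≤ (lcs D (i + 1) ⊔ 𝒞.eN 1).comap (𝒞.cmp μ) := by
        refine Submodule.span_le.2 ?_
        rintro Z ⟨X, hX, Y, hY, rfl⟩
        have hY' : Y ∈ lie D := hY
        change 𝒞.cmp μ (X * Y - Y * X) ∈ lcs D (i + 1) ⊔ 𝒞.eN 1
        rw [𝒞.bracket_eq_sum hX hY', map_sum]
        refine Submodule.sum_mem _ fun ν _ => ?_
        rw [map_sum]
        refine Submodule.sum_mem _ fun ρ _ => ?_
        have hν := 𝒞.cmp_mem ν hX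
        have hρ := 𝒞.cmp_mem ρ hY'
        have hνρ := 𝒞.bracket_mem_nw hν hρ
        by_cases hs : ν + ρ = μ
        swap
        · rw [𝒞.cmp_of_mem_ne hs hνρ]; exact Submodule.zero_mem _
        rw [hs] at hνρ
        rw [𝒞.cmp_of_mem hνρ]
        exact 𝒞.cmp_bracket_aux ih (fun X hX Y hY => bracket_mem_lcs D hX hY) hν hρ hs
      intro X hX
      have h2 := h1 (h hX)
      rw [Submodule.mem_comap, 𝒞.cmp_of_mem hX] at h2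
      exact h2
  obtain ⟨K, hK⟩ := exists_lcs_eq_bot D
  have := key K
  rwa [hK, bot_sup_eq] at this

/-! #### `𝔢` as a Lie algebra -/

/-- `𝔢` as a Lie subalgebra -/
noncomputable def eA : LieSubalgebra ℝ (Matrix (Fin D.n) (Fin D.n) ℝ) :=
  { 𝒞.eN 0 with
    lie_mem' := fun {x y} hx hy => by
      rw [Ring.lie_def]
      exact 𝒞.eN_anti (Nat.zero_le _) (𝒞.br_eN (i := 0) (j := 0) hx hy) }

theorem mem_eA {X : Matrix (Fin D.n) (Fin D.n) ℝ} : X ∈ 𝒞.eA ↔ X ∈ 𝒞.eN 0 := Iff.rfl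

theorem eA_mem_lie (x : 𝒞.eA) : (x : Matrix (Fin D.n) (Fin D.n) ℝ) ∈ lie D := 𝒞.eN_le 0 x.2

theorem coe_bracket (x y : 𝒞.eA) : ((⁅x, y⁆ : 𝒞.eA) : Matrix (Fin D.n) (Fin D.n) ℝ) =
    (x : Matrix (Fin D.n) (Fin D.n) ℝ) * y - y * x := rfl

/-- inclusion `𝔢 → 𝔫` -/
noncomputable def inA (x : 𝒞.eA) : lieA D := ⟨x, 𝒞.eA_mem_lie x⟩

theorem isSub_eN (j : ℕ) : IsSub D (𝒞.eN j) where
  le := 𝒞.eN_le j
  br _ hX _ hY := 𝒞.br_lie (𝒞.eN_le j hX) hY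

theorem coe_mon {σ : Type*} (v : σ → 𝒞.eA) (κ : List σ) :
    ((Nb.mon v κ : 𝒞.eA) : Matrix (Fin D.n) (Fin D.n) ℝ) =
      ((Nb.mon (fun i => 𝒞.inA (v i)) κ : lieA D) : Matrix (Fin D.n) (Fin D.n) ℝ) := by
  induction κ with
  | nil => rfl
  | cons i κ ih =>
    by_cases h : κ = []
    · subst h; rfl
    · rw [Nb.mon_cons v i h, Nb.mon_cons _ i h, LieSubalgebra.coe_bracket,
        LieSubalgebra.coe_bracket, ih]
      rfl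

theorem exists_nilCE : ∃ c, 1 ≤ c ∧ Nb.NilC c 𝒞.eA := by
  obtain ⟨c, hc, h⟩ := Nb.exists_nilC D
  refine ⟨c, hc, fun κ hκ => ?_⟩
  apply Subtype.ext
  rw [coe_mon, Nb.mon_map, h (κ.map fun i => 𝒞.inA (id i)) (by simpa using hκ)]
  rfl

theorem exists_lp_eA {σ : Type*} {p : (σ → lieA D) → lieA D} (hp : p ∈ Nb.LP σ (lieA D)) :
    ∃ q ∈ Nb.LP σ 𝒞.eA, ∀ v : σ → 𝒞.eA, ((q v : 𝒞.eA) : Matrix (Fin D.n) (Fin D.n) ℝ) =
      (p (fun i => 𝒞.inA (v i)) : lieA D) := by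
  induction hp using Submodule.span_induction with
  | mem f hf =>
    obtain ⟨κ, rfl⟩ := hf
    exact ⟨_, Nb.LP.of_mon κ, fun v => 𝒞.coe_mon v κ⟩
  | zero => exact ⟨0, Submodule.zero_mem _, fun v => rfl⟩
  | add f g _ _ hf hg =>
    obtain ⟨q, hq, h1⟩ := hf
    obtain ⟨q', hq', h2⟩ := hg
    refine ⟨q + q', Submodule.add_mem _ hq hq', fun v => ?_⟩
    rw [Pi.add_apply, Pi.add_apply, AddMemClass.coe_add, AddMemClass.coe_add, h1, h2]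
  | smul r f _ hf =>
    obtain ⟨q, hq, h1⟩ := hf
    refine ⟨r • q, Submodule.smul_mem _ r hq, fun v => ?_⟩
    rw [Pi.smul_apply, Pi.smul_apply, SetLike.val_smul, SetLike.val_smul, h1]

/-- the group law in exponential coordinates -/
noncomputable def opE (x y : 𝒞.eA) : 𝒞.eA :=
  ⟨lg (ex (x : Matrix (Fin D.n) (Fin D.n) ℝ) * ex (y : Matrix (Fin D.n) (Fin D.n) ℝ)),
    (𝒞.isSub_eN 0).lg_mul_mem x.2 y.2⟩

theorem ex_opE (x y : 𝒞.eA) : ex (𝒞.opE x y : Matrix (Fin D.n) (Fin D.n) ℝ) =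
    ex (x : Matrix (Fin D.n) (Fin D.n) ℝ) * ex (y : Matrix (Fin D.n) (Fin D.n) ℝ) :=
  Nb.ex_lg_mul D (𝒞.eA_mem_lie x) (𝒞.eA_mem_lie y)

theorem ex_injE {x y : 𝒞.eA} (h : ex (x : Matrix (Fin D.n) (Fin D.n) ℝ) =
    ex (y : Matrix (Fin D.n) (Fin D.n) ℝ)) : x = y := by
  apply Subtype.ext
  rw [← lg_ex (lie_pow_zero D (𝒞.eA_mem_lie x)), ← lg_ex (lie_pow_zero D (𝒞.eA_mem_lie y)), h]

/-- **the group law of `E`** -/
noncomputable def starE : Nb.Star 𝒞.eA where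
  op := 𝒞.opE
  lp := by
    obtain ⟨p, hp, h⟩ := Nb.exists_lp D
    obtain ⟨q, hq, h1⟩ := 𝒞.exists_lp_eA hp
    have : (fun v : Bool → 𝒞.eA => 𝒞.opE (v false) (v true)) = q := by
      funext v
      apply Subtype.ext
      rw [h1, ← h]
      rfl
    rw [this]; exact hq
  op_zero x := 𝒞.ex_injE (by rw [ex_opE, ZeroMemClass.coe_zero, ex_zero, mul_one])
  zero_op x := 𝒞.ex_injE (by rw [ex_opE, ZeroMemClass.coe_zero, ex_zero, one_mul])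
  assoc x y z := 𝒞.ex_injE (by simp only [ex_opE, mul_assoc])
  op_neg x := 𝒞.ex_injE (by
    rw [ex_opE, ZeroMemClass.coe_zero, ex_zero, NegMemClass.coe_neg]
    exact ex_mul_ex_neg (lie_pow_zero D (𝒞.eA_mem_lie x)))

/-- the exponential map -/
noncomputable def exE (x : 𝒞.eA) : G1 D :=
  ⟨eU (x : Matrix (Fin D.n) (Fin D.n) ℝ) (𝒞.eA_mem_lie x), NR_le D (eU_mem _)⟩

theorem coe_exE (x : 𝒞.eA) : (𝒞.exE x : (Matrix (Fin D.n) (Fin D.n) ℝ)ˣ) =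
    eU (x : Matrix (Fin D.n) (Fin D.n) ℝ) (𝒞.eA_mem_lie x) := rfl

theorem exE_mem (x : 𝒞.eA) : 𝒞.exE x ∈ NR1 D := eU_mem (𝒞.eA_mem_lie x)

theorem exE_op (x y : 𝒞.eA) : 𝒞.exE (𝒞.starE.op x y) = 𝒞.exE x * 𝒞.exE y := by
  apply Subtype.ext
  apply Units.ext
  exact 𝒞.ex_opE x y

theorem exE_injective : Function.Injective 𝒞.exE := by
  intro x y h
  apply 𝒞.ex_injE
  exact congrArg (fun g : G1 D => ((g : (Matrix (Fin D.n) (Fin D.n) ℝ)ˣ) :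
    Matrix (Fin D.n) (Fin D.n) ℝ)) h

theorem hv_exE (x : 𝒞.eA) : hv π₁ (𝒞.exE x) = 0 := by
  have h1 : π₁ (𝒞.exE x) = 1 := (𝒞.ker _).2 (𝒞.exE_mem x)
  funext i
  rw [hv, h1]
  simp

/-- the adjoint action of `G1` on `𝔢` -/
noncomputable def AdE : G1 D →* (𝒞.eA ≃ₗ[ℝ] 𝒞.eA) where
  toFun g :=
    { toFun := fun X => ⟨cj (g : (Matrix (Fin D.n) (Fin D.n) ℝ)ˣ) X, 𝒞.cj_mem_eN g.2 X.2⟩
      invFun := fun X => ⟨cj (g : (Matrix (Fin D.n) (Fin D.n) ℝ)ˣ)⁻¹ X,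
        𝒞.cj_mem_eN ((G1 D).inv_mem g.2) X.2⟩
      map_add' := fun X Y => Subtype.ext (map_add _ _ _)
      map_smul' := fun c X => Subtype.ext (map_smul _ _ _)
      left_inv := fun X => Subtype.ext (cj_inv_cj _ _)
      right_inv := fun X => Subtype.ext (cj_cj_inv _ _) }
  map_one' := by
    apply LinearEquiv.ext
    intro X
    exact Subtype.ext (cj_one _)
  map_mul' g h := by
    apply LinearEquiv.ext
    intro X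
    exact Subtype.ext (cj_mul _ _ _)

theorem coe_AdE (g : G1 D) (x : 𝒞.eA) : ((𝒞.AdE g x : 𝒞.eA) : Matrix (Fin D.n) (Fin D.n) ℝ) =
    cj (g : (Matrix (Fin D.n) (Fin D.n) ℝ)ˣ) x := rfl

theorem AdE_lie (g : G1 D) (x y : 𝒞.eA) : 𝒞.AdE g ⁅x, y⁆ = ⁅𝒞.AdE g x, 𝒞.AdE g y⁆ :=
  Subtype.ext (cj_bracket _ _ _)

theorem conj_exE (g : G1 D) (x : 𝒞.eA) : g * 𝒞.exE x * g⁻¹ = 𝒞.exE (𝒞.AdE g x) :=
  Subtype.ext (conj_eU g.2 (𝒞.eA_mem_lie x))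

end Cartan

end cartan

end Crest.Agent.R182.ModelWt
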