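/-
R182, module BOXGRP (helper468): `Ad (ex x) = exp (ad x)` for the group law `starE` of the ideal `𝔢`.
-/
import Mathlib
import Crest.Agent.R182.ModelIde
import Crest.Agent.R182.BoxBCH

set_option autoImplicit false
set_option linter.unusedSectionVars false

namespace Crest.Agent.R182.ModelWt

open Module LinMod Polyc Model Finset

section cartan

attribute [local instance 100] LieRing.ofAssociativeRing

variable {Γ : Type*} [Group Γ] {N : Subgroup Γ} [hN : N.Normal]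
  {D : EmbData Γ N} {k : ℕ} {π₁ : G1 D →* Multiplicative (Fin k → ℤ)}

namespace Cartan

variable (𝒞 : Cartan D π₁)

theorem coe_iter_lieE (x y : 𝒞.eA) (i : ℕ) :
    (((fun z : 𝒞.eA => ⁅x, z⁆)^[i] y : 𝒞.eA) : Matrix (Fin D.n) (Fin D.n) ℝ) =
      (fun Z => (x : Matrix (Fin D.n) (Fin D.n) ℝ) * Z - Z * x)^[i] (y : Matrix _ _ ℝ) := by
  induction i with
  | zero => rfl
  | succ i ih =>
    rw [Function.iterate_succ_apply', Function.iterate_succ_apply', ← ih, coe_bracket]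

theorem mon_replicateE (x y : 𝒞.eA) (i : ℕ) :
    Nb.mon id (List.replicate i x ++ [y]) = (fun z : 𝒞.eA => ⁅x, z⁆)^[i] y := by
  induction i with
  | zero => rfl
  | succ i ih =>
    rw [List.replicate_succ, List.cons_append, Nb.mon_cons id x (by simp), ih,
      Function.iterate_succ_apply']
    rfl

theorem starE_bch {c : ℕ} (hN : Nb.NilC c 𝒞.eA) : 𝒞.starE.BCH1 c := by
  intro x y
  have hvan : ∀ i, c ≤ i → (fun z : 𝒞.eA => ⁅x, z⁆)^[i] y = 0 := by
    intro i hi
    rw [← mon_replicateE]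
    apply hN
    rw [List.length_append, List.length_replicate, List.length_singleton]
    omega
  apply 𝒞.ex_injE
  have h1 : ex ((𝒞.starE.cj x y : 𝒞.eA) : Matrix (Fin D.n) (Fin D.n) ℝ) =
      ex (x : Matrix (Fin D.n) (Fin D.n) ℝ) * ex (y : Matrix (Fin D.n) (Fin D.n) ℝ) *
        ex (-(x : Matrix (Fin D.n) (Fin D.n) ℝ)) := by
    change ex ((𝒞.opE (𝒞.opE x y) (-x) : 𝒞.eA) : Matrix (Fin D.n) (Fin D.n) ℝ) = _
    rw [ex_opE, ex_opE, NegMemClass.coe_neg]
  have hx0 := lie_pow_zero D (𝒞.eA_mem_lie x)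
  rw [h1, ← ex_conj (ex_mul_ex_neg hx0) (ex_neg_mul_ex hx0)]
  congr 1
  set K := max (2 * D.n) (c + 1) with hK
  rw [Nb.ex_mul_mul_ex_neg hx0 (y : Matrix (Fin D.n) (Fin D.n) ℝ) K (le_max_left _ _)]
  have h2 : ∑ n ∈ range (c + 1), ((n.factorial : ℝ)⁻¹) • (fun z : 𝒞.eA => ⁅x, z⁆)^[n] y =
      ∑ n ∈ range K, ((n.factorial : ℝ)⁻¹) • (fun z : 𝒞.eA => ⁅x, z⁆)^[n] y := by
    refine Finset.sum_subset (Finset.range_mono (le_max_right _ _)) fun i _ hi => ?_
    rw [Finset.mem_range, not_lt] at hi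
    rw [hvan i (by omega), smul_zero]
  rw [h2]
  symm
  change ((𝒞.eA).toSubmodule.subtype _) = _
  rw [map_sum]
  refine Finset.sum_congr rfl fun i _ => ?_
  rw [map_smul]
  congr 1
  exact 𝒞.coe_iter_lieE x y i

end Cartan

end cartan

end Crest.Agent.R182.ModelWt
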