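/-
R182, module BOXGRP (helper468): boxes are neighbourhoods of `1` and generate `M.NN`; small families;
bounded generation with control of the partial products.
-/
import Mathlib
import Crest.Agent.R182.BoxNN
import Crest.Agent.R182.BoxGen

set_option autoImplicit false
set_option linter.unusedSectionVars false

open MeasureTheory

namespace Crest.Agent.R182.Core

open Pointwise Topology

variable {Γ : Type*} [Group Γ] {k : ℕ} {S : Set Γ} {π : Γ →* Multiplicative (Fin k → ℤ)}

namespace BModel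

variable {M : BModel S π} {σ : Type*} [Fintype σ] {fam g g' : σ → M.L} {s t : ℝ}

/-- the relation between `BModel.star_cj` and `Nb.Star.BCH1` -/
theorem bch1 (M : BModel S π) : M.star.BCH1 M.c := fun x y => M.star_cj x y

theorem NB_mem_nhds (hspan : ∀ x : M.L, x ∈ Submodule.span ℝ (Set.range fun κ : List σ =>
    Nb.mon fam κ)) (hs : 0 < s) : M.NB fam s ∈ 𝓝 (1 : M.NN) := by
  classical
  have hN : Nb.Nil M.c fam := M.nilC.nil fam
  -- the linear parametrisation
  let T : ((Nb.KL σ M.c) → ℝ) →ₗ[ℝ] M.NN :=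
    Fintype.linearCombination ℝ fun κ : Nb.KL σ M.c => M.E.symm (Nb.mon fam κ.1)
  have hT : ∀ a, T a = ∑ κ, a κ • M.E.symm (Nb.mon fam κ.1) := fun a =>
    Fintype.linearCombination_apply _ _ _
  have hsurj : Function.Surjective T := by
    intro x
    obtain ⟨t, ht, a, ha, hx⟩ := Nb.exists_mem_Bx hspan hN (M.E x)
    refine ⟨fun κ => a κ.1, ?_⟩
    apply M.E.injective
    rw [hT, hx, map_sum, ← Finset.sum_coe_sort (Nb.KL σ M.c) fun κ => a κ • Nb.mon fam κ]
    exact Finset.sum_congr rfl fun κ _ => by rw [map_smul, LinearEquiv.apply_symm_apply]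
  have hopen : IsOpenMap T := LinearMap.isOpenMap_of_finiteDimensional T hsurj
  have hball : Metric.ball (0 : (Nb.KL σ M.c) → ℝ) s ∈ 𝓝 (0 : (Nb.KL σ M.c) → ℝ) :=
    Metric.ball_mem_nhds _ hs
  have h1 := hopen.image_mem_nhds hball
  rw [map_zero] at h1
  refine Filter.mem_of_superset h1 ?_
  rintro _ ⟨a, ha, rfl⟩
  rw [NB_eq_image]
  refine ⟨a, fun κ _ => ?_, (hT a).symm⟩
  rw [mem_ball_zero_iff] at ha
  have h2 := (norm_le_pi_norm a κ).trans ha.le
  rw [Real.norm_eq_abs] at h2
  exact abs_le.1 h2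

instance : PreconnectedSpace M.NN :=
  inferInstanceAs (PreconnectedSpace (Fin M.r → ℝ))

theorem closure_eq_top_of_mem_nhds {A : Set M.NN} (hA : A ∈ 𝓝 (1 : M.NN)) :
    Subgroup.closure A = ⊤ := by
  have h1 : IsOpen ((Subgroup.closure A : Subgroup M.NN) : Set M.NN) :=
    Subgroup.isOpen_of_mem_nhds _ (g := 1) (Filter.mem_of_superset hA Subgroup.subset_closure)
  have h2 : IsClosed ((Subgroup.closure A : Subgroup M.NN) : Set M.NN) :=
    Subgroup.isClosed_of_isOpen _ h1
  have h3 : ((Subgroup.closure A : Subgroup M.NN) : Set M.NN) = Set.univ :=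
    IsClopen.eq_univ ⟨h2, h1⟩ ⟨1, Subgroup.one_mem _⟩
  exact SetLike.coe_injective h3

theorem isCompact_pow {A : Set M.NN} (hA : IsCompact A) (n : ℕ) : IsCompact (A ^ n) := by
  induction n with
  | zero => rw [pow_zero]; exact isCompact_singleton
  | succ n ih => rw [pow_succ]; exact ih.mul hA

end BModel

end Crest.Agent.R182.Core

namespace Crest.Agent.R182.Nb

open Finset

variable {L : Type*} [LieRing L] [LieAlgebra ℝ L]

theorem rst_false {σ : Type*} (g : σ → L) : rst g (fun _ => False) = fun _ => 0 := by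
  funext i; unfold rst; simp

theorem Bx_zero_fam {σ : Type*} [Fintype σ] {c : ℕ} {s : ℝ} {x : L}
    (hx : x ∈ Bx c (fun _ : σ => (0 : L)) s) : x = 0 := by
  obtain ⟨a, _, rfl⟩ := hx
  refine Finset.sum_eq_zero fun κ _ => ?_
  have : mon (fun _ : σ => (0 : L)) κ = 0 := by
    induction κ with
    | nil => rfl
    | cons i κ ih =>
      by_cases hκ : κ = []
      · subst hκ; rfl
      · rw [mon_cons _ i hκ, zero_lie]
  rw [this, smul_zero]

/-- boxes of small families -/
theorem exists_Bx_small (c : ℕ) (σ τ : Type*) [Fintype σ] [Fintype τ] :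
    ∃ A : ℝ, 1 ≤ A ∧ ∀ {L : Type*} [LieRing L] [LieAlgebra ℝ L] (g : σ → L) (g' : τ → L), Nil c g →
      ∀ e, 0 ≤ e → e ≤ 1 → (∀ i, g' i ∈ Bx c g e) → ∀ s, 0 ≤ s → Bx c g' s ⊆ Bx c g (A * (e * s)) := by
  obtain ⟨A, hA, h⟩ := exists_Bx_split c σ τ 1 le_rfl
  refine ⟨A, hA, ?_⟩
  intro L _ _ g g' hN e he he1 hg s hs x hx
  obtain ⟨u, hu, k, hk, rfl⟩ := h g g' (fun _ => False) hN e he he1 (fun i hi => hi.elim)
    (fun i _ => hg i) s hs x hx
  rw [rst_false] at hu
  rw [Bx_zero_fam hu, zero_add]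
  exact hk

namespace Star

variable {S : Star L} {σ : Type*} [Fintype σ] {c : ℕ}

/-- **Bounded generation with partial products**: the factors are `r • g i`, `|r| ≤ A`, and all
partial products multiplied by an element of `Bx c g T` stay in `Bx c g A`. -/
theorem exists_gen_partial (hB : S.BCH1 c) (σ : Type*) [Fintype σ] (T : ℝ) (hT : 1 ≤ T) :
    ∃ (J : ℕ) (A : ℝ), 1 ≤ A ∧ ∀ g : σ → L, Nil c g → ∀ x ∈ Bx c g T, ∃ l : List (ℝ × σ),
      l.length ≤ J ∧ (∀ p ∈ l, |p.1| ≤ A) ∧ S.prod (l.map fun p => p.1 • g p.2) = x ∧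
      ∀ l', l' <+: l → ∀ s ∈ Bx c g T, S.op s (S.prod (l'.map fun p => p.1 • g p.2)) ∈ Bx c g A := by
  obtain ⟨J, A, hA, h⟩ := exists_gen (S := S) hB σ T (by linarith)
  set T' : ℝ := T + A with hT'
  obtain ⟨A', hA', h'⟩ := S.exists_prod_mem_T c σ T' (by linarith) (J + 1)
  refine ⟨J, A' * T' + A, by nlinarith, fun g hN x hx => ?_⟩
  obtain ⟨l, h1, h2, h3⟩ := h g hN x hx
  refine ⟨l, h1, fun p hp => (h2 p hp).trans (by nlinarith), h3, fun l' hl' s hs => ?_⟩
  have h4 := h' g hN T' (by linarith) le_rfl (s :: l'.map fun p => p.1 • g p.2) (by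
      rw [List.length_cons, List.length_map]
      have := hl'.length_le
      omega) (by
      intro y hy
      rcases List.mem_cons.1 hy with rfl | hy
      · exact Bx_mono (by linarith) hs
      · obtain ⟨p, hp, rfl⟩ := List.mem_map.1 hy
        have h5 := h2 p (hl'.subset hp)
        refine Bx_mono ?_ (Bx_smul (gen_mem_Bx hN p.2) p.1)
        linarith)
  rw [S.prod_cons] at h4
  exact Bx_mono (by linarith) h4

end Star

end Crest.Agent.R182.Nb
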