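/-
R182, module BOXGRP (helper468): the facts about the source boxes `A Z = NB (fam Z) (c1 * ρ)` used in
`El.Facts` (powers, monotonicity, bounded generation).
-/
import Mathlib
import Crest.Agent.R182.BoxTop

set_option autoImplicit false
set_option linter.unusedSectionVars false

open MeasureTheory

namespace Crest.Agent.R182.Nb

open Finset

variable {L : Type*} [LieRing L] [LieAlgebra ℝ L] {σ : Type*} [Fintype σ] {c : ℕ} {g g' : σ → L}
  {t s : ℝ} {x : L}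

theorem Bx_small_fam {δ : ℝ} (hδ : 0 < δ) (hδ1 : δ ≤ 1) (ht : 0 ≤ t) (hx : x ∈ Bx c g (δ ^ c * t)) :
    x ∈ Bx c (fun i => δ • g i) t := by
  have h1 : x ∈ Bx c (fun i => δ⁻¹ • ((fun i => δ • g i) i)) (δ ^ c * t) := by
    have : (fun i => δ⁻¹ • ((fun i => δ • g i) i)) = g := by
      funext i; rw [smul_smul, inv_mul_cancel₀ hδ.ne', one_smul]
    rw [this]; exact hx
  have h2 := Bx_unscale (one_le_inv₀ hδ |>.2 hδ1) (by positivity) h1
  refine Bx_mono (le_of_eq ?_) h2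
  rw [← mul_assoc, ← mul_pow, inv_mul_cancel₀ hδ.ne', one_pow, one_mul]

theorem Bx_of_small_fam {δ : ℝ} (hδ : 0 < δ) (hδ1 : δ ≤ 1) (ht : 0 ≤ t)
    (hx : x ∈ Bx c (fun i => δ • g i) t) : x ∈ Bx c g (δ * t) := by
  have h2 := Bx_scale (one_le_inv₀ hδ |>.2 hδ1) ht hx
  have : (fun i => δ⁻¹ • ((fun i => δ • g i) i)) = g := by
    funext i; rw [smul_smul, inv_mul_cancel₀ hδ.ne', one_smul]
  have h3 : (fun i => δ⁻¹ • δ • g i) = g := this
  rw [h3] at h2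
  refine Bx_mono (le_of_eq ?_) h2
  rw [div_inv_eq_mul, mul_comm]

theorem rst_congr' {w : σ → Prop} [DecidablePred w] (h : ∀ i, w i → g i = g' i) :
    rst g w = rst g' w := by
  funext i
  unfold rst
  split_ifs with hi
  · exact h i hi
  · rfl

theorem Bx_rst_le {w : σ → Prop} [DecidablePred w] (hs : 0 ≤ s) : Bx c (rst g w) s ⊆ Bx c g s := by
  classical
  rintro x ⟨a, ha, rfl⟩
  refine ⟨fun κ => if ∀ i ∈ κ, w i then a κ else 0, fun κ => ?_, ?_⟩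
  · beta_reduce
    split_ifs
    · exact ha κ
    · rwa [abs_zero]
  · refine Finset.sum_congr rfl fun κ _ => ?_
    beta_reduce
    by_cases h : ∀ i ∈ κ, w i
    · rw [if_pos h, mon_rst_of w h]
    · rw [if_neg h, zero_smul, mon_rst_not w h, smul_zero]

/-- **monotonicity of boxes**: the letters in `w` are the same, the others are small. -/
theorem exists_Bx_mono (c : ℕ) (σ : Type*) [Fintype σ] :
    ∃ A : ℝ, 1 ≤ A ∧ ∀ {L : Type*} [LieRing L] [LieAlgebra ℝ L] (g g' : σ → L) (w : σ → Prop)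
      [DecidablePred w], Nil c g → ∀ e, 0 ≤ e → e ≤ 1 → (∀ i, w i → g' i = g i) →
      (∀ i, ¬ w i → g' i ∈ Bx c g e) → ∀ s, 0 ≤ s → Bx c g' s ⊆ Bx c g (s + A * e * s) := by
  obtain ⟨A, hA, h⟩ := exists_Bx_split c σ σ 1 le_rfl
  refine ⟨A, hA, ?_⟩
  intro L _ _ g g' w _ hN e he he1 hw hw' s hs x hx
  obtain ⟨u, hu, k, hk, rfl⟩ := h g g' w hN e he he1
    (fun i hi => by rw [hw i hi]; exact gen_mem_Bx hN i) hw' s hs x hx
  rw [rst_congr' hw] at hu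
  refine Bx_mono (le_of_eq ?_) (Bx_add (Bx_rst_le hs hu) hk)
  ring

namespace Star

variable {S : Star L}

/-- **Bounded generation of small boxes**, with partial products. -/
theorem exists_gen_small (hB : S.BCH1 c) (σ : Type*) [Fintype σ] :
    ∃ (J : ℕ) (δ : ℝ), 0 < δ ∧ δ ≤ 1 ∧ ∀ g : σ → L, Nil c g → ∀ x ∈ Bx c g δ, ∃ l : List (ℝ × σ),
      l.length ≤ J ∧ (∀ p ∈ l, |p.1| ≤ 1) ∧ S.prod (l.map fun p => p.1 • g p.2) = x ∧
      ∀ l', l' <+: l → ∀ s ∈ Bx c g δ, S.op s (S.prod (l'.map fun p => p.1 • g p.2)) ∈ Bx c g 1 := by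
  obtain ⟨J, A, hA, h⟩ := exists_gen_partial (S := S) hB σ 1 le_rfl
  have hA0 : 0 < A := by linarith
  have hδ1 : A⁻¹ ≤ 1 := inv_le_one_of_one_le₀ hA
  have hδ0 : 0 < A⁻¹ := inv_pos.2 hA0
  refine ⟨J, A⁻¹ ^ c, by positivity, pow_le_one₀ hδ0.le hδ1, fun g hN x hx => ?_⟩
  have hN' : Nil c (fun i => A⁻¹ • g i) := hN.smul
  have hx' : x ∈ Bx c (fun i => A⁻¹ • g i) 1 := Bx_small_fam hδ0 hδ1 zero_le_one (by rwa [mul_one])
  obtain ⟨l, h1, h2, h3, h4⟩ := h _ hN' x hx'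
  have e : ∀ l : List (ℝ × σ), (l.map fun p : ℝ × σ => (p.1 * A⁻¹, p.2)).map
      (fun p => p.1 • g p.2) = l.map fun p => p.1 • A⁻¹ • g p.2 := by
    intro l
    rw [List.map_map]
    refine List.map_congr_left fun p _ => ?_
    change (p.1 * A⁻¹) • g p.2 = _
    rw [mul_smul]
  refine ⟨l.map fun p => (p.1 * A⁻¹, p.2), by rwa [List.length_map], ?_, ?_, ?_⟩
  · intro p hp
    obtain ⟨q, hq, rfl⟩ := List.mem_map.1 hp
    change |q.1 * A⁻¹| ≤ 1
    rw [abs_mul, abs_of_pos hδ0]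
    calc |q.1| * A⁻¹ ≤ A * A⁻¹ := by gcongr; exact h2 q hq
      _ = 1 := mul_inv_cancel₀ hA0.ne'
  · rw [e]; exact h3
  · intro l' hl' s hs
    obtain ⟨l'', hl'', rfl⟩ := List.prefix_map_iff.1 hl'
    rw [e]
    have h5 := h4 l'' hl'' s (Bx_small_fam hδ0 hδ1 zero_le_one (by rwa [mul_one]))
    refine Bx_mono (le_of_eq ?_) (Bx_of_small_fam hδ0 hδ1 hA0.le h5)
    exact inv_mul_cancel₀ hA0.ne'

end Star

end Crest.Agent.R182.Nb

namespace Crest.Agent.R182.Core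

open Pointwise Topology

variable {Γ : Type*} [Group Γ] {k : ℕ} {S : Set Γ} {π : Γ →* Multiplicative (Fin k → ℤ)}

namespace BModel

variable {M : BModel S π}

/-- powers of small boxes -/
theorem exists_NB_pow (M : BModel S π) (σ : Type*) [Fintype σ] (q : ℕ) (δ : ℝ) (hδ : 0 < δ)
    (hδ1 : δ ≤ 1) : ∃ c₁ : ℝ, 0 < c₁ ∧ c₁ ≤ δ ∧ ∀ (fam : σ → M.L), ∀ n ≤ q,
      (M.NB fam c₁) ^ n ⊆ M.NB fam δ := by
  obtain ⟨A, hA, h⟩ := M.star.exists_prod_mem_T M.c σ 1 le_rfl q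
  have hA0 : 0 < A := by linarith
  refine ⟨δ / A, by positivity, div_le_self hδ.le hA, fun fam n hn u hu => ?_⟩
  obtain ⟨f, rfl⟩ := Set.mem_pow.1 hu
  rw [mem_NB, E_prod]
  have h1 := h fam (M.nilC.nil fam) (δ / A) (by positivity)
    ((div_le_self hδ.le hA).trans hδ1) ((List.ofFn fun i => (f i : M.NN)).map M.E)
    (by rw [List.length_map, List.length_ofFn]; exact hn) (by
      intro x hx
      obtain ⟨y, hy, rfl⟩ := List.mem_map.1 hx
      obtain ⟨i, rfl⟩ := List.mem_ofFn.1 hy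
      exact (f i).2)
  refine Nb.Bx_mono (le_of_eq ?_) h1
  field_simp

/-- **bounded generation** of the small boxes by the one-parameter moves, with partial products -/
theorem exists_NB_gen (M : BModel S π) (σ : Type*) [Fintype σ] :
    ∃ (J : ℕ) (c₁ : ℝ), 0 < c₁ ∧ c₁ ≤ 1 ∧ ∀ fam : σ → M.L,
      (∀ n ≤ 10, (M.NB fam c₁) ^ n ⊆ M.NB fam 1) ∧
      ∀ u ∈ (M.NB fam c₁) ^ 10, ∃ l : List (ℝ × σ), l.length ≤ J ∧ (∀ p ∈ l, |p.1| ≤ 1) ∧
        (l.map fun p => M.E.symm (p.1 • fam p.2)).prod = u ∧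
        ∀ l', l' <+: l → ∀ s ∈ (M.NB fam c₁) ^ 5,
          s * (l'.map fun p => M.E.symm (p.1 • fam p.2)).prod ∈ M.NB fam 1 := by
  obtain ⟨J, δ, hδ, hδ1, h⟩ := Nb.Star.exists_gen_small (bch1 M) σ
  obtain ⟨c₁, hc, hc1, h'⟩ := exists_NB_pow M σ 10 δ hδ hδ1
  refine ⟨J, c₁, hc, hc1.trans hδ1, fun fam => ⟨fun n hn => (h' fam n hn).trans (NB_mono hδ1), ?_⟩⟩
  intro u hu
  obtain ⟨l, h1, h2, h3, h4⟩ := h fam (M.nilC.nil fam) (M.E u) (h' fam 10 le_rfl hu)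
  have e : ∀ l : List (ℝ × σ), M.E (l.map fun p => M.E.symm (p.1 • fam p.2)).prod =
      M.star.prod (l.map fun p => p.1 • fam p.2) := by
    intro l
    rw [E_prod, List.map_map]
    congr 1
    refine List.map_congr_left fun p _ => ?_
    exact LinearEquiv.apply_symm_apply _ _
  refine ⟨l, h1, h2, M.E.injective (by rw [e, h3]), fun l' hl' s hs => ?_⟩
  rw [mem_NB, E_mul, e]
  exact h4 l' hl' _ (h' fam 5 (by norm_num) hs)

/-- the moves of the bounded generation -/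
theorem E_symm_mem_rst {σ : Type*} [Fintype σ] {fam : σ → M.L} {w : σ → Prop} [DecidablePred w]
    {i : σ} (hi : w i) {r : ℝ} (hr : |r| ≤ 1) :
    M.E.symm (r • fam i) ∈ M.NB (Nb.rst fam w) 1 := by
  rw [mem_NB, LinearEquiv.apply_symm_apply]
  have h1 := Nb.Bx_smul (Nb.gen_mem_Bx (M.nilC.nil (Nb.rst fam w)) i) r
  have h2 : Nb.rst fam w i = fam i := if_pos hi
  rw [h2] at h1
  exact Nb.Bx_mono (by linarith) h1

/-- **monotonicity** -/
theorem exists_NB_mono' (M : BModel S π) (σ : Type*) [Fintype σ] :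
    ∃ A : ℝ, 1 ≤ A ∧ ∀ (g g' : σ → M.L) (w : σ → Prop) [DecidablePred w], ∀ e, 0 ≤ e → e ≤ 1 →
      (∀ i, w i → g' i = g i) → (∀ i, ¬ w i → g' i ∈ Nb.Bx M.c g e) → ∀ s, 0 ≤ s →
      M.NB g' s ⊆ M.NB g (s + A * e * s) := by
  obtain ⟨A, hA, h⟩ := Nb.exists_Bx_mono M.c σ
  refine ⟨A, hA, ?_⟩
  intro g g' w _ e he he1 hw hw' s hs x hx
  exact h g g' w (M.nilC.nil g) e he he1 hw hw' s hs hx

theorem pow_meas {A : Set M.NN} (hA : IsCompact A) (n : ℕ) : MeasurableSet (A ^ n) :=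
  (isCompact_pow hA n).measurableSet

end BModel

end Crest.Agent.R182.Core
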