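/-
R182, module BOXVOL (helper88), part 1: packing and covering for product sets along a homomorphism,
slabs of symmetric convex bodies.
-/
import Mathlib

set_option autoImplicit false
set_option linter.unusedSectionVars false

open MeasureTheory Set
open scoped Pointwise ENNReal

namespace Crest.Agent.R182.BoxVol

section packing

variable {G Q : Type*} [Group G] [MeasurableSpace G] [MeasurableMul G]
  [Group Q] [MeasurableSpace Q] [MeasurableMul Q]

/-- right translates of a measurable set are measurable -/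
theorem measurableSet_mul_singleton {A : Set G} (hA : MeasurableSet A) (u : G) :
    MeasurableSet (A * {u}) := by
  rw [mul_singleton]
  exact (MeasurableEquiv.mulRight u).measurableSet_image.mpr hA

theorem measure_mul_singleton (μ : Measure G) [μ.IsMulRightInvariant] (A : Set G) (u : G) :
    μ (A * {u}) = μ A := by
  rw [mul_singleton]
  have h : (fun x => x * u) '' A = (fun x => x * u⁻¹) ⁻¹' A := by
    ext x
    constructor
    · rintro ⟨a, ha, rfl⟩
      simpa using ha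
    · intro hx
      exact ⟨x * u⁻¹, hx, by simp⟩
  rw [h, measure_preimage_mul_right]

/-- The number of pairwise disjoint right translates. -/
theorem card_mul_le (ν : Measure Q) [ν.IsMulRightInvariant] (π : G →* Q) {P : Set Q}
    (hP : MeasurableSet P) {U : Set G} (F : Finset G) (hF : (F : Set G) ⊆ U)
    (hd : (F : Set G).PairwiseDisjoint fun u => P * {π u}) :
    (F.card : ℝ≥0∞) * ν P ≤ ν (P * π '' U) := by
  have h1 : ν (⋃ u ∈ F, P * {π u}) = ∑ u ∈ F, ν (P * {π u}) :=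
    measure_biUnion_finset hd fun u _ => measurableSet_mul_singleton hP _
  have h2 : ∑ u ∈ F, ν (P * {π u}) = (F.card : ℝ≥0∞) * ν P := by
    rw [Finset.sum_congr rfl fun u _ => measure_mul_singleton ν P (π u), Finset.sum_const,
      nsmul_eq_mul]
  rw [← h2, ← h1]
  refine measure_mono (iUnion₂_subset fun u hu => ?_)
  exact mul_subset_mul_left (singleton_subset_iff.2 (mem_image_of_mem _ (hF hu)))

/-- A maximal finite set with pairwise disjoint translates. -/
theorem exists_maximal (ν : Measure Q) [ν.IsMulRightInvariant] (π : G →* Q) {P : Set Q}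
    (hP : MeasurableSet P) (hP0 : ν P ≠ 0) (U : Set G) (hfin : ν (P * π '' U) ≠ ∞) :
    ∃ F : Finset G, (F : Set G) ⊆ U ∧ ((F.card : ℝ≥0∞) * ν P ≤ ν (P * π '' U)) ∧
      ∀ u ∈ U, ∃ u' ∈ F, ∃ x ∈ P, ∃ y ∈ P, π u = x⁻¹ * y * π u' := by
  classical
  -- the cardinalities are bounded
  obtain ⟨n, hn⟩ : ∃ n : ℕ, ν (P * π '' U) < n * ν P := by
    by_cases hPtop : ν P = ∞
    · refine ⟨1, ?_⟩
      rw [hPtop, Nat.cast_one, one_mul]
      exact lt_of_le_of_ne le_top hfin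
    · obtain ⟨n, hn⟩ := ENNReal.exists_nat_mul_gt hP0 hfin
      exact ⟨n, hn⟩
  let p : ℕ → Prop := fun m => ∃ F : Finset G, (F : Set G) ⊆ U ∧
    (F : Set G).PairwiseDisjoint (fun u => P * {π u}) ∧ F.card = m
  have hb : ∀ m, p m → m ≤ n := by
    rintro m ⟨F, hF, hd, rfl⟩
    by_contra hlt
    push Not at hlt
    have h1 := card_mul_le ν π hP F hF hd
    have h2 : (n : ℝ≥0∞) * ν P ≤ (F.card : ℝ≥0∞) * ν P := by gcongr
    exact absurd (h2.trans h1) (not_le.2 hn)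
  have h0 : p 0 := ⟨∅, by simp, by simp, rfl⟩
  have hne : p (Nat.findGreatest p n) := Nat.findGreatest_spec (P := p) (Nat.zero_le n) h0
  obtain ⟨F, hF, hd, hcard⟩ := hne
  refine ⟨F, hF, card_mul_le ν π hP F hF hd, fun u hu => ?_⟩
  have hPne : P.Nonempty := by
    rw [nonempty_iff_ne_empty]
    rintro rfl
    simp at hP0
  obtain ⟨x₀, hx₀⟩ := hPne
  by_cases huF : u ∈ F
  · exact ⟨u, huF, x₀, hx₀, x₀, hx₀, by simp⟩
  by_contra hcon
  push Not at hcon
  have hins : p (Nat.findGreatest p n + 1) := by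
    refine ⟨insert u F, ?_, ?_, ?_⟩
    · rw [Finset.coe_insert]
      exact insert_subset hu hF
    · rw [Finset.coe_insert]
      refine hd.insert fun u' hu' _ => ?_
      refine disjoint_left.2 ?_
      rintro z ⟨x, hx, _, rfl, hz⟩ ⟨y, hy, _, rfl, hz'⟩
      refine hcon u' hu' x hx y hy ?_
      have : x * π u = y * π u' := hz.trans hz'.symm
      rw [mul_assoc, ← this]; group
    · rw [Finset.card_insert_of_notMem huF, hcard]
  have := Nat.le_findGreatest (hb _ hins) hins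
  omega

/-- **Lower bound** for the measure of `N * U`. -/
theorem measure_mul_lower (μ : Measure G) [μ.IsMulRightInvariant] (ν : Measure Q)
    [ν.IsMulRightInvariant] (π : G →* Q) {N U : Set G} {P : Set Q} (hN : MeasurableSet N)
    (hfin : μ (N * U) ≠ ∞) (hP : ∀ x ∈ N, ∀ y ∈ N, π (x⁻¹ * y) ∈ P) :
    μ N * ν (π '' U) ≤ μ (N * U) * ν P := by
  by_cases hN0 : μ N = 0
  · rw [hN0, zero_mul]; exact zero_le
  obtain ⟨F, hF, hcard, hcov⟩ := exists_maximal μ (MonoidHom.id G) hN hN0 U (by simpa using hfin)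
  have h1 : ν (π '' U) ≤ F.card * ν P := by
    calc ν (π '' U) ≤ ν (⋃ u ∈ F, P * {π u}) := by
          refine measure_mono ?_
          rintro _ ⟨u, hu, rfl⟩
          obtain ⟨u', hu', x, hx, y, hy, h⟩ := hcov u hu
          refine mem_iUnion₂.2 ⟨u', hu', π (x⁻¹ * y), hP x hx y hy, π u', rfl, ?_⟩
          change π (x⁻¹ * y) * π u' = π u
          rw [← map_mul]
          congr 1
          exact h.symm
      _ ≤ ∑ u ∈ F, ν (P * {π u}) := measure_biUnion_finset_le _ _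
      _ = F.card * ν P := by
          rw [Finset.sum_congr rfl fun u _ => measure_mul_singleton ν P (π u), Finset.sum_const,
            nsmul_eq_mul]
  have h2 : (F.card : ℝ≥0∞) * μ N ≤ μ (N * U) := by simpa using hcard
  calc μ N * ν (π '' U) ≤ μ N * (F.card * ν P) := by gcongr
    _ = (F.card * μ N) * ν P := by ring
    _ ≤ μ (N * U) * ν P := by gcongr

/-- **Upper bound** for the measure of `N * U`. -/
theorem measure_mul_upper (μ : Measure G) [μ.IsMulRightInvariant] (ν : Measure Q)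
    [ν.IsMulRightInvariant] (π : G →* Q) {N U N₂ : Set G} {P : Set Q} (hP : MeasurableSet P)
    (hP0 : ν P ≠ 0) (hfin : ν (P * π '' U) ≠ ∞)
    (hN₂ : ∀ u ∈ U, ∀ u' ∈ U, ∀ x ∈ P, ∀ y ∈ P, π (u * u'⁻¹) = x⁻¹ * y → u * u'⁻¹ ∈ N₂) :
    μ (N * U) * ν P ≤ ν (P * π '' U) * μ (N * N₂) := by
  obtain ⟨F, hF, hcard, hcov⟩ := exists_maximal ν π hP hP0 U hfin
  have h1 : μ (N * U) ≤ F.card * μ (N * N₂) := by
    calc μ (N * U) ≤ μ (⋃ u ∈ F, (N * N₂) * {u}) := by
          refine measure_mono ?_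
          rintro _ ⟨n, hn, u, hu, rfl⟩
          obtain ⟨u', hu', x, hx, y, hy, h⟩ := hcov u hu
          refine mem_iUnion₂.2 ⟨u', hu', n * (u * u'⁻¹), mul_mem_mul hn ?_, u', rfl, ?_⟩
          · refine hN₂ u hu u' (hF hu') x hx y hy ?_
            rw [map_mul, map_inv, h]; group
          · simp [mul_assoc]
      _ ≤ ∑ u ∈ F, μ ((N * N₂) * {u}) := measure_biUnion_finset_le _ _
      _ = F.card * μ (N * N₂) := by
          rw [Finset.sum_congr rfl fun u _ => measure_mul_singleton μ (N * N₂) u,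
            Finset.sum_const, nsmul_eq_mul]
  calc μ (N * U) * ν P ≤ (F.card * μ (N * N₂)) * ν P := by gcongr
    _ = (F.card * ν P) * μ (N * N₂) := by ring
    _ ≤ ν (P * π '' U) * μ (N * N₂) := by gcongr

end packing

section slab

variable {V : Type*} [NormedAddCommGroup V] [NormedSpace ℝ V] [FiniteDimensional ℝ V]
  [MeasurableSpace V] [BorelSpace V] (μ : Measure V) [μ.IsAddHaarMeasure]

open Module

/-- **Slabs** of a convex set. -/
theorem slab_le {K : Set V} (hK : Convex ℝ K) (h0 : (0 : V) ∈ K) (hKm : MeasurableSet K)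
    (ℓ : V →ₗ[ℝ] ℝ) {x₀ : V} (hx₀ : x₀ ∈ K) {H η : ℝ} (hH : 0 < H) (hℓ : H ≤ ℓ x₀) (hη : 0 < η) :
    μ {x ∈ K | |ℓ x| ≤ η * H} ≤ ENNReal.ofReal (4 * 2 ^ finrank ℝ V * η) * μ K := by
  set S : Set V := {x ∈ K | |ℓ x| ≤ η * H} with hS
  have hℓc : Continuous ℓ := ℓ.continuous_of_finiteDimensional
  have hSm : MeasurableSet S := by
    rw [hS]
    exact hKm.inter ((hℓc.abs.measurable) measurableSet_Iic)
  set m : ℕ := ⌊1 / (4 * η)⌋₊ with hm
  have hmle : (m : ℝ) ≤ 1 / (4 * η) := Nat.floor_le (by positivity)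
  have hmlt : 1 / (4 * η) < (m : ℝ) + 1 := Nat.lt_floor_add_one _
  set T : ℕ → Set V := fun j => ((j * (2 * η)) • x₀) +ᵥ ((1 / 2 : ℝ) • S) with hT
  have hTm : ∀ j, MeasurableSet (T j) := fun j =>
    (hSm.const_smul_of_ne_zero (by norm_num : (1 / 2 : ℝ) ≠ 0)).const_vadd _
  have hTμ : ∀ j, μ (T j) = ENNReal.ofReal ((1 / 2) ^ finrank ℝ V) * μ S := by
    intro j
    rw [hT]
    simp only
    rw [measure_vadd, Measure.addHaar_smul, abs_of_pos (by positivity)]
  have hTK : ∀ j ∈ Finset.range (m + 1), T j ⊆ K := by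
    intro j hj
    rw [Finset.mem_range, Nat.lt_succ_iff] at hj
    rintro _ ⟨_, ⟨x, hx, rfl⟩, rfl⟩
    have h1 : (j : ℝ) * (2 * η) ≤ 1 / 2 := by
      have h2 : (j : ℝ) ≤ 1 / (4 * η) := (Nat.cast_le.2 hj).trans hmle
      calc (j : ℝ) * (2 * η) ≤ 1 / (4 * η) * (2 * η) := by gcongr
        _ = 1 / 2 := by field_simp; norm_num
    have h3 : (0 : ℝ) ≤ j * (2 * η) := by positivity
    have h5 : (j * (2 * η)) • x₀ + (1 / 2 : ℝ) • x =
        ((j * (2 * η)) • x₀ + (1 / 2 : ℝ) • x) + (1 - (j * (2 * η)) - 1 / 2) • (0 : V) := by simp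
    change (j * (2 * η)) • x₀ + (1 / 2 : ℝ) • x ∈ K
    rw [h5]
    have h6 := hK.sum_mem (t := (Finset.univ : Finset (Fin 3)))
      (w := ![j * (2 * η), 1 / 2, 1 - (j * (2 * η)) - 1 / 2]) (z := ![x₀, x, 0]) (by
        intro i _; fin_cases i <;> simp <;> nlinarith) (by
        rw [Fin.sum_univ_three]; simp) (by
        intro i _; fin_cases i <;> simp <;> [exact hx₀; exact hx.1; exact h0])
    rw [Fin.sum_univ_three] at h6
    simpa using h6
  have hd : ((Finset.range (m + 1) : Finset ℕ) : Set ℕ).PairwiseDisjoint T := by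
    intro i _ j _ hij
    refine disjoint_left.2 ?_
    rintro _ ⟨_, ⟨x, hx, rfl⟩, rfl⟩ ⟨_, ⟨y, hy, rfl⟩, h⟩
    have h1 := congrArg ℓ h
    simp only [vadd_eq_add, map_add, map_smul, smul_eq_mul] at h1
    have hx2 := abs_le.1 hx.2
    have hy2 := abs_le.1 hy.2
    have h2 : ((j : ℝ) - i) * (2 * η * ℓ x₀) = (ℓ x - ℓ y) / 2 := by linarith
    have h3 : |((j : ℝ) - i) * (2 * η * ℓ x₀)| ≤ η * H := by
      rw [h2, abs_le]; constructor <;> linarith [hx2.1, hx2.2, hy2.1, hy2.2]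
    have h4 : (1 : ℝ) ≤ |(j : ℝ) - i| := by
      have : ((j : ℤ) - i) ≠ 0 := by
        intro h; apply hij; omega
      have h5 := Int.one_le_abs this
      exact_mod_cast h5
    have hp : 0 < 2 * η * ℓ x₀ := by
      have : 0 < ℓ x₀ := lt_of_lt_of_le hH hℓ
      positivity
    rw [abs_mul, abs_of_pos hp] at h3
    have h6 : 2 * η * ℓ x₀ ≤ η * H := le_trans (le_mul_of_one_le_left hp.le h4) h3
    nlinarith [mul_le_mul_of_nonneg_left hℓ hη.le, mul_pos hη hH]
  have hsum : ((m : ℝ≥0∞) + 1) * (ENNReal.ofReal ((1 / 2) ^ finrank ℝ V) * μ S) ≤ μ K := by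
    calc ((m : ℝ≥0∞) + 1) * (ENNReal.ofReal ((1 / 2) ^ finrank ℝ V) * μ S)
        = ∑ j ∈ Finset.range (m + 1), μ (T j) := by
          rw [Finset.sum_congr rfl fun j _ => hTμ j, Finset.sum_const, Finset.card_range,
            nsmul_eq_mul]
          push_cast; rfl
      _ = μ (⋃ j ∈ Finset.range (m + 1), T j) :=
          (measure_biUnion_finset hd fun j _ => hTm j).symm
      _ ≤ μ K := measure_mono (iUnion₂_subset hTK)
  -- conclude
  have h1 : ENNReal.ofReal (1 / (4 * η)) ≤ (m : ℝ≥0∞) + 1 := by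
    have : (m : ℝ≥0∞) + 1 = ENNReal.ofReal ((m : ℝ) + 1) := by
      rw [ENNReal.ofReal_add (by positivity) (by norm_num)]; simp
    rw [this]
    exact ENNReal.ofReal_le_ofReal hmlt.le
  calc μ S = ENNReal.ofReal (4 * 2 ^ finrank ℝ V * η) *
        (ENNReal.ofReal (1 / (4 * η)) * (ENNReal.ofReal ((1 / 2) ^ finrank ℝ V) * μ S)) := by
        rw [← mul_assoc, ← mul_assoc, ← ENNReal.ofReal_mul (by positivity),
          ← ENNReal.ofReal_mul (by positivity)]
        have : 4 * 2 ^ finrank ℝ V * η * (1 / (4 * η)) * (1 / 2) ^ finrank ℝ V = 1 := by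
          field_simp
          rw [← mul_pow]; norm_num
        rw [this, ENNReal.ofReal_one, one_mul]
    _ ≤ ENNReal.ofReal (4 * 2 ^ finrank ℝ V * η) *
        (((m : ℝ≥0∞) + 1) * (ENNReal.ofReal ((1 / 2) ^ finrank ℝ V) * μ S)) := by gcongr
    _ ≤ ENNReal.ofReal (4 * 2 ^ finrank ℝ V * η) * μ K := by gcongr

/-- Slabs for complex valued functionals. -/
theorem slab_le_complex {K : Set V} (hK : Convex ℝ K) (h0 : (0 : V) ∈ K) (hKm : MeasurableSet K)
    (ℓ : V →ₗ[ℝ] ℂ) {x₀ : V} (hx₀ : x₀ ∈ K) {H η : ℝ} (hH : 0 < H) (hℓ : H ≤ ‖ℓ x₀‖) (hη : 0 < η) :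
    μ {x ∈ K | ‖ℓ x‖ ≤ η * H} ≤ ENNReal.ofReal (4 * 2 ^ finrank ℝ V * η) * μ K := by
  have hne : (‖ℓ x₀‖ : ℝ) ≠ 0 := (lt_of_lt_of_le hH hℓ).ne'
  set u : ℂ := (starRingEnd ℂ) (ℓ x₀) / ‖ℓ x₀‖ with hu
  have hun : ‖u‖ = 1 := by
    rw [hu, norm_div, RCLike.norm_conj, Complex.norm_real, norm_norm, div_self hne]
  let ℓ' : V →ₗ[ℝ] ℝ := Complex.reLm ∘ₗ (LinearMap.mulLeft ℝ u) ∘ₗ ℓ
  have hℓ' : ∀ x, ℓ' x = (u * ℓ x).re := fun x => rfl
  have h1 : ℓ' x₀ = ‖ℓ x₀‖ := by
    rw [hℓ', hu, div_mul_eq_mul_div, mul_comm ((starRingEnd ℂ) (ℓ x₀)), Complex.mul_conj,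
      Complex.normSq_eq_norm_sq]
    have : ((‖ℓ x₀‖ ^ 2 : ℝ) : ℂ) / (‖ℓ x₀‖ : ℂ) = ((‖ℓ x₀‖ : ℝ) : ℂ) := by
      rw [← Complex.ofReal_div]
      congr 1
      field_simp
    rw [this, Complex.ofReal_re]
  refine le_trans (measure_mono ?_) (slab_le μ hK h0 hKm ℓ' hx₀ hH (by rw [h1]; exact hℓ) hη)
  intro x hx
  refine ⟨hx.1, ?_⟩
  rw [hℓ']
  calc |(u * ℓ x).re| ≤ ‖u * ℓ x‖ := Complex.abs_re_le_norm _
    _ = ‖ℓ x‖ := by rw [norm_mul, hun, one_mul]
    _ ≤ η * H := hx.2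

end slab

end Crest.Agent.R182.BoxVol
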