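/-
R182, block (CNT), part 1: Jacobians of polynomial automorphisms of `ℝ^σ` are constant.
-/
import Mathlib
import Crest.Agent.R182.PolycPoly

set_option autoImplicit false
set_option linter.unusedSectionVars false

namespace Crest.Agent.R182.ModelCount

open MvPolynomial MeasureTheory Crest.Agent.R182.Polyc

variable {σ τ : Type*} [Fintype σ] [Fintype τ]

/-- derivative of a polynomial function -/
noncomputable def dpoly (p : MvPolynomial σ ℝ) (x : σ → ℝ) : (σ → ℝ) →L[ℝ] ℝ :=
  ∑ i, (eval x (pderiv i p)) • ContinuousLinearMap.proj (R := ℝ) (φ := fun _ : σ => ℝ) i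

theorem dpoly_apply (p : MvPolynomial σ ℝ) (x v : σ → ℝ) :
    dpoly p x v = ∑ i, eval x (pderiv i p) * v i := by
  simp [dpoly]

theorem hasFDerivAt_eval (p : MvPolynomial σ ℝ) (x : σ → ℝ) :
    HasFDerivAt (fun y => eval y p) (dpoly p x) x := by
  classical
  induction p using MvPolynomial.induction_on with
  | C a =>
    have : dpoly (C a) x = 0 := by
      ext v; simp [dpoly_apply]
    rw [this]
    simpa using hasFDerivAt_const a x
  | add p q hp hq =>
    have : dpoly (p + q) x = dpoly p x + dpoly q x := by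
      ext v; simp [dpoly_apply, add_mul, Finset.sum_add_distrib]
    rw [this]
    refine (hp.add hq).congr_of_eventuallyEq (Filter.Eventually.of_forall fun y => ?_)
    simp
  | mul_X p i hp =>
    have h1 : HasFDerivAt (fun y : σ → ℝ => y i)
        (ContinuousLinearMap.proj (R := ℝ) (φ := fun _ : σ => ℝ) i) x :=
      (ContinuousLinearMap.proj (R := ℝ) (φ := fun _ : σ => ℝ) i).hasFDerivAt
    have h2 := hp.mul h1
    have : dpoly (p * X i) x = eval x p • (ContinuousLinearMap.proj (R := ℝ)
        (φ := fun _ : σ => ℝ) i) + x i • dpoly p x := by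
      ext v
      simp only [dpoly_apply, Derivation.leibniz, pderiv_X, smul_eq_mul, map_add, map_mul, eval_X,
        add_apply, smul_apply,
        ContinuousLinearMap.proj_apply, add_mul, Finset.sum_add_distrib]
      congr 1
      · rw [Finset.sum_eq_single i]
        · simp
        · intro j _ hj
          simp [Pi.single_eq_of_ne hj.symm]
        · simp
      · rw [Finset.mul_sum]
        refine Finset.sum_congr rfl fun j _ => ?_
        ring
    rw [this]
    refine h2.congr_of_eventuallyEq (Filter.Eventually.of_forall fun y => ?_)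
    simp

/-- Jacobian matrix (polynomial entries) -/
noncomputable def jac (p : τ → MvPolynomial σ ℝ) :
    Matrix τ σ (MvPolynomial σ ℝ) :=
  fun i j => pderiv j (p i)

/-- derivative of a polynomial map -/
noncomputable def dmap (p : τ → MvPolynomial σ ℝ) (x : σ → ℝ) :
    (σ → ℝ) →L[ℝ] (τ → ℝ) :=
  ContinuousLinearMap.pi fun i => dpoly (p i) x

theorem hasFDerivAt_map (p : τ → MvPolynomial σ ℝ) (x : σ → ℝ) :
    HasFDerivAt (fun y i => eval y (p i)) (dmap p x) x :=
  hasFDerivAt_pi.mpr fun i => hasFDerivAt_eval (p i) x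

variable [DecidableEq σ] [DecidableEq τ]

omit [DecidableEq τ] in
theorem dmap_eq (p : τ → MvPolynomial σ ℝ) (x : σ → ℝ) :
    (dmap p x : (σ → ℝ) →ₗ[ℝ] (τ → ℝ)) = Matrix.toLin' ((jac p).map (eval x)) := by
  apply LinearMap.ext
  intro v
  funext i
  simp only [dmap, ContinuousLinearMap.coe_coe, ContinuousLinearMap.coe_pi', dpoly_apply,
    Matrix.toLin'_apply, Matrix.mulVec, dotProduct, Matrix.map_apply, jac]

theorem det_dmap (p : σ → MvPolynomial σ ℝ) (x : σ → ℝ) :
    (dmap p x).det = eval x (jac p).det := by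
  rw [ContinuousLinearMap.det, dmap_eq, LinearMap.det_toLin', RingHom.map_det]
  rfl

omit [Fintype σ] [DecidableEq σ] in
/-- a polynomial with a polynomial inverse is a constant -/
theorem exists_const_of_mul_eq_one {p : MvPolynomial σ ℝ} {g : (σ → ℝ) → ℝ} (hg : IsPoly g)
    (h : ∀ x, g x * eval x p = 1) : ∃ c : ℝ, c ≠ 0 ∧ p = C c := by
  obtain ⟨q, hq⟩ := hg
  have h1 : q * p = 1 := by
    apply MvPolynomial.funext
    intro x
    rw [map_mul, ← hq x, h x, map_one]
  have h2 : IsUnit p := IsUnit.of_mul_eq_one_right q h1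
  obtain ⟨r, hr, hp⟩ := MvPolynomial.isUnit_iff_eq_C_of_isReduced.mp h2
  exact ⟨r, hr.ne_zero, hp⟩

/-- the chain rule determinant identity: polynomial maps with polynomial left inverse have constant
Jacobian determinant. -/
theorem exists_jac_const {p q : σ → MvPolynomial σ ℝ}
    (h : ∀ x : σ → ℝ, (fun i => eval (fun j => eval x (p j)) (q i)) = x) :
    ∃ c : ℝ, c ≠ 0 ∧ (jac p).det = C c := by
  have h1 : ∀ x : σ → ℝ, (dmap q (fun j => eval x (p j))).det * (dmap p x).det = 1 := by
    intro x
    have h2 := (hasFDerivAt_map q (fun j => eval x (p j))).comp x (hasFDerivAt_map p x)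
    have h3 : HasFDerivAt (fun y : σ → ℝ => y) ((dmap q (fun j => eval x (p j))).comp (dmap p x)) x :=
      h2.congr_of_eventuallyEq (Filter.Eventually.of_forall fun y => (h y).symm)
    have h4 := h3.unique (hasFDerivAt_id x)
    have h5 := congrArg (fun T : (σ → ℝ) →L[ℝ] (σ → ℝ) => T.det) h4
    simp only [ContinuousLinearMap.det, ContinuousLinearMap.coe_id, LinearMap.det_id] at h5
    rw [← h5, ContinuousLinearMap.det, ContinuousLinearMap.det, ← LinearMap.det_comp]
    rfl
  refine exists_const_of_mul_eq_one (g := fun x => eval (fun j => eval x (p j)) (jac q).det) ?_ ?_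
  · exact IsPoly.comp (f := fun y => eval y (jac q).det) ⟨_, fun _ => rfl⟩
      (g := fun x j => eval x (p j)) fun j => ⟨p j, fun _ => rfl⟩
  · intro x
    have := h1 x
    rwa [det_dmap, det_dmap] at this

/-- choice of polynomials for a polynomial map -/
theorem exists_polys {f : (σ → ℝ) → (τ → ℝ)} (hf : ∀ i, IsPoly (fun x => f x i)) :
    ∃ p : τ → MvPolynomial σ ℝ, ∀ x, f x = fun i => eval x (p i) := by
  choose p hp using hf
  exact ⟨p, fun x => funext fun i => hp i x⟩

/-- volume of the image under a polynomial map with constant Jacobian -/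
theorem volume_image_of_jac {p : σ → MvPolynomial σ ℝ} {c : ℝ} (hc : (jac p).det = C c)
    (hinj : Function.Injective (fun (x : σ → ℝ) i => eval x (p i))) {S : Set (σ → ℝ)}
    (hS : MeasurableSet S) :
    volume ((fun (x : σ → ℝ) i => eval x (p i)) '' S) = ENNReal.ofReal |c| * volume S := by
  rw [← lintegral_abs_det_fderiv_eq_addHaar_image volume hS
    (fun x _ => (hasFDerivAt_map p x).hasFDerivWithinAt) hinj.injOn]
  simp only [det_dmap, hc, eval_C]
  rw [setLIntegral_const]

/-- (V1) A polynomial map with a polynomial left inverse multiplies the volume by a constant. -/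
theorem exists_volume_image {f g : (σ → ℝ) → (σ → ℝ)} (hf : ∀ i, IsPoly (fun x => f x i))
    (hg : ∀ i, IsPoly (fun x => g x i)) (hgf : ∀ x, g (f x) = x) :
    ∃ c : ℝ, 0 < c ∧ ∀ S : Set (σ → ℝ), MeasurableSet S →
      volume (f '' S) = ENNReal.ofReal c * volume S := by
  obtain ⟨p, hp⟩ := exists_polys hf
  obtain ⟨q, hq⟩ := exists_polys hg
  have h : ∀ x : σ → ℝ, (fun i => eval (fun j => eval x (p j)) (q i)) = x := by
    intro x
    have := hgf x
    rw [hq, hp] at this
    exact this
  obtain ⟨c, hc, hJ⟩ := exists_jac_const h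
  refine ⟨|c|, abs_pos.mpr hc, fun S hS => ?_⟩
  have hfp : f = fun x i => eval x (p i) := funext hp
  rw [hfp]
  apply volume_image_of_jac hJ _ hS
  rw [← hfp]
  exact Function.LeftInverse.injective hgf

/-- (V1') Families: if `F t` (`t ∈ ℝ^τ`) are jointly polynomial maps with jointly polynomial left
inverses and `F t₀ = id`, then all `F t` preserve the volume. -/
theorem volume_image_family {F G : (τ → ℝ) → (σ → ℝ) → (σ → ℝ)}
    (hF : ∀ i, IsPoly (fun z : τ ⊕ σ → ℝ => F (fun a => z (Sum.inl a)) (fun b => z (Sum.inr b)) i))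
    (hG : ∀ i, IsPoly (fun z : τ ⊕ σ → ℝ => G (fun a => z (Sum.inl a)) (fun b => z (Sum.inr b)) i))
    (hGF : ∀ t x, G t (F t x) = x) {t₀ : τ → ℝ} (h0 : ∀ x, F t₀ x = x) (t : τ → ℝ)
    {S : Set (σ → ℝ)} (hS : MeasurableSet S) : volume (F t '' S) = volume S := by
  classical
  -- the total map
  obtain ⟨p, hp⟩ := exists_polys (f := fun (z : τ ⊕ σ → ℝ) (i : σ) =>
    F (fun a => z (Sum.inl a)) (fun b => z (Sum.inr b)) i) hF
  obtain ⟨q, hq⟩ := exists_polys (f := fun (z : τ ⊕ σ → ℝ) (i : σ) =>
    G (fun a => z (Sum.inl a)) (fun b => z (Sum.inr b)) i) hG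
  let P : τ ⊕ σ → MvPolynomial (τ ⊕ σ) ℝ := Sum.elim (fun a => X (Sum.inl a)) p
  let Q : τ ⊕ σ → MvPolynomial (τ ⊕ σ) ℝ := Sum.elim (fun a => X (Sum.inl a)) q
  have hPQ : ∀ z : τ ⊕ σ → ℝ, (fun i => eval (fun j => eval z (P j)) (Q i)) = z := by
    intro z
    funext i
    rcases i with a | b
    · simp [P, Q]
    · have h1 : (fun j => eval z (P j)) =
          Sum.elim (fun a => z (Sum.inl a)) (F (fun a => z (Sum.inl a)) (fun b => z (Sum.inr b))) := by
        funext j
        rcases j with a | b
        · simp [P]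
        · have := congrFun (hp z) b
          simp only [P, Sum.elim_inr] at this ⊢
          exact this.symm
      simp only [Q, Sum.elim_inr]
      have h2 := congrFun (hq (Sum.elim (fun a => z (Sum.inl a))
        (F (fun a => z (Sum.inl a)) (fun b => z (Sum.inr b))))) b
      simp only [Sum.elim_inl, Sum.elim_inr] at h2
      rw [h1, ← h2, hGF]
  obtain ⟨c, hc, hJ⟩ := exists_jac_const hPQ
  -- block structure
  let Dm : Matrix σ σ (MvPolynomial (τ ⊕ σ) ℝ) := fun i j => pderiv (Sum.inr j) (p i)
  have hblock : jac P = Matrix.fromBlocks 1 0 (fun i j => pderiv (Sum.inl j) (p i)) Dm := by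
    ext i j
    rcases i with i | i <;> rcases j with j | j
    · simp only [jac, P, Sum.elim_inl, pderiv_X, Matrix.fromBlocks_apply₁₁, Matrix.one_apply,
        Pi.single_apply, Sum.inl.injEq]
    · simp [jac, P, pderiv_X]
    · simp [jac, P]
    · simp [jac, P, Dm]
  have hDm : Dm.det = C c := by
    rw [← hJ, hblock, Matrix.det_fromBlocks_zero₁₂, Matrix.det_one, one_mul]
  -- derivative of `F s` at `x`
  let z : (τ → ℝ) → (σ → ℝ) → (τ ⊕ σ → ℝ) := fun s x => Sum.elim s x
  have hFz : ∀ s x, F s x = fun i => eval (z s x) (p i) := by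
    intro s x
    have := hp (z s x)
    simpa [z] using this
  let L : (σ → ℝ) →L[ℝ] (τ ⊕ σ → ℝ) :=
    ContinuousLinearMap.pi (Sum.elim (fun _ => 0) fun b =>
      ContinuousLinearMap.proj (R := ℝ) (φ := fun _ : σ => ℝ) b)
  have hL : ∀ v : σ → ℝ, L v = Sum.elim (0 : τ → ℝ) v := by
    intro v; funext i; rcases i with i | i <;> simp [L]
  have hz : ∀ s x, HasFDerivAt (z s) L x := by
    intro s x
    have h1 : z s = fun y => L y + Sum.elim s (0 : σ → ℝ) := by
      funext y i
      rcases i with i | i <;> simp [z, hL]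
    rw [h1]
    exact L.hasFDerivAt.add_const _
  let DF : (τ → ℝ) → (σ → ℝ) → ((σ → ℝ) →L[ℝ] (σ → ℝ)) := fun s x => (dmap p (z s x)).comp L
  have hDF : ∀ s x, HasFDerivAt (F s) (DF s x) x := by
    intro s x
    have h1 := (hasFDerivAt_map p (z s x)).comp x (hz s x)
    refine h1.congr_of_eventuallyEq (Filter.Eventually.of_forall fun y => ?_)
    rw [hFz]; rfl
  have hdet : ∀ s x, (DF s x).det = c := by
    intro s x
    have h1 : (DF s x : (σ → ℝ) →ₗ[ℝ] (σ → ℝ)) = Matrix.toLin' (Dm.map (eval (z s x))) := by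
      apply LinearMap.ext
      intro v
      funext i
      change dpoly (p i) (z s x) (L v) = _
      rw [dpoly_apply, hL, Fintype.sum_sum_type]
      simp [Matrix.toLin'_apply, Matrix.mulVec, dotProduct, Dm]
    rw [ContinuousLinearMap.det, h1, LinearMap.det_toLin']
    have h2 : (Dm.map (eval (z s x))).det = eval (z s x) Dm.det := by
      rw [RingHom.map_det]; rfl
    rw [h2, hDm, eval_C]
  have hc1 : c = 1 := by
    have h1 := hDF t₀ 0
    have h2 : HasFDerivAt (F t₀) (ContinuousLinearMap.id ℝ (σ → ℝ)) 0 :=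
      (hasFDerivAt_id (0 : σ → ℝ)).congr_of_eventuallyEq
        (Filter.Eventually.of_forall fun y => h0 y)
    have h3 := h1.unique h2
    have h4 := hdet t₀ 0
    rw [h3] at h4
    simpa [ContinuousLinearMap.det] using h4.symm
  rw [← lintegral_abs_det_fderiv_eq_addHaar_image volume hS
    (fun x _ => (hDF t x).hasFDerivWithinAt)
    (Function.LeftInverse.injective (hGF t)).injOn]
  simp only [hdet, hc1, abs_one, ENNReal.ofReal_one]
  rw [setLIntegral_one]

end Crest.Agent.R182.ModelCount
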