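/-
R182, block (CNT), part 2: in polynomial coordinates Lebesgue measure is a bi-invariant Haar measure.
-/
import Mathlib
import Crest.Agent.R182.ModelJac
import Crest.Agent.R182.PolycReal

set_option autoImplicit false
set_option linter.unusedSectionVars false

namespace Crest.Agent.R182.ModelCount

open MvPolynomial MeasureTheory Crest.Agent.R182.Polyc

section abstract

variable {σ : Type*} [Fintype σ] [DecidableEq σ] {G : Type*} [Group G]

/-- Polynomial coordinates `E : ℝ^σ → G`, `c : G → ℝ^σ` on a group: multiplication and inversion are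
polynomial. -/
structure PolyCoord (σ : Type*) (G : Type*) [Group G] where
  E : (σ → ℝ) → G
  c : G → (σ → ℝ)
  cE : ∀ x, c (E x) = x
  Ec : ∀ g, E (c g) = g
  mul : ∀ i, IsPoly (fun z : σ ⊕ σ → ℝ =>
    c (E (fun a => z (Sum.inl a)) * E (fun b => z (Sum.inr b))) i)
  inv : ∀ i, IsPoly (fun x : σ → ℝ => c (E x)⁻¹ i)

namespace PolyCoord

variable (P : PolyCoord σ G)

/-- the coordinates as an equivalence -/
def equiv : (σ → ℝ) ≃ G where
  toFun := P.E
  invFun := P.c
  left_inv := P.cE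
  right_inv := P.Ec

/-- left multiplication preserves Lebesgue measure in the coordinates -/
theorem volume_left (g : G) {S : Set (σ → ℝ)} (hS : MeasurableSet S) :
    volume ((fun x => P.c (g * P.E x)) '' S) = volume S := by
  have h := volume_image_family (τ := σ) (F := fun t x => P.c (P.E t * P.E x))
    (G := fun t x => P.c ((P.E t)⁻¹ * P.E x)) P.mul ?_ ?_ (t₀ := P.c 1) ?_ (P.c g) hS
  · simpa only [P.Ec] using h
  · intro i
    have h1 := IsPoly.comp (P.mul i) (g := fun (z : σ ⊕ σ → ℝ) =>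
      Sum.elim (fun a => P.c (P.E (fun a => z (Sum.inl a)))⁻¹ a) (fun b => z (Sum.inr b))) ?_
    · simpa only [Sum.elim_inl, Sum.elim_inr, P.Ec] using h1
    · intro j
      rcases j with j | j
      · exact IsPoly.comp (P.inv j) (g := fun (z : σ ⊕ σ → ℝ) a => z (Sum.inl a))
          fun a => IsPoly.coord _
      · exact IsPoly.coord _
  · intro t x
    simp only [P.Ec, inv_mul_cancel_left, P.cE]
  · intro x
    simp only [P.Ec, one_mul, P.cE]

/-- right multiplication preserves Lebesgue measure in the coordinates -/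
theorem volume_right (g : G) {S : Set (σ → ℝ)} (hS : MeasurableSet S) :
    volume ((fun x => P.c (P.E x * g)) '' S) = volume S := by
  have hsw : ∀ {F : (σ ⊕ σ → ℝ) → ℝ}, IsPoly F →
      IsPoly (fun z : σ ⊕ σ → ℝ => F (fun i => z (Sum.swap i))) := by
    intro F hF
    exact hF.comp (g := fun (z : σ ⊕ σ → ℝ) i => z (Sum.swap i)) fun i => IsPoly.coord _
  have h := volume_image_family (τ := σ) (F := fun t x => P.c (P.E x * P.E t))
    (G := fun t x => P.c (P.E x * (P.E t)⁻¹)) ?_ ?_ ?_ (t₀ := P.c 1) ?_ (P.c g) hS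
  · simpa only [P.Ec] using h
  · intro i
    exact hsw (P.mul i)
  · intro i
    have h1 := IsPoly.comp (P.mul i) (g := fun (z : σ ⊕ σ → ℝ) =>
      Sum.elim (fun b => z (Sum.inr b)) (fun a => P.c (P.E (fun a => z (Sum.inl a)))⁻¹ a)) ?_
    · simpa only [Sum.elim_inl, Sum.elim_inr, P.Ec] using h1
    · intro j
      rcases j with j | j
      · exact IsPoly.coord _
      · exact IsPoly.comp (P.inv j) (g := fun (z : σ ⊕ σ → ℝ) a => z (Sum.inl a))
          fun a => IsPoly.coord _
  · intro t x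
    simp only [P.Ec, mul_inv_cancel_right, P.cE]
  · intro x
    simp only [P.Ec, mul_one, P.cE]

/-- a group automorphism which is polynomial in coordinates multiplies the volume by a constant -/
theorem exists_volume_aut (φ : G ≃* G) (h1 : ∀ i, IsPoly (fun x : σ → ℝ => P.c (φ (P.E x)) i))
    (h2 : ∀ i, IsPoly (fun x : σ → ℝ => P.c (φ.symm (P.E x)) i)) :
    ∃ c : ℝ, 0 < c ∧ ∀ S : Set (σ → ℝ), MeasurableSet S →
      volume ((fun x => P.c (φ (P.E x))) '' S) = ENNReal.ofReal c * volume S := by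
  refine exists_volume_image (g := fun x => P.c (φ.symm (P.E x))) h1 h2 ?_
  intro x
  simp only [P.Ec, MulEquiv.symm_apply_apply, P.cE]

/-- two polynomial coordinate systems on the same group which are polynomially related define
proportional measures -/
theorem exists_volume_change (Q : PolyCoord σ G)
    (h1 : ∀ i, IsPoly (fun x : σ → ℝ => Q.c (P.E x) i))
    (h2 : ∀ i, IsPoly (fun x : σ → ℝ => P.c (Q.E x) i)) :
    ∃ c : ℝ, 0 < c ∧ ∀ S : Set (σ → ℝ), MeasurableSet S →
      volume ((fun x => Q.c (P.E x)) '' S) = ENNReal.ofReal c * volume S := by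
  refine exists_volume_image (g := fun x => P.c (Q.E x)) h1 h2 ?_
  intro x
  simp only [Q.Ec, P.cE]

/-! ### Volume of subsets of the group; packing and covering -/

open scoped Pointwise ENNReal

/-- volume of a subset of `G` -/
noncomputable def vol (S : Set G) : ℝ≥0∞ := volume (P.E ⁻¹' S)

theorem vol_mono {S T : Set G} (h : S ⊆ T) : P.vol S ≤ P.vol T :=
  measure_mono (Set.preimage_mono h)

theorem vol_union_le (S T : Set G) : P.vol (S ∪ T) ≤ P.vol S + P.vol T := by
  unfold vol; rw [Set.preimage_union]; exact measure_union_le _ _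

theorem vol_biUnion_le {ι : Type*} (F : Finset ι) (S : ι → Set G) :
    P.vol (⋃ i ∈ F, S i) ≤ ∑ i ∈ F, P.vol (S i) := by
  unfold vol
  rw [Set.preimage_iUnion₂]
  exact measure_biUnion_finset_le F _

theorem preimage_mul_left (g : G) (S : Set G) :
    P.E ⁻¹' ((fun x => g * x) '' S) = (fun x => P.c (g * P.E x)) '' (P.E ⁻¹' S) := by
  ext x
  constructor
  · rintro ⟨s, hs, hx⟩
    refine ⟨P.c s, by simpa [P.Ec] using hs, ?_⟩
    simp only [P.Ec, hx, P.cE]
  · rintro ⟨y, hy, rfl⟩
    exact ⟨P.E y, hy, by simp only [P.Ec]⟩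

theorem preimage_mul_right (g : G) (S : Set G) :
    P.E ⁻¹' ((fun x => x * g) '' S) = (fun x => P.c (P.E x * g)) '' (P.E ⁻¹' S) := by
  ext x
  constructor
  · rintro ⟨s, hs, hx⟩
    refine ⟨P.c s, by simpa [P.Ec] using hs, ?_⟩
    simp only [P.Ec, hx, P.cE]
  · rintro ⟨y, hy, rfl⟩
    exact ⟨P.E y, hy, by simp only [P.Ec]⟩

theorem vol_mul_left (g : G) {S : Set G} (hS : MeasurableSet (P.E ⁻¹' S)) :
    P.vol ((fun x => g * x) '' S) = P.vol S := by
  rw [vol, preimage_mul_left, P.volume_left g hS, vol]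

theorem vol_mul_right (g : G) {S : Set G} (hS : MeasurableSet (P.E ⁻¹' S)) :
    P.vol ((fun x => x * g) '' S) = P.vol S := by
  rw [vol, preimage_mul_right, P.volume_right g hS, vol]

theorem continuous_mul_left (g : G) : Continuous (fun x => P.c (g * P.E x)) := by
  refine continuous_pi fun i => IsPoly.continuous ?_
  have := IsPoly.comp (P.mul i) (g := fun (x : σ → ℝ) => Sum.elim (P.c g) x) ?_
  · simpa only [Sum.elim_inl, Sum.elim_inr, P.Ec] using this
  · intro j
    rcases j with j | j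
    · exact Polyc.IsPoly.const _
    · exact IsPoly.coord _

theorem continuous_mul_right (g : G) : Continuous (fun x => P.c (P.E x * g)) := by
  refine continuous_pi fun i => IsPoly.continuous ?_
  have := IsPoly.comp (P.mul i) (g := fun (x : σ → ℝ) => Sum.elim x (P.c g)) ?_
  · simpa only [Sum.elim_inl, Sum.elim_inr, P.Ec] using this
  · intro j
    rcases j with j | j
    · exact IsPoly.coord _
    · exact Polyc.IsPoly.const _

/-- measurability of translates -/
theorem measurable_mul_left (g : G) {S : Set G} (hS : MeasurableSet (P.E ⁻¹' S)) :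
    MeasurableSet (P.E ⁻¹' ((fun x => g * x) '' S)) := by
  have : P.E ⁻¹' ((fun x => g * x) '' S) = (fun x => P.c (g⁻¹ * P.E x)) ⁻¹' (P.E ⁻¹' S) := by
    ext x
    constructor
    · rintro ⟨s, hs, hx⟩
      simp only [Set.mem_preimage, P.Ec, ← hx, inv_mul_cancel_left]
      exact hs
    · intro hx
      refine ⟨g⁻¹ * P.E x, ?_, by group⟩
      simpa only [Set.mem_preimage, P.Ec] using hx
  rw [this]
  exact (P.continuous_mul_left g⁻¹).measurable hS

theorem measurable_mul_right (g : G) {S : Set G} (hS : MeasurableSet (P.E ⁻¹' S)) :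
    MeasurableSet (P.E ⁻¹' ((fun x => x * g) '' S)) := by
  have : P.E ⁻¹' ((fun x => x * g) '' S) = (fun x => P.c (P.E x * g⁻¹)) ⁻¹' (P.E ⁻¹' S) := by
    ext x
    constructor
    · rintro ⟨s, hs, hx⟩
      simp only [Set.mem_preimage, P.Ec, ← hx, mul_inv_cancel_right]
      exact hs
    · intro hx
      refine ⟨P.E x * g⁻¹, ?_, by group⟩
      simpa only [Set.mem_preimage, P.Ec] using hx
  rw [this]
  exact (P.continuous_mul_right g⁻¹).measurable hS

/-- packing, left translates `f U` -/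
theorem packing_left (F : Finset G) {U B : Set G} (hU : MeasurableSet (P.E ⁻¹' U))
    (hd : ∀ f ∈ F, ∀ f' ∈ F, f ≠ f' → ∀ u ∈ U, ∀ u' ∈ U, f * u ≠ f' * u')
    (hB : ∀ f ∈ F, ∀ u ∈ U, f * u ∈ B) : (F.card : ℝ≥0∞) * P.vol U ≤ P.vol B := by
  have h1 : volume (⋃ f ∈ F, P.E ⁻¹' ((fun x => f * x) '' U)) =
      ∑ f ∈ F, volume (P.E ⁻¹' ((fun x => f * x) '' U)) := by
    refine measure_biUnion_finset ?_ fun f _ => P.measurable_mul_left f hU
    intro f hf f' hf' hne
    rw [Function.onFun, Set.disjoint_left]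
    rintro x ⟨u, hu, hx⟩ ⟨u', hu', hx'⟩
    exact hd f hf f' hf' hne u hu u' hu' (hx.trans hx'.symm)
  have h2 : ∑ f ∈ F, volume (P.E ⁻¹' ((fun x => f * x) '' U)) = (F.card : ℝ≥0∞) * P.vol U := by
    rw [← nsmul_eq_mul, ← Finset.sum_const]
    exact Finset.sum_congr rfl fun f _ => P.vol_mul_left f hU
  rw [← h2, ← h1]
  refine measure_mono ?_
  refine Set.iUnion₂_subset fun f hf => ?_
  rintro x ⟨u, hu, hx⟩
  change P.E x ∈ B
  rw [← hx]
  exact hB f hf u hu

/-- packing, right translates `U f` -/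
theorem packing_right (F : Finset G) {U B : Set G} (hU : MeasurableSet (P.E ⁻¹' U))
    (hd : ∀ f ∈ F, ∀ f' ∈ F, f ≠ f' → ∀ u ∈ U, ∀ u' ∈ U, u * f ≠ u' * f')
    (hB : ∀ f ∈ F, ∀ u ∈ U, u * f ∈ B) : (F.card : ℝ≥0∞) * P.vol U ≤ P.vol B := by
  have h1 : volume (⋃ f ∈ F, P.E ⁻¹' ((fun x => x * f) '' U)) =
      ∑ f ∈ F, volume (P.E ⁻¹' ((fun x => x * f) '' U)) := by
    refine measure_biUnion_finset ?_ fun f _ => P.measurable_mul_right f hU
    intro f hf f' hf' hne
    rw [Function.onFun, Set.disjoint_left]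
    rintro x ⟨u, hu, hx⟩ ⟨u', hu', hx'⟩
    exact hd f hf f' hf' hne u hu u' hu' (hx.trans hx'.symm)
  have h2 : ∑ f ∈ F, volume (P.E ⁻¹' ((fun x => x * f) '' U)) = (F.card : ℝ≥0∞) * P.vol U := by
    rw [← nsmul_eq_mul, ← Finset.sum_const]
    exact Finset.sum_congr rfl fun f _ => P.vol_mul_right f hU
  rw [← h2, ← h1]
  refine measure_mono ?_
  refine Set.iUnion₂_subset fun f hf => ?_
  rintro x ⟨u, hu, hx⟩
  change P.E x ∈ B
  rw [← hx]
  exact hB f hf u hu

/-- covering by left translates `f D` -/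
theorem covering_left (F : Finset G) {D B : Set G} (hD : MeasurableSet (P.E ⁻¹' D))
    (hB : ∀ b ∈ B, ∃ f ∈ F, ∃ d ∈ D, b = f * d) : P.vol B ≤ (F.card : ℝ≥0∞) * P.vol D := by
  calc P.vol B ≤ P.vol (⋃ f ∈ F, (fun x => f * x) '' D) := by
        refine P.vol_mono fun b hb => ?_
        obtain ⟨f, hf, d, hd, rfl⟩ := hB b hb
        exact Set.mem_iUnion₂.mpr ⟨f, hf, d, hd, rfl⟩
    _ ≤ ∑ f ∈ F, P.vol ((fun x => f * x) '' D) := P.vol_biUnion_le F _
    _ = (F.card : ℝ≥0∞) * P.vol D := by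
        rw [Finset.sum_congr rfl fun f _ => P.vol_mul_left f hD, Finset.sum_const, nsmul_eq_mul]

/-- covering by right translates `D f` -/
theorem covering_right (F : Finset G) {D B : Set G} (hD : MeasurableSet (P.E ⁻¹' D))
    (hB : ∀ b ∈ B, ∃ f ∈ F, ∃ d ∈ D, b = d * f) : P.vol B ≤ (F.card : ℝ≥0∞) * P.vol D := by
  calc P.vol B ≤ P.vol (⋃ f ∈ F, (fun x => x * f) '' D) := by
        refine P.vol_mono fun b hb => ?_
        obtain ⟨f, hf, d, hd, rfl⟩ := hB b hb
        exact Set.mem_iUnion₂.mpr ⟨f, hf, d, hd, rfl⟩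
    _ ≤ ∑ f ∈ F, P.vol ((fun x => x * f) '' D) := P.vol_biUnion_le F _
    _ = (F.card : ℝ≥0∞) * P.vol D := by
        rw [Finset.sum_congr rfl fun f _ => P.vol_mul_right f hD, Finset.sum_const, nsmul_eq_mul]

end PolyCoord

end abstract

end Crest.Agent.R182.ModelCount
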