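/-
R182, module BOXVOL (helper88), part 2: the quotient group `Q = L / M` of a `Star` by a Lie ideal in
linear coordinates, with Lebesgue = bi-invariant measure; volumes of images under Lie endomorphisms.
-/
import Mathlib
import Crest.Agent.R182.NbStar
import Crest.Agent.R182.ModelHaar

set_option autoImplicit false
set_option linter.unusedSectionVars false

open MeasureTheory Set
open scoped Pointwise ENNReal

namespace Crest.Agent.R182.BoxVol

open Crest.Agent.R182.Nb Crest.Agent.R182.Polyc Crest.Agent.R182.ModelCount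

section poly

variable {L : Type*} [LieRing L] [LieAlgebra ℝ L] {τ : Type*}
  {κ : Type*} [Fintype κ] (b : Module.Basis κ ℝ L)

/-- an `L`-valued function with polynomial coordinates -/
def PolyL (f : (τ → ℝ) → L) : Prop := ∀ i, Polyc.IsPoly (fun x => b.repr (f x) i)

theorem PolyL.lie {f g : (τ → ℝ) → L} (hf : PolyL b f) (hg : PolyL b g) :
    PolyL b (fun x => ⁅f x, g x⁆) := by
  intro l
  have key : ∀ x, b.repr ⁅f x, g x⁆ l =
      ∑ i, ∑ j, (b.repr (f x) i * b.repr (g x) j) * b.repr ⁅b i, b j⁆ l := by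
    intro x
    conv_lhs => rw [← b.sum_repr (f x), ← b.sum_repr (g x)]
    rw [sum_lie, map_sum, Finsupp.finsetSum_apply]
    refine Finset.sum_congr rfl fun i _ => ?_
    rw [lie_sum, map_sum, Finsupp.finsetSum_apply]
    refine Finset.sum_congr rfl fun j _ => ?_
    rw [smul_lie, lie_smul, smul_smul, map_smul, Finsupp.smul_apply, smul_eq_mul]
  simp_rw [key]
  exact Polyc.IsPoly.sum _ fun i _ => Polyc.IsPoly.sum _ fun j _ => ((hf i).mul (hg j)).mul (Polyc.IsPoly.const _)

theorem PolyL.zero : PolyL b (fun _ : τ → ℝ => (0 : L)) := by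
  intro i
  simpa using Polyc.IsPoly.const (σ := τ) 0

theorem PolyL.add {f g : (τ → ℝ) → L} (hf : PolyL b f) (hg : PolyL b g) :
    PolyL b (fun x => f x + g x) := by
  intro i
  simpa using (hf i).add (hg i)

theorem PolyL.smul {f : (τ → ℝ) → L} (c : ℝ) (hf : PolyL b f) : PolyL b (fun x => c • f x) := by
  intro i
  simpa using (Polyc.IsPoly.const c).mul (hf i)

theorem PolyL.mon {σ : Type*} {v : (τ → ℝ) → σ → L} (hv : ∀ s, PolyL b fun x => v x s)
    (κ' : List σ) : PolyL b fun x => mon (v x) κ' := by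
  induction κ' with
  | nil => exact PolyL.zero b
  | cons i κ' ih =>
    by_cases h : κ' = []
    · subst h; exact hv i
    · have : (fun x => Nb.mon (v x) (i :: κ')) = fun x => ⁅v x i, Nb.mon (v x) κ'⁆ := by
        funext x; rw [mon_cons _ i h]
      rw [this]
      exact PolyL.lie b (hv i) ih

theorem PolyL.lp {σ : Type*} {f : (σ → L) → L} (hf : f ∈ LP σ L) {v : (τ → ℝ) → σ → L}
    (hv : ∀ s, PolyL b fun x => v x s) : PolyL b fun x => f (v x) := by
  induction hf using Submodule.span_induction with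
  | mem f hf =>
    obtain ⟨κ', rfl⟩ := hf
    exact PolyL.mon b hv κ'
  | zero => exact PolyL.zero b
  | add f g _ _ hf hg => exact PolyL.add b hf hg
  | smul c f _ hf => exact PolyL.smul b c hf

/-- linear functions of polynomial functions -/
theorem PolyL.linear {J : Type*} {f : (τ → ℝ) → L} (hf : PolyL b f) (P : L →ₗ[ℝ] (J → ℝ)) (j : J) :
    Polyc.IsPoly (fun x => P (f x) j) := by
  have : ∀ x, P (f x) j = ∑ i, b.repr (f x) i * P (b i) j := by
    intro x
    conv_lhs => rw [← b.sum_repr (f x)]
    rw [map_sum, Finset.sum_apply]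
    exact Finset.sum_congr rfl fun i _ => by rw [map_smul]; rfl
  simp_rw [this]
  exact Polyc.IsPoly.sum _ fun i _ => (hf i).mul (Polyc.IsPoly.const _)

end poly

section ideal

variable {L : Type*} [LieRing L] [LieAlgebra ℝ L] {I : Submodule ℝ L}

theorem mon_sub_mem (hI : ∀ (x : L), ∀ m ∈ I, ⁅x, m⁆ ∈ I) {σ : Type*} {v v' : σ → L}
    (h : ∀ i, v i - v' i ∈ I) (κ : List σ) : mon v κ - mon v' κ ∈ I := by
  induction κ with
  | nil => simp
  | cons i κ ih =>
    by_cases hκ : κ = []
    · subst hκ; exact h i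
    · rw [mon_cons v i hκ, mon_cons v' i hκ]
      have : ⁅v i, mon v κ⁆ - ⁅v' i, mon v' κ⁆ = ⁅v i, mon v κ - mon v' κ⁆ -
          ⁅mon v' κ, v i - v' i⁆ := by
        rw [lie_sub, lie_sub, ← lie_skew (v i) (mon v' κ), ← lie_skew (v' i) (mon v' κ)]; abel
      rw [this]
      exact I.sub_mem (hI _ _ ih) (hI _ _ (h i))

theorem lp_sub_mem (hI : ∀ (x : L), ∀ m ∈ I, ⁅x, m⁆ ∈ I) {σ : Type*} {f : (σ → L) → L}
    (hf : f ∈ LP σ L) {v v' : σ → L} (h : ∀ i, v i - v' i ∈ I) : f v - f v' ∈ I := by
  induction hf using Submodule.span_induction with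
  | mem f hf =>
    obtain ⟨κ, rfl⟩ := hf
    exact mon_sub_mem hI h κ
  | zero => simp
  | add f g _ _ hf hg =>
    have : (f + g) v - (f + g) v' = (f v - f v') + (g v - g v') := by
      simp only [Pi.add_apply]; abel
    rw [this]; exact I.add_mem hf hg
  | smul c f _ hf =>
    have : (c • f) v - (c • f) v' = c • (f v - f v') := by
      simp only [Pi.smul_apply, smul_sub]
    rw [this]; exact I.smul_mem _ hf

theorem op_sub_mem (S : Nb.Star L) (hI : ∀ (x : L), ∀ m ∈ I, ⁅x, m⁆ ∈ I) {x x' y y' : L}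
    (hx : x - x' ∈ I) (hy : y - y' ∈ I) : S.op x y - S.op x' y' ∈ I := by
  have := lp_sub_mem hI S.lp (v := fun b => if b = false then x else y)
    (v' := fun b => if b = false then x' else y') (by intro b; cases b <;> simpa)
  simpa using this

end ideal

/-- A surjection `P : L → ℝ^J` whose kernel is a Lie ideal, with a linear section. -/
structure QData {L : Type*} [LieRing L] [LieAlgebra ℝ L] (S : Nb.Star L) (J : Type) [Fintype J] where
  P : L →ₗ[ℝ] (J → ℝ)
  s : (J → ℝ) →ₗ[ℝ] L
  Ps : ∀ q, P (s q) = q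
  ideal : ∀ x y : L, P y = 0 → P ⁅x, y⁆ = 0

namespace QData

variable {L : Type*} [LieRing L] [LieAlgebra ℝ L] {S : Nb.Star L} {J : Type} [Fintype J]
  (D : QData S J)

/-- the quotient group in coordinates -/
def QN (_ : QData S J) : Type := J → ℝ

noncomputable instance : NormedAddCommGroup D.QN := inferInstanceAs (NormedAddCommGroup (J → ℝ))
noncomputable instance : NormedSpace ℝ D.QN := inferInstanceAs (NormedSpace ℝ (J → ℝ))
instance : FiniteDimensional ℝ D.QN := inferInstanceAs (FiniteDimensional ℝ (J → ℝ))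
noncomputable instance : MeasureSpace D.QN := inferInstanceAs (MeasureSpace (J → ℝ))
instance : BorelSpace D.QN := inferInstanceAs (BorelSpace (J → ℝ))
instance : (volume : Measure D.QN).IsAddHaarMeasure :=
  inferInstanceAs ((volume : Measure (J → ℝ)).IsAddHaarMeasure)

theorem P_sub_eq {x x' : L} : D.P x = D.P x' ↔ x - x' ∈ LinearMap.ker D.P := by
  rw [LinearMap.mem_ker, map_sub, sub_eq_zero]

theorem hI : ∀ (x : L), ∀ m ∈ LinearMap.ker D.P, ⁅x, m⁆ ∈ LinearMap.ker D.P := fun x m hm => by
  rw [LinearMap.mem_ker] at hm ⊢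
  exact D.ideal x m hm

theorem P_op {x x' y y' : L} (hx : D.P x = D.P x') (hy : D.P y = D.P y') :
    D.P (S.op x y) = D.P (S.op x' y') :=
  D.P_sub_eq.2 (op_sub_mem S D.hI (D.P_sub_eq.1 hx) (D.P_sub_eq.1 hy))

theorem P_sP (x : L) : D.P (D.s (D.P x)) = D.P x := D.Ps _

/-- the group law in coordinates -/
noncomputable def qop (q q' : J → ℝ) : J → ℝ := D.P (S.op (D.s q) (D.s q'))

theorem qop_assoc (q q' q'' : J → ℝ) : D.qop (D.qop q q') q'' = D.qop q (D.qop q' q'') := by
  unfold qop
  rw [D.P_op (D.P_sP _) rfl, D.P_op rfl (D.P_sP _), S.assoc]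

theorem zero_qop (q : J → ℝ) : D.qop 0 q = q := by
  unfold qop; rw [map_zero, S.zero_op, D.Ps]

theorem qop_zero (q : J → ℝ) : D.qop q 0 = q := by
  unfold qop; rw [map_zero, S.op_zero, D.Ps]

theorem neg_qop (q : J → ℝ) : D.qop (-q) q = 0 := by
  have h : S.op (D.s (-q)) (D.s q) = 0 := by
    have := S.op_neg (D.s (-q))
    rwa [map_neg, neg_neg, ← map_neg] at this
  unfold qop
  rw [h, map_zero]

noncomputable instance : Group D.QN where
  mul := D.qop
  one := (0 : J → ℝ)
  inv := fun q => (fun j => - q j)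
  mul_assoc := D.qop_assoc
  one_mul := D.zero_qop
  mul_one := D.qop_zero
  inv_mul_cancel := D.neg_qop

theorem mul_def (q q' : D.QN) : q * q' = D.qop q q' := rfl

/-- the projection as a map to `QN` -/
def pr (x : L) : D.QN := D.P x

theorem pr_op (x y : L) : D.pr (S.op x y) = D.pr x * D.pr y :=
  D.P_op (D.P_sP x).symm (D.P_sP y).symm

theorem pr_neg (x : L) : D.pr (-x) = (D.pr x)⁻¹ := map_neg D.P x

variable {κ : Type*} [Fintype κ] (b : Module.Basis κ ℝ L)

theorem polyL_s {τ : Type*} {f : (τ → ℝ) → (J → ℝ)} (hf : ∀ j, Polyc.IsPoly fun x => f x j) :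
    PolyL b (fun x => D.s (f x)) := by
  classical
  intro i
  have : ∀ x, b.repr (D.s (f x)) i = ∑ j, f x j * b.repr (D.s (Pi.single j 1)) i := by
    intro x
    have h1 : f x = ∑ j, f x j • (Pi.single j (1:ℝ) : J → ℝ) := by
      funext j'
      simp [Finset.sum_apply, Pi.single_apply]
    conv_lhs => rw [h1]
    rw [map_sum, map_sum, Finsupp.finsetSum_apply]
    exact Finset.sum_congr rfl fun j _ => by rw [map_smul, map_smul]; rfl
  simp_rw [this]
  exact Polyc.IsPoly.sum _ fun j _ => (hf j).mul (Polyc.IsPoly.const _)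

/-- polynomial coordinates on the quotient -/
noncomputable def polyCoord : PolyCoord J D.QN where
  E := fun q => q
  c := fun q => q
  cE _ := rfl
  Ec _ := rfl
  mul := by
    intro j
    refine PolyL.linear b (f := fun z : J ⊕ J → ℝ =>
      S.op (D.s fun a => z (Sum.inl a)) (D.s fun b => z (Sum.inr b))) ?_ D.P j
    have := PolyL.lp b S.lp (v := fun (z : J ⊕ J → ℝ) (t : Bool) =>
      if t = false then D.s (fun a => z (Sum.inl a)) else D.s (fun b => z (Sum.inr b))) (by
        intro t
        cases t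
        · simpa using D.polyL_s b (f := fun (z : J ⊕ J → ℝ) a => z (Sum.inl a))
            fun j => Polyc.IsPoly.coord _
        · simpa using D.polyL_s b (f := fun (z : J ⊕ J → ℝ) a => z (Sum.inr a))
            fun j => Polyc.IsPoly.coord _)
    simpa using this
  inv := by
    intro j
    have : (fun x : J → ℝ => ((x : D.QN)⁻¹ : D.QN) j) = fun x => - x j := rfl
    exact (Polyc.IsPoly.coord j).neg

variable [Module.Finite ℝ L]

/-- the polynomial coordinates for a chosen basis -/
noncomputable def pc : PolyCoord J D.QN := D.polyCoord (Module.finBasis ℝ L)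

theorem volume_mul_right (g : D.QN) {A : Set D.QN} (hA : MeasurableSet A) :
    volume ((fun x => x * g) '' A) = volume A := by
  classical
  exact D.pc.volume_right g hA

theorem continuous_mul_left (g : D.QN) : Continuous (fun x : D.QN => g * x) := by
  classical
  exact D.pc.continuous_mul_left g

theorem continuous_mul_right (g : D.QN) : Continuous (fun x : D.QN => x * g) := by
  classical
  exact D.pc.continuous_mul_right g

instance : MeasurableMul D.QN where
  measurable_const_mul g := (D.continuous_mul_left g).measurable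
  measurable_mul_const g := (D.continuous_mul_right g).measurable

instance : (volume : Measure D.QN).IsMulRightInvariant where
  map_mul_right_eq_self g := by
    ext A hA
    rw [Measure.map_apply (D.continuous_mul_right g).measurable hA]
    have h : (fun x => x * g) ⁻¹' A = (fun x => x * g⁻¹) '' A := by
      ext x
      constructor
      · intro hx
        exact ⟨x * g, hx, by simp⟩
      · rintro ⟨y, hy, rfl⟩
        simpa using hy
    rw [h, D.volume_mul_right _ hA]

/-- Lie endomorphisms of `L` preserving the kernel act linearly on the quotient. -/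
def down (T : L →ₗ[ℝ] L) : (J → ℝ) →ₗ[ℝ] (J → ℝ) := D.P ∘ₗ T ∘ₗ D.s

/-- `T` preserves the kernel -/
def Pres (T : L →ₗ[ℝ] L) : Prop := ∀ x, D.P x = 0 → D.P (T x) = 0

variable {D}

theorem Pres.P_eq {T : L →ₗ[ℝ] L} (hT : D.Pres T) (x : L) : D.P (T x) = D.down T (D.P x) := by
  unfold down
  rw [LinearMap.comp_apply, LinearMap.comp_apply, ← sub_eq_zero, ← map_sub, ← map_sub]
  apply hT
  rw [map_sub, D.P_sP, sub_self]

theorem Pres.comp {T T' : L →ₗ[ℝ] L} (hT : D.Pres T) (hT' : D.Pres T') : D.Pres (T ∘ₗ T') :=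
  fun x hx => hT _ (hT' x hx)

theorem Pres.down_comp {T T' : L →ₗ[ℝ] L} (hT : D.Pres T) :
    D.down (T ∘ₗ T') = D.down T ∘ₗ D.down T' := by
  ext q
  change D.P (T (T' (D.s _))) _ = _
  rw [hT.P_eq]; rfl

variable (D)

theorem down_id : D.down LinearMap.id = LinearMap.id := by
  refine LinearMap.ext fun q => ?_
  exact D.Ps q

/-- the determinant on the quotient -/
noncomputable def qdet (T : L →ₗ[ℝ] L) : ℝ := |LinearMap.det (D.down T)|

theorem qdet_id : D.qdet LinearMap.id = 1 := by
  unfold qdet; rw [down_id, LinearMap.det_id, abs_one]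

variable {D}

theorem Pres.qdet_comp {T T' : L →ₗ[ℝ] L} (hT : D.Pres T) :
    D.qdet (T ∘ₗ T') = D.qdet T * D.qdet T' := by
  unfold qdet; rw [hT.down_comp, LinearMap.det_comp, abs_mul]

theorem Pres.P_image {T : L →ₗ[ℝ] L} (hT : D.Pres T) (B : Set L) :
    D.P '' (T '' B) = D.down T '' (D.P '' B) := by
  rw [image_image, image_image]
  exact image_congr fun x _ => hT.P_eq x

theorem Pres.volume_pr {T : L →ₗ[ℝ] L} (hT : D.Pres T) (B : Set L) :
    (volume : Measure D.QN) (D.pr '' (T '' B)) =
      ENNReal.ofReal (D.qdet T) * (volume : Measure D.QN) (D.pr '' B) := by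
  have h : (volume : Measure (J → ℝ)) (D.P '' (T '' B)) =
      ENNReal.ofReal (D.qdet T) * (volume : Measure (J → ℝ)) (D.P '' B) := by
    rw [hT.P_image]
    exact Measure.addHaar_image_linearMap (volume : Measure (J → ℝ)) (D.down T) (D.P '' B)
  exact h

end QData

end Crest.Agent.R182.BoxVol
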