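/-
R182, module BOXVOL (helper88), part 3: volumes of products `N · U` of a box with a set of moves
along a ray, and the measure `lamV` on the moves.
-/
import Mathlib
import Crest.Agent.R182.BoxNN
import Crest.Agent.R182.BoxPack
import Crest.Agent.R182.BoxQuot

set_option autoImplicit false
set_option linter.unusedSectionVars false

open MeasureTheory Set
open scoped Pointwise ENNReal

namespace Crest.Agent.R182.BoxVol

open Crest.Agent.R182.Nb Crest.Agent.R182.Core

section alg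

variable {L : Type*} [LieRing L] [LieAlgebra ℝ L] {S : Nb.Star L} {J : Type} [Fintype J]
  (D : QData S J) {σ : Type*} {c : ℕ}

/-- `T` is a Lie endomorphism -/
def IsLie (T : L →ₗ[ℝ] L) : Prop := ∀ x y : L, T ⁅x, y⁆ = ⁅T x, T y⁆

theorem IsLie.mon {T : L →ₗ[ℝ] L} (hT : IsLie T) (v : σ → L) (κ : List σ) :
    mon (fun i => T (v i)) κ = T (mon v κ) := by
  induction κ with
  | nil => simp
  | cons i κ ih =>
    by_cases hκ : κ = []
    · subst hκ; rfl
    · rw [mon_cons _ i hκ, ih, mon_cons v i hκ, hT]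

theorem IsLie.comp {T T' : L →ₗ[ℝ] L} (hT : IsLie T) (hT' : IsLie T') : IsLie (T ∘ₗ T') := by
  intro x y
  rw [LinearMap.comp_apply, hT', hT]; rfl

variable [Fintype σ]

theorem IsLie.image_Bx {T : L →ₗ[ℝ] L} (hT : IsLie T) (v : σ → L) (s : ℝ) :
    T '' Bx c v s = Bx c (fun i => T (v i)) s := by
  ext x
  constructor
  · rintro ⟨_, ⟨a, ha, rfl⟩, rfl⟩
    refine ⟨a, ha, ?_⟩
    rw [map_sum]
    exact Finset.sum_congr rfl fun κ _ => by rw [hT.mon, map_smul]
  · rintro ⟨a, ha, rfl⟩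
    refine ⟨_, ⟨a, ha, rfl⟩, ?_⟩
    rw [map_sum]
    exact Finset.sum_congr rfl fun κ _ => by rw [hT.mon, map_smul]

variable (w : σ → Prop) [DecidablePred w]

/-- restricted families agree if the families agree on `w` -/
theorem rst_congr {v v' : σ → L} (h : ∀ i, w i → v i = v' i) : rst v w = rst v' w := by
  funext i
  unfold rst
  split_ifs with hi
  · exact h i hi
  · rfl

theorem IsLie.rst {T : L →ₗ[ℝ] L} (v : σ → L) :
    (fun i => T (rst v w i)) = rst (fun i => T (v i)) w := by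
  funext i
  unfold Nb.rst
  split_ifs
  · rfl
  · exact map_zero T

variable {w}

/-- monomials with a letter in the kernel lie in the kernel -/
theorem P_mon_eq_zero {v : σ → L} (hv : ∀ i, ¬ w i → D.P (v i) = 0) {κ : List σ}
    (h : ¬ ∀ i ∈ κ, w i) : D.P (mon v κ) = 0 := by
  induction κ with
  | nil => simp
  | cons i κ ih =>
    by_cases hκ : κ = []
    · subst hκ
      exact hv i fun hi => h (by simpa using hi)
    · rw [mon_cons _ i hκ]
      by_cases hi : w i
      · exact D.ideal _ _ (ih fun h' => h (List.forall_mem_cons.2 ⟨hi, h'⟩))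
      · rw [← lie_skew, map_neg, D.ideal _ _ (hv i hi), neg_zero]

/-- modulo the kernel only the letters in `w` matter -/
theorem P_image_Bx {v : σ → L} (hv : ∀ i, ¬ w i → D.P (v i) = 0) {s : ℝ} (hs : 0 ≤ s) :
    D.P '' Bx c v s = D.P '' Bx c (rst v w) s := by
  classical
  ext q
  constructor
  · rintro ⟨_, ⟨a, ha, rfl⟩, rfl⟩
    refine ⟨∑ κ ∈ KL σ c, a κ • mon (rst v w) κ, ⟨a, ha, rfl⟩, ?_⟩
    rw [map_sum, map_sum]
    refine Finset.sum_congr rfl fun κ _ => ?_
    rw [map_smul, map_smul]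
    by_cases h : ∀ i ∈ κ, w i
    · rw [mon_rst_of w h]
    · rw [mon_rst_not w h, P_mon_eq_zero D hv h, map_zero]
  · rintro ⟨_, ⟨a, ha, rfl⟩, rfl⟩
    refine ⟨∑ κ ∈ KL σ c, (if ∀ i ∈ κ, w i then a κ else 0) • mon v κ, ⟨_, fun κ => ?_, rfl⟩, ?_⟩
    · split_ifs
      · exact ha κ
      · rwa [abs_zero]
    · rw [map_sum, map_sum]
      refine Finset.sum_congr rfl fun κ _ => ?_
      by_cases h : ∀ i ∈ κ, w i
      · rw [if_pos h, mon_rst_of w h]
      · rw [if_neg h, zero_smul, mon_rst_not w h, smul_zero]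

end alg

section model

variable {Γ : Type*} [Group Γ] {k : ℕ} {S : Set Γ} {π : Γ →* Multiplicative (Fin k → ℤ)}
  {M : BModel S π} {J : Type} [Fintype J] (D : QData M.star J)

instance finite_L (M : BModel S π) : Module.Finite ℝ M.L := Module.Finite.of_basis M.bas

/-- the projection of the group `E` to the quotient group -/
noncomputable def prN : M.NN →* D.QN where
  toFun n := D.pr (M.E n)
  map_one' := by
    change D.P (M.E (0 : M.NN)) = (0 : J → ℝ)
    rw [map_zero, map_zero]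
  map_mul' x y := by
    rw [BModel.E_mul, D.pr_op]

theorem prN_apply (n : M.NN) : prN D n = D.pr (M.E n) := rfl

variable {σ : Type*} [Fintype σ] {w : σ → Prop} [DecidablePred w]

theorem prN_image_NB {fam : σ → M.L} (hv : ∀ i, ¬ w i → D.P (fam i) = 0) {s : ℝ} (hs : 0 ≤ s) :
    prN D '' M.NB fam s = D.pr '' Bx M.c (rst fam w) s := by
  have h : prN D '' M.NB fam s = D.P '' Bx M.c fam s := by
    ext q
    constructor
    · rintro ⟨n, hn, rfl⟩
      exact ⟨M.E n, hn, rfl⟩
    · rintro ⟨x, hx, rfl⟩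
      refine ⟨M.E.symm x, ?_, ?_⟩
      · rw [BModel.mem_NB, LinearEquiv.apply_symm_apply]; exact hx
      · rw [prN_apply, LinearEquiv.apply_symm_apply]; rfl
  rw [h, P_image_Bx D hv hs]
  rfl

variable (w) in
/-- volume of the standard ball of the quotient -/
noncomputable def vQ (bs : σ → M.L) (s : ℝ) : ℝ≥0∞ :=
  (volume : Measure D.QN) (D.pr '' Bx M.c (rst bs w) s)

theorem vQ_mono (bs : σ → M.L) {s t : ℝ} (h : s ≤ t) : vQ D w bs s ≤ vQ D w bs t :=
  measure_mono (image_mono (Bx_mono h))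

theorem vQ_smul (bs : σ → M.L) {r : ℝ} (hr : 0 < r) (s : ℝ) :
    vQ D w bs (r * s) = ENNReal.ofReal (r ^ Fintype.card J) * vQ D w bs s := by
  have h : (volume : Measure (J → ℝ)) (D.P '' Bx M.c (rst bs w) (r * s)) =
      ENNReal.ofReal (r ^ Fintype.card J) * (volume : Measure (J → ℝ)) (D.P '' Bx M.c (rst bs w) s) := by
    have e : D.P '' Bx M.c (rst bs w) (r * s) = r • (D.P '' Bx M.c (rst bs w) s) := by
      rw [Bx_eq_smul hr, image_image, ← image_smul, image_image]
      exact image_congr fun x _ => map_smul _ _ _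
    rw [e, Measure.addHaar_smul, abs_of_pos (pow_pos hr _)]
    simp
  exact h

/-- volume of the projection of a box whose `w`-letters are `T (bs i)` -/
theorem volume_prN_NB {fam bs : σ → M.L} {T : M.L →ₗ[ℝ] M.L} (hT : IsLie T) (hP : D.Pres T)
    (hw : ∀ i, w i → fam i = T (bs i)) (hv : ∀ i, ¬ w i → D.P (fam i) = 0) {s : ℝ} (hs : 0 ≤ s) :
    (volume : Measure D.QN) (prN D '' M.NB fam s) = ENNReal.ofReal (D.qdet T) * vQ D w bs s := by
  rw [prN_image_NB D hv hs, rst_congr w hw, ← IsLie.rst w, ← hT.image_Bx, hP.volume_pr]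
  rfl

/-- the measure on the moves `T (s q)`, `q` in a cube of size `ρ` -/
noncomputable def lamV (ρ : ℝ) (T : M.L →ₗ[ℝ] M.L) : Measure M.NN :=
  Measure.map (fun q : J → ℝ => M.E.symm (T (D.s q)))
    ((volume : Measure (J → ℝ)).restrict (Set.pi univ fun _ => Icc (-ρ) ρ))

theorem continuous_move (T : M.L →ₗ[ℝ] M.L) :
    Continuous (fun q : J → ℝ => M.E.symm (T (D.s q))) := by
  have : Continuous ((M.E.symm.toLinearMap ∘ₗ T) ∘ₗ D.s) :=
    LinearMap.continuous_of_finiteDimensional _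
  exact this

theorem lamV_univ {ρ : ℝ} (hρ : 0 ≤ ρ) (T : M.L →ₗ[ℝ] M.L) :
    lamV D ρ T univ = ENNReal.ofReal ((2 * ρ) ^ Fintype.card J) := by
  unfold lamV
  rw [Measure.map_apply (continuous_move D T).measurable MeasurableSet.univ, preimage_univ,
    Measure.restrict_apply_univ, volume_pi_pi, Finset.prod_congr rfl fun _ _ => Real.volume_Icc,
    Finset.prod_const, Finset.card_univ, ← ENNReal.ofReal_pow (by linarith)]
  congr 2
  ring

/-- the set of moves -/
def mvs (ρ : ℝ) (T : M.L →ₗ[ℝ] M.L) : Set M.NN :=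
  {n | ∃ q : J → ℝ, (∀ j, |q j| ≤ ρ) ∧ M.E n = T (D.s q)}

theorem mvs_eq (ρ : ℝ) (T : M.L →ₗ[ℝ] M.L) : mvs D ρ T =
    (fun q : J → ℝ => M.E.symm (T (D.s q))) '' (Set.pi univ fun _ => Icc (-ρ) ρ) := by
  ext n
  constructor
  · rintro ⟨q, hq, h⟩
    refine ⟨q, fun j _ => abs_le.1 (hq j), ?_⟩
    change M.E.symm (T (D.s q)) = n
    rw [← h, LinearEquiv.symm_apply_apply]
  · rintro ⟨q, hq, rfl⟩
    exact ⟨q, fun j => abs_le.2 (hq j (mem_univ j)), LinearEquiv.apply_symm_apply _ _⟩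

theorem isCompact_mvs (ρ : ℝ) (T : M.L →ₗ[ℝ] M.L) : IsCompact (mvs D ρ T) := by
  rw [mvs_eq]
  exact (isCompact_univ_pi fun _ => isCompact_Icc).image (continuous_move D T)

theorem lamV_compl (ρ : ℝ) (T : M.L →ₗ[ℝ] M.L) : lamV D ρ T (mvs D ρ T)ᶜ = 0 := by
  unfold lamV
  rw [Measure.map_apply (continuous_move D T).measurable (isCompact_mvs D ρ T).measurableSet.compl,
    Measure.restrict_apply' (MeasurableSet.univ_pi fun _ => measurableSet_Icc)]
  refine measure_mono_null ?_ measure_empty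
  rintro q ⟨h1, h2⟩
  apply h1
  rw [mvs_eq]
  exact mem_image_of_mem _ h2

theorem prN_move {T : M.L →ₗ[ℝ] M.L} (q : J → ℝ) :
    prN D (M.E.symm (T (D.s q))) = D.down T q := by
  rw [prN_apply, LinearEquiv.apply_symm_apply]
  rfl

theorem volume_inv_mul_singleton (B : Set D.QN) (y : D.QN) :
    (volume : Measure D.QN) (B⁻¹ * {y}) = (volume : Measure D.QN) B := by
  rw [measure_mul_singleton]
  have h : B⁻¹ = (fun x : J → ℝ => -x) ⁻¹' B := rfl
  rw [h]
  exact (Measure.measurePreserving_neg (volume : Measure (J → ℝ))).measure_preimage_equiv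
    (f := MeasurableEquiv.neg (J → ℝ)) B

/-- **cosets are small**: the `lamV`-measure of the moves in `N⁻¹ y`. -/
theorem lamV_le {ρ : ℝ} {T : M.L →ₗ[ℝ] M.L} (hdet : D.qdet T ≠ 0) (N : Set M.NN)
    (hN : MeasurableSet N) (y : M.NN) :
    lamV D ρ T {v | y * v⁻¹ ∈ N} ≤
      ENNReal.ofReal (D.qdet T)⁻¹ * (volume : Measure D.QN) (prN D '' N) := by
  have hdet' : LinearMap.det (D.down T) ≠ 0 := by
    intro h
    apply hdet
    unfold QData.qdet
    rw [h, abs_zero]
  have hm : MeasurableSet {v : M.NN | y * v⁻¹ ∈ N} := by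
    have : Continuous fun v : M.NN => y * v⁻¹ := by fun_prop
    exact this.measurable hN
  unfold lamV
  rw [Measure.map_apply (continuous_move D T).measurable hm]
  refine (Measure.restrict_apply_le _ _).trans ?_
  have hsub : (fun q : J → ℝ => M.E.symm (T (D.s q))) ⁻¹' {v | y * v⁻¹ ∈ N} ⊆
      D.down T ⁻¹' ((prN D '' N)⁻¹ * {prN D y} : Set D.QN) := by
    intro q hq
    refine ⟨(prN D (y * (M.E.symm (T (D.s q)))⁻¹))⁻¹, ?_, prN D y, rfl, ?_⟩
    · rw [Set.inv_mem_inv]
      exact mem_image_of_mem _ hq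
    · change (prN D (y * (M.E.symm (T (D.s q)))⁻¹))⁻¹ * prN D y = D.down T q
      rw [← prN_move D q, map_mul, map_inv]
      group
  refine (measure_mono hsub).trans ?_
  have h1 := Measure.addHaar_preimage_linearMap (volume : Measure (J → ℝ)) hdet'
    ((prN D '' N)⁻¹ * {prN D y} : Set D.QN)
  rw [h1, abs_inv]
  have h2 : (volume : Measure (J → ℝ)) ((prN D '' N)⁻¹ * {prN D y} : Set D.QN) =
      (volume : Measure D.QN) (prN D '' N) := volume_inv_mul_singleton D _ _
  rw [h2]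
  exact le_rfl

theorem continuous_prN : Continuous (prN D) := by
  have : Continuous (D.P ∘ₗ M.E.toLinearMap) := LinearMap.continuous_of_finiteDimensional _
  exact this

theorem Bx_rst_subset (g : σ → M.L) (s : ℝ) (hs : 0 ≤ s) :
    Bx M.c (rst g w) s ⊆ Bx M.c g s := by
  classical
  rintro x ⟨a, ha, rfl⟩
  refine ⟨fun κ => if ∀ i ∈ κ, w i then a κ else 0, fun κ => ?_, ?_⟩
  · beta_reduce
    split_ifs
    · exact ha κ
    · rwa [abs_zero]
  · refine Finset.sum_congr rfl fun κ _ => ?_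
    beta_reduce
    by_cases h : ∀ i ∈ κ, w i
    · rw [if_pos h, mon_rst_of w h]
    · rw [if_neg h, zero_smul, mon_rst_not w h, smul_zero]

/-- **Upper bound** for the volume of `NB g (A e) * U`. -/
theorem exists_mul_upper (M : BModel S π) (σ : Type*) [Fintype σ] (A : ℝ) (hA : 1 ≤ A) :
    ∃ A₁ : ℝ, 1 ≤ A₁ ∧ ∀ B : ℝ, 1 ≤ B → ∃ C : ℝ, 0 < C ∧
      ∀ {J : Type} [Fintype J] (D : QData M.star J) (w : σ → Prop) [DecidablePred w]
        (bs g : σ → M.L) (T₀ T : M.L →ₗ[ℝ] M.L), IsLie T₀ → IsLie T → D.Pres T₀ → D.Pres T →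
        (∀ i, w i → g i = T₀ (bs i)) → (∀ i, ¬ w i → D.P (g i) = 0) →
        (∀ i, w i → g i ∈ Bx M.c (rst (fun i => T (bs i)) w) A) →
        ∀ e : ℝ, 0 < e → e ≤ 1 →
        (∀ x, D.P x = 0 → x ∈ Bx M.c (rst (fun i => T (bs i)) w) A₁ → x ∈ Bx M.c g (B * e)) →
        ∀ U : Set M.NN, U ⊆ M.NB (rst (fun i => T (bs i)) w) A →
        volume (M.NB g (A * e) * U) * (ENNReal.ofReal (D.qdet T₀) * vQ D w bs e) ≤
          (ENNReal.ofReal (D.qdet T) * vQ D w bs A₁) * (ENNReal.ofReal C * volume (M.NB g e)) := by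
  obtain ⟨A₂, H₂⟩ := M.star.exists_famConst M.c σ A hA
  obtain ⟨A₃, hA₃, h₃⟩ := exists_Bx_comp M.c σ σ A hA
  have hA₂ := H₂.one_le
  set T₁ : ℝ := A₃ + A with hT₁
  obtain ⟨A₄, H₄⟩ := M.star.exists_famConst M.c σ T₁ (by linarith)
  have hA₄ := H₄.one_le
  set A₁ : ℝ := A₂ * A + A₃ * A₂ + A₄ * T₁ with hA₁
  have hA₁1 : 1 ≤ A₁ := by nlinarith
  refine ⟨A₁, hA₁1, fun B hB => ?_⟩
  set T₂ : ℝ := A + A₂ + B with hT₂
  obtain ⟨A₅, H₅⟩ := M.star.exists_famConst M.c σ T₂ (by linarith)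
  have hA₅ := H₅.one_le
  refine ⟨(A₅ * T₂) ^ M.r, by positivity, ?_⟩
  intro J _ D w _ bs g T₀ T hT₀ hT hP₀ hP hw hv h1 e he he1 h2 U hU
  have hNg : Nil M.c g := M.nilC.nil g
  set f : σ → M.L := rst (fun i => T (bs i)) w with hf
  have hNf : Nil M.c f := M.nilC.nil f
  have hfw : ∀ i, w i → f i = T (bs i) := fun i hi => if_pos hi
  have hfv : ∀ i, ¬ w i → D.P (f i) = 0 := fun i hi => by
    have : f i = 0 := if_neg hi
    rw [this, map_zero]
  have hrf : rst f w = f := by
    funext i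
    rw [hf]; unfold Nb.rst
    split_ifs <;> rfl
  have hgf : ∀ i, rst g w i ∈ Bx M.c f A := by
    intro i
    unfold Nb.rst
    split_ifs with hi
    · exact h1 i hi
    · exact Bx_zero_mem (by linarith)
  -- the small set in the quotient
  set P : Set D.QN := prN D '' M.NB g e with hPdef
  have hPeq : P = prN D '' M.NB (rst g w) e := by
    rw [hPdef, prN_image_NB D hv he.le, prN_image_NB D (w := w) (fam := rst g w) ?_ he.le]
    · congr 2
      funext i
      unfold Nb.rst; split_ifs <;> rfl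
    · intro i hi
      have : rst g w i = 0 := if_neg hi
      rw [this, map_zero]
  have hPm : MeasurableSet P :=
    ((BModel.isCompact_NB M g e).image (continuous_prN D)).measurableSet
  have hPv : (volume : Measure D.QN) P = ENNReal.ofReal (D.qdet T₀) * vQ D w bs e :=
    volume_prN_NB D hT₀ hP₀ hw hv he.le
  have hPU : P * prN D '' U ⊆ prN D '' M.NB f A₁ := by
    rw [hPeq]
    rintro _ ⟨_, ⟨n, hn, rfl⟩, _, ⟨u, hu, rfl⟩, rfl⟩
    refine ⟨n * u, ?_, map_mul _ _ _⟩
    rw [BModel.mem_NB, BModel.E_mul]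
    have hn' : M.E n ∈ Bx M.c f (A₃ * e) := h₃ f (rst g w) hNf hgf e he.le hn
    have hu' : M.E u ∈ Bx M.c f A := hU hu
    have h3 := H₄.op_mem f hNf (A₃ * e) A (by positivity) (by nlinarith) (by linarith)
      (by linarith) _ hn' _ hu'
    refine Bx_mono ?_ h3
    have h4 : max (A₃ * e) A ≤ T₁ := max_le (by nlinarith) (by linarith)
    have h5 : A₄ * max (A₃ * e) A ≤ A₄ * T₁ := by gcongr
    nlinarith
  have hPUv : (volume : Measure D.QN) (P * prN D '' U) ≤
      ENNReal.ofReal (D.qdet T) * vQ D w bs A₁ := by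
    refine (measure_mono hPU).trans (le_of_eq ?_)
    exact volume_prN_NB D hT hP hfw hfv (by linarith)
  rw [← hPv]
  by_cases hP0 : (volume : Measure D.QN) P = 0
  · rw [hP0, mul_zero]; exact zero_le
  have hfin : (volume : Measure D.QN) (P * prN D '' U) ≠ ∞ := by
    refine ((measure_mono hPU).trans_lt ?_).ne
    exact ((BModel.isCompact_NB M f A₁).image (continuous_prN D)).measure_lt_top
  have key := measure_mul_upper (volume : Measure M.NN) (volume : Measure D.QN) (prN D)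
    (N := M.NB g (A * e)) (U := U) (N₂ := M.NB g ((A₂ + B) * e)) hPm hP0 hfin ?_
  · refine key.trans ?_
    have hNN : M.NB g (A * e) * M.NB g ((A₂ + B) * e) ⊆ M.NB g ((A₅ * T₂) * e) := by
      rintro _ ⟨n, hn, n', hn', rfl⟩
      rw [BModel.mem_NB, BModel.E_mul]
      have h3 := H₅.op_mem g hNg (A * e) ((A₂ + B) * e) (by positivity) (by nlinarith)
        (by positivity) (by nlinarith) _ hn _ hn'
      refine Bx_mono ?_ h3
      have h4 : max (A * e) ((A₂ + B) * e) ≤ T₂ * e := max_le (by gcongr; linarith)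
        (by gcongr; linarith)
      calc A₅ * max (A * e) ((A₂ + B) * e) ≤ A₅ * (T₂ * e) := by gcongr
        _ = (A₅ * T₂) * e := by ring
    calc (volume : Measure D.QN) (P * prN D '' U) * volume (M.NB g (A * e) * M.NB g ((A₂ + B) * e))
        ≤ (ENNReal.ofReal (D.qdet T) * vQ D w bs A₁) * volume (M.NB g ((A₅ * T₂) * e)) := by
          gcongr
      _ = _ := by rw [BModel.volume_NB_smul (by positivity)]
  · intro u hu u' hu' x hx y hy hxy
    obtain ⟨n, hn, rfl⟩ := hx
    obtain ⟨n', hn', rfl⟩ := hy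
    rw [← map_inv, ← map_mul] at hxy
    have h3 : M.E (n⁻¹ * n') ∈ Bx M.c g (A₂ * e) := by
      rw [BModel.E_mul]
      have := H₂.op_mem g hNg e e he.le (by linarith) he.le (by linarith) _
        (BModel.NB_inv hn) _ hn'
      rwa [max_self] at this
    have h4 : D.P (M.E (n⁻¹ * n')) ∈ D.P '' Bx M.c (rst g w) (A₂ * e) := by
      rw [← P_image_Bx D hv (by positivity)]
      exact mem_image_of_mem _ h3
    obtain ⟨z, hz, hz'⟩ := h4
    have h5 : M.E (u * u'⁻¹) ∈ Bx M.c f (A₂ * A) := by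
      rw [BModel.E_mul]
      have := H₂.op_mem f hNf A A (by linarith) le_rfl (by linarith) le_rfl _ (hU hu) _
        (BModel.NB_inv (hU hu'))
      rwa [max_self] at this
    have h6 : z ∈ Bx M.c f (A₃ * (A₂ * e)) := h₃ f (rst g w) hNf hgf _ (by positivity) hz
    have h7 : D.P (M.E (u * u'⁻¹) - z) = 0 := by
      rw [map_sub, hz', sub_eq_zero]; exact hxy
    have h8 : M.E (u * u'⁻¹) - z ∈ Bx M.c f A₁ := by
      rw [sub_eq_add_neg]
      refine Bx_mono ?_ (Bx_add h5 (Bx_neg h6))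
      have : A₃ * (A₂ * e) ≤ A₃ * A₂ := by
        have : A₂ * e ≤ A₂ := by nlinarith
        gcongr
      nlinarith
    have h9 := h2 _ h7 h8
    rw [BModel.mem_NB]
    have h10 : M.E (u * u'⁻¹) = z + (M.E (u * u'⁻¹) - z) := by abel
    rw [h10]
    refine Bx_mono ?_ (Bx_add (Bx_rst_subset g (A₂ * e) (by positivity) hz) h9)
    linarith

end model

end Crest.Agent.R182.BoxVol
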