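/-
R182, module BOXVOL (helper88), part 4: the quotient `Q_w = L / M_w` of a ray `w` of generating
weights of a `BModel`; determinants of verticals and dilations on it.
-/
import Mathlib
import Crest.Agent.R182.BoxVol
import Crest.Agent.R182.BoxReach

set_option autoImplicit false
set_option linter.unusedSectionVars false

open MeasureTheory Set
open scoped Pointwise ENNReal

namespace Crest.Agent.R182.BoxVol

open Crest.Agent.R182.Nb Crest.Agent.R182.Core

variable {Γ : Type*} [Group Γ] {k : ℕ} {S : Set Γ} {π : Γ →* Multiplicative (Fin k → ℤ)}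

/-- `w` is the set of generating letters whose weight is a positive multiple of `ρ` -/
structure IsRay (M : BModel S π) (w : GI M → Prop) (ρ : (Fin k → ℝ) →ₗ[ℝ] ℝ) : Prop where
  pos : ∀ i, w i → ∃ c : ℝ, 0 < c ∧ wg M i = c • ρ
  off : ∀ i, (∃ c : ℝ, 0 < c ∧ wg M i = c • ρ) → w i

section ideal

variable (M : BModel S π) (w : GI M → Prop)

/-- the span of the monomials with a letter outside `w` -/
def Mw : Submodule ℝ M.L :=
  Submodule.span ℝ {x | ∃ κ : List (GI M), ¬ (∀ i ∈ κ, w i) ∧ x = mon (eg M) κ}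

theorem eg_lie_mem_Mw (i : GI M) {y : M.L} (hy : y ∈ Mw M w) : ⁅eg M i, y⁆ ∈ Mw M w := by
  induction hy using Submodule.span_induction with
  | mem y hy =>
    obtain ⟨κ, hκ, rfl⟩ := hy
    have hne : κ ≠ [] := by rintro rfl; simp at hκ
    refine Submodule.subset_span ⟨i :: κ, ?_, (mon_cons _ i hne).symm⟩
    intro h
    exact hκ fun j hj => h j (List.mem_cons_of_mem _ hj)
  | zero => rw [lie_zero]; exact Submodule.zero_mem _
  | add a b _ _ h h' => rw [lie_add]; exact Submodule.add_mem _ h h'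
  | smul r a _ h => rw [lie_smul]; exact Submodule.smul_mem _ _ h

theorem mon_lie_mem_Mw (κ : List (GI M)) : ∀ {y : M.L}, y ∈ Mw M w →
    ⁅mon (eg M) κ, y⁆ ∈ Mw M w := by
  induction κ with
  | nil => intro y _; rw [mon_nil, zero_lie]; exact Submodule.zero_mem _
  | cons i κ ih =>
    intro y hy
    by_cases hκ : κ = []
    · subst hκ; exact eg_lie_mem_Mw M w i hy
    · rw [mon_cons _ i hκ, lie_lie]
      exact Submodule.sub_mem _ (eg_lie_mem_Mw M w i (ih hy)) (ih (eg_lie_mem_Mw M w i hy))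

theorem lie_mem_Mw (x : M.L) {y : M.L} (hy : y ∈ Mw M w) : ⁅x, y⁆ ∈ Mw M w := by
  have hx : x ∈ Pm (eg M) := by rw [span_mon]; exact Submodule.mem_top
  unfold Pm at hx
  induction hx using Submodule.span_induction with
  | mem x hx => obtain ⟨κ, rfl⟩ := hx; exact mon_lie_mem_Mw M w κ hy
  | zero => rw [zero_lie]; exact Submodule.zero_mem _
  | add a b _ _ h h' => rw [add_lie]; exact Submodule.add_mem _ h h'
  | smul r a _ h => rw [smul_lie]; exact Submodule.smul_mem _ _ h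

end ideal

/-- The quotient of a ray with a basis of pure monomials. -/
structure RayQ (M : BModel S π) (w : GI M → Prop) where
  n : ℕ
  D : QData M.star (Fin n)
  κ : Fin n → List (GI M)
  κ_w : ∀ j, ∀ i ∈ κ j, w i
  κ_len : ∀ j, (κ j).length ≤ M.c
  κ_inj : Function.Injective κ
  s_eq : ∀ q, D.s q = ∑ j, q j • mon (eg M) (κ j)
  ker : ∀ x, D.P x = 0 ↔ x ∈ Mw M w

theorem exists_rayQ (M : BModel S π) (w : GI M → Prop) : Nonempty (RayQ M w) := by
  classical
  let V := M.L ⧸ Mw M w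
  let mk : M.L →ₗ[ℝ] V := (Mw M w).mkQ
  have hmk : ∀ x, mk x = 0 ↔ x ∈ Mw M w := fun x => Submodule.Quotient.mk_eq_zero _
  set s : Set V := {v | ∃ κ : List (GI M), (∀ i ∈ κ, w i) ∧ κ.length ≤ M.c ∧ v = mk (mon (eg M) κ)}
    with hs
  have hspan : ⊤ ≤ Submodule.span ℝ s := by
    intro v hv
    clear hv
    obtain ⟨x, rfl⟩ := Submodule.mkQ_surjective _ v
    have hx : x ∈ Pm (eg M) := by rw [span_mon]; exact Submodule.mem_top
    unfold Pm at hx
    change mk x ∈ _
    induction hx using Submodule.span_induction with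
    | mem x hx =>
      obtain ⟨κ, rfl⟩ := hx
      by_cases h1 : ∀ i ∈ κ, w i
      · by_cases h2 : κ.length ≤ M.c
        · exact Submodule.subset_span ⟨κ, h1, h2, rfl⟩
        · have : mon (eg M) κ = 0 := M.nilC.nil _ κ (by omega)
          simp only [this, map_zero]
          exact Submodule.zero_mem _
      · have : mk (mon (eg M) κ) = 0 := (hmk _).2 (Submodule.subset_span ⟨κ, h1, rfl⟩)
        simp only [this]
        exact Submodule.zero_mem _
    | zero => rw [map_zero]; exact Submodule.zero_mem _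
    | add a b _ _ h h' => rw [map_add]; exact Submodule.add_mem _ h h'
    | smul r a _ h => rw [map_smul]; exact Submodule.smul_mem _ _ h
  set B₀ := Module.Basis.ofSpan hspan with hB₀
  set B := B₀.reindex (B₀.indexEquiv (Module.finBasis ℝ V)) with hB
  have hmem : ∀ j, ∃ κ : List (GI M), (∀ i ∈ κ, w i) ∧ κ.length ≤ M.c ∧ B j = mk (mon (eg M) κ) := by
    intro j
    have h1 : B j ∈ s := by
      rw [hB, Module.Basis.reindex_apply]
      exact Module.Basis.ofSpan_subset hspan ⟨_, rfl⟩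
    exact h1
  choose κ hκ1 hκ2 hκ3 using hmem
  have hP : ∀ x, B.equivFun (mk x) = 0 ↔ x ∈ Mw M w := fun x => by
    rw [LinearEquiv.map_eq_zero_iff]; exact hmk x
  refine ⟨{
    n := _
    D := {
      P := B.equivFun.toLinearMap ∘ₗ mk
      s := Fintype.linearCombination ℝ fun j => mon (eg M) (κ j)
      Ps := ?_
      ideal := ?_ }
    κ := κ
    κ_w := hκ1
    κ_len := hκ2
    κ_inj := ?_
    s_eq := ?_
    ker := ?_ }⟩
  · intro q
    change B.equivFun (mk (Fintype.linearCombination ℝ (fun j => mon (eg M) (κ j)) q)) = q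
    rw [Fintype.linearCombination_apply, map_sum]
    have : ∀ j, mk (q j • mon (eg M) (κ j)) = q j • B j := fun j => by rw [map_smul, hκ3]
    rw [Finset.sum_congr rfl fun j _ => this j]
    have h2 := B.equivFun_symm_apply q
    rw [← h2, LinearEquiv.apply_symm_apply]
  · intro x y hy
    exact (hP _).2 (lie_mem_Mw M w x ((hP _).1 hy))
  · intro j j' h
    apply B.injective
    rw [hκ3, hκ3, h]
  · intro q
    exact Fintype.linearCombination_apply _ _ _
  · intro x
    exact hP x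

namespace RayQ

variable {M : BModel S π} {w : GI M → Prop} (R : RayQ M w)

theorem P_eg {i : GI M} (hi : ¬ w i) : R.D.P (eg M i) = 0 :=
  (R.ker _).2 (Submodule.subset_span ⟨[i], fun h => hi (h i (by simp)), rfl⟩)

theorem κ_ne (j : Fin R.n) : R.κ j ≠ [] := by
  intro h
  have h1 := R.s_eq (Pi.single j 1)
  have h2 : ∑ j', (Pi.single j (1:ℝ) : Fin R.n → ℝ) j' • mon (eg M) (R.κ j') = 0 := by
    rw [Finset.sum_eq_single j]
    · rw [h]; simp
    · intro j' _ hj'
      rw [Pi.single_eq_of_ne hj', zero_smul]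
    · intro h'; exact absurd (Finset.mem_univ _) h'
  rw [h2] at h1
  have h3 := R.D.Ps (Pi.single j 1)
  rw [h1, map_zero] at h3
  have := congrFun h3 j
  simp at this

/-- Lie endomorphisms mapping the letters outside `w` to the kernel preserve the kernel -/
theorem pres_of [DecidablePred w] {T : M.L →ₗ[ℝ] M.L} (hT : IsLie T)
    (h : ∀ i, ¬ w i → R.D.P (T (eg M i)) = 0) : R.D.Pres T := by
  intro x hx
  rw [R.ker] at hx
  unfold Mw at hx
  induction hx using Submodule.span_induction with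
  | mem x hx =>
    obtain ⟨κ, hκ, rfl⟩ := hx
    rw [← hT.mon]
    exact P_mon_eq_zero R.D h hκ
  | zero => rw [map_zero, map_zero]
  | add a b _ _ h h' => rw [map_add, map_add, h, h', add_zero]
  | smul r a _ h => rw [map_smul, map_smul, h, smul_zero]

/-- the total weight of the quotient -/
noncomputable def τ : (Fin k → ℝ) →ₗ[ℝ] ℝ := ∑ j, ((R.κ j).map (wg M)).sum

end RayQ

/-- a nonempty sum of weights of a ray is a positive multiple of `ρ` -/
theorem IsRay.sum_pos {M : BModel S π} {w : GI M → Prop} {ρ : (Fin k → ℝ) →ₗ[ℝ] ℝ}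
    (h : IsRay M w ρ) {κ : List (GI M)} (hκ : ∀ i ∈ κ, w i) (hne : κ ≠ []) :
    ∃ c : ℝ, 0 < c ∧ (κ.map (wg M)).sum = c • ρ := by
  induction κ with
  | nil => exact absurd rfl hne
  | cons i κ ih =>
    obtain ⟨c, hc, hi⟩ := h.pos i (hκ i List.mem_cons_self)
    by_cases hκ0 : κ = []
    · subst hκ0
      exact ⟨c, hc, by simp [hi]⟩
    · obtain ⟨c', hc', h'⟩ := ih (fun j hj => hκ j (List.mem_cons_of_mem _ hj)) hκ0
      exact ⟨c + c', by positivity, by rw [List.map_cons, List.sum_cons, hi, h', add_smul]⟩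

/-- the weight spaces outside the ray are in the kernel -/
theorem IsRay.bas_mem {M : BModel S π} {w : GI M → Prop} {ρ : (Fin k → ℝ) →ₗ[ℝ] ℝ}
    (h : IsRay M w ρ) (i : Fin M.r) (hi : ∀ c : ℝ, 0 < c → M.wt i ≠ c • ρ) :
    M.bas i ∈ Mw M w := by
  have h1 := M.monSpan i
  refine (Submodule.span_le.2 ?_) h1
  rintro _ ⟨κ, hκ, rfl⟩
  by_cases hne : κ = []
  · subst hne; rw [mon_nil]; exact Submodule.zero_mem _
  · refine Submodule.subset_span ⟨κ, fun hw => ?_, rfl⟩
    obtain ⟨c, hc, hs⟩ := h.sum_pos hw hne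
    exact hi c hc (hκ.symm.trans hs)

section dil

variable (M : BModel S π)

/-- the dilation `e^{wt i v}` on the weight spaces -/
noncomputable def dil (v : Fin k → ℝ) : M.L →ₗ[ℝ] M.L :=
  M.bas.constr ℝ fun i => Real.exp (M.wt i v) • M.bas i

theorem dil_bas (v : Fin k → ℝ) (i : Fin M.r) : dil M v (M.bas i) = Real.exp (M.wt i v) • M.bas i := by
  rw [dil, Module.Basis.constr_basis]

theorem dil_eg (v : Fin k → ℝ) (i : GI M) : dil M v (eg M i) = Real.exp (wg M i v) • eg M i :=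
  dil_bas M v i

theorem isLie_dil (v : Fin k → ℝ) : IsLie (dil M v) := by
  intro x y
  have hb : ∀ i j, dil M v ⁅M.bas i, M.bas j⁆ = ⁅dil M v (M.bas i), dil M v (M.bas j)⁆ := by
    intro i j
    rw [dil_bas, dil_bas, smul_lie, lie_smul, smul_smul, ← Real.exp_add]
    conv_lhs => rw [← M.bas.sum_repr ⁅M.bas i, M.bas j⁆]
    conv_rhs => rw [← M.bas.sum_repr ⁅M.bas i, M.bas j⁆]
    rw [map_sum, Finset.smul_sum]
    refine Finset.sum_congr rfl fun l _ => ?_
    rw [map_smul, dil_bas]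
    by_cases h : M.bas.repr ⁅M.bas i, M.bas j⁆ l = 0
    · rw [h, zero_smul, zero_smul, smul_zero]
    · rw [M.lie_wt i j l h, LinearMap.add_apply, smul_comm]
  conv_lhs => rw [← M.bas.sum_repr x, ← M.bas.sum_repr y]
  conv_rhs => rw [← M.bas.sum_repr x, ← M.bas.sum_repr y]
  rw [sum_lie, map_sum, map_sum, sum_lie]
  refine Finset.sum_congr rfl fun i _ => ?_
  rw [lie_sum, map_sum, map_sum, lie_sum]
  refine Finset.sum_congr rfl fun j _ => ?_
  rw [smul_lie, lie_smul, map_smul, map_smul, hb, map_smul, map_smul, smul_lie, lie_smul]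

theorem dil_mon (v : Fin k → ℝ) (κ : List (GI M)) :
    dil M v (mon (eg M) κ) = Real.exp ((κ.map (wg M)).sum v) • mon (eg M) κ := by
  rw [← (isLie_dil M v).mon]
  have : (fun i => dil M v (eg M i)) = gZ (eg M) fun i => wg M i v := by
    funext i; rw [dil_eg]; rfl
  rw [this, mon_gZ, M.sum_wt_apply]

end dil

namespace RayQ

variable {M : BModel S π} {w : GI M → Prop} [DecidablePred w] (R : RayQ M w)

theorem pres_dil (v : Fin k → ℝ) : R.D.Pres (dil M v) :=
  R.pres_of (isLie_dil M v) fun i hi => by rw [dil_eg, map_smul, R.P_eg hi, smul_zero]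

theorem isLie_Ad (g : M.G) : IsLie (M.Ad g : M.L →ₗ[ℝ] M.L) := fun x y => M.Ad_lie g x y

theorem pres_Ad {ρ : (Fin k → ℝ) →ₗ[ℝ] ℝ} (hw : IsRay M w ρ) {g : M.G} (hg : g ∈ M.C) :
    R.D.Pres (M.Ad g : M.L →ₗ[ℝ] M.L) := by
  refine R.pres_of (isLie_Ad g) fun i hi => ?_
  rw [R.ker]
  change M.Ad g (M.bas i) ∈ _
  rw [← M.bas.sum_repr (M.Ad g (M.bas i))]
  refine Submodule.sum_mem _ fun j _ => ?_
  by_cases h : M.bas.repr (M.Ad g (M.bas i)) j = 0
  · rw [h, zero_smul]; exact Submodule.zero_mem _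
  · refine Submodule.smul_mem _ _ (hw.bas_mem j fun c hc hj => hi (hw.off i ⟨c, hc, ?_⟩))
    exact (M.Ad_C g hg j i h).symm.trans hj

/-- the dilations are diagonal on the quotient -/
theorem down_dil (v : Fin k → ℝ) (q : Fin R.n → ℝ) (j : Fin R.n) :
    R.D.down (dil M v) q j = Real.exp (((R.κ j).map (wg M)).sum v) * q j := by
  have h1 : R.D.down (dil M v) q = R.D.P (dil M v (R.D.s q)) := rfl
  have h2 : dil M v (R.D.s q) =
      R.D.s fun j => Real.exp (((R.κ j).map (wg M)).sum v) * q j := by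
    rw [R.s_eq, R.s_eq, map_sum]
    refine Finset.sum_congr rfl fun j _ => ?_
    rw [map_smul, dil_mon, smul_smul, mul_comm]
  rw [h1, h2, R.D.Ps]

theorem qdet_dil (v : Fin k → ℝ) : R.D.qdet (dil M v) = Real.exp (R.τ v) := by
  have h1 : R.D.down (dil M v) =
      Matrix.toLin' (Matrix.diagonal fun j => Real.exp (((R.κ j).map (wg M)).sum v)) := by
    refine LinearMap.ext fun q => ?_
    funext j
    rw [R.down_dil, Matrix.toLin'_apply, Matrix.mulVec_diagonal]
  unfold QData.qdet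
  rw [h1, LinearMap.det_toLin', Matrix.det_diagonal, ← Real.exp_sum,
    abs_of_pos (Real.exp_pos _)]
  congr 1
  rw [τ, LinearMap.sum_apply]

/-- polynomial growth of the determinant of a power -/
theorem growth_aux {x y C : ℝ} {D : ℕ} (hx : 0 ≤ x) (hy : 0 < y) (hC : 0 ≤ C)
    (h : ∀ n : ℕ, x ^ n ≤ C * (1 + n) ^ D * y ^ n) : x ≤ y := by
  by_contra hlt
  push Not at hlt
  set r := x / y with hr
  have hr1 : 1 < r := (one_lt_div hy).2 hlt
  have h1 : ∀ n : ℕ, r ^ n ≤ C * (1 + n) ^ D := by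
    intro n
    rw [hr, div_pow, div_le_iff₀ (pow_pos hy n)]
    exact h n
  -- exponential beats polynomial
  have h2 := tendsto_pow_const_div_const_pow_of_one_lt D hr1
  have h3 : Filter.Tendsto (fun n : ℕ => C * 2 ^ D * ((n : ℝ) ^ D / r ^ n)) Filter.atTop
      (nhds (C * 2 ^ D * 0)) := h2.const_mul _
  rw [mul_zero] at h3
  have h4 := (h3.eventually (gt_mem_nhds (by norm_num : (0:ℝ) < 1))).and
    (Filter.eventually_ge_atTop 1)
  obtain ⟨n, hn1, hn2⟩ := h4.exists
  have hn2' : (1:ℝ) ≤ n := by exact_mod_cast hn2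
  have hrn : 0 < r ^ n := by positivity
  have h5 : C * (1 + n) ^ D ≤ C * 2 ^ D * (n : ℝ) ^ D := by
    rw [mul_assoc, ← mul_pow]
    gcongr
    linarith
  have h6 : C * 2 ^ D * ((n : ℝ) ^ D / r ^ n) = C * 2 ^ D * (n : ℝ) ^ D / r ^ n := by ring
  rw [h6, div_lt_one hrn] at hn1
  linarith [h1 n]

theorem abs_P_le (x : M.L) (j : Fin R.n) :
    |R.D.P x j| ≤ (∑ i, |R.D.P (M.bas i) j|) * ‖M.bas.equivFun x‖ := by
  conv_lhs => rw [← M.bas.sum_equivFun x]
  rw [map_sum, Finset.sum_apply, Finset.sum_mul]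
  refine (Finset.abs_sum_le_sum_abs _ _).trans (Finset.sum_le_sum fun i _ => ?_)
  rw [map_smul, Pi.smul_apply, smul_eq_mul, abs_mul, mul_comm]
  gcongr
  have := norm_le_pi_norm (M.bas.equivFun x) i
  rwa [Real.norm_eq_abs] at this

/-- upper bound for the entries of `Ad g` on the quotient -/
theorem exists_down_le (Rr : ℝ) : ∃ A : ℝ, 0 ≤ A ∧ ∀ l : List M.G,
    (∀ s ∈ l, s ∈ M.C ∧ M.len s ≤ Rr) → ∀ i j,
      |R.D.down (M.Ad l.prod : M.L →ₗ[ℝ] M.L) (Pi.single j 1) i| ≤
        A * (1 + l.length) ^ M.d * Real.exp (((R.κ j).map (wg M)).sum (M.h l.prod)) := by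
  obtain ⟨A₁, h1⟩ := M.Ad_C_le Rr
  set B : ℝ := ∑ j, ∑ i, |M.bas.repr (mon (eg M) (R.κ j)) i| with hB
  set P₁ : ℝ := ∑ j, ∑ i, |R.D.P (M.bas i) j| with hP₁
  refine ⟨P₁ * (B * |A₁|), by positivity, fun l hl i j => ?_⟩
  set x := mon (eg M) (R.κ j) with hx
  set ν := ((R.κ j).map (wg M)).sum with hν
  have hd : R.D.down (M.Ad l.prod : M.L →ₗ[ℝ] M.L) (Pi.single j 1) =
      R.D.P (M.Ad l.prod x) := by
    have : R.D.s (Pi.single j 1) = x := by
      rw [R.s_eq, Finset.sum_eq_single j]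
      · simp [hx]
      · intro j' _ hj'
        rw [Pi.single_eq_of_ne hj', zero_smul]
      · intro h'; exact absurd (Finset.mem_univ _) h'
    change R.D.P (M.Ad l.prod (R.D.s (Pi.single j 1))) = _
    rw [this]
  rw [hd]
  have hpoly : 0 ≤ |A₁| * (1 + (l.length:ℝ)) ^ M.d * Real.exp (ν (M.h l.prod)) := by positivity
  have hAx : ‖M.bas.equivFun (M.Ad l.prod x)‖ ≤
      (∑ i, |M.bas.repr x i|) * (|A₁| * (1 + l.length) ^ M.d * Real.exp (ν (M.h l.prod))) := by
    rw [pi_norm_le_iff_of_nonneg (by positivity)]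
    intro a
    rw [Real.norm_eq_abs]
    have e1 : M.bas.equivFun (M.Ad l.prod x) a =
        ∑ i', M.bas.repr x i' * M.bas.repr (M.Ad l.prod (M.bas i')) a := by
      conv_lhs => rw [← M.bas.sum_repr x]
      rw [map_sum, map_sum, Finset.sum_apply]
      exact Finset.sum_congr rfl fun i' _ => by rw [map_smul, map_smul]; rfl
    rw [e1, Finset.sum_mul]
    refine (Finset.abs_sum_le_sum_abs _ _).trans (Finset.sum_le_sum fun i' _ => ?_)
    rw [abs_mul]
    by_cases h0 : M.bas.repr x i' = 0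
    · rw [h0, abs_zero, zero_mul, zero_mul]
    · by_cases h00 : M.bas.repr (M.Ad l.prod (M.bas i')) a = 0
      · rw [h00, abs_zero, mul_zero]; positivity
      · have h2 : M.wt i' = ν := mon_wt M (fun i : GI M => (i : Fin M.r)) (R.κ j) i' h0
        have h3 := h1 l hl a i'
        have hC : l.prod ∈ M.C := M.C.list_prod_mem fun s hs => (hl s hs).1
        have h4 : M.wt a = ν := (M.Ad_C _ hC a i' h00).trans h2
        rw [h4] at h3
        gcongr
        refine h3.trans ?_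
        gcongr
        exact le_abs_self _
  calc |R.D.P (M.Ad l.prod x) i| ≤ (∑ i', |R.D.P (M.bas i') i|) * ‖M.bas.equivFun (M.Ad l.prod x)‖ :=
        R.abs_P_le _ _
    _ ≤ P₁ * ((∑ i, |M.bas.repr x i|) *
        (|A₁| * (1 + l.length) ^ M.d * Real.exp (ν (M.h l.prod)))) := by
        gcongr
        exact Finset.single_le_sum (f := fun j => ∑ i, |R.D.P (M.bas i) j|)
          (fun j _ => Finset.sum_nonneg fun i _ => abs_nonneg _) (Finset.mem_univ i)
    _ ≤ P₁ * (B * (|A₁| * (1 + l.length) ^ M.d * Real.exp (ν (M.h l.prod)))) := by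
        gcongr
        exact Finset.single_le_sum (f := fun j => ∑ i, |M.bas.repr (mon (eg M) (R.κ j)) i|)
          (fun j _ => Finset.sum_nonneg fun i _ => abs_nonneg _) (Finset.mem_univ j)
    _ = _ := by ring

theorem exists_qdet_le (Rr : ℝ) : ∃ A : ℝ, 0 ≤ A ∧ ∀ l : List M.G,
    (∀ s ∈ l, s ∈ M.C ∧ M.len s ≤ Rr) →
      R.D.qdet (M.Ad l.prod : M.L →ₗ[ℝ] M.L) ≤
        A * (1 + l.length) ^ (M.d * R.n) * Real.exp (R.τ (M.h l.prod)) := by
  obtain ⟨A, hA, h⟩ := R.exists_down_le Rr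
  refine ⟨(Fintype.card (Fin R.n)).factorial * A ^ R.n, by positivity, fun l hl => ?_⟩
  set T := R.D.down (M.Ad l.prod : M.L →ₗ[ℝ] M.L) with hT
  set e : Fin R.n → ℝ := fun j => Real.exp (((R.κ j).map (wg M)).sum (M.h l.prod)) with he
  set B : Matrix (Fin R.n) (Fin R.n) ℝ := Matrix.of fun i j => T (Pi.single j 1) i / e j with hB
  have hTB : LinearMap.toMatrix' T = Matrix.of fun i j => e j * B i j := by
    ext i j
    rw [LinearMap.toMatrix'_apply, Matrix.of_apply, hB, Matrix.of_apply,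
      mul_div_cancel₀ _ (Real.exp_pos _).ne']
  have hdet : LinearMap.det T = (∏ j, e j) * B.det := by
    rw [← LinearMap.det_toMatrix', hTB, Matrix.det_mul_row]
  have hprod : ∏ j, e j = Real.exp (R.τ (M.h l.prod)) := by
    rw [he, ← Real.exp_sum, τ, LinearMap.sum_apply]
  have hBle : |B.det| ≤ (Fintype.card (Fin R.n)).factorial •
      (A * (1 + (l.length : ℝ)) ^ M.d) ^ Fintype.card (Fin R.n) := by
    refine Matrix.det_le (abv := IsAbsoluteValue.toAbsoluteValue abs) ?_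
    intro i j
    change |B i j| ≤ _
    rw [hB, Matrix.of_apply, abs_div, abs_of_pos (Real.exp_pos _), div_le_iff₀ (Real.exp_pos _)]
    exact h l hl i j
  unfold QData.qdet
  rw [← hT, hdet, abs_mul, hprod, abs_of_pos (Real.exp_pos _), mul_comm]
  refine mul_le_mul_of_nonneg_right (hBle.trans (le_of_eq ?_)) (Real.exp_pos _).le
  rw [nsmul_eq_mul, Fintype.card_fin, mul_pow, ← pow_mul]
  ring

/-- **the determinant of a vertical on the quotient** -/
theorem qdet_Ad {ρ : (Fin k → ℝ) →ₗ[ℝ] ℝ} (hw : IsRay M w ρ) {g : M.G} (hg : g ∈ M.C) :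
    R.D.qdet (M.Ad g : M.L →ₗ[ℝ] M.L) = Real.exp (R.τ (M.h g)) := by
  -- one inequality for all verticals
  have key : ∀ g ∈ M.C, R.D.qdet (M.Ad g : M.L →ₗ[ℝ] M.L) ≤ Real.exp (R.τ (M.h g)) := by
    intro g hg
    obtain ⟨A, hA, h⟩ := R.exists_qdet_le (M.len g)
    have hnn : 0 ≤ R.D.qdet (M.Ad g : M.L →ₗ[ℝ] M.L) := abs_nonneg _
    refine growth_aux (D := M.d * R.n) hnn (Real.exp_pos _) hA fun n => ?_
    have h1 := h (List.replicate n g) (fun s hs => by
      rw [List.mem_replicate] at hs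
      rw [hs.2]; exact ⟨hg, le_rfl⟩)
    rw [List.prod_replicate, List.length_replicate] at h1
    have h2 : ∀ n : ℕ, R.D.qdet (M.Ad (g ^ n) : M.L →ₗ[ℝ] M.L) =
        R.D.qdet (M.Ad g : M.L →ₗ[ℝ] M.L) ^ n := by
      intro n
      induction n with
      | zero =>
        rw [pow_zero, pow_zero, map_one]
        exact R.D.qdet_id
      | succ n ih =>
        rw [pow_succ, pow_succ, ← ih, map_mul]
        exact (R.pres_Ad hw (M.C.pow_mem hg n)).qdet_comp
    have h3 : ∀ n : ℕ, M.h (g ^ n) = (n : ℝ) • M.h g := by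
      intro n
      induction n with
      | zero => rw [pow_zero, M.h_one]; simp
      | succ n ih => rw [pow_succ, M.h_mul, ih]; push_cast; rw [add_smul, one_smul]
    rw [← h2, ← Real.exp_nat_mul]
    rw [h3, map_smul, smul_eq_mul] at h1
    exact h1
  refine le_antisymm (key g hg) ?_
  have h1 := key g⁻¹ (M.C.inv_mem hg)
  have h2 : R.D.qdet (M.Ad g : M.L →ₗ[ℝ] M.L) * R.D.qdet (M.Ad g⁻¹ : M.L →ₗ[ℝ] M.L) = 1 := by
    rw [← (R.pres_Ad hw hg).qdet_comp]
    have : ((M.Ad g : M.L →ₗ[ℝ] M.L) ∘ₗ (M.Ad g⁻¹ : M.L →ₗ[ℝ] M.L)) = LinearMap.id := by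
      refine LinearMap.ext fun x => ?_
      change M.Ad g (M.Ad g⁻¹ x) = x
      rw [← LinearEquiv.mul_apply, ← map_mul, mul_inv_cancel, map_one]; rfl
    rw [this]; exact R.D.qdet_id
  rw [M.h_inv, map_neg, Real.exp_neg] at h1
  have h3 : 0 ≤ R.D.qdet (M.Ad g : M.L →ₗ[ℝ] M.L) := abs_nonneg _
  have h4 : 1 ≤ R.D.qdet (M.Ad g : M.L →ₗ[ℝ] M.L) * (Real.exp (R.τ (M.h g)))⁻¹ := by
    rw [← h2]; gcongr
  rw [← div_eq_mul_inv, le_div_iff₀ (Real.exp_pos _), one_mul] at h4
  exact h4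

/-- combinations of the basic monomials lie in the box -/
theorem sum_mem_Bx (v : GI M → M.L) {q : Fin R.n → ℝ} {s : ℝ} (hs : 0 ≤ s) (hq : ∀ j, |q j| ≤ s) :
    ∑ j, q j • mon v (R.κ j) ∈ Bx M.c (rst v w) s := by
  classical
  refine ⟨fun κ => if h : ∃ j, R.κ j = κ then q h.choose else 0, fun κ => ?_, ?_⟩
  · beta_reduce
    split_ifs with h
    · exact hq _
    · rwa [abs_zero]
  · have h1 : ∀ κ ∈ KL (GI M) M.c, κ ∉ Finset.univ.image R.κ →
        (if h : ∃ j, R.κ j = κ then q h.choose else 0) • mon (rst v w) κ = 0 := by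
      intro κ _ hκ
      rw [dif_neg, zero_smul]
      rintro ⟨j, hj⟩
      exact hκ (Finset.mem_image.2 ⟨j, Finset.mem_univ _, hj⟩)
    have hsub : Finset.univ.image R.κ ⊆ KL (GI M) M.c := by
      intro κ hκ
      obtain ⟨j, _, rfl⟩ := Finset.mem_image.1 hκ
      exact mem_KL.2 (R.κ_len j)
    rw [← Finset.sum_subset hsub h1, Finset.sum_image fun _ _ _ _ h => R.κ_inj h]
    refine Finset.sum_congr rfl fun j _ => ?_
    have hex : ∃ j', R.κ j' = R.κ j := ⟨j, rfl⟩
    have hch : hex.choose = j := R.κ_inj hex.choose_spec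
    rw [dif_pos hex, hch, mon_rst_of w (R.κ_w j)]

/-- the moves lie in the box of the ray letters -/
theorem mvs_subset {T : M.L →ₗ[ℝ] M.L} (hT : IsLie T) {s : ℝ} (hs : 0 ≤ s) :
    mvs R.D s T ⊆ M.NB (rst (fun i => T (eg M i)) w) s := by
  rintro n ⟨q, hq, h⟩
  rw [BModel.mem_NB, h, R.s_eq, map_sum]
  have := R.sum_mem_Bx (fun i => T (eg M i)) hs hq
  refine (congrArg (· ∈ Bx M.c (rst (fun i => T (eg M i)) w) s) ?_).mp this
  refine Finset.sum_congr rfl fun j _ => ?_
  rw [hT.mon, map_smul]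

theorem vQ_lt_top (s : ℝ) : vQ R.D w (eg M) s < ∞ := by
  have h : vQ R.D w (eg M) s = (volume : Measure R.D.QN) (prN R.D '' M.NB (rst (eg M) w) s) := by
    unfold vQ
    congr 1
    ext q
    constructor
    · rintro ⟨x, hx, rfl⟩
      refine ⟨M.E.symm x, ?_, ?_⟩
      · rw [BModel.mem_NB, LinearEquiv.apply_symm_apply]; exact hx
      · rw [prN_apply, LinearEquiv.apply_symm_apply]
    · rintro ⟨n, hn, rfl⟩
      exact ⟨M.E n, hn, rfl⟩
  rw [h]
  exact ((BModel.isCompact_NB M _ s).image (continuous_prN R.D)).measure_lt_top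

theorem vQ_pos {s : ℝ} (hs : 0 < s) : 0 < vQ R.D w (eg M) s := by
  have h1 : (volume : Measure (Fin R.n → ℝ)) (Set.pi univ fun _ => Icc (-s) s) ≤
      vQ R.D w (eg M) s := by
    refine measure_mono ?_
    intro q hq
    refine ⟨∑ j, q j • mon (eg M) (R.κ j), R.sum_mem_Bx _ hs.le fun j => ?_, ?_⟩
    · exact abs_le.2 (hq j (mem_univ j))
    · change R.D.P _ = q
      rw [← R.s_eq, R.D.Ps]
  refine lt_of_lt_of_le ?_ h1
  rw [volume_pi_pi, Finset.prod_congr rfl fun _ _ => Real.volume_Icc]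
  rw [CanonicallyOrderedAdd.prod_pos]
  intro j _
  rw [ENNReal.ofReal_pos]
  linarith

end RayQ

end Crest.Agent.R182.BoxVol
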