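/-
R182, module CONV (helper89): region functional, types, robust chain lemma.
-/
import Mathlib
import Crest.Agent.R182.ConvG

set_option autoImplicit false

namespace Crest.Agent.R182.Conv

open Finset

variable {ι : Type*} [Fintype ι] {E : Type*} [AddCommGroup E] [Module ℝ E]

namespace GenSys

variable (S : GenSys ι E) {α : Type*}

/-- support function of the finite family `p a, a ∈ s` in the direction of the weight `i` -/
noncomputable def sup (s : Finset α) (hs : s.Nonempty) (p : α → E) (i : ι) : ℝ :=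
  s.sup' hs (fun a => S.l i (p a))

/-- exponent of the polytope spanned by the family -/
noncomputable def reg (s : Finset α) (hs : s.Nonempty) (p : α → E) : ℝ := S.Gt (S.sup s hs p)

theorem le_sup {s : Finset α} (hs : s.Nonempty) (p : α → E) (i : ι) {a : α} (ha : a ∈ s) :
    S.l i (p a) ≤ S.sup s hs p i := Finset.le_sup' (fun a => S.l i (p a)) ha

theorem sup_le {s : Finset α} (hs : s.Nonempty) (p : α → E) (i : ι) {c : ℝ}
    (h : ∀ a ∈ s, S.l i (p a) ≤ c) : S.sup s hs p i ≤ c := Finset.sup'_le hs _ h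

theorem exists_sup {s : Finset α} (hs : s.Nonempty) (p : α → E) (i : ι) :
    ∃ a ∈ s, S.sup s hs p i = S.l i (p a) := by
  obtain ⟨a, ha, h⟩ := Finset.exists_mem_eq_sup' hs (fun a => S.l i (p a))
  exact ⟨a, ha, h⟩

theorem sup_add {s : Finset α} (hs : s.Nonempty) (p : α → E) (v : E) (i : ι) :
    S.sup s hs (fun a => p a + v) i = S.sup s hs p i + S.l i v := by
  apply le_antisymm
  · refine S.sup_le hs _ i fun a ha => ?_
    rw [map_add]
    have := S.le_sup hs p i ha
    linarith
  · obtain ⟨a, ha, h⟩ := S.exists_sup hs p i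
    rw [h, ← map_add]
    exact S.le_sup hs (fun a => p a + v) i ha

theorem reg_add {s : Finset α} (hs : s.Nonempty) (p : α → E) (v : E) :
    S.reg s hs (fun a => p a + v) = S.reg s hs p := by
  unfold reg
  have : S.sup s hs (fun a => p a + v) = fun i => S.sup s hs p i + S.l i v :=
    funext fun i => S.sup_add hs p v i
  rw [this, S.Gt_add_l]

theorem reg_mono {s t : Finset α} (hs : s.Nonempty) (ht : t.Nonempty) (hst : s ⊆ t) (p : α → E) :
    S.reg s hs p ≤ S.reg t ht p :=
  S.Gt_mono fun i => S.sup_le hs p i fun _ ha => S.le_sup ht p i (hst ha)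

theorem reg_le_of_close {s : Finset α} (hs : s.Nonempty) (p q : α → E) {ε : ℝ} (hε : 0 ≤ ε)
    (h : ∀ a ∈ s, ∀ i, S.l i (p a) ≤ S.l i (q a) + ε) :
    S.reg s hs p ≤ S.reg s hs q + S.Lip * ε := by
  refine S.Gt_le_add hε fun i => ?_
  refine S.sup_le hs p i fun a ha => ?_
  exact (h a ha i).trans (add_le_add (S.le_sup hs q i ha) le_rfl)

/-- union of two pieces through the common point `v`, with the cancellation term. -/
theorem reg_union_le [DecidableEq α] {s t : Finset α} (hs : s.Nonempty) (ht : t.Nonempty)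
    (hst : (s ∪ t).Nonempty) (p : α → E) {a : α} (has : a ∈ s) (hat : a ∈ t) :
    S.reg (s ∪ t) hst p
      + ∑ i, min (S.sup s hs p i - S.l i (p a)) (S.sup t ht p i - S.l i (p a))
      ≤ S.reg s hs p + S.reg t ht p := by
  have e1 := S.reg_add hs p (-(p a))
  have e2 := S.reg_add ht p (-(p a))
  have e3 := S.reg_add hst p (-(p a))
  rw [← e1, ← e2, ← e3]
  unfold reg
  have hX : ∀ i, S.sup s hs (fun b => p b + -(p a)) i = S.sup s hs p i - S.l i (p a) := by
    intro i; rw [S.sup_add, map_neg]; ring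
  have hY : ∀ i, S.sup t ht (fun b => p b + -(p a)) i = S.sup t ht p i - S.l i (p a) := by
    intro i; rw [S.sup_add, map_neg]; ring
  have hXY : ∀ i, S.sup (s ∪ t) hst (fun b => p b + -(p a)) i
      ≤ max (S.sup s hs (fun b => p b + -(p a)) i) (S.sup t ht (fun b => p b + -(p a)) i) := by
    intro i
    refine S.sup_le hst _ i fun b hb => ?_
    rcases Finset.mem_union.1 hb with hb | hb
    · exact (S.le_sup hs (fun b => p b + -(p a)) i hb).trans (le_max_left _ _)
    · exact (S.le_sup ht (fun b => p b + -(p a)) i hb).trans (le_max_right _ _)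
  have h0 : ∀ i, 0 ≤ S.sup s hs (fun b => p b + -(p a)) i := by
    intro i
    have := S.le_sup hs (fun b => p b + -(p a)) i has
    simpa using this
  have h1 : ∀ i, 0 ≤ S.sup t ht (fun b => p b + -(p a)) i := by
    intro i
    have := S.le_sup ht (fun b => p b + -(p a)) i hat
    simpa using this
  have hkey := S.Gt_sup_le _ _ h0 h1
  have hmono := S.Gt_mono hXY
  have hsum : ∑ i, min (S.sup s hs p i - S.l i (p a)) (S.sup t ht p i - S.l i (p a))
      = ∑ i, min (S.sup s hs (fun b => p b + -(p a)) i) (S.sup t ht (fun b => p b + -(p a)) i) :=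
    Finset.sum_congr rfl fun i _ => by rw [hX, hY]
  rw [hsum]
  linarith

/-! ### types -/

/-- a type: a linear map preserving the exponents of all polytopes -/
def IsType (L : E →ₗ[ℝ] E) : Prop :=
  ∀ (n : ℕ) (p : Fin (n + 1) → E),
    S.reg Finset.univ Finset.univ_nonempty (fun a => L (p a))
      = S.reg Finset.univ Finset.univ_nonempty p

variable {S}

theorem IsType.g_eq {L : E →ₗ[ℝ] E} (hL : S.IsType L) (x : E) : S.g (L x) = S.g x := by
  have h := hL 1 ![x, 0]
  unfold reg at h
  have h1 : ∀ y : E, S.sup Finset.univ Finset.univ_nonempty (![y, 0] : Fin 2 → E)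
      = fun i => max (S.l i y) 0 := by
    intro y
    funext i
    apply le_antisymm
    · refine S.sup_le _ _ i fun a _ => ?_
      fin_cases a
      · simp
      · simp
    · refine max_le ?_ ?_
      · have := S.le_sup (Finset.univ_nonempty (α := Fin 2)) (![y, 0] : Fin 2 → E) i
          (Finset.mem_univ 0)
        simpa using this
      · have := S.le_sup (Finset.univ_nonempty (α := Fin 2)) (![y, 0] : Fin 2 → E) i
          (Finset.mem_univ 1)
        simpa using this
  have h2 : (fun a : Fin 2 => L ((![x, 0] : Fin 2 → E) a)) = ![L x, 0] := by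
    funext a; fin_cases a <;> simp
  have h3 : S.Gt (S.sup Finset.univ Finset.univ_nonempty
      (fun a : Fin 2 => L ((![x, 0] : Fin 2 → E) a)))
      = S.Gt (S.sup Finset.univ Finset.univ_nonempty (![x, 0] : Fin 2 → E)) := h
  rw [h2, h1, h1] at h3
  exact h3

theorem inj_of_g {L : E →ₗ[ℝ] E} (hL : ∀ x, S.g (L x) = S.g x) : Function.Injective L := by
  rw [injective_iff_map_eq_zero]
  intro x hx
  apply S.eq_zero_of_g_eq_zero
  rw [← hL x, hx, S.g_zero]

/-- two `g`-isometries whose weights are positively proportional coincide. -/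
theorem eq_of_prop [FiniteDimensional ℝ E] {L₁ L₂ : E →ₗ[ℝ] E} (h₁ : ∀ x, S.g (L₁ x) = S.g x)
    (h₂ : ∀ x, S.g (L₂ x) = S.g x)
    (h : ∀ i, ∃ r : ℝ, 0 < r ∧ ∀ x, S.l i (L₁ x) = r * S.l i (L₂ x)) : L₁ = L₂ := by
  -- one-sided statement
  have key : ∀ (A B : E →ₗ[ℝ] E), (∀ x, S.g (A x) = S.g x) → (∀ x, S.g (B x) = S.g x) →
      ∀ i (r : ℝ), 0 < r → (∀ x, S.l i (A x) = r * S.l i (B x)) → (∃ x, S.l i x ≠ 0) → r ≤ 1 := by
    intro A B hA hB i r hr hAB ⟨y, hy⟩
    have hBs : Function.Surjective B := LinearMap.surjective_of_injective (inj_of_g hB)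
    -- sequence of preimages
    have hseq : ∀ n : ℕ, ∃ z : E, S.g z = S.g y ∧ S.l i z = r ^ n * S.l i y := by
      intro n
      induction n with
      | zero => exact ⟨y, rfl, by simp⟩
      | succ n ih =>
        obtain ⟨z, hz1, hz2⟩ := ih
        obtain ⟨w, hw⟩ := hBs z
        refine ⟨A w, ?_, ?_⟩
        · rw [hA, ← hB, hw, hz1]
        · rw [hAB, hw, hz2]; ring
    by_contra hr1
    push Not at hr1
    have hpos : 0 < |S.l i y| := abs_pos.2 hy
    obtain ⟨n, hn⟩ := pow_unbounded_of_one_lt (S.g y / |S.l i y|) hr1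
    obtain ⟨z, hz1, hz2⟩ := hseq n
    have h3 := S.abs_l_le_g i z
    rw [hz1, hz2, abs_mul, abs_of_pos (pow_pos hr n)] at h3
    rw [div_lt_iff₀ hpos] at hn
    linarith
  refine LinearMap.ext fun x => ?_
  have hx : ∀ i, S.l i (L₁ x - L₂ x) = 0 := by
    intro i
    rw [map_sub, sub_eq_zero]
    by_cases hi : ∃ y, S.l i y ≠ 0
    · obtain ⟨r, hr, hrr⟩ := h i
      have h1 : r ≤ 1 := key L₁ L₂ h₁ h₂ i r hr hrr hi
      have h2 : r⁻¹ ≤ 1 := by
        refine key L₂ L₁ h₂ h₁ i r⁻¹ (inv_pos.2 hr) (fun x => ?_) hi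
        rw [hrr x]; field_simp
      have h3 : 1 ≤ r := by
        have := (inv_le_one₀ hr).1 h2
        exact this
      have h4 : r = 1 := le_antisymm h1 h3
      rw [hrr x, h4, one_mul]
    · push Not at hi
      rw [hi, hi]
  exact sub_eq_zero.1 (S.sep _ hx)

/-- a type permutes the rays of the weights -/
theorem IsType.exists_ray {L : E →ₗ[ℝ] E} (hL : S.IsType L) (i : ι) (hi : ∃ x, S.l i (L x) ≠ 0) :
    ∃ j, ∃ c : ℝ, 0 < c ∧ ∀ x, S.l j x = c * S.l i (L x) := by
  classical
  by_contra hcon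
  push Not at hcon
  -- for every j there is w_j with l i (L w_j) < 0 ≤ l j w_j
  have hw : ∀ j, ∃ w : E, S.l i (L w) < 0 ∧ 0 ≤ S.l j w := by
    intro j
    by_contra hj
    push Not at hj
    -- then l j is a positive multiple of ξ
    set ξ : E →ₗ[ℝ] ℝ := (S.l i).comp L with hξ
    have hξx : ∀ x, ξ x = S.l i (L x) := fun x => rfl
    obtain ⟨x₀, hx₀⟩ := hi
    -- normalise to ξ u = -1
    obtain ⟨u, hξu⟩ : ∃ u, ξ u = -1 := by
      refine ⟨(-(ξ x₀)⁻¹) • x₀, ?_⟩
      have hx₀' : ξ x₀ ≠ 0 := hx₀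
      rw [map_smul, smul_eq_mul, neg_mul, inv_mul_cancel₀ hx₀']
    have hju : S.l j u < 0 := hj u (by rw [← hξx, hξu]; norm_num)
    have hker : ∀ x, ξ x = 0 → S.l j x = 0 := by
      intro x hx
      by_contra hne
      -- choose t with l j (u + t x) ≥ 0
      set t : ℝ := -(S.l j u) / S.l j x with ht
      have h1 : S.l j (u + t • x) = 0 := by
        rw [map_add, map_smul, smul_eq_mul, ht, div_mul_cancel₀ _ hne]
        ring
      have h2 : ξ (u + t • x) = -1 := by
        rw [map_add, map_smul, hx, smul_zero, add_zero, hξu]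
      have := hj (u + t • x) (by rw [← hξx, h2]; norm_num)
      linarith
    obtain ⟨x, hx⟩ := hcon j (-(S.l j u)) (by linarith)
    apply hx
    have h3 : ξ (x + ξ x • u) = 0 := by
      rw [map_add, map_smul, hξu, smul_eq_mul]; ring
    have h4 := hker _ h3
    rw [map_add, map_smul, smul_eq_mul] at h4
    rw [← hξx]
    linarith
  choose w hw1 hw2 using hw
  -- families: Ω = w, Ω ∪ {0}
  let e := Fintype.equivFin ι
  set m := Fintype.card ι with hm
  have hmpos : 0 < m := Fintype.card_pos_iff.2 ⟨i⟩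
  obtain ⟨m', hm'⟩ : ∃ m', m = m' + 1 := ⟨m - 1, by omega⟩
  -- Ω family
  let pΩ : Fin (m' + 1) → E := fun a => w (e.symm (Fin.cast hm'.symm a))
  let pΩ0 : Fin (m' + 1 + 1) → E := Fin.cons 0 pΩ
  have hsup : ∀ j, S.sup Finset.univ Finset.univ_nonempty pΩ0 j
      = S.sup Finset.univ Finset.univ_nonempty pΩ j := by
    intro j
    apply le_antisymm
    · refine S.sup_le _ _ j fun a _ => ?_
      refine Fin.cases ?_ (fun a => ?_) a
      · have h1 := S.le_sup (Finset.univ_nonempty (α := Fin (m' + 1))) pΩ j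
          (Finset.mem_univ (Fin.cast hm' (e j)))
        have h2 : pΩ (Fin.cast hm' (e j)) = w j := by simp [pΩ]
        rw [h2] at h1
        have h3 : pΩ0 0 = 0 := rfl
        rw [h3, map_zero]
        exact (hw2 j).trans h1
      · have h3 : pΩ0 a.succ = pΩ a := rfl
        rw [h3]
        exact S.le_sup _ pΩ j (Finset.mem_univ a)
    · refine S.sup_le _ _ j fun a _ => ?_
      have h3 : pΩ0 a.succ = pΩ a := rfl
      rw [← h3]
      exact S.le_sup _ pΩ0 j (Finset.mem_univ _)
  have hreg : S.reg Finset.univ Finset.univ_nonempty pΩ0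
      = S.reg Finset.univ Finset.univ_nonempty pΩ := by
    unfold reg; congr 1; funext j; exact hsup j
  have hregL := (hL _ pΩ0).trans (hreg.trans (hL _ pΩ).symm)
  -- but the i-th support strictly increases
  have hmono : ∀ j, S.sup Finset.univ Finset.univ_nonempty (fun a => L (pΩ a)) j
      ≤ S.sup Finset.univ Finset.univ_nonempty (fun a => L (pΩ0 a)) j := by
    intro j
    refine S.sup_le _ _ j fun a _ => ?_
    exact S.le_sup (Finset.univ_nonempty (α := Fin (m' + 1 + 1))) (fun a => L (pΩ0 a)) j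
      (Finset.mem_univ a.succ)
  have hlt : S.sup Finset.univ Finset.univ_nonempty (fun a => L (pΩ a)) i
      < S.sup Finset.univ Finset.univ_nonempty (fun a => L (pΩ0 a)) i := by
    obtain ⟨a, _, ha⟩ := S.exists_sup (Finset.univ_nonempty (α := Fin (m' + 1)))
      (fun a => L (pΩ a)) i
    rw [ha]
    have h1 : S.l i (L (pΩ a)) < 0 := hw1 _
    have h2 := S.le_sup (Finset.univ_nonempty (α := Fin (m' + 1 + 1))) (fun a => L (pΩ0 a)) i
      (Finset.mem_univ 0)
    have h3 : pΩ0 0 = 0 := rfl
    simp only [h3, map_zero] at h2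
    linarith
  have h5 := S.Gt_add_ge (S.sup Finset.univ Finset.univ_nonempty (fun a => L (pΩ a)))
    (fun j => S.sup Finset.univ Finset.univ_nonempty (fun a => L (pΩ0 a)) j
      - S.sup Finset.univ Finset.univ_nonempty (fun a => L (pΩ a)) j)
    (fun j => sub_nonneg.2 (hmono j))
  have h6 : (fun j => S.sup Finset.univ Finset.univ_nonempty (fun a => L (pΩ a)) j
      + (S.sup Finset.univ Finset.univ_nonempty (fun a => L (pΩ0 a)) j
      - S.sup Finset.univ Finset.univ_nonempty (fun a => L (pΩ a)) j))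
      = S.sup Finset.univ Finset.univ_nonempty (fun a => L (pΩ0 a)) := by funext j; ring
  rw [h6] at h5
  have h7 : 0 < ∑ j, (S.sup Finset.univ Finset.univ_nonempty (fun a => L (pΩ0 a)) j
      - S.sup Finset.univ Finset.univ_nonempty (fun a => L (pΩ a)) j) := by
    refine Finset.sum_pos' (fun j _ => sub_nonneg.2 (hmono j)) ⟨i, Finset.mem_univ i, ?_⟩
    linarith
  unfold reg at hregL
  linarith

end GenSys

end Crest.Agent.R182.Conv
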