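/-
R182, module CONV (helper89): the finite set of types, counting of positive rays, robust chain lemma.
-/
import Mathlib
import Crest.Agent.R182.ConvReg

set_option autoImplicit false

namespace Crest.Agent.R182.Conv

open Finset

variable {ι : Type*} [Fintype ι] {E : Type*} [AddCommGroup E] [Module ℝ E]

/-- a functional which is `≤ 0` wherever `ξ < 0` is a nonnegative multiple of `ξ`. -/
theorem exists_nonneg_mul {ξ η : E →ₗ[ℝ] ℝ} (hξ : ∃ x, ξ x ≠ 0)
    (h : ∀ w, ξ w < 0 → η w ≤ 0) : ∃ c : ℝ, 0 ≤ c ∧ ∀ x, η x = c * ξ x := by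
  obtain ⟨x₀, hx₀⟩ := hξ
  obtain ⟨u, hξu⟩ : ∃ u, ξ u = -1 := by
    refine ⟨(-(ξ x₀)⁻¹) • x₀, ?_⟩
    rw [map_smul, smul_eq_mul, neg_mul, inv_mul_cancel₀ hx₀]
  have hηu : η u ≤ 0 := h u (by rw [hξu]; norm_num)
  have hker : ∀ x, ξ x = 0 → η x = 0 := by
    intro x hx
    by_contra hne
    set t : ℝ := (1 - η u) / η x with ht
    have h1 : η (u + t • x) = 1 := by
      rw [map_add, map_smul, smul_eq_mul, ht, div_mul_cancel₀ _ hne]; ring
    have h2 : ξ (u + t • x) = -1 := by
      rw [map_add, map_smul, hx, smul_zero, add_zero, hξu]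
    have := h (u + t • x) (by rw [h2]; norm_num)
    linarith
  refine ⟨-(η u), by linarith, fun x => ?_⟩
  have h3 : ξ (x + ξ x • u) = 0 := by
    rw [map_add, map_smul, hξu, smul_eq_mul]; ring
  have h4 := hker _ h3
  rw [map_add, map_smul, smul_eq_mul] at h4
  linarith

namespace GenSys

variable (S : GenSys ι E)

/-- nonzero weights -/
def NZ (i : ι) : Prop := ∃ x, S.l i x ≠ 0

/-- positive proportionality of nonzero weights -/
def raySetoid : Setoid {i : ι // S.NZ i} where
  r i j := ∃ c : ℝ, 0 < c ∧ ∀ x, S.l j x = c * S.l i x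
  iseqv :=
    ⟨fun i => ⟨1, one_pos, fun x => (one_mul _).symm⟩,
     fun {i j} ⟨c, hc, h⟩ => ⟨c⁻¹, inv_pos.2 hc, fun x => by rw [h x]; field_simp⟩,
     fun {i j k} ⟨c, hc, h⟩ ⟨d, hd, h'⟩ => ⟨d * c, mul_pos hd hc, fun x => by
      rw [h' x, h x]; ring⟩⟩

/-- rays of nonzero weights -/
abbrev Ray := Quotient S.raySetoid

/-- positivity of a ray on a vector -/
def rayPos (x : E) (q : S.Ray) : Prop :=
  Quotient.lift (fun i : {i : ι // S.NZ i} => 0 < S.l i x) (by
    rintro i j ⟨c, hc, h⟩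
    apply propext
    rw [h x]
    constructor
    · intro h1; positivity
    · intro h1; exact pos_of_mul_pos_of_pos_left' hc h1) q
where
  pos_of_mul_pos_of_pos_left' {a b : ℝ} (ha : 0 < a) (h : 0 < a * b) : 0 < b := by
    by_contra hb
    push Not at hb
    nlinarith

theorem rayPos_mk (x : E) (i : {i : ι // S.NZ i}) :
    S.rayPos x (Quotient.mk S.raySetoid i) ↔ 0 < S.l i x := Iff.rfl

variable {S}

instance : Finite S.Ray := Quotient.finite _

theorem IsType.surj [FiniteDimensional ℝ E] {L : E →ₗ[ℝ] E} (hL : S.IsType L) :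
    Function.Surjective L :=
  LinearMap.surjective_of_injective (inj_of_g hL.g_eq)

theorem IsType.ncard_pos [FiniteDimensional ℝ E] {L : E →ₗ[ℝ] E} (hL : S.IsType L) (x : E) :
    {q : S.Ray | S.rayPos (L x) q}.ncard = {q : S.Ray | S.rayPos x q}.ncard := by
  classical
  have hNZ : ∀ i, S.NZ i → ∃ x, S.l i (L x) ≠ 0 := by
    rintro i ⟨y, hy⟩
    obtain ⟨z, hz⟩ := hL.surj y
    exact ⟨z, by rw [hz]; exact hy⟩
  have hex : ∀ i : {i : ι // S.NZ i}, ∃ j : {i : ι // S.NZ i}, ∃ c : ℝ, 0 < c ∧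
      ∀ x, S.l j x = c * S.l i (L x) := by
    rintro ⟨i, hi⟩
    obtain ⟨j, c, hc, h⟩ := hL.exists_ray i (hNZ i hi)
    obtain ⟨y, hy⟩ := hNZ i hi
    exact ⟨⟨j, ⟨y, by rw [h y]; exact mul_ne_zero hc.ne' hy⟩⟩, c, hc, h⟩
  choose f c hc hf using hex
  -- the induced map on rays
  let F : S.Ray → S.Ray := Quotient.map' f (by
    rintro i i' ⟨d, hd, h⟩
    refine ⟨c i' * d * (c i)⁻¹, by have := hc i; have := hc i'; positivity, fun x => ?_⟩
    have h1 := (hc i).ne'
    rw [hf i' x, hf i x, h (L x)]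
    field_simp)
  have hF : ∀ i, F (Quotient.mk S.raySetoid i) = Quotient.mk S.raySetoid (f i) := fun i => rfl
  have hFinj : Function.Injective F := by
    intro q q'
    induction q using Quotient.inductionOn with
    | h i =>
      induction q' using Quotient.inductionOn with
      | h i' =>
        intro h
        rw [hF, hF] at h
        obtain ⟨d, hd, h1⟩ := Quotient.exact h
        apply Quotient.sound
        refine ⟨(c i')⁻¹ * d * c i, by have := hc i; have := hc i'; positivity, fun x => ?_⟩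
        obtain ⟨y, hy⟩ := hL.surj x
        have h2 := h1 y
        have h3 := (hc i').ne'
        rw [hf i' y, hf i y, hy] at h2
        field_simp
        linarith
  have hFbij : Function.Bijective F := ⟨hFinj, Finite.surjective_of_injective hFinj⟩
  have hset : {q : S.Ray | S.rayPos (L x) q} = F ⁻¹' {q : S.Ray | S.rayPos x q} := by
    ext q
    induction q using Quotient.inductionOn with
    | h i =>
      change S.rayPos (L x) (Quotient.mk S.raySetoid i) ↔ S.rayPos x (F (Quotient.mk _ i))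
      rw [hF, rayPos_mk, rayPos_mk, hf i x]
      constructor
      · intro h; have := hc i; positivity
      · intro h
        by_contra hb
        push Not at hb
        have := hc i
        nlinarith
  rw [hset, Set.ncard_preimage_of_injective_subset_range hFinj (by
    rw [hFbij.2.range_eq]; exact Set.subset_univ _)]

/-- if the positive weights of `L₂ b` are positive on `L₁ b`, then conversely. -/
theorem pos_of_subset [FiniteDimensional ℝ E] {L₁ L₂ : E →ₗ[ℝ] E} (h₁ : S.IsType L₁)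
    (h₂ : S.IsType L₂) {b : E} (h : ∀ i, 0 < S.l i (L₂ b) → 0 < S.l i (L₁ b)) :
    ∀ i, 0 < S.l i (L₁ b) → 0 < S.l i (L₂ b) := by
  have hsub : {q : S.Ray | S.rayPos (L₂ b) q} ⊆ {q : S.Ray | S.rayPos (L₁ b) q} := by
    intro q
    induction q using Quotient.inductionOn with
    | h i => exact fun hq => h i hq
  have hcard : {q : S.Ray | S.rayPos (L₁ b) q}.ncard ≤ {q : S.Ray | S.rayPos (L₂ b) q}.ncard := by
    rw [h₁.ncard_pos, h₂.ncard_pos]
  have heq := Set.eq_of_subset_of_ncard_le hsub hcard (Set.toFinite _)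
  intro i hi
  have hNZ : S.NZ i := ⟨L₁ b, hi.ne'⟩
  have : (Quotient.mk S.raySetoid ⟨i, hNZ⟩) ∈ {q : S.Ray | S.rayPos (L₁ b) q} := hi
  rw [← heq] at this
  exact this

/-- there are only finitely many types -/
theorem finite_types [FiniteDimensional ℝ E] : {L : E →ₗ[ℝ] E | S.IsType L}.Finite := by
  classical
  have hex : ∀ L : {L : E →ₗ[ℝ] E // S.IsType L}, ∀ i, ∃ j, ∃ c : ℝ, 0 < c ∧
      ((∀ x, S.l j x = c * S.l i (L.1 x)) ∨ (∀ x, S.l i (L.1 x) = 0)) := by
    rintro ⟨L, hL⟩ i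
    by_cases hi : ∃ x, S.l i (L x) ≠ 0
    · obtain ⟨j, c, hc, h⟩ := hL.exists_ray i hi
      exact ⟨j, c, hc, Or.inl h⟩
    · push Not at hi
      exact ⟨i, 1, one_pos, Or.inr hi⟩
  choose f c hc hf using hex
  have hzero : ∀ L : {L : E →ₗ[ℝ] E // S.IsType L}, ∀ i, (∀ x, S.l i (L.1 x) = 0) →
      ∀ x, S.l i x = 0 := by
    rintro ⟨L, hL⟩ i h x
    obtain ⟨y, hy⟩ := hL.surj x
    rw [← hy]; exact h y
  have hinj : Function.Injective (fun L : {L : E →ₗ[ℝ] E // S.IsType L} => f L) := by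
    intro L₁ L₂ h
    apply Subtype.ext
    refine eq_of_prop (S := S) L₁.2.g_eq L₂.2.g_eq fun i => ?_
    have hfi : f L₁ i = f L₂ i := congrFun h i
    by_cases hi : ∀ x, S.l i x = 0
    · exact ⟨1, one_pos, fun x => by rw [hi, hi, mul_zero]⟩
    · have h1 : ∀ x, S.l (f L₁ i) x = c L₁ i * S.l i (L₁.1 x) := by
        rcases hf L₁ i with h1 | h1
        · exact h1
        · exact absurd (hzero L₁ i h1) hi
      have h2 : ∀ x, S.l (f L₂ i) x = c L₂ i * S.l i (L₂.1 x) := by
        rcases hf L₂ i with h1 | h1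
        · exact h1
        · exact absurd (hzero L₂ i h1) hi
      refine ⟨(c L₁ i)⁻¹ * c L₂ i, by have := hc L₁ i; have := hc L₂ i; positivity, fun x => ?_⟩
      have h3 := h1 x
      have h4 := h2 x
      rw [hfi, h4] at h3
      have h5 := (hc L₁ i).ne'
      field_simp
      linarith
  have : Finite {L : E →ₗ[ℝ] E // S.IsType L} := Finite.of_injective _ hinj
  exact Set.finite_coe_iff.1 this

/-- different types are separated by a sign of some weight at some vector -/
theorem exists_sep [FiniteDimensional ℝ E] {L₁ L₂ : E →ₗ[ℝ] E} (h₁ : S.IsType L₁)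
    (h₂ : S.IsType L₂) (hne : L₁ ≠ L₂) : ∃ b i, S.l i (L₁ b) < 0 ∧ 0 < S.l i (L₂ b) := by
  by_contra hcon
  push Not at hcon
  apply hne
  refine eq_of_prop (S := S) h₁.g_eq h₂.g_eq fun i => ?_
  by_cases hi : ∃ x, S.l i x ≠ 0
  · have hx1 : ∃ x, (S.l i ∘ₗ L₁) x ≠ 0 := by
      obtain ⟨y, hy⟩ := hi
      obtain ⟨z, hz⟩ := h₁.surj y
      exact ⟨z, by rw [LinearMap.comp_apply, hz]; exact hy⟩
    have hx2 : ∃ x, (S.l i ∘ₗ L₂) x ≠ 0 := by
      obtain ⟨y, hy⟩ := hi
      obtain ⟨z, hz⟩ := h₂.surj y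
      exact ⟨z, by rw [LinearMap.comp_apply, hz]; exact hy⟩
    obtain ⟨c, hc, h⟩ := exists_nonneg_mul (ξ := S.l i ∘ₗ L₁) (η := S.l i ∘ₗ L₂) hx1
      (fun w hw => hcon w i hw)
    have hc0 : c ≠ 0 := by
      rintro rfl
      obtain ⟨z, hz⟩ := hx2
      exact hz (by rw [h z, zero_mul])
    have hcpos : 0 < c := lt_of_le_of_ne hc (Ne.symm hc0)
    refine ⟨c⁻¹, inv_pos.2 hcpos, fun x => ?_⟩
    have := h x
    simp only [LinearMap.comp_apply] at this
    rw [this]; field_simp
  · push Not at hi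
    exact ⟨1, one_pos, fun x => by rw [hi, hi, mul_zero]⟩

end GenSys

end Crest.Agent.R182.Conv
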