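/-
R182, module STAR (helper554): cleaning lemmas (positive definite kernels on a group) and walks.

`H` is a measurable group with a right invariant measure `μ`, `ν` a probability measure on `H`.  For a
measurable `φ : H → H` the move `φ` is `q ↦ q * (φ a)⁻¹ * φ b` with `a, b` independent with law `ν`.
-/
import Mathlib

set_option autoImplicit false
set_option linter.unusedSectionVars false

open MeasureTheory ENNReal

namespace Crest.Agent.R182.Star

section Clean

variable {H : Type*} [Group H] [MeasurableSpace H] [MeasurableMul₂ H] [MeasurableInv H]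

/-- probability that the move `φ` leads from `q` into `A`. -/
noncomputable def Tk (ν : Measure H) (φ : H → H) (A : Set H) (q : H) : ℝ≥0∞ :=
  (ν.prod ν) {p | q * (φ p.1)⁻¹ * φ p.2 ∈ A}

variable {ν : Measure H}

theorem Tk_mono {φ : H → H} {A B : Set H} (h : A ⊆ B) (q : H) : Tk ν φ A q ≤ Tk ν φ B q :=
  measure_mono fun _ hp => h hp

theorem Tk_le_one [IsProbabilityMeasure ν] (φ : H → H) (A : Set H) (q : H) : Tk ν φ A q ≤ 1 :=
  prob_le_one

theorem measurableSet_step {φ : H → H} (hφ : Measurable φ) {A : Set H} (hA : MeasurableSet A) :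
    MeasurableSet {x : H × (H × H) | x.1 * (φ x.2.1)⁻¹ * φ x.2.2 ∈ A} := by
  have : Measurable fun x : H × (H × H) => x.1 * (φ x.2.1)⁻¹ * φ x.2.2 := by fun_prop
  exact this hA

theorem measurable_Tk [SFinite ν] {φ : H → H} (hφ : Measurable φ) {A : Set H}
    (hA : MeasurableSet A) : Measurable (Tk ν φ A) :=
  measurable_measure_prodMk_left (measurableSet_step hφ hA)

variable {μ : Measure H} [SFinite μ] [μ.IsMulRightInvariant]

/-- `∫_D T_A = ∬ μ {m | m φ(a) ∈ D, m φ(b) ∈ A}`. -/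
theorem lintegral_Tk [SFinite ν] {φ : H → H} (hφ : Measurable φ) {A D : Set H}
    (hA : MeasurableSet A) (hD : MeasurableSet D) :
    ∫⁻ q in D, Tk ν φ A q ∂μ = ∫⁻ m, ν {a | m * φ a ∈ D} * ν {a | m * φ a ∈ A} ∂μ := by
  have hT : ∀ q, Tk ν φ A q = ∫⁻ p, A.indicator 1 (q * (φ p.1)⁻¹ * φ p.2) ∂(ν.prod ν) := by
    intro q
    have hm : Measurable fun p : H × H => q * (φ p.1)⁻¹ * φ p.2 := by fun_prop
    have hA' : MeasurableSet {p : H × H | q * (φ p.1)⁻¹ * φ p.2 ∈ A} := hm hA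
    rw [Tk, ← lintegral_indicator_one hA']
    rfl
  have h1 : ∫⁻ q in D, Tk ν φ A q ∂μ =
      ∫⁻ q, ∫⁻ p, D.indicator 1 q * A.indicator 1 (q * (φ p.1)⁻¹ * φ p.2) ∂(ν.prod ν) ∂μ := by
    rw [← lintegral_indicator hD]
    refine lintegral_congr fun q => ?_
    by_cases hq : q ∈ D
    · simp [hq, hT]
    · simp [hq]
  have hf : Measurable fun x : H × (H × H) =>
      (D.indicator 1 x.1 : ℝ≥0∞) * A.indicator 1 (x.1 * (φ x.2.1)⁻¹ * φ x.2.2) := by
    refine Measurable.mul ?_ ?_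
    · exact (measurable_one.indicator hD).comp measurable_fst
    · exact (measurable_one.indicator hA).comp (by fun_prop)
  rw [h1, lintegral_lintegral_swap hf.aemeasurable]
  have h2 : ∀ p : H × H, ∫⁻ q, (D.indicator 1 q : ℝ≥0∞) *
      A.indicator 1 (q * (φ p.1)⁻¹ * φ p.2) ∂μ =
      ∫⁻ m, (D.indicator 1 (m * φ p.1) : ℝ≥0∞) * A.indicator 1 (m * φ p.2) ∂μ := by
    intro p
    rw [← lintegral_mul_right_eq_self (fun q => (D.indicator 1 q : ℝ≥0∞) *
      A.indicator 1 (q * (φ p.1)⁻¹ * φ p.2)) (φ p.1)]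
    simp only [mul_inv_cancel_right]
  simp_rw [h2]
  have hg : Measurable fun x : (H × H) × H =>
      (D.indicator 1 (x.2 * φ x.1.1) : ℝ≥0∞) * A.indicator 1 (x.2 * φ x.1.2) := by
    refine Measurable.mul ?_ ?_
    · exact (measurable_one.indicator hD).comp (by fun_prop)
    · exact (measurable_one.indicator hA).comp (by fun_prop)
  rw [lintegral_lintegral_swap hg.aemeasurable]
  refine lintegral_congr fun m => ?_
  have hD' : MeasurableSet {a | m * φ a ∈ D} := (by fun_prop : Measurable fun a => m * φ a) hD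
  have hA' : MeasurableSet {a | m * φ a ∈ A} := (by fun_prop : Measurable fun a => m * φ a) hA
  have e1 : ν {a | m * φ a ∈ D} = ∫⁻ a, D.indicator 1 (m * φ a) ∂ν := by
    rw [← lintegral_indicator_one hD']; rfl
  have e2 : ν {a | m * φ a ∈ A} = ∫⁻ a, A.indicator 1 (m * φ a) ∂ν := by
    rw [← lintegral_indicator_one hA']; rfl
  rw [e1, e2]
  rw [lintegral_prod_mul (f := fun a => (D.indicator 1 (m * φ a) : ℝ≥0∞))
    (g := fun a => (A.indicator 1 (m * φ a) : ℝ≥0∞))]
  · exact ((measurable_one.indicator hD).comp (by fun_prop)).aemeasurable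
  · exact ((measurable_one.indicator hA).comp (by fun_prop)).aemeasurable

theorem lintegral_Tk_symm [SFinite ν] {φ : H → H} (hφ : Measurable φ) {A D : Set H}
    (hA : MeasurableSet A) (hD : MeasurableSet D) :
    ∫⁻ q in D, Tk ν φ A q ∂μ = ∫⁻ q in A, Tk ν φ D q ∂μ := by
  rw [lintegral_Tk hφ hA hD, lintegral_Tk hφ hD hA]
  exact lintegral_congr fun m => mul_comm _ _

/-- **positivity**: `μ(D)² ≤ μ(Q') ∫_D T_D`. -/
theorem sq_le_Tk [IsProbabilityMeasure ν] {φ : H → H} (hφ : Measurable φ) {D Q' : Set H}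
    (hD : MeasurableSet D) (hQ' : MeasurableSet Q')
    (hDQ : ∀ᵐ a ∂ν, ∀ q ∈ D, q * (φ a)⁻¹ ∈ Q') :
    μ D ^ 2 ≤ μ Q' * ∫⁻ q in D, Tk ν φ D q ∂μ := by
  rw [lintegral_Tk hφ hD hD]
  set g : H → ℝ≥0∞ := fun m => ν {a | m * φ a ∈ D} with hg
  have hgm : Measurable g := by
    have : MeasurableSet {x : H × H | x.1 * φ x.2 ∈ D} :=
      (by fun_prop : Measurable fun x : H × H => x.1 * φ x.2) hD
    exact measurable_measure_prodMk_left this
  -- the integral of `g` over `Q'` is `μ D`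
  have h1 : ∫⁻ m in Q', g m ∂μ = μ D := by
    have e1 : ∀ m, Q'.indicator g m = ∫⁻ a, Q'.indicator 1 m * D.indicator 1 (m * φ a) ∂ν := by
      intro m
      have hD' : MeasurableSet {a | m * φ a ∈ D} := (by fun_prop : Measurable fun a => m * φ a) hD
      by_cases hm : m ∈ Q'
      · simp only [hm, Set.indicator_of_mem, Pi.one_apply, one_mul, hg]
        rw [← lintegral_indicator_one hD']; rfl
      · simp [hm]
    rw [← lintegral_indicator hQ']
    simp_rw [e1]
    have hf : Measurable fun x : H × H =>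
        (Q'.indicator 1 x.1 : ℝ≥0∞) * D.indicator 1 (x.1 * φ x.2) := by
      refine Measurable.mul ?_ ?_
      · exact (measurable_one.indicator hQ').comp measurable_fst
      · exact (measurable_one.indicator hD).comp (by fun_prop)
    rw [lintegral_lintegral_swap hf.aemeasurable]
    have e2 : ∀ᵐ a ∂ν, ∫⁻ m, (Q'.indicator 1 m : ℝ≥0∞) * D.indicator 1 (m * φ a) ∂μ = μ D := by
      filter_upwards [hDQ] with a ha
      rw [← lintegral_mul_right_eq_self (fun m => (Q'.indicator 1 m : ℝ≥0∞) *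
        D.indicator 1 (m * φ a)) (φ a)⁻¹]
      simp only [inv_mul_cancel_right]
      rw [← lintegral_indicator_one hD]
      refine lintegral_congr fun q => ?_
      by_cases hq : q ∈ D
      · simp [hq, ha q hq]
      · simp [hq]
    rw [lintegral_congr_ae e2]
    simp
  have h2 := ENNReal.lintegral_mul_le_Lp_mul_Lq (μ.restrict Q') Real.HolderConjugate.two_two
    (f := fun _ => 1) (g := g) aemeasurable_const hgm.aemeasurable
  simp only [Pi.mul_apply, one_mul, ENNReal.one_rpow, lintegral_const, Measure.restrict_apply,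
    MeasurableSet.univ, Set.univ_inter] at h2
  rw [h1] at h2
  have h3 : μ D ^ 2 ≤ (μ Q' ^ (1 / 2 : ℝ) * (∫⁻ m in Q', g m ^ (2 : ℝ) ∂μ) ^ (1 / 2 : ℝ)) ^ 2 := by
    gcongr
  refine h3.trans ?_
  rw [mul_pow]
  have h4 : ∀ x : ℝ≥0∞, (x ^ (1 / 2 : ℝ)) ^ 2 = x := by
    intro x
    rw [← ENNReal.rpow_natCast, ← ENNReal.rpow_mul]
    norm_num
  rw [h4, h4]
  refine mul_le_mul_right ?_ _
  refine (setLIntegral_le_lintegral _ _).trans (le_of_eq (lintegral_congr fun m => ?_))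
  rw [ENNReal.rpow_two, sq]

/-- the part of `A` with small `A`-degree has small measure. -/
theorem measure_low_le [IsProbabilityMeasure ν] {φ : H → H} (hφ : Measurable φ) {A Q' : Set H}
    (hA : MeasurableSet A) (hQ' : MeasurableSet Q') (hfin : μ A ≠ ∞)
    (hDQ : ∀ᵐ a ∂ν, ∀ q ∈ A, q * (φ a)⁻¹ ∈ Q') (c : ℝ≥0∞) :
    μ (A ∩ {q | Tk ν φ A q < c}) ≤ c * μ Q' := by
  set B := A ∩ {q | Tk ν φ A q < c} with hB
  have hBm : MeasurableSet B := hA.inter (measurableSet_lt (measurable_Tk hφ hA) measurable_const)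
  have h1 := sq_le_Tk (μ := μ) hφ hBm hQ' (by
    filter_upwards [hDQ] with a ha q hq using ha q hq.1)
  have h2 : ∫⁻ q in B, Tk ν φ B q ∂μ ≤ c * μ B := by
    calc ∫⁻ q in B, Tk ν φ B q ∂μ ≤ ∫⁻ _ in B, c ∂μ := by
          refine setLIntegral_mono measurable_const fun q hq => ?_
          exact (Tk_mono Set.inter_subset_left q).trans hq.2.le
      _ = c * μ B := by simp
  have h3 : μ B ^ 2 ≤ (c * μ Q') * μ B := by
    refine h1.trans ?_
    calc μ Q' * ∫⁻ q in B, Tk ν φ B q ∂μ ≤ μ Q' * (c * μ B) := by gcongr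
      _ = _ := by ring
  by_cases h0 : μ B = 0
  · rw [h0]; exact zero_le
  have hfB : μ B ≠ ∞ := ne_top_of_le_ne_top hfin (measure_mono Set.inter_subset_left)
  rw [sq] at h3
  exact (ENNReal.mul_le_mul_iff_left h0 hfB).mp h3

/-! ### one class -/

section OneClass

variable {κ : Type*}

/-- one round of cleaning: keep the points all of whose degrees are at least `c`. -/
def clean (ν : Measure H) (φ : κ → H → H) (c : ℝ≥0∞) (A : Set H) : Set H :=
  A ∩ {q | ∀ k, c ≤ Tk ν (φ k) A q}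

theorem clean_subset (φ : κ → H → H) (c : ℝ≥0∞) (A : Set H) : clean ν φ c A ⊆ A :=
  Set.inter_subset_left

theorem measurableSet_clean [Fintype κ] [SFinite ν] {φ : κ → H → H} (hφ : ∀ k, Measurable (φ k)) (c : ℝ≥0∞)
    {A : Set H} (hA : MeasurableSet A) : MeasurableSet (clean ν φ c A) := by
  refine hA.inter ?_
  have : {q | ∀ k, c ≤ Tk ν (φ k) A q} = ⋂ k, {q | c ≤ Tk ν (φ k) A q} := by ext; simp
  rw [this]
  exact MeasurableSet.iInter fun k => measurableSet_le measurable_const (measurable_Tk (hφ k) hA)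

theorem measure_clean [Fintype κ] [IsProbabilityMeasure ν] {φ : κ → H → H} (hφ : ∀ k, Measurable (φ k))
    {A Q' : Set H} (hA : MeasurableSet A) (hQ' : MeasurableSet Q') (hfin : μ A ≠ ∞)
    (hDQ : ∀ k, ∀ᵐ a ∂ν, ∀ q ∈ A, q * (φ k a)⁻¹ ∈ Q') (c : ℝ≥0∞) :
    μ A ≤ μ (clean ν φ c A) + Fintype.card κ * (c * μ Q') := by
  have h1 : A ⊆ clean ν φ c A ∪ ⋃ k, (A ∩ {q | Tk ν (φ k) A q < c}) := by
    intro q hq
    by_cases h : ∀ k, c ≤ Tk ν (φ k) A q
    · exact Or.inl ⟨hq, h⟩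
    · push Not at h
      obtain ⟨k, hk⟩ := h
      exact Or.inr (Set.mem_iUnion.mpr ⟨k, hq, hk⟩)
  refine (measure_mono h1).trans ((measure_union_le _ _).trans ?_)
  gcongr
  refine (measure_iUnion_fintype_le μ _).trans ?_
  refine (Finset.sum_le_sum fun k _ => measure_low_le (hφ k) hA hQ' hfin (hDQ k) c).trans ?_
  simp

/-- several rounds of cleaning -/
def cleanN (ν : Measure H) (φ : κ → H → H) (c : ℝ≥0∞) (A : Set H) (i : ℕ) : Set H :=
  (clean ν φ c)^[i] A

theorem cleanN_zero (φ : κ → H → H) (c : ℝ≥0∞) (A : Set H) : cleanN ν φ c A 0 = A := rfl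

theorem cleanN_succ (φ : κ → H → H) (c : ℝ≥0∞) (A : Set H) (i : ℕ) :
    cleanN ν φ c A (i + 1) = clean ν φ c (cleanN ν φ c A i) :=
  Function.iterate_succ_apply' _ _ _

theorem cleanN_succ_subset (φ : κ → H → H) (c : ℝ≥0∞) (A : Set H) (i : ℕ) :
    cleanN ν φ c A (i + 1) ⊆ cleanN ν φ c A i := by
  rw [cleanN_succ]; exact clean_subset _ _ _

theorem cleanN_subset (φ : κ → H → H) (c : ℝ≥0∞) (A : Set H) (i : ℕ) :
    cleanN ν φ c A i ⊆ A := by
  induction i with
  | zero => exact subset_rfl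
  | succ i ih => exact (cleanN_succ_subset φ c A i).trans ih

theorem measurableSet_cleanN [Fintype κ] [SFinite ν] {φ : κ → H → H} (hφ : ∀ k, Measurable (φ k)) (c : ℝ≥0∞)
    {A : Set H} (hA : MeasurableSet A) (i : ℕ) : MeasurableSet (cleanN ν φ c A i) := by
  induction i with
  | zero => exact hA
  | succ i ih => rw [cleanN_succ]; exact measurableSet_clean hφ c ih

theorem Tk_cleanN (φ : κ → H → H) (c : ℝ≥0∞) (A : Set H) (i : ℕ) {q : H}
    (hq : q ∈ cleanN ν φ c A (i + 1)) (k : κ) : c ≤ Tk ν (φ k) (cleanN ν φ c A i) q := by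
  rw [cleanN_succ] at hq; exact hq.2 k

theorem measure_cleanN [Fintype κ] [IsProbabilityMeasure ν] {φ : κ → H → H} (hφ : ∀ k, Measurable (φ k))
    {A Q' : Set H} (hA : MeasurableSet A) (hQ' : MeasurableSet Q') (hfin : μ A ≠ ∞)
    (hDQ : ∀ k, ∀ᵐ a ∂ν, ∀ q ∈ A, q * (φ k a)⁻¹ ∈ Q') (c : ℝ≥0∞) (i : ℕ) :
    μ A ≤ μ (cleanN ν φ c A i) + i * (Fintype.card κ * (c * μ Q')) := by
  induction i with
  | zero => simp [cleanN_zero]
  | succ i ih =>
    have hsub := cleanN_subset (ν := ν) φ c A i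
    have h1 := measure_clean (μ := μ) hφ (measurableSet_cleanN hφ c hA i) hQ'
      (ne_top_of_le_ne_top hfin (measure_mono hsub))
      (fun k => by filter_upwards [hDQ k] with a ha q hq using ha q (hsub hq)) c
    rw [← cleanN_succ] at h1
    calc μ A ≤ _ := ih
      _ ≤ (μ (cleanN ν φ c A (i + 1)) + Fintype.card κ * (c * μ Q')) +
          i * (Fintype.card κ * (c * μ Q')) := by gcongr
      _ = _ := by push_cast; ring

end OneClass

/-! ### two classes -/

section TwoClass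

variable {κ : Type*}

/-- one round for the pair `(A, B)` with inner moves `φ` and the cross move `ψ`. -/
def clean2 (ν : Measure H) (φ : κ → H → H) (ψ : H → H) (c : ℝ≥0∞) (X : Set H × Set H) :
    Set H × Set H :=
  (clean ν φ c X.1 ∩ {q | c ≤ Tk ν ψ X.2 q}, clean ν φ c X.2 ∩ {q | c ≤ Tk ν ψ X.1 q})

/-- half of the estimate -/
theorem clean2_half [Fintype κ] [IsProbabilityMeasure ν] {φ : κ → H → H} {ψ : H → H}
    (hφ : ∀ k, Measurable (φ k)) (hψ : Measurable ψ) {A B B' Q' : Set H} (hA : MeasurableSet A)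
    (hB : MeasurableSet B) (hBB : B' ⊆ B)
    (hQ' : MeasurableSet Q') (hfin : μ A ≠ ∞) (hAQ : μ A ≤ μ Q')
    (hDQ : ∀ k, ∀ᵐ a ∂ν, ∀ q ∈ A, q * (φ k a)⁻¹ ∈ Q') (c : ℝ≥0∞) :
    ∫⁻ q in A, Tk ν ψ B' q ∂μ ≤
      ∫⁻ q in clean ν φ c A ∩ {q | c ≤ Tk ν ψ B q}, Tk ν ψ B' q ∂μ +
      (Fintype.card κ + 1) * (c * μ Q') := by
  have hcl := measurableSet_clean (ν := ν) hφ c hA
  have hX : MeasurableSet {q | c ≤ Tk ν ψ B q} :=
    measurableSet_le measurable_const (measurable_Tk hψ hB)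
  have hcov : A = (clean ν φ c A ∩ {q | c ≤ Tk ν ψ B q}) ∪
      ((clean ν φ c A \ {q | c ≤ Tk ν ψ B q}) ∪ (A \ clean ν φ c A)) := by
    ext q
    by_cases h1 : q ∈ clean ν φ c A
    · have h2 := clean_subset _ _ _ h1
      by_cases h3 : c ≤ Tk ν ψ B q <;> simp [h1, h2, h3]
    · simp [h1]
  calc ∫⁻ q in A, Tk ν ψ B' q ∂μ
      ≤ ∫⁻ q in clean ν φ c A ∩ {q | c ≤ Tk ν ψ B q}, Tk ν ψ B' q ∂μ +
        (∫⁻ q in clean ν φ c A \ {q | c ≤ Tk ν ψ B q}, Tk ν ψ B' q ∂μ +
        ∫⁻ q in A \ clean ν φ c A, Tk ν ψ B' q ∂μ) := by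
        conv_lhs => rw [hcov]
        refine (lintegral_union_le _ _ _).trans ?_
        gcongr
        exact lintegral_union_le _ _ _
    _ ≤ ∫⁻ q in clean ν φ c A ∩ {q | c ≤ Tk ν ψ B q}, Tk ν ψ B' q ∂μ +
        (c * μ Q' + Fintype.card κ * (c * μ Q')) := by
        gcongr
        · calc ∫⁻ q in clean ν φ c A \ {q | c ≤ Tk ν ψ B q}, Tk ν ψ B' q ∂μ
              ≤ ∫⁻ _ in clean ν φ c A \ {q | c ≤ Tk ν ψ B q}, c ∂μ := by
                refine setLIntegral_mono measurable_const fun q hq => ?_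
                have := hq.2
                simp only [Set.mem_ofPred_eq, not_le] at this
                exact (Tk_mono hBB q).trans this.le
            _ = c * μ (clean ν φ c A \ {q | c ≤ Tk ν ψ B q}) := by simp
            _ ≤ c * μ Q' := mul_le_mul_right
                ((measure_mono (Set.sdiff_subset.trans (clean_subset _ _ _))).trans hAQ) _
        · calc ∫⁻ q in A \ clean ν φ c A, Tk ν ψ B' q ∂μ
              ≤ ∫⁻ _ in A \ clean ν φ c A, 1 ∂μ :=
                setLIntegral_mono measurable_const fun q _ => Tk_le_one _ _ _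
            _ = μ (A \ clean ν φ c A) := by simp
            _ ≤ Fintype.card κ * (c * μ Q') := by
                have h1 : A \ clean ν φ c A ⊆ ⋃ k, (A ∩ {q | Tk ν (φ k) A q < c}) := by
                  intro q hq
                  by_cases h : ∀ k, c ≤ Tk ν (φ k) A q
                  · exact absurd ⟨hq.1, h⟩ hq.2
                  · push Not at h
                    obtain ⟨k, hk⟩ := h
                    exact Set.mem_iUnion.mpr ⟨k, hq.1, hk⟩
                refine (measure_mono h1).trans ((measure_iUnion_fintype_le μ _).trans ?_)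
                refine (Finset.sum_le_sum fun k _ =>
                  measure_low_le (hφ k) hA hQ' hfin (hDQ k) c).trans ?_
                simp
    _ = _ := by ring

theorem clean2_est [Fintype κ] [IsProbabilityMeasure ν] {φ : κ → H → H} {ψ : H → H}
    (hφ : ∀ k, Measurable (φ k)) (hψ : Measurable ψ) {A B Q' : Set H} (hA : MeasurableSet A)
    (hB : MeasurableSet B) (hQ' : MeasurableSet Q') (hfin : μ Q' ≠ ∞) (hAQ : μ A ≤ μ Q')
    (hBQ : μ B ≤ μ Q')
    (hDA : ∀ k, ∀ᵐ a ∂ν, ∀ q ∈ A, q * (φ k a)⁻¹ ∈ Q')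
    (hDB : ∀ k, ∀ᵐ a ∂ν, ∀ q ∈ B, q * (φ k a)⁻¹ ∈ Q') (c : ℝ≥0∞) :
    ∫⁻ q in A, Tk ν ψ B q ∂μ ≤
      ∫⁻ q in (clean2 ν φ ψ c (A, B)).1, Tk ν ψ (clean2 ν φ ψ c (A, B)).2 q ∂μ +
      2 * ((Fintype.card κ + 1) * (c * μ Q')) := by
  have hA' : MeasurableSet (clean2 ν φ ψ c (A, B)).1 :=
    (measurableSet_clean hφ c hA).inter (measurableSet_le measurable_const (measurable_Tk hψ hB))
  have hB' : MeasurableSet (clean2 ν φ ψ c (A, B)).2 :=
    (measurableSet_clean hφ c hB).inter (measurableSet_le measurable_const (measurable_Tk hψ hA))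
  have hAA : (clean2 ν φ ψ c (A, B)).1 ⊆ A := Set.inter_subset_left.trans (clean_subset _ _ _)
  have h1 := clean2_half (μ := μ) (ψ := ψ) hφ hψ hA hB subset_rfl hQ'
    (ne_top_of_le_ne_top hfin hAQ) hAQ hDA c
  have h2 := clean2_half (μ := μ) (ψ := ψ) hφ hψ hB hA hAA hQ'
    (ne_top_of_le_ne_top hfin hBQ) hBQ hDB c
  change ∫⁻ q in A, Tk ν ψ B q ∂μ ≤ ∫⁻ q in (clean2 ν φ ψ c (A, B)).1, Tk ν ψ B q ∂μ + _ at h1
  change ∫⁻ q in B, Tk ν ψ (clean2 ν φ ψ c (A, B)).1 q ∂μ ≤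
    ∫⁻ q in (clean2 ν φ ψ c (A, B)).2, Tk ν ψ (clean2 ν φ ψ c (A, B)).1 q ∂μ + _ at h2
  rw [lintegral_Tk_symm hψ hB hA'] at h1
  rw [lintegral_Tk_symm hψ hA' hB'] at h2
  calc _ ≤ _ := h1
    _ ≤ (∫⁻ q in (clean2 ν φ ψ c (A, B)).1, Tk ν ψ (clean2 ν φ ψ c (A, B)).2 q ∂μ +
        (Fintype.card κ + 1) * (c * μ Q')) + (Fintype.card κ + 1) * (c * μ Q') := by gcongr
    _ = _ := by ring

/-- several rounds for a pair -/
def clean2N (ν : Measure H) (φ : κ → H → H) (ψ : H → H) (c : ℝ≥0∞) (X : Set H × Set H) (i : ℕ) :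
    Set H × Set H := (clean2 ν φ ψ c)^[i] X

theorem clean2N_succ (φ : κ → H → H) (ψ : H → H) (c : ℝ≥0∞) (X : Set H × Set H) (i : ℕ) :
    clean2N ν φ ψ c X (i + 1) = clean2 ν φ ψ c (clean2N ν φ ψ c X i) :=
  Function.iterate_succ_apply' _ _ _

theorem clean2N_succ_subset (φ : κ → H → H) (ψ : H → H) (c : ℝ≥0∞) (X : Set H × Set H) (i : ℕ) :
    (clean2N ν φ ψ c X (i + 1)).1 ⊆ (clean2N ν φ ψ c X i).1 ∧
    (clean2N ν φ ψ c X (i + 1)).2 ⊆ (clean2N ν φ ψ c X i).2 := by
  rw [clean2N_succ]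
  exact ⟨Set.inter_subset_left.trans (clean_subset _ _ _),
    Set.inter_subset_left.trans (clean_subset _ _ _)⟩

theorem clean2N_subset (φ : κ → H → H) (ψ : H → H) (c : ℝ≥0∞) (X : Set H × Set H) (i : ℕ) :
    (clean2N ν φ ψ c X i).1 ⊆ X.1 ∧ (clean2N ν φ ψ c X i).2 ⊆ X.2 := by
  induction i with
  | zero => exact ⟨subset_rfl, subset_rfl⟩
  | succ i ih =>
    have := clean2N_succ_subset (ν := ν) φ ψ c X i
    exact ⟨this.1.trans ih.1, this.2.trans ih.2⟩

theorem measurableSet_clean2N [Fintype κ] [SFinite ν] {φ : κ → H → H} {ψ : H → H}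
    (hφ : ∀ k, Measurable (φ k)) (hψ : Measurable ψ) (c : ℝ≥0∞) {X : Set H × Set H}
    (hA : MeasurableSet X.1) (hB : MeasurableSet X.2) (i : ℕ) :
    MeasurableSet (clean2N ν φ ψ c X i).1 ∧ MeasurableSet (clean2N ν φ ψ c X i).2 := by
  induction i with
  | zero => exact ⟨hA, hB⟩
  | succ i ih =>
    rw [clean2N_succ]
    exact ⟨(measurableSet_clean hφ c ih.1).inter
      (measurableSet_le measurable_const (measurable_Tk hψ ih.2)),
      (measurableSet_clean hφ c ih.2).inter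
      (measurableSet_le measurable_const (measurable_Tk hψ ih.1))⟩

theorem Tk_clean2N (φ : κ → H → H) (ψ : H → H) (c : ℝ≥0∞) (X : Set H × Set H) (i : ℕ) {q : H} :
    (q ∈ (clean2N ν φ ψ c X (i + 1)).1 →
      (∀ k, c ≤ Tk ν (φ k) (clean2N ν φ ψ c X i).1 q) ∧ c ≤ Tk ν ψ (clean2N ν φ ψ c X i).2 q) ∧
    (q ∈ (clean2N ν φ ψ c X (i + 1)).2 →
      (∀ k, c ≤ Tk ν (φ k) (clean2N ν φ ψ c X i).2 q) ∧ c ≤ Tk ν ψ (clean2N ν φ ψ c X i).1 q) := by
  rw [clean2N_succ]
  exact ⟨fun hq => ⟨hq.1.2, hq.2⟩, fun hq => ⟨hq.1.2, hq.2⟩⟩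

theorem clean2N_est [Fintype κ] [IsProbabilityMeasure ν] {φ : κ → H → H} {ψ : H → H}
    (hφ : ∀ k, Measurable (φ k)) (hψ : Measurable ψ) {X : Set H × Set H} {Q' : Set H}
    (hA : MeasurableSet X.1) (hB : MeasurableSet X.2) (hQ' : MeasurableSet Q') (hfin : μ Q' ≠ ∞)
    (hAQ : μ X.1 ≤ μ Q') (hBQ : μ X.2 ≤ μ Q')
    (hDA : ∀ k, ∀ᵐ a ∂ν, ∀ q ∈ X.1, q * (φ k a)⁻¹ ∈ Q')
    (hDB : ∀ k, ∀ᵐ a ∂ν, ∀ q ∈ X.2, q * (φ k a)⁻¹ ∈ Q') (c : ℝ≥0∞) (i : ℕ) :
    ∫⁻ q in X.1, Tk ν ψ X.2 q ∂μ ≤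
      ∫⁻ q in (clean2N ν φ ψ c X i).1, Tk ν ψ (clean2N ν φ ψ c X i).2 q ∂μ +
      i * (2 * ((Fintype.card κ + 1) * (c * μ Q'))) := by
  induction i with
  | zero => simp [clean2N]
  | succ i ih =>
    obtain ⟨s1, s2⟩ := clean2N_subset (ν := ν) φ ψ c X i
    obtain ⟨m1, m2⟩ := measurableSet_clean2N (ν := ν) hφ hψ c hA hB i
    have h1 := clean2_est (μ := μ) hφ hψ m1 m2 hQ' hfin ((measure_mono s1).trans hAQ)
      ((measure_mono s2).trans hBQ)
      (fun k => by filter_upwards [hDA k] with a ha q hq using ha q (s1 hq))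
      (fun k => by filter_upwards [hDB k] with a ha q hq using ha q (s2 hq)) c
    simp only [Prod.mk.eta] at h1
    rw [← clean2N_succ] at h1
    calc _ ≤ _ := ih
      _ ≤ (∫⁻ q in (clean2N ν φ ψ c X (i + 1)).1, Tk ν ψ (clean2N ν φ ψ c X (i + 1)).2 q ∂μ +
          2 * ((Fintype.card κ + 1) * (c * μ Q'))) +
          i * (2 * ((Fintype.card κ + 1) * (c * μ Q'))) := by gcongr
      _ = _ := by push_cast; ring

end TwoClass

/-! ### walks -/

section Walk

/-- the walk with moves `φ 0, φ 1, …` driven by `ω`. -/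
def wk (φ : ℕ → H → H) (q : H) (ω : ℕ → H × H) : ℕ → H
  | 0 => q
  | j + 1 => wk φ q ω j * (φ j (ω j).1)⁻¹ * φ j (ω j).2

/-- extension of a finite family by `1`. -/
def extω {L : ℕ} (ω : Fin L → H × H) : ℕ → H × H := fun j => if h : j < L then ω ⟨j, h⟩ else 1

theorem extω_of_lt {L : ℕ} (ω : Fin L → H × H) {j : ℕ} (h : j < L) : extω ω j = ω ⟨j, h⟩ :=
  dif_pos h

theorem wk_shift (φ : ℕ → H → H) (q : H) (ω : ℕ → H × H) (j : ℕ) :
    wk φ q ω (j + 1) = wk (fun i => φ (i + 1)) (q * (φ 0 (ω 0).1)⁻¹ * φ 0 (ω 0).2)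
      (fun i => ω (i + 1)) j := by
  induction j with
  | zero => rfl
  | succ j ih => rw [wk, ih]; rfl

theorem extω_cons {L : ℕ} (p : H × H) (ω : Fin L → H × H) :
    (fun i => extω (Fin.cons p ω : Fin (L + 1) → H × H) (i + 1)) = extω ω := by
  funext i
  unfold extω
  by_cases h : i < L
  · rw [dif_pos (by omega), dif_pos h]; rfl
  · rw [dif_neg (by omega), dif_neg h]

theorem extω_cons_zero {L : ℕ} (p : H × H) (ω : Fin L → H × H) :
    extω (Fin.cons p ω : Fin (L + 1) → H × H) 0 = p := rfl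

theorem measurable_extω {L : ℕ} (j : ℕ) : Measurable fun ω : Fin L → H × H => extω ω j := by
  unfold extω
  by_cases h : j < L
  · simp only [h, dif_pos]; exact measurable_pi_apply _
  · simp only [h, dif_neg, not_false_eq_true]; exact measurable_const

theorem measurable_wk {φ : ℕ → H → H} (hφ : ∀ j, Measurable (φ j)) {L : ℕ} (j : ℕ) :
    Measurable fun x : H × (Fin L → H × H) => wk φ x.1 (extω x.2) j := by
  induction j with
  | zero => exact measurable_fst
  | succ j ih =>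
    have h1 : Measurable fun x : H × (Fin L → H × H) => extω x.2 j :=
      (measurable_extω j).comp measurable_snd
    have h2 := hφ j
    show Measurable fun x : H × (Fin L → H × H) =>
      wk φ x.1 (extω x.2) j * (φ j (extω x.2 j).1)⁻¹ * φ j (extω x.2 j).2
    fun_prop

theorem measurableSet_walk {φ : ℕ → H → H} (hφ : ∀ j, Measurable (φ j)) {A : ℕ → Set H}
    (hA : ∀ j, MeasurableSet (A j)) (q : H) (L : ℕ) :
    MeasurableSet {ω : Fin L → H × H | ∀ j ≤ L, wk φ q (extω ω) j ∈ A j} := by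
  have : {ω : Fin L → H × H | ∀ j ≤ L, wk φ q (extω ω) j ∈ A j} =
      ⋂ j : ℕ, {ω | j ≤ L → wk φ q (extω ω) j ∈ A j} := by ext; simp
  rw [this]
  refine MeasurableSet.iInter fun j => ?_
  by_cases h : j ≤ L
  · simp only [h, true_implies]
    have h1 : Measurable fun ω : Fin L → H × H => wk φ q (extω ω) j :=
      (measurable_wk hφ j).comp (measurable_const.prodMk measurable_id)
    exact h1 (hA j)
  · simp only [h, false_implies, Set.ofPred_true]; exact MeasurableSet.univ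

/-- **walk**: if the degrees are at least `c`, the walk follows the sets with probability `≥ c^L`. -/
theorem walk_prob [IsProbabilityMeasure ν] (c : ℝ≥0∞) (L : ℕ) :
    ∀ (φ : ℕ → H → H) (A : ℕ → Set H), (∀ j, Measurable (φ j)) → (∀ j, MeasurableSet (A j)) →
      (∀ j < L, ∀ q ∈ A j, c ≤ Tk ν (φ j) (A (j + 1)) q) → ∀ q ∈ A 0,
      c ^ L ≤ Measure.pi (fun _ : Fin L => ν.prod ν) {ω | ∀ j ≤ L, wk φ q (extω ω) j ∈ A j} := by
  classical
  induction L with
  | zero =>
    intro φ A _ _ _ q hq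
    have : {ω : Fin 0 → H × H | ∀ j ≤ 0, wk φ q (extω ω) j ∈ A j} = Set.univ := by
      ext ω
      simp only [nonpos_iff_eq_zero, forall_eq, Set.mem_ofPred_eq, Set.mem_univ, iff_true]
      exact hq
    rw [this, measure_univ, pow_zero]
  | succ L ih =>
    intro φ A hφ hA hT q hq
    have hS := measurableSet_walk hφ hA q (L + 1)
    set S := {ω : Fin (L + 1) → H × H | ∀ j ≤ L + 1, wk φ q (extω ω) j ∈ A j} with hSdef
    have hmp := (measurePreserving_piFinSuccAbove (fun _ : Fin (L + 1) => ν.prod ν) 0).symm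
    have hS' := hmp.measurable hS
    rw [← hmp.measure_preimage hS.nullMeasurableSet]
    rw [Measure.prod_apply hS']
    have key : ∀ p : H × H, (if q * (φ 0 p.1)⁻¹ * φ 0 p.2 ∈ A 1 then c ^ L else 0) ≤
        Measure.pi (fun _ : Fin L => ν.prod ν) (Prod.mk p ⁻¹'
          ((MeasurableEquiv.piFinSuccAbove (fun _ : Fin (L + 1) => H × H) 0).symm ⁻¹' S)) := by
      intro p
      split_ifs with hp
      · refine (ih (fun i => φ (i + 1)) (fun i => A (i + 1)) (fun j => hφ _) (fun j => hA _)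
          (fun j hj => hT (j + 1) (by omega)) _ hp).trans (measure_mono ?_)
        intro ω hω
        have e1 : (MeasurableEquiv.piFinSuccAbove (fun _ : Fin (L + 1) => H × H) 0).symm (p, ω) =
            (Fin.cons p ω : Fin (L + 1) → H × H) := by
          simp [MeasurableEquiv.piFinSuccAbove, Fin.insertNthEquiv]
        show (MeasurableEquiv.piFinSuccAbove (fun _ : Fin (L + 1) => H × H) 0).symm (p, ω) ∈ S
        rw [e1]
        intro j hj
        cases j with
        | zero => exact hq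
        | succ j =>
          rw [wk_shift, extω_cons_zero, extω_cons]
          exact hω j (by omega)
      · exact zero_le
    refine le_trans ?_ (lintegral_mono key)
    have hm : MeasurableSet {p : H × H | q * (φ 0 p.1)⁻¹ * φ 0 p.2 ∈ A 1} := by
      have h0 := hφ 0
      exact (by fun_prop : Measurable fun p : H × H => q * (φ 0 p.1)⁻¹ * φ 0 p.2) (hA 1)
    have e2 : ∫⁻ p : H × H, (if q * (φ 0 p.1)⁻¹ * φ 0 p.2 ∈ A 1 then c ^ L else 0) ∂(ν.prod ν) =
        c ^ L * Tk ν (φ 0) (A 1) q := by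
      rw [show (fun p : H × H => if q * (φ 0 p.1)⁻¹ * φ 0 p.2 ∈ A 1 then c ^ L else 0) =
        {p : H × H | q * (φ 0 p.1)⁻¹ * φ 0 p.2 ∈ A 1}.indicator (fun _ => c ^ L) by
          funext p; simp [Set.indicator_apply]]
      rw [lintegral_indicator_const hm]
      rfl
    rw [e2, pow_succ]
    gcongr
    exact hT 0 (by omega) q hq

end Walk

end Clean

end Crest.Agent.R182.Star
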