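/-
R182, module CAP (helper710): the abstract model behind the capacity arguments, and chains with
bounded heights.
-/
import Mathlib
import Crest.Agent.R182.ConvType
import Crest.Agent.R182.StarClean

set_option autoImplicit false

namespace Crest.Agent.R182.Cap

open MeasureTheory

/-- The facts (F1)-(F6) about the model group `G = N_R ⋊ ..` used by CAP and FACET. -/
structure CapModel (G H ι E : Type*) [Group G] [Group H] [MeasurableSpace H] [Fintype ι]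
    [NormedAddCommGroup E] [NormedSpace ℝ E] where
  /-- generating weights -/
  S : Conv.GenSys ι E
  /-- the embedding of the real nilradical -/
  emb : H →* G
  emb_inj : Function.Injective emb
  /-- the left invariant length -/
  len : G → ℝ
  /-- the constant -/
  C0 : ℝ
  one_le_C0 : 1 ≤ C0
  len_nonneg : ∀ y, 0 ≤ len y
  len_one : len 1 = 0
  len_inv : ∀ y, len y⁻¹ = len y
  len_mul : ∀ y z, len (y * z) ≤ len y + len z
  chain : ∀ y, ∃ (m : ℕ) (p : ℕ → G), (m : ℝ) ≤ C0 * (len y + 1) ∧ p 0 = 1 ∧ p m = y ∧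
    ∀ j < m, len ((p j)⁻¹ * p (j + 1)) ≤ C0
  /-- the height -/
  hgt : G → E
  hgt_mul : ∀ y z, hgt (y * z) = hgt y + hgt z
  hgt_le : ∀ y, ‖hgt y‖ ≤ C0 * len y
  hgt_emb : ∀ n, hgt (emb n) = 0
  l_le : ∀ i x, |S.l i x| ≤ C0 * ‖x‖
  /-- characters -/
  χ : ι → G → ℂ
  /-- crossed homomorphisms -/
  δ : ι → G → ℂ
  crossed : ∀ i, S.NZ i → ∀ y z, δ i (y * z) = δ i y + χ i y * δ i z
  χ_norm : ∀ i, S.NZ i → ∀ y, ‖χ i y‖ = Real.exp (S.l i (hgt y))
  χ_emb : ∀ i, S.NZ i → ∀ n, χ i (emb n) = 1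
  δ_le : ∀ i, S.NZ i → ∀ y, len y ≤ C0 → ‖δ i y‖ ≤ C0
  exists_u : ∀ i, S.NZ i → ∀ t : ℝ, 0 ≤ t → t ≤ 1 → ∃ n, len (emb n) ≤ C0 ∧ δ i (emb n) = t
  vert : ∀ v : E, ∃ (m : ℕ) (p : ℕ → G), (m : ℝ) ≤ C0 * (‖v‖ + 1) ∧ p 0 = 1 ∧
    ‖hgt (p m) - v‖ ≤ C0 ∧ (∀ j < m, len ((p j)⁻¹ * p (j + 1)) ≤ C0) ∧
    ∀ j ≤ m, ∃ t : ℝ, 0 ≤ t ∧ t ≤ 1 ∧ ‖hgt (p j) - t • v‖ ≤ C0
  /-- Haar measure of `H` -/
  μ : Measure H
  /-- conjugation -/
  cj : G → H ≃* H
  emb_cj : ∀ g n, emb (cj g n) = g * emb n * g⁻¹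
  cj_meas : ∀ g, Measurable (cj g)
  cj_map : ∀ g, Measure.map (cj g) μ = μ
  mul_left : ∀ n, Measure.map (fun x => n * x) μ = μ
  mul_right : ∀ n, Measure.map (fun x => x * n) μ = μ
  sfin : SigmaFinite μ
  /-- measurable rounding -/
  rd : G → G
  rd_le : ∀ y, len ((rd y)⁻¹ * y) ≤ C0
  rd_meas : ∀ (x g : G) (T : Set G), MeasurableSet {n | rd (x * emb n * g) ∈ T}
  ball_le : ∀ R : ℝ, ∃ C : ℝ, 0 < C ∧ ∀ y, μ {n | len (y⁻¹ * emb n) ≤ R} ≤ ENNReal.ofReal C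
  /-- the unit ball of moves -/
  V : Set H
  V_meas : MeasurableSet V
  V_le : ∀ n ∈ V, len (emb n) ≤ C0
  V_pos : μ V ≠ 0
  V_fin : μ V ≠ ⊤
  /-- verticals of length `≤ m` -/
  Cl : ℕ → Set G
  one_mem_Cl : 1 ∈ Cl 0
  Cl_mono : ∀ m m', m ≤ m' → Cl m ⊆ Cl m'
  Cl_mul : ∀ m m' g g', g ∈ Cl m → g' ∈ Cl m' → g * g' ∈ Cl (m + m')
  Cl_inv : ∀ m g, g ∈ Cl m → g⁻¹ ∈ Cl m
  len_Cl : ∀ m g, g ∈ Cl m → len g ≤ C0 * m

variable {G H ι E : Type*} [Group G] [Group H] [MeasurableSpace H] [Fintype ι]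
    [NormedAddCommGroup E] [NormedSpace ℝ E]

namespace CapModel

variable (M : CapModel G H ι E)

/-- the distance -/
def dst (P Q : G) : ℝ := M.len (P⁻¹ * Q)

theorem dst_self (P : G) : M.dst P P = 0 := by simp [dst, M.len_one]

theorem dst_nonneg (P Q : G) : 0 ≤ M.dst P Q := M.len_nonneg _

theorem dst_comm (P Q : G) : M.dst P Q = M.dst Q P := by
  unfold dst; rw [← M.len_inv]; congr 1; group

theorem dst_tri (P Q R : G) : M.dst P R ≤ M.dst P Q + M.dst Q R := by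
  unfold dst
  refine le_trans (le_of_eq ?_) (M.len_mul _ _)
  congr 1; group

theorem dst_mul_left (g P Q : G) : M.dst (g * P) (g * Q) = M.dst P Q := by
  unfold dst; congr 1; group

theorem C0_pos : 0 < M.C0 := lt_of_lt_of_le one_pos M.one_le_C0

theorem hgt_one : M.hgt 1 = 0 := by
  have := M.hgt_mul 1 1
  simp only [mul_one] at this
  have h2 : M.hgt 1 + 0 = M.hgt 1 + M.hgt 1 := by rw [add_zero]; exact this
  exact (add_left_cancel h2).symm

theorem hgt_inv (y : G) : M.hgt y⁻¹ = - M.hgt y := by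
  have h := M.hgt_mul y y⁻¹
  rw [mul_inv_cancel, M.hgt_one] at h
  exact (neg_eq_of_add_eq_zero_right h.symm).symm

theorem norm_hgt_sub (P Q : G) : ‖M.hgt Q - M.hgt P‖ ≤ M.C0 * M.dst P Q := by
  have h : M.hgt Q = M.hgt P + M.hgt (P⁻¹ * Q) := by rw [← M.hgt_mul]; congr 1; group
  rw [h, add_sub_cancel_left]; exact M.hgt_le _

theorem l_hgt_sub (i : ι) (P Q : G) :
    |M.S.l i (M.hgt Q) - M.S.l i (M.hgt P)| ≤ M.C0 * (M.C0 * M.dst P Q) := by
  rw [← map_sub]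
  exact (M.l_le i _).trans (mul_le_mul_of_nonneg_left (M.norm_hgt_sub P Q) M.C0_pos.le)

theorem l_hgt_le (i : ι) (P Q : G) :
    M.S.l i (M.hgt Q) ≤ M.S.l i (M.hgt P) + M.C0 ^ 2 * M.dst P Q := by
  have := le_abs_self (M.S.l i (M.hgt Q) - M.S.l i (M.hgt P))
  have h2 := M.l_hgt_sub i P Q
  nlinarith

/-- `P` and `Q` are connected by a chain of `m` steps, all of whose heights are `≤ Z`. -/
def Conn (Z : ι → ℝ) (m : ℕ) (P Q : G) : Prop :=
  ∃ p : ℕ → G, p 0 = P ∧ p m = Q ∧ (∀ j < m, M.dst (p j) (p (j + 1)) ≤ M.C0) ∧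
    ∀ j ≤ m, ∀ i, M.S.l i (M.hgt (p j)) ≤ Z i

variable {M}

theorem Conn.refl {Z : ι → ℝ} {P : G} (m : ℕ) (h : ∀ i, M.S.l i (M.hgt P) ≤ Z i) :
    M.Conn Z m P P :=
  ⟨fun _ => P, rfl, rfl, fun _ _ => by rw [M.dst_self]; exact M.C0_pos.le, fun _ _ => h⟩

theorem Conn.left {Z : ι → ℝ} {m : ℕ} {P Q : G} (h : M.Conn Z m P Q) (i : ι) :
    M.S.l i (M.hgt P) ≤ Z i := by
  obtain ⟨p, h0, _, _, h3⟩ := h
  rw [← h0]; exact h3 0 (Nat.zero_le _) i

theorem Conn.right {Z : ι → ℝ} {m : ℕ} {P Q : G} (h : M.Conn Z m P Q) (i : ι) :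
    M.S.l i (M.hgt Q) ≤ Z i := by
  obtain ⟨p, _, h0, _, h3⟩ := h
  rw [← h0]; exact h3 m le_rfl i

theorem Conn.mono {Z Z' : ι → ℝ} {m : ℕ} {P Q : G} (h : M.Conn Z m P Q) (hZ : ∀ i, Z i ≤ Z' i) :
    M.Conn Z' m P Q := by
  obtain ⟨p, h0, h1, h2, h3⟩ := h
  exact ⟨p, h0, h1, h2, fun j hj i => (h3 j hj i).trans (hZ i)⟩

theorem Conn.trans {Z : ι → ℝ} {m m' : ℕ} {P Q R : G} (h : M.Conn Z m P Q)
    (h' : M.Conn Z m' Q R) : M.Conn Z (m + m') P R := by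
  obtain ⟨p, h0, h1, h2, h3⟩ := h
  obtain ⟨p', h0', h1', h2', h3'⟩ := h'
  refine ⟨fun j => if j ≤ m then p j else p' (j - m), ?_, ?_, ?_, ?_⟩
  · simp [h0]
  · by_cases hm : m' = 0
    · subst hm; simp only [add_zero, le_refl, if_true]; rw [h1, ← h0', h1']
    · have : ¬ (m + m' ≤ m) := by omega
      simp only [this, if_false, Nat.add_sub_cancel_left]; exact h1'
  · intro j hj
    by_cases h4 : j + 1 ≤ m
    · have h5 : j ≤ m := by omega
      simp only [h4, h5, if_true]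
      exact h2 j (by omega)
    · by_cases h5 : j ≤ m
      · have h6 : j = m := by omega
        subst h6
        simp only [le_refl, if_true, h4, if_false, Nat.add_sub_cancel_left]
        rw [h1, ← h0']
        exact h2' 0 (by omega)
      · simp only [h4, h5, if_false]
        have h6 : j + 1 - m = (j - m) + 1 := by omega
        rw [h6]
        exact h2' (j - m) (by omega)
  · intro j hj i
    by_cases h4 : j ≤ m
    · simp only [h4, if_true]; exact h3 j h4 i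
    · simp only [h4, if_false]; exact h3' (j - m) (by omega) i

theorem Conn.extend {Z : ι → ℝ} {m m' : ℕ} {P Q : G} (h : M.Conn Z m P Q) (hm : m ≤ m') :
    M.Conn Z m' P Q := by
  have := h.trans (Conn.refl (m' - m) h.right)
  rwa [Nat.add_sub_cancel' hm] at this

theorem Conn.symm {Z : ι → ℝ} {m : ℕ} {P Q : G} (h : M.Conn Z m P Q) : M.Conn Z m Q P := by
  obtain ⟨p, h0, h1, h2, h3⟩ := h
  refine ⟨fun j => p (m - j), by simpa using h1, by simpa using h0, ?_, ?_⟩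
  · intro j hj
    have h4 : m - j = (m - (j + 1)) + 1 := by omega
    show M.dst (p (m - j)) (p (m - (j + 1))) ≤ M.C0
    rw [h4, M.dst_comm]
    exact h2 _ (by omega)
  · intro j _ i
    exact h3 _ (by omega) i

theorem Conn.mul_left {Z : ι → ℝ} {m : ℕ} {P Q : G} (h : M.Conn Z m P Q) (g : G) :
    M.Conn (fun i => M.S.l i (M.hgt g) + Z i) m (g * P) (g * Q) := by
  obtain ⟨p, h0, h1, h2, h3⟩ := h
  refine ⟨fun j => g * p j, by simp only [h0], by simp only [h1], ?_, ?_⟩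
  · intro j hj
    rw [M.dst_mul_left]; exact h2 j hj
  · intro j hj i
    rw [M.hgt_mul, map_add]
    linarith [h3 j hj i]

/-- points at bounded distance are connected at almost the same height. -/
theorem conn_of_dst {Z : ι → ℝ} {P Q : G} {s : ℝ} {m : ℕ} (hs : M.dst P Q ≤ s)
    (hm : M.C0 * (s + 1) ≤ m) (hZ : ∀ i, M.S.l i (M.hgt P) + M.C0 ^ 4 * (s + 1) ≤ Z i) :
    M.Conn Z m P Q := by
  obtain ⟨m0, p, hm0, h0, h1, h2⟩ := M.chain (P⁻¹ * Q)
  have hC := M.one_le_C0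
  have hs' : M.len (P⁻¹ * Q) ≤ s := hs
  have h4 : (m0 : ℝ) ≤ M.C0 * (s + 1) :=
    hm0.trans (mul_le_mul_of_nonneg_left (by linarith) (by linarith))
  have hle : m0 ≤ m := by exact_mod_cast h4.trans hm
  have hlen : ∀ j, j ≤ m0 → M.len (p j) ≤ j * M.C0 := by
    intro j
    induction j with
    | zero => intro _; rw [h0, M.len_one]; simp
    | succ j ih =>
      intro hj
      have h5 := ih (by omega)
      have h6 := h2 j (by omega)
      have h7 : p (j + 1) = p j * ((p j)⁻¹ * p (j + 1)) := by group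
      rw [h7]
      refine (M.len_mul _ _).trans ?_
      push_cast
      linarith
  refine Conn.extend (m := m0) ⟨fun j => P * p j, by simp only [h0, mul_one],
    by simp only [h1]; group, ?_, ?_⟩ hle
  · intro j hj
    rw [M.dst_mul_left]; exact h2 j hj
  · intro j hj i
    refine le_trans ?_ (hZ i)
    rw [M.hgt_mul, map_add]
    have h5 : M.S.l i (M.hgt (p j)) ≤ M.C0 * (M.C0 * M.len (p j)) :=
      (le_abs_self _).trans ((M.l_le i _).trans
        (mul_le_mul_of_nonneg_left (M.hgt_le _) M.C0_pos.le))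
    have h6 := hlen j hj
    have h7 : (j : ℝ) ≤ m0 := by exact_mod_cast hj
    have h8 : (j : ℝ) * M.C0 ≤ M.C0 * (s + 1) * M.C0 :=
      mul_le_mul_of_nonneg_right (h7.trans h4) (by linarith)
    have h9 : M.C0 * (M.C0 * M.len (p j)) ≤ M.C0 * (M.C0 * (M.C0 * (s + 1) * M.C0)) := by
      gcongr; exact h6.trans h8
    have h10 : M.C0 * (M.C0 * (M.C0 * (s + 1) * M.C0)) = M.C0 ^ 4 * (s + 1) := by ring
    linarith

/-- chains with long steps. -/
theorem conn_of_seq {Z : ι → ℝ} {s : ℝ} {m0 : ℕ} (hm0 : M.C0 * (s + 1) ≤ m0) (q : ℕ → G) (m : ℕ)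
    (hs : ∀ j < m, M.dst (q j) (q (j + 1)) ≤ s) (hs0 : 0 ≤ s)
    (hZ : ∀ j ≤ m, ∀ i, M.S.l i (M.hgt (q j)) + M.C0 ^ 4 * (s + 1) ≤ Z i) :
    M.Conn Z (m * m0) (q 0) (q m) := by
  induction m with
  | zero =>
    rw [zero_mul]
    refine Conn.refl 0 fun i => ?_
    have h1 := hZ 0 le_rfl i
    have h2 : 0 ≤ M.C0 ^ 4 * (s + 1) := by
      have := M.C0_pos
      positivity
    linarith
  | succ m ih =>
    rw [Nat.succ_mul]
    refine (ih (fun j hj => hs j (by omega)) (fun j hj => hZ j (by omega))).trans ?_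
    exact conn_of_dst (hs m (Nat.lt_succ_self m)) hm0 (hZ m (Nat.le_succ m))

/-- the crossed homomorphisms along a chain. -/
theorem Conn.delta {Z : ι → ℝ} {m : ℕ} {P Q : G} (h : M.Conn Z m P Q) {i : ι} (hi : M.S.NZ i) :
    ‖M.δ i Q - M.δ i P‖ ≤ m * (M.C0 * Real.exp (Z i)) := by
  obtain ⟨p, h0, h1, h2, h3⟩ := h
  have key : ∀ j ≤ m, ‖M.δ i (p j) - M.δ i (p 0)‖ ≤ j * (M.C0 * Real.exp (Z i)) := by
    intro j
    induction j with
    | zero => intro _; simp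
    | succ j ih =>
      intro hj
      have h5 := ih (by omega)
      have h6 : p (j + 1) = p j * ((p j)⁻¹ * p (j + 1)) := by group
      have h7 : M.δ i (p (j + 1)) = M.δ i (p j) + M.χ i (p j) * M.δ i ((p j)⁻¹ * p (j + 1)) := by
        conv_lhs => rw [h6]
        exact M.crossed i hi _ _
      have h8 : ‖M.χ i (p j) * M.δ i ((p j)⁻¹ * p (j + 1))‖ ≤ M.C0 * Real.exp (Z i) := by
        rw [norm_mul, M.χ_norm i hi, mul_comm]
        refine mul_le_mul (M.δ_le i hi _ (h2 j (by omega))) (Real.exp_le_exp.2 (h3 j (by omega) i))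
          (Real.exp_pos _).le M.C0_pos.le
      have h9 : M.δ i (p (j + 1)) - M.δ i (p 0) =
          (M.δ i (p j) - M.δ i (p 0)) + M.χ i (p j) * M.δ i ((p j)⁻¹ * p (j + 1)) := by
        rw [h7]; ring
      rw [h9]
      refine (norm_add_le _ _).trans ?_
      push_cast
      linarith
  have := key m le_rfl
  rwa [h0, h1] at this

variable (M)

/-- (F7): the volume upper bound. -/
def Reach : Prop := ∃ (s₀ C : ℝ) (D : ℕ), 0 < s₀ ∧ 0 < C ∧ ∀ Z : ι → ℝ, (∀ i, 0 ≤ Z i) →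
  ∀ m : ℕ, 1 ≤ m →
  ∀ F : Finset G, (∀ y ∈ F, M.Conn Z m 1 y) → (∀ y ∈ F, ∀ z ∈ F, y ≠ z → s₀ < M.dst y z) →
    (F.card : ℝ) ≤ C * (m : ℝ) ^ D * Real.exp (M.S.Gt Z)

/-- the uniform law on `V` -/
noncomputable def ν : Measure H := (M.μ M.V)⁻¹ • M.μ.restrict M.V

theorem ν_prob : IsProbabilityMeasure M.ν := by
  refine ⟨?_⟩
  unfold ν
  rw [Measure.smul_apply, Measure.restrict_apply MeasurableSet.univ, Set.univ_inter, smul_eq_mul]
  exact ENNReal.inv_mul_cancel M.V_pos M.V_fin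

instance : IsProbabilityMeasure M.ν := M.ν_prob

instance : SigmaFinite M.μ := M.sfin

theorem ae_mem_V : ∀ᵐ a ∂M.ν, a ∈ M.V := by
  have h : ∀ᵐ a ∂(M.μ.restrict M.V), a ∈ M.V := ae_restrict_mem M.V_meas
  exact Measure.smul_absolutelyContinuous.ae_le h

/-- the moves of the periodic word `c 0, .., c q` -/
def mv (c : ℕ → G) (q : ℕ) (j : ℕ) : H → H := M.cj (c (j % (q + 1)))

/-- (F8): min-entropy of the end point of the random walk with vertices `c 0 = 1, c 1, .., c q`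
(periodically repeated), in power law form. -/
def Ent : Prop := ∀ q : ℕ, ∃ L0 : ℕ, ∀ L ≥ L0, ∃ (κ C : ℝ) (D : ℕ), 0 < κ ∧ 0 < C ∧
  ∀ (m : ℕ) (c : ℕ → G), 1 ≤ m → c 0 = 1 → (∀ j ≤ q, c j ∈ M.Cl m) → ∀ Z : ι → ℝ, (∀ i, 0 ≤ Z i) →
    (∀ i, ∃ j ≤ q, Z i ≤ max 0 (M.S.l i (M.hgt (c j)))) → ∀ S : Set H, MeasurableSet S →
    (Measure.pi fun _ : Fin L => M.ν.prod M.ν)
      {ω | Star.wk (M.mv c q) 1 (Star.extω ω) L ∈ S} ≤
      ENNReal.ofReal (C * (m : ℝ) ^ D) * (M.μ S * ENNReal.ofReal (Real.exp (- M.S.Gt Z))) ^ κ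

end CapModel

end Crest.Agent.R182.Cap
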