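/-
R182, module CAPREACH (helper329): (F7), the number of end points of chains with bounded heights.
-/
import Mathlib
import Crest.Agent.R182.BoxReach
import Crest.Agent.R182.BoxNN

set_option autoImplicit false
set_option linter.unusedSectionVars false

open MeasureTheory

namespace Crest.Agent.R182.Core

open Crest.GroupTheory Crest.Geometry Crest.Agent.R182.QI Crest.Agent.R182.FinPath
  Crest.Agent.R182.FinRed Crest.Agent.R182.Bnd Nb

variable {Γ : Type*} [Group Γ] {k : ℕ} {S : Set Γ} {π : Γ →* Multiplicative (Fin k → ℤ)}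

namespace BModel

variable (M : BModel S π)

/-- polynomial growth of `C`. -/
def CGrowth (M : BModel S π) : Prop := ∀ R : ℝ, ∃ A : ℕ, ∀ n : ℕ, ∃ F : Finset M.G,
  F.card ≤ A * (1 + n) ^ A ∧ ∀ l : List M.G, l.length ≤ n → (∀ s ∈ l, s ∈ M.C ∧ M.len s ≤ R) →
    ∃ f ∈ F, f ∈ M.C ∧ M.len (f⁻¹ * l.prod) ≤ M.a

theorem exists_wt_le (M : BModel S π) : ∃ C : ℝ, 0 ≤ C ∧ ∀ (i : Fin M.r) (v : Fin k → ℝ),
    |M.wt i v| ≤ C * ‖v‖ := by
  refine ⟨∑ i, ‖LinearMap.toContinuousLinearMap (M.wt i)‖, Finset.sum_nonneg fun i _ =>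
    norm_nonneg _, fun i v => ?_⟩
  have h1 := (LinearMap.toContinuousLinearMap (M.wt i)).le_opNorm v
  rw [Real.norm_eq_abs] at h1
  refine h1.trans (mul_le_mul_of_nonneg_right ?_ (norm_nonneg v))
  exact Finset.single_le_sum (f := fun i => ‖LinearMap.toContinuousLinearMap (M.wt i)‖)
    (fun j _ => norm_nonneg _) (Finset.mem_univ i)

theorem norm_h_le (g : M.G) : ‖M.h g‖ ≤ M.a * M.len g := by
  rw [pi_norm_le_iff_of_nonneg (mul_nonneg M.a0 (M.len_nonneg g))]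
  intro i
  rw [Real.norm_eq_abs]; exact M.h_le g i

/-- **(F7)** -/
theorem reach_card (hC : M.CGrowth) (R : ℝ) : ∃ (A : ℝ) (D : ℕ), 0 < A ∧
    ∀ (Z : GI M → ℝ) (m : ℕ) (F : Finset M.G),
      (∀ y ∈ F, ∃ p : ℕ → M.G, p 0 = 1 ∧ p m = y ∧ (∀ j < m, M.len ((p j)⁻¹ * p (j + 1)) ≤ R) ∧
        ∀ j ≤ m, ∀ i : GI M, wg M i (M.h (p j)) ≤ Z i) →
      (∀ y ∈ F, ∀ z ∈ F, y ≠ z → 10 * M.a < M.len (y⁻¹ * z)) →
      (F.card : ℝ) ≤ A * (1 + m) ^ D * Real.exp ((gsys M).Gt Z) := by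
  classical
  obtain ⟨A₁, D₁, hA₁, hreach⟩ := M.reach_mem R 0
  obtain ⟨A₂, hgrow⟩ := hC A₁
  obtain ⟨A₃, hA₃, had⟩ := M.ad_mem (max A₁ M.a) 1
  obtain ⟨A₄, hA₄, hpow⟩ := M.star.exists_prod_poly (GI M) M.c M.nilC
  obtain ⟨A₅, hA₅, hMD⟩ := MD_scaled_le M
  obtain ⟨Cw, hCw, hwt⟩ := M.exists_wt_le
  set C₁ : ℝ := Cw * (M.a * M.a) with hC₁
  have ha := M.a0
  have hC₁0 : 0 ≤ C₁ := by positivity
  -- the size of the box
  set D₂ : ℕ := D₁ + M.d with hD₂
  set A₆ : ℝ := A₁ + Real.exp C₁ ^ M.c * (A₃ * 2 ^ M.d) with hA₆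
  have hA₆1 : 1 ≤ A₆ := by
    have : 0 ≤ Real.exp C₁ ^ M.c * (A₃ * 2 ^ M.d) := by positivity
    linarith
  set K₀ : ℝ := 2 * ((KL (GI M) M.c).card : ℝ) with hK₀
  -- the volume of the unit ball
  set v₀ : ENNReal := volume (Metric.closedBall (0 : M.NN) 1) with hv₀
  have hv₀0 : v₀ ≠ 0 := (Metric.measure_closedBall_pos volume _ one_pos).ne'
  have hv₀t : v₀ ≠ ⊤ := measure_closedBall_lt_top.ne
  have hv₀r : 0 < v₀.toReal := ENNReal.toReal_pos hv₀0 hv₀t
  refine ⟨A₂ * ((K₀ * (A₄ * (3 * A₆) ^ M.c)) ^ M.r * A₅ / v₀.toReal) + 1,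
    A₂ + D₂ * M.c * M.r, by positivity, ?_⟩
  intro Z m F hF hsep
  have hm1 : (1:ℝ) ≤ 1 + (m:ℝ) := by linarith [Nat.cast_nonneg (α := ℝ) m]
  obtain ⟨FC, hFC, hFCmem⟩ := hgrow m
  -- the data of the points of `F`
  have hdata : ∀ y ∈ F, ∃ (x : M.L) (f : M.G), f ∈ FC ∧ f ∈ M.C ∧
      M.len ((M.ex x * f)⁻¹ * y) ≤ M.a ∧ x ∈ Bx M.c (gZ (eg M) Z) (A₁ * (1 + m) ^ D₁) ∧
      ∀ b : M.L, ‖M.bas.equivFun b‖ ≤ 1 → M.Ad f b ∈ Bx M.c (gZ (eg M) Z)
        (Real.exp C₁ ^ M.c * (A₃ * (2 + m) ^ M.d)) := by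
    intro y hy
    obtain ⟨p, hp0, hpm, hstep, hh⟩ := hF y hy
    obtain ⟨x, l, hl, hlC, hpx, hx⟩ := hreach Z p m 0 [] (by simp) (by
      rw [List.prod_nil, mul_one, M.ex_zero, hp0]) hstep hh
    rw [M.star.zero_op, List.prod_nil, one_mul, hpm] at hpx
    obtain ⟨f, hfF, hfC, hfl⟩ := hFCmem l hl.le hlC
    refine ⟨x, f, hfF, hfC, ?_, ?_, ?_⟩
    · rw [hpx]
      have : (M.ex x * f)⁻¹ * (M.ex x * l.prod) = f⁻¹ * l.prod := by group
      rw [this]; exact hfl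
    · refine Bx_mono (le_of_eq ?_) hx
      simp
    · intro b hb
      -- `f` as a product of letters
      have hlp : l.prod ∈ M.C := Subgroup.list_prod_mem _ fun s hs => (hlC s hs).1
      have hf : f = (l ++ [(f⁻¹ * l.prod)⁻¹]).prod := by
        rw [List.prod_append, List.prod_singleton]; group
      have hlet : ∀ s ∈ l ++ [(f⁻¹ * l.prod)⁻¹], s ∈ M.C ∧ M.len s ≤ max A₁ M.a := by
        intro s hs
        rcases List.mem_append.1 hs with h | h
        · exact ⟨(hlC s h).1, (hlC s h).2.trans (le_max_left _ _)⟩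
        · rw [List.mem_singleton.1 h]
          refine ⟨M.C.inv_mem (M.C.mul_mem (M.C.inv_mem hfC) hlp), ?_⟩
          rw [M.isLen.inv]; exact hfl.trans (le_max_right _ _)
      have hhf : ∀ j : GI M, wg M j (M.h (l ++ [(f⁻¹ * l.prod)⁻¹]).prod) ≤ Z j + C₁ := by
        intro j
        rw [← hf]
        have h1 : M.h y = M.h f + M.h (f⁻¹ * l.prod) := by
          rw [← M.h_mul, hpx, M.h_mul, M.h_ex, zero_add]; congr 1; group
        have h2 := hh m le_rfl j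
        rw [hpm, h1, map_add] at h2
        have h3 := (neg_le_abs _).trans ((hwt j (M.h (f⁻¹ * l.prod))).trans
          (mul_le_mul_of_nonneg_left ((M.norm_h_le _).trans
            (mul_le_mul_of_nonneg_left hfl ha)) hCw))
        change _ ≤ Z j + Cw * (M.a * M.a)
        change -(wg M j) (M.h (f⁻¹ * l.prod)) ≤ _ at h3
        linarith
      have h1 := had _ hlet b hb (fun j => Z j + C₁) hhf
      rw [← hf] at h1
      have h2 : gZ (eg M) (fun j => Z j + C₁) = fun i => Real.exp C₁ • gZ (eg M) Z i := by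
        funext i
        rw [gZ, gZ, smul_smul, ← Real.exp_add, add_comm]
      rw [h2] at h1
      have h3 := Bx_unscale (Real.one_le_exp hC₁0) (by positivity) h1
      refine Bx_mono ?_ h3
      have h4 : (1 + (((l ++ [(f⁻¹ * l.prod)⁻¹]).length : ℕ) : ℝ)) = 2 + m := by
        rw [List.length_append, hl]; push_cast; simp; ring
      rw [h4]
  choose! x f hfF hfC hxf hx hadf using hdata
  -- the number of points over one `f₀`
  have hone : ∀ f₀ ∈ FC, (((F.filter fun y => f y = f₀).card : ℕ) : ℝ) ≤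
      (K₀ * (A₄ * (3 * A₆) ^ M.c)) ^ M.r * A₅ / v₀.toReal *
        ((1 + (m:ℝ)) ^ (D₂ * M.c * M.r) * Real.exp ((gsys M).Gt Z)) := by
    intro f₀ _
    set F₀ := F.filter fun y => f y = f₀ with hF₀
    have hF₀m : ∀ y ∈ F₀, y ∈ F ∧ f y = f₀ := fun y hy => Finset.mem_filter.1 hy
    let φ : M.G → M.NN → M.NN := fun y n => M.conjN f₀⁻¹ ((M.E.symm (x y))⁻¹ * n)
    have hφ : ∀ y, MeasurePreserving (φ y) volume volume := fun y =>
      (M.measurePreserving_conjN f₀⁻¹).comp (measurePreserving_mul_left volume _)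
    let T : M.G → Set M.NN := fun y => φ y ⁻¹' Metric.closedBall 0 1
    have hTv : ∀ y, volume (T y) = v₀ := fun y =>
      (hφ y).measure_preimage measurableSet_closedBall.nullMeasurableSet
    have hTm : ∀ y, MeasurableSet (T y) := fun y => (hφ y).measurable measurableSet_closedBall
    -- the group element
    have hTG : ∀ y, ∀ n, M.toG n = M.ex (x y) * f₀ * M.toG (φ y n) * f₀⁻¹ := by
      intro y n
      have h1 : M.toG (φ y n) = f₀⁻¹ * M.toG ((M.E.symm (x y))⁻¹ * n) * f₀ := by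
        change M.toG (M.conjN f₀⁻¹ _) = _
        rw [M.toG_conjN, inv_inv]
      rw [h1, map_mul, map_inv]
      have h2 : M.toG (M.E.symm (x y)) = M.ex (x y) := by
        rw [M.toG_apply, LinearEquiv.apply_symm_apply]
      rw [h2]; group
    have hball : ∀ n : M.NN, n ∈ Metric.closedBall (0 : M.NN) 1 → M.len (M.toG n) ≤ 2 * M.a := by
      intro n hn
      rw [mem_closedBall_zero_iff] at hn
      refine (M.len_toG_le n).trans ?_
      have h1 : Real.log (2 + ‖n‖) ≤ 2 := by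
        have h2 : Real.log (2 + ‖n‖) ≤ Real.log 3 :=
          Real.log_le_log (by positivity) (by linarith)
        have h3 := Real.log_le_sub_one_of_pos (by norm_num : (0:ℝ) < 3)
        linarith
      nlinarith
    have hdisj : ∀ y ∈ F₀, ∀ z ∈ F₀, y ≠ z → Disjoint (T y) (T z) := by
      intro y hy z hz hne
      rw [Set.disjoint_left]
      intro n hn hn'
      have h1 := hTG y n
      have h2 := hTG z n
      have e1 : (M.ex (x y) * f₀)⁻¹ * (M.ex (x z) * f₀) =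
          M.toG (φ y n) * (M.toG (φ z n))⁻¹ := by
        have h3 : M.ex (x y) * f₀ * M.toG (φ y n) = M.ex (x z) * f₀ * M.toG (φ z n) := by
          rw [h1] at h2
          exact mul_right_cancel h2
        have h4 : M.ex (x z) * f₀ = M.ex (x y) * f₀ * M.toG (φ y n) * (M.toG (φ z n))⁻¹ := by
          rw [h3]; group
        rw [h4]; group
      have l1 := hball _ hn
      have l2 := hball _ hn'
      have l3 := hxf y (hF₀m y hy).1
      have l4 := hxf z (hF₀m z hz).1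
      rw [(hF₀m y hy).2] at l3
      rw [(hF₀m z hz).2] at l4
      have e2 : y⁻¹ * z = ((M.ex (x y) * f₀)⁻¹ * y)⁻¹ * ((M.ex (x y) * f₀)⁻¹ * (M.ex (x z) * f₀)) *
          ((M.ex (x z) * f₀)⁻¹ * z) := by group
      have h5 := hsep y (hF₀m y hy).1 z (hF₀m z hz).1 hne
      rw [e2, e1] at h5
      have h6 := M.isLen.mul (((M.ex (x y) * f₀)⁻¹ * y)⁻¹ * (M.toG (φ y n) * (M.toG (φ z n))⁻¹))
        ((M.ex (x z) * f₀)⁻¹ * z)
      have h7 := M.isLen.mul (((M.ex (x y) * f₀)⁻¹ * y)⁻¹) (M.toG (φ y n) * (M.toG (φ z n))⁻¹)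
      have h8 := M.isLen.mul (M.toG (φ y n)) (M.toG (φ z n))⁻¹
      rw [M.isLen.inv] at h7 h8
      linarith [M.one_le_a]
    -- the box
    set t : ℝ := A₆ * (1 + m) ^ D₂ with ht
    have ht1 : 1 ≤ t := by
      have := one_le_pow₀ (n := D₂) hm1
      nlinarith
    have hTsub : ∀ y ∈ F₀, T y ⊆ M.NB (gZ (eg M) Z) (A₄ * ((1 + (2:ℕ)) * t) ^ M.c) := by
      intro y hy n hn
      rw [M.mem_NB]
      have h1 : M.E n = M.star.prod [x y, M.Ad f₀ (M.E (φ y n))] := by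
        have h2 : n = M.E.symm (x y) * M.conjN f₀ (φ y n) := by
          change n = _ * M.conjN f₀ (M.conjN f₀⁻¹ ((M.E.symm (x y))⁻¹ * n))
          rw [← M.conjN_mul, mul_inv_cancel, M.conjN_one]; group
        conv_lhs => rw [h2]
        rw [M.E_mul, LinearEquiv.apply_symm_apply, Nb.Star.prod_cons, Nb.Star.prod_cons,
          Nb.Star.prod_nil, M.star.op_zero, M.conjN_apply, LinearEquiv.apply_symm_apply]
      rw [h1]
      have h2 := hpow (gZ (eg M) Z) t ht1 [x y, M.Ad f₀ (M.E (φ y n))] (by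
        intro w hw
        rcases List.mem_cons.1 hw with rfl | hw
        · refine Bx_mono ?_ (hx y (hF₀m y hy).1)
          rw [ht]
          have e1 : (1 + (m:ℝ)) ^ D₁ ≤ (1 + (m:ℝ)) ^ D₂ := pow_le_pow_right₀ hm1 (by omega)
          have e2 : A₁ ≤ A₆ := by
            have : 0 ≤ Real.exp C₁ ^ M.c * (A₃ * 2 ^ M.d) := by positivity
            linarith
          gcongr
        · rw [List.mem_singleton.1 hw]
          have h3 := hadf y (hF₀m y hy).1 (M.E (φ y n)) (by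
            have h4 : M.bas.equivFun (M.E (φ y n)) = φ y n := M.E.symm_apply_apply _
            rw [h4]
            exact mem_closedBall_zero_iff.1 hn)
          rw [(hF₀m y hy).2] at h3
          refine Bx_mono ?_ h3
          have e1 : (2 + (m:ℝ)) ^ M.d ≤ (2 * (1 + (m:ℝ))) ^ M.d := by
            gcongr; linarith
          rw [mul_pow] at e1
          have e2 : (1 + (m:ℝ)) ^ M.d ≤ (1 + (m:ℝ)) ^ D₂ := pow_le_pow_right₀ hm1 (by omega)
          rw [ht]
          calc Real.exp C₁ ^ M.c * (A₃ * (2 + (m:ℝ)) ^ M.d)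
              ≤ Real.exp C₁ ^ M.c * (A₃ * (2 ^ M.d * (1 + (m:ℝ)) ^ M.d)) := by gcongr
            _ ≤ Real.exp C₁ ^ M.c * (A₃ * (2 ^ M.d * (1 + (m:ℝ)) ^ D₂)) := by gcongr
            _ = (Real.exp C₁ ^ M.c * (A₃ * 2 ^ M.d)) * (1 + (m:ℝ)) ^ D₂ := by ring
            _ ≤ A₆ * (1 + (m:ℝ)) ^ D₂ := by gcongr; linarith)
      exact h2
    -- volumes
    have hsum : (F₀.card : ENNReal) * v₀ ≤ volume (M.NB (gZ (eg M) Z)
        (A₄ * ((1 + (2:ℕ)) * t) ^ M.c)) := by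
      calc (F₀.card : ENNReal) * v₀ = ∑ y ∈ F₀, volume (T y) := by
            rw [Finset.sum_congr rfl fun y _ => hTv y, Finset.sum_const, nsmul_eq_mul]
        _ = volume (⋃ y ∈ F₀, T y) := (measure_biUnion_finset (fun y hy z hz hne =>
            hdisj y hy z hz hne) fun y _ => hTm y).symm
        _ ≤ _ := measure_mono (Set.iUnion₂_subset hTsub)
    have hgZ : gZ (eg M) Z = fun i => (1 * Real.exp (Z i)) • eg M i := by
      funext i; rw [one_mul]; rfl
    have hMDpos : 0 < MD M.bas M.c (gZ (eg M) Z) := by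
      obtain ⟨c0, hc0, h⟩ := le_MD_scaled M
      exact lt_of_lt_of_le (mul_pos hc0 (Real.exp_pos _)) (h Z)
    have hvol : volume (M.NB (gZ (eg M) Z) (A₄ * ((1 + (2:ℕ)) * t) ^ M.c)) ≤
        ENNReal.ofReal ((K₀ * (A₄ * ((1 + (2:ℕ)) * t) ^ M.c)) ^ M.r *
          (A₅ * Real.exp ((gsys M).Gt Z))) := by
      have h1 := vb_Bx_le (b := M.bas) (c := M.c) (g := gZ (eg M) Z) hMDpos
        (t := A₄ * ((1 + (2:ℕ)) * t) ^ M.c) (by positivity)
      refine le_trans h1 (ENNReal.ofReal_le_ofReal ?_)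
      have h2 := hMD 1 Z le_rfl
      rw [← hgZ, one_pow, mul_one] at h2
      gcongr
    have hfin := hsum.trans hvol
    have h3 : (F₀.card : ℝ) * v₀.toReal ≤ (K₀ * (A₄ * ((1 + (2:ℕ)) * t) ^ M.c)) ^ M.r *
        (A₅ * Real.exp ((gsys M).Gt Z)) := by
      have h4 := ENNReal.toReal_mono ENNReal.ofReal_ne_top hfin
      rw [ENNReal.toReal_mul, ENNReal.toReal_natCast, ENNReal.toReal_ofReal (by positivity)] at h4
      exact h4
    rw [← le_div_iff₀ hv₀r] at h3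
    refine h3.trans (le_of_eq ?_)
    rw [ht]
    push_cast
    have e1 : (K₀ * (A₄ * ((1 + 2) * (A₆ * (1 + (m:ℝ)) ^ D₂)) ^ M.c)) ^ M.r =
        (K₀ * (A₄ * (3 * A₆) ^ M.c)) ^ M.r * (1 + (m:ℝ)) ^ (D₂ * M.c * M.r) := by
      rw [pow_mul, pow_mul, ← mul_pow]
      congr 1
      rw [show (1 + 2 : ℝ) = 3 by norm_num, ← mul_assoc 3, mul_pow (3 * A₆)]
      ring
    rw [e1]
    ring
  have hcard : F.card = ∑ f₀ ∈ FC, (F.filter fun y => f y = f₀).card :=
    Finset.card_eq_sum_card_fiberwise fun y hy => hfF y hy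
  have hX0 : 0 ≤ (K₀ * (A₄ * (3 * A₆) ^ M.c)) ^ M.r * A₅ / v₀.toReal := by positivity
  set X : ℝ := (K₀ * (A₄ * (3 * A₆) ^ M.c)) ^ M.r * A₅ / v₀.toReal with hX
  calc (F.card : ℝ) = ∑ f₀ ∈ FC, (((F.filter fun y => f y = f₀).card : ℕ) : ℝ) := by
        rw [hcard]; push_cast; rfl
    _ ≤ ∑ _f₀ ∈ FC, X * ((1 + (m:ℝ)) ^ (D₂ * M.c * M.r) * Real.exp ((gsys M).Gt Z)) :=
        Finset.sum_le_sum hone
    _ = FC.card * (X * ((1 + (m:ℝ)) ^ (D₂ * M.c * M.r) * Real.exp ((gsys M).Gt Z))) := by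
        rw [Finset.sum_const, nsmul_eq_mul]
    _ ≤ (A₂ * (1 + (m:ℝ)) ^ A₂) *
        (X * ((1 + (m:ℝ)) ^ (D₂ * M.c * M.r) * Real.exp ((gsys M).Gt Z))) := by
        have : (FC.card : ℝ) ≤ A₂ * (1 + (m:ℝ)) ^ A₂ := by exact_mod_cast hFC
        gcongr
    _ = A₂ * X * (1 + (m:ℝ)) ^ (A₂ + D₂ * M.c * M.r) * Real.exp ((gsys M).Gt Z) := by
        rw [pow_add]; ring
    _ ≤ (A₂ * X + 1) * (1 + (m:ℝ)) ^ (A₂ + D₂ * M.c * M.r) * Real.exp ((gsys M).Gt Z) := by
        gcongr; linarith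

end BModel

end Crest.Agent.R182.Core
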