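/-
R182, module CORE (helper848): volumes of small sets, finite multiplicity, counting preimages of a
quasi-isometry by volume.
-/
import Mathlib
import Crest.Agent.R182.CoreN
import Crest.Agent.R182.QIBasic

set_option autoImplicit false

open MeasureTheory

namespace Crest.Agent.R182.Core

open Crest.GroupTheory Crest.Geometry Crest.Agent.R182.QI Crest.Agent.R182.FinPath
  Crest.Agent.R182.FinRed Crest.Agent.R182.Bnd

variable {Γ : Type*} [Group Γ] {k : ℕ} {S : Set Γ} {π : Γ →* Multiplicative (Fin k → ℤ)}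

theorem countable_of_closure (hS : S.Finite) (hcl : Subgroup.closure S = ⊤) : Countable Γ := by
  classical
  have hcl' : Subgroup.closure ((hS.toFinset : Finset Γ) : Set Γ) = ⊤ := by
    rw [Set.Finite.coe_toFinset]; exact hcl
  have h : (Set.univ : Set Γ) = ⋃ n : ℕ, {g : Γ | wordLength (hS.toFinset : Set Γ) g ≤ n} := by
    ext g; simp only [Set.mem_univ, Set.mem_iUnion, Set.mem_ofPred_eq, true_iff]
    exact ⟨_, le_rfl⟩
  rw [← Set.countable_univ_iff, h]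
  exact Set.countable_iUnion fun n => (ball_finite hcl' n).countable

namespace BModel

variable (M : BModel S π)

/-- volume of a coordinate ball -/
theorem volume_closedBall_lt_top (ρ : ℝ) : volume (Metric.closedBall (0 : M.NN) ρ) < ⊤ :=
  (isCompact_closedBall (0 : M.NN) ρ).measure_lt_top

/-- Uniformly bounded volume of a bounded piece of `y E g`. -/
theorem volume_near (R : ℝ) : ∃ C : ENNReal, C ≠ ⊤ ∧ ∀ y g : M.G,
    volume {n : M.NN | M.len (y * M.toG n * g) ≤ R} ≤ C := by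
  refine ⟨volume (Metric.closedBall (0 : M.NN) (Real.exp (M.a * (2 * R) + M.a))),
    (M.volume_closedBall_lt_top _).ne, fun y g => ?_⟩
  by_cases hne : ({n : M.NN | M.len (y * M.toG n * g) ≤ R}).Nonempty
  · obtain ⟨n₀, h₀⟩ := hne
    have hsub : {n : M.NN | M.len (y * M.toG n * g) ≤ R} ⊆
        (fun n => n₀⁻¹ * n) ⁻¹' ((M.conjN g⁻¹) ⁻¹'
          (Metric.closedBall (0 : M.NN) (Real.exp (M.a * (2 * R) + M.a)))) := by
      intro n hn
      simp only [Set.mem_preimage, Metric.mem_closedBall, dist_zero_right]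
      refine (M.norm_le_exp _).trans (Real.exp_le_exp.2 ?_)
      have h1 : M.toG (M.conjN g⁻¹ (n₀⁻¹ * n)) = (y * M.toG n₀ * g)⁻¹ * (y * M.toG n * g) := by
        rw [toG_conjN, map_mul, map_inv]; group
      have h2 := M.isLen.mul (y * M.toG n₀ * g)⁻¹ (y * M.toG n * g)
      rw [M.isLen.inv] at h2
      have h3 : M.len (y * M.toG n₀ * g) ≤ R := h₀
      have h4 : M.len (y * M.toG n * g) ≤ R := hn
      rw [h1]
      have ha := M.a0
      have h5 : M.len ((y * M.toG n₀ * g)⁻¹ * (y * M.toG n * g)) ≤ 2 * R := by linarith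
      gcongr
    refine (measure_mono hsub).trans ?_
    rw [measure_preimage_mul, (M.measurePreserving_conjN g⁻¹).measure_preimage
      Metric.isClosed_closedBall.measurableSet.nullMeasurableSet]
  · rw [Set.not_nonempty_iff_eq_empty.1 hne]; simp

/-- finitely many lattice points near a point, with a uniform bound -/
theorem exists_card_near (hS : S.Finite) (hcl : Subgroup.closure S = ⊤) (R : ℝ) :
    ∃ m : ℕ, ∀ g : M.G, ({γ : Γ | M.len (g⁻¹ * M.ι γ) ≤ R}).Finite ∧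
      ({γ : Γ | M.len (g⁻¹ * M.ι γ) ≤ R}).ncard ≤ m := by
  classical
  have hcl' : Subgroup.closure ((hS.toFinset : Finset Γ) : Set Γ) = ⊤ := by
    rw [Set.Finite.coe_toFinset]; exact hcl
  have hSe : ((hS.toFinset : Finset Γ) : Set Γ) = S := hS.coe_toFinset
  obtain ⟨K, hK⟩ : ∃ K : ℕ, M.a * (2 * R) + M.a ≤ K := exists_nat_ge _
  have hfin : ({g : Γ | wordLength S g ≤ K}).Finite := by
    have := ball_finite hcl' K
    rwa [hSe] at this
  refine ⟨({g : Γ | wordLength S g ≤ K}).ncard, fun g => ?_⟩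
  by_cases hne : ({γ : Γ | M.len (g⁻¹ * M.ι γ) ≤ R}).Nonempty
  · obtain ⟨γ₀, h₀⟩ := hne
    have hinj : Function.Injective fun γ : Γ => γ₀⁻¹ * γ := mul_right_injective _
    have hmaps : Set.MapsTo (fun γ : Γ => γ₀⁻¹ * γ) {γ : Γ | M.len (g⁻¹ * M.ι γ) ≤ R}
        {g : Γ | wordLength S g ≤ K} := by
      intro γ hγ
      have h1 : M.ι (γ₀⁻¹ * γ) = (g⁻¹ * M.ι γ₀)⁻¹ * (g⁻¹ * M.ι γ) := by
        rw [map_mul, map_inv]; group
      have h2 := M.isLen.mul (g⁻¹ * M.ι γ₀)⁻¹ (g⁻¹ * M.ι γ)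
      rw [M.isLen.inv, ← h1] at h2
      have h3 : M.len (g⁻¹ * M.ι γ₀) ≤ R := h₀
      have h4 : M.len (g⁻¹ * M.ι γ) ≤ R := hγ
      have h5 := M.ι_len (γ₀⁻¹ * γ)
      have ha := M.a0
      have h6 : (wordLength S (γ₀⁻¹ * γ) : ℝ) ≤ K := by
        refine h5.trans (le_trans ?_ hK)
        have : M.len (M.ι (γ₀⁻¹ * γ)) ≤ 2 * R := by linarith
        gcongr
      exact_mod_cast h6
    exact ⟨Set.Finite.of_injOn hmaps hinj.injOn hfin,
      Set.ncard_le_ncard_of_injOn _ hmaps hinj.injOn hfin⟩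
  · rw [Set.not_nonempty_iff_eq_empty.1 hne]; simp

/-- finite multiplicity of quasi-isometries -/
theorem exists_card_fiber (hS : S.Finite) (hcl : Subgroup.closure S = ⊤) (K : ℕ) (R : ℝ) :
    ∃ m : ℕ, ∀ Ψ : Γ → Γ, QIMap S S Ψ K → ∀ g : M.G,
      ({γ : Γ | M.len (g⁻¹ * M.ι (Ψ γ)) ≤ R}).Finite ∧
        ({γ : Γ | M.len (g⁻¹ * M.ι (Ψ γ)) ≤ R}).ncard ≤ m := by
  classical
  have hcl' : Subgroup.closure ((hS.toFinset : Finset Γ) : Set Γ) = ⊤ := by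
    rw [Set.Finite.coe_toFinset]; exact hcl
  have hSe : ((hS.toFinset : Finset Γ) : Set Γ) = S := hS.coe_toFinset
  obtain ⟨K', hK'⟩ : ∃ K' : ℕ, (K:ℝ) * (M.a * (2 * R) + M.a) + K ≤ K' := exists_nat_ge _
  have hfin : ({g : Γ | wordLength S g ≤ K'}).Finite := by
    have := ball_finite hcl' K'
    rwa [hSe] at this
  refine ⟨({g : Γ | wordLength S g ≤ K'}).ncard, fun Ψ hΨ g => ?_⟩
  by_cases hne : ({γ : Γ | M.len (g⁻¹ * M.ι (Ψ γ)) ≤ R}).Nonempty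
  · obtain ⟨γ₀, h₀⟩ := hne
    have hinj : Function.Injective fun γ : Γ => γ₀⁻¹ * γ := mul_right_injective _
    have hmaps : Set.MapsTo (fun γ : Γ => γ₀⁻¹ * γ) {γ : Γ | M.len (g⁻¹ * M.ι (Ψ γ)) ≤ R}
        {g : Γ | wordLength S g ≤ K'} := by
      intro γ hγ
      have h1 : M.ι ((Ψ γ₀)⁻¹ * Ψ γ) = (g⁻¹ * M.ι (Ψ γ₀))⁻¹ * (g⁻¹ * M.ι (Ψ γ)) := by
        rw [map_mul, map_inv]; group
      have h2 := M.isLen.mul (g⁻¹ * M.ι (Ψ γ₀))⁻¹ (g⁻¹ * M.ι (Ψ γ))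
      rw [M.isLen.inv, ← h1] at h2
      have h3 : M.len (g⁻¹ * M.ι (Ψ γ₀)) ≤ R := h₀
      have h4 : M.len (g⁻¹ * M.ι (Ψ γ)) ≤ R := hγ
      have h5 := M.ι_len ((Ψ γ₀)⁻¹ * Ψ γ)
      have ha := M.a0
      have h6 : (wordLength S ((Ψ γ₀)⁻¹ * Ψ γ) : ℝ) ≤ M.a * (2 * R) + M.a := by
        refine h5.trans ?_
        have : M.len (M.ι ((Ψ γ₀)⁻¹ * Ψ γ)) ≤ 2 * R := by linarith
        gcongr
      have h7 : (wordLength S (γ₀⁻¹ * γ) : ℝ) ≤ K * wordLength S ((Ψ γ₀)⁻¹ * Ψ γ) + K := by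
        exact_mod_cast hΨ.lo γ₀ γ
      have h8 : (wordLength S (γ₀⁻¹ * γ) : ℝ) ≤ K' := by
        refine h7.trans (le_trans ?_ hK')
        gcongr
      exact_mod_cast h8
    exact ⟨Set.Finite.of_injOn hmaps hinj.injOn hfin,
      Set.ncard_le_ncard_of_injOn _ hmaps hinj.injOn hfin⟩
  · rw [Set.not_nonempty_iff_eq_empty.1 hne]; simp

/-- The set of `n ∈ E` whose rounded point is `γ` has bounded volume. -/
theorem volume_rnd_le : ∃ C : ENNReal, C ≠ ⊤ ∧ ∀ (x g : M.G) (γ : Γ),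
    volume {n : M.NN | M.rnd (x * M.toG n * g) = γ} ≤ C := by
  obtain ⟨C, hC, h⟩ := M.volume_near M.a
  refine ⟨C, hC, fun x g γ => le_trans (measure_mono ?_) (h ((M.ι γ)⁻¹ * x) g)⟩
  rintro n rfl
  have := M.len_rnd (x * M.toG n * g)
  simpa [mul_assoc] using this

theorem volume_rnd_mem_le : ∃ C : ENNReal, C ≠ ⊤ ∧ ∀ (x g : M.G) (F : Set Γ), F.Finite →
    volume {n : M.NN | M.rnd (x * M.toG n * g) ∈ F} ≤ C * F.ncard := by
  obtain ⟨C, hC, h⟩ := M.volume_rnd_le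
  refine ⟨C, hC, fun x g F hF => ?_⟩
  have h1 : {n : M.NN | M.rnd (x * M.toG n * g) ∈ F} ⊆
      ⋃ γ ∈ hF.toFinset, {n : M.NN | M.rnd (x * M.toG n * g) = γ} := by
    intro n hn
    simp only [Set.mem_iUnion, Set.Finite.mem_toFinset, Set.mem_ofPred_eq, exists_prop,
      exists_eq_right']
    exact hn
  refine (measure_mono h1).trans ((measure_biUnion_finset_le _ _).trans ?_)
  refine (Finset.sum_le_sum fun γ _ => h x g γ).trans ?_
  rw [Finset.sum_const, nsmul_eq_mul, mul_comm, Set.ncard_eq_toFinset_card F hF]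

/-- **Counting**: points of `x E g` whose image is `R`-close to one of finitely many points `T`. -/
theorem volume_preimage_le (hS : S.Finite) (hcl : Subgroup.closure S = ⊤) (K : ℕ) (R : ℝ) :
    ∃ C : ENNReal, C ≠ ⊤ ∧ ∀ Ψ : Γ → Γ, QIMap S S Ψ K → ∀ (x g : M.G) (T : Finset M.G),
      volume {n : M.NN | ∃ p ∈ T, M.len (p⁻¹ * M.ext Ψ (x * M.toG n * g)) ≤ R} ≤ C * T.card := by
  classical
  obtain ⟨m, hm⟩ := M.exists_card_fiber hS hcl K R
  obtain ⟨C, hC, h⟩ := M.volume_rnd_mem_le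
  refine ⟨C * m, ENNReal.mul_ne_top hC (ENNReal.natCast_ne_top _), fun Ψ hΨ x g T => ?_⟩
  have h1 : {n : M.NN | ∃ p ∈ T, M.len (p⁻¹ * M.ext Ψ (x * M.toG n * g)) ≤ R} ⊆
      ⋃ p ∈ T, {n : M.NN | M.rnd (x * M.toG n * g) ∈ {γ : Γ | M.len (p⁻¹ * M.ι (Ψ γ)) ≤ R}} := by
    rintro n ⟨p, hp, hn⟩
    simp only [Set.mem_iUnion, exists_prop]
    exact ⟨p, hp, hn⟩
  refine (measure_mono h1).trans ((measure_biUnion_finset_le _ _).trans ?_)
  have h2 : ∀ p ∈ T,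
      volume {n : M.NN | M.rnd (x * M.toG n * g) ∈ {γ : Γ | M.len (p⁻¹ * M.ι (Ψ γ)) ≤ R}} ≤
        C * m := by
    intro p _
    refine (h x g _ (hm Ψ hΨ p).1).trans ?_
    gcongr
    exact (hm Ψ hΨ p).2
  refine (Finset.sum_le_sum h2).trans ?_
  rw [Finset.sum_const, nsmul_eq_mul, mul_comm]

/-- coarse surjectivity of the extension -/
theorem ext_dense {Ψ : Γ → Γ} {K : ℕ} (hΨ : QIMap S S Ψ K) (g : M.G) :
    ∃ γ : Γ, M.len (g⁻¹ * M.ι (Ψ γ)) ≤ M.a + M.a * K := by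
  obtain ⟨γ, hγ⟩ := hΨ.dense (M.rnd g)
  refine ⟨γ, ?_⟩
  have h1 : g⁻¹ * M.ι (Ψ γ) = (g⁻¹ * M.ι (M.rnd g)) * M.ι ((M.rnd g)⁻¹ * Ψ γ) := by
    rw [map_mul, map_inv]; group
  rw [h1]
  have e1 := M.isLen.mul (g⁻¹ * M.ι (M.rnd g)) (M.ι ((M.rnd g)⁻¹ * Ψ γ))
  have e2 := M.len_rnd' g
  have e3 := M.len_ι ((M.rnd g)⁻¹ * Ψ γ)
  have e4 : (wordLength S ((M.rnd g)⁻¹ * Ψ γ) : ℝ) ≤ K := by exact_mod_cast hγ
  have ha := M.a0
  have e5 := mul_le_mul_of_nonneg_left e4 ha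
  linarith

end BModel

end Crest.Agent.R182.Core
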