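/-
R182, module CAPINST (helper329): the `CapModel` of a `BModel`.
-/
import Mathlib
import Crest.Agent.R182.CapReach
import Crest.Agent.R182.CapModel
import Crest.Agent.R182.CoreV

set_option autoImplicit false
set_option linter.unusedSectionVars false

open MeasureTheory

namespace Crest.Agent.R182.Core

open Crest.GroupTheory Crest.Geometry Crest.Agent.R182.QI Crest.Agent.R182.FinPath
  Crest.Agent.R182.FinRed Crest.Agent.R182.Bnd Nb

variable {Γ : Type*} [Group Γ] {k : ℕ} {S : Set Γ} {π : Γ →* Multiplicative (Fin k → ℤ)}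

namespace BModel

variable (M : BModel S π) {E : Type*} [NormedAddCommGroup E] [NormedSpace ℝ E]

/-- the constants of the `CapModel` of a `BModel`: `T` = identification of the height space,
`V` = the unit ball of moves, `RC` = length of the vertical letters, the length is `s * len`,
the constant `C0` is `s * R0`. -/
structure CapPar (M : BModel S π) (T : (Fin k → ℝ) ≃ₗ[ℝ] E) (V : Set M.NN) (RC : ℝ) where
  s : ℝ
  R0 : ℝ
  one_le_s : 1 ≤ s
  one_le_R0 : 1 ≤ R0
  two_a_le : 2 * M.a ≤ R0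
  ka_le : 2 * k * M.a ≤ R0
  RC_le : RC ≤ R0
  V_meas : MeasurableSet V
  V_le : ∀ n ∈ V, M.len (M.toG n) ≤ R0
  V_pos : volume V ≠ 0
  V_fin : volume V ≠ ⊤
  two_le_s : 2 ≤ s
  T_le : ∀ v, ‖T v‖ ≤ s * ‖v‖
  Ta_le : ∀ v, ‖T v‖ * M.a ≤ s * ‖v‖
  Ts_le : ∀ x, ‖T.symm x‖ ≤ s * ‖x‖
  wt_le : ∀ (i : GI M) (x : E), |wg M i (T.symm x)| ≤ s * ‖x‖
  jj : GI M → Fin M.m
  Λ_jj : ∀ i, M.Λ (jj i) = wg M i
  i0 : GI M → Fin M.r
  i0_ne : ∀ i, M.lδ (jj i) (M.bas (i0 i)) ≠ 0
  δ_le : ∀ i y, M.len y ≤ R0 → ‖M.δ (jj i) y / M.lδ (jj i) (M.bas (i0 i))‖ ≤ s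

theorem exists_capPar (T : (Fin k → ℝ) ≃ₗ[ℝ] E) {V : Set M.NN} (RC : ℝ) (hVm : MeasurableSet V)
    (hVb : Bornology.IsBounded V) (hV0 : volume V ≠ 0) : Nonempty (CapPar M T V RC) := by
  classical
  obtain ⟨ρ, hρ⟩ := hVb.exists_norm_le
  have hfd : FiniteDimensional ℝ E := T.finiteDimensional
  choose jj hjj using fun i : GI M => M.Λ_surj i i.2
  choose i0 hi0 using fun i : GI M => M.lδ_ne (jj i)
  choose c B hcB using fun i : GI M => M.crossed (jj i)
  obtain ⟨Cw, hCw, hwt⟩ := M.exists_wt_le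
  set R0 : ℝ := max (max (max 1 (2 * M.a)) (max (2 * k * M.a) RC)) (M.a * Real.log (2 + ρ)) with hR0
  set t1 : ℝ := ‖LinearMap.toContinuousLinearMap (T : (Fin k → ℝ) →ₗ[ℝ] E)‖ with ht1
  set t2 : ℝ := ‖LinearMap.toContinuousLinearMap (T.symm : E →ₗ[ℝ] (Fin k → ℝ))‖ with ht2
  have hT1 : ∀ v, ‖T v‖ ≤ t1 * ‖v‖ := fun v =>
    (LinearMap.toContinuousLinearMap (T : (Fin k → ℝ) →ₗ[ℝ] E)).le_opNorm v
  have hT2 : ∀ x, ‖T.symm x‖ ≤ t2 * ‖x‖ := fun x =>
    (LinearMap.toContinuousLinearMap (T.symm : E →ₗ[ℝ] (Fin k → ℝ))).le_opNorm x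
  have ht10 : 0 ≤ t1 := norm_nonneg _
  have ht20 : 0 ≤ t2 := norm_nonneg _
  have ha := M.a0
  set b : GI M → ℝ := fun i => |B i * Real.exp (c i * R0)| / ‖M.lδ (jj i) (M.bas (i0 i))‖ with hb
  have hb0 : ∀ i, 0 ≤ b i := fun i => by rw [hb]; positivity
  set s : ℝ := 2 + t1 + t1 * M.a + t2 + Cw * t2 + ∑ i, b i with hs
  have hsum : 0 ≤ ∑ i, b i := Finset.sum_nonneg fun i _ => hb0 i
  have p1 : 0 ≤ t1 * M.a := by positivity
  have p2 : 0 ≤ Cw * t2 := by positivity
  refine ⟨{
    s := s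
    R0 := R0
    one_le_s := by linarith
    one_le_R0 := le_max_of_le_left (le_max_of_le_left (le_max_left _ _))
    two_a_le := le_max_of_le_left (le_max_of_le_left (le_max_right _ _))
    ka_le := le_max_of_le_left (le_max_of_le_right (le_max_left _ _))
    RC_le := le_max_of_le_left (le_max_of_le_right (le_max_right _ _))
    V_meas := hVm
    V_le := ?_
    V_pos := hV0
    V_fin := hVb.measure_lt_top.ne
    two_le_s := by linarith
    T_le := fun v => (hT1 v).trans (mul_le_mul_of_nonneg_right (by linarith) (norm_nonneg v))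
    Ta_le := ?_
    Ts_le := fun x => (hT2 x).trans (mul_le_mul_of_nonneg_right (by linarith) (norm_nonneg x))
    wt_le := ?_
    jj := jj
    Λ_jj := hjj
    i0 := i0
    i0_ne := hi0
    δ_le := ?_ }⟩
  · intro n hn
    refine (M.len_toG_le n).trans ((mul_le_mul_of_nonneg_left (Real.log_le_log (by positivity)
      ?_) ha).trans (le_max_right _ _))
    linarith [hρ n hn]
  · intro v
    have h1 := mul_le_mul_of_nonneg_right (hT1 v) ha
    have h2 : t1 * ‖v‖ * M.a = (t1 * M.a) * ‖v‖ := by ring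
    rw [h2] at h1
    exact h1.trans (mul_le_mul_of_nonneg_right (by linarith) (norm_nonneg v))
  · intro i x
    refine (hwt i (T.symm x)).trans ?_
    have h1 := mul_le_mul_of_nonneg_left (hT2 x) hCw
    rw [← mul_assoc] at h1
    exact h1.trans (mul_le_mul_of_nonneg_right (by linarith) (norm_nonneg x))
  · intro i y hy
    rw [norm_div]
    have h1 := (hcB i).δ_le y
    have h2 : B i * Real.exp (c i * M.len y) ≤ |B i * Real.exp (c i * R0)| := by
      refine le_trans ?_ (le_abs_self _)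
      exact mul_le_mul_of_nonneg_left (Real.exp_le_exp.2
        (mul_le_mul_of_nonneg_left hy (hcB i).c_nonneg)) (hcB i).A_nonneg
    have h3 : ‖M.δ (jj i) y‖ / ‖M.lδ (jj i) (M.bas (i0 i))‖ ≤ b i := by
      rw [hb]
      exact div_le_div_of_nonneg_right (h1.trans h2) (norm_nonneg _)
    refine h3.trans ?_
    have h4 := Finset.single_le_sum (f := b) (fun j _ => hb0 j) (Finset.mem_univ i)
    linarith

/-- the transported generating system -/
noncomputable def gsysT (M : BModel S π) (T : (Fin k → ℝ) ≃ₗ[ℝ] E) : Conv.GenSys (GI M) E where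
  l i := (wg M i) ∘ₗ (T.symm : E →ₗ[ℝ] (Fin k → ℝ))
  B := (gsys M).B
  ne := (gsys M).ne
  one_le := (gsys M).one_le
  tr n hn v := (gsys M).tr n hn (T.symm v)
  sep v hv := by
    have h := (gsys M).sep (T.symm v) fun i => hv i
    exact (LinearEquiv.map_eq_zero_iff T.symm).1 h

theorem gsysT_l (T : (Fin k → ℝ) ≃ₗ[ℝ] E) (i : GI M) (v : Fin k → ℝ) :
    (M.gsysT T).l i (T v) = wg M i v := by
  change wg M i (T.symm (T v)) = _
  rw [LinearEquiv.symm_apply_apply]

theorem gsysT_Gt (T : (Fin k → ℝ) ≃ₗ[ℝ] E) (Z : GI M → ℝ) : (M.gsysT T).Gt Z = (gsys M).Gt Z := rfl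

/-- a vertical staircase along a segment -/
theorem exists_stairs (u : Fin k → ℝ) (m : ℕ) (hm : 0 < m) (hu : ‖u‖ ≤ m) :
    ∃ p : ℕ → M.G, p 0 = 1 ∧ (∀ j, M.len ((p j)⁻¹ * p (j + 1)) ≤ 2 * k * M.a) ∧
      (∀ j, p j ∈ M.C) ∧ ∀ j, ‖M.h (p j) - ((j : ℝ) / m) • u‖ ≤ 1 := by
  have hm0 : (0:ℝ) < m := by exact_mod_cast hm
  -- the lattice points
  let U : ℕ → Fin k → ℤ := fun j i => round (((j : ℝ) / m) * u i)
  have hU0 : U 0 = 0 := by funext i; simp [U]
  have hU : ∀ j i, |(U j i : ℝ) - ((j : ℝ) / m) * u i| ≤ 1 / 2 := by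
    intro j i
    rw [abs_sub_comm]
    exact abs_sub_round _
  have hUd : ∀ j i, ((U (j + 1) i - U j i : ℤ)).natAbs ≤ 2 := by
    intro j i
    have h1 := hU j i
    have h2 := hU (j + 1) i
    have h3 : |u i| ≤ m := by
      have := norm_le_pi_norm u i
      rw [Real.norm_eq_abs] at this
      exact this.trans hu
    have h4 : |((j + 1 : ℕ) : ℝ) / m * u i - (j : ℝ) / m * u i| ≤ 1 := by
      have : ((j + 1 : ℕ) : ℝ) / m * u i - (j : ℝ) / m * u i = u i / m := by
        push_cast; field_simp; ring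
      rw [this, abs_div, abs_of_pos hm0, div_le_one hm0]; exact h3
    have h5 : |((U (j + 1) i - U j i : ℤ) : ℝ)| ≤ 2 := by
      push_cast
      rw [abs_le] at h1 h2 h4 ⊢
      constructor <;> linarith [h1.1, h1.2, h2.1, h2.2, h4.1, h4.2]
    have h6 : |(U (j + 1) i - U j i : ℤ)| ≤ 2 := by exact_mod_cast h5
    rw [Int.abs_eq_natAbs] at h6
    exact_mod_cast h6
  let p : ℕ → M.G := fun j => Nat.rec 1 (fun j g => g * M.t (U (j + 1) - U j)) j
  have hp0 : p 0 = 1 := rfl
  have hps : ∀ j, p (j + 1) = p j * M.t (U (j + 1) - U j) := fun j => rfl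
  have hph : ∀ j i, M.h (p j) i = U j i := by
    intro j
    induction j with
    | zero => intro i; rw [hp0, M.h_one, hU0]; simp
    | succ j ih =>
      intro i
      rw [hps, M.h_mul, Pi.add_apply, ih, M.h_t]
      simp
  have htC : ∀ v, M.t v ∈ M.C := by
    intro v
    obtain ⟨l, hl, _, h⟩ := M.t_list v
    rw [hl]; exact Subgroup.list_prod_mem _ fun s hs => M.CN_le (h s hs).1
  have htl : ∀ v, M.len (M.t v) ≤ n1 v * M.a := by
    intro v
    obtain ⟨l, hl, hlen, h⟩ := M.t_list v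
    rw [hl]
    have key : ∀ l : List M.G, (∀ s ∈ l, M.len s ≤ M.a) → M.len l.prod ≤ l.length * M.a := by
      intro l
      induction l with
      | nil => intro _; simp [M.isLen.one]
      | cons g l ih =>
        intro h
        rw [List.prod_cons]
        have h1 := M.isLen.mul g l.prod
        have h2 := ih fun s hs => h s (List.mem_cons_of_mem _ hs)
        have h3 := h g List.mem_cons_self
        rw [List.length_cons]; push_cast; linarith
    refine (key l fun s hs => (h s hs).2).trans ?_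
    have h1 : (l.length : ℝ) ≤ n1 v := by exact_mod_cast hlen
    exact mul_le_mul_of_nonneg_right h1 M.a0
  refine ⟨p, hp0, ?_, ?_, ?_⟩
  · intro j
    rw [hps, inv_mul_cancel_left]
    refine (htl _).trans ?_
    have h1 : n1 (U (j + 1) - U j) ≤ 2 * k := by
      unfold n1
      calc ∑ i, ((U (j + 1) - U j) i).natAbs ≤ ∑ _i : Fin k, 2 :=
            Finset.sum_le_sum fun i _ => hUd j i
        _ = 2 * k := by simp [mul_comm]
    have h2 : (n1 (U (j + 1) - U j) : ℝ) ≤ 2 * k := by exact_mod_cast h1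
    exact mul_le_mul_of_nonneg_right h2 M.a0
  · intro j
    induction j with
    | zero => exact M.C.one_mem
    | succ j ih => rw [hps]; exact M.C.mul_mem ih (htC _)
  · intro j
    rw [pi_norm_le_iff_of_nonneg zero_le_one]
    intro i
    rw [Pi.sub_apply, hph, Pi.smul_apply, smul_eq_mul, Real.norm_eq_abs]
    exact (hU j i).trans (by norm_num)

/-- products of at most `m` elements of `C` of length `≤ RC` -/
def ClSet (M : BModel S π) (RC : ℝ) (m : ℕ) : Set M.G :=
  {g | ∃ l : List M.G, l.length ≤ m ∧ (∀ s ∈ l, s ∈ M.C ∧ M.len s ≤ RC) ∧ g = l.prod}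

theorem len_list_le {R : ℝ} (l : List M.G) (h : ∀ s ∈ l, M.len s ≤ R) :
    M.len l.prod ≤ l.length * R := by
  induction l with
  | nil => simp [M.isLen.one]
  | cons g l ih =>
    rw [List.prod_cons]
    have h1 := M.isLen.mul g l.prod
    have h2 := ih fun s hs => h s (List.mem_cons_of_mem _ hs)
    have h3 := h g List.mem_cons_self
    rw [List.length_cons]; push_cast; linarith

/-- **the `CapModel` of a `BModel`.** -/
noncomputable def toCap (M : BModel S π) [Countable Γ] {T : (Fin k → ℝ) ≃ₗ[ℝ] E} {V : Set M.NN}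
    {RC : ℝ} (P : CapPar M T V RC) : Cap.CapModel M.G M.NN (GI M) E where
  S := M.gsysT T
  emb := M.toG
  emb_inj := M.toG_injective
  len y := P.s * M.len y
  C0 := P.s * P.R0
  one_le_C0 := by nlinarith [P.one_le_s, P.one_le_R0]
  len_nonneg y := mul_nonneg (by linarith [P.one_le_s]) (M.len_nonneg y)
  len_one := by rw [M.isLen.one, mul_zero]
  len_inv y := by rw [M.isLen.inv]
  len_mul y z := by
    rw [← mul_add]
    exact mul_le_mul_of_nonneg_left (M.isLen.mul y z) (by linarith [P.one_le_s])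
  chain y := by
    obtain ⟨l, hy, hl, hla⟩ := M.letters y
    refine ⟨l.length, fun j => (l.take j).prod, ?_, by simp, by simp [hy], ?_⟩
    · have h1 := M.len_nonneg y
      have h2 := P.one_le_s
      have h3 := P.one_le_R0
      have h4 : M.len y ≤ P.s * M.len y := by nlinarith
      have h5 : 1 ≤ P.s * P.R0 := by nlinarith
      nlinarith [mul_nonneg (by linarith : (0:ℝ) ≤ P.s) h1]
    · intro j hj
      have h1 : (l.take (j + 1)).prod = (l.take j).prod * l[j] := by
        rw [List.take_succ_eq_append_getElem hj, List.prod_append, List.prod_singleton]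
      beta_reduce
      rw [h1, inv_mul_cancel_left]
      have h2 := hla _ (List.getElem_mem hj)
      have h3 := P.two_a_le
      have h4 := M.one_le_a
      exact mul_le_mul_of_nonneg_left (by linarith) (by linarith [P.one_le_s])
  hgt y := T (M.h y)
  hgt_mul y z := by rw [M.h_mul, map_add]
  hgt_le y := by
    have h1 := P.T_le (M.h y)
    have h2 := M.norm_h_le y
    have h3 := P.one_le_s
    have h4 := P.two_a_le
    have h5 := M.len_nonneg y
    have h6 := M.one_le_a
    have h7 : P.s * ‖M.h y‖ ≤ P.s * (M.a * M.len y) := mul_le_mul_of_nonneg_left h2 (by linarith)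
    have h8 : P.s * (M.a * M.len y) ≤ P.s * (P.R0 * M.len y) := by
      gcongr
      linarith
    have h9 : P.s * (P.R0 * M.len y) ≤ P.s * P.R0 * (P.s * M.len y) := by
      have : 0 ≤ P.s * (P.R0 * M.len y) := by
        have := P.one_le_R0
        positivity
      nlinarith
    linarith
  hgt_emb n := by rw [M.h_toG, map_zero]
  l_le i x := by
    have h1 := P.wt_le i x
    have h2 := P.one_le_R0
    have h3 := P.one_le_s
    change |wg M i (T.symm x)| ≤ _
    have h4 : P.s * ‖x‖ ≤ P.s * P.R0 * ‖x‖ := by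
      have : 0 ≤ P.s * ‖x‖ := by positivity
      nlinarith
    linarith
  χ i := M.χ (P.jj i)
  δ i y := M.δ (P.jj i) y / M.lδ (P.jj i) (M.bas (P.i0 i))
  crossed i _ y z := by
    obtain ⟨c, B, h⟩ := M.crossed (P.jj i)
    rw [h.δ_mul, add_div, mul_div_assoc]
  χ_norm i _ y := by
    obtain ⟨c, B, h⟩ := M.crossed (P.jj i)
    rw [h.χ_norm, M.gsysT_l, ← P.Λ_jj]
  χ_emb i _ n := M.χ_one _ _ (M.h_toG n)
  δ_le i _ y hy := by
    have h1 : M.len y ≤ P.R0 := le_of_mul_le_mul_left hy (by linarith [P.one_le_s])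
    have h2 := P.δ_le i y h1
    nlinarith [P.one_le_s, P.one_le_R0]
  exists_u i _ t ht0 ht1 := by
    refine ⟨M.E.symm (t • M.bas (P.i0 i)), ?_, ?_⟩
    · have h1 := M.len_toG_le (M.E.symm (t • M.bas (P.i0 i)))
      have h2 : ‖M.E.symm (t • M.bas (P.i0 i))‖ ≤ 1 := by
        have : (0:ℝ) ≤ 1 := zero_le_one
        refine (pi_norm_le_iff_of_nonneg this).2 fun j => ?_
        rw [M.E_symm_apply, map_smul, Finsupp.smul_apply, Module.Basis.repr_self,
          Finsupp.single_apply, smul_eq_mul, Real.norm_eq_abs]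
        split_ifs
        · rw [mul_one, abs_of_nonneg ht0]; exact ht1
        · simp
      have h3 : Real.log (2 + ‖M.E.symm (t • M.bas (P.i0 i))‖) ≤ 2 := by
        have h4 := Real.log_le_log (by positivity) (by linarith :
          2 + ‖M.E.symm (t • M.bas (P.i0 i))‖ ≤ 3)
        have h5 := Real.log_le_sub_one_of_pos (by norm_num : (0:ℝ) < 3)
        linarith
      have h4 := P.two_a_le
      have h5 := M.one_le_a
      have h6 : M.len (M.toG (M.E.symm (t • M.bas (P.i0 i)))) ≤ P.R0 := by nlinarith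
      exact mul_le_mul_of_nonneg_left h6 (by linarith [P.one_le_s])
    · rw [M.toG_apply, LinearEquiv.apply_symm_apply, M.δ_ex, map_smul, Complex.real_smul,
        mul_div_assoc, div_self (P.i0_ne i), mul_one]
  vert v := by
    set u := T.symm v with hu
    obtain ⟨p, hp0, hstep, _, hh⟩ := M.exists_stairs u (⌈‖u‖⌉₊ + 1) (Nat.succ_pos _)
      ((Nat.le_ceil _).trans (by push_cast; linarith))
    have hTu : T u = v := by rw [hu, LinearEquiv.apply_symm_apply]
    have hs := P.one_le_s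
    have hs2 := P.two_le_s
    have hR := P.one_le_R0
    have key : ∀ j, ‖T (M.h (p j)) - ((j : ℝ) / ((⌈‖u‖⌉₊ + 1 : ℕ) : ℝ)) • v‖ ≤ P.s * P.R0 := by
      intro j
      have h1 : T (M.h (p j)) - ((j : ℝ) / ((⌈‖u‖⌉₊ + 1 : ℕ) : ℝ)) • v =
          T (M.h (p j) - ((j : ℝ) / ((⌈‖u‖⌉₊ + 1 : ℕ) : ℝ)) • u) := by
        rw [map_sub, map_smul, hTu]
      rw [h1]
      have h2 := P.T_le (M.h (p j) - ((j : ℝ) / ((⌈‖u‖⌉₊ + 1 : ℕ) : ℝ)) • u)
      have h3 := hh j
      have h4 : P.s * ‖M.h (p j) - ((j : ℝ) / ((⌈‖u‖⌉₊ + 1 : ℕ) : ℝ)) • u‖ ≤ P.s * 1 :=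
        mul_le_mul_of_nonneg_left h3 (by linarith)
      nlinarith
    refine ⟨⌈‖u‖⌉₊ + 1, p, ?_, hp0, ?_, ?_, ?_⟩
    · push_cast
      have h1 := (Nat.ceil_lt_add_one (norm_nonneg u)).le
      have h2 := P.Ts_le v
      rw [← hu] at h2
      have h3 : P.s * ‖v‖ ≤ P.s * P.R0 * ‖v‖ := by
        have : 0 ≤ P.s * ‖v‖ := by positivity
        nlinarith
      nlinarith
    · have h1 := key (⌈‖u‖⌉₊ + 1)
      rwa [div_self (by positivity), one_smul] at h1
    · intro j _
      exact mul_le_mul_of_nonneg_left ((hstep j).trans P.ka_le) (by linarith)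
    · intro j hj
      refine ⟨(j : ℝ) / ((⌈‖u‖⌉₊ + 1 : ℕ) : ℝ), by positivity, ?_, key j⟩
      rw [div_le_one (by positivity)]
      exact_mod_cast hj
  μ := volume
  cj := M.conjN
  emb_cj := M.toG_conjN
  cj_meas g := (M.continuous_conjN g).measurable
  cj_map g := (M.measurePreserving_conjN g).map_eq
  mul_left n := (measurePreserving_mul_left volume n).map_eq
  mul_right n := (measurePreserving_mul_right volume n).map_eq
  sfin := inferInstance
  rd y := M.ι (M.rnd y)
  rd_le y := by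
    have h1 := M.len_rnd y
    have h2 := P.two_a_le
    have h3 := M.one_le_a
    exact mul_le_mul_of_nonneg_left (by linarith) (by linarith [P.one_le_s])
  rd_meas x g A := by
    have h1 := M.measurable_rnd (β := Prop) (fun γ => M.ι γ ∈ A) x g
    exact measurableSet_setOfPred.2 h1
  ball_le R := by
    obtain ⟨C, hC, h⟩ := M.volume_near R
    refine ⟨C.toReal + 1, by positivity, fun y => ?_⟩
    refine le_trans (measure_mono ?_) ((h y⁻¹ 1).trans ?_)
    · intro n hn
      have h1 : P.s * M.len (y⁻¹ * M.toG n) ≤ R := hn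
      change M.len (y⁻¹ * M.toG n * 1) ≤ R
      rw [mul_one]
      have h2 := M.len_nonneg (y⁻¹ * M.toG n)
      nlinarith [P.one_le_s]
    · rw [← ENNReal.ofReal_toReal hC]
      exact ENNReal.ofReal_le_ofReal (by simp [ENNReal.toReal_ofReal])
  V := V
  V_meas := P.V_meas
  V_le n hn := mul_le_mul_of_nonneg_left (P.V_le n hn) (by linarith [P.one_le_s])
  V_pos := P.V_pos
  V_fin := P.V_fin
  Cl := M.ClSet RC
  one_mem_Cl := ⟨[], by simp, by simp, by simp⟩
  Cl_mono := by
    rintro m m' h g ⟨l, hl, hC, rfl⟩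
    exact ⟨l, hl.trans h, hC, rfl⟩
  Cl_mul := by
    rintro m m' g g' ⟨l, hl, hC, rfl⟩ ⟨l', hl', hC', rfl⟩
    refine ⟨l ++ l', by rw [List.length_append]; omega, ?_, by rw [List.prod_append]⟩
    intro s hs
    rcases List.mem_append.1 hs with h | h
    · exact hC s h
    · exact hC' s h
  Cl_inv := by
    rintro m g ⟨l, hl, hC, rfl⟩
    refine ⟨(l.map (·⁻¹)).reverse, by simpa using hl, ?_, by rw [List.prod_inv_reverse]⟩
    intro s hs
    rw [List.mem_reverse, List.mem_map] at hs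
    obtain ⟨s', hs', rfl⟩ := hs
    exact ⟨M.C.inv_mem (hC s' hs').1, by rw [M.isLen.inv]; exact (hC s' hs').2⟩
  len_Cl := by
    rintro m g ⟨l, hl, hC, rfl⟩
    have h1 := M.len_list_le l (R := P.R0) fun s hs => (hC s hs).2.trans P.RC_le
    have h2 : (l.length : ℝ) ≤ m := by exact_mod_cast hl
    have h3 := P.one_le_s
    have h4 := P.one_le_R0
    calc P.s * M.len l.prod ≤ P.s * (l.length * P.R0) := mul_le_mul_of_nonneg_left h1 (by linarith)
      _ ≤ P.s * (m * P.R0) := by gcongr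
      _ = P.s * P.R0 * m := by ring

end BModel

end Crest.Agent.R182.Core
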