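/-
R182, module HOLE / EL_K (helper656): the abstract one-scale interface of the enlargement lemma.

All heights are divided by the scale `S`.  A base point `x` and a map `Ψ` are fixed;
`f n r s` is the (normalised) height and `g n r s` the unipotent part of
`Ψ (x * n * b_r ^ ⌊s S / m_r⌋)`, `n ∈ N`, `r` a ray, `s ≥ 0` (`b_r` = the leg of the ray `r`,
`h (b_r) ≈ m_r e_r`).
-/
import Mathlib

set_option autoImplicit false

open MeasureTheory Set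
open scoped Pointwise RealInnerProductSpace ENNReal

namespace Crest.Agent.R182.El

/-- finitely many distinct unit directions (Riesz vectors of the rays of generating weights)
with a positive sum rule. -/
structure Frame (R E : Type*) [Fintype R] [NormedAddCommGroup E] [InnerProductSpace ℝ E] where
  e : R → E
  norm_e : ∀ r, ‖e r‖ = 1
  inj : Function.Injective e
  c : R → ℝ
  c_pos : ∀ r, 0 < c r
  sum_e : ∑ r, c r • e r = 0
  span : Submodule.span ℝ (Set.range e) = ⊤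

/-- the constants and functions which do not depend on the scale -/
structure Mdl (R E : Type*) [Fintype R] [NormedAddCommGroup E] [InnerProductSpace ℝ E]
    extends Frame R E where
  /-- logarithmic volume of boxes (`G~`) -/
  G : (R → ℝ) → ℝ
  /-- homogeneous dimension of `N / M_r`, `M_r` = ideal generated by the other rays -/
  D : R → ℝ
  /-- Lipschitz constant (as large as one wants) -/
  κ : ℝ
  /-- doubling constant -/
  C : ℝ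
  /-- exponent of slabs -/
  c0 : ℝ
  /-- number of hops of the bounded generation -/
  J : ℕ
  one_le_κ : 1 ≤ κ
  one_le_C : 1 ≤ C
  c0_pos : 0 < c0
  D_pos : ∀ r, 0 < D r
  G_trans : ∀ (X : R → ℝ) (θ : E), G (fun r => X r + ⟪e r, θ⟫) = G X
  G_shift : ∀ (X : R → ℝ) (s : ℝ), 0 ≤ s → G (fun r => X r + s) ≤ G X + κ * s

variable {R E : Type*} [Fintype R] [NormedAddCommGroup E] [InnerProductSpace ℝ E]

/-- the parameters of the scale: `S` = scale, `ε` = error of all heights, `δ` = proportion of bad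
points, `ω` = non-roundness of the shapes, `q` = number of factors in products, `Adm` = the
(finitely many) admissible shapes. -/
structure Par (R : Type*) where
  S : ℝ
  ε : ℝ
  δ : ℝ
  ω : ℝ
  q : ℕ
  Adm : (R → ℝ) → Prop

/-- admissible lengths of the leg `w` -/
def Par.AdmT (p : Par R) (w : R) (t : ℝ) : Prop := ∃ Z, p.Adm Z ∧ Z w = t

/-- the objects at one scale -/
structure Data (R E N Q : Type*) [Fintype R] [NormedAddCommGroup E] [InnerProductSpace ℝ E]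
    [Group N] [MeasurableSpace N] [Group Q] [MeasurableSpace Q] where
  /-- bi-invariant Haar measure of the source group -/
  μ : Measure N
  /-- the domain where `g` is controlled, e.g. `{‖n‖ ≤ e^{κ S}}` -/
  Dom : Set N
  /-- small source box with sides `Z`: `exp (const • box)` -/
  A : (R → ℝ) → Set N
  /-- big source box with sides `Z` (the one of the box theorem) -/
  Ah : (R → ℝ) → Set N
  /-- moves of size `t` along the ray `r` (all multiples of the ray: `|X_{c r}| ≤ e^{c t S}`) -/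
  U : R → ℝ → Set N
  /-- small moves of size `t` along the ray `r`, with a measure -/
  V : R → ℝ → Set N
  lam : R → ℝ → Measure N
  f : N → R → ℝ → E
  g : N → R → ℝ → Q
  /-- target boxes; first argument: logarithmic size of the zero-weight letters -/
  Bx : ℝ → (R → ℝ) → Set Q
  /-- `{|δ_r| ≤ e^{t S}}` in the target -/
  Ds : R → ℝ → Set Q

variable {N Q : Type*} [Group N] [MeasurableSpace N] [Group Q] [MeasurableSpace Q]

/-- `Z` is a near-round shape. -/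
def NR (ω : ℝ) (Z : R → ℝ) : Prop := ∀ r, |Z r - 1| ≤ ω

/-- the lines of `n` follow the law `(σ, θ)` up to the touching points of the shape `Z` -/
def Good (M : Mdl R E) (d : Data R E N Q) (τ : ℝ) (Z : R → ℝ) (σ : Equiv.Perm R) (θ : E)
    (n : N) : Prop :=
  ∀ r s, 0 ≤ s → s ≤ Z r → ‖d.f n r s - θ - s • M.e (σ r)‖ ≤ τ

/-- `u` is a cheap hop at the end of the leg `(r, s)`. -/
def Cheap (M : Mdl R E) (d : Data R E N Q) (ε : ℝ) (r : R) (s : ℝ) (u : N) : Prop :=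
  ∀ n ∈ d.Dom, n * u ∈ d.Dom → ∀ z, ε ≤ z → ∀ X : R → ℝ,
    (∀ r', ⟪M.e r', d.f n r s⟫ + ε ≤ X r') → (d.g n r s)⁻¹ * d.g (n * u) r s ∈ d.Bx z X

/-- the facts about the model and the map at one scale -/
structure Facts [DecidableEq R] (M : Mdl R E) (d : Data R E N Q) (p : Par R) : Prop where
  S_pos : 0 < p.S
  ε_pos : 0 < p.ε
  S_large : 4 ≤ p.S * p.ε
  δ_pos : 0 < p.δ
  adm : ∀ Z, p.Adm Z → NR p.ω Z
  μ_left : d.μ.IsMulLeftInvariant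
  μ_right : d.μ.IsMulRightInvariant
  μ_sf : SigmaFinite d.μ
  -- source boxes
  A_meas : ∀ Z, p.Adm Z → ∀ k, k ≤ 10 → MeasurableSet ((d.A Z) ^ k)
  A_one : ∀ Z, p.Adm Z → (1 : N) ∈ d.A Z
  A_inv : ∀ Z, p.Adm Z → ∀ n ∈ d.A Z, n⁻¹ ∈ d.A Z
  A_pow : ∀ Z, p.Adm Z → (d.A Z) ^ 10 ⊆ d.Ah Z
  /-- monotonicity, with slack `ε` where the sides differ -/
  A_mono : ∀ Z Z', p.Adm Z → p.Adm Z' → (∀ r, Z r = Z' r ∨ Z r + p.ε ≤ Z' r) → d.A Z ⊆ d.A Z'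
  A_gen : ∀ Z, p.Adm Z → Subgroup.closure (d.A Z) = ⊤
  A_ne : ∀ Z, p.Adm Z → d.μ (d.A Z) ≠ 0
  A_fin : ∀ Z, p.Adm Z → d.μ (d.A Z) ≠ ⊤
  Ah_le : ∀ Z, p.Adm Z → d.μ (d.Ah Z) ≤ ENNReal.ofReal M.C * d.μ (d.A Z)
  /-- bounded generation by cheap hops, partial products stay in the big box -/
  gen : ∀ Z, p.Adm Z → ∀ u ∈ (d.A Z) ^ 10, ∃ l : List (R × N), l.length ≤ M.J ∧
    (∀ x ∈ l, Cheap M d p.ε x.1 (Z x.1) x.2) ∧ (l.map Prod.snd).prod = u ∧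
    ∀ l', l' <+: l → ∀ s ∈ (d.A Z) ^ 5, s * (l'.map Prod.snd).prod ∈ d.Ah Z
  -- moves along a ray
  V_sub : ∀ Z, p.Adm Z → ∀ w, d.V w (Z w) ⊆ d.A Z
  V_U : ∀ w t, p.AdmT w t → ∀ u ∈ d.V w t, u ∈ d.U w t
  V_VU : ∀ w t t', p.AdmT w t → p.AdmT w t' → t ≤ t' →
    ∀ u ∈ d.V w t, ∀ u' ∈ d.V w t', u⁻¹ * u' ∈ d.U w t'
  lam_compl : ∀ w t, p.AdmT w t → d.lam w t (d.V w t)ᶜ = 0
  lam_ne : ∀ w t, p.AdmT w t → d.lam w t univ ≠ 0
  lam_fin : ∀ w t, p.AdmT w t → d.lam w t univ ≠ ⊤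
  /-- the number of cosets of the box met by moves which are longer by `b` -/
  lam_vol : ∀ Z, p.Adm Z → ∀ w b, 0 ≤ b →
    p.Adm (Function.update Z w (Z w + b)) → ∃ m : ℝ≥0∞, m ≠ 0 ∧
    (∀ y : N, d.lam w (Z w + b) {v | y * v⁻¹ ∈ d.A Z} ≤ m) ∧
    m * ENNReal.ofReal (Real.exp (p.S * (M.D w * b - p.ε))) ≤ d.lam w (Z w + b) univ
  -- target boxes
  Bx_meas : ∀ z X, MeasurableSet (d.Bx z X)
  Bx_inv : ∀ z X, ∀ x ∈ d.Bx z X, x⁻¹ ∈ d.Bx z X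
  Bx_mono : ∀ z z' X X', z ≤ z' → X ≤ X' → d.Bx z X ⊆ d.Bx z' X'
  Bx_prod : ∀ z X, p.ε ≤ z → ∀ l : List Q, l.length ≤ p.q → (∀ x ∈ l, x ∈ d.Bx z X) →
    l.prod ∈ d.Bx (z + p.ε) (fun r => X r + p.ε)
  Ds_meas : ∀ r t, MeasurableSet (d.Ds r t)
  Ds_inv : ∀ r t, ∀ x ∈ d.Ds r t, x⁻¹ ∈ d.Ds r t
  Ds_mono : ∀ r t t', t ≤ t' → d.Ds r t ⊆ d.Ds r t'
  Ds_mul : ∀ r t, ∀ x ∈ d.Ds r t, ∀ y ∈ d.Ds r t, x * y ∈ d.Ds r (t + p.ε)
  Bx_Ds : ∀ z X r, z ≤ 1 → d.Bx z X ⊆ d.Ds r (X r + p.ε)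
  -- lines and hops
  g_meas : ∀ r s, Measurable (fun n => d.g n r s)
  g_zero : ∀ n r r', d.g n r 0 = d.g n r' 0
  lip : ∀ n w t s, p.AdmT w t → p.AdmT w s → s ≤ t → ∀ u ∈ d.U w t,
    ‖d.f (n * u) w s - d.f n w s‖ ≤ M.κ * (t - s) + p.ε
  hop : ∀ n ∈ d.Dom, ∀ w t s, p.AdmT w t → p.AdmT w s → s ≤ t → ∀ u ∈ d.U w t,
    n * u ∈ d.Dom → ∀ z, p.ε ≤ z → ∀ X : R → ℝ,
    (∀ r, ⟪M.e r, d.f n w s⟫ + M.κ * (t - s) + p.ε ≤ X r) →
    (d.g n w s)⁻¹ * d.g (n * u) w s ∈ d.Bx z X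
  line : ∀ n ∈ d.Dom, ∀ r s, 0 ≤ s → s ≤ 2 → ∀ z, p.ε ≤ z → ∀ X : R → ℝ,
    (∀ s', 0 ≤ s' → s' ≤ s → ∀ r', ⟪M.e r', d.f n r s'⟫ + p.ε ≤ X r') →
    (d.g n r 0)⁻¹ * d.g n r s ∈ d.Bx z X
  -- volumes
  A_vol : ∀ Z, p.Adm Z → ENNReal.ofReal (Real.exp (p.S * (M.G Z - p.ε))) ≤ d.μ (d.A Z)
  /-- few lines in a slab of a box -/
  slab : ∀ r s, 0 ≤ s → s ≤ 2 → ∀ z, 0 ≤ z → z ≤ 1 →
    ∀ (X : R → ℝ) (y y' : Q) (θ : E) (r' : R) (t : ℝ),
    (∀ r, |X r - ⟪M.e r, θ⟫ - 1| ≤ 2 * p.ω) → 0 ≤ t → t ≤ 1 →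
    d.μ {n | n ∈ d.Dom ∧ d.g n r s ∈ y • d.Bx z X ∧ d.g n r s ∈ y' • d.Ds r' (X r' - t) ∧
        (∀ r', ⟪M.e r', d.f n r s⟫ ≤ X r') ∧ ⟪M.e r', d.f n r s⟫ + t ≤ X r'}
      ≤ ENNReal.ofReal (Real.exp (p.S * (M.G X - M.c0 * t + M.κ * z + p.ε)))
  /-- few lines in a box times a longer box in one direction -/
  stick : ∀ r s, 0 ≤ s → s ≤ 2 → ∀ z, 0 ≤ z → z ≤ 1 →
    ∀ (X X' : R → ℝ) (y : Q) (θ : E) (w : R) (b : ℝ),
    (∀ r', |X r' - ⟪M.e r', θ⟫ - 1| ≤ 2 * p.ω) → 0 ≤ b → b ≤ p.ω →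
    (∀ r, r ≠ w → X' r + M.κ * b ≤ X r) → X' w ≤ X w + b →
    d.μ {n | n ∈ d.Dom ∧ d.g n r s ∈ y • (d.Bx z X * d.Bx z X') ∧
        (∀ r', ⟪M.e r', d.f n r s⟫ ≤ X r') ∧
        (∀ r', r' ≠ w → ⟪M.e r', d.f n r s⟫ + M.κ * b ≤ X r')}
      ≤ ENNReal.ofReal (Real.exp (p.S * (M.G X + M.D w * b + M.κ * z + p.ε)))
  /-- the box theorem at every base point -/
  box : ∀ Z, p.Adm Z → ∀ n₀ : N, ∃ (σ : Equiv.Perm R) (θ : E),
    d.μ {n | n ∈ d.Ah Z ∧ ¬ Good M d p.ε Z σ θ (n₀ * n)} ≤ ENNReal.ofReal p.δ * d.μ (d.A Z)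

/-- The set `K = K_b(Y)`: conditions relating it to the boxes. -/
structure KFacts [DecidableEq R] (M : Mdl R E) (d : Data R E N Q) (p : Par R) (Y : R → ℝ) (b : ℝ)
    (K : Set N) : Prop where
  meas : MeasurableSet K
  ne : d.μ K ≠ 0
  fin : d.μ K ≠ ⊤
  meas_A : MeasurableSet (K * d.A Y)
  dom : K * d.A Y * d.Ah Y ⊆ d.Dom
  dom_V : ∀ (w : R) (t : ℝ), t = 0 ∨ p.ε ≤ t → t = b ∨ t + p.ε ≤ b →
    p.Adm (Function.update Y w (Y w + t)) →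
    K * d.A Y * d.V w (Y w + t) * d.Ah (Function.update Y w (Y w + t)) ⊆ d.Dom
  mul_V : ∀ (w : R) (t : ℝ), t = 0 ∨ p.ε ≤ t → t = b ∨ t + p.ε ≤ b →
    p.Adm (Function.update Y w (Y w + t)) → ∃ m : ℝ≥0∞, m ≠ 0 ∧
    (∀ y : N, d.lam w (Y w + t) {v | y * v⁻¹ ∈ K * d.A Y} ≤ m) ∧
    m * d.μ (K * d.A Y * d.V w (Y w + t) * d.A (Function.update Y w (Y w + t)))
      ≤ ENNReal.ofReal M.C * d.μ K * d.lam w (Y w + t) univ

end Crest.Agent.R182.El
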