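/-
R182, block GEN (helper480): boxes spanned by families of touching words; products, volumes.
-/
import Mathlib
import Crest.Agent.R182.CoreN

set_option autoImplicit false
set_option linter.unusedSectionVars false

namespace Crest.Agent.R182.Gen

open Crest.Agent.R182.Nb Finset

section lie

variable {L : Type*} [LieRing L] [LieAlgebra ℝ L]

theorem mon_map_equiv {σ : Type*} (f : L ≃ₗ[ℝ] L) (hf : ∀ x y, f ⁅x, y⁆ = ⁅f x, f y⁆) (v : σ → L)
    (κ : List σ) : mon (fun i => f (v i)) κ = f (mon v κ) := by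
  induction κ with
  | nil => simp
  | cons i κ ih =>
    by_cases hκ : κ = []
    · subst hκ; simp
    · rw [mon_cons _ i hκ, ih, mon_cons v i hκ, hf]

theorem Bx_map_equiv {σ : Type*} [Fintype σ] {c : ℕ} (f : L ≃ₗ[ℝ] L)
    (hf : ∀ x y, f ⁅x, y⁆ = ⁅f x, f y⁆) {v : σ → L} {t : ℝ} {x : L} (hx : x ∈ Bx c v t) :
    f x ∈ Bx c (fun i => f (v i)) t := by
  obtain ⟨s, hs, rfl⟩ := hx
  refine ⟨s, hs, ?_⟩
  rw [map_sum]
  refine Finset.sum_congr rfl fun κ _ => ?_
  rw [map_smul, mon_map_equiv f hf]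

/-- composition of boxes -/
theorem Bx_comp (σ τ : Type*) [Fintype σ] [Fintype τ] (c : ℕ) (T : ℝ) :
    ∃ D : ℝ, 1 ≤ D ∧ ∀ (v : τ → L) (w : σ → L), Nil c v → (∀ i, w i ∈ Bx c v T) → ∀ x ∈ Bx c w T,
      x ∈ Bx c v D := by
  set T' := max T 1 with hT'
  have hT1 : 1 ≤ T' := le_max_right _ _
  have hC := brC_pos τ c
  refine ⟨∑ _κ ∈ KL σ c, T' * (brC τ c ^ c * T' ^ c) + 1, by
    have : 0 ≤ ∑ _κ ∈ KL σ c, T' * (brC τ c ^ c * T' ^ c) :=
      Finset.sum_nonneg fun _ _ => by positivity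
    linarith, fun v w hN hw x hx => ?_⟩
  obtain ⟨s, hs, rfl⟩ := hx
  refine Bx_mono (le_add_of_nonneg_right zero_le_one) (Bx_sum _ _ _ fun κ hκ => ?_)
  have h1 := mon_comp_mem hN (t := fun _ => T') (fun _ => by positivity)
    (fun i => Bx_mono (le_max_left _ _) (hw i)) κ
  refine Bx_mono ?_ (Bx_smul h1 (s κ))
  have h2 : (κ.map fun _ => T').prod = T' ^ κ.length := by simp
  rw [h2]
  have h3 : brC τ c ^ κ.length ≤ brC τ c ^ c := pow_le_pow_right₀ hC (mem_KL.1 hκ)
  have h4 : T' ^ κ.length ≤ T' ^ c := pow_le_pow_right₀ hT1 (mem_KL.1 hκ)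
  have h5 : |s κ| ≤ T' := (hs κ).trans (le_max_left _ _)
  gcongr

theorem mon_smul {σ : Type*} (v : σ → L) (R : ℝ) (κ : List σ) :
    mon (fun i => R • v i) κ = R ^ κ.length • mon v κ := by
  induction κ with
  | nil => simp
  | cons i κ ih =>
    by_cases hκ : κ = []
    · subst hκ; simp
    · rw [mon_cons _ i hκ, ih, mon_cons v i hκ, smul_lie, lie_smul, smul_smul, List.length_cons,
        pow_succ']

theorem Nil.smul {σ : Type*} {c : ℕ} {v : σ → L} (h : Nil c v) (R : ℝ) :
    Nil c (fun i => R • v i) := fun κ hκ => by rw [mon_smul, h κ hκ, smul_zero]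

/-- the box of the scaled family is contained in the scaled box -/
theorem Bx_smul_fam {σ : Type*} [Fintype σ] {c : ℕ} {v : σ → L} {R t : ℝ} (hR : 1 ≤ R) {x : L}
    (hx : x ∈ Bx c (fun i => R • v i) t) : ∃ y ∈ Bx c v t, x = R ^ c • y := by
  obtain ⟨s, hs, rfl⟩ := hx
  have hR0 : 0 < R := by linarith
  refine ⟨∑ κ ∈ KL σ c, (s κ / R ^ (c - κ.length)) • mon v κ, ⟨fun κ => s κ / R ^ (c - κ.length),
    fun κ => ?_, rfl⟩, ?_⟩
  · rw [abs_div, abs_of_pos (pow_pos hR0 _)]
    refine (div_le_self (abs_nonneg _) (one_le_pow₀ hR)).trans (hs κ)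
  · rw [Finset.smul_sum]
    refine Finset.sum_congr rfl fun κ hκ => ?_
    rw [mon_smul, smul_smul, smul_smul]
    congr 1
    have h1 : R ^ c = R ^ κ.length * R ^ (c - κ.length) := by
      rw [← pow_add]; congr 1; have := mem_KL.1 hκ; omega
    rw [h1]
    field_simp

/-- scaling the family by `R ≥ 1` enlarges the box -/
theorem Bx_le_smul {σ : Type*} [Fintype σ] {c : ℕ} {v : σ → L} {R t : ℝ} (hR : 1 ≤ R) (ht : 0 ≤ t)
    {x : L} (hx : x ∈ Bx c v t) : x ∈ Bx c (fun i => R • v i) t :=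
  Bx_mono (div_le_self ht hR) (Bx_scale hR ht hx)

/-- scaling the family by a factor which absorbs the size -/
theorem Bx_one_smul {σ : Type*} [Fintype σ] {c : ℕ} {v : σ → L} {R t : ℝ} (hR : 1 ≤ R)
    (ht : 0 ≤ t) (h : t ≤ R) {x : L} (hx : x ∈ Bx c v t) : x ∈ Bx c (fun i => R • v i) 1 :=
  Bx_mono (by rw [div_le_one (by linarith)]; exact h) (Bx_scale hR ht hx)

/-- one move changes the box by a constant factor -/
theorem exists_op_fam (St : Nb.Star L) (σ : Type*) [Fintype σ] (c : ℕ) (hL : NilC c L) (T : ℝ) :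
    ∃ D : ℝ, 1 ≤ D ∧ ∀ (v : σ → L), ∀ R : ℝ, 1 ≤ R → ∀ x ∈ Bx c (fun i => R • v i) 1,
      ∀ y ∈ Bx c v T, St.op x y ∈ Bx c (fun i => (D * R) • v i) 1 := by
  obtain ⟨C, hC, h⟩ := St.exists_prod_mem σ c hL
  set T' := max T 1 with hT'
  have hT1 : 1 ≤ T' := le_max_right _ _
  refine ⟨(max (C * 3) 4) * T', ?_, fun v R hR x hx y hy => ?_⟩
  · have : (4:ℝ) ≤ max (C * 3) 4 := le_max_right _ _
    nlinarith
  have hx' : x ∈ Bx c (fun i => (T' * R) • v i) 1 := by
    have := Bx_le_smul hT1 zero_le_one hx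
    simpa only [smul_smul] using this
  have hy' : y ∈ Bx c (fun i => (T' * R) • v i) 1 := by
    have h1 := Bx_one_smul hT1 (by positivity) le_rfl (Bx_mono (le_max_left T 1) hy)
    have h2 := Bx_le_smul hR zero_le_one h1
    simpa only [smul_smul, mul_comm] using h2
  have h3 := h (fun i => (T' * R) • v i) [x, y] (by
    intro z hz
    simp only [List.mem_cons, List.not_mem_nil, or_false] at hz
    rcases hz with rfl | rfl
    · exact hx'
    · exact hy') (max (C * 3) 4) (by
      refine le_trans (le_of_eq ?_) (le_max_left _ _)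
      simp; norm_num)
  rw [Nb.Star.prod_cons, Nb.Star.prod_cons, Nb.Star.prod_nil, St.op_zero] at h3
  have h4 : (4:ℝ) ≤ max (C * 3) 4 := le_max_right _ _
  have h5 := Bx_mono (t := 1) (by
    have h6 : 2 * ((List.length [x, y] : ℕ) : ℝ) = 4 := by norm_num
    rw [div_le_one (by linarith), h6]; exact h4) h3
  simpa only [smul_smul, mul_assoc] using h5

/-- one-parameter subgroups -/
theorem op_smul_smul (St : Nb.Star L) (s t : ℝ) (x : L) :
    St.op (s • x) (t • x) = (s + t) • x := by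
  obtain ⟨a, ha⟩ := LP.exists_sum St.lp
  have hmon : ∀ (s t : ℝ) (κ : List Bool), 2 ≤ κ.length →
      mon (fun b => if b = false then s • x else t • x) κ = 0 := by
    intro s t κ
    induction κ with
    | nil => intro h; simp at h
    | cons i κ ih =>
      intro h
      have hκ : κ ≠ [] := by
        rintro rfl; simp at h
      rw [mon_cons _ i hκ]
      by_cases h2 : 2 ≤ κ.length
      · rw [ih h2, lie_zero]
      · have h1 : κ.length = 1 := by
          have : κ.length ≠ 0 := by simpa using hκ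
          omega
        obtain ⟨j, rfl⟩ := List.length_eq_one_iff.1 h1
        rw [mon_single]
        cases i <;> cases j <;> simp
  have key : ∀ s t : ℝ, St.op (s • x) (t • x) = a [false] • (s • x) + a [true] • (t • x) := by
    intro s t
    have h1 := ha (fun b => if b = false then s • x else t • x)
    simp only [if_true, Bool.true_eq_false, if_false] at h1
    rw [h1]
    have h2 : ∀ κ ∈ a.support, κ ∉ ({[false], [true]} : Finset (List Bool)) →
        a κ • mon (fun b => if b = false then s • x else t • x) κ = 0 := by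
      intro κ _ hκ2
      by_cases h : 2 ≤ κ.length
      · rw [hmon s t κ h, smul_zero]
      · rcases κ with _ | ⟨i, κ⟩
        · simp
        · have : κ = [] := by
            rw [List.length_cons] at h
            exact List.eq_nil_of_length_eq_zero (by omega)
          subst this
          cases i <;> simp at hκ2
    have h3 : ∑ κ ∈ a.support, a κ • mon (fun b => if b = false then s • x else t • x) κ =
        ∑ κ ∈ ({[false], [true]} : Finset (List Bool)),
          a κ • mon (fun b => if b = false then s • x else t • x) κ := by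
      classical
      have e1 : ∑ κ ∈ a.support, a κ • mon (fun b => if b = false then s • x else t • x) κ =
          ∑ κ ∈ a.support ∪ {[false], [true]},
            a κ • mon (fun b => if b = false then s • x else t • x) κ := by
        refine Finset.sum_subset Finset.subset_union_left fun κ _ hκ => ?_
        rw [Finsupp.notMem_support_iff.1 hκ, zero_smul]
      rw [e1]
      refine (Finset.sum_subset Finset.subset_union_right fun κ hκ hκ2 => ?_).symm
      rcases Finset.mem_union.1 hκ with h | h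
      · exact h2 κ h hκ2
      · exact absurd h hκ2
    rw [h3, Finset.sum_pair (by simp)]
    simp
  have e1 := key s 0
  rw [zero_smul, St.op_zero, smul_zero, add_zero] at e1
  have e2 := key 0 t
  rw [zero_smul, St.zero_op, smul_zero, zero_add] at e2
  rw [key, ← e1, ← e2, add_smul]

/-- powers of an element -/
theorem prod_replicate (St : Nb.Star L) (n : ℕ) (x : L) :
    St.prod (List.replicate n x) = (n : ℝ) • x := by
  induction n with
  | zero => simp
  | succ n ih =>
    rw [List.replicate_succ, Nb.Star.prod_cons, ih]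
    have := op_smul_smul St 1 n x
    rw [one_smul] at this
    rw [this]; congr 1; push_cast; ring

end lie

section NN

open Crest.Agent.R182.Core MeasureTheory
open scoped ENNReal Pointwise

variable {Γ : Type*} [Group Γ] {k : ℕ} {S : Set Γ} {π : Γ →* Multiplicative (Fin k → ℤ)}
  (M : BModel S π)

/-- the box in `M.NN` spanned by a family -/
def box {σ : Type*} [Fintype σ] (v : σ → M.L) (t : ℝ) : Set M.NN := {n | M.E n ∈ Bx M.c v t}

variable {σ : Type*} [Fintype σ] {v : σ → M.L} {t : ℝ}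

theorem isCompact_box (ht : 0 ≤ t) : IsCompact (box M v t) := by
  classical
  set f : ({κ // κ ∈ KL σ M.c} → ℝ) → M.NN := fun s => ∑ κ, s κ • M.E.symm (mon v κ.1) with hf
  have hfc : Continuous f := by
    refine continuous_finsetSum _ fun κ _ => ?_
    have h1 : Continuous fun s : {κ // κ ∈ KL σ M.c} → ℝ => s κ := continuous_apply κ
    have h2 : Continuous fun _ : {κ // κ ∈ KL σ M.c} → ℝ => M.E.symm (mon v κ.1) :=
      continuous_const
    exact h1.smul h2
  have hI : IsCompact (Set.Icc (fun _ : {κ // κ ∈ KL σ M.c} => -t) (fun _ => t)) := isCompact_Icc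
  have himg : box M v t = f '' Set.Icc (fun _ => -t) (fun _ => t) := by
    ext n
    constructor
    · rintro ⟨s, hs, hn⟩
      refine ⟨fun κ => s κ.1, ⟨fun κ => (abs_le.1 (hs κ.1)).1, fun κ => (abs_le.1 (hs κ.1)).2⟩, ?_⟩
      have h1 : n = M.E.symm (∑ κ ∈ KL σ M.c, s κ • mon v κ) := by
        rw [← hn, LinearEquiv.symm_apply_apply]
      rw [h1, map_sum, hf]
      simp only [map_smul]
      exact Finset.sum_coe_sort (KL σ M.c) (fun κ => s κ • M.E.symm (mon v κ))
    · rintro ⟨s, ⟨hs1, hs2⟩, rfl⟩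
      refine ⟨fun κ => if h : κ ∈ KL σ M.c then s ⟨κ, h⟩ else 0, fun κ => ?_, ?_⟩
      · beta_reduce
        split_ifs with h
        · exact abs_le.2 ⟨hs1 ⟨κ, h⟩, hs2 ⟨κ, h⟩⟩
        · simpa using ht
      · rw [hf, map_sum]
        simp only [map_smul, LinearEquiv.apply_symm_apply]
        rw [← Finset.sum_coe_sort (KL σ M.c)]
        refine Finset.sum_congr rfl fun κ _ => ?_
        rw [dif_pos κ.2]
  rw [himg]
  exact hI.image hfc

theorem measurableSet_box (ht : 0 ≤ t) : MeasurableSet (box M v t) :=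
  (isCompact_box M ht).isClosed.measurableSet

theorem volume_box_lt_top (ht : 0 ≤ t) : volume (box M v t) < ∞ :=
  (isCompact_box M ht).measure_lt_top

theorem volume_box_smul_le {R : ℝ} (hR : 1 ≤ R) :
    volume (box M (fun i => R • v i) t) ≤ ENNReal.ofReal ((R ^ M.c) ^ M.r) * volume (box M v t) := by
  have hR0 : (0:ℝ) ≤ R := by linarith
  have h1 : box M (fun i => R • v i) t ⊆ (R ^ M.c : ℝ) • box M v t := by
    intro n hn
    obtain ⟨y, hy, hxy⟩ := Bx_smul_fam hR hn
    refine ⟨M.E.symm y, by rw [box, Set.mem_ofPred_eq, LinearEquiv.apply_symm_apply]; exact hy, ?_⟩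
    apply M.E.injective
    change M.E (R ^ M.c • M.E.symm y) = M.E n
    rw [map_smul, LinearEquiv.apply_symm_apply, hxy]
  refine (measure_mono h1).trans (le_of_eq ?_)
  rw [Measure.addHaar_smul]
  have h2 : Module.finrank ℝ M.NN = M.r := Module.finrank_fin_fun ℝ
  rw [h2, abs_of_nonneg (by positivity)]

theorem box_mono {t' : ℝ} (h : t ≤ t') : box M v t ⊆ box M v t' := fun _ hn => Bx_mono h hn

theorem volume_box_le {t' : ℝ} (h : 1 ≤ t' / t) :
    volume (box M v t') ≤ ENNReal.ofReal ((t' / t) ^ M.r) * volume (box M v t) := by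
  have h1 : box M v t' ⊆ (t' / t : ℝ) • box M v t := by
    intro n hn
    have h0 : t' / t ≠ 0 := by linarith
    refine ⟨(t' / t)⁻¹ • n, ?_, ?_⟩
    · have h2 := Bx_smul hn (t' / t)⁻¹
      rw [← map_smul] at h2
      refine Bx_mono (le_of_eq ?_) h2
      rw [abs_of_nonneg (by positivity), inv_div, div_mul_cancel₀]
      rintro rfl
      simp at h0
    · change (t' / t) • (t' / t)⁻¹ • n = n
      rw [smul_smul, mul_inv_cancel₀ h0, one_smul]
  refine (measure_mono h1).trans (le_of_eq ?_)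
  rw [Measure.addHaar_smul]
  have h2 : Module.finrank ℝ M.NN = M.r := Module.finrank_fin_fun ℝ
  rw [h2, abs_of_nonneg (by positivity)]

/-- a ball is contained in the box of the basis vectors -/
theorem exists_ball (hspan : ∀ x : M.L, x ∈ Submodule.span ℝ (Set.range fun κ : List σ => mon v κ))
    : ∃ T : ℝ, 0 ≤ T ∧ ∀ ρ : ℝ, 0 ≤ ρ → ∀ n : M.NN, ‖n‖ ≤ ρ → M.E n ∈ Bx M.c v (T * ρ) := by
  have hN : Nb.Nil M.c v := M.nilC.nil v
  choose T hT0 hT using fun j => exists_mem_Bx hspan hN (M.bas j)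
  refine ⟨∑ j, T j, Finset.sum_nonneg fun j _ => hT0 j, fun ρ hρ n hn => ?_⟩
  rw [M.E_eq_sum, Finset.sum_mul]
  refine Bx_sum _ _ _ fun j _ => Bx_mono ?_ (Bx_smul (hT j) (n j))
  have h1 : |n j| ≤ ρ := (norm_le_pi_norm (f := (n : Fin M.r → ℝ)) j).trans hn
  rw [mul_comm]
  gcongr
  exact hT0 j

/-- the family of a tuple of words -/
noncomputable def fam {R : Type*} (ray : M.gen → R) (g : R → M.G) : M.gen → M.L :=
  fun i => M.Ad (g (ray i)) (M.bas i)

/-- touching tuples of words -/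
def Touch {R : Type*} (ray : M.gen → R) (g : R → M.G) (T : ℝ) : Prop :=
  ∀ r (i : M.gen), M.Ad (g r) (M.bas i) ∈ Bx M.c (fam M ray g) T

/-- the generating basis vectors generate -/
def Spans : Prop :=
  ∀ x : M.L, x ∈ Submodule.span ℝ (Set.range fun κ : List M.gen => mon (fun i : M.gen => M.bas i) κ)

/-- bounded generation of boxes -/
def BGen : Prop := ∀ T : ℝ, ∃ (J : ℕ) (A : ℝ), ∀ v : M.gen → M.L, ∀ x ∈ Bx M.c v T,
  ∃ l : List M.L, l.length ≤ J ∧ (∀ y ∈ l, ∃ i, ∃ r : ℝ, |r| ≤ A ∧ y = r • v i) ∧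
    x = M.star.prod l

theorem E_conjN (g : M.G) (n : M.NN) : M.E (M.conjN g n) = M.Ad g (M.E n) := by
  rw [M.conjN_apply, LinearEquiv.apply_symm_apply]

theorem E_one : M.E (1 : M.NN) = 0 := by rw [M.one_def, map_zero]

theorem E_inv (n : M.NN) : M.E n⁻¹ = - M.E n := by rw [M.inv_def, map_neg]

theorem E_pow (n : M.NN) (m : ℕ) : M.E (n ^ m) = (m : ℝ) • M.E n := by
  induction m with
  | zero => rw [pow_zero, E_one, Nat.cast_zero, zero_smul]
  | succ m ih =>
    rw [pow_succ, M.E_mul, ih]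
    have := op_smul_smul M.star m 1 (M.E n)
    rw [one_smul] at this
    rw [this]; push_cast; rfl

/-- `Ad g` maps the generators into the box of the family `v` -/
def Sm (v : M.gen → M.L) (T : ℝ) (g : M.G) : Prop :=
  ∀ i : M.gen, M.Ad g (M.bas i) ∈ Bx M.c v T

theorem Touch.sm {R : Type*} {ray : M.gen → R} {g : R → M.G} {T : ℝ} (h : Touch M ray g T)
    (r : R) : Sm M (fam M ray g) T (g r) := h r

theorem exists_conj_mem' (hs : Spans M) (T ρ : ℝ) (hρ : 0 ≤ ρ) : ∃ D : ℝ, 1 ≤ D ∧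
    ∀ (v : M.gen → M.L) (g : M.G), Sm M v T g →
      ∀ n : M.NN, ‖n‖ ≤ ρ → M.E (M.conjN g n) ∈ Bx M.c v D := by
  obtain ⟨T0, hT0, hball⟩ := exists_ball M (v := fun i : M.gen => M.bas i) hs
  obtain ⟨D, hD, h⟩ := Bx_comp (L := M.L) M.gen M.gen M.c (max T (T0 * ρ))
  refine ⟨D, hD, fun v g ht n hn => ?_⟩
  rw [E_conjN]
  refine h v (fun i : M.gen => M.Ad g (M.bas i)) (M.nilC.nil _)
    (fun i => Bx_mono (le_max_left _ _) (ht i)) _ ?_
  exact Bx_mono (le_max_right _ _) (Bx_map_equiv (M.Ad g) (M.Ad_lie g) (hball ρ hρ n hn))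

/-- moves change the box by a bounded factor -/
theorem exists_move' (hs : Spans M) (T ρ : ℝ) (hρ : 0 ≤ ρ) : ∃ D : ℝ, 1 ≤ D ∧
    ∀ (v : M.gen → M.L) (g : M.G), Sm M v T g →
      ∀ R' : ℝ, 1 ≤ R' → ∀ q ∈ box M (fun i => R' • v i) 1, ∀ n : M.NN, ‖n‖ ≤ ρ →
        q * M.conjN g n ∈ box M (fun i => (D * R') • v i) 1 := by
  obtain ⟨D1, hD1, h1⟩ := exists_conj_mem' M hs T ρ hρ
  obtain ⟨D, hD, h⟩ := exists_op_fam M.star M.gen M.c M.nilC D1
  refine ⟨D, hD, fun v g ht R' hR' q hq n hn => ?_⟩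
  change M.E (q * M.conjN g n) ∈ Bx M.c (fun i => (D * R') • v i) 1
  rw [M.E_mul]
  exact h _ R' hR' _ hq _ (h1 v g ht n hn)

/-- moves change the box by a bounded factor -/
theorem exists_move (hs : Spans M) (T ρ : ℝ) (hρ : 0 ≤ ρ) : ∃ D : ℝ, 1 ≤ D ∧
    ∀ {R : Type} (ray : M.gen → R) (g : R → M.G), Touch M ray g T →
      ∀ R' : ℝ, 1 ≤ R' → ∀ q ∈ box M (fun i => R' • fam M ray g i) 1, ∀ r (n : M.NN), ‖n‖ ≤ ρ →
        q * M.conjN (g r) n ∈ box M (fun i => (D * R') • fam M ray g i) 1 := by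
  obtain ⟨D, hD, h⟩ := exists_move' M hs T ρ hρ
  exact ⟨D, hD, fun {R} ray g ht R' hR' q hq r n hn => h _ _ (ht.sm M r) R' hR' q hq n hn⟩

/-- bounded generation by unit moves -/
theorem exists_gen_moves (hG : BGen M) (T ρ : ℝ) (hρ : 0 < ρ) : ∃ J : ℕ,
    ∀ {R : Type} (ray : M.gen → R) (g : R → M.G), ∀ n ∈ box M (fam M ray g) T,
      ∃ l : List (R × M.NN), (∀ p ∈ l, ‖p.2‖ ≤ ρ) ∧ l.length ≤ J ∧
        n = (l.map fun p => M.conjN (g p.1) p.2).prod := by
  obtain ⟨J, A, h⟩ := hG T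
  set m : ℕ := ⌈A / ρ⌉₊ + 1 with hm
  have hm0 : (0:ℝ) < m := by rw [hm]; positivity
  have hAm : A / m ≤ ρ := by
    rw [div_le_iff₀ hm0]
    have h1 : A / ρ ≤ ⌈A / ρ⌉₊ := Nat.le_ceil _
    have h2 : A ≤ ⌈A / ρ⌉₊ * ρ := by rwa [div_le_iff₀ hρ] at h1
    rw [hm]; push_cast
    nlinarith
  refine ⟨m * J, fun {R} ray g n hn => ?_⟩
  obtain ⟨l, hl, hlr, hx⟩ := h (fam M ray g) _ hn
  have key : ∀ l : List M.L, (∀ y ∈ l, ∃ i, ∃ r : ℝ, |r| ≤ A ∧ y = r • fam M ray g i) →
      ∃ l' : List (R × M.NN), (∀ p ∈ l', ‖p.2‖ ≤ ρ) ∧ l'.length ≤ m * l.length ∧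
        M.E (l'.map fun p => M.conjN (g p.1) p.2).prod = M.star.prod l := by
    intro l
    induction l with
    | nil => intro _; exact ⟨[], by simp, by simp, by simp [E_one]⟩
    | cons y l ih =>
      intro hl
      obtain ⟨l', h1, h2, h3⟩ := ih fun z hz => hl z (List.mem_cons_of_mem _ hz)
      obtain ⟨i, r, hr, rfl⟩ := hl y List.mem_cons_self
      refine ⟨List.replicate m (ray i, (r / m) • M.E.symm (M.bas i)) ++ l', ?_, ?_, ?_⟩
      · intro p hp
        rcases List.mem_append.1 hp with hp | hp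
        · rw [List.eq_of_mem_replicate hp]
          change ‖(r / m) • M.E.symm (M.bas i)‖ ≤ ρ
          rw [norm_smul]
          have hb : ‖M.E.symm (M.bas i)‖ ≤ 1 := by
            refine (pi_norm_le_iff_of_nonneg zero_le_one).2 fun j => ?_
            rw [M.E_symm_apply, Module.Basis.repr_self, Finsupp.single_apply]
            split_ifs <;> simp
          rw [Real.norm_eq_abs, abs_div, abs_of_pos hm0]
          calc |r| / m * ‖M.E.symm (M.bas i)‖ ≤ |r| / m * 1 := by gcongr
            _ ≤ A / m := by rw [mul_one]; gcongr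
            _ ≤ ρ := hAm
        · exact h1 p hp
      · rw [List.length_append, List.length_replicate, List.length_cons]
        nlinarith
      · rw [List.map_append, List.prod_append, List.map_replicate, List.prod_replicate, M.E_mul,
          h3, ← map_pow, E_conjN, E_pow, map_smul M.E, LinearEquiv.apply_symm_apply, smul_smul,
          mul_div_cancel₀ _ hm0.ne', map_smul]
        rfl
  obtain ⟨l', h1, h2, h3⟩ := key l hlr
  refine ⟨l', h1, h2.trans (Nat.mul_le_mul_left m hl), ?_⟩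
  apply M.E.injective
  rw [h3, hx]

end NN

end Crest.Agent.R182.Gen
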