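/-
R182, block GEN (helper480): a function which is almost constant along typical random moves is
almost constant on a box which is boundedly generated by the moves.
-/
import Mathlib

set_option autoImplicit false
set_option linter.unusedSectionVars false

open MeasureTheory Set
open scoped ENNReal

namespace Crest.Agent.R182.Gen

variable {H : Type*} [Group H] [MeasurableSpace H] [MeasurableMul₂ H] [MeasurableInv H]
  (μ : Measure H) [SFinite μ]

/-- the change of variables `(q, a, b) ↦ (q φ(a⁻¹ b), b, a u)` preserves the measure -/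
theorem lintegral_change [μ.IsMulRightInvariant] {φ : H → H} (hφ : Measurable φ) (u : H)
    {K : H → H → H → ℝ≥0∞} (hK : Measurable fun p : H × H × H => K p.1 p.2.1 p.2.2) :
    ∫⁻ q, ∫⁻ a, ∫⁻ b, K (q * φ (a⁻¹ * b)) b (a * u) ∂μ ∂μ ∂μ =
      ∫⁻ q, ∫⁻ a, ∫⁻ b, K q a b ∂μ ∂μ ∂μ := by
  have hKm : ∀ {α : Type _} [MeasurableSpace α] {f g h : α → H}, Measurable f → Measurable g →
      Measurable h → Measurable fun x => K (f x) (g x) (h x) := fun hf hg hh =>
    hK.comp (hf.prodMk (hg.prodMk hh))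
  calc ∫⁻ q, ∫⁻ a, ∫⁻ b, K (q * φ (a⁻¹ * b)) b (a * u) ∂μ ∂μ ∂μ
      = ∫⁻ a, ∫⁻ q, ∫⁻ b, K (q * φ (a⁻¹ * b)) b (a * u) ∂μ ∂μ ∂μ := by
        rw [lintegral_lintegral_swap]
        refine (Measurable.lintegral_prod_right' (f := fun p : (H × H) × H =>
          K (p.1.1 * φ (p.1.2⁻¹ * p.2)) p.2 (p.1.2 * u)) ?_).aemeasurable
        exact hKm (by fun_prop) (by fun_prop) (by fun_prop)
    _ = ∫⁻ a, ∫⁻ b, ∫⁻ q, K (q * φ (a⁻¹ * b)) b (a * u) ∂μ ∂μ ∂μ := by
        refine lintegral_congr fun a => ?_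
        rw [lintegral_lintegral_swap]
        exact (hKm (by fun_prop) (by fun_prop) (by fun_prop)).aemeasurable
    _ = ∫⁻ a, ∫⁻ b, ∫⁻ q, K q b (a * u) ∂μ ∂μ ∂μ := by
        refine lintegral_congr fun a => lintegral_congr fun b => ?_
        exact lintegral_mul_right_eq_self (μ := μ) (fun q => K q b (a * u)) (φ (a⁻¹ * b))
    _ = ∫⁻ a, ∫⁻ b, ∫⁻ q, K q b a ∂μ ∂μ ∂μ :=
        lintegral_mul_right_eq_self (μ := μ) (fun a => ∫⁻ b, ∫⁻ q, K q b a ∂μ ∂μ) u
    _ = ∫⁻ b, ∫⁻ a, ∫⁻ q, K q b a ∂μ ∂μ ∂μ := by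
        rw [lintegral_lintegral_swap]
        refine (Measurable.lintegral_prod_right' (f := fun p : (H × H) × H =>
          K p.2 p.1.2 p.1.1) ?_).aemeasurable
        exact hKm (by fun_prop) (by fun_prop) (by fun_prop)
    _ = ∫⁻ b, ∫⁻ q, ∫⁻ a, K q b a ∂μ ∂μ ∂μ := by
        refine lintegral_congr fun b => ?_
        rw [lintegral_lintegral_swap]
        exact (hKm (by fun_prop) (by fun_prop) (by fun_prop)).aemeasurable
    _ = ∫⁻ q, ∫⁻ b, ∫⁻ a, K q b a ∂μ ∂μ ∂μ := by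
        rw [lintegral_lintegral_swap]
        refine (Measurable.lintegral_prod_right' (f := fun p : (H × H) × H =>
          K p.1.2 p.1.1 p.2) ?_).aemeasurable
        exact hKm (by fun_prop) (by fun_prop) (by fun_prop)

variable {M : Type*} [PseudoMetricSpace M] [MeasurableSpace M] [OpensMeasurableSpace M]
  [SecondCountableTopology M]

/-- the (unnormalised) amount of bad random moves -/
noncomputable def badInt (Φ : H → M) (δ : ℝ) (φ : H → H) (Q V : Set H) : ℝ≥0∞ :=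
  ∫⁻ q, ∫⁻ a, ∫⁻ b, (Q ×ˢ V ×ˢ V ∩ {p : H × H × H | δ < dist (Φ p.1) (Φ (p.1 * φ (p.2.1⁻¹ * p.2.2)))}).indicator
    (fun _ => 1) (q, a, b) ∂μ ∂μ ∂μ

variable {Φ : H → M} (hΦ : Measurable Φ) {δ : ℝ} {Q Qb V V0 U : Set H}

include hΦ in
theorem measurableSet_bad {φ : H → H} (hφ : Measurable φ) :
    MeasurableSet {p : H × H × H | δ < dist (Φ p.1) (Φ (p.1 * φ (p.2.1⁻¹ * p.2.2)))} := by
  refine measurableSet_lt measurable_const ?_
  exact Measurable.dist (hΦ.comp (by fun_prop)) (hΦ.comp (by fun_prop))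

include hΦ in
/-- **(A1)** from random moves to a fixed move -/
theorem fixed_move [μ.IsMulRightInvariant] {φ : H →* H} (hφ : Measurable φ)
    (hQ : MeasurableSet Q) (hQb : MeasurableSet Qb) (hV : MeasurableSet V)
    (hV0 : MeasurableSet V0) (h0V : V0 ⊆ V)
    (hQQb : Q ⊆ Qb) (hstep : ∀ q ∈ Q, ∀ a ∈ V0, ∀ b ∈ V, q * φ (a⁻¹ * b) ∈ Qb) {u : H}
    (hu : ∀ a ∈ V0, a * u ∈ V) :
    μ {q | q ∈ Q ∧ 2 * δ < dist (Φ q) (Φ (q * φ u))} * μ V0 * μ V ≤ 2 * badInt μ Φ δ φ Qb V := by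
  classical
  set B : Set (H × H × H) := Qb ×ˢ V ×ˢ V ∩
    {p : H × H × H | δ < dist (Φ p.1) (Φ (p.1 * φ (p.2.1⁻¹ * p.2.2)))} with hB
  have hBm : MeasurableSet B := (hQb.prod (hV.prod hV)).inter (measurableSet_bad hΦ hφ)
  set K : H → H → H → ℝ≥0∞ := fun q a b => B.indicator (fun _ => 1) (q, a, b) with hK
  have hKm : Measurable fun p : H × H × H => K p.1 p.2.1 p.2.2 :=
    (measurable_const.indicator hBm)
  have hK2 : Measurable fun p : H × H × H => K (p.1 * φ (p.2.1⁻¹ * p.2.2)) p.2.2 (p.2.1 * u) :=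
    hKm.comp (g := fun p : H × H × H => K p.1 p.2.1 p.2.2)
      (f := fun p : H × H × H => (p.1 * φ (p.2.1⁻¹ * p.2.2), p.2.2, p.2.1 * u)) (by fun_prop)
  have hKI : badInt μ Φ δ φ Qb V = ∫⁻ q, ∫⁻ a, ∫⁻ b, K q a b ∂μ ∂μ ∂μ := rfl
  set Bd : Set H := {q | q ∈ Q ∧ 2 * δ < dist (Φ q) (Φ (q * φ u))} with hBd
  have hBdm : MeasurableSet Bd := hQ.inter
    (measurableSet_lt measurable_const (Measurable.dist hΦ (hΦ.comp (by fun_prop))))
  have key : ∀ q ∈ Bd, ∀ a ∈ V0, ∀ b ∈ V,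
      1 ≤ K q a b + K (q * φ (a⁻¹ * b)) b (a * u) := by
    intro q hq a ha b hb
    obtain ⟨hq1, hq2⟩ := hq
    by_cases h1 : δ < dist (Φ q) (Φ (q * φ (a⁻¹ * b)))
    · have : (q, a, b) ∈ B := ⟨⟨hQQb hq1, h0V ha, hb⟩, h1⟩
      have h2 : K q a b = 1 := by simp only [hK, Set.indicator_of_mem this]
      rw [h2]; exact le_self_add
    · have h3 : δ < dist (Φ (q * φ (a⁻¹ * b))) (Φ (q * φ (a⁻¹ * b) * φ (b⁻¹ * (a * u)))) := by
        have e1 : q * φ (a⁻¹ * b) * φ (b⁻¹ * (a * u)) = q * φ u := by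
          rw [mul_assoc, ← map_mul]
          congr 2
          group
        rw [e1]
        have := dist_triangle (Φ q) (Φ (q * φ (a⁻¹ * b))) (Φ (q * φ u))
        push Not at h1
        linarith
      have : (q * φ (a⁻¹ * b), b, a * u) ∈ B := ⟨⟨hstep q hq1 a ha b hb, hb, hu a ha⟩, h3⟩
      have h2 : K (q * φ (a⁻¹ * b)) b (a * u) = 1 := by simp only [hK, Set.indicator_of_mem this]
      rw [h2]; exact le_add_self
  have hl : μ Bd * μ V0 * μ V ≤
      ∫⁻ q, ∫⁻ a, ∫⁻ b, (K q a b + K (q * φ (a⁻¹ * b)) b (a * u)) ∂μ ∂μ ∂μ := by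
    calc μ Bd * μ V0 * μ V = ∫⁻ q in Bd, ∫⁻ a in V0, ∫⁻ b in V, 1 ∂μ ∂μ ∂μ := by
          simp only [lintegral_const, Measure.restrict_apply MeasurableSet.univ, Set.univ_inter,
            one_mul]
          ring
      _ ≤ ∫⁻ q in Bd, ∫⁻ a in V0, ∫⁻ b in V, (K q a b + K (q * φ (a⁻¹ * b)) b (a * u))
            ∂μ ∂μ ∂μ := by
          refine setLIntegral_mono' hBdm fun q hq => ?_
          refine setLIntegral_mono' hV0 fun a ha => ?_
          exact setLIntegral_mono' hV fun b hb => key q hq a ha b hb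
      _ ≤ _ := by
          refine (lintegral_mono' Measure.restrict_le_self fun q => ?_)
          refine (lintegral_mono' Measure.restrict_le_self fun a => ?_)
          exact (lintegral_mono' Measure.restrict_le_self fun b => le_rfl)
  have hr : ∫⁻ q, ∫⁻ a, ∫⁻ b, (K q a b + K (q * φ (a⁻¹ * b)) b (a * u)) ∂μ ∂μ ∂μ =
      2 * badInt μ Φ δ φ Qb V := by
    have e : ∀ q a, ∫⁻ b, (K q a b + K (q * φ (a⁻¹ * b)) b (a * u)) ∂μ =
        ∫⁻ b, K q a b ∂μ + ∫⁻ b, K (q * φ (a⁻¹ * b)) b (a * u) ∂μ := fun q a =>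
      lintegral_add_left (hKm.comp (by fun_prop : Measurable fun b : H => (q, a, b))) _
    simp only [e]
    have m1 : Measurable fun p : H × H => ∫⁻ b, K p.1 p.2 b ∂μ :=
      Measurable.lintegral_prod_right' (f := fun p : (H × H) × H => K p.1.1 p.1.2 p.2)
        (hKm.comp (by fun_prop : Measurable fun p : (H × H) × H => (p.1.1, p.1.2, p.2)))
    have e2 : ∀ q, ∫⁻ a, (∫⁻ b, K q a b ∂μ + ∫⁻ b, K (q * φ (a⁻¹ * b)) b (a * u) ∂μ) ∂μ =
        ∫⁻ a, ∫⁻ b, K q a b ∂μ ∂μ + ∫⁻ a, ∫⁻ b, K (q * φ (a⁻¹ * b)) b (a * u) ∂μ ∂μ := fun q =>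
      lintegral_add_left (m1.comp (by fun_prop : Measurable fun a : H => (q, a))) _
    simp only [e2]
    have m2 : Measurable fun q : H => ∫⁻ a, ∫⁻ b, K q a b ∂μ ∂μ :=
      Measurable.lintegral_prod_right' (f := fun p : H × H => ∫⁻ b, K p.1 p.2 b ∂μ) m1
    rw [lintegral_add_left m2, lintegral_change μ hφ u hKm, hKI, two_mul]
  exact hl.trans hr.le

/-- **(A2)** a chain of fixed moves -/
theorem chain [μ.IsMulRightInvariant] {ι : Type*} (φ : ι → H → H) (Qs : ℕ → Set H) {J : ℕ}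
    {ε : ℝ≥0∞} (hQs : ∀ i < J, ∀ q ∈ Qs i, ∀ r, ∀ u ∈ U, q * φ r u ∈ Qs (i + 1))
    (hbad : ∀ i < J, ∀ r, ∀ u ∈ U,
      μ {q | q ∈ Qs i ∧ 2 * δ < dist (Φ q) (Φ (q * φ r u))} ≤ ε)
    (l : List (ι × H)) (hl : ∀ p ∈ l, p.2 ∈ U) (i : ℕ) (hi : i + l.length ≤ J) :
    μ {q | q ∈ Qs i ∧ 2 * δ * l.length < dist (Φ q) (Φ (q * (l.map fun p => φ p.1 p.2).prod))} ≤
      l.length * ε := by
  induction l generalizing i with
  | nil => simp
  | cons p l ih =>
    have hi' : i < J := by simp only [List.length_cons] at hi; omega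
    have hp : p.2 ∈ U := hl p List.mem_cons_self
    have ih' := ih (fun p hp => hl p (List.mem_cons_of_mem _ hp)) (i + 1)
      (by simp only [List.length_cons] at hi; omega)
    set y := (l.map fun p => φ p.1 p.2).prod with hy
    have hsub : {q | q ∈ Qs i ∧ 2 * δ * (p :: l).length <
          dist (Φ q) (Φ (q * ((p :: l).map fun p => φ p.1 p.2).prod))} ⊆
        {q | q ∈ Qs i ∧ 2 * δ < dist (Φ q) (Φ (q * φ p.1 p.2))} ∪
        (fun q => q * φ p.1 p.2) ⁻¹' {q | q ∈ Qs (i + 1) ∧ 2 * δ * l.length < dist (Φ q) (Φ (q * y))} := by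
      rintro q ⟨hq1, hq2⟩
      by_cases h : 2 * δ < dist (Φ q) (Φ (q * φ p.1 p.2))
      · exact Or.inl ⟨hq1, h⟩
      · refine Or.inr ⟨hQs i hi' q hq1 p.1 p.2 hp, ?_⟩
        push Not at h
        rw [List.map_cons, List.prod_cons, ← mul_assoc, List.length_cons, Nat.cast_succ, ← hy] at hq2
        have := dist_triangle (Φ q) (Φ (q * φ p.1 p.2)) (Φ (q * φ p.1 p.2 * y))
        linarith
    calc _ ≤ _ := measure_mono hsub
      _ ≤ _ := measure_union_le _ _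
      _ ≤ ε + l.length * ε := by
          refine add_le_add (hbad i hi' p.1 p.2 hp) ?_
          rw [measure_preimage_mul_right]
          exact ih'
      _ = _ := by rw [List.length_cons, Nat.cast_succ]; ring

include hΦ in
/-- **(A2)** Fubini: almost constant along every `y ∈ Q⁻¹ Q` implies almost constant. -/
theorem one_of_chain [μ.IsMulLeftInvariant] {Y : Set H} {κ : ℝ} {ε : ℝ≥0∞}
    (hQ : MeasurableSet Q) (hY : ∀ q ∈ Q, ∀ q' ∈ Q, q⁻¹ * q' ∈ Y) (hbad : ∀ y ∈ Y,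
      μ {q | q ∈ Q ∧ κ < dist (Φ q) (Φ (q * y))} ≤ ε) {A : Set H} (hA : A ⊆ Q)
    (hA0 : μ A ≠ 0) (hA1 : μ A ≠ ∞) :
    ∃ q₀ ∈ A, μ {q | q ∈ Q ∧ κ < dist (Φ q₀) (Φ q)} * μ A ≤ ε * μ Y := by
  classical
  set B : Set (H × H) := Q ×ˢ Q ∩ {p : H × H | κ < dist (Φ p.1) (Φ p.2)} with hB
  have hBm : MeasurableSet B := (hQ.prod hQ).inter (measurableSet_lt measurable_const
    (Measurable.dist (hΦ.comp (by fun_prop)) (hΦ.comp (by fun_prop))))
  set K : H → H → ℝ≥0∞ := fun q q' => B.indicator (fun _ => 1) (q, q') with hK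
  have hKm : Measurable fun p : H × H => K p.1 p.2 := measurable_const.indicator hBm
  have hf : ∀ q ∈ Q, μ {q' | q' ∈ Q ∧ κ < dist (Φ q) (Φ q')} = ∫⁻ q', K q q' ∂μ := by
    intro q hq
    have hm : MeasurableSet {q' | q' ∈ Q ∧ κ < dist (Φ q) (Φ q')} := hQ.inter
      (measurableSet_lt measurable_const (Measurable.dist measurable_const hΦ))
    rw [← lintegral_indicator_one hm]
    refine lintegral_congr fun q' => ?_
    by_cases h : q' ∈ {q' | q' ∈ Q ∧ κ < dist (Φ q) (Φ q')}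
    · have h2 : (q, q') ∈ B := ⟨⟨hq, h.1⟩, h.2⟩
      simp only [hK, Set.indicator_of_mem h, Set.indicator_of_mem h2, Pi.one_apply]
    · have h2 : (q, q') ∉ B := fun h3 => h ⟨h3.1.2, h3.2⟩
      simp only [hK, Set.indicator_of_notMem h, Set.indicator_of_notMem h2]
  have hI : ∫⁻ q in A, ∫⁻ q', K q q' ∂μ ∂μ ≤ ε * μ Y := by
    calc ∫⁻ q in A, ∫⁻ q', K q q' ∂μ ∂μ ≤ ∫⁻ q, ∫⁻ q', K q q' ∂μ ∂μ :=
          lintegral_mono' Measure.restrict_le_self fun q => le_rfl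
      _ = ∫⁻ q, ∫⁻ y, K q (q * y) ∂μ ∂μ := by
          refine lintegral_congr fun q => ?_
          exact (lintegral_mul_left_eq_self (μ := μ) (fun q' => K q q') q).symm
      _ = ∫⁻ y, ∫⁻ q, K q (q * y) ∂μ ∂μ := by
          rw [lintegral_lintegral_swap]
          exact (hKm.comp (by fun_prop : Measurable fun p : H × H => (p.1, p.1 * p.2))).aemeasurable
      _ ≤ ∫⁻ y, (toMeasurable μ Y).indicator (fun _ => ε) y ∂μ := by
          refine lintegral_mono fun y => ?_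
          by_cases hy : y ∈ toMeasurable μ Y
          · rw [Set.indicator_of_mem hy]
            by_cases hy' : y ∈ Y
            · refine le_trans ?_ (hbad y hy')
              have hm : MeasurableSet {q | q ∈ Q ∧ κ < dist (Φ q) (Φ (q * y))} := hQ.inter
                (measurableSet_lt measurable_const (Measurable.dist hΦ (hΦ.comp (by fun_prop))))
              rw [← lintegral_indicator_one hm]
              refine lintegral_mono fun q => ?_
              by_cases h : q ∈ {q | q ∈ Q ∧ κ < dist (Φ q) (Φ (q * y))}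
              · rw [Set.indicator_of_mem h]
                simp only [hK]
                exact Set.indicator_le_self' (by simp) _
              · have h2 : (q, q * y) ∉ B := fun h3 => h ⟨h3.1.1, h3.2⟩
                simp only [hK, Set.indicator_of_notMem h2]
                exact bot_le
            · have : ∀ q, K q (q * y) = 0 := fun q => by
                have h2 : (q, q * y) ∉ B := fun h3 => hy' (by
                  have := hY q h3.1.1 (q * y) h3.1.2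
                  rwa [inv_mul_cancel_left] at this)
                simp only [hK, Set.indicator_of_notMem h2]
              simp [this]
          · have : ∀ q, K q (q * y) = 0 := fun q => by
              have h2 : (q, q * y) ∉ B := fun h3 => hy (subset_toMeasurable μ Y (by
                have := hY q h3.1.1 (q * y) h3.1.2
                rwa [inv_mul_cancel_left] at this))
              simp only [hK, Set.indicator_of_notMem h2]
            simp [this]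
      _ = ε * μ Y := by
          rw [lintegral_indicator_const (measurableSet_toMeasurable μ Y), measure_toMeasurable]
  obtain ⟨q₀, hq₀, h⟩ := exists_le_setLAverage hA0 hA1
    (f := fun q => ∫⁻ q', K q q' ∂μ) (hKm.lintegral_prod_right').aemeasurable
  refine ⟨q₀, hq₀, ?_⟩
  rw [hf q₀ (hA hq₀)]
  rw [setLAverage_eq] at h
  calc _ ≤ (∫⁻ q in A, ∫⁻ q', K q q' ∂μ ∂μ) / μ A * μ A := by gcongr
    _ = ∫⁻ q in A, ∫⁻ q', K q q' ∂μ ∂μ := ENNReal.div_mul_cancel hA0 hA1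
    _ ≤ _ := hI

include hΦ in
/-- **(A)** one law on a boundedly generated box -/
theorem one_law [μ.IsMulLeftInvariant] [μ.IsMulRightInvariant] {ι : Type*} (φ : ι → H →* H)
    (hφ : ∀ r, Measurable (φ r)) {Qs : ℕ → Set H} {J : ℕ} (hQm : ∀ i, MeasurableSet (Qs i))
    (hQbm : MeasurableSet Qb) (hQsb : ∀ i ≤ J, Qs i ⊆ Qb) (hV : MeasurableSet V)
    (hV0 : MeasurableSet V0) (h0V : V0 ⊆ V) (hU : ∀ u ∈ U, ∀ a ∈ V0, a * u ∈ V)
    (hs1 : ∀ i < J, ∀ q ∈ Qs i, ∀ r, ∀ a ∈ V0, ∀ b ∈ V, q * φ r (a⁻¹ * b) ∈ Qb)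
    (hs2 : ∀ i < J, ∀ q ∈ Qs i, ∀ r, ∀ u ∈ U, q * φ r u ∈ Qs (i + 1))
    (hgen : ∀ q ∈ Qs 0, ∀ q' ∈ Qs 0, ∃ l : List (ι × H), (∀ p ∈ l, p.2 ∈ U) ∧ l.length ≤ J ∧
      q' = q * (l.map fun p => φ p.1 p.2).prod) (hδ : 0 ≤ δ) {ε : ℝ≥0∞}
    (hbad : ∀ r, badInt μ Φ δ (φ r) Qb V ≤ ε) (hV00 : μ V0 ≠ 0) (hV01 : μ V0 ≠ ∞)
    (hV1 : μ V ≠ ∞) {A : Set H} (hA : A ⊆ Qs 0) (hA0 : μ A ≠ 0) (hA1 : μ A ≠ ∞) :
    ∃ q₀ ∈ A, μ {q | q ∈ Qs 0 ∧ 2 * δ * J < dist (Φ q₀) (Φ q)} * μ A * (μ V0 * μ V) ≤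
      J * (2 * ε) * μ Qb := by
  have hVne : μ V ≠ 0 := fun h => hV00 (measure_mono_null h0V h)
  have hm0 : μ V0 * μ V ≠ 0 := mul_ne_zero hV00 hVne
  have hm1 : μ V0 * μ V ≠ ∞ := ENNReal.mul_ne_top hV01 hV1
  have h1 : ∀ i < J, ∀ r, ∀ u ∈ U,
      μ {q | q ∈ Qs i ∧ 2 * δ < dist (Φ q) (Φ (q * φ r u))} ≤ 2 * ε / (μ V0 * μ V) := by
    intro i hi r u hu
    rw [ENNReal.le_div_iff_mul_le (Or.inl hm0) (Or.inl hm1), ← mul_assoc]
    exact (fixed_move μ hΦ (hφ r) (hQm i) hQbm hV hV0 h0V (hQsb i hi.le)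
      (fun q hq a ha b hb => hs1 i hi q hq r a ha b hb) (hU u hu)).trans
      (mul_le_mul_right (hbad r) 2)
  set Y : Set H := {y | ∃ l : List (ι × H), (∀ p ∈ l, p.2 ∈ U) ∧ l.length ≤ J ∧
    y = (l.map fun p => φ p.1 p.2).prod} with hY
  have h2 : ∀ y ∈ Y, μ {q | q ∈ Qs 0 ∧ 2 * δ * J < dist (Φ q) (Φ (q * y))} ≤
      J * (2 * ε / (μ V0 * μ V)) := by
    rintro y ⟨l, hl, hlJ, rfl⟩
    have h3 := chain (Φ := Φ) (δ := δ) μ (fun r => φ r) Qs (U := U) hs2 h1 l hl 0 (by omega)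
    calc _ ≤ μ {q | q ∈ Qs 0 ∧ 2 * δ * l.length <
          dist (Φ q) (Φ (q * (l.map fun p => φ p.1 p.2).prod))} := by
          refine measure_mono fun q hq => ⟨hq.1, lt_of_le_of_lt ?_ hq.2⟩
          have : (l.length : ℝ) ≤ J := by exact_mod_cast hlJ
          nlinarith
      _ ≤ l.length * (2 * ε / (μ V0 * μ V)) := h3
      _ ≤ _ := by gcongr
  have hne : A.Nonempty := by
    by_contra h
    rw [Set.not_nonempty_iff_eq_empty] at h
    exact hA0 (by rw [h, measure_empty])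
  obtain ⟨q₁, hq₁⟩ := hne
  have hlist : ∀ (l : List (ι × H)), (∀ p ∈ l, p.2 ∈ U) → ∀ i, i + l.length ≤ J → ∀ q ∈ Qs i,
      q * (l.map fun p => φ p.1 p.2).prod ∈ Qs (i + l.length) := by
    intro l
    induction l with
    | nil => intro _ i _ q hq; simpa using hq
    | cons p l ih =>
      intro hl i hi q hq
      rw [List.length_cons] at hi
      rw [List.map_cons, List.prod_cons, ← mul_assoc, List.length_cons]
      have := ih (fun p hp => hl p (List.mem_cons_of_mem _ hp)) (i + 1) (by omega)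
        (q * φ p.1 p.2) (hs2 i (by omega) q hq p.1 p.2 (hl p List.mem_cons_self))
      rwa [show i + (l.length + 1) = i + 1 + l.length by ring]
  have hYQ : μ Y ≤ μ Qb := by
    calc μ Y = μ ((fun y => q₁⁻¹ * y) ⁻¹' Y) := (measure_preimage_mul μ q₁⁻¹ Y).symm
      _ ≤ μ Qb := by
        refine measure_mono ?_
        rintro y ⟨l, hl, hlJ, h⟩
        have h4 := hlist l hl 0 (by omega) q₁ (hA hq₁)
        rw [← h, mul_inv_cancel_left] at h4
        exact hQsb _ (by omega) h4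
  obtain ⟨q₀, hq₀, h⟩ := one_of_chain μ hΦ (κ := 2 * δ * J) (Q := Qs 0) (Y := Y) (hQm 0)
    (fun q hq q' hq' => by
      obtain ⟨l, hl, hlJ, rfl⟩ := hgen q hq q' hq'
      exact ⟨l, hl, hlJ, by rw [inv_mul_cancel_left]⟩) h2 hA hA0 hA1
  refine ⟨q₀, hq₀, ?_⟩
  calc _ ≤ J * (2 * ε / (μ V0 * μ V)) * μ Y * (μ V0 * μ V) := by gcongr
    _ = J * ((2 * ε) / (μ V0 * μ V) * (μ V0 * μ V)) * μ Y := by ring
    _ = J * (2 * ε) * μ Y := by rw [ENNReal.div_mul_cancel hm0 hm1]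
    _ ≤ _ := by gcongr

end Crest.Agent.R182.Gen
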