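/-
R182, module STAR, part (2): the geometry of the star argument in a Euclidean space.

`Eb` is a finite set of unit vectors which spans and satisfies a strictly positive linear relation.
A map `φ` which is `1`-Lipschitz up to a small error and which, at every base point `x0` and at every
radius `r ∈ [r0, r1]`, reaches in every direction `e ∈ Eb` the full extent `r` on the star
`x0 + [0,r] Eb`, is affine up to a small error, with linear part permuting `Eb`.
-/
import Mathlib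

set_option autoImplicit false

namespace Crest.Agent.R182.Star

open Finset

section Geo

variable {E : Type*} [NormedAddCommGroup E] [InnerProductSpace ℝ E]

/-- `φ` is `1`-Lipschitz on `S` up to the additive error `δ`. -/
def LipOn (φ : E → E) (S : Set E) (δ : ℝ) : Prop :=
  ∀ v ∈ S, ∀ w ∈ S, ‖φ v - φ w‖ ≤ ‖v - w‖ + δ

/-- the star property at the base point `x0` and radius `r`. -/
def StarAt (φ : E → E) (Eb : Finset E) (x0 : E) (r δ : ℝ) : Prop :=
  ∀ e ∈ Eb, ∃ e' ∈ Eb, ∃ t : ℝ, 0 ≤ t ∧ t ≤ r ∧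
    r - δ ≤ inner ℝ e (φ (x0 + t • e') - φ x0)

/-- near-maximisers of a linear functional on a ball. -/
theorem near_of_inner {w e : E} (he : ‖e‖ = 1) {r δ : ℝ} (hr : 0 ≤ r) (hδ : 0 ≤ δ)
    (h1 : ‖w‖ ≤ r + δ) (h2 : r - δ ≤ inner ℝ e w) :
    ‖w - r • e‖ ^ 2 ≤ 4 * r * δ + δ ^ 2 := by
  have hexp : ‖w - r • e‖ ^ 2 = ‖w‖ ^ 2 - 2 * r * inner ℝ e w + r ^ 2 := by
    rw [norm_sub_sq_real, inner_smul_right, norm_smul, he, real_inner_comm]
    simp only [Real.norm_eq_abs, mul_one, sq_abs]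
    ring
  have h3 : ‖w‖ ^ 2 ≤ (r + δ) ^ 2 := by
    have := norm_nonneg w
    nlinarith
  rw [hexp]
  nlinarith

/-- the star property upgraded to exact directions. -/
theorem star_dir {φ : E → E} {Eb : Finset E} (hu : ∀ e ∈ Eb, ‖e‖ = 1) {S : Set E} {δ r : ℝ}
    {x0 : E} (hδ : 0 ≤ δ) (hr : 0 ≤ r) (hlip : LipOn φ S δ)
    (hS : ∀ e ∈ Eb, ∀ t : ℝ, 0 ≤ t → t ≤ r → x0 + t • e ∈ S)
    (hst : StarAt φ Eb x0 r δ) :
    ∀ e ∈ Eb, ∃ e' ∈ Eb, ‖φ (x0 + r • e') - φ x0 - r • e‖ ^ 2 ≤ 16 * r * δ + 16 * δ ^ 2 := by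
  intro e he
  obtain ⟨e', he', t, ht0, htr, hin⟩ := hst e he
  refine ⟨e', he', ?_⟩
  have hx0 : x0 ∈ S := by
    have := hS e' he' 0 le_rfl hr
    simpa using this
  have hxt : x0 + t • e' ∈ S := hS e' he' t ht0 htr
  have hxr : x0 + r • e' ∈ S := hS e' he' r hr le_rfl
  have hnorm : ∀ s : ℝ, 0 ≤ s → ‖(x0 + s • e') - x0‖ = s := by
    intro s hs
    rw [add_sub_cancel_left, norm_smul, hu e' he', mul_one, Real.norm_of_nonneg hs]
  have h1 : ‖φ (x0 + t • e') - φ x0‖ ≤ t + δ := by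
    have := hlip _ hxt _ hx0
    rwa [hnorm t ht0] at this
  have h2 : ‖φ (x0 + r • e') - φ x0‖ ≤ r + δ := by
    have := hlip _ hxr _ hx0
    rwa [hnorm r hr] at this
  have h3 : ‖φ (x0 + r • e') - φ (x0 + t • e')‖ ≤ (r - t) + δ := by
    have := hlip _ hxr _ hxt
    have h4 : ‖(x0 + r • e') - (x0 + t • e')‖ = r - t := by
      rw [add_sub_add_left_eq_sub, ← sub_smul, norm_smul, hu e' he', mul_one,
        Real.norm_of_nonneg (by linarith)]
    rwa [h4] at this
  have h5 : inner ℝ e (φ (x0 + t • e') - φ x0) ≤ ‖φ (x0 + t • e') - φ x0‖ := by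
    have := real_inner_le_norm e (φ (x0 + t • e') - φ x0)
    rwa [hu e he, one_mul] at this
  have h6 : r - t ≤ 2 * δ := by linarith
  have h7 : - ‖φ (x0 + r • e') - φ (x0 + t • e')‖ ≤
      inner ℝ e (φ (x0 + r • e') - φ (x0 + t • e')) := by
    have := abs_real_inner_le_norm e (φ (x0 + r • e') - φ (x0 + t • e'))
    rw [hu e he, one_mul] at this
    exact neg_le_of_abs_le this
  have h8 : inner ℝ e (φ (x0 + r • e') - φ x0) =
      inner ℝ e (φ (x0 + r • e') - φ (x0 + t • e')) + inner ℝ e (φ (x0 + t • e') - φ x0) := by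
    rw [← inner_add_right]; congr 1; abel
  have h9 : r - 4 * δ ≤ inner ℝ e (φ (x0 + r • e') - φ x0) := by
    rw [h8]; linarith
  have := near_of_inner (hu e he) hr (by linarith : (0 : ℝ) ≤ 4 * δ)
    (by linarith : ‖φ (x0 + r • e') - φ x0‖ ≤ r + 4 * δ) h9
  calc _ ≤ 4 * r * (4 * δ) + (4 * δ) ^ 2 := this
    _ = _ := by ring

/-- the property of a permutation to describe the star of `φ` at `(x0, r)`. -/
def IsStar (φ : E → E) (Eb : Finset E) (x0 : E) (r δ : ℝ) (σ : Equiv.Perm Eb) : Prop :=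
  ∀ e : Eb, ‖φ (x0 + r • (e : E)) - φ x0 - r • (σ e : E)‖ ≤ δ

/-- the star property gives a permutation. -/
theorem exists_isStar {φ : E → E} {Eb : Finset E} {δ r sep : ℝ}
    {x0 : E} (hsep : ∀ e ∈ Eb, ∀ e' ∈ Eb, e ≠ e' → sep ≤ ‖e - e'‖)
    (hr : 0 ≤ r) (hsm : 2 * δ < r * sep)
    (hst : ∀ e ∈ Eb, ∃ e' ∈ Eb, ‖φ (x0 + r • e') - φ x0 - r • e‖ ≤ δ) :
    ∃ σ : Equiv.Perm Eb, IsStar φ Eb x0 r δ σ := by
  classical
  choose! τ hτ1 hτ2 using hst
  let f : Eb → Eb := fun e => ⟨τ e, hτ1 e e.2⟩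
  have hinj : Function.Injective f := by
    intro a b hab
    have hab' : τ a = τ b := congrArg Subtype.val hab
    by_contra hne
    have hne' : (a : E) ≠ b := fun h => hne (Subtype.ext h)
    have h1 := hτ2 a a.2
    have h2 := hτ2 b b.2
    rw [hab'] at h1
    have h3 : ‖r • (a : E) - r • (b : E)‖ ≤ 2 * δ := by
      have : r • (a : E) - r • (b : E) = (φ (x0 + r • τ b) - φ x0 - r • (b : E)) -
          (φ (x0 + r • τ b) - φ x0 - r • (a : E)) := by abel
      rw [this]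
      calc _ ≤ ‖φ (x0 + r • τ b) - φ x0 - r • (b : E)‖ + ‖φ (x0 + r • τ b) - φ x0 - r • (a : E)‖ :=
            norm_sub_le _ _
        _ ≤ δ + δ := add_le_add h2 h1
        _ = 2 * δ := by ring
    rw [← smul_sub, norm_smul, Real.norm_of_nonneg hr] at h3
    have h4 := mul_le_mul_of_nonneg_left (hsep a a.2 b b.2 hne') hr
    linarith
  have hbij : Function.Bijective f := Finite.injective_iff_bijective.mp hinj
  let g : Equiv.Perm Eb := Equiv.ofBijective f hbij
  refine ⟨g.symm, fun e => ?_⟩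
  have h1 := hτ2 (g.symm e) (g.symm e).2
  have h2 : τ (g.symm e : E) = (e : E) := by
    have : g (g.symm e) = e := g.apply_symm_apply e
    exact congrArg Subtype.val this
  rw [h2] at h1
  exact h1

/-- the permutation is locally constant. -/
theorem isStar_unique {φ : E → E} {Eb : Finset E} {δ δ' r r' sep : ℝ}
    {x x' : E} {S : Set E} (hsep : ∀ e ∈ Eb, ∀ e' ∈ Eb, e ≠ e' → sep ≤ ‖e - e'‖)
    (hr : 0 ≤ r) (hu : ∀ e ∈ Eb, ‖e‖ = 1)
    (hlip : LipOn φ S δ')
    (hx : x ∈ S) (hx' : x' ∈ S) (hxr : ∀ e ∈ Eb, x + r • e ∈ S) (hxr' : ∀ e ∈ Eb, x' + r' • e ∈ S)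
    (hsm : 2 * ‖x - x'‖ + 2 * |r - r'| + 2 * δ' + 2 * δ < r * sep)
    {σ σ' : Equiv.Perm Eb} (h : IsStar φ Eb x r δ σ) (h' : IsStar φ Eb x' r' δ σ') :
    σ = σ' := by
  refine Equiv.ext fun e => ?_
  by_contra hne
  have hne' : (σ e : E) ≠ σ' e := fun hh => hne (Subtype.ext hh)
  have h1 := h e
  have h2 := h' e
  have h3 : ‖φ (x + r • (e : E)) - φ (x' + r' • (e : E))‖ ≤ ‖x - x'‖ + |r - r'| + δ' := by
    refine (hlip _ (hxr e e.2) _ (hxr' e e.2)).trans ?_
    have : (x + r • (e : E)) - (x' + r' • (e : E)) = (x - x') + (r - r') • (e : E) := by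
      rw [sub_smul]; abel
    rw [this]
    have h5 : ‖(x - x') + (r - r') • (e : E)‖ ≤ ‖x - x'‖ + |r - r'| := by
      refine (norm_add_le _ _).trans ?_
      rw [norm_smul, hu e e.2, mul_one, Real.norm_eq_abs]
    linarith
  have h4 : ‖φ x - φ x'‖ ≤ ‖x - x'‖ + δ' := hlip _ hx _ hx'
  have h5 : ‖r • (σ e : E) - r' • (σ' e : E)‖ ≤ 2 * ‖x - x'‖ + |r - r'| + 2 * δ' + 2 * δ := by
    have : r • (σ e : E) - r' • (σ' e : E) =
        (φ (x + r • (e : E)) - φ (x' + r' • (e : E))) - (φ x - φ x')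
        - (φ (x + r • (e : E)) - φ x - r • (σ e : E))
        + (φ (x' + r' • (e : E)) - φ x' - r' • (σ' e : E)) := by abel
    rw [this]
    calc _ ≤ ‖(φ (x + r • (e : E)) - φ (x' + r' • (e : E))) - (φ x - φ x')
        - (φ (x + r • (e : E)) - φ x - r • (σ e : E))‖ + ‖φ (x' + r' • (e : E)) - φ x' - r' • (σ' e : E)‖ :=
          norm_add_le _ _
      _ ≤ (‖(φ (x + r • (e : E)) - φ (x' + r' • (e : E))) - (φ x - φ x')‖
        + ‖φ (x + r • (e : E)) - φ x - r • (σ e : E)‖) + ‖φ (x' + r' • (e : E)) - φ x' - r' • (σ' e : E)‖ := by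
          gcongr; exact norm_sub_le _ _
      _ ≤ ((‖φ (x + r • (e : E)) - φ (x' + r' • (e : E))‖ + ‖φ x - φ x'‖)
        + ‖φ (x + r • (e : E)) - φ x - r • (σ e : E)‖) + ‖φ (x' + r' • (e : E)) - φ x' - r' • (σ' e : E)‖ := by
          gcongr; exact norm_sub_le _ _
      _ ≤ (((‖x - x'‖ + |r - r'| + δ') + (‖x - x'‖ + δ')) + δ) + δ := by gcongr
      _ = _ := by ring
  have h6 : r * sep - |r - r'| ≤ ‖r • (σ e : E) - r' • (σ' e : E)‖ := by
    have : r • (σ e : E) - r' • (σ' e : E) = r • ((σ e : E) - σ' e) - (r' - r) • (σ' e : E) := by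
      rw [smul_sub, sub_smul]; abel
    rw [this]
    have h7 : ‖r • ((σ e : E) - σ' e)‖ - ‖(r' - r) • (σ' e : E)‖ ≤
        ‖r • ((σ e : E) - σ' e) - (r' - r) • (σ' e : E)‖ := norm_sub_norm_le _ _
    have h8 : ‖(r' - r) • (σ' e : E)‖ = |r - r'| := by
      rw [norm_smul, hu _ (σ' e).2, mul_one, Real.norm_eq_abs, abs_sub_comm]
    have h9 : r * sep ≤ ‖r • ((σ e : E) - σ' e)‖ := by
      rw [norm_smul, Real.norm_of_nonneg hr]
      exact mul_le_mul_of_nonneg_left (hsep _ (σ e).2 _ (σ' e).2 hne') hr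
    linarith
  linarith

/-- chain lemma: a function on `[0,1]` that does not change over distances `≤ κ` is constant. -/
theorem chain_const {α : Type*} (f : ℝ → α) {κ : ℝ} (hκ : 0 < κ)
    (h : ∀ s ∈ Set.Icc (0 : ℝ) 1, ∀ s' ∈ Set.Icc (0 : ℝ) 1, |s - s'| ≤ κ → f s = f s') :
    f 0 = f 1 := by
  obtain ⟨n, hn⟩ := exists_nat_gt (1 / κ)
  have hn0 : (0 : ℝ) < n := lt_trans (by positivity) hn
  have hn1 : 1 / (n : ℝ) ≤ κ := by
    rw [div_le_iff₀ hn0]
    rw [div_lt_iff₀ hκ] at hn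
    linarith
  have key : ∀ k : ℕ, k ≤ n → f 0 = f ((k : ℝ) / n) := by
    intro k
    induction k with
    | zero => intro _; simp
    | succ k ih =>
      intro hk
      rw [ih (by omega)]
      have hk' : ((k : ℝ) + 1) ≤ n := by exact_mod_cast hk
      apply h
      · constructor
        · positivity
        · rw [div_le_one hn0]; linarith
      · constructor
        · positivity
        · rw [div_le_one hn0]; push_cast; linarith
      · have : (k : ℝ) / n - ((k + 1 : ℕ) : ℝ) / n = - (1 / n) := by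
          push_cast; field_simp; ring
        rw [this, abs_neg, abs_of_nonneg (by positivity)]
        exact hn1
  have := key n le_rfl
  rwa [div_self (ne_of_gt hn0)] at this

/-- constancy of the permutation over a convex set of base points and an interval of radii. -/
theorem exists_const {φ : E → E} {Eb : Finset E} {δ δ' r0 r1 sep : ℝ} {S1 S2 : Set E}
    (hsep : ∀ e ∈ Eb, ∀ e' ∈ Eb, e ≠ e' → sep ≤ ‖e - e'‖) (hsep0 : 0 ≤ sep)
    (hu : ∀ e ∈ Eb, ‖e‖ = 1) (hr0 : 0 ≤ r0) (hr01 : r0 ≤ r1)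
    (hlip : LipOn φ S2 δ') (hconv : Convex ℝ S1) (hne : S1.Nonempty)
    (h12 : ∀ v ∈ S1, ∀ y : E, ‖y - v‖ ≤ r1 → y ∈ S2)
    (hsm : 2 * δ' + 2 * δ < r0 * sep)
    (hst : ∀ x ∈ S1, ∀ r, r0 ≤ r → r ≤ r1 → ∃ σ : Equiv.Perm Eb, IsStar φ Eb x r δ σ) :
    ∃ σ : Equiv.Perm Eb, ∀ x ∈ S1, ∀ r, r0 ≤ r → r ≤ r1 → IsStar φ Eb x r δ σ := by
  classical
  choose! σ hσ using hst
  obtain ⟨x0, hx0⟩ := hne
  refine ⟨σ x0 r0, fun x hx r hr hr' => ?_⟩
  suffices h : σ x0 r0 = σ x r by rw [h]; exact hσ x hx r hr hr'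
  set X : ℝ → E := fun s => x0 + s • (x - x0) with hX
  set R : ℝ → ℝ := fun s => r0 + s * (r - r0) with hR
  set κ : ℝ := (r0 * sep - (2 * δ' + 2 * δ)) / (4 * (‖x - x0‖ + |r - r0| + 1)) with hκ
  have hpos : 0 < ‖x - x0‖ + |r - r0| + 1 := by positivity
  have hκ0 : 0 < κ := by rw [hκ]; apply div_pos (by linarith) (by positivity)
  have hXmem : ∀ s ∈ Set.Icc (0 : ℝ) 1, X s ∈ S1 := by
    intro s hs
    have := hconv.add_smul_sub_mem hx0 hx hs
    exact this
  have hRmem : ∀ s ∈ Set.Icc (0 : ℝ) 1, r0 ≤ R s ∧ R s ≤ r1 := by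
    intro s hs
    simp only [hR]
    constructor
    · have := mul_nonneg hs.1 (sub_nonneg.mpr hr); linarith
    · have := mul_le_mul_of_nonneg_right hs.2 (sub_nonneg.mpr hr); linarith
  have hmem2 : ∀ s ∈ Set.Icc (0 : ℝ) 1, ∀ e ∈ Eb, X s + R s • e ∈ S2 := by
    intro s hs e he
    apply h12 _ (hXmem s hs)
    rw [add_sub_cancel_left, norm_smul, hu e he, mul_one, Real.norm_of_nonneg
      (hr0.trans (hRmem s hs).1)]
    exact (hRmem s hs).2
  have hmem2' : ∀ s ∈ Set.Icc (0 : ℝ) 1, X s ∈ S2 := by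
    intro s hs
    apply h12 _ (hXmem s hs)
    rw [sub_self, norm_zero]
    exact hr0.trans hr01
  have hmain := chain_const (fun s => σ (X s) (R s)) hκ0 (by
    intro s hs s' hs' hss
    refine isStar_unique hsep (hr0.trans (hRmem s hs).1) hu hlip (hmem2' s hs) (hmem2' s' hs')
      (hmem2 s hs) (hmem2 s' hs') ?_ (hσ _ (hXmem s hs) _ (hRmem s hs).1 (hRmem s hs).2)
      (hσ _ (hXmem s' hs') _ (hRmem s' hs').1 (hRmem s' hs').2)
    have h1 : ‖X s - X s'‖ = |s - s'| * ‖x - x0‖ := by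
      simp only [hX]
      rw [add_sub_add_left_eq_sub, ← sub_smul, norm_smul, Real.norm_eq_abs]
    have h2 : |R s - R s'| = |s - s'| * |r - r0| := by
      simp only [hR]
      rw [add_sub_add_left_eq_sub, ← sub_mul, abs_mul]
    rw [h1, h2]
    have h3 : |s - s'| * (‖x - x0‖ + |r - r0| + 1) ≤ κ * (‖x - x0‖ + |r - r0| + 1) :=
      mul_le_mul_of_nonneg_right hss hpos.le
    have h4 : κ * (‖x - x0‖ + |r - r0| + 1) = (r0 * sep - (2 * δ' + 2 * δ)) / 4 := by
      rw [hκ]; field_simp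
    have h5 : r0 * sep ≤ R s * sep := mul_le_mul_of_nonneg_right (hRmem s hs).1 hsep0
    have h6 := abs_nonneg (s - s')
    nlinarith)
  have e0 : X 0 = x0 := by simp [hX]
  have e1 : X 1 = x := by simp [hX]
  have f0 : R 0 = r0 := by simp [hR]
  have f1 : R 1 = r := by simp [hR]
  simp only [e0, e1, f0, f1] at hmain
  exact hmain

/-- linear combination of the vectors of `Eb`. -/
noncomputable def comb (Eb : Finset E) : (Eb → ℝ) →ₗ[ℝ] E :=
  Fintype.linearCombination ℝ (fun e : Eb => (e : E))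

theorem comb_apply (Eb : Finset E) (c : Eb → ℝ) : comb Eb c = ∑ e : Eb, c e • (e : E) := by
  simp [comb, Fintype.linearCombination_apply]

/-- linear combination of the permuted vectors. -/
noncomputable def combσ (Eb : Finset E) (σ : Equiv.Perm Eb) : (Eb → ℝ) →ₗ[ℝ] E :=
  Fintype.linearCombination ℝ (fun e : Eb => (σ e : E))

theorem combσ_apply (Eb : Finset E) (σ : Equiv.Perm Eb) (c : Eb → ℝ) :
    combσ Eb σ c = ∑ e : Eb, c e • (σ e : E) := by
  simp [combσ, Fintype.linearCombination_apply]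

/-- one path: from `v`, along nonnegative multiples of the vectors of `Eb`. -/
theorem path_est {φ : E → E} {Eb : Finset E} {δ δ' r0 r1 δ2 : ℝ} {S1 S2 : Set E}
    (hu : ∀ e ∈ Eb, ‖e‖ = 1) (hlip : LipOn φ S2 δ')
    (h12 : ∀ v ∈ S1, ∀ y : E, ‖y - v‖ ≤ r1 → y ∈ S2)
    {σ : Equiv.Perm Eb} (hσ : ∀ x ∈ S1, ∀ r, r0 ≤ r → r ≤ r1 → IsStar φ Eb x r δ σ)
    (hδ2 : δ ≤ δ2) (hδ2' : 2 * r0 + δ' ≤ δ2)
    {v : E} (hv : ∀ y : E, ‖y - v‖ ≤ r1 → y ∈ S1) {c : Eb → ℝ} (hc : ∀ e, 0 ≤ c e)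
    (hsum : ∑ e, c e ≤ r1) (T : Finset Eb) :
    ‖φ (v + ∑ e ∈ T, c e • (e : E)) - φ v - ∑ e ∈ T, c e • (σ e : E)‖ ≤ T.card * δ2 := by
  classical
  induction T using Finset.induction_on with
  | empty => simp
  | insert e T he ih =>
    rw [Finset.sum_insert he, Finset.sum_insert he, Finset.card_insert_of_notMem he]
    set y := v + ∑ e ∈ T, c e • (e : E) with hy
    have hce : c e ≤ r1 := (Finset.single_le_sum (fun i _ => hc i) (Finset.mem_univ e)).trans hsum
    have hyS : y ∈ S1 := by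
      apply hv
      rw [hy, add_sub_cancel_left]
      refine (norm_sum_le _ _).trans ?_
      refine le_trans (le_of_eq ?_) ((Finset.sum_le_univ_sum_of_nonneg (s := T) hc).trans hsum)
      refine Finset.sum_congr rfl fun i _ => ?_
      rw [norm_smul, hu i i.2, mul_one, Real.norm_of_nonneg (hc i)]
    have hstep : ‖φ (y + c e • (e : E)) - φ y - c e • (σ e : E)‖ ≤ δ2 := by
      rcases le_or_gt r0 (c e) with h | h
      · exact (hσ y hyS (c e) h hce e).trans hδ2
      · have h1 : ‖φ (y + c e • (e : E)) - φ y‖ ≤ c e + δ' := by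
          have := hlip (y + c e • (e : E)) (h12 y hyS _ (by
            rw [add_sub_cancel_left, norm_smul, hu e e.2, mul_one, Real.norm_of_nonneg (hc e)]
            exact hce)) y (h12 y hyS _ (by
              rw [sub_self, norm_zero]; exact (hc e).trans hce))
          rwa [add_sub_cancel_left, norm_smul, hu e e.2, mul_one, Real.norm_of_nonneg (hc e)]
            at this
        have h2 : ‖c e • (σ e : E)‖ = c e := by
          rw [norm_smul, hu _ (σ e).2, mul_one, Real.norm_of_nonneg (hc e)]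
        have h3 := norm_sub_le (φ (y + c e • (e : E)) - φ y) (c e • (σ e : E))
        linarith
    have heq : φ (v + (c e • (e : E) + ∑ e ∈ T, c e • (e : E))) - φ v
        - (c e • (σ e : E) + ∑ e ∈ T, c e • (σ e : E)) =
        (φ (y + c e • (e : E)) - φ y - c e • (σ e : E)) +
        (φ y - φ v - ∑ e ∈ T, c e • (σ e : E)) := by
      have : v + (c e • (e : E) + ∑ e ∈ T, c e • (e : E)) = y + c e • (e : E) := by
        rw [hy]; abel
      rw [this]; abel
    rw [heq]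
    push_cast
    calc _ ≤ _ := norm_add_le _ _
      _ ≤ δ2 + T.card * δ2 := add_le_add hstep ih
      _ = _ := by ring

omit [InnerProductSpace ℝ E] in
/-- separation constant of a finite set. -/
theorem exists_sep (Eb : Finset E) :
    ∃ sep : ℝ, 0 < sep ∧ ∀ e ∈ Eb, ∀ e' ∈ Eb, e ≠ e' → sep ≤ ‖e - e'‖ := by
  classical
  set D := (Eb ×ˢ Eb).filter (fun p => p.1 ≠ p.2) with hD
  rcases D.eq_empty_or_nonempty with h | h
  · refine ⟨1, one_pos, fun e he e' he' hne => ?_⟩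
    have : (e, e') ∈ D := by
      rw [hD, Finset.mem_filter]; exact ⟨Finset.mem_product.mpr ⟨he, he'⟩, hne⟩
    rw [h] at this
    simp at this
  · refine ⟨D.inf' h (fun p => ‖p.1 - p.2‖), ?_, fun e he e' he' hne => ?_⟩
    · rw [Finset.lt_inf'_iff]
      intro p hp
      rw [hD, Finset.mem_filter] at hp
      exact norm_pos_iff.mpr (sub_ne_zero.mpr hp.2)
    · have hmem : (e, e') ∈ D := by
        rw [hD, Finset.mem_filter]; exact ⟨Finset.mem_product.mpr ⟨he, he'⟩, hne⟩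
      exact Finset.inf'_le (fun p : E × E => ‖p.1 - p.2‖) hmem

theorem comb_surjective {Eb : Finset E} (hspan : Submodule.span ℝ (Eb : Set E) = ⊤) :
    Function.Surjective (comb Eb) := by
  rw [← LinearMap.range_eq_top, comb, Fintype.range_linearCombination]
  convert hspan
  ext x
  simp

variable [FiniteDimensional ℝ E]

/-- nonnegative decompositions with a bound. -/
theorem exists_decomp {Eb : Finset E} (hspan : Submodule.span ℝ (Eb : Set E) = ⊤)
    {c0 : Eb → ℝ} (hc0 : ∀ e, 0 < c0 e) (hrel : comb Eb c0 = 0) :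
    ∃ C0 : ℝ, 1 ≤ C0 ∧ ∀ v : E, ∃ c : Eb → ℝ, (∀ e, 0 ≤ c e) ∧ comb Eb c = v ∧
      ∑ e, c e ≤ C0 * ‖v‖ := by
  classical
  obtain ⟨g, hg⟩ := (comb Eb).exists_rightInverse_of_surjective
    (LinearMap.range_eq_top.mpr (comb_surjective hspan))
  have hcont : Continuous g := g.continuous_of_finiteDimensional
  set g' : E →L[ℝ] (Eb → ℝ) := ⟨g, hcont⟩ with hg'
  have hgb : ∀ v e, |g v e| ≤ ‖g'‖ * ‖v‖ := by
    intro v e
    have h1 : ‖g' v‖ ≤ ‖g'‖ * ‖v‖ := g'.le_opNorm v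
    have h2 : ‖g' v e‖ ≤ ‖g' v‖ := norm_le_pi_norm (g' v) e
    exact h2.trans h1
  -- a lower bound for `c0`
  obtain ⟨m, hm0, hm⟩ : ∃ m : ℝ, 0 < m ∧ ∀ e, m ≤ c0 e := by
    by_cases hE : Nonempty Eb
    · refine ⟨Finset.univ.inf' Finset.univ_nonempty c0, ?_, fun e => Finset.inf'_le _ (Finset.mem_univ e)⟩
      rw [Finset.lt_inf'_iff]; exact fun e _ => hc0 e
    · exact ⟨1, one_pos, fun e => (hE ⟨e⟩).elim⟩
  have hsum0 : 0 ≤ ∑ e, c0 e := Finset.sum_nonneg fun e _ => (hc0 e).le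
  refine ⟨1 + (Fintype.card Eb * ‖g'‖ + ‖g'‖ / m * ∑ e, c0 e), ?_, fun v => ?_⟩
  · have : 0 ≤ (Fintype.card Eb * ‖g'‖ + ‖g'‖ / m * ∑ e, c0 e) := by positivity
    linarith
  refine ⟨fun e => g v e + (‖g'‖ * ‖v‖ / m) * c0 e, fun e => ?_, ?_, ?_⟩
  · have h1 := hgb v e
    have h2 : ‖g'‖ * ‖v‖ ≤ (‖g'‖ * ‖v‖ / m) * c0 e := by
      rw [div_mul_eq_mul_div, le_div_iff₀ hm0]
      exact mul_le_mul_of_nonneg_left (hm e) (by positivity)
    have h3 := neg_abs_le (g v e)
    show 0 ≤ g v e + (‖g'‖ * ‖v‖ / m) * c0 e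
    linarith
  · have : (fun e => g v e + (‖g'‖ * ‖v‖ / m) * c0 e) = g v + (‖g'‖ * ‖v‖ / m) • c0 := by
      ext e; simp
    rw [this, map_add, map_smul, hrel, smul_zero, add_zero]
    exact LinearMap.congr_fun hg v
  · rw [Finset.sum_add_distrib, ← Finset.mul_sum]
    have h1 : ∑ e, g v e ≤ Fintype.card Eb * ‖g'‖ * ‖v‖ := by
      calc ∑ e, g v e ≤ ∑ _e : Eb, ‖g'‖ * ‖v‖ :=
            Finset.sum_le_sum fun e _ => (le_abs_self _).trans (hgb v e)
        _ = _ := by rw [Finset.sum_const, nsmul_eq_mul, Finset.card_univ]; ring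
    have h2 : (‖g'‖ * ‖v‖ / m) * ∑ e, c0 e = (‖g'‖ / m * ∑ e, c0 e) * ‖v‖ := by ring
    have h3 := norm_nonneg v
    nlinarith

/-- threshold: approximate relations are exact. -/
theorem exists_thr {Eb : Finset E} {c0 : Eb → ℝ} (hc0 : ∀ e, 0 < c0 e) (hrel : comb Eb c0 = 0)
    {r1 : ℝ} (hr1 : 0 < r1) :
    ∃ κ : ℝ, 0 < κ ∧ ∀ σ : Equiv.Perm Eb,
      (∀ c : Eb → ℝ, (∀ e, 0 ≤ c e) → comb Eb c = 0 → ∑ e, c e ≤ r1 → ‖combσ Eb σ c‖ ≤ κ) →
      ∀ c : Eb → ℝ, comb Eb c = 0 → combσ Eb σ c = 0 := by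
  classical
  have key : ∀ σ : Equiv.Perm Eb, ∃ κ : ℝ, 0 < κ ∧
      ((∀ c : Eb → ℝ, (∀ e, 0 ≤ c e) → comb Eb c = 0 → ∑ e, c e ≤ r1 → ‖combσ Eb σ c‖ ≤ κ) →
      ∀ c : Eb → ℝ, comb Eb c = 0 → combσ Eb σ c = 0) := by
    intro σ
    by_cases h : ∀ c : Eb → ℝ, comb Eb c = 0 → combσ Eb σ c = 0
    · exact ⟨1, one_pos, fun _ => h⟩
    push Not at h
    obtain ⟨c, hc, hcσ⟩ := h
    -- make it nonnegative
    obtain ⟨c', hc'0, hc', hc'σ⟩ : ∃ c' : Eb → ℝ, (∀ e, 0 ≤ c' e) ∧ comb Eb c' = 0 ∧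
        combσ Eb σ c' ≠ 0 := by
      obtain ⟨lam, hlam0, hlam⟩ : ∃ lam : ℝ, 0 ≤ lam ∧ ∀ e, 0 ≤ c e + lam * c0 e := by
        refine ⟨∑ e, |c e| / c0 e, Finset.sum_nonneg fun e _ => div_nonneg (abs_nonneg _) (hc0 e).le,
          fun e => ?_⟩
        have h1 : |c e| / c0 e ≤ ∑ e, |c e| / c0 e :=
          Finset.single_le_sum (f := fun e => |c e| / c0 e)
            (fun e _ => div_nonneg (abs_nonneg _) (hc0 e).le) (Finset.mem_univ e)
        have h2 := mul_le_mul_of_nonneg_right h1 (hc0 e).le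
        rw [div_mul_cancel₀ _ (hc0 e).ne'] at h2
        have h3 := neg_abs_le (c e)
        linarith
      by_cases h0 : combσ Eb σ c0 = 0
      · refine ⟨c + lam • c0, fun e => ?_, ?_, ?_⟩
        · simpa using hlam e
        · rw [map_add, map_smul, hc, hrel, smul_zero, add_zero]
        · rw [map_add, map_smul, h0, smul_zero, add_zero]; exact hcσ
      · exact ⟨c0, fun e => (hc0 e).le, hrel, h0⟩
    set s : ℝ := r1 / (∑ e, c' e + 1) with hs
    have hsum : 0 ≤ ∑ e, c' e := Finset.sum_nonneg fun e _ => hc'0 e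
    have hs0 : 0 < s := by positivity
    have hn : 0 < ‖combσ Eb σ (s • c')‖ := by
      rw [map_smul, norm_smul, Real.norm_of_nonneg hs0.le]
      exact mul_pos hs0 (norm_pos_iff.mpr hc'σ)
    refine ⟨‖combσ Eb σ (s • c')‖ / 2, by positivity, fun hh => ?_⟩
    exfalso
    have := hh (s • c') (fun e => by simpa using mul_nonneg hs0.le (hc'0 e))
      (by rw [map_smul, hc', smul_zero]) (by
        simp only [Pi.smul_apply, smul_eq_mul, ← Finset.mul_sum]
        rw [hs, div_mul_eq_mul_div, div_le_iff₀ (by linarith)]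
        nlinarith)
    linarith
  choose κ hκ0 hκ using key
  have hne : (Finset.univ : Finset (Equiv.Perm Eb)).Nonempty := Finset.univ_nonempty
  refine ⟨Finset.univ.inf' hne κ, ?_, fun σ h => ?_⟩
  · rw [Finset.lt_inf'_iff]; exact fun σ _ => hκ0 σ
  · exact hκ σ fun c h1 h2 h3 => (h c h1 h2 h3).trans (Finset.inf'_le _ (Finset.mem_univ σ))

/-- the linear map attached to a permutation. -/
theorem exists_lin {Eb : Finset E} (hspan : Submodule.span ℝ (Eb : Set E) = ⊤)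
    {σ : Equiv.Perm Eb} (h : ∀ c : Eb → ℝ, comb Eb c = 0 → combσ Eb σ c = 0) :
    ∃ L : E →ₗ[ℝ] E, ∀ c : Eb → ℝ, L (comb Eb c) = combσ Eb σ c := by
  obtain ⟨g, hg⟩ := (comb Eb).exists_rightInverse_of_surjective
    (LinearMap.range_eq_top.mpr (comb_surjective hspan))
  refine ⟨(combσ Eb σ) ∘ₗ g, fun c => ?_⟩
  have h1 : comb Eb (g (comb Eb c) - c) = 0 := by
    rw [map_sub]
    have := LinearMap.congr_fun hg (comb Eb c)
    simp only [LinearMap.comp_apply, LinearMap.id_apply] at this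
    rw [this, sub_self]
  have h2 := h _ h1
  rw [map_sub, sub_eq_zero] at h2
  exact h2

/-- **the star argument**: a function with the star property everywhere is affine. -/
theorem star_affine {Eb : Finset E} (hu : ∀ e ∈ Eb, ‖e‖ = 1)
    (hspan : Submodule.span ℝ (Eb : Set E) = ⊤)
    {c0 : Eb → ℝ} (hc0 : ∀ e, 0 < c0 e) (hrel : comb Eb c0 = 0)
    {r1 : ℝ} (hr1 : 0 < r1) (D : ℝ) {η : ℝ} (hη : 0 < η) :
    ∃ r0 : ℝ, 0 < r0 ∧ r0 ≤ r1 ∧ ∃ δ : ℝ, 0 < δ ∧
      ∀ (φ : E → E) (S0 S1 S2 : Set E), Convex ℝ S0 → Convex ℝ S1 → S0.Nonempty →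
      (∀ v ∈ S0, ∀ y : E, ‖y - v‖ ≤ r1 → y ∈ S1) → (∀ v ∈ S1, ∀ y : E, ‖y - v‖ ≤ r1 → y ∈ S2) →
      (∀ v ∈ S0, ∀ w ∈ S0, ‖v - w‖ ≤ D) → LipOn φ S2 δ →
      (∀ x ∈ S1, ∀ r, r0 ≤ r → r ≤ r1 → StarAt φ Eb x r δ) →
      ∃ L : E →ₗ[ℝ] E, (∀ e ∈ Eb, L e ∈ Eb) ∧
        ∀ v ∈ S0, ∀ w ∈ S0, ‖φ v - φ w - L (v - w)‖ ≤ η := by
  classical
  obtain ⟨sep, hsep0, hsep⟩ := exists_sep Eb
  obtain ⟨C0, hC0, hdec⟩ := exists_decomp hspan hc0 hrel
  obtain ⟨κ, hκ0, hκ⟩ := exists_thr hc0 hrel hr1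
  have hC0' : 0 < C0 := lt_of_lt_of_le one_pos hC0
  obtain ⟨m, hm⟩ := exists_nat_gt (max (D * C0 / r1) 0)
  have hm0 : (0 : ℝ) < m := lt_of_le_of_lt (le_max_right _ _) hm
  have hm1 : D * C0 / r1 < m := lt_of_le_of_lt (le_max_left _ _) hm
  set n : ℝ := Fintype.card Eb + 1 with hn
  have hn0 : 0 < n := by positivity
  set r0 : ℝ := min r1 (min (η / (4 * m * n)) (κ / (4 * n))) with hr0
  have hr00 : 0 < r0 := by
    rw [hr0]; exact lt_min hr1 (lt_min (by positivity) (by positivity))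
  set δ1 : ℝ := min (r0 * sep / 8) (min (η / (4 * m * n)) (κ / (4 * n))) with hδ1
  have hδ10 : 0 < δ1 := by
    rw [hδ1]; exact lt_min (by positivity) (lt_min (by positivity) (by positivity))
  set δ : ℝ := min 1 (min δ1 (δ1 ^ 2 / (16 * r1 + 16))) with hδ
  have hδ0 : 0 < δ := by
    rw [hδ]; exact lt_min one_pos (lt_min hδ10 (by positivity))
  have hδle1 : δ ≤ 1 := min_le_left _ _
  have hδleδ1 : δ ≤ δ1 := (min_le_right _ _).trans (min_le_left _ _)
  have hδsq : (16 * r1 + 16) * δ ≤ δ1 ^ 2 := by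
    have : δ ≤ δ1 ^ 2 / (16 * r1 + 16) := (min_le_right _ _).trans (min_le_right _ _)
    rwa [le_div_iff₀ (by positivity), mul_comm] at this
  have hr0a : 4 * m * n * r0 ≤ η := by
    have : r0 ≤ η / (4 * m * n) := (min_le_right _ _).trans (min_le_left _ _)
    rwa [le_div_iff₀ (by positivity), mul_comm] at this
  have hr0b : 4 * n * r0 ≤ κ := by
    have : r0 ≤ κ / (4 * n) := (min_le_right _ _).trans (min_le_right _ _)
    rwa [le_div_iff₀ (by positivity), mul_comm] at this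
  have hδ1a : 4 * m * n * δ1 ≤ η := by
    have : δ1 ≤ η / (4 * m * n) := (min_le_right _ _).trans (min_le_left _ _)
    rwa [le_div_iff₀ (by positivity), mul_comm] at this
  have hδ1b : 4 * n * δ1 ≤ κ := by
    have : δ1 ≤ κ / (4 * n) := (min_le_right _ _).trans (min_le_right _ _)
    rwa [le_div_iff₀ (by positivity), mul_comm] at this
  have hδ1c : δ1 ≤ r0 * sep / 8 := min_le_left _ _
  refine ⟨r0, hr00, min_le_left _ _, δ, hδ0, ?_⟩
  intro φ S0 S1 S2 hS0 hS1 hne h01 h12 hD hlip hstar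
  have hr0sep : 0 < r0 * sep := by positivity
  -- permutations exist
  have hperm : ∀ x ∈ S1, ∀ r, r0 ≤ r → r ≤ r1 → ∃ σ : Equiv.Perm Eb, IsStar φ Eb x r δ1 σ := by
    intro x hx r hr hr'
    have hrnn : 0 ≤ r := hr00.le.trans hr
    refine exists_isStar hsep hrnn ?_ ?_
    · have := mul_le_mul_of_nonneg_right hr hsep0.le
      linarith
    · intro e he
      obtain ⟨e', he', h⟩ := star_dir hu hδ0.le hrnn hlip (fun e he t ht htr => by
        apply h12 x hx
        rw [add_sub_cancel_left, norm_smul, hu e he, mul_one, Real.norm_of_nonneg ht]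
        exact htr.trans hr') (hstar x hx r hr hr') e he
      refine ⟨e', he', ?_⟩
      have h2 : 16 * r * δ + 16 * δ ^ 2 ≤ δ1 ^ 2 := by
        have h3 : 16 * r * δ ≤ 16 * r1 * δ := by
          have := mul_le_mul_of_nonneg_right hr' hδ0.le
          linarith
        have h4 : δ ^ 2 ≤ δ := by nlinarith
        linarith
      exact abs_le_of_sq_le_sq' (h.trans h2) hδ10.le |>.2
  obtain ⟨v0, hv0⟩ := hne
  have hS1ne : S1.Nonempty := ⟨v0, h01 v0 hv0 v0 (by simpa using hr1.le)⟩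
  obtain ⟨σ, hσ⟩ := exists_const hsep hsep0.le hu hr00.le (min_le_left _ _) hlip hS1 hS1ne h12
    (by linarith) hperm
  set δ2 : ℝ := δ1 + 2 * r0 + δ with hδ2
  have hpath : ∀ v ∈ S0, ∀ c : Eb → ℝ, (∀ e, 0 ≤ c e) → ∑ e, c e ≤ r1 →
      ‖φ (v + comb Eb c) - φ v - combσ Eb σ c‖ ≤ n * δ2 := by
    intro v hv c hc hsum
    have := path_est hu hlip h12 hσ (δ2 := δ2) (by linarith) (by linarith)
      (h01 v hv) hc hsum Finset.univ
    rw [comb_apply, combσ_apply]
    refine this.trans ?_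
    have : ((Finset.univ : Finset Eb).card : ℝ) ≤ n := by
      rw [Finset.card_univ, hn]; linarith
    exact mul_le_mul_of_nonneg_right this (by positivity)
  have hrels : ∀ c : Eb → ℝ, comb Eb c = 0 → combσ Eb σ c = 0 := by
    apply hκ σ
    intro c hc hc0' hsum
    have := hpath v0 hv0 c hc hsum
    rw [hc0', add_zero, sub_self, zero_sub, norm_neg] at this
    refine this.trans ?_
    rw [hδ2]; nlinarith
  obtain ⟨L, hL⟩ := exists_lin hspan hrels
  refine ⟨L, ?_, ?_⟩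
  · intro e he
    have h1 := hL (Pi.single ⟨e, he⟩ 1)
    rw [comb_apply, combσ_apply] at h1
    rw [Finset.sum_eq_single ⟨e, he⟩ (by
      intro b _ hb; rw [Pi.single_eq_of_ne hb, zero_smul]) (by simp),
      Finset.sum_eq_single ⟨e, he⟩ (by
      intro b _ hb; rw [Pi.single_eq_of_ne hb, zero_smul]) (by simp)] at h1
    simp only [Pi.single_eq_same, one_smul] at h1
    rw [h1]
    exact (σ ⟨e, he⟩).2
  · -- local estimate
    have hloc : ∀ v ∈ S0, ∀ w : E, ‖w - v‖ ≤ r1 / C0 →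
        ‖φ w - φ v - L (w - v)‖ ≤ n * δ2 := by
      intro v hv w hw
      obtain ⟨c, hc, hcw, hsum⟩ := hdec (w - v)
      have hsum' : ∑ e, c e ≤ r1 := by
        refine hsum.trans ?_
        have := mul_le_mul_of_nonneg_left hw hC0'.le
        rwa [mul_div_cancel₀ _ hC0'.ne'] at this
      have := hpath v hv c hc hsum'
      rwa [hcw, ← hL c, hcw, add_sub_cancel] at this
    intro v hv w hw
    set x : ℕ → E := fun i => w + ((i : ℝ) / m) • (v - w) with hx
    have hxS : ∀ i : ℕ, i ≤ m → x i ∈ S0 := by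
      intro i hi
      have hi' : (i : ℝ) ≤ m := by exact_mod_cast hi
      exact hS0.add_smul_sub_mem hw hv ⟨by positivity, by rw [div_le_one hm0]; exact hi'⟩
    have hstep : ∀ i : ℕ, i < m → ‖φ (x (i + 1)) - φ (x i) - L (x (i + 1) - x i)‖ ≤ n * δ2 := by
      intro i hi
      apply hloc _ (hxS i hi.le)
      have h1 : x (i + 1) - x i = (1 / (m : ℝ)) • (v - w) := by
        simp only [hx]
        rw [add_sub_add_left_eq_sub, ← sub_smul]
        congr 1
        push_cast; field_simp; ring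
      rw [h1, norm_smul, Real.norm_of_nonneg (by positivity)]
      have h2 := hD v hv w hw
      have h3 : ‖v - w‖ * (C0 / r1) ≤ m := by
        have h4 : ‖v - w‖ * (C0 / r1) ≤ D * (C0 / r1) :=
          mul_le_mul_of_nonneg_right h2 (by positivity)
        have h5 : D * (C0 / r1) = D * C0 / r1 := by ring
        linarith
      rw [div_mul_eq_mul_div, one_mul, div_le_div_iff₀ hm0 hC0']
      have h6 : ‖v - w‖ * C0 = (‖v - w‖ * (C0 / r1)) * r1 := by field_simp
      rw [h6, mul_comm r1]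
      exact mul_le_mul_of_nonneg_right h3 hr1.le
    have hind : ∀ i : ℕ, i ≤ m → ‖φ (x i) - φ (x 0) - L (x i - x 0)‖ ≤ i * (n * δ2) := by
      intro i
      induction i with
      | zero => intro _; simp
      | succ i ih =>
        intro hi
        have h1 := ih (by omega)
        have h2 := hstep i (by omega)
        have h3 : φ (x (i + 1)) - φ (x 0) - L (x (i + 1) - x 0) =
            (φ (x (i + 1)) - φ (x i) - L (x (i + 1) - x i)) +
            (φ (x i) - φ (x 0) - L (x i - x 0)) := by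
          simp only [map_sub]; abel
        rw [h3]
        push_cast
        calc _ ≤ _ := norm_add_le _ _
          _ ≤ n * δ2 + i * (n * δ2) := add_le_add h2 h1
          _ = _ := by ring
    have h0 : x 0 = w := by simp [hx]
    have h1 : x m = v := by
      simp only [hx]; rw [div_self hm0.ne']; simp
    have := hind m le_rfl
    rw [h0, h1] at this
    refine this.trans ?_
    rw [hδ2]
    nlinarith

/-- the set of linear maps preserving a finite spanning set is finite. -/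
theorem finite_lin {Eb : Finset E} (hspan : Submodule.span ℝ (Eb : Set E) = ⊤) :
    {L : E →ₗ[ℝ] E | ∀ e ∈ Eb, L e ∈ Eb}.Finite := by
  classical
  let F : {L : E →ₗ[ℝ] E | ∀ e ∈ Eb, L e ∈ Eb} → (Eb → Eb) := fun L e => ⟨L.1 e, L.2 e e.2⟩
  have hinj : Function.Injective F := by
    intro L L' h
    apply Subtype.ext
    apply LinearMap.ext_on hspan
    intro e he
    have := congrFun h ⟨e, he⟩
    exact congrArg Subtype.val this
  exact Set.finite_coe_iff.mp (Finite.of_injective F hinj)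

end Geo

end Crest.Agent.R182.Star
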