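/-
R182, module STAR: the word version of the geometry of the star argument.

A flat is described by a function `F : List Eb → E`; the word `w` is the position reached from the
base point by the unit legs in the directions of the letters of `w`; a unit leg has height length `τ`.
-/
import Crest.Agent.R182.StarGeo

set_option autoImplicit false
set_option linter.unusedSectionVars false

namespace Crest.Agent.R182.Star

open List

section Word

variable {E : Type*} [NormedAddCommGroup E] [InnerProductSpace ℝ E]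

/-- star property at the word `w`, radius `A τ`. -/
def WStar (Eb : Finset E) (F : List Eb → E) (A : ℕ) (τ δ : ℝ) (w : List Eb) : Prop :=
  ∀ e : Eb, ∃ e' : Eb, ∃ a : ℕ, a ≤ A ∧
    A * τ - δ ≤ inner ℝ (e : E) (F (w ++ replicate a e') - F w)

/-- Lipschitz property along the legs at `w`. -/
def WLip (Eb : Finset E) (F : List Eb → E) (A : ℕ) (τ δ : ℝ) (w : List Eb) : Prop :=
  ∀ e : Eb, ∀ a : ℕ, a ≤ A → ‖F (w ++ replicate a e) - F w‖ ≤ a * τ + δ

/-- `σ` describes the legs at `w`. -/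
def WLaw (Eb : Finset E) (F : List Eb → E) (A : ℕ) (τ δ : ℝ) (σ : Equiv.Perm Eb) (w : List Eb) :
    Prop :=
  ∀ e : Eb, ∀ a : ℕ, a ≤ A → ‖F (w ++ replicate a e) - F w - (a * τ) • (σ e : E)‖ ≤ δ

/-- full legs. -/
def WFull (Eb : Finset E) (F : List Eb → E) (A : ℕ) (τ δ : ℝ) (σ : Equiv.Perm Eb) (w : List Eb) :
    Prop :=
  ∀ e : Eb, ‖F (w ++ replicate A e) - F w - (A * τ) • (σ e : E)‖ ≤ δ

theorem wstar_full {Eb : Finset E} (hu : ∀ e ∈ Eb, ‖e‖ = 1) {sep : ℝ}
    (hsep : ∀ e ∈ Eb, ∀ e' ∈ Eb, e ≠ e' → sep ≤ ‖e - e'‖)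
    {F : List Eb → E} {A : ℕ} {τ δ δ1 : ℝ} (hτ : 0 ≤ τ) (hδ : 0 ≤ δ) (hδ1 : 0 ≤ δ1) {w : List Eb}
    (hlip : WLip Eb F A τ δ w) (hlip' : ∀ e : Eb, ∀ a ≤ A, WLip Eb F A τ δ (w ++ replicate a e))
    (hst : WStar Eb F A τ δ w) (h1 : 16 * (A * τ) * δ + 16 * δ ^ 2 ≤ δ1 ^ 2)
    (h2 : 2 * δ1 < A * τ * sep) :
    ∃ σ : Equiv.Perm Eb, WFull Eb F A τ δ1 σ w := by
  classical
  have key : ∀ e : Eb, ∃ e' : Eb, ‖F (w ++ replicate A e') - F w - (A * τ) • (e : E)‖ ≤ δ1 := by
    intro e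
    obtain ⟨e', a, ha, hin⟩ := hst e
    refine ⟨e', ?_⟩
    have ha' : (a : ℝ) ≤ A := by exact_mod_cast ha
    have g1 : ‖F (w ++ replicate a e') - F w‖ ≤ a * τ + δ := hlip e' a ha
    have g2 : ‖F (w ++ replicate A e') - F w‖ ≤ A * τ + δ := hlip e' A le_rfl
    have g3 : ‖F (w ++ replicate A e') - F (w ++ replicate a e')‖ ≤ (A - a : ℝ) * τ + δ := by
      have := hlip' e' a ha e' (A - a) (Nat.sub_le _ _)
      rw [append_assoc, ← replicate_add, Nat.add_sub_cancel' ha] at this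
      rwa [Nat.cast_sub ha] at this
    have g5 : inner ℝ (e : E) (F (w ++ replicate a e') - F w) ≤
        ‖F (w ++ replicate a e') - F w‖ := by
      have := real_inner_le_norm (e : E) (F (w ++ replicate a e') - F w)
      rwa [hu e e.2, one_mul] at this
    have g6 : (A : ℝ) * τ - a * τ ≤ 2 * δ := by linarith
    have g7 : - ‖F (w ++ replicate A e') - F (w ++ replicate a e')‖ ≤
        inner ℝ (e : E) (F (w ++ replicate A e') - F (w ++ replicate a e')) := by
      have := abs_real_inner_le_norm (e : E) (F (w ++ replicate A e') - F (w ++ replicate a e'))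
      rw [hu e e.2, one_mul] at this
      exact neg_le_of_abs_le this
    have g8 : inner ℝ (e : E) (F (w ++ replicate A e') - F w) =
        inner ℝ (e : E) (F (w ++ replicate A e') - F (w ++ replicate a e')) +
        inner ℝ (e : E) (F (w ++ replicate a e') - F w) := by
      rw [← inner_add_right]; congr 1; abel
    have g9 : (A : ℝ) * τ - 4 * δ ≤ inner ℝ (e : E) (F (w ++ replicate A e') - F w) := by
      rw [g8]
      have : ((A : ℝ) - a) * τ = A * τ - a * τ := by ring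
      rw [this] at g3
      linarith
    have := near_of_inner (hu e e.2) (by positivity : (0 : ℝ) ≤ A * τ)
      (by linarith : (0 : ℝ) ≤ 4 * δ)
      (by linarith : ‖F (w ++ replicate A e') - F w‖ ≤ A * τ + 4 * δ) g9
    have h3 : ‖F (w ++ replicate A e') - F w - (A * τ) • (e : E)‖ ^ 2 ≤ δ1 ^ 2 := by
      refine this.trans (le_trans (le_of_eq ?_) h1)
      ring
    exact abs_le_of_sq_le_sq' h3 hδ1 |>.2
  choose f hf using key
  have hinj : Function.Injective f := by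
    intro a b hab
    by_contra hne
    have hne' : (a : E) ≠ b := fun h => hne (Subtype.ext h)
    have k1 := hf a
    have k2 := hf b
    rw [hab] at k1
    have h3 : ‖(A * τ) • (a : E) - (A * τ) • (b : E)‖ ≤ 2 * δ1 := by
      have : (A * τ) • (a : E) - (A * τ) • (b : E) =
          (F (w ++ replicate A (f b)) - F w - (A * τ) • (b : E)) -
          (F (w ++ replicate A (f b)) - F w - (A * τ) • (a : E)) := by abel
      rw [this]
      calc _ ≤ _ := norm_sub_le _ _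
        _ ≤ δ1 + δ1 := add_le_add k2 k1
        _ = 2 * δ1 := by ring
    rw [← smul_sub, norm_smul, Real.norm_of_nonneg (by positivity)] at h3
    have h4 := mul_le_mul_of_nonneg_left (hsep a a.2 b b.2 hne') (by positivity : 0 ≤ A * τ)
    linarith
  have hbij : Function.Bijective f := Finite.injective_iff_bijective.mp hinj
  let g : Equiv.Perm Eb := Equiv.ofBijective f hbij
  refine ⟨g.symm, fun e => ?_⟩
  have k1 := hf (g.symm e)
  have k2 : f (g.symm e) = e := g.apply_symm_apply e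
  rw [k2] at k1
  exact k1

/-- intermediate points of a full leg. -/
theorem wlaw_of_full {Eb : Finset E} (hu : ∀ e ∈ Eb, ‖e‖ = 1)
    {F : List Eb → E} {A : ℕ} {τ δ δ1 δ3 : ℝ} (hτ : 0 ≤ τ) (hδ : 0 ≤ δ) (hδ1 : 0 ≤ δ1)
    (hδ3 : 0 ≤ δ3) {w : List Eb}
    (hlip : WLip Eb F A τ δ w) (hlip' : ∀ e : Eb, ∀ a ≤ A, WLip Eb F A τ δ (w ++ replicate a e))
    {σ : Equiv.Perm Eb} (hfull : WFull Eb F A τ δ1 σ w)
    (h3 : 4 * (A * τ) * (δ + δ1) + (δ + δ1) ^ 2 ≤ δ3 ^ 2) :
    WLaw Eb F A τ δ3 σ w := by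
  intro e a ha
  have ha' : (a : ℝ) ≤ A := by exact_mod_cast ha
  have g1 : ‖F (w ++ replicate a e) - F w‖ ≤ a * τ + δ := hlip e a ha
  have g3 : ‖F (w ++ replicate A e) - F (w ++ replicate a e)‖ ≤ (A * τ - a * τ) + δ := by
    have := hlip' e a ha e (A - a) (Nat.sub_le _ _)
    rw [append_assoc, ← replicate_add, Nat.add_sub_cancel' ha] at this
    rwa [Nat.cast_sub ha, sub_mul] at this
  have hσu : ‖(σ e : E)‖ = 1 := hu _ (σ e).2
  have g4 : A * τ - δ1 ≤ inner ℝ (σ e : E) (F (w ++ replicate A e) - F w) := by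
    have h5 : inner ℝ (σ e : E) (F (w ++ replicate A e) - F w) =
        inner ℝ (σ e : E) (F (w ++ replicate A e) - F w - (A * τ) • (σ e : E)) + A * τ := by
      have hx := inner_sub_right (𝕜 := ℝ) (σ e : E) (F (w ++ replicate A e) - F w)
        ((A * τ) • (σ e : E))
      rw [hx, inner_smul_right, real_inner_self_eq_norm_sq, hσu]; ring
    rw [h5]
    have h6 := abs_real_inner_le_norm (σ e : E) (F (w ++ replicate A e) - F w - (A * τ) • (σ e : E))
    rw [hσu, one_mul] at h6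
    have h7 := neg_le_of_abs_le h6
    have h8 := hfull e
    linarith
  have g5 : inner ℝ (σ e : E) (F (w ++ replicate A e) - F (w ++ replicate a e)) ≤
      (A * τ - a * τ) + δ := by
    have := real_inner_le_norm (σ e : E) (F (w ++ replicate A e) - F (w ++ replicate a e))
    rw [hσu, one_mul] at this
    exact this.trans g3
  have g6 : inner ℝ (σ e : E) (F (w ++ replicate A e) - F w) =
      inner ℝ (σ e : E) (F (w ++ replicate A e) - F (w ++ replicate a e)) +
      inner ℝ (σ e : E) (F (w ++ replicate a e) - F w) := by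
    rw [← inner_add_right]; congr 1; abel
  have g7 : a * τ - (δ + δ1) ≤ inner ℝ (σ e : E) (F (w ++ replicate a e) - F w) := by linarith
  have := near_of_inner hσu (by positivity : (0 : ℝ) ≤ a * τ) (by linarith : (0 : ℝ) ≤ δ + δ1)
    (by linarith : ‖F (w ++ replicate a e) - F w‖ ≤ a * τ + (δ + δ1)) g7
  have h4 : ‖F (w ++ replicate a e) - F w - (a * τ) • (σ e : E)‖ ^ 2 ≤ δ3 ^ 2 := by
    refine this.trans (le_trans ?_ h3)
    have : 4 * (a * τ) * (δ + δ1) ≤ 4 * (A * τ) * (δ + δ1) := by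
      have h9 := mul_le_mul_of_nonneg_right ha' hτ
      have h10 := mul_le_mul_of_nonneg_right h9 (by linarith : (0 : ℝ) ≤ δ + δ1)
      linarith
    linarith
  exact abs_le_of_sq_le_sq' h4 hδ3 |>.2

/-- uniqueness of the permutation at neighbouring words. -/
theorem wfull_unique {Eb : Finset E} {sep : ℝ}
    (hsep : ∀ e ∈ Eb, ∀ e' ∈ Eb, e ≠ e' → sep ≤ ‖e - e'‖)
    {F F' : List Eb → E} {A : ℕ} {τ δ1 ρ ρ' : ℝ} (hτ : 0 ≤ τ) {w w' : List Eb}
    {σ σ' : Equiv.Perm Eb} (h : WFull Eb F A τ δ1 σ w) (h' : WFull Eb F' A τ δ1 σ' w')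
    (hslow : ∀ e : Eb, ‖F' (w' ++ replicate A e) - F (w ++ replicate A e)‖ ≤ ρ)
    (hnear : ‖F' w' - F w‖ ≤ ρ') (hsm : ρ + ρ' + 2 * δ1 < A * τ * sep) :
    σ = σ' := by
  refine Equiv.ext fun e => ?_
  by_contra hne
  have hne' : (σ e : E) ≠ σ' e := fun hh => hne (Subtype.ext hh)
  have k1 := h e
  have k2 := h' e
  have k3 := hslow e
  have h5 : ‖(A * τ) • (σ e : E) - (A * τ) • (σ' e : E)‖ ≤ ρ + ρ' + 2 * δ1 := by
    have : (A * τ) • (σ e : E) - (A * τ) • (σ' e : E) =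
        (F' (w' ++ replicate A e) - F' w' - (A * τ) • (σ' e : E))
        - (F (w ++ replicate A e) - F w - (A * τ) • (σ e : E))
        - (F' (w' ++ replicate A e) - F (w ++ replicate A e)) + (F' w' - F w) := by abel
    rw [this]
    calc _ ≤ ‖(F' (w' ++ replicate A e) - F' w' - (A * τ) • (σ' e : E))
        - (F (w ++ replicate A e) - F w - (A * τ) • (σ e : E))
        - (F' (w' ++ replicate A e) - F (w ++ replicate A e))‖ + ‖F' w' - F w‖ := norm_add_le _ _
      _ ≤ (‖(F' (w' ++ replicate A e) - F' w' - (A * τ) • (σ' e : E))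
        - (F (w ++ replicate A e) - F w - (A * τ) • (σ e : E))‖
        + ‖F' (w' ++ replicate A e) - F (w ++ replicate A e)‖) + ‖F' w' - F w‖ := by
          gcongr; exact norm_sub_le _ _
      _ ≤ ((‖F' (w' ++ replicate A e) - F' w' - (A * τ) • (σ' e : E)‖
        + ‖F (w ++ replicate A e) - F w - (A * τ) • (σ e : E)‖)
        + ‖F' (w' ++ replicate A e) - F (w ++ replicate A e)‖) + ‖F' w' - F w‖ := by
          gcongr; exact norm_sub_le _ _
      _ ≤ ((δ1 + δ1) + ρ) + ρ' := by gcongr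
      _ = _ := by ring
  rw [← smul_sub, norm_smul, Real.norm_of_nonneg (by positivity)] at h5
  have h6 := mul_le_mul_of_nonneg_left (hsep _ (σ e).2 _ (σ' e).2 hne')
    (by positivity : 0 ≤ A * τ)
  linarith

/-- **word law**: one permutation for all words of length `≤ n`. -/
theorem word_law {Eb : Finset E} (hu : ∀ e ∈ Eb, ‖e‖ = 1) {sep : ℝ}
    (hsep : ∀ e ∈ Eb, ∀ e' ∈ Eb, e ≠ e' → sep ≤ ‖e - e'‖)
    {F : List Eb → E} {A n : ℕ} (hA : 1 ≤ A) {τ δ δ1 δ3 ρ : ℝ} (hτ : 0 ≤ τ) (hδ : 0 ≤ δ)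
    (hδ1 : 0 ≤ δ1) (hδ3 : 0 ≤ δ3)
    (hlip : ∀ w : List Eb, w.length ≤ n + A → WLip Eb F A τ δ w)
    (hst : ∀ w : List Eb, w.length ≤ n → WStar Eb F A τ δ w)
    (hslow : ∀ w : List Eb, w.length ≤ n → ∀ e e' : Eb,
      ‖F ((w ++ [e']) ++ replicate A e) - F (w ++ replicate A e)‖ ≤ ρ)
    (h1 : 16 * (A * τ) * δ + 16 * δ ^ 2 ≤ δ1 ^ 2) (h2 : 2 * δ1 < A * τ * sep)
    (h3 : 4 * (A * τ) * (δ + δ1) + (δ + δ1) ^ 2 ≤ δ3 ^ 2)
    (h4 : ρ + (τ + δ) + 2 * δ1 < A * τ * sep) :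
    ∃ σ : Equiv.Perm Eb, ∀ w : List Eb, w.length ≤ n →
      WFull Eb F A τ δ1 σ w ∧ WLaw Eb F A τ δ3 σ w := by
  have hfull : ∀ w : List Eb, w.length ≤ n → ∃ σ : Equiv.Perm Eb, WFull Eb F A τ δ1 σ w := by
    intro w hw
    refine wstar_full hu hsep hτ hδ hδ1 (hlip w (by omega)) ?_ (hst w hw) h1 h2
    intro e a ha
    apply hlip
    rw [length_append, length_replicate]; omega
  choose! σ hσ using hfull
  have hconst : ∀ m : ℕ, ∀ w : List Eb, w.length = m → w.length ≤ n → σ w = σ [] := by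
    intro m
    induction m with
    | zero => intro w hw _; rw [List.length_eq_zero_iff.mp hw]
    | succ m ih =>
      intro w hw hwn
      obtain ⟨w', e', rfl⟩ : ∃ w' e', w = w' ++ [e'] := by
        rcases eq_nil_or_concat w with h | ⟨w', e', h⟩
        · rw [h] at hw; simp at hw
        · exact ⟨w', e', by simpa using h⟩
      have hlen : w'.length = m := by simpa using hw
      have hlen' : w'.length ≤ n := by rw [length_append] at hwn; omega
      rw [← ih w' hlen hlen']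
      symm
      refine wfull_unique hsep hτ (hσ w' hlen') (hσ (w' ++ [e']) hwn) (hslow w' hlen' · e')
        (ρ' := τ + δ) ?_ h4
      have := hlip w' (by omega) e' 1 hA
      simpa using this
  refine ⟨σ [], fun w hw => ?_⟩
  have h5 : WFull Eb F A τ δ1 (σ []) w := by
    have := hσ w hw
    rwa [hconst w.length w rfl hw] at this
  refine ⟨h5, wlaw_of_full hu hτ hδ hδ1 hδ3 (hlip w (by omega)) ?_ h5 h3⟩
  intro e a ha
  apply hlip
  rw [length_append, length_replicate]; omega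

/-- the word `w` is a concatenation of `m` runs of length at most `A`. -/
inductive Runs {α : Type*} (A : ℕ) : List α → ℕ → Prop
  | nil : Runs A [] 0
  | snoc {w : List α} {m : ℕ} (e : α) {a : ℕ} (h : Runs A w m) (ha : a ≤ A) :
      Runs A (w ++ replicate a e) (m + 1)

theorem Runs.append {α : Type*} {A : ℕ} {w w' : List α} {m m' : ℕ} (h : Runs A w m)
    (h' : Runs A w' m') : Runs A (w ++ w') (m + m') := by
  induction h' with
  | nil => simpa using h
  | snoc e _ ha ih => rw [← append_assoc, ← add_assoc]; exact Runs.snoc e ih ha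

theorem Runs.replicate' {α : Type*} {A : ℕ} (hA : 1 ≤ A) (e : α) (a : ℕ) :
    Runs A (replicate a e) (a / A + 1) := by
  induction a using Nat.strong_induction_on with
  | _ a ih =>
    by_cases h : a < A
    · rw [Nat.div_eq_of_lt h, zero_add]
      have := Runs.snoc (A := A) e Runs.nil h.le
      simpa using this
    · push Not at h
      have h1 := ih (a - A) (by omega)
      have h2 := Runs.snoc (A := A) e h1 le_rfl
      rw [← replicate_add, Nat.sub_add_cancel h] at h2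
      have h3 : (a - A) / A + 1 = a / A := by
        rw [Nat.div_eq_sub_div (by omega) h]
      rwa [h3] at h2

theorem Runs.of_length {α : Type*} {A : ℕ} (hA : 1 ≤ A) (w : List α) : Runs A w w.length := by
  induction w using List.reverseRecOn with
  | nil => exact Runs.nil
  | append_singleton w e ih =>
    have := Runs.snoc (A := A) e ih hA
    simpa using this

/-- sum of the letters -/
noncomputable def lsum {Eb : Finset E} (w : List Eb) : E := (w.map (fun e => (e : E))).sum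

theorem lsum_nil {Eb : Finset E} : lsum ([] : List Eb) = 0 := rfl

theorem lsum_append {Eb : Finset E} (w w' : List Eb) : lsum (w ++ w') = lsum w + lsum w' := by
  simp [lsum]

theorem lsum_replicate {Eb : Finset E} (a : ℕ) (e : Eb) : lsum (replicate a e) = (a : ℝ) • (e : E) := by
  simp [lsum, ← Nat.cast_smul_eq_nsmul ℝ]

theorem lsum_cons {Eb : Finset E} (e : Eb) (w : List Eb) : lsum (e :: w) = (e : E) + lsum w := by
  simp [lsum]

/-- **word law** for a prefix-closed set of words. -/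
theorem word_law_pred {Eb : Finset E} (hu : ∀ e ∈ Eb, ‖e‖ = 1) {sep : ℝ}
    (hsep : ∀ e ∈ Eb, ∀ e' ∈ Eb, e ≠ e' → sep ≤ ‖e - e'‖)
    {F : List Eb → E} {A : ℕ} (hA : 1 ≤ A) {τ δ δ1 δ3 ρ : ℝ} (hτ : 0 ≤ τ) (hδ : 0 ≤ δ)
    (hδ1 : 0 ≤ δ1) (hδ3 : 0 ≤ δ3) {P : List Eb → Prop}
    (hP : ∀ w e, P (w ++ [e]) → P w)
    (hlip : ∀ w : List Eb, P w → WLip Eb F A τ δ w)
    (hlip' : ∀ w : List Eb, P w → ∀ e : Eb, ∀ a ≤ A, WLip Eb F A τ δ (w ++ replicate a e))
    (hst : ∀ w : List Eb, P w → WStar Eb F A τ δ w)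
    (hslow : ∀ w : List Eb, ∀ e e' : Eb, P (w ++ [e']) →
      ‖F ((w ++ [e']) ++ replicate A e) - F (w ++ replicate A e)‖ ≤ ρ)
    (h1 : 16 * (A * τ) * δ + 16 * δ ^ 2 ≤ δ1 ^ 2) (h2 : 2 * δ1 < A * τ * sep)
    (h3 : 4 * (A * τ) * (δ + δ1) + (δ + δ1) ^ 2 ≤ δ3 ^ 2)
    (h4 : ρ + (τ + δ) + 2 * δ1 < A * τ * sep) :
    ∃ σ : Equiv.Perm Eb, ∀ w : List Eb, P w →
      WFull Eb F A τ δ1 σ w ∧ WLaw Eb F A τ δ3 σ w := by
  have hfull : ∀ w : List Eb, P w → ∃ σ : Equiv.Perm Eb, WFull Eb F A τ δ1 σ w :=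
    fun w hw => wstar_full hu hsep hτ hδ hδ1 (hlip w hw) (hlip' w hw) (hst w hw) h1 h2
  choose! σ hσ using hfull
  have hconst : ∀ w : List Eb, P w → σ w = σ [] := by
    intro w
    induction w using List.reverseRecOn with
    | nil => intro _; rfl
    | append_singleton w e ih =>
      intro hw
      have hw' := hP w e hw
      rw [← ih hw']
      symm
      refine wfull_unique hsep hτ (hσ w hw') (hσ (w ++ [e]) hw) (fun e' => hslow w e' e hw)
        (ρ' := τ + δ) ?_ h4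
      have := hlip w hw' e 1 hA
      simpa using this
  refine ⟨σ [], fun w hw => ?_⟩
  have h5 : WFull Eb F A τ δ1 (σ []) w := by
    have := hσ w hw
    rwa [hconst w hw] at this
  exact ⟨h5, wlaw_of_full hu hτ hδ hδ1 hδ3 (hlip w hw) (hlip' w hw) h5 h3⟩

theorem pred_of_append {α : Type*} {P : List α → Prop} (hP : ∀ w e, P (w ++ [e]) → P w)
    (w w' : List α) (h : P (w ++ w')) : P w := by
  induction w' using List.reverseRecOn with
  | nil => simpa using h
  | append_singleton w' e ih =>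
    rw [← append_assoc] at h
    exact ih (hP _ _ h)

/-- the law for words with few runs. -/
theorem runs_law {Eb : Finset E} {F : List Eb → E} {A : ℕ} {τ δ3 : ℝ}
    {P : List Eb → Prop} (hP : ∀ w e, P (w ++ [e]) → P w) {σ : Equiv.Perm Eb}
    (h : ∀ w : List Eb, P w → WLaw Eb F A τ δ3 σ w) {w : List Eb} {m : ℕ} (hr : Runs A w m)
    (hw : P w) : ‖F w - F [] - τ • lsum (w.map σ)‖ ≤ m * δ3 := by
  induction hr with
  | nil => simp [lsum]
  | @snoc w m e a _ ha ih =>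
    have hw' := pred_of_append hP _ _ hw
    have h1 := ih hw'
    have h2 := h w hw' e a ha
    have h3 : F (w ++ replicate a e) - F [] - τ • lsum ((w ++ replicate a e).map σ) =
        (F w - F [] - τ • lsum (w.map σ)) +
        (F (w ++ replicate a e) - F w - (a * τ) • (σ e : E)) := by
      rw [map_append, lsum_append, map_replicate, lsum_replicate, smul_add, smul_smul, mul_comm τ]
      abel
    rw [h3]
    refine (norm_add_le _ _).trans ?_
    push_cast
    linarith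

/-- the word of a relation. -/
noncomputable def relWord (Eb : Finset E) (τ : ℝ) (c : Eb → ℝ) : List Eb :=
  (Finset.univ : Finset Eb).toList.flatMap fun e => replicate ⌊c e / τ⌋₊ e

theorem runs_flatMap {α : Type*} {A : ℕ} (hA : 1 ≤ A) (l : List α) (a : α → ℕ) :
    Runs A (l.flatMap fun e => replicate (a e) e) ((l.map fun e => a e / A + 1).sum) := by
  induction l with
  | nil => exact Runs.nil
  | cons e l ih =>
    rw [flatMap_cons, map_cons, sum_cons]
    exact (Runs.replicate' hA e (a e)).append ih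

theorem runs_relWord (Eb : Finset E) {A : ℕ} (hA : 1 ≤ A) (τ : ℝ) (c : Eb → ℝ) :
    Runs A (relWord Eb τ c) (∑ e : Eb, (⌊c e / τ⌋₊ / A + 1)) := by
  have := runs_flatMap hA (Finset.univ : Finset Eb).toList (fun e => ⌊c e / τ⌋₊)
  rwa [Finset.sum_map_toList] at this

theorem lsum_flatMap {Eb : Finset E} (σ : Equiv.Perm Eb) (l : List Eb) (a : Eb → ℕ) :
    lsum ((l.flatMap fun e => replicate (a e) e).map σ) =
      (l.map fun e => (a e : ℝ) • (σ e : E)).sum := by
  induction l with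
  | nil => rfl
  | cons e l ih =>
    rw [flatMap_cons, map_append, lsum_append, ih, map_cons, sum_cons, map_replicate,
      lsum_replicate]

theorem lsum_relWord {Eb : Finset E} (σ : Equiv.Perm Eb) (τ : ℝ) (c : Eb → ℝ) :
    lsum ((relWord Eb τ c).map σ) = ∑ e : Eb, ((⌊c e / τ⌋₊ : ℕ) : ℝ) • (σ e : E) := by
  unfold relWord
  rw [lsum_flatMap, Finset.sum_map_toList]

theorem norm_relWord_sub {Eb : Finset E} (hu : ∀ e ∈ Eb, ‖e‖ = 1) (σ : Equiv.Perm Eb) {τ : ℝ}
    (hτ : 0 < τ) (c : Eb → ℝ) (hc : ∀ e, 0 ≤ c e) :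
    ‖τ • lsum ((relWord Eb τ c).map σ) - combσ Eb σ c‖ ≤ Eb.card * τ := by
  rw [lsum_relWord, combσ_apply, Finset.smul_sum, ← Finset.sum_sub_distrib]
  refine (norm_sum_le _ _).trans ?_
  have h : ∀ e ∈ (Finset.univ : Finset Eb),
      ‖τ • ((⌊c e / τ⌋₊ : ℕ) : ℝ) • (σ e : E) - c e • (σ e : E)‖ ≤ τ := by
    intro e _
    rw [smul_smul, ← sub_smul, norm_smul, hu _ (σ e).2, mul_one, Real.norm_eq_abs]
    have h0 : 0 ≤ c e / τ := div_nonneg (hc e) hτ.le
    have h1 := Nat.floor_le h0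
    have h2 := Nat.lt_floor_add_one (c e / τ)
    have h3 := mul_le_mul_of_nonneg_left h1 hτ.le
    have h4 := mul_lt_mul_of_pos_left h2 hτ
    rw [mul_div_cancel₀ _ hτ.ne'] at h3 h4
    rw [mul_add, mul_one] at h4
    rw [abs_le]; constructor <;> linarith
  refine (Finset.sum_le_sum h).trans ?_
  simp

/-- a finite set of relations and a threshold which decide whether `σ` is linear. -/
theorem exists_rels [FiniteDimensional ℝ E] (Eb : Finset E) {c0 : Eb → ℝ} (hc0 : ∀ e, 0 < c0 e)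
    (hrel : comb Eb c0 = 0) {r : ℝ} (hr : 0 < r) :
    ∃ κ : ℝ, 0 < κ ∧ ∃ R : Finset (Eb → ℝ), (∀ c ∈ R, (∀ e, 0 ≤ c e) ∧ comb Eb c = 0 ∧
      ∑ e, c e ≤ r) ∧ ∀ σ : Equiv.Perm Eb, (∀ c ∈ R, ‖combσ Eb σ c‖ ≤ κ) →
      ∀ c : Eb → ℝ, comb Eb c = 0 → combσ Eb σ c = 0 := by
  classical
  obtain ⟨κ, hκ, hκσ⟩ := exists_thr hc0 hrel hr
  have key : ∀ σ : Equiv.Perm Eb, ∃ c : Eb → ℝ, ((∀ e, 0 ≤ c e) ∧ comb Eb c = 0 ∧
      ∑ e, c e ≤ r) ∧ (‖combσ Eb σ c‖ ≤ κ → ∀ c : Eb → ℝ, comb Eb c = 0 → combσ Eb σ c = 0) := by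
    intro σ
    by_cases h : ∀ c : Eb → ℝ, (∀ e, 0 ≤ c e) → comb Eb c = 0 → ∑ e, c e ≤ r →
        ‖combσ Eb σ c‖ ≤ κ
    · exact ⟨0, ⟨fun e => le_rfl, map_zero _, by simpa using hr.le⟩, fun _ => hκσ σ h⟩
    · push Not at h
      obtain ⟨c, h1, h2, h3, h4⟩ := h
      exact ⟨c, ⟨h1, h2, h3⟩, fun h5 => absurd h5 (not_le.mpr h4)⟩
  choose C hC1 hC2 using key
  refine ⟨κ, hκ, Finset.univ.image C, fun c hc => ?_, fun σ h => ?_⟩
  · obtain ⟨σ, _, rfl⟩ := Finset.mem_image.mp hc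
    exact hC1 σ
  · exact hC2 σ (h _ (Finset.mem_image_of_mem C (Finset.mem_univ σ)))

theorem lsum_flatten_replicate {Eb : Finset E} (j : ℕ) (w : List Eb) :
    lsum ((replicate j w).flatten) = (j : ℝ) • lsum w := by
  induction j with
  | zero => simp [lsum]
  | succ j ih =>
    rw [replicate_succ, flatten_cons, lsum_append, ih]
    push_cast
    rw [add_smul, one_smul, add_comm]

theorem runs_flatten_replicate {α : Type*} {A : ℕ} {w : List α} {m : ℕ} (h : Runs A w m) (j : ℕ) :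
    Runs A ((replicate j w).flatten) (j * m) := by
  induction j with
  | zero => simpa using (Runs.nil (α := α) (A := A))
  | succ j ih =>
    rw [replicate_succ, flatten_cons, Nat.succ_mul, add_comm]
    exact h.append ih

/-- the powers of a relation word: hypothesis POW. -/
def WPow (Eb : Finset E) (F : List Eb → E) (P : List Eb → Prop) (τ κ : ℝ) (c : Eb → ℝ) : Prop :=
  ∃ j : ℕ, 1 ≤ j ∧ P ((replicate j (relWord Eb τ c)).flatten) ∧
    ‖F ((replicate j (relWord Eb τ c)).flatten) - F []‖ ≤ j * κ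

theorem combσ_small {Eb : Finset E} (hu : ∀ e ∈ Eb, ‖e‖ = 1) {F : List Eb → E} {A : ℕ}
    (hA : 1 ≤ A) {τ δ3 κ : ℝ} (hτ : 0 < τ) (hδ3 : 0 ≤ δ3)
    {P : List Eb → Prop} (hP : ∀ w e, P (w ++ [e]) → P w) {σ : Equiv.Perm Eb}
    (h : ∀ w : List Eb, P w → WLaw Eb F A τ δ3 σ w) {c : Eb → ℝ} (hc : ∀ e, 0 ≤ c e)
    (hpow : WPow Eb F P τ κ c) {M : ℝ} (hM : ∀ e, c e ≤ M * (A * τ)) :
    ‖combσ Eb σ c‖ ≤ κ + Eb.card * (M + 1) * δ3 + Eb.card * τ := by
  obtain ⟨j, hj, hPj, hFj⟩ := hpow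
  have hj0 : (0 : ℝ) < j := by exact_mod_cast hj
  set m : ℕ := ∑ e : Eb, (⌊c e / τ⌋₊ / A + 1) with hm
  have hA0 : (0 : ℝ) < A := by exact_mod_cast hA
  have hm' : (m : ℝ) ≤ Eb.card * (M + 1) := by
    rw [hm, Nat.cast_sum]
    have : ∀ e ∈ (Finset.univ : Finset Eb), ((⌊c e / τ⌋₊ / A + 1 : ℕ) : ℝ) ≤ M + 1 := by
      intro e _
      push_cast
      have h0 : 0 ≤ c e / τ := div_nonneg (hc e) hτ.le
      have h1 := Nat.floor_le h0
      have h2 : ((⌊c e / τ⌋₊ / A : ℕ) : ℝ) ≤ (⌊c e / τ⌋₊ : ℝ) / A := Nat.cast_div_le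
      have h3 : (⌊c e / τ⌋₊ : ℝ) / A ≤ M := by
        rw [div_le_iff₀ hA0]
        refine h1.trans ?_
        rw [div_le_iff₀ hτ]
        have := hM e
        linarith
      linarith
    refine (Finset.sum_le_sum this).trans (le_of_eq ?_)
    simp
    ring
  have h1 := runs_law hP h (runs_flatten_replicate (runs_relWord Eb hA τ c) j) hPj
  rw [map_flatten, map_replicate, lsum_flatten_replicate] at h1
  have h2 := norm_relWord_sub hu σ hτ c hc
  -- j • τ • lsum is small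
  have h3 : ‖(j : ℝ) • τ • lsum ((relWord Eb τ c).map σ)‖ ≤ j * κ + ((j * m : ℕ) : ℝ) * δ3 := by
    have e1 : (j : ℝ) • τ • lsum ((relWord Eb τ c).map σ) =
        (F ((replicate j (relWord Eb τ c)).flatten) - F []) -
        (F ((replicate j (relWord Eb τ c)).flatten) - F [] -
          τ • (j : ℝ) • lsum ((relWord Eb τ c).map σ)) := by
      rw [smul_comm τ]; abel
    rw [e1]
    exact (norm_sub_le _ _).trans (add_le_add hFj h1)
  rw [norm_smul, Real.norm_of_nonneg hj0.le, Nat.cast_mul, mul_assoc, ← mul_add] at h3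
  have h4 := le_of_mul_le_mul_left h3 hj0
  have h5 : ‖combσ Eb σ c‖ ≤ ‖τ • lsum ((relWord Eb τ c).map σ)‖ +
      ‖τ • lsum ((relWord Eb τ c).map σ) - combσ Eb σ c‖ := by
    have : combσ Eb σ c = τ • lsum ((relWord Eb τ c).map σ) -
        (τ • lsum ((relWord Eb τ c).map σ) - combσ Eb σ c) := by abel
    calc ‖combσ Eb σ c‖ = ‖τ • lsum ((relWord Eb τ c).map σ) -
        (τ • lsum ((relWord Eb τ c).map σ) - combσ Eb σ c)‖ := by rw [← this]
      _ ≤ _ := norm_sub_le _ _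
  have h6 := mul_le_mul_of_nonneg_right hm' hδ3
  linarith

/-- the linear map of the law, applied to a word. -/
theorem lin_lsum {Eb : Finset E} {σ : Equiv.Perm Eb} {L : E →ₗ[ℝ] E}
    (hL : ∀ c : Eb → ℝ, L (comb Eb c) = combσ Eb σ c) (w : List Eb) :
    L (lsum w) = lsum (w.map σ) := by
  have h1 : ∀ e : Eb, L (e : E) = (σ e : E) := by
    classical
    intro e
    have := hL (Pi.single e 1)
    rw [comb_apply, combσ_apply] at this
    simpa [Pi.single_apply, ite_smul] using this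
  induction w with
  | nil => simp [lsum]
  | cons e w ih => rw [lsum_cons, map_add, ih, h1, map_cons, lsum_cons]

/-- **The word star theorem**: one linear map of the finite set describes all words. -/
theorem word_affine [FiniteDimensional ℝ E] (Eb : Finset E) (hu : ∀ e ∈ Eb, ‖e‖ = 1)
    (hspan : Submodule.span ℝ (Eb : Set E) = ⊤)
    {c0 : Eb → ℝ} (hc0 : ∀ e, 0 < c0 e) (hrel : comb Eb c0 = 0) {r : ℝ} (hr : 0 < r) :
    ∃ sep κ : ℝ, 0 < sep ∧ 0 < κ ∧ ∃ R : Finset (Eb → ℝ), (∀ c ∈ R, (∀ e, 0 ≤ c e) ∧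
      comb Eb c = 0 ∧ ∑ e, c e ≤ r) ∧
    ∀ (F : List Eb → E) (A : ℕ), 1 ≤ A → ∀ (τ δ δ1 δ3 ρ : ℝ), 0 < τ → 0 ≤ δ → 0 ≤ δ1 → 0 ≤ δ3 →
      16 * (A * τ) * δ + 16 * δ ^ 2 ≤ δ1 ^ 2 → 2 * δ1 < A * τ * sep →
      4 * (A * τ) * (δ + δ1) + (δ + δ1) ^ 2 ≤ δ3 ^ 2 →
      ρ + (τ + δ) + 2 * δ1 < A * τ * sep →
      Eb.card * (r / (A * τ) + 1) * δ3 + Eb.card * τ ≤ κ →
    ∀ P : List Eb → Prop, P [] → (∀ w e, P (w ++ [e]) → P w) →
      (∀ w : List Eb, P w → WLip Eb F A τ δ w) →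
      (∀ w : List Eb, P w → ∀ e : Eb, ∀ a ≤ A, WLip Eb F A τ δ (w ++ replicate a e)) →
      (∀ w : List Eb, P w → WStar Eb F A τ δ w) →
      (∀ w : List Eb, ∀ e e' : Eb, P (w ++ [e']) →
        ‖F ((w ++ [e']) ++ replicate A e) - F (w ++ replicate A e)‖ ≤ ρ) →
      (∀ c ∈ R, WPow Eb F P τ κ c) →
    ∃ (σ : Equiv.Perm Eb) (L : E →ₗ[ℝ] E), (∀ e : Eb, L e = σ e) ∧
      (∀ w, P w → WFull Eb F A τ δ1 σ w ∧ WLaw Eb F A τ δ3 σ w) ∧
      ∀ w m, P w → Runs A w m → ‖F w - F [] - L (τ • lsum w)‖ ≤ m * δ3 := by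
  obtain ⟨sep, hsep0, hsep⟩ := exists_sep Eb
  obtain ⟨κ, hκ, R, hR, hRσ⟩ := exists_rels Eb hc0 hrel hr
  refine ⟨sep, κ / 2, hsep0, by positivity, R, hR, ?_⟩
  intro F A hA τ δ δ1 δ3 ρ hτ hδ hδ1 hδ3 h1 h2 h3 h4 h5 P _ hP hlip hlip' hst hslow hpow
  obtain ⟨σ, hσ⟩ := word_law_pred hu hsep hA hτ.le hδ hδ1 hδ3 hP hlip hlip' hst hslow h1 h2 h3 h4
  have hA0 : (0 : ℝ) < A := by exact_mod_cast hA
  have hlin := hRσ σ fun c hc => by
    obtain ⟨g1, g2, g3⟩ := hR c hc
    have h6 := combσ_small hu hA hτ hδ3 hP (fun w hw => (hσ w hw).2) g1 (hpow c hc)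
      (M := r / (A * τ)) (fun e => by
        rw [div_mul_cancel₀ _ (by positivity)]
        exact (Finset.single_le_sum (fun e _ => g1 e) (Finset.mem_univ e)).trans g3)
    linarith
  obtain ⟨L, hL⟩ := exists_lin hspan hlin
  refine ⟨σ, L, fun e => ?_, hσ, fun w m hw hr => ?_⟩
  · have := lin_lsum hL [e]
    simpa [lsum] using this
  · have := runs_law hP (fun w hw => (hσ w hw).2) hr hw
    rwa [map_smul, lin_lsum hL]

end Word

end Crest.Agent.R182.Star
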