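/-
R182, module STAR (helper554): the law per point, at one scale.
-/
import Crest.Agent.R182.StarWord
import Crest.Agent.R182.StarClean
import Crest.Agent.R182.ConvG

set_option autoImplicit false
set_option linter.unusedSectionVars false

open MeasureTheory ENNReal List

namespace Crest.Agent.R182.Star

open Crest.Agent.R182.Conv

/-- The generating weights seen in a Euclidean space: `l i = lam i • ⟪dir i, ·⟫`, and `Eb` is the set of
the directions of the nonzero weights. -/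
structure RSys (ι : Type*) [Fintype ι] (E : Type*) [NormedAddCommGroup E] [InnerProductSpace ℝ E]
    extends GenSys ι E where
  lam : ι → ℝ
  dir : ι → E
  Eb : Finset E
  lam_nonneg : ∀ i, 0 ≤ lam i
  l_eq : ∀ i v, toGenSys.l i v = lam i * inner ℝ (dir i) v
  dir_mem : ∀ i, lam i ≠ 0 → dir i ∈ Eb
  unit : ∀ e ∈ Eb, ‖e‖ = 1
  exists_dir : ∀ e ∈ Eb, ∃ i, 0 < lam i ∧ dir i = e

section Box

variable {ι : Type*} [Fintype ι] {E : Type*} [NormedAddCommGroup E] [InnerProductSpace ℝ E]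
variable {H : Type*} [Group H] [MeasurableSpace H] [MeasurableMul₂ H] [MeasurableInv H]

/-- the leg (or the empty leg) at the word `w0`. -/
def legw {Eb : Finset E} (w0 : List Eb) (o : Option Eb) (a : ℕ) : List Eb :=
  w0 ++ (match o with
    | none => []
    | some e => replicate a e)

@[simp] theorem legw_none {Eb : Finset E} (w0 : List Eb) (a : ℕ) : legw w0 none a = w0 := by
  simp [legw]

@[simp] theorem legw_some {Eb : Finset E} (w0 : List Eb) (e : Eb) (a : ℕ) :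
    legw w0 (some e) a = w0 ++ replicate a e := rfl

/-- The capacity inequality (CAP) at one scale and one base word: `L` legs with pattern `es`. -/
def CapAt (R : RSys ι E) (ν : Measure H) (F : H → List R.Eb → E) (φ : List R.Eb → H → H)
    (A : ℕ) (τ : ℝ) (L : ℕ) (es : ℕ → Option R.Eb) (η δ' : ℝ) (w0 : List R.Eb) : Prop :=
  ∀ (n : H) (Ω : Set (Fin L → H × H)), MeasurableSet Ω →
    ENNReal.ofReal η ≤ Measure.pi (fun _ : Fin L => ν.prod ν) Ω → ∀ Y : ι → ℝ, (∀ i, 0 ≤ Y i) →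
    (∀ ω ∈ Ω, ∀ j < L, ∀ a ≤ A, ∀ i,
      R.l i (F (wk (fun j => φ (legw w0 (es j) A)) n (extω ω) j) (legw w0 (es j) a) - F n w0)
        ≤ Y i ∧
      R.l i (F (wk (fun j => φ (legw w0 (es j) A)) n (extω ω) (j + 1)) (legw w0 (es j) a) - F n w0)
        ≤ Y i) →
    R.Gt (fun i => A * τ * R.lam i) ≤ R.Gt Y + δ'

/-- the smallest positive weight norm, the largest weight norm (abstractly) -/
theorem RSys.exists_bounds (R : RSys ι E) : ∃ m M : ℝ, 0 < m ∧ 0 ≤ M ∧
    (∀ i, R.lam i ≠ 0 → m ≤ R.lam i) ∧ ∀ i, R.lam i ≤ M := by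
  classical
  by_cases h : ((Finset.univ : Finset ι).filter fun i => R.lam i ≠ 0).Nonempty
  · obtain ⟨i0, hi0, hmin⟩ := Finset.exists_min_image _ R.lam h
    have hi0' := (Finset.mem_filter.mp hi0).2
    refine ⟨R.lam i0, ∑ i, R.lam i, lt_of_le_of_ne (R.lam_nonneg i0) (Ne.symm hi0'),
      Finset.sum_nonneg fun i _ => R.lam_nonneg i, fun i hi => hmin i (by simp [hi]), fun i => ?_⟩
    exact Finset.single_le_sum (fun i _ => R.lam_nonneg i) (Finset.mem_univ i)
  · rw [Finset.not_nonempty_iff_eq_empty, Finset.filter_eq_empty_iff] at h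
    refine ⟨1, 0, one_pos, le_rfl, fun i hi => absurd hi (by simpa using h (Finset.mem_univ i)),
      fun i => ?_⟩
    have := h (Finset.mem_univ i)
    push Not at this
    exact this.le

/-- the arithmetic of the star argument. -/
theorem RSys.star_arith (R : RSys ι E) {m M : ℝ} (hm : ∀ i, R.lam i ≠ 0 → m ≤ R.lam i)
    (hM : ∀ i, R.lam i ≤ M) {r δ δs δ' : ℝ} (hδ : 0 ≤ δ) (hδs : 0 ≤ δs) {e : E} (he : e ∈ R.Eb)
    (hnum : 2 * δ * M * R.Lip + δ' < δs * m)
    {Y : ι → ℝ} (hY1 : ∀ i, Y i ≤ R.lam i * (r + 2 * δ))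
    (hY2 : ∀ i, R.lam i ≠ 0 → R.dir i = e → Y i ≤ R.lam i * (r + 2 * δ) - R.lam i * δs)
    (hG : R.Gt (fun i => r * R.lam i) ≤ R.Gt Y + δ') : False := by
  classical
  obtain ⟨i0, hi0, hdir⟩ := R.exists_dir e he
  set Z : ι → ℝ := fun i => R.lam i * (r + 2 * δ) - Y i with hZ
  have hZ0 : ∀ i, 0 ≤ Z i := fun i => sub_nonneg.mpr (hY1 i)
  have h1 := R.Gt_add_ge Y Z hZ0
  have h2 : (fun i => Y i + Z i) = fun i => R.lam i * (r + 2 * δ) := by
    funext i; simp [hZ]
  rw [h2] at h1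
  have h3 : R.Gt (fun i => R.lam i * (r + 2 * δ)) ≤
      R.Gt (fun i => r * R.lam i) + R.Lip * (2 * δ * M) := by
    have hM0 : 0 ≤ M := (R.lam_nonneg i0).trans (hM i0)
    refine R.Gt_le_add (by positivity) fun i => ?_
    have := hM i
    nlinarith [R.lam_nonneg i]
  have h4 : Z i0 ≤ ∑ i, Z i := Finset.single_le_sum (fun i _ => hZ0 i) (Finset.mem_univ i0)
  have h5 : δs * m ≤ Z i0 := by
    have h6 := hY2 i0 hi0.ne' hdir
    have h7 := hm i0 hi0.ne'
    simp only [hZ]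
    nlinarith
  nlinarith

variable {ν μ : Measure H} [IsProbabilityMeasure ν] [SFinite μ] [μ.IsMulRightInvariant]

/-- **the star argument (measure part)**: a class on which the star fails is small. -/
theorem class_small (R : RSys ι E) {m M : ℝ} (hm : ∀ i, R.lam i ≠ 0 → m ≤ R.lam i)
    (hM : ∀ i, R.lam i ≤ M) {F : H → List R.Eb → E} {φ : List R.Eb → H → H}
    (hφ : ∀ w, Measurable (φ w)) {A : ℕ} {τ : ℝ} (hτ : 0 ≤ τ) {L : ℕ} {es : ℕ → Option R.Eb}
    {η δ δs δ' : ℝ} (hδ : 0 ≤ δ) (hδs : 0 ≤ δs) {w0 : List R.Eb}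
    (hcap : CapAt R ν F φ A τ L es η δ' w0)
    {c : ℝ≥0∞} (hc : ENNReal.ofReal η ≤ c ^ L) {D Q' : Set H} (hD : MeasurableSet D)
    (hQ' : MeasurableSet Q') (hDQ : ∀ o : Option R.Eb, ∀ᵐ a ∂ν, ∀ q ∈ D,
      q * (φ (legw w0 o A) a)⁻¹ ∈ Q') (hfin : μ D ≠ ∞)
    (hcell : ∀ n ∈ D, ∀ n' ∈ D, ‖F n w0 - F n' w0‖ ≤ δ)
    (hlip : ∀ n ∈ D, ∀ e : R.Eb, ∀ a ≤ A, ‖F n (w0 ++ replicate a e) - F n w0‖ ≤ a * τ + δ)
    {e : R.Eb} (hfail : ∀ n ∈ D, ∀ e' : R.Eb, ∀ a ≤ A,
      inner ℝ (e : E) (F n (w0 ++ replicate a e') - F n w0) < A * τ - δs)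
    (hnum : 2 * δ * M * R.Lip + δ' < δs * m) :
    μ D ≤ L * (Fintype.card (Option R.Eb) * (c * μ Q')) := by
  classical
  by_contra hcon
  push Not at hcon
  set Φ : Option R.Eb → H → H := fun o => φ (legw w0 o A) with hΦ
  have hΦm : ∀ o, Measurable (Φ o) := fun o => hφ _
  have h1 := measure_cleanN (μ := μ) hΦm hD hQ' hfin hDQ c L
  have hpos : 0 < μ (cleanN ν Φ c D L) := by
    by_contra h0
    have h0' : μ (cleanN ν Φ c D L) = 0 := by simpa using h0
    rw [h0', zero_add] at h1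
    exact absurd hcon (not_lt.mpr h1)
  obtain ⟨n0, hn0⟩ := nonempty_of_measure_ne_zero hpos.ne'
  -- the walk
  have hAm : ∀ j, MeasurableSet (cleanN ν Φ c D (L - j)) := fun j => measurableSet_cleanN hΦm c hD _
  have hw := walk_prob (ν := ν) c L (fun j => Φ (es j)) (fun j => cleanN ν Φ c D (L - j))
    (fun j => hΦm _) hAm (fun j hj q hq => by
      have e1 : L - j = (L - (j + 1)) + 1 := by omega
      rw [e1] at hq
      exact Tk_cleanN Φ c D _ hq (es j)) n0 (by simpa using hn0)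
  set Ω : Set (Fin L → H × H) := {ω | ∀ j ≤ L, wk (fun j => Φ (es j)) n0 (extω ω) j ∈
    cleanN ν Φ c D (L - j)} with hΩ
  have hΩm : MeasurableSet Ω := measurableSet_walk (fun j => hΦm _) hAm n0 L
  have hn0D : n0 ∈ D := cleanN_subset Φ c D L hn0
  -- the bounds for the heights
  have hA0 : (0 : ℝ) ≤ A := Nat.cast_nonneg A
  have hrs : 0 < A * τ - δs := by
    have := hfail n0 hn0D e 0 (Nat.zero_le _)
    simpa using this
  set Y : ι → ℝ := fun i => if R.lam i ≠ 0 ∧ R.dir i = e then R.lam i * (A * τ + δ - δs)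
    else R.lam i * (A * τ + 2 * δ) with hY
  have hY0 : ∀ i, 0 ≤ Y i := by
    intro i
    simp only [hY]
    have := R.lam_nonneg i
    split_ifs
    · exact mul_nonneg this (by linarith)
    · exact mul_nonneg this (by positivity)
  have key : ∀ n ∈ D, ∀ o : Option R.Eb, ∀ a ≤ A, ∀ i,
      R.l i (F n (legw w0 o a) - F n0 w0) ≤ Y i := by
    intro n hn o a ha i
    rw [R.l_eq]
    have e1 : F n (legw w0 o a) - F n0 w0 =
        (F n (legw w0 o a) - F n w0) + (F n w0 - F n0 w0) := by abel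
    by_cases hlam : R.lam i = 0
    · rw [hlam, zero_mul]; exact hY0 i
    have hdirm := R.dir_mem i hlam
    have hu := R.unit _ hdirm
    have h2 : inner ℝ (R.dir i) (F n w0 - F n0 w0) ≤ δ := by
      have := real_inner_le_norm (R.dir i) (F n w0 - F n0 w0)
      rw [hu, one_mul] at this
      exact this.trans (hcell n hn n0 hn0D)
    rw [e1, inner_add_right]
    have hl0 := R.lam_nonneg i
    by_cases hde : R.dir i = e
    · have h3 : inner ℝ (R.dir i) (F n (legw w0 o a) - F n w0) ≤ A * τ - δs := by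
        rw [hde]
        cases o with
        | none => simp [hrs.le]
        | some e' => exact (hfail n hn e' a ha).le
      have h4 : Y i = R.lam i * (A * τ + δ - δs) := by simp only [hY]; rw [if_pos ⟨hlam, hde⟩]
      rw [h4]
      exact mul_le_mul_of_nonneg_left (by linarith) hl0
    · have h3 : inner ℝ (R.dir i) (F n (legw w0 o a) - F n w0) ≤ A * τ + δ := by
        cases o with
        | none => simp; positivity
        | some e' =>
          have h5 := real_inner_le_norm (R.dir i) (F n (w0 ++ replicate a e') - F n w0)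
          rw [hu, one_mul] at h5
          refine h5.trans ((hlip n hn e' a ha).trans ?_)
          have : (a : ℝ) ≤ A := by exact_mod_cast ha
          have := mul_le_mul_of_nonneg_right this hτ
          linarith
      have h4 : Y i = R.lam i * (A * τ + 2 * δ) := by
        simp only [hY]; rw [if_neg (fun h => hde h.2)]
      rw [h4]
      exact mul_le_mul_of_nonneg_left (by linarith) hl0
  have hGt := hcap n0 Ω hΩm (hc.trans hw) Y hY0 (by
    intro ω hω j hj a ha i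
    have g1 := cleanN_subset Φ c D _ (hω j hj.le)
    have g2 := cleanN_subset Φ c D _ (hω (j + 1) hj)
    exact ⟨key _ g1 _ a ha i, key _ g2 _ a ha i⟩)
  refine R.star_arith hm hM hδ hδs e.2 hnum (Y := Y) (r := A * τ) ?_ ?_ hGt
  · intro i
    simp only [hY]
    split_ifs
    · have := R.lam_nonneg i
      exact mul_le_mul_of_nonneg_left (by linarith) this
    · exact le_rfl
  · intro i hi hd
    simp only [hY]
    rw [if_pos ⟨hi, hd⟩]
    have := R.lam_nonneg i
    nlinarith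

/-- **the set of points where some star fails is small.** -/
theorem star_bad_small [MeasurableSpace E] [BorelSpace E] [SecondCountableTopology E]
    (R : RSys ι E) {m M : ℝ} (hm : ∀ i, R.lam i ≠ 0 → m ≤ R.lam i)
    (hM : ∀ i, R.lam i ≤ M) {F : H → List R.Eb → E} (hF : ∀ w, Measurable fun n => F n w)
    {φ : List R.Eb → H → H} (hφ : ∀ w, Measurable (φ w)) {A : ℕ} {τ : ℝ} (hτ : 0 ≤ τ) {L : ℕ}
    {es : ℕ → Option R.Eb} {η δ δs δ' : ℝ} (hδ : 0 ≤ δ) (hδs : 0 ≤ δs) (Pf : Finset (List R.Eb))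
    (hcap : ∀ w0 ∈ Pf, CapAt R ν F φ A τ L es η δ' w0)
    {c : ℝ≥0∞} (hc : ENNReal.ofReal η ≤ c ^ L) {Q Q' : Set H} (hQ : MeasurableSet Q)
    (hQ' : MeasurableSet Q') (hDQ : ∀ w0 ∈ Pf, ∀ o : Option R.Eb, ∀ᵐ a ∂ν, ∀ q ∈ Q,
      q * (φ (legw w0 o A) a)⁻¹ ∈ Q') (hfin : μ Q ≠ ∞) {Mc : ℕ}
    (hcell : ∀ w0 ∈ Pf, ∃ T : Fin Mc → Set E, (∀ i, MeasurableSet (T i)) ∧
      (∀ i, ∀ x ∈ T i, ∀ y ∈ T i, ‖x - y‖ ≤ δ) ∧ ∀ n ∈ Q, ∃ i, F n w0 ∈ T i)
    (hnum : 2 * δ * M * R.Lip + δ' < δs * m) :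
    μ {n | n ∈ Q ∧ (∀ w0 ∈ Pf, WLip R.Eb (F n) A τ δ w0) ∧
      ¬ ∀ w0 ∈ Pf, WStar R.Eb (F n) A τ δs w0} ≤
      Pf.card * (R.Eb.card * (Mc * (L * (Fintype.card (Option R.Eb) * (c * μ Q'))))) := by
  classical
  choose! T hTm hTd hTc using hcell
  set D : List R.Eb → R.Eb → Fin Mc → Set H := fun w0 e i =>
    {n | n ∈ Q ∧ F n w0 ∈ T w0 i ∧
      (∀ e' : R.Eb, ∀ a ≤ A, ‖F n (w0 ++ replicate a e') - F n w0‖ ≤ a * τ + δ) ∧
      ∀ e' : R.Eb, ∀ a ≤ A, inner ℝ (e : E) (F n (w0 ++ replicate a e') - F n w0) < A * τ - δs}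
    with hDdef
  have hDm : ∀ w0 ∈ Pf, ∀ e i, MeasurableSet (D w0 e i) := by
    intro w0 hw0 e i
    have h1 : MeasurableSet {n | F n w0 ∈ T w0 i} := hF w0 (hTm w0 hw0 i)
    have h2 : MeasurableSet {n | ∀ e' : R.Eb, ∀ a ≤ A,
        ‖F n (w0 ++ replicate a e') - F n w0‖ ≤ a * τ + δ} := by
      have : {n | ∀ e' : R.Eb, ∀ a ≤ A, ‖F n (w0 ++ replicate a e') - F n w0‖ ≤ a * τ + δ} =
          ⋂ e' : R.Eb, ⋂ a : ℕ, ⋂ _ : a ≤ A,
            {n | ‖F n (w0 ++ replicate a e') - F n w0‖ ≤ a * τ + δ} := by ext; simp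
      rw [this]
      refine MeasurableSet.iInter fun e' => MeasurableSet.iInter fun a => MeasurableSet.iInter
        fun _ => ?_
      exact measurableSet_le ((hF _).sub (hF _)).norm measurable_const
    have h3 : MeasurableSet {n | ∀ e' : R.Eb, ∀ a ≤ A,
        inner ℝ (e : E) (F n (w0 ++ replicate a e') - F n w0) < A * τ - δs} := by
      have : {n | ∀ e' : R.Eb, ∀ a ≤ A,
          inner ℝ (e : E) (F n (w0 ++ replicate a e') - F n w0) < A * τ - δs} =
          ⋂ e' : R.Eb, ⋂ a : ℕ, ⋂ _ : a ≤ A,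
            {n | inner ℝ (e : E) (F n (w0 ++ replicate a e') - F n w0) < A * τ - δs} := by
        ext; simp
      rw [this]
      refine MeasurableSet.iInter fun e' => MeasurableSet.iInter fun a => MeasurableSet.iInter
        fun _ => ?_
      refine measurableSet_lt ?_ measurable_const
      have hc : Measurable fun x : E => inner ℝ (e : E) x :=
        (continuous_const.inner continuous_id).measurable
      exact hc.comp ((hF _).sub (hF _))
    exact hQ.inter (h1.inter (h2.inter h3))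
  have hsmall : ∀ w0 ∈ Pf, ∀ e i, μ (D w0 e i) ≤
      L * (Fintype.card (Option R.Eb) * (c * μ Q')) := by
    intro w0 hw0 e i
    refine class_small R hm hM hφ hτ hδ hδs (hcap w0 hw0) hc (hDm w0 hw0 e i) hQ' ?_ ?_ ?_ ?_
      (e := e) ?_ hnum
    · intro o
      filter_upwards [hDQ w0 hw0 o] with a ha q hq using ha q hq.1
    · exact ne_top_of_le_ne_top hfin (measure_mono fun n hn => hn.1)
    · intro n hn n' hn'
      exact hTd w0 hw0 i _ hn.2.1 _ hn'.2.1
    · intro n hn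
      exact hn.2.2.1
    · intro n hn
      exact hn.2.2.2
  have hsub : {n | n ∈ Q ∧ (∀ w0 ∈ Pf, WLip R.Eb (F n) A τ δ w0) ∧
      ¬ ∀ w0 ∈ Pf, WStar R.Eb (F n) A τ δs w0} ⊆
      ⋃ w0 ∈ Pf, ⋃ e : R.Eb, ⋃ i : Fin Mc, D w0 e i := by
    rintro n ⟨hnQ, hlip, hst⟩
    push Not at hst
    obtain ⟨w0, hw0, hst⟩ := hst
    unfold WStar at hst
    push Not at hst
    obtain ⟨e, hst⟩ := hst
    obtain ⟨i, hi⟩ := hTc w0 hw0 n hnQ
    simp only [Set.mem_iUnion]
    exact ⟨w0, hw0, e, i, hnQ, hi, hlip w0 hw0, hst⟩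
  refine (measure_mono hsub).trans ((measure_biUnion_finset_le _ _).trans ?_)
  have h1 : ∀ w0 ∈ Pf, μ (⋃ e : R.Eb, ⋃ i : Fin Mc, D w0 e i) ≤
      R.Eb.card * (Mc * (L * (Fintype.card (Option R.Eb) * (c * μ Q')))) := by
    intro w0 hw0
    refine (measure_iUnion_fintype_le μ _).trans ?_
    have h2 : ∀ e ∈ (Finset.univ : Finset R.Eb), μ (⋃ i : Fin Mc, D w0 e i) ≤
        Mc * (L * (Fintype.card (Option R.Eb) * (c * μ Q'))) := by
      intro e _
      refine (measure_iUnion_fintype_le μ _).trans ?_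
      refine (Finset.sum_le_sum fun i _ => hsmall w0 hw0 e i).trans ?_
      simp
    refine (Finset.sum_le_sum h2).trans ?_
    simp
  refine (Finset.sum_le_sum h1).trans ?_
  simp

/-- finite cells: a closed ball is covered by finitely many measurable sets of small diameter. -/
theorem exists_cells [FiniteDimensional ℝ E] [MeasurableSpace E] [BorelSpace E] (C : ℝ) {δ : ℝ}
    (hδ : 0 < δ) : ∃ Mc : ℕ, ∀ p : E, ∃ T : Fin Mc → Set E, (∀ i, MeasurableSet (T i)) ∧
      (∀ i, ∀ x ∈ T i, ∀ y ∈ T i, ‖x - y‖ ≤ δ) ∧ ∀ x, ‖x - p‖ ≤ C → ∃ i, x ∈ T i := by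
  classical
  have : ProperSpace E := FiniteDimensional.proper ℝ E
  have hcomp : IsCompact (Metric.closedBall (0 : E) C) := isCompact_closedBall _ _
  obtain ⟨t, _, htf, hcov⟩ := hcomp.finite_cover_balls (e := δ / 2) (by positivity)
  obtain ⟨N, f, hf⟩ : ∃ N : ℕ, ∃ f : Fin N → E, ∀ x ∈ t, ∃ i, f i = x := by
    refine ⟨htf.toFinset.card, fun i => (htf.toFinset.equivFin.symm i : E), fun x hx => ?_⟩
    refine ⟨htf.toFinset.equivFin ⟨x, by simpa using hx⟩, by simp⟩
  refine ⟨N, fun p => ⟨fun i => Metric.ball (p + f i) (δ / 2), fun i => measurableSet_ball,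
    fun i x hx y hy => ?_, fun x hx => ?_⟩⟩
  · rw [Metric.mem_ball] at hx hy
    rw [← dist_eq_norm]
    have := dist_triangle_right x y (p + f i)
    linarith
  · have h1 : x - p ∈ Metric.closedBall (0 : E) C := by simpa using hx
    have h2 := hcov h1
    simp only [Set.mem_iUnion] at h2
    obtain ⟨y, hy, h3⟩ := h2
    obtain ⟨i, rfl⟩ := hf y hy
    refine ⟨i, ?_⟩
    rw [Metric.mem_ball, dist_eq_norm] at h3 ⊢
    rwa [sub_add_eq_sub_sub]

end Box

end Crest.Agent.R182.Star
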