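/-
R182, module STAR (helper554): Riesz vectors of the generating weights.
-/
import Crest.Agent.R182.StarBox

set_option autoImplicit false
set_option linter.unusedSectionVars false

open MeasureTheory ENNReal List

namespace Crest.Agent.R182.Star

open Crest.Agent.R182.Conv

variable {ι : Type*} [Fintype ι] {E : Type*} [NormedAddCommGroup E] [InnerProductSpace ℝ E]
  [FiniteDimensional ℝ E]

/-- the Riesz vector of `l i` -/
noncomputable def riesz (S : GenSys ι E) (i : ι) : E :=
  haveI : CompleteSpace E := FiniteDimensional.complete ℝ E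
  (InnerProductSpace.toDual ℝ E).symm (LinearMap.toContinuousLinearMap (S.l i))

theorem inner_riesz (S : GenSys ι E) (i : ι) (v : E) : inner ℝ (riesz S i) v = S.l i v := by
  haveI : CompleteSpace E := FiniteDimensional.complete ℝ E
  unfold riesz
  rw [InnerProductSpace.toDual_symm_apply]
  rfl

open Classical in
/-- the system of the Riesz directions. -/
noncomputable def RSys.ofGen (S : GenSys ι E) : RSys ι E where
  toGenSys := S
  lam i := ‖riesz S i‖
  dir i := (‖riesz S i‖)⁻¹ • riesz S i
  Eb := (Finset.univ.filter fun i => ‖riesz S i‖ ≠ 0).image fun i => (‖riesz S i‖)⁻¹ • riesz S i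
  lam_nonneg i := norm_nonneg _
  l_eq i v := by
    rw [inner_smul_left, inner_riesz]
    by_cases h : ‖riesz S i‖ = 0
    · rw [h, zero_mul, ← inner_riesz, norm_eq_zero.mp h, inner_zero_left]
    · simp [mul_inv_cancel_left₀ h]
  dir_mem i hi := Finset.mem_image.mpr ⟨i, by simpa using hi, rfl⟩
  unit e he := by
    obtain ⟨i, hi, rfl⟩ := Finset.mem_image.mp he
    have hi' := (Finset.mem_filter.mp hi).2
    rw [norm_smul, norm_inv, norm_norm, inv_mul_cancel₀ hi']
  exists_dir e he := by
    obtain ⟨i, hi, rfl⟩ := Finset.mem_image.mp he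
    have hi' := (Finset.mem_filter.mp hi).2
    exact ⟨i, lt_of_le_of_ne (norm_nonneg _) (Ne.symm hi'), rfl⟩

theorem RSys.span_Eb (R : RSys ι E) : Submodule.span ℝ (R.Eb : Set E) = ⊤ := by
  rw [← Submodule.orthogonal_eq_bot_iff, Submodule.eq_bot_iff]
  intro v hv
  refine R.sep v fun i => ?_
  rw [R.l_eq]
  by_cases h : R.lam i = 0
  · rw [h, zero_mul]
  · rw [Submodule.mem_orthogonal] at hv
    rw [hv _ (Submodule.subset_span (R.dir_mem i h)), mul_zero]

/-- a positive relation between the directions (unimodularity). -/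
theorem RSys.exists_rel (R : RSys ι E) : ∃ c0 : R.Eb → ℝ, (∀ e, 0 < c0 e) ∧ comb R.Eb c0 = 0 := by
  classical
  obtain ⟨n, hn⟩ := R.ne
  refine ⟨fun e => ∑ i, if R.lam i ≠ 0 ∧ R.dir i = e then (n i : ℝ) * R.lam i else 0, fun e => ?_, ?_⟩
  · obtain ⟨i, hi, hd⟩ := R.exists_dir e e.2
    have h1 : (1 : ℝ) ≤ n i := by exact_mod_cast R.one_le n hn i
    refine lt_of_lt_of_le (b := (n i : ℝ) * R.lam i) (by positivity) ?_
    have h2 := Finset.single_le_sum (f := fun i => if R.lam i ≠ 0 ∧ R.dir i = e then
      (n i : ℝ) * R.lam i else 0) (fun i _ => by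
        split_ifs
        · exact mul_nonneg (Nat.cast_nonneg _) (R.lam_nonneg i)
        · exact le_rfl) (Finset.mem_univ i)
    simp only [ne_eq, hi.ne', not_false_eq_true, hd, and_self, if_true] at h2
    exact h2
  · rw [comb_apply]
    have h1 : ∀ e : R.Eb, (∑ i, if R.lam i ≠ 0 ∧ R.dir i = e then (n i : ℝ) * R.lam i else 0) •
        (e : E) = ∑ i, if R.lam i ≠ 0 ∧ R.dir i = e then ((n i : ℝ) * R.lam i) • R.dir i else 0 := by
      intro e
      rw [Finset.sum_smul]
      refine Finset.sum_congr rfl fun i _ => ?_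
      split_ifs with h
      · rw [h.2]
      · rw [zero_smul]
    simp_rw [h1]
    rw [Finset.sum_comm]
    have h2 : ∀ i, (∑ e : R.Eb, if R.lam i ≠ 0 ∧ R.dir i = e then
        ((n i : ℝ) * R.lam i) • R.dir i else 0) = ((n i : ℝ) * R.lam i) • R.dir i := by
      intro i
      by_cases hi : R.lam i = 0
      · simp [hi]
      · have hm := R.dir_mem i hi
        rw [Finset.sum_eq_single (⟨R.dir i, hm⟩ : R.Eb)]
        · simp [hi]
        · intro e _ he
          rw [if_neg]
          rintro ⟨_, h⟩
          exact he (Subtype.ext h.symm)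
        · simp
    simp_rw [h2]
    refine ext_inner_right ℝ fun v => ?_
    rw [inner_zero_left, sum_inner]
    have h3 := R.tr n hn v
    rw [← h3]
    refine Finset.sum_congr rfl fun i _ => ?_
    rw [inner_smul_left, R.l_eq]
    simp [mul_assoc]

end Crest.Agent.R182.Star
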