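/-
R182, module ELINST (helper329): quantifier `Ev`, words and heights of legs, elementary facts of the
data of a `BModel`.
-/
import Mathlib
import Crest.Agent.R182.ElData

set_option autoImplicit false
set_option linter.unusedSectionVars false

open MeasureTheory Set
open scoped Pointwise RealInnerProductSpace ENNReal

namespace Crest.Agent.R182.ElI

open Crest.GroupTheory Crest.Geometry Crest.Agent.R182.QI Crest.Agent.R182.Core
  Crest.Agent.R182.Nb Crest.Agent.R182.Gen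

theorem exists_pos_le {ι : Type*} [Finite ι] (f : ι → ℝ) (hf : ∀ i, 0 < f i) :
    ∃ γ : ℝ, 0 < γ ∧ γ ≤ 1 ∧ ∀ i, γ ≤ f i := by
  classical
  cases nonempty_fintype ι
  rcases isEmpty_or_nonempty ι with h | h
  · exact ⟨1, one_pos, le_rfl, fun i => (h.false i).elim⟩
  · obtain ⟨i, -, hi⟩ := Finset.exists_min_image Finset.univ f Finset.univ_nonempty
    exact ⟨min 1 (f i), lt_min one_pos (hf i), min_le_left _ _, fun j =>
      (min_le_right _ _).trans (hi j (Finset.mem_univ j))⟩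

theorem exists_ge {ι : Type*} [Finite ι] (f : ι → ℝ) : ∃ γ : ℝ, 1 ≤ γ ∧ ∀ i, f i ≤ γ := by
  classical
  cases nonempty_fintype ι
  refine ⟨1 + ∑ i, |f i|, ?_, fun i => ?_⟩
  · have : 0 ≤ ∑ i, |f i| := Finset.sum_nonneg fun i _ => abs_nonneg _
    linarith
  · have h1 := Finset.single_le_sum (f := fun i => |f i|) (fun i _ => abs_nonneg _)
      (Finset.mem_univ i)
    have h2 := le_abs_self (f i)
    beta_reduce at h1
    linarith

/-- exponentials beat polynomials -/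
theorem exists_poly_le (A B : ℝ) (D : ℕ) {δ : ℝ} (hδ : 0 < δ) : ∃ S0 : ℝ, 1 ≤ S0 ∧ ∀ Sc, S0 ≤ Sc →
    A * (1 + B * Sc) ^ D ≤ Real.exp (δ * Sc) := by
  have h1 := isLittleO_pow_exp_pos_mul_atTop D hδ
  set c : ℝ := (|A| * (1 + |B|) ^ D + 1)⁻¹ with hc
  have hc0 : 0 < c := by positivity
  have h2 := h1.def hc0
  obtain ⟨S1, hS1⟩ := Filter.eventually_atTop.1 h2
  refine ⟨max S1 1, le_max_right _ _, fun Sc hSc => ?_⟩
  have hSc1 : 1 ≤ Sc := (le_max_right _ _).trans hSc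
  have h3 := hS1 Sc ((le_max_left _ _).trans hSc)
  rw [Real.norm_of_nonneg (by positivity), Real.norm_of_nonneg (Real.exp_pos _).le] at h3
  have h4 : |1 + B * Sc| ≤ (1 + |B|) * Sc := by
    refine (abs_add_le _ _).trans ?_
    rw [abs_one, abs_mul, abs_of_nonneg (by linarith : 0 ≤ Sc), add_mul, one_mul]
    linarith
  have h5 : A * (1 + B * Sc) ^ D ≤ |A| * ((1 + |B|) * Sc) ^ D := by
    refine (le_abs_self _).trans ?_
    rw [abs_mul, abs_pow]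
    gcongr
  refine h5.trans ?_
  rw [mul_pow, ← mul_assoc]
  have h6 : |A| * (1 + |B|) ^ D * c ≤ 1 := by
    rw [hc, mul_inv_le_iff₀ (by positivity)]
    linarith
  calc |A| * (1 + |B|) ^ D * Sc ^ D ≤ |A| * (1 + |B|) ^ D * (c * Real.exp (δ * Sc)) := by gcongr
    _ = |A| * (1 + |B|) ^ D * c * Real.exp (δ * Sc) := by ring
    _ ≤ 1 * Real.exp (δ * Sc) := by gcongr
    _ = _ := one_mul _

/-- linear functions beat logarithms -/
theorem exists_log_le (A B : ℝ) {δ : ℝ} (hδ : 0 < δ) : ∃ S0 : ℝ, 1 ≤ S0 ∧ ∀ Sc, S0 ≤ Sc →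
    ∀ t, 0 < t → t ≤ 1 + |B| * Sc → |A| * (1 + Real.log t) ≤ δ * Sc := by
  obtain ⟨S0, h1, h2⟩ := exists_poly_le (Real.exp 1) |B| 1 (δ := δ / (|A| + 1)) (by positivity)
  refine ⟨S0, h1, fun Sc hSc t ht htB => ?_⟩
  have h3 := h2 Sc hSc
  rw [pow_one] at h3
  have h4 : Real.exp (1 + Real.log t) ≤ Real.exp (δ / (|A| + 1) * Sc) := by
    rw [Real.exp_add, Real.exp_log ht]
    refine le_trans ?_ h3
    gcongr
  have h5 := Real.exp_le_exp.1 h4
  have h6 : (|A| + 1) * (1 + Real.log t) ≤ δ * Sc := by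
    have := mul_le_mul_of_nonneg_left h5 (by positivity : 0 ≤ |A| + 1)
    refine this.trans (le_of_eq ?_)
    field_simp
  have hδS : 0 ≤ δ * Sc := by
    have : 0 ≤ Sc := by linarith
    positivity
  by_cases h7 : 0 ≤ 1 + Real.log t
  · nlinarith
  · push Not at h7
    have : |A| * (1 + Real.log t) ≤ 0 := mul_nonpos_of_nonneg_of_nonpos (abs_nonneg _) h7.le
    linarith

variable {Γ : Type*} [Group Γ] {k : ℕ} {S : Set Γ} {π : Γ →* Multiplicative (Fin k → ℤ)}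
variable {M : BModel S π} {E : Type*} [NormedAddCommGroup E] [InnerProductSpace ℝ E]

/-- `γ` separates the directions of the rays -/
def Gap (G : Geo M E) (γ : ℝ) : Prop :=
  0 < γ ∧ γ ≤ 1 ∧ ∀ e e' : G.R, e ≠ e' → ⟪(e : E), (e' : E)⟫ ≤ 1 - γ

theorem exists_gap (G : Geo M E) : ∃ γ, Gap G γ := by
  classical
  obtain ⟨γ, h0, h1, h⟩ := exists_pos_le
    (fun p : {p : G.R × G.R // p.1 ≠ p.2} => 1 - ⟪(p.1.1 : E), (p.1.2 : E)⟫) (fun p => by
      have h2 : ⟪(p.1.1 : E), (p.1.2 : E)⟫ < 1 :=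
        (inner_lt_one_iff_real_of_norm_eq_one (G.norm_ray _) (G.norm_ray _)).2
          fun h => p.2 (Subtype.ext h)
      linarith)
  refine ⟨γ, h0, h1, fun e e' hne => ?_⟩
  have := h ⟨(e, e'), hne⟩
  beta_reduce at this
  linarith

/-- bounds for the multiples -/
theorem exists_lam (G : Geo M E) : ∃ l0 l1 : ℝ, 0 < l0 ∧ l0 ≤ 1 ∧ 1 ≤ l1 ∧
    ∀ i, l0 ≤ G.RS.lam i ∧ G.RS.lam i ≤ l1 := by
  obtain ⟨l0, h0, h1, h⟩ := exists_pos_le G.RS.lam G.lam_pos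
  obtain ⟨l1, h2, h3⟩ := exists_ge G.RS.lam
  exact ⟨l0, l1, h0, h1, h2, fun i => ⟨h i, h3 i⟩⟩

/-- change of the accuracy -/
def Unit.mono {G : Geo M E} {RC Cb e e' τ Sc : ℝ} (un : Unit G RC Cb e τ Sc) (h : e ≤ e')
    (hτ : 0 ≤ τ * Sc) : Unit G RC Cb e' τ Sc where
  u := un.u
  w := un.w
  w_prod := un.w_prod
  w_mem := un.w_mem
  w_len := un.w_len
  acc r := (un.acc r).trans (mul_le_mul_of_nonneg_right h hτ)

/-- "for all small `τ`, for all accurate unit legs, at all large scales" -/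
def Ev (G : Geo M E) (RC Cb : ℝ) (P : ℝ → ℝ → (G.R → M.G) → Prop) : Prop :=
  ∃ τ0 : ℝ, 0 < τ0 ∧ ∀ τ, 0 < τ → τ ≤ τ0 → ∃ e0 : ℝ, 0 < e0 ∧ ∃ S0 : ℝ, ∀ Sc, S0 ≤ Sc →
    ∀ un : Unit G RC Cb e0 τ Sc, P Sc τ un.u

namespace Ev

variable {G : Geo M E} {RC Cb : ℝ} {P Q : ℝ → ℝ → (G.R → M.G) → Prop}

theorem mono (h : Ev G RC Cb P) (hPQ : ∀ Sc τ u, 0 < τ → 0 < Sc → P Sc τ u → Q Sc τ u) :
    Ev G RC Cb Q := by
  obtain ⟨τ0, h0, h⟩ := h
  refine ⟨τ0, h0, fun τ hτ hτ0 => ?_⟩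
  obtain ⟨e0, he0, S0, h1⟩ := h τ hτ hτ0
  exact ⟨e0, he0, max S0 1, fun Sc hSc un => hPQ _ _ _ hτ
    (lt_of_lt_of_le one_pos ((le_max_right _ _).trans hSc))
    (h1 Sc ((le_max_left _ _).trans hSc) un)⟩

theorem and (h : Ev G RC Cb P) (h' : Ev G RC Cb Q) :
    Ev G RC Cb fun Sc τ u => P Sc τ u ∧ Q Sc τ u := by
  obtain ⟨τ1, hτ1, h1⟩ := h
  obtain ⟨τ2, hτ2, h2⟩ := h'
  refine ⟨min τ1 τ2, lt_min hτ1 hτ2, fun τ hτ hτ0 => ?_⟩
  obtain ⟨e1, he1, S1, h3⟩ := h1 τ hτ (hτ0.trans (min_le_left _ _))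
  obtain ⟨e2, he2, S2, h4⟩ := h2 τ hτ (hτ0.trans (min_le_right _ _))
  refine ⟨min e1 e2, lt_min he1 he2, max (max S1 S2) 0, fun Sc hSc un => ?_⟩
  have hSc0 : 0 ≤ Sc := (le_max_right _ _).trans hSc
  have hp : 0 ≤ τ * Sc := mul_nonneg hτ.le hSc0
  have hS := (le_max_left _ _).trans hSc
  exact ⟨h3 Sc ((le_max_left _ _).trans hS) (un.mono (min_le_left _ _) hp),
    h4 Sc ((le_max_right _ _).trans hS) (un.mono (min_le_right _ _) hp)⟩

/-- small `τ` -/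
theorem tau {t0 : ℝ} (ht0 : 0 < t0) : Ev G RC Cb fun _ τ _ => 0 < τ ∧ τ ≤ t0 :=
  ⟨t0, ht0, fun _ hτ hτ0 => ⟨1, one_pos, 0, fun _ _ _ => ⟨hτ, hτ0⟩⟩⟩

/-- large scale -/
theorem scale (S0 : ℝ) : Ev G RC Cb fun Sc _ _ => S0 ≤ Sc :=
  ⟨1, one_pos, fun _ _ _ => ⟨1, one_pos, S0, fun _ h _ => h⟩⟩

/-- large scale, depending on `τ` -/
theorem scale' {f : ℝ → ℝ} : Ev G RC Cb fun Sc τ _ => f τ ≤ Sc :=
  ⟨1, one_pos, fun τ _ _ => ⟨1, one_pos, f τ, fun _ h _ => h⟩⟩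

end Ev

theorem num_mul {τ : ℝ} (hτ : 0 < τ) (m : ℕ) : num τ (m * τ) = m := by
  unfold num
  rw [mul_div_cancel_right₀ _ hτ.ne', Nat.floor_natCast]

theorem num_zero (τ : ℝ) : num τ 0 = 0 := by unfold num; simp

theorem num_le {τ s : ℝ} (hτ : 0 < τ) (hs : 0 ≤ s) : (num τ s : ℝ) * τ ≤ s := by
  have := Nat.floor_le (div_nonneg hs hτ.le)
  rw [le_div_iff₀ hτ] at this
  exact this

theorem lt_num {τ s : ℝ} (hτ : 0 < τ) : s - τ < (num τ s : ℝ) * τ := by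
  have h1 := Nat.lt_floor_add_one (s / τ)
  rw [div_lt_iff₀ hτ] at h1
  unfold num
  linarith

theorem num_mono {τ : ℝ} (hτ : 0 < τ) {s t : ℝ} (h : s ≤ t) : num τ s ≤ num τ t :=
  Nat.floor_le_floor (div_le_div_of_nonneg_right h hτ.le)

theorem leg_zero {G : Geo M E} (u : G.R → M.G) (τ : ℝ) (r : G.R) : leg u τ r 0 = 1 := by
  unfold leg; rw [num_zero, pow_zero]

theorem h_pow (g : M.G) (m : ℕ) : M.h (g ^ m) = (m : ℝ) • M.h g := by
  induction m with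
  | zero => simp [M.h_one]
  | succ m ih => rw [pow_succ, M.h_mul, ih]; push_cast; rw [add_smul, one_smul]

namespace Unit

variable {G : Geo M E} {RC Cb ε₁ τ Sc : ℝ} (un : Unit G RC Cb ε₁ τ Sc)

/-- the word of `m` unit legs -/
def wl (r : G.R) (m : ℕ) : List M.G := (List.replicate m (un.w r)).flatten

theorem wl_prod (r : G.R) (m : ℕ) : (un.wl r m).prod = un.u r ^ m := by
  unfold wl
  induction m with
  | zero => simp
  | succ m ih => rw [List.replicate_succ, List.flatten_cons, List.prod_append, ih, un.w_prod,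
      pow_succ']

theorem wl_mem (r : G.R) (m : ℕ) : ∀ s ∈ un.wl r m, s ∈ M.C ∧ M.len s ≤ RC := by
  intro s hs
  unfold wl at hs
  rw [List.mem_flatten] at hs
  obtain ⟨l, hl, hs⟩ := hs
  rw [List.mem_replicate] at hl
  exact un.w_mem r s (hl.2 ▸ hs)

theorem wl_len (r : G.R) (m : ℕ) : ((un.wl r m).length : ℝ) ≤ m * (Cb * (τ * Sc)) := by
  unfold wl
  rw [List.length_flatten, List.map_replicate, List.sum_replicate, smul_eq_mul]
  push_cast
  exact mul_le_mul_of_nonneg_left (un.w_len r) (Nat.cast_nonneg m)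

include un in
theorem Cb_nonneg (r : G.R) (h : 0 < τ * Sc) : 0 ≤ Cb := by
  have h1 := un.w_len r
  have h2 : (0:ℝ) ≤ (un.w r).length := Nat.cast_nonneg _
  by_contra h3
  push Not at h3
  nlinarith

/-- length of the word of a leg -/
theorem wl_len_leg (r : G.R) (hτ : 0 < τ) (hSc : 0 < Sc) {s : ℝ} (hs : 0 ≤ s) :
    ((un.wl r (num τ s)).length : ℝ) ≤ Cb * s * Sc := by
  have h1 := un.wl_len r (num τ s)
  have h2 := num_le hτ hs
  have h3 := un.Cb_nonneg r (mul_pos hτ hSc)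
  calc _ ≤ (num τ s : ℝ) * (Cb * (τ * Sc)) := h1
    _ = (num τ s * τ) * (Cb * Sc) := by ring
    _ ≤ s * (Cb * Sc) := by gcongr
    _ = _ := by ring

theorem wl_prod_leg (r : G.R) (s : ℝ) : (un.wl r (num τ s)).prod = leg un.u τ r s :=
  un.wl_prod r _

theorem leg_mem_C (r : G.R) (s : ℝ) : leg un.u τ r s ∈ M.C := by
  rw [← un.wl_prod_leg]
  exact Subgroup.list_prod_mem _ fun s hs => (un.wl_mem r _ s hs).1

/-- the leg as a word in the sense of `GenTouch` -/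
theorem cw_leg (r : G.R) (hτ : 0 < τ) (hSc : 0 < Sc) {s : ℝ} (hs : 0 ≤ s) :
    CW M RC (1 + Cb * s * Sc) (leg un.u τ r s) :=
  ⟨un.wl r (num τ s), (un.wl_prod_leg r s).symm, un.wl_mem r _,
    add_le_add le_rfl (un.wl_len_leg r hτ hSc hs)⟩

/-- height of a leg -/
theorem height_leg (r : G.R) (hτ : 0 < τ) (hSc : 0 < Sc) (hε : 0 ≤ ε₁) {s : ℝ} (hs : 0 ≤ s) :
    ‖G.T (M.h (leg un.u τ r s)) - (s * Sc) • (r : E)‖ ≤ (ε₁ * s + τ) * Sc := by
  unfold leg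
  rw [h_pow, map_smul]
  have h1 := num_le hτ hs
  have h2 := lt_num (s := s) hτ
  have hn : (0:ℝ) ≤ num τ s := Nat.cast_nonneg _
  have e1 : (num τ s : ℝ) • G.T (M.h (un.u r)) - (s * Sc) • (r : E) =
      (num τ s : ℝ) • (G.T (M.h (un.u r)) - (τ * Sc) • (r : E)) +
        ((num τ s * τ - s) * Sc) • (r : E) := by
    rw [smul_sub, smul_smul, sub_mul, sub_smul]
    have : (num τ s : ℝ) * (τ * Sc) = num τ s * τ * Sc := by ring
    rw [this]; abel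
  rw [e1]
  refine (norm_add_le _ _).trans ?_
  rw [norm_smul, norm_smul, G.norm_ray, mul_one, Real.norm_of_nonneg hn, Real.norm_eq_abs,
    abs_mul, abs_of_nonneg hSc.le]
  have h3 : |(num τ s : ℝ) * τ - s| ≤ τ := by rw [abs_le]; constructor <;> linarith
  calc (num τ s : ℝ) * ‖G.T (M.h (un.u r)) - (τ * Sc) • (r : E)‖ + |(num τ s : ℝ) * τ - s| * Sc
      ≤ num τ s * (ε₁ * (τ * Sc)) + τ * Sc := by
        gcongr
        exact un.acc r
    _ = (num τ s * τ) * (ε₁ * Sc) + τ * Sc := by ring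
    _ ≤ s * (ε₁ * Sc) + τ * Sc := by gcongr
    _ = _ := by ring

/-- height of a leg, at an exact multiple of `τ` -/
theorem height_leg' (r : G.R) (hτ : 0 < τ) (m : ℕ) :
    ‖G.T (M.h (leg un.u τ r (m * τ))) - ((m * τ) * Sc) • (r : E)‖ ≤ ε₁ * (m * τ) * Sc := by
  unfold leg
  rw [num_mul hτ, h_pow, map_smul]
  have e1 : (m : ℝ) • G.T (M.h (un.u r)) - ((m * τ) * Sc) • (r : E) =
      (m : ℝ) • (G.T (M.h (un.u r)) - (τ * Sc) • (r : E)) := by
    rw [smul_sub, smul_smul, mul_assoc]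
  rw [e1, norm_smul, Real.norm_of_nonneg (Nat.cast_nonneg m)]
  calc (m : ℝ) * ‖G.T (M.h (un.u r)) - (τ * Sc) • (r : E)‖ ≤ m * (ε₁ * (τ * Sc)) := by
        gcongr
        exact un.acc r
    _ = _ := by ring

/-- weights of a leg -/
theorem wg_leg (i : GI M) (r : G.R) (hτ : 0 < τ) (hSc : 0 < Sc) (hε : 0 ≤ ε₁) {s : ℝ}
    (hs : 0 ≤ s) :
    |wg M i (M.h (leg un.u τ r s)) - G.RS.lam i * (⟪(G.ray i : E), (r : E)⟫ * s * Sc)| ≤
      G.RS.lam i * ((ε₁ * s + τ) * Sc) := by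
  rw [G.wg_ray]
  have e1 : G.RS.lam i * ⟪(G.ray i : E), G.T (M.h (leg un.u τ r s))⟫ -
      G.RS.lam i * (⟪(G.ray i : E), (r : E)⟫ * s * Sc) =
      G.RS.lam i * ⟪(G.ray i : E), G.T (M.h (leg un.u τ r s)) - (s * Sc) • (r : E)⟫ := by
    rw [inner_sub_right, inner_smul_right]; ring
  rw [e1, abs_mul, abs_of_pos (G.lam_pos i)]
  refine mul_le_mul_of_nonneg_left ?_ (G.lam_pos i).le
  refine (abs_real_inner_le_norm _ _).trans ?_
  rw [G.norm_ray, one_mul]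
  exact un.height_leg r hτ hSc hε hs

end Unit

/-- sides of an admissible shape -/
theorem adm.bd {R : Type*} {τ ω : ℝ} {Z : R → ℝ} (h : adm τ ω Z) (hω : ω ≤ 1 / 16) (r : R) :
    15 / 16 ≤ Z r ∧ Z r ≤ 17 / 16 := by
  have := abs_le.1 (h.2 r)
  constructor <;> linarith [this.1, this.2]

end Crest.Agent.R182.ElI
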