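/-
R182, module HOLE (helper860): the finite set of linear types (permutations of the Riesz
directions), separation of types on legs, and legs are verticals.
-/
import Mathlib
import Crest.Agent.R182.ElData
import Crest.Agent.R182.OneScaleVerts

set_option autoImplicit false
set_option linter.unusedSectionVars false

namespace Crest.Agent.R182.HoleOne

open Crest.GroupTheory Crest.Geometry Crest.Agent.R182.QI Crest.Agent.R182.Core
  Crest.Agent.R182.Nb Crest.Agent.R182.Gen Crest.Agent.R182.ElI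
  Crest.Agent.R182.FinPath Crest.Agent.R182.FinRed Crest.Agent.R182.Bnd
  Crest.Agent.R182.OneScale

variable {Γ : Type*} [Group Γ] {k : ℕ} {S : Set Γ} {π : Γ →* Multiplicative (Fin k → ℤ)}
  {M : BModel S π} {E : Type*} [NormedAddCommGroup E] [InnerProductSpace ℝ E]

/-- the types on `E`: linear maps which permute the Riesz directions -/
def LLE (G : Geo M E) : Set (E →ₗ[ℝ] E) :=
  {L | ∃ σ : Equiv.Perm G.R, ∀ e : G.R, L (e : E) = (σ e : E)}

/-- the types on the height space -/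
def LLV (G : Geo M E) : Set ((Fin k → ℝ) →ₗ[ℝ] (Fin k → ℝ)) :=
  {L | (G.T : (Fin k → ℝ) →ₗ[ℝ] E) ∘ₗ L ∘ₗ (G.T.symm : E →ₗ[ℝ] (Fin k → ℝ)) ∈ LLE G}

/-- transport of a type -/
noncomputable def toV (G : Geo M E) (L : E →ₗ[ℝ] E) : (Fin k → ℝ) →ₗ[ℝ] (Fin k → ℝ) :=
  (G.T.symm : E →ₗ[ℝ] (Fin k → ℝ)) ∘ₗ L ∘ₗ (G.T : (Fin k → ℝ) →ₗ[ℝ] E)

theorem toV_apply (G : Geo M E) (L : E →ₗ[ℝ] E) (v : Fin k → ℝ) :
    toV G L v = G.T.symm (L (G.T v)) := rfl

theorem T_toV (G : Geo M E) (L : E →ₗ[ℝ] E) (v : Fin k → ℝ) :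
    G.T (toV G L v) = L (G.T v) := by
  rw [toV_apply, LinearEquiv.apply_symm_apply]

theorem toV_mem {G : Geo M E} {L : E →ₗ[ℝ] E} (hL : L ∈ LLE G) : toV G L ∈ LLV G := by
  change _ ∈ LLE G
  have h1 : (G.T : (Fin k → ℝ) →ₗ[ℝ] E) ∘ₗ toV G L ∘ₗ (G.T.symm : E →ₗ[ℝ] (Fin k → ℝ)) = L := by
    ext v
    simp [toV_apply]
  rw [h1]; exact hL

theorem toV_inj {G : Geo M E} {L L' : E →ₗ[ℝ] E} (h : toV G L = toV G L') : L = L' := by
  ext v
  have h1 := congrArg (fun f : (Fin k → ℝ) →ₗ[ℝ] (Fin k → ℝ) => G.T (f (G.T.symm v))) h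
  simpa [T_toV] using h1

theorem LLV_eq (G : Geo M E) : LLV G = toV G '' LLE G := by
  ext L
  constructor
  · intro hL
    refine ⟨_, hL, LinearMap.ext fun v => ?_⟩
    rw [toV_apply]
    simp
  · rintro ⟨L, hL, rfl⟩
    exact toV_mem hL

/-- the type of a permutation on a combination of directions -/
theorem LLE_comb {G : Geo M E} {L : E →ₗ[ℝ] E} {σ : Equiv.Perm G.R}
    (h : ∀ e : G.R, L (e : E) = (σ e : E)) (c : G.R → ℝ) :
    L (∑ e, c e • (e : E)) = ∑ e, c e • (σ e : E) := by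
  rw [map_sum]
  exact Finset.sum_congr rfl fun e _ => by rw [map_smul, h]

section

variable [FiniteDimensional ℝ E]

theorem ext_R (G : Geo M E) {L L' : E →ₗ[ℝ] E} (h : ∀ e : G.R, L (e : E) = L' (e : E)) :
    L = L' :=
  LinearMap.ext_on (G.RS.span_Eb) fun e he => h ⟨e, he⟩

theorem finite_LLE (G : Geo M E) : (LLE G).Finite := by
  have h1 : LLE G ⊆ ⋃ σ : Equiv.Perm G.R, {L | ∀ e : G.R, L (e : E) = (σ e : E)} := by
    rintro L ⟨σ, hσ⟩
    exact Set.mem_iUnion.2 ⟨σ, hσ⟩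
  refine Set.Finite.subset (Set.finite_iUnion fun σ => ?_) h1
  refine Set.Subsingleton.finite ?_
  intro L hL L' hL'
  exact ext_R G fun e => (hL e).trans (hL' e).symm

theorem finite_LLV (G : Geo M E) : (LLV G).Finite := by
  rw [LLV_eq]
  exact (finite_LLE G).image _

theorem injective_LLE (G : Geo M E) : ∀ L ∈ LLE G, Function.Injective L := by
  rintro L ⟨σ, hσ⟩
  rw [LinearMap.injective_iff_surjective, ← LinearMap.range_eq_top, eq_top_iff,
    ← G.RS.span_Eb, Submodule.span_le]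
  intro e he
  refine ⟨(σ.symm ⟨e, he⟩ : E), ?_⟩
  rw [hσ, Equiv.apply_symm_apply]

theorem injective_LLV (G : Geo M E) : ∀ L ∈ LLV G, Function.Injective L := by
  rw [LLV_eq]
  rintro _ ⟨L, hL, rfl⟩ v w h
  rw [toV_apply, toV_apply] at h
  exact G.T.injective (injective_LLE G L hL (G.T.symm.injective h))

/-- a common bound of the types -/
theorem exists_bound (G : Geo M E) : ∃ B : ℝ, 1 ≤ B ∧ ∀ L ∈ LLE G, ∀ v : E, ‖L v‖ ≤ B * ‖v‖ := by
  classical
  have h : BddAbove ((fun L : E →ₗ[ℝ] E => ‖LinearMap.toContinuousLinearMap L‖) '' LLE G) :=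
    ((finite_LLE G).image _).bddAbove
  obtain ⟨B, hB⟩ := h
  refine ⟨max B 1, le_max_right _ _, fun L hL v => ?_⟩
  have h1 := (LinearMap.toContinuousLinearMap L).le_opNorm v
  have h2 : ‖LinearMap.toContinuousLinearMap L‖ ≤ B := hB ⟨L, hL, rfl⟩
  have h3 : LinearMap.toContinuousLinearMap L v = L v := rfl
  rw [h3] at h1
  refine h1.trans (mul_le_mul_of_nonneg_right (h2.trans (le_max_left _ _)) (norm_nonneg _))

/-- distinct types are apart on the directions -/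
theorem exists_sep (G : Geo M E) : ∃ s0 : ℝ, 0 < s0 ∧ ∀ L ∈ LLE G, ∀ L' ∈ LLE G,
    (∀ e : G.R, ‖L (e : E) - L' (e : E)‖ ≤ s0) → L = L' := by
  classical
  obtain ⟨s, hs, hsep⟩ : ∃ s : ℝ, 0 < s ∧ ∀ e e' : G.R, e ≠ e' → s < ‖(e : E) - (e' : E)‖ := by
    set F : Finset ℝ := insert 1 ((Finset.univ.filter fun p : G.R × G.R => p.1 ≠ p.2).image
      fun p => ‖(p.1 : E) - (p.2 : E)‖) with hF
    have hne : F.Nonempty := ⟨1, Finset.mem_insert_self _ _⟩
    have hpos : 0 < F.min' hne := by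
      rw [Finset.lt_min'_iff]
      intro y hy
      rcases Finset.mem_insert.1 hy with rfl | hy
      · exact one_pos
      · obtain ⟨p, hp, rfl⟩ := Finset.mem_image.1 hy
        have hp' := (Finset.mem_filter.1 hp).2
        rw [norm_pos_iff, sub_ne_zero]
        exact fun h => hp' (Subtype.ext h)
    refine ⟨F.min' hne / 2, by linarith, fun e e' hee => ?_⟩
    have h1 : F.min' hne ≤ ‖(e : E) - (e' : E)‖ := by
      refine Finset.min'_le _ _ (Finset.mem_insert_of_mem (Finset.mem_image.2 ⟨(e, e'), ?_, rfl⟩))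
      exact Finset.mem_filter.2 ⟨Finset.mem_univ _, hee⟩
    linarith
  refine ⟨s, hs, ?_⟩
  rintro L ⟨σ, hσ⟩ L' ⟨σ', hσ'⟩ h
  refine ext_R G fun e => ?_
  rw [hσ, hσ']
  by_contra hne
  have h1 := h e
  rw [hσ, hσ'] at h1
  exact absurd h1 (not_le.2 (hsep _ _ fun h2 => hne (by rw [h2])))

/-- distinct types are apart on approximate legs -/
theorem exists_sep' (G : Geo M E) : ∃ s1 : ℝ, 0 < s1 ∧ ∃ e1 : ℝ, 0 < e1 ∧ ∀ a : ℝ, 0 < a →
    ∀ v : G.R → E, (∀ e, ‖v e - a • (e : E)‖ ≤ e1 * a) → ∀ L ∈ LLE G, ∀ L' ∈ LLE G,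
    (∀ e, ‖L (v e) - L' (v e)‖ ≤ s1 * a) → L = L' := by
  obtain ⟨s0, hs0, h0⟩ := exists_sep G
  obtain ⟨B, hB, hb⟩ := exists_bound G
  refine ⟨s0 / 2, by linarith, s0 / (4 * B), by positivity, fun a ha v hv L hL L' hL' h => ?_⟩
  refine h0 L hL L' hL' fun e => ?_
  have h1 : a • (L (e : E) - L' (e : E)) =
      (L (v e) - L' (v e)) - (L (v e - a • (e : E)) - L' (v e - a • (e : E))) := by
    simp only [map_sub, map_smul, smul_sub]
    abel
  have h2 : ‖a • (L (e : E) - L' (e : E))‖ ≤ s0 * a := by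
    rw [h1]
    refine (norm_sub_le _ _).trans ?_
    have h3 := (norm_sub_le (L (v e - a • (e : E))) (L' (v e - a • (e : E)))).trans
      (add_le_add (hb L hL _) (hb L' hL' _))
    have h4 : B * ‖v e - a • (e : E)‖ ≤ s0 / 4 * a := by
      calc B * ‖v e - a • (e : E)‖ ≤ B * (s0 / (4 * B) * a) :=
            mul_le_mul_of_nonneg_left (hv e) (by linarith)
        _ = s0 / 4 * a := by field_simp
    have h5 := h e
    linarith
  rw [norm_smul, Real.norm_of_nonneg ha.le, mul_comm] at h2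
  exact le_of_mul_le_mul_right h2 ha

/-- the heights of the legs, recovered from `T` -/
theorem mem_C_of_word {l : List M.G} {R : ℝ} (h : ∀ s ∈ l, s ∈ M.C ∧ M.len s ≤ R) :
    l.prod ∈ M.C :=
  M.C.list_prod_mem fun s hs => (h s hs).1

/-- **unit legs are verticals**, with a uniform constant -/
theorem exists_verts_unit (G : Geo M E) : ∃ c0 ε₀ : ℝ, 0 < c0 ∧ 0 < ε₀ ∧
    ∀ (RC Cb ε₁ τ Sc : ℝ), ε₁ ≤ ε₀ → 0 < τ → 0 < Sc → ∀ un : ElI.Unit G RC Cb ε₁ τ Sc,
      Verts M c0 (Set.range un.u) := by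
  obtain ⟨c, hc, hrel⟩ := G.RS.exists_rel
  obtain ⟨c0, ε₀, hc0, hε₀, h⟩ := exists_verts G.T G.RS.Eb G.RS.unit G.RS.span_Eb
    ⟨c, hc, by rw [← Star.comb_apply]; exact hrel⟩
  refine ⟨c0, ε₀, hc0, hε₀, fun RC Cb ε₁ τ Sc h1 hτ hSc un => ?_⟩
  refine h M un.u (fun e => ?_) fun e => ⟨τ * Sc, by positivity, ?_⟩
  · rw [← un.w_prod e]
    exact mem_C_of_word (un.w_mem e)
  · refine (un.acc e).trans ?_
    exact mul_le_mul_of_nonneg_right h1 (by positivity)

end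

end Crest.Agent.R182.HoleOne
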