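/-
R182, module HOLE (helper823): moving the base point along a short vertical `c`: the law of the
middle shape at `y c` is the law of the big shape at `y`, seen at the words `c w`.
-/
import Mathlib
import Crest.Agent.R182.HoleNil
import Crest.Agent.R182.CoreN
import Crest.Agent.R182.OneScale

set_option autoImplicit false
set_option linter.unusedSectionVars false

open MeasureTheory Set
open scoped ENNReal

namespace Crest.Agent.R182.HoleOne

open Crest.GroupTheory Crest.Geometry Crest.Agent.R182.QI Crest.Agent.R182.Core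
  Crest.Agent.R182.Core.BModel Crest.Agent.R182.HoleNil Crest.Agent.R182.OneScale

variable {Γ : Type*} [Group Γ] {k : ℕ} {S : Set Γ} {π : Γ →* Multiplicative (Fin k → ℤ)}

variable (M : BModel S π) (Ψ : Γ → Γ) {ι κ : Type*} [Fintype ι] [Fintype κ]

/-- the profile at `y` for the words `w` -/
noncomputable def prof (y : M.G) (w : ι → M.G) (n : M.NN) : ι → Fin k → ℝ := fun i => fh M Ψ (y * M.toG n * w i)

/-- the profile prescribed by `(L, θ)` -/
def pr (w : ι → M.G) (L : (Fin k → ℝ) →ₗ[ℝ] (Fin k → ℝ)) (θ : Fin k → ℝ) : ι → Fin k → ℝ :=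
  fun i => θ + L (M.h (w i))

variable {M} {Ψ}

theorem measurable_prof [Countable Γ] (y : M.G) (w : ι → M.G) : Measurable (prof M Ψ y w) :=
  measurable_pi_lambda _ fun i =>
    M.measurable_rnd (fun γ => M.h (M.ι (Ψ γ))) y (w i)

theorem prof_mul (y : M.G) (w : ι → M.G) (n m : M.NN) :
    prof M Ψ y w (n * m) = prof M Ψ (y * M.toG n) w m := by
  funext i
  simp only [prof, map_mul, mul_assoc]

theorem law_iff {y : M.G} {w : ι → M.G} {B : Set M.NN} {τ : ℝ} {e : ℝ≥0∞} {n : M.NN}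
    {Λ : ι → Fin k → ℝ} :
    Law volume (prof M Ψ y w) B τ e n Λ ↔ Law volume (prof M Ψ (y * M.toG n) w) B τ e 1 Λ := by
  unfold Law
  simp only [prof_mul, one_mul]

/-- moving the base point by `c` -/
theorem shift_law [Countable Γ] {y c : M.G} {w : ι → M.G} {w' : κ → M.G} {v : ι → κ}
    {B₁ B₁' B₂ B₂' B₃ B₃' : Set M.NN} {τ τ' s : ℝ} {δ : ℝ≥0∞}
    (m₁ : MeasurableSet B₁) (m₂ : MeasurableSet B₂) (m₂' : MeasurableSet B₂') (hτ' : 0 ≤ τ')
    (z₁ : volume B₁ ≠ 0) (t₁ : volume B₁ ≠ ∞) (z₂ : volume B₂ ≠ 0) (t₂ : volume B₂ ≠ ∞)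
    (z₃ : volume B₃ ≠ 0) (t₃ : volume B₃ ≠ ∞)
    (hB₁ : B₁ ⊆ B₁') (hB₃ : B₃ ⊆ B₃')
    (g1 : ∀ q ∈ B₂, ∀ g ∈ B₁, M.conjN c q * g ∈ M.conjN c '' B₂')
    (g2 : ∀ q ∈ B₂, ∀ g ∈ B₃, M.conjN c q * g ∈ B₃')
    (hv : ∀ z i, dist (fh M Ψ (z * (c * w i))) (fh M Ψ (z * w' (v i))) ≤ τ')
    (law₁ : ∀ n, ∃ Λ, Law volume (prof M Ψ y w') B₁' τ (δ * volume B₁) n Λ)
    (law₃ : ∀ n, ∃ Λ, Law volume (prof M Ψ y w') B₃' τ (δ * volume B₃) n Λ)
    (hole : ∀ n Λ Λ', Law volume (prof M Ψ y w') B₁' τ (δ * volume B₁) n Λ →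
      Law volume (prof M Ψ y w') B₃' τ (δ * volume B₃) n Λ' → dist Λ Λ' ≤ s)
    (hδ : 2 * δ < 1) {Λ : κ → Fin k → ℝ} {Λ₂ : ι → Fin k → ℝ}
    (h3 : Law volume (prof M Ψ y w') B₃' τ (δ * volume B₃) 1 Λ)
    (h2 : Law volume (prof M Ψ (y * c) w) B₂' τ (δ * volume B₂) 1 Λ₂) :
    dist (fun i => Λ (v i)) Λ₂ ≤ 4 * τ + τ' + s := by
  classical
  set f : M.NN → ι → Fin k → ℝ := fun n => prof M Ψ y (fun i => c * w i) n with hf
  have hfm : Measurable f := measurable_prof y _
  have hδδ : δ + δ < 1 := by rwa [← two_mul]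
  have mφ := M.measurePreserving_conjN c
  have hφim : ∀ B : Set M.NN, M.conjN c '' B = (M.conjN c⁻¹) ⁻¹' B := by
    intro B
    ext x
    constructor
    · rintro ⟨q, hq, rfl⟩
      rw [mem_preimage, ← conjN_mul, inv_mul_cancel, conjN_one]; exact hq
    · intro hx
      exact ⟨M.conjN c⁻¹ x, hx, by rw [← conjN_mul, mul_inv_cancel, conjN_one]⟩
  have hvol : ∀ B : Set M.NN, MeasurableSet B → volume (M.conjN c '' B) = volume B := by
    intro B hB
    rw [hφim]
    exact (M.measurePreserving_conjN c⁻¹).measure_preimage hB.nullMeasurableSet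
  have hmA : MeasurableSet (M.conjN c '' B₂) := by
    rw [hφim]
    exact (M.measurePreserving_conjN c⁻¹).measurable m₂
  have key := law_double' (μ := (volume : Measure M.NN)) (f := f) hfm (A := M.conjN c '' B₂)
    (B := B₁) (A' := M.conjN c '' B₂') (η := 3 * τ + τ' + s) (η' := τ) (ε := δ) (ε' := δ)
    (Λ := fun i => Λ (v i)) (Λ' := Λ₂) hmA m₁ (by rwa [hvol B₂ m₂]) (by rwa [hvol B₂ m₂]) z₁ t₁
    (by
      rintro _ ⟨q, hq, rfl⟩ g hg
      exact g1 q hq g hg)
    (by
      rintro _ ⟨q, hq, rfl⟩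
      set n := M.conjN c q with hn
      obtain ⟨Λ₁, hΛ₁⟩ := law₁ n
      obtain ⟨Λ₃, hΛ₃⟩ := law₃ n
      have d1 : dist Λ₁ Λ₃ ≤ s := hole n Λ₁ Λ₃ hΛ₁ hΛ₃
      have d2 : dist Λ₃ Λ ≤ τ + τ := by
        have hΛ₃' : Law volume (prof M Ψ y w') B₃ τ (δ * volume B₃) (1 * n) Λ₃ := by
          rw [one_mul]
          exact hΛ₃.mono hB₃ le_rfl le_rfl
        refine h3.overlap hΛ₃' (fun g hg => g2 q hq g hg) ?_
        rw [← add_mul]
        calc (δ + δ) * volume B₃ < 1 * volume B₃ := by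
              rw [ENNReal.mul_lt_mul_iff_left z₃ t₃]; exact hδδ
          _ = volume B₃ := one_mul _
      refine le_trans (measure_mono ?_) (show volume {m | m ∈ B₁' ∧
        τ < dist (prof M Ψ y w' (n * m)) Λ₁} ≤ δ * volume B₁ from hΛ₁)
      rintro g ⟨hg, hd⟩
      refine ⟨hB₁ hg, ?_⟩
      by_contra hcon
      rw [not_lt] at hcon
      have d3 : dist (f (n * g)) (fun i => prof M Ψ y w' (n * g) (v i)) ≤ τ' := by
        rw [dist_pi_le_iff hτ']
        intro i
        exact hv (y * M.toG (n * g)) i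
      have d4 : dist (fun i => prof M Ψ y w' (n * g) (v i)) (fun i => Λ₁ (v i)) ≤
          dist (prof M Ψ y w' (n * g)) Λ₁ := by
        rw [dist_pi_le_iff dist_nonneg]
        intro i
        exact dist_le_pi_dist _ _ (v i)
      have d5 : dist (fun i => Λ₁ (v i)) (fun i => Λ (v i)) ≤ dist Λ₁ Λ := by
        rw [dist_pi_le_iff dist_nonneg]
        intro i
        exact dist_le_pi_dist _ _ (v i)
      have t1 := dist_triangle (f (n * g)) (fun i => prof M Ψ y w' (n * g) (v i))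
        (fun i => Λ (v i))
      have t2 := dist_triangle (fun i => prof M Ψ y w' (n * g) (v i)) (fun i => Λ₁ (v i))
        (fun i => Λ (v i))
      have t3 := dist_triangle Λ₁ Λ₃ Λ
      linarith)
    (by
      rw [hvol B₂ m₂]
      have hms : MeasurableSet {m : M.NN | m ∈ B₂' ∧ τ < dist (prof M Ψ (y * c) w m) Λ₂} :=
        m₂'.inter (measurableSet_lt measurable_const
          ((measurable_prof (y * c) w).dist measurable_const))
      have h5 : {m | m ∈ M.conjN c '' B₂' ∧ τ < dist (f m) Λ₂} ⊆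
          M.conjN c '' {m : M.NN | m ∈ B₂' ∧ τ < dist (prof M Ψ (y * c) w m) Λ₂} := by
        rintro _ ⟨⟨m, hm, rfl⟩, hd⟩
        refine ⟨m, ⟨hm, ?_⟩, rfl⟩
        have h6 : f (M.conjN c m) = prof M Ψ (y * c) w m := by
          funext i
          change fh M Ψ (y * M.toG (M.conjN c m) * (c * w i)) = fh M Ψ (y * c * M.toG m * w i)
          congr 1
          have h7 := M.toG_conjN' c m
          calc y * M.toG (M.conjN c m) * (c * w i) = y * (M.toG (M.conjN c m) * c) * w i := by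
                simp only [mul_assoc]
            _ = y * c * M.toG m * w i := by rw [h7]; simp only [mul_assoc]
        rwa [h6] at hd
      refine (measure_mono h5).trans ?_
      rw [hvol _ hms]
      have h8 := h2
      unfold Law at h8
      simpa only [one_mul] using h8)
    (by rwa [← two_mul])
  linarith

end Crest.Agent.R182.HoleOne
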