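/-
R182, module HOLE (helper823): from the comparison of the laws of the shapes `Y` and `Y + b e_w`
at most points of the thin sets `K_b(Y)` (EL_K) to the equality of the laws of two shapes
`Z₁ < Z₂` at EVERY base point.  Abstract version: a measurable function `f : N → X` (the profile).
-/
import Mathlib
import Crest.Agent.R182.HoleNil

set_option autoImplicit false
set_option linter.unusedSectionVars false

open MeasureTheory Set
open scoped ENNReal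

namespace Crest.Agent.R182.HoleNil

variable {N : Type*} [Group N] [MeasurableSpace N] [MeasurableMul₂ N] [MeasurableInv N]
  {μ : Measure N} [SFinite μ] [μ.IsMulLeftInvariant] [μ.IsMulRightInvariant]
  {X : Type*} [PseudoMetricSpace X] [MeasurableSpace X] [OpensMeasurableSpace X]
  [SecondCountableTopology X] {R : Type*}

/-- the sets belonging to one increment `b` of the shape `Y`:
`W r` = box with sides `Y + b e_r`, `U r` = moves of size `Y_r + b` along the ray `r`,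
`K ⊆ K1 ⊆ K2 ⊆ K3` = thin set `K_b(Y)` and its enlargements by constants,
`B ⊆ B'` = box with sides `Y + b - (small)`. -/
structure Side (N R : Type*) where
  W : R → Set N
  W' : R → Set N
  U : R → Set N
  K : Set N
  K1 : Set N
  K2 : Set N
  K3 : Set N
  B : Set N
  B' : Set N

/-- geometric facts -/
structure SideGeo (μ : Measure N) (A A' : Set N) (J : ℕ) (C : ℝ≥0∞) (s : Side N R) : Prop where
  mK : MeasurableSet s.K
  mK2 : MeasurableSet s.K2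
  mK3 : MeasurableSet s.K3
  mB : MeasurableSet s.B
  zK : μ s.K ≠ 0
  tK : μ s.K ≠ ∞
  zB : μ s.B ≠ 0
  tB : μ s.B ≠ ∞
  K12 : s.K1 ⊆ s.K2
  /-- `U`-words conjugate `K` into `K1` -/
  conj : ∀ l : List N, l.length ≤ J → (∀ u ∈ l, u ∈ ⋃ r, s.U r) → ∀ n ∈ s.K,
    l.prod⁻¹ * n * l.prod ∈ s.K1
  conj1 : ∀ r, ∀ u ∈ s.U r, ∀ n ∈ s.K1, u⁻¹ * n * u ∈ s.K2
  K23 : ∀ n ∈ s.K2, ∀ m ∈ A, n * m⁻¹ ∈ s.K3
  vol : μ s.K3 ≤ C * μ s.K
  WW : ∀ r, s.W r ⊆ s.W' r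
  UW : ∀ r, ∀ u ∈ s.U r, ∀ g ∈ s.W r, u * g ∈ s.W' r
  BB : s.B ⊆ s.B'
  gen : ∀ g ∈ s.B, ∃ l : List N, l.length ≤ J ∧ (∀ u ∈ l, u ∈ ⋃ r, s.U r) ∧ l.prod = g
  KB : ∀ k ∈ s.K, ∀ g ∈ s.B, k * g ∈ s.B'

/-- facts about the laws; `δ` = proportion of bad points -/
structure SideLaw (μ : Measure N) (f : N → X) (A A' : Set N) (τ η : ℝ) (δ ε₁ : ℝ≥0∞)
    (s : Side N R) : Prop where
  law_W : ∀ r n, ∃ Λ, Law μ f (s.W' r) τ (δ * μ (s.W r)) n Λ
  zW : ∀ r, μ (s.W r) ≠ 0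
  tW : ∀ r, μ (s.W r) ≠ ∞
  law_B : ∀ n, ∃ Λ, Law μ f s.B' τ (δ * μ s.B) n Λ
  el : ∀ (g : N) (r : R), μ {n | n ∈ s.K2 ∧ ∃ Λ Λ', Law μ f A' τ (δ * μ A) (g * n) Λ ∧
      Law μ f (s.W' r) τ (δ * μ (s.W r)) (g * n) Λ' ∧ η < dist Λ Λ'} ≤ ε₁ * μ s.K

section

variable {f : N → X} {A A' : Set N} {J : ℕ} {C : ℝ≥0∞} {τ η : ℝ} {δ ε₁ : ℝ≥0∞} {s : Side N R}

theorem SideLaw.adj (hfm : Measurable f) (hτ : 0 ≤ τ) (mA : MeasurableSet A) (zA : μ A ≠ 0)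
    (tA : μ A ≠ ∞)
    (hA : A ⊆ A') (hAA : ∀ a ∈ A, ∀ b ∈ A, a * b ∈ A')
    (law_A : ∀ n, ∃ Λ, Law μ f A' τ (δ * μ A) n Λ)
    (hδ : 2 * δ < 1)
    (hg : SideGeo μ A A' J C s) (hl : SideLaw μ f A A' τ η δ ε₁ s) (g : N) {u : N}
    (hu : u ∈ ⋃ r, s.U r) :
    μ {n | n ∈ s.K1 ∧ 8 * τ + 2 * η < dist (f (g * (n * u))) (f (g * n))} ≤
      4 * (4 * δ * C + ε₁) * μ s.K := by
  obtain ⟨r, hu⟩ := mem_iUnion.1 hu
  have hfg : Measurable fun n => f (g * n) := hfm.comp (measurable_const_mul g)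
  have own : ∀ g : N, μ {n | n ∈ s.K2 ∧ ∃ Λ, Law μ f A' τ (δ * μ A) (g * n) Λ ∧
      3 * τ < dist (f (g * n)) Λ} ≤ 4 * δ * C * μ s.K := by
    intro g
    have h := own_law (μ := μ) (f := fun n => f (g * n)) (hfm.comp (measurable_const_mul g))
      (K := s.K2) (K' := s.K3) (A := A) (A' := A') (τ := τ) (e := δ * μ A) hτ hg.mK2 hg.mK3 mA tA
      hg.K23 hA hAA (fun n _ => by
        obtain ⟨Λ, hΛ⟩ := law_A (g * n)
        exact ⟨Λ, Law.tr.2 hΛ⟩) (by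
          rw [← mul_assoc]
          calc 2 * δ * μ A ≤ 1 * μ A := by gcongr
            _ = μ A := one_mul _)
    have h2 : μ {n | n ∈ s.K2 ∧ ∃ Λ, Law μ (fun n => f (g * n)) A' τ (δ * μ A) n Λ ∧
        3 * τ < dist (f (g * n)) Λ} * μ A ≤ (4 * δ * C * μ s.K) * μ A := by
      refine h.trans ?_
      calc 4 * (δ * μ A) * μ s.K3 ≤ 4 * (δ * μ A) * (C * μ s.K) := by
            gcongr
            exact hg.vol
        _ = (4 * δ * C * μ s.K) * μ A := by ring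
    have h3 := (ENNReal.mul_le_mul_iff_left zA tA).1 h2
    refine (measure_mono ?_).trans h3
    rintro n ⟨hn, Λ, hΛ, hd⟩
    exact ⟨hn, Λ, Law.tr.2 hΛ, hd⟩
  have key := adj_of_laws (μ := μ) (f := fun n => f (g * n)) (u := u) (K := s.K1) (K' := s.K2)
    (AY' := A') (AW := s.W r) (AW' := s.W' r) (τ := τ) (η := η) (eY := δ * μ A)
    (eW := δ * μ (s.W r)) (e₁ := (4 * δ * C + ε₁) * μ s.K)
    (fun n => by
      obtain ⟨Λ, hΛ⟩ := law_A (g * n)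
      exact ⟨Λ, Law.tr.2 hΛ⟩)
    (fun n => by
      obtain ⟨Λ, hΛ⟩ := hl.law_W r (g * n)
      exact ⟨Λ, Law.tr.2 hΛ⟩)
    (fun g' => by
      refine le_trans ?_ ((own (g * g')).trans ?_)
      · refine measure_mono ?_
        rintro n ⟨hn, Λ, hΛ, hd⟩
        refine ⟨hn, Λ, ?_, ?_⟩
        · have := Law.tr.1 hΛ
          rwa [← mul_assoc] at this
        · rwa [← mul_assoc] at hd
      · gcongr
        exact le_self_add)
    (fun g' => by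
      refine le_trans ?_ ((hl.el (g * g') r).trans ?_)
      · refine measure_mono ?_
        rintro n ⟨hn, Λ, Λ', hΛ, hΛ', hd⟩
        refine ⟨hn, Λ, Λ', ?_, ?_, hd⟩
        · have := Law.tr.1 hΛ
          rwa [← mul_assoc] at this
        · have := Law.tr.1 hΛ'
          rwa [← mul_assoc] at this
      · gcongr
        exact le_add_self)
    hg.K12 (hg.conj1 r u hu) (hg.WW r) (hg.UW r u hu) (by
      rw [← add_mul, ← two_mul]
      calc 2 * δ * μ (s.W r) < 1 * μ (s.W r) := by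
            rw [ENNReal.mul_lt_mul_iff_left (hl.zW r) (hl.tW r)]; exact hδ
        _ = μ (s.W r) := one_mul _)
  refine key.trans (le_of_eq ?_)
  ring

end

/-- **Hole filling.**  The laws of the boxes `B₁'` and `B₂'` agree at every base point. -/
theorem hole_laws {f : N → X} (hfm : Measurable f) {A A' A₀ : Set N} {J : ℕ} {C : ℝ≥0∞}
    {τ η : ℝ} {δ ε₁ : ℝ≥0∞} {s₁ s₂ : Side N R} (hτ : 0 ≤ τ) (hη : 0 ≤ η)
    (mA : MeasurableSet A) (zA : μ A ≠ 0) (tA : μ A ≠ ∞)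
    (hA : A ⊆ A') (hAA : ∀ a ∈ A, ∀ b ∈ A, a * b ∈ A')
    (law_A : ∀ n, ∃ Λ, Law μ f A' τ (δ * μ A) n Λ)
    (g₁ : SideGeo μ A A' J C s₁) (l₁ : SideLaw μ f A A' τ η δ ε₁ s₁)
    (g₂ : SideGeo μ A A' J C s₂) (l₂ : SideLaw μ f A A' τ η δ ε₁ s₂)
    (mA₀ : MeasurableSet A₀) (zA₀ : μ A₀ ≠ 0) (tA₀ : μ A₀ ≠ ∞)
    (hAB : ∀ k ∈ A₀, ∀ g ∈ s₁.B, k * g ∈ s₁.B') (hAK : ∀ k ∈ A₀, ∀ g ∈ s₁.K, k * g ∈ s₂.K)
    (hC : μ s₂.K ≤ C * μ A₀) (hδ : 2 * δ < 1)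
    (hε : (J + 1) * (4 * (4 * δ * C + ε₁) + δ) + (J + 1) * (4 * (4 * δ * C + ε₁) + δ) * C < 1)
    {n : N} {Λ₁ Λ₂ : X} (h₁ : Law μ f s₁.B' τ (δ * μ s₁.B) n Λ₁)
    (h₂ : Law μ f s₂.B' τ (δ * μ s₂.B) n Λ₂) :
    dist Λ₁ Λ₂ ≤ (2 * J + 4) * (8 * τ + 2 * η) := by
  set ε : ℝ≥0∞ := 4 * (4 * δ * C + ε₁) + δ with hεdef
  have hδε : δ ≤ ε := le_add_self
  have hτη : τ ≤ 8 * τ + 2 * η := by linarith
  have hη' : 0 ≤ 8 * τ + 2 * η := by linarith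
  have hcls : Cls (Set.range fun g : N => fun n => f (g * n)) := by
    refine ⟨?_⟩
    rintro _ ⟨g, rfl⟩ h
    exact ⟨g * h, by funext n; simp [mul_assoc]⟩
  have hmeas : ∀ F ∈ (Set.range fun g : N => fun n => f (g * n)), Measurable F := by
    rintro _ ⟨g, rfl⟩
    exact hfm.comp (measurable_const_mul g)
  have adj₁ : ∀ F ∈ (Set.range fun g : N => fun n => f (g * n)), ∀ u ∈ ⋃ r, s₁.U r,
      μ {n | n ∈ s₁.K1 ∧ 8 * τ + 2 * η < dist (F (n * u)) (F n)} ≤ ε * μ s₁.K := by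
    rintro _ ⟨g, rfl⟩ u hu
    refine (l₁.adj hfm hτ mA zA tA hA hAA law_A hδ g₁ g hu).trans ?_
    gcongr
    exact le_self_add
  have adj₂ : ∀ F ∈ (Set.range fun g : N => fun n => f (g * n)), ∀ u ∈ ⋃ r, s₂.U r,
      μ {n | n ∈ s₂.K1 ∧ 8 * τ + 2 * η < dist (F (n * u)) (F n)} ≤ ε * μ s₂.K := by
    rintro _ ⟨g, rfl⟩ u hu
    refine (l₂.adj hfm hτ mA zA tA hA hAA law_A hδ g₂ g hu).trans ?_
    gcongr
    exact le_self_add
  have hε2 : ε + ε < 1 := by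
    by_cases hC1 : 1 ≤ C
    · refine lt_of_le_of_lt (add_le_add ?_ ?_) hε
      · calc ε = 1 * ε := (one_mul _).symm
          _ ≤ (J + 1) * ε := by gcongr; exact le_add_self
      · calc ε = 1 * ε * 1 := by ring
          _ ≤ (J + 1) * ε * C := by gcongr; exact le_add_self
    · exfalso
      -- `C < 1` contradicts `K ⊆ K3` in measure
      have h1 : μ s₁.K ≤ μ s₁.K2 := measure_mono fun k hk => by
        have h1 := g₁.conj [] (by simp) (by simp) k hk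
        simp only [List.prod_nil, inv_one, one_mul, mul_one] at h1
        exact g₁.K12 h1
      have hne : A.Nonempty := by
        rw [nonempty_iff_ne_empty]
        rintro rfl
        exact zA measure_empty
      obtain ⟨a, ha⟩ := hne
      have h2 : μ s₁.K2 ≤ μ s₁.K3 := by
        rw [← measure_preimage_mul_right μ a⁻¹ s₁.K3]
        exact measure_mono fun k hk => g₁.K23 k hk a ha
      have h3 : μ s₁.K ≤ C * μ s₁.K := h1.trans (h2.trans g₁.vol)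
      have h4 : C * μ s₁.K < 1 * μ s₁.K := by
        rw [ENNReal.mul_lt_mul_iff_left g₁.zK g₁.tK]
        exact not_le.1 hC1
      rw [one_mul] at h4
      exact absurd h3 (not_le.2 h4)
  have key := hole (μ := μ) (𝓕 := Set.range fun g : N => fun n => f (g * n)) hcls hmeas
    (J := J) (η := 8 * τ + 2 * η) hη' (ε := ε) (Cv := C)
    (U₁ := ⋃ r, s₁.U r) (K₁ := s₁.K) (K₁' := s₁.K1) (B₁ := s₁.B) (B₁' := s₁.B')
    (U₂ := ⋃ r, s₂.U r) (K₂ := s₂.K) (K₂' := s₂.K1) (B₂ := s₂.B) (B₂' := s₂.B') (A := A₀)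
    g₁.mK g₁.mB g₂.mK g₂.mB mA₀ g₁.zK g₁.tK g₁.zB g₁.tB g₂.zB g₂.tB zA₀ tA₀ adj₁ adj₂
    g₁.conj g₂.conj g₁.gen g₂.gen g₁.KB g₂.KB hAB g₁.BB hAK hC
    (by
      rintro _ ⟨g, rfl⟩
      obtain ⟨Λ, hΛ⟩ := l₁.law_B g
      refine ⟨Λ, ?_⟩
      exact hΛ.mono (Subset.refl _) hτη (by gcongr))
    hε hε2 (f := fun m => f (n * m)) ⟨n, rfl⟩ (Λ₁ := Λ₁) (Λ₂ := Λ₂)
    (h₁.mono (Subset.refl _) hτη (by gcongr)) (h₂.mono (Subset.refl _) hτη (by gcongr))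
  exact key

end Crest.Agent.R182.HoleNil
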