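/-
R182, module NILBOX (helper89): words, frames, and the explicit point of full rank.
-/
import Mathlib
import Crest.Agent.R182.NbStar

set_option autoImplicit false
set_option linter.unusedSectionVars false

namespace Crest.Agent.R182.Nb

open Finset

section HD

variable {L : Type*} [LieRing L] [LieAlgebra ℝ L]

/-- derivative at `0` tested by functionals -/
def HD (c : ℝ → L) (v : L) : Prop := ∀ ℓ : L →ₗ[ℝ] ℝ, HasDerivAt (fun t => ℓ (c t)) (ℓ v) 0

namespace HD

variable {c c' : ℝ → L} {v v' : L}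

theorem const (x : L) : HD (fun _ => x) 0 := fun ℓ => by
  simpa using hasDerivAt_const (0:ℝ) (ℓ x)

theorem line (v : L) : HD (fun t => t • v) v := fun ℓ => by
  have h : HasDerivAt (fun t : ℝ => t * ℓ v) (1 * ℓ v) 0 := (hasDerivAt_id (0:ℝ)).mul_const (ℓ v)
  simpa using h

theorem add (h : HD c v) (h' : HD c' v') : HD (fun t => c t + c' t) (v + v') := fun ℓ => by
  have := (h ℓ).add (h' ℓ)
  rw [map_add]
  refine this.congr_of_eventuallyEq (Filter.Eventually.of_forall fun t => ?_)
  simp

theorem smul (r : ℝ) (h : HD c v) : HD (fun t => r • c t) (r • v) := fun ℓ => by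
  have := (h ℓ).const_mul r
  simpa only [map_smul, smul_eq_mul] using this

theorem linear (T : L →ₗ[ℝ] L) (h : HD c v) : HD (fun t => T (c t)) (T v) := fun ℓ =>
  h (ℓ.comp T)

theorem scale (r : ℝ) (h : HD c v) : HD (fun t => c (r * t)) (r • v) := fun ℓ => by
  have h0 : HasDerivAt (fun t : ℝ => r * t) r 0 := by
    simpa using (hasDerivAt_id (0:ℝ)).const_mul r
  have h1 : HasDerivAt (fun t => ℓ (c t)) (ℓ v) (r * 0) := by rw [mul_zero]; exact h ℓ
  have h2 := HasDerivAt.comp (x := (0:ℝ)) (h := fun t => r * t) (h₂ := fun t => ℓ (c t)) h1 h0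
  rw [map_smul, smul_eq_mul, mul_comm r]
  exact h2

theorem unique (h : HD c v) (h' : HD c v') : v = v' := by
  rw [← sub_eq_zero, ← Module.forall_dual_apply_eq_zero_iff ℝ]
  intro ℓ
  rw [map_sub, sub_eq_zero]
  exact (h ℓ).unique (h' ℓ)

theorem congr (h : HD c v) (hc : ∀ t, c' t = c t) : HD c' v := by
  have : c' = c := funext hc
  rw [this]; exact h

theorem sum {ι : Type*} (s : Finset ι) {f : ι → ℝ → L} {w : ι → L} (h : ∀ i ∈ s, HD (f i) (w i)) :
    HD (fun t => ∑ i ∈ s, f i t) (∑ i ∈ s, w i) := fun ℓ => by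
  simp only [map_sum]
  exact HasDerivAt.fun_sum fun i hi => h i hi ℓ

theorem lie0 [FiniteDimensional ℝ L] (h : HD c v) (h' : HD c' v') (h0 : c 0 = 0) (h0' : c' 0 = 0) :
    HD (fun t => ⁅c t, c' t⁆) 0 := fun ℓ => by
  set b := Module.finBasis ℝ L with hb
  have key : ∀ x y : L, ℓ ⁅x, y⁆ = ∑ i, ∑ j, (b.coord i x * b.coord j y) * ℓ ⁅b i, b j⁆ := by
    intro x y
    have e : ⁅x, y⁆ = ∑ i, ∑ j, (b.coord i x * b.coord j y) • ⁅b i, b j⁆ := by
      conv_lhs => rw [← b.sum_repr x, ← b.sum_repr y]
      rw [sum_lie]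
      refine Finset.sum_congr rfl fun i _ => ?_
      rw [lie_sum]
      refine Finset.sum_congr rfl fun j _ => ?_
      rw [smul_lie, lie_smul, smul_smul]; rfl
    rw [e, map_sum]
    refine Finset.sum_congr rfl fun i _ => ?_
    rw [map_sum]
    refine Finset.sum_congr rfl fun j _ => ?_
    rw [map_smul, smul_eq_mul]
  have h1 : ∀ i j, HasDerivAt (fun t => (b.coord i (c t) * b.coord j (c' t)) * ℓ ⁅b i, b j⁆) 0 0 := by
    intro i j
    have h2 := ((h (b.coord i)).mul (h' (b.coord j))).mul_const (ℓ ⁅b i, b j⁆)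
    simp only [h0, h0', map_zero, mul_zero, zero_mul, add_zero] at h2
    exact h2
  have h3 : HasDerivAt (fun t => ∑ i, ∑ j, (b.coord i (c t) * b.coord j (c' t)) * ℓ ⁅b i, b j⁆)
      (∑ i : Fin (Module.finrank ℝ L), ∑ j : Fin (Module.finrank ℝ L), (0:ℝ)) 0 :=
    HasDerivAt.fun_sum fun i _ => HasDerivAt.fun_sum fun j _ => h1 i j
  rw [map_zero]
  have h4 : (fun t => ℓ ⁅c t, c' t⁆) =
      fun t => ∑ i, ∑ j, (b.coord i (c t) * b.coord j (c' t)) * ℓ ⁅b i, b j⁆ :=
    funext fun t => key _ _
  rw [h4]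
  simpa using h3

end HD

variable {σ : Type*}

/-- the linear part of a Lie polynomial -/
theorem LP.exists_lin [FiniteDimensional ℝ L] {f : (σ → L) → L} (hf : f ∈ LP σ L) :
    ∃ Λ : (σ → L) →ₗ[ℝ] L, ∀ (c : σ → ℝ → L) (v : σ → L), (∀ i, c i 0 = 0) →
      (∀ i, HD (c i) (v i)) → HD (fun t => f fun i => c i t) (Λ v) := by
  induction hf using Submodule.span_induction with
  | mem f hf =>
    obtain ⟨κ, rfl⟩ := hf
    match κ with
    | [] => exact ⟨0, fun c v _ _ => by simpa using HD.const (0 : L)⟩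
    | [i] => exact ⟨LinearMap.proj i, fun c v _ h => h i⟩
    | i :: j :: κ =>
      refine ⟨0, fun c v h0 h => ?_⟩
      -- value and derivative of the tail
      have key : ∀ κ : List σ, (mon (fun i => c i 0) κ = 0) ∧
          ∃ w, HD (fun t => mon (fun i => c i t) κ) w := by
        intro κ
        induction κ with
        | nil => exact ⟨rfl, 0, by simpa using HD.const (0 : L)⟩
        | cons i κ ih =>
          by_cases hκ : κ = []
          · subst hκ; exact ⟨h0 i, v i, h i⟩
          · obtain ⟨ih0, w, hw⟩ := ih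
            refine ⟨?_, 0, ?_⟩
            · rw [mon_cons _ i hκ, h0 i, zero_lie]
            · simp only [mon_cons _ i hκ]
              exact HD.lie0 (h i) hw (h0 i) ih0
      obtain ⟨k0, w, hw⟩ := key (j :: κ)
      rw [LinearMap.zero_apply]
      exact HD.lie0 (h i) hw (h0 i) k0
  | zero => exact ⟨0, fun c v _ _ => by simpa using HD.const (0 : L)⟩
  | add f g _ _ hf hg =>
    obtain ⟨Λ, h⟩ := hf
    obtain ⟨Λ', h'⟩ := hg
    exact ⟨Λ + Λ', fun c v h0 hv => (h c v h0 hv).add (h' c v h0 hv)⟩
  | smul r f _ hf =>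
    obtain ⟨Λ, h⟩ := hf
    exact ⟨r • Λ, fun c v h0 hv => (h c v h0 hv).smul r⟩

/-- derivative of a product at the identity -/
theorem Star.HD_op [FiniteDimensional ℝ L] (S : Star L) {c c' : ℝ → L} {v v' : L} (h : HD c v)
    (h' : HD c' v') (h0 : c 0 = 0) (h0' : c' 0 = 0) :
    HD (fun t => S.op (c t) (c' t)) (v + v') := by
  obtain ⟨Λ, hΛ⟩ := LP.exists_lin S.lp
  have hl : ∀ v : L, Λ (fun b => if b = false then v else 0) = v := by
    intro v
    have h1 := hΛ (fun b t => if b = false then t • v else 0) (fun b => if b = false then v else 0)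
      (fun b => by cases b <;> simp) (fun b => by
        cases b
        · simpa using HD.line v
        · simpa using HD.const (0 : L))
    refine h1.unique ((HD.line v).congr fun t => ?_)
    simp [S.op_zero]
  have hr : ∀ v : L, Λ (fun b => if b = false then 0 else v) = v := by
    intro v
    have h1 := hΛ (fun b t => if b = false then 0 else t • v) (fun b => if b = false then 0 else v)
      (fun b => by cases b <;> simp) (fun b => by
        cases b
        · simpa using HD.const (0 : L)
        · simpa using HD.line v)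
    refine h1.unique ((HD.line v).congr fun t => ?_)
    simp [S.zero_op]
  have h1 := hΛ (fun b => if b = false then c else c') (fun b => if b = false then v else v')
    (fun b => by cases b <;> simp [h0, h0']) (fun b => by cases b <;> simp [h, h'])
  have h2 : Λ (fun b => if b = false then v else v') = v + v' := by
    rw [← hl v, ← hr v', ← map_add]
    congr 1
    funext b
    cases b <;> simp [hl, hr]
  rw [h2] at h1
  exact h1.congr fun t => by simp

end HD

/-- adjoint action of the group law, with the extraction of the bracket -/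
structure AdS {L : Type*} [LieRing L] [LieAlgebra ℝ L] (S : Star L) where
  Ad : L → L →ₗ[ℝ] L
  conj : ∀ x v, S.op x (S.op v (-x)) = Ad x v
  ext : ∃ (Q : ℕ) (τ lam : Fin Q → ℝ), ∀ x v, ∑ q, lam q • Ad (τ q • x) v = ⁅x, v⁆

section frames

variable {L : Type*} [LieRing L] [LieAlgebra ℝ L] [FiniteDimensional ℝ L] {S : Star L}
  (A : AdS S) {V : Type*} {ι : Type*} [Fintype ι] [DecidableEq ι] {d : ℕ}

/-- slots with values and `d` tangent directions -/
abbrev Cfg (V ι : Type*) (d : ℕ) := List (V × (ι → ℝ) × (Fin d → ι → ℝ))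

variable (S) in
/-- the curve of a configuration -/
noncomputable def cur (C : Cfg V ι d) (g : V × ι → L) (k : Fin d) (t : ℝ) : L :=
  S.prod (C.map fun z => ∑ i, (z.2.1 i + t * z.2.2 k i) • g (z.1, i))

variable (S) in
/-- the configuration `C` is closed and realises the tangent vectors `f` -/
def Real (C : Cfg V ι d) (f : Fin d → (V × ι → L) → L) : Prop :=
  ∀ g k, cur S C g k 0 = 0 ∧ HD (cur S C g k) (f k g)

variable (S) in
/-- some configuration over the word `u` realises `f` -/
def UU (u : List V) (f : Fin d → (V × ι → L) → L) : Prop :=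
  ∃ C : Cfg V ι d, C.map Prod.fst = u ∧ Real S C f

theorem UU.nil : UU S (V := V) (ι := ι) (d := d) [] (fun _ _ => 0) :=
  ⟨[], rfl, fun g k => ⟨rfl, by
    have : cur S ([] : Cfg V ι d) g k = fun _ => 0 := rfl
    rw [this]; exact HD.const 0⟩⟩

theorem UU.append {u u' : List V} {f f' : Fin d → (V × ι → L) → L} (h : UU S u f)
    (h' : UU S u' f') : UU S (u ++ u') (fun k g => f k g + f' k g) := by
  obtain ⟨C, rfl, hC⟩ := h
  obtain ⟨C', rfl, hC'⟩ := h'
  refine ⟨C ++ C', by simp, fun g k => ?_⟩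
  have e : ∀ t, cur S (C ++ C') g k t = S.op (cur S C g k t) (cur S C' g k t) := by
    intro t
    rw [cur, List.map_append, S.prod_append]; rfl
  refine ⟨?_, ?_⟩
  · rw [e, (hC g k).1, (hC' g k).1, S.op_zero]
  · exact (S.HD_op (hC g k).2 (hC' g k).2 (hC g k).1 (hC' g k).1).congr e

theorem UU.smul {u : List V} {f : Fin d → (V × ι → L) → L} (h : UU S u f) (r : ℝ) :
    UU S u (fun k g => r • f k g) := by
  obtain ⟨C, rfl, hC⟩ := h
  refine ⟨C.map fun z => (z.1, z.2.1, fun k i => r * z.2.2 k i), by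
    rw [List.map_map]; rfl, fun g k => ?_⟩
  have e : ∀ t, cur S (C.map fun z => (z.1, z.2.1, fun k i => r * z.2.2 k i)) g k t =
      cur S C g k (r * t) := by
    intro t
    rw [cur, cur, List.map_map]
    congr 1
    refine List.map_congr_left fun z _ => ?_
    simp only [Function.comp_apply]
    refine Finset.sum_congr rfl fun i _ => ?_
    congr 1; ring
  refine ⟨?_, ((hC g k).2.scale r).congr e⟩
  rw [e, mul_zero]; exact (hC g k).1

theorem UU.zero_cons {u : List V} {f : Fin d → (V × ι → L) → L} (h : UU S u f) (a : V) :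
    UU S (a :: u) f := by
  obtain ⟨C, rfl, hC⟩ := h
  refine ⟨(a, 0, 0) :: C, rfl, fun g k => ?_⟩
  have e : ∀ t, cur S ((a, 0, 0) :: C) g k t = cur S C g k t := by
    intro t
    rw [cur, List.map_cons, S.prod_cons, cur]
    simp [S.zero_op]
  exact ⟨by rw [e]; exact (hC g k).1, ((hC g k).2).congr e⟩

theorem UU.cons_congr {u u' : List V} (a : V)
    (h : ∀ C : Cfg V ι d, C.map Prod.fst = u → ∃ C' : Cfg V ι d, C'.map Prod.fst = u' ∧
      ∀ g k t, cur S C' g k t = cur S C g k t) (C : Cfg V ι d) (hC : C.map Prod.fst = a :: u) :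
    ∃ C' : Cfg V ι d, C'.map Prod.fst = a :: u' ∧ ∀ g k t, cur S C' g k t = cur S C g k t := by
  cases C with
  | nil => simp at hC
  | cons z C =>
    rw [List.map_cons, List.cons.injEq] at hC
    obtain ⟨C', h1, h2⟩ := h C hC.2
    refine ⟨z :: C', by rw [List.map_cons, h1, hC.1], fun g k t => ?_⟩
    rw [cur, cur, List.map_cons, List.map_cons, S.prod_cons, S.prod_cons]
    congr 1
    exact h2 g k t

theorem exists_cfg_sublist {u u' : List V} (h : u.Sublist u') : ∀ C : Cfg V ι d,
    C.map Prod.fst = u → ∃ C' : Cfg V ι d, C'.map Prod.fst = u' ∧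
      ∀ g k t, cur S C' g k t = cur S C g k t := by
  induction h with
  | slnil => exact fun C hC => ⟨C, hC, fun _ _ _ => rfl⟩
  | cons a _ ih =>
    intro C hC
    obtain ⟨C', h1, h2⟩ := ih C hC
    refine ⟨(a, 0, 0) :: C', by rw [List.map_cons, h1], fun g k t => ?_⟩
    rw [cur, List.map_cons, S.prod_cons, ← h2, cur]
    simp [S.zero_op]
  | cons_cons a _ ih => exact UU.cons_congr a ih

theorem UU.sublist {u u' : List V} {f : Fin d → (V × ι → L) → L} (h : UU S u f)
    (hu : u.Sublist u') : UU S u' f := by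
  obtain ⟨C, hC, hR⟩ := h
  obtain ⟨C', h1, h2⟩ := exists_cfg_sublist (S := S) hu C hC
  exact ⟨C', h1, fun g k => ⟨by rw [h2]; exact (hR g k).1, (hR g k).2.congr (h2 g k)⟩⟩

/-- one slot -/
theorem UU.single (a : V) (k₀ : Fin d) (i₀ : ι) :
    UU S (V := V) (ι := ι) [a] (fun k g => if k = k₀ then g (a, i₀) else 0) := by
  refine ⟨[(a, 0, fun k i => if k = k₀ ∧ i = i₀ then 1 else 0)], rfl, fun g k => ?_⟩
  have e : ∀ t, cur S [(a, 0, fun k i => if k = k₀ ∧ i = i₀ then 1 else 0)] g k t =
      t • (if k = k₀ then g (a, i₀) else 0) := by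
    intro t
    rw [cur, List.map_cons, List.map_nil, S.prod_cons, S.prod_nil, S.op_zero]
    by_cases h : k = k₀
    · simp only [h, true_and, Pi.zero_apply, zero_add, if_true]
      rw [Finset.sum_eq_single i₀]
      · simp
      · intro i _ hi; simp [hi]
      · intro h'; exact absurd (Finset.mem_univ _) h'
    · simp [h]
  exact ⟨by rw [e, zero_smul], (HD.line _).congr e⟩

include A in
/-- framing -/
theorem UU.frame {u : List V} {f : Fin d → (V × ι → L) → L} (h : UU S u f) (a : V) (i₀ : ι)
    (τ : ℝ) : UU S (a :: (u ++ [a])) (fun k g => A.Ad (τ • g (a, i₀)) (f k g)) := by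
  obtain ⟨C, rfl, hC⟩ := h
  refine ⟨(a, fun i => if i = i₀ then τ else 0, 0) ::
    (C ++ [(a, fun i => if i = i₀ then -τ else 0, 0)]), by simp, fun g k => ?_⟩
  have hx : ∀ (r : ℝ) (t : ℝ), ∑ i, ((if i = i₀ then r else 0) + t * (0 : Fin d → ι → ℝ) k i) •
      g (a, i) = r • g (a, i₀) := by
    intro r t
    rw [Finset.sum_eq_single i₀]
    · simp
    · intro i _ hi; simp [hi]
    · intro h'; exact absurd (Finset.mem_univ _) h'
  have e : ∀ t, cur S ((a, fun i => if i = i₀ then τ else 0, 0) ::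
      (C ++ [(a, fun i => if i = i₀ then -τ else 0, 0)])) g k t =
      A.Ad (τ • g (a, i₀)) (cur S C g k t) := by
    intro t
    rw [← A.conj, cur, List.map_cons, S.prod_cons, List.map_append, S.prod_append, List.map_cons,
      List.map_nil, S.prod_cons, S.prod_nil, S.op_zero]
    simp only [hx, neg_smul]
    rfl
  refine ⟨by rw [e, (hC g k).1, map_zero], ((hC g k).2.linear _).congr e⟩

theorem UU.sum : ∀ (n : ℕ) (u : Fin n → List V) (f : Fin n → Fin d → (V × ι → L) → L),
    (∀ q, UU S (u q) (f q)) → UU S (List.ofFn u).flatten (fun k g => ∑ q, f q k g) := by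
  intro n
  induction n with
  | zero =>
    intro u f _
    simpa using (UU.nil (S := S) (V := V) (ι := ι) (d := d))
  | succ n ih =>
    intro u f h
    rw [List.ofFn_succ, List.flatten_cons]
    simp only [Fin.sum_univ_succ]
    exact (h 0).append (ih _ _ fun q => h q.succ)

/-- length of the word of a monomial -/
def wl (Q : ℕ) : ℕ → ℕ
  | 0 => 0
  | 1 => 1
  | n + 2 => Q * (wl Q (n + 1) + 2)

theorem UU.mon {Q : ℕ} {τ lam : Fin Q → ℝ}
    (hQ : ∀ x v, ∑ q, lam q • A.Ad (τ q • x) v = ⁅x, v⁆) (k₀ : Fin d) (κ : List (V × ι)) :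
    ∃ u : List V, u.length = wl Q κ.length ∧
      UU S u (fun k g => if k = k₀ then Nb.mon g κ else 0) := by
  induction κ with
  | nil => exact ⟨[], rfl, by simpa using (UU.nil (S := S) (V := V) (ι := ι) (d := d))⟩
  | cons z κ ih =>
    obtain ⟨a, i₀⟩ := z
    obtain ⟨u, hu, hU⟩ := ih
    by_cases hκ : κ = []
    · subst hκ
      exact ⟨[a], rfl, UU.single a k₀ i₀⟩
    · refine ⟨(List.ofFn fun _ : Fin Q => a :: (u ++ [a])).flatten, ?_, ?_⟩
      · obtain ⟨m, hm⟩ : ∃ m, κ.length = m + 1 := ⟨κ.length - 1, by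
          have : κ.length ≠ 0 := by simpa using hκ
          omega⟩
        rw [List.length_cons, hm, wl, ← hm, ← hu]
        simp [List.length_flatten]
      · have h1 := UU.sum Q (fun _ => a :: (u ++ [a]))
          (fun q k g => lam q • A.Ad (τ q • g (a, i₀)) (if k = k₀ then Nb.mon g κ else 0))
          (fun q => (hU.frame A a i₀ (τ q)).smul (lam q))
        have e : (fun k g => ∑ q, lam q • A.Ad (τ q • g (a, i₀))
            (if k = k₀ then Nb.mon g κ else 0)) =
            fun (k : Fin d) (g : V × ι → L) => if k = k₀ then Nb.mon g ((a, i₀) :: κ) else 0 := by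
          funext k g
          by_cases h : k = k₀
          · simp only [h, if_true]
            rw [hQ, mon_cons g _ hκ]
          · simp [h]
        rw [e] at h1
        exact h1

include A in
/-- **closed configuration realising given monomials** -/
theorem UU.exists_mons : ∃ Q : ℕ, ∀ κ : Fin d → List (V × ι), ∃ u : List V,
    u.length = ∑ k, wl Q (κ k).length ∧ UU S u (fun k g => Nb.mon g (κ k)) := by
  obtain ⟨Q, τ, lam, hQ⟩ := A.ext
  refine ⟨Q, fun κ => ?_⟩
  choose u hu hU using fun k₀ => UU.mon A hQ (V := V) (ι := ι) k₀ (κ k₀)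
  refine ⟨(List.ofFn u).flatten, ?_, ?_⟩
  · simp [List.length_flatten, List.map_ofFn, Function.comp_def, List.sum_ofFn, hu]
  · have h1 := UU.sum d u _ hU
    have e : (fun (k : Fin d) (g : V × ι → L) => ∑ k₀, if k = k₀ then Nb.mon g (κ k₀) else 0) =
        fun k g => Nb.mon g (κ k) := by
      funext k g
      simp
    rw [e] at h1
    exact h1

end frames

end Crest.Agent.R182.Nb
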