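/-
R182, module NILBOX (helper89): the adjoint structure `AdS` from the conjugation formula.
-/
import Mathlib
import Crest.Agent.R182.NbJet

set_option autoImplicit false
set_option linter.unusedSectionVars false

namespace Crest.Agent.R182.Nb

open Finset

/-- Lagrange weights: extraction of the linear coefficient of a polynomial of degree `≤ n`. -/
theorem exists_weights (n : ℕ) (hn : 1 ≤ n) : ∃ lam : Fin (n + 1) → ℝ,
    ∀ k ∈ range (n + 1), ∑ q : Fin (n + 1), lam q * ((q : ℕ) : ℝ) ^ k = if k = 1 then 1 else 0 := by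
  set τ : Fin (n + 1) → ℝ := fun q => ((q : ℕ) : ℝ) with hτ
  have hinj : Function.Injective τ := by
    intro a b h
    have h' : ((a : ℕ) : ℝ) = ((b : ℕ) : ℝ) := h
    exact Fin.ext (by exact_mod_cast h')
  have hdet : IsUnit (Matrix.vandermonde τ).det :=
    isUnit_iff_ne_zero.mpr (Matrix.det_vandermonde_ne_zero_iff.mpr hinj)
  set e : Fin (n + 1) → ℝ := fun k => if (k : ℕ) = 1 then 1 else 0 with he
  refine ⟨Matrix.vecMul e (Matrix.vandermonde τ)⁻¹, fun k hk => ?_⟩
  have h1 : Matrix.vecMul (Matrix.vecMul e (Matrix.vandermonde τ)⁻¹) (Matrix.vandermonde τ) = e := by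
    rw [Matrix.vecMul_vecMul, Matrix.nonsing_inv_mul _ hdet, Matrix.vecMul_one]
  have h2 := congrFun h1 ⟨k, Finset.mem_range.mp hk⟩
  simp only [Matrix.vecMul, dotProduct, Matrix.vandermonde_apply] at h2
  simpa [he, hτ, Matrix.vecMul, dotProduct] using h2

variable {L : Type*} [LieRing L] [LieAlgebra ℝ L]

/-- `exp (ad x)`, truncated -/
noncomputable def expad (c : ℕ) (x : L) : L →ₗ[ℝ] L :=
  ∑ n ∈ range (c + 1), ((n.factorial : ℝ)⁻¹) • (LieAlgebra.ad ℝ L x : Module.End ℝ L) ^ n

theorem expad_apply (c : ℕ) (x y : L) : expad c x y =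
    ∑ n ∈ range (c + 1), ((n.factorial : ℝ)⁻¹) • ((LieAlgebra.ad ℝ L x : Module.End ℝ L) ^ n) y := by
  rw [expad, LinearMap.sum_apply]
  rfl

/-- the adjoint structure from the conjugation formula -/
noncomputable def AdS.of_cj {c : ℕ} (S : Star L) (hL : NilC c L)
    (h : ∀ x y, S.op (S.op x y) (-x) = expad c x y) : AdS S where
  Ad := expad c
  conj x v := by rw [← S.assoc, h]
  ext := by
    rcases Nat.eq_zero_or_pos c with h0 | hc
    · subst h0
      refine ⟨0, fun _ => 0, fun _ => 0, fun x v => ?_⟩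
      have h1 : ⁅x, v⁆ = 0 := hL [x, v] (by simp)
      rw [h1]; simp
    · obtain ⟨lam, hlam⟩ := exists_weights c hc
      refine ⟨c + 1, fun q => ((q : ℕ) : ℝ), lam, fun x v => ?_⟩
      simp only [expad_apply, Finset.smul_sum]
      rw [Finset.sum_comm]
      have h1 : ∀ n ∈ range (c + 1), ∑ q : Fin (c + 1), lam q • ((n.factorial : ℝ)⁻¹ •
          ((LieAlgebra.ad ℝ L (((q : ℕ) : ℝ) • x) : Module.End ℝ L) ^ n) v) =
          (if n = 1 then ⁅x, v⁆ else 0) := by
        intro n hn
        have h2 : ∀ q : Fin (c + 1), lam q • ((n.factorial : ℝ)⁻¹ •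
            ((LieAlgebra.ad ℝ L (((q : ℕ) : ℝ) • x) : Module.End ℝ L) ^ n) v) =
            (lam q * ((q : ℕ) : ℝ) ^ n) • ((n.factorial : ℝ)⁻¹ •
              ((LieAlgebra.ad ℝ L x : Module.End ℝ L) ^ n) v) := by
          intro q
          have h3 : (LieAlgebra.ad ℝ L (((q : ℕ) : ℝ) • x) : Module.End ℝ L) ^ n =
              (((q : ℕ) : ℝ) ^ n) • (LieAlgebra.ad ℝ L x : Module.End ℝ L) ^ n := by
            rw [map_smul, smul_pow]
          rw [h3, LinearMap.smul_apply, smul_smul, smul_smul, smul_smul]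
          congr 1; ring
        rw [Finset.sum_congr rfl fun q _ => h2 q, ← Finset.sum_smul, hlam n hn]
        by_cases h4 : n = 1
        · subst h4; simp
        · simp [h4]
      rw [Finset.sum_congr rfl h1]
      rw [Finset.sum_ite_eq' (range (c + 1)) 1 (fun _ => ⁅x, v⁆), if_pos]
      rw [Finset.mem_range]; omega

end Crest.Agent.R182.Nb
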