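/-
R182, module NILBOX (helper89): small values of polynomials.
-/
import Mathlib

set_option autoImplicit false
set_option linter.unusedSectionVars false

namespace Crest.Agent.R182.Nb

open MeasureTheory Finset

/-- choice of separated points in a set of large measure -/
theorem exists_separated {E : Set ℝ} {h : ℝ} (hh : 0 < h) (n : ℕ)
    (hE : ENNReal.ofReal (2 * n * h) < volume E) :
    ∃ v : ℕ → ℝ, (∀ i ≤ n, v i ∈ E) ∧ ∀ i ≤ n, ∀ j ≤ n, i ≠ j → h ≤ |v i - v j| := by
  induction n with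
  | zero =>
    have : E.Nonempty := by
      by_contra hcon
      rw [Set.not_nonempty_iff_eq_empty] at hcon
      rw [hcon] at hE; simp at hE
    obtain ⟨x, hx⟩ := this
    exact ⟨fun _ => x, fun _ _ => hx, fun i hi j hj hij => by omega⟩
  | succ n ih =>
    have hE' : ENNReal.ofReal (2 * n * h) < volume E := by
      refine lt_of_le_of_lt (ENNReal.ofReal_le_ofReal ?_) hE
      push_cast; nlinarith
    obtain ⟨v, hv, hsep⟩ := ih hE'
    -- remove the balls
    have hU : volume (⋃ i ∈ Finset.range (n + 1), Metric.ball (v i) h) ≤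
        ENNReal.ofReal (2 * (n + 1 : ℕ) * h) := by
      refine (measure_biUnion_finset_le _ _).trans ?_
      have : ∀ i ∈ Finset.range (n + 1), volume (Metric.ball (v i) h) = ENNReal.ofReal (2 * h) :=
        fun i _ => Real.volume_ball _ _
      rw [Finset.sum_congr rfl this, Finset.sum_const, Finset.card_range, nsmul_eq_mul]
      rw [← ENNReal.ofReal_natCast, ← ENNReal.ofReal_mul (by positivity)]
      exact ENNReal.ofReal_le_ofReal (by push_cast; linarith)
    have hne : (E \ ⋃ i ∈ Finset.range (n + 1), Metric.ball (v i) h).Nonempty := by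
      by_contra hcon
      rw [Set.not_nonempty_iff_eq_empty, Set.sdiff_eq_empty] at hcon
      exact absurd (lt_of_lt_of_le hE ((measure_mono hcon).trans hU)) (lt_irrefl _)
    obtain ⟨x, hxE, hx⟩ := hne
    have hx' : ∀ i ≤ n, h ≤ |x - v i| := by
      intro i hi
      by_contra hcon
      apply hx
      simp only [Set.mem_iUnion]
      exact ⟨i, Finset.mem_range.mpr (by omega), by rw [Metric.mem_ball, Real.dist_eq]; linarith⟩
    refine ⟨fun i => if i = n + 1 then x else v i, fun i hi => ?_, fun i hi j hj hij => ?_⟩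
    · beta_reduce
      split_ifs with h1
      · exact hxE
      · exact hv i (by omega)
    · beta_reduce
      split_ifs with h1 h2 h2
      · omega
      · exact hx' j (by omega)
      · rw [abs_sub_comm]; exact hx' i (by omega)
      · exact hsep i (by omega) j (by omega) hij

/-- **small values of a polynomial of one variable** -/
theorem small_one {D : ℕ} {p : Polynomial ℝ} (hp : p.natDegree ≤ D) {ρ a τ t₀ : ℝ} (hρ : 0 < ρ)
    (ht₀ : |t₀| ≤ ρ) (ha : 0 < a) (hpt : a ≤ |p.eval t₀|) (hτ : 0 < τ) (hτ1 : τ ≤ 1) :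
    volume {t : ℝ | |t| ≤ ρ ∧ |p.eval t| < a * τ ^ (D + 1) / (D + 2)} ≤
      ENNReal.ofReal (4 * D * ρ * τ) := by
  by_contra hcon
  rw [not_le] at hcon
  set h : ℝ := 2 * ρ * τ with hh
  have hh0 : 0 < h := by positivity
  obtain ⟨v, hv, hsep⟩ := exists_separated hh0 D (lt_of_le_of_lt
    (ENNReal.ofReal_le_ofReal (by rw [hh]; nlinarith)) hcon)
  have hinj : Set.InjOn v (Finset.range (D + 1) : Set ℕ) := by
    intro i hi j hj hij
    by_contra hne
    have := hsep i (by simpa [Nat.lt_succ_iff] using hi) j (by simpa [Nat.lt_succ_iff] using hj) hne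
    rw [hij, sub_self, abs_zero] at this
    linarith
  have hdeg : p.degree < (#(Finset.range (D + 1)) : WithBot ℕ) := by
    rw [Finset.card_range]
    exact lt_of_le_of_lt Polynomial.degree_le_natDegree (by exact_mod_cast Nat.lt_succ_of_le hp)
  have h1 := Lagrange.eq_interpolate hinj hdeg
  have h2 : p.eval t₀ = ∑ i ∈ Finset.range (D + 1), p.eval (v i) *
      ∏ j ∈ (Finset.range (D + 1)).erase i, (v i - v j)⁻¹ * (t₀ - v j) := by
    conv_lhs => rw [h1, Lagrange.interpolate_apply, Polynomial.eval_finsetSum]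
    refine Finset.sum_congr rfl fun i _ => ?_
    rw [Polynomial.eval_mul, Polynomial.eval_C, Lagrange.basis, Polynomial.eval_prod]
    congr 1
    refine Finset.prod_congr rfl fun j _ => ?_
    rw [Lagrange.basisDivisor, Polynomial.eval_mul, Polynomial.eval_C, Polynomial.eval_sub,
      Polynomial.eval_X, Polynomial.eval_C]
  have h3 : ∀ i ∈ Finset.range (D + 1), |p.eval (v i) *
      ∏ j ∈ (Finset.range (D + 1)).erase i, (v i - v j)⁻¹ * (t₀ - v j)| ≤
      (a * τ ^ (D + 1) / (D + 2)) * (τ⁻¹) ^ D := by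
    intro i hi
    have hi' : i ≤ D := by rw [Finset.mem_range] at hi; omega
    rw [abs_mul, Finset.abs_prod]
    have h4 : ∏ j ∈ (Finset.range (D + 1)).erase i, |(v i - v j)⁻¹ * (t₀ - v j)| ≤ (τ⁻¹) ^ D := by
      have h5 : ∀ j ∈ (Finset.range (D + 1)).erase i, |(v i - v j)⁻¹ * (t₀ - v j)| ≤ τ⁻¹ := by
        intro j hj
        rw [Finset.mem_erase, Finset.mem_range] at hj
        have h6 := hsep i hi' j (by omega) (Ne.symm hj.1)
        have h7 : |t₀ - v j| ≤ 2 * ρ := by
          have := (hv j (by omega)).1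
          calc |t₀ - v j| ≤ |t₀| + |v j| := abs_sub _ _
            _ ≤ 2 * ρ := by linarith
        rw [abs_mul, abs_inv]
        have h8 : 0 < |v i - v j| := lt_of_lt_of_le hh0 h6
        rw [inv_mul_le_iff₀ h8]
        calc |t₀ - v j| ≤ 2 * ρ := h7
          _ = h * τ⁻¹ := by rw [hh]; field_simp
          _ ≤ |v i - v j| * τ⁻¹ := by gcongr
      calc _ ≤ ∏ j ∈ (Finset.range (D + 1)).erase i, τ⁻¹ :=
            Finset.prod_le_prod (fun _ _ => abs_nonneg _) h5
        _ = (τ⁻¹) ^ D := by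
            rw [Finset.prod_const, Finset.card_erase_of_mem hi, Finset.card_range,
              Nat.add_sub_cancel]
    have h9 := (hv i hi').2.le
    have h10 : 0 ≤ ∏ j ∈ (Finset.range (D + 1)).erase i, |(v i - v j)⁻¹ * (t₀ - v j)| :=
      Finset.prod_nonneg fun _ _ => abs_nonneg _
    gcongr
  have h4 : |p.eval t₀| ≤ ∑ i ∈ Finset.range (D + 1), (a * τ ^ (D + 1) / (D + 2)) * (τ⁻¹) ^ D := by
    rw [h2]
    exact (Finset.abs_sum_le_sum_abs _ _).trans (Finset.sum_le_sum h3)
  rw [Finset.sum_const, Finset.card_range, nsmul_eq_mul] at h4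
  have h5 : ((D + 1 : ℕ) : ℝ) * ((a * τ ^ (D + 1) / (D + 2)) * (τ⁻¹) ^ D) < a := by
    have h6 : τ ^ (D + 1) * (τ⁻¹) ^ D = τ := by
      rw [pow_succ, mul_assoc, mul_comm τ, ← mul_assoc, ← mul_pow, mul_inv_cancel₀ hτ.ne', one_pow,
        one_mul]
    have h7 : ((D + 1 : ℕ) : ℝ) * ((a * τ ^ (D + 1) / (D + 2)) * (τ⁻¹) ^ D) =
        a * (((D : ℝ) + 1) / (D + 2)) * τ := by
      calc ((D + 1 : ℕ) : ℝ) * ((a * τ ^ (D + 1) / (D + 2)) * (τ⁻¹) ^ D)
          = a * (((D : ℝ) + 1) / (D + 2)) * (τ ^ (D + 1) * (τ⁻¹) ^ D) := by push_cast; ring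
        _ = _ := by rw [h6]
    rw [h7]
    have h8 : ((D : ℝ) + 1) / (D + 2) < 1 := by
      rw [div_lt_one (by positivity)]; linarith
    have h9 : 0 ≤ ((D : ℝ) + 1) / (D + 2) := by positivity
    calc a * (((D : ℝ) + 1) / (D + 2)) * τ ≤ a * (((D : ℝ) + 1) / (D + 2)) * 1 := by gcongr
      _ < a * 1 := by rw [mul_one]; exact mul_lt_mul_of_pos_left h8 ha
      _ = a := mul_one a
  linarith

/-- polynomial functions of one variable -/
def PolyD (D : ℕ) (f : ℝ → ℝ) : Prop := ∃ p : Polynomial ℝ, p.natDegree ≤ D ∧ ∀ t, f t = p.eval t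

namespace PolyD

theorem const (D : ℕ) (a : ℝ) : PolyD D fun _ => a :=
  ⟨Polynomial.C a, by simp, fun t => by simp⟩

theorem mono {D D' : ℕ} {f : ℝ → ℝ} (hf : PolyD D f) (h : D ≤ D') : PolyD D' f := by
  obtain ⟨p, hp, h'⟩ := hf
  exact ⟨p, hp.trans h, h'⟩

theorem add {D : ℕ} {f g : ℝ → ℝ} (hf : PolyD D f) (hg : PolyD D g) :
    PolyD D fun t => f t + g t := by
  obtain ⟨p, hp, h⟩ := hf
  obtain ⟨q, hq, h'⟩ := hg
  exact ⟨p + q, Polynomial.natDegree_add_le_of_degree_le hp hq, fun t => by simp [h, h']⟩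

theorem mul {D D' : ℕ} {f g : ℝ → ℝ} (hf : PolyD D f) (hg : PolyD D' g) :
    PolyD (D + D') fun t => f t * g t := by
  obtain ⟨p, hp, h⟩ := hf
  obtain ⟨q, hq, h'⟩ := hg
  exact ⟨p * q, Polynomial.natDegree_mul_le_of_le hp hq, fun t => by simp [h, h']⟩

theorem smul {D : ℕ} {f : ℝ → ℝ} (a : ℝ) (hf : PolyD D f) : PolyD D fun t => a * f t := by
  have := (const 0 a).mul hf
  rwa [zero_add] at this

theorem sum {ι : Type*} {D : ℕ} (s : Finset ι) {f : ι → ℝ → ℝ} (hf : ∀ i ∈ s, PolyD D (f i)) :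
    PolyD D fun t => ∑ i ∈ s, f i t := by
  classical
  induction s using Finset.induction_on with
  | empty => simpa using const D 0
  | insert a s ha ih =>
    simp only [Finset.sum_insert ha]
    exact (hf a (Finset.mem_insert_self a s)).add
      (ih fun i hi => hf i (Finset.mem_insert_of_mem hi))

theorem prod {ι : Type*} {D : ℕ} (s : Finset ι) {f : ι → ℝ → ℝ} (hf : ∀ i ∈ s, PolyD D (f i)) :
    PolyD (s.card * D) fun t => ∏ i ∈ s, f i t := by
  classical
  induction s using Finset.induction_on with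
  | empty => simpa using const 0 1
  | insert a s ha ih =>
    simp only [Finset.prod_insert ha, Finset.card_insert_of_notMem ha]
    refine ((hf a (Finset.mem_insert_self a s)).mul
      (ih fun i hi => hf i (Finset.mem_insert_of_mem hi))).mono ?_
    rw [add_mul]; omega

theorem det {n D : ℕ} {M : ℝ → Matrix (Fin n) (Fin n) ℝ} (h : ∀ i j, PolyD D fun t => M t i j) :
    PolyD (n * D) fun t => (M t).det := by
  simp only [Matrix.det_apply']
  refine sum _ fun σ _ => smul _ ?_
  have := prod (Finset.univ : Finset (Fin n)) (f := fun i t => M t (σ i) i) fun i _ => h _ _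
  simpa using this

end PolyD

/-- the small value lemma for functions -/
theorem PolyD.small {D : ℕ} {f : ℝ → ℝ} (hf : PolyD D f) {ρ a τ t₀ : ℝ} (hρ : 0 < ρ)
    (ht₀ : |t₀| ≤ ρ) (ha : 0 < a) (hpt : a ≤ |f t₀|) (hτ : 0 < τ) (hτ1 : τ ≤ 1) :
    volume {t : ℝ | |t| ≤ ρ ∧ |f t| < a * τ ^ (D + 1) / (D + 2)} ≤
      ENNReal.ofReal (4 * D * ρ * τ) := by
  obtain ⟨p, hp, h⟩ := hf
  rw [h] at hpt
  have := small_one hp hρ ht₀ ha hpt hτ hτ1
  simpa only [h] using this

variable {W : Type*} [Fintype W]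

/-- **small values in several variables**: if `P` has value `≥ 1` at a point of the ball and is
polynomial of degree `≤ D` along all lines through it. -/
theorem small_multi (D : ℕ) (ρ : ℝ) (hρ : 0 < ρ) : ∃ C : ℝ, 0 ≤ C ∧
    ∀ (P : (W → ℝ) → ℝ) (w₀ : W → ℝ), Continuous P → ‖w₀‖ ≤ ρ → 1 ≤ |P w₀| →
      (∀ v : W → ℝ, PolyD D fun s => P (w₀ + s • v)) → ∀ τ : ℝ, 0 < τ → τ ≤ 1 →
      volume {w : W → ℝ | ‖w‖ ≤ ρ ∧ |P w| < τ ^ (D + 1) / (D + 2)} ≤ ENNReal.ofReal (C * τ) := by
  set m := Fintype.card W with hm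
  set VB : ℝ := (volume (Metric.closedBall (0 : W → ℝ) ρ)).toReal with hVB
  refine ⟨2 ^ m * VB * (8 * D), by positivity, fun P w₀ hP hw₀ hP₀ hline τ hτ hτ1 => ?_⟩
  set E : Set (W → ℝ) := {w : W → ℝ | ‖w‖ ≤ ρ ∧ |P w| < τ ^ (D + 1) / (D + 2)} with hE
  have hEm : MeasurableSet E := by
    refine MeasurableSet.inter ?_ ?_
    · exact measurableSet_le measurable_norm measurable_const
    · exact measurableSet_lt (hP.abs.measurable) measurable_const
  -- the map
  set Φ : ℝ × (W → ℝ) → (W → ℝ) := fun z => w₀ + z.1 • (z.2 - w₀) with hΦ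
  have hΦc : Continuous Φ := by rw [hΦ]; fun_prop
  set T : Set (ℝ × (W → ℝ)) := (Set.Icc 1 2 ×ˢ Set.univ) ∩ Φ ⁻¹' E with hT
  have hTm : MeasurableSet T := (measurableSet_Icc.prod MeasurableSet.univ).inter
    (hΦc.measurable hEm)
  have h1 : (volume : Measure (ℝ × (W → ℝ))) T =
      ∫⁻ s, volume (Prod.mk s ⁻¹' T) := by
    rw [Measure.volume_eq_prod]; exact Measure.prod_apply hTm
  have h2 : (volume : Measure (ℝ × (W → ℝ))) T =
      ∫⁻ w, volume ((fun s => (s, w)) ⁻¹' T) := by
    rw [Measure.volume_eq_prod]; exact Measure.prod_apply_symm hTm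
  -- lower bound
  have hlow : ENNReal.ofReal ((2 ^ m)⁻¹) * volume E ≤ (volume : Measure (ℝ × (W → ℝ))) T := by
    rw [h1]
    have h3 : ∀ s ∈ Set.Icc (1 : ℝ) 2, ENNReal.ofReal ((2 ^ m)⁻¹) * volume E ≤
        volume (Prod.mk s ⁻¹' T) := by
      intro s hs
      have hs0 : 0 < s := by linarith [hs.1]
      have e1 : Prod.mk s ⁻¹' T = (fun w => w₀ + s • (w - w₀)) ⁻¹' E := by
        ext w
        simp only [hT, hΦ, Set.mem_preimage, Set.mem_inter_iff, Set.mem_prod, Set.mem_univ,
          and_true]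
        exact ⟨fun h => h.2, fun h => ⟨hs, h⟩⟩
      have e2 : (fun w => w₀ + s • (w - w₀)) ⁻¹' E =
          (fun w => w + -w₀) ⁻¹' ((fun w => s • w) ⁻¹' ((fun w => w₀ + w) ⁻¹' E)) := by
        ext w; simp only [Set.mem_preimage, sub_eq_add_neg]
      rw [e1, e2, measure_preimage_add_right, Measure.addHaar_preimage_smul _ hs0.ne',
        measure_preimage_add]
      gcongr
      rw [abs_of_pos (by positivity), Module.finrank_fintype_fun_eq_card]
      have : s ^ m ≤ 2 ^ m := pow_le_pow_left₀ hs0.le hs.2 m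
      exact inv_anti₀ (by positivity) this
    calc ENNReal.ofReal ((2 ^ m)⁻¹) * volume E
        = ∫⁻ _ in Set.Icc (1 : ℝ) 2, ENNReal.ofReal ((2 ^ m)⁻¹) * volume E := by
          rw [lintegral_const, Measure.restrict_apply_univ, Real.volume_Icc]
          norm_num
      _ ≤ ∫⁻ s in Set.Icc (1 : ℝ) 2, volume (Prod.mk s ⁻¹' T) :=
          setLIntegral_mono' measurableSet_Icc h3
      _ ≤ ∫⁻ s, volume (Prod.mk s ⁻¹' T) := setLIntegral_le_lintegral _ _
  -- upper bound
  have hup : (volume : Measure (ℝ × (W → ℝ))) T ≤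
      ENNReal.ofReal (8 * D * τ) * volume (Metric.closedBall (0 : W → ℝ) ρ) := by
    rw [h2]
    have h3 : ∀ w, volume ((fun s => (s, w)) ⁻¹' T) ≤
        (Metric.closedBall (0 : W → ℝ) ρ).indicator (fun _ => ENNReal.ofReal (8 * D * τ)) w := by
      intro w
      by_cases hw : w ∈ Metric.closedBall (0 : W → ℝ) ρ
      · rw [Set.indicator_of_mem hw]
        have h4 := (hline (w - w₀)).small (ρ := 2) (a := 1) (t₀ := 0) (by norm_num) (by norm_num)
          one_pos (by simpa using hP₀) hτ hτ1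
        refine (measure_mono ?_).trans (h4.trans (ENNReal.ofReal_le_ofReal (by
          have : (0:ℝ) ≤ D := Nat.cast_nonneg _
          nlinarith)))
        rintro s ⟨⟨hs, -⟩, hs'⟩
        refine ⟨?_, ?_⟩
        · rw [abs_of_nonneg (by linarith [hs.1])]; exact hs.2
        · rw [one_mul]; exact hs'.2
      · rw [Set.indicator_of_notMem hw, nonpos_iff_eq_zero]
        have : (fun s => (s, w)) ⁻¹' T = ∅ := by
          rw [Set.eq_empty_iff_forall_notMem]
          rintro s ⟨⟨hs, -⟩, hs'⟩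
          apply hw
          rw [mem_closedBall_zero_iff]
          have hn : ‖w₀ + s • (w - w₀)‖ ≤ ρ := hs'.1
          have hs1 : 1 ≤ s := hs.1
          have hs0 : 0 < s := by linarith
          have e : w = (1 / s) • (w₀ + s • (w - w₀)) + (1 - 1 / s) • w₀ := by
            rw [smul_add, smul_smul, one_div, inv_mul_cancel₀ hs0.ne', one_smul, sub_smul,
              one_smul]
            abel
          rw [e]
          have h5 : 1 / s ≤ 1 := by rw [div_le_one hs0]; exact hs1
          calc ‖(1 / s) • (w₀ + s • (w - w₀)) + (1 - 1 / s) • w₀‖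
              ≤ ‖(1 / s) • (w₀ + s • (w - w₀))‖ + ‖(1 - 1 / s) • w₀‖ := norm_add_le _ _
            _ = (1 / s) * ‖w₀ + s • (w - w₀)‖ + (1 - 1 / s) * ‖w₀‖ := by
                rw [norm_smul, norm_smul, Real.norm_of_nonneg (by positivity),
                  Real.norm_of_nonneg (by linarith)]
            _ ≤ (1 / s) * ρ + (1 - 1 / s) * ρ := by
                gcongr
            _ = ρ := by ring
        rw [this, measure_empty]
    calc ∫⁻ w, volume ((fun s => (s, w)) ⁻¹' T)
        ≤ ∫⁻ w, (Metric.closedBall (0 : W → ℝ) ρ).indicator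
            (fun _ => ENNReal.ofReal (8 * D * τ)) w := lintegral_mono h3
      _ = ENNReal.ofReal (8 * D * τ) * volume (Metric.closedBall (0 : W → ℝ) ρ) :=
          lintegral_indicator_const Metric.isClosed_closedBall.measurableSet _
  have hfin : volume (Metric.closedBall (0 : W → ℝ) ρ) ≠ ⊤ :=
    (isCompact_closedBall (0 : W → ℝ) ρ).measure_lt_top.ne
  have hcomb := hlow.trans hup
  have h6 : volume (Metric.closedBall (0 : W → ℝ) ρ) = ENNReal.ofReal VB :=
    (ENNReal.ofReal_toReal hfin).symm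
  rw [h6, ← ENNReal.ofReal_mul (by positivity)] at hcomb
  have h7 : volume E = ENNReal.ofReal (2 ^ m) * (ENNReal.ofReal ((2 ^ m)⁻¹) * volume E) := by
    rw [← mul_assoc, ← ENNReal.ofReal_mul (by positivity), mul_inv_cancel₀ (by positivity),
      ENNReal.ofReal_one, one_mul]
  rw [h7]
  calc ENNReal.ofReal (2 ^ m) * (ENNReal.ofReal ((2 ^ m)⁻¹) * volume E)
      ≤ ENNReal.ofReal (2 ^ m) * ENNReal.ofReal (8 * D * τ * VB) := by gcongr
    _ = ENNReal.ofReal (2 ^ m * VB * (8 * D) * τ) := by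
        rw [← ENNReal.ofReal_mul (by positivity)]
        congr 1; ring

end Crest.Agent.R182.Nb
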