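/-
R182, module NILBOX (helper89): push-forward of Lebesgue measure under a bounded family of polynomial
maps with an explicit point of rank `d` (power law, uniform in the family).
-/
import Mathlib
import Crest.Agent.R182.NbSmall
import Crest.Agent.R182.ModelJac

set_option autoImplicit false
set_option linter.unusedSectionVars false

namespace Crest.Agent.R182.Nb

open MeasureTheory Finset MvPolynomial ModelCount

variable {W : Type*} [Fintype W]

theorem poly_lip (q : MvPolynomial W ℝ) (ρ : ℝ) : ∃ C : ℝ, 0 ≤ C ∧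
    (∀ w : W → ℝ, ‖w‖ ≤ ρ → |eval w q| ≤ C) ∧
    ∀ w w' : W → ℝ, ‖w‖ ≤ ρ → ‖w'‖ ≤ ρ → |eval w q - eval w' q| ≤ C * ‖w - w'‖ := by
  induction q using MvPolynomial.induction_on with
  | C a => exact ⟨|a|, abs_nonneg _, fun w _ => by simp, fun w w' _ _ => by simp; positivity⟩
  | add p q hp hq =>
    obtain ⟨C₁, h₁, h₁', h₁''⟩ := hp
    obtain ⟨C₂, h₂, h₂', h₂''⟩ := hq
    refine ⟨C₁ + C₂, by positivity, fun w hw => ?_, fun w w' hw hw' => ?_⟩
    · rw [map_add]; exact (abs_add_le _ _).trans (add_le_add (h₁' w hw) (h₂' w hw))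
    · rw [map_add, map_add, add_sub_add_comm, add_mul]
      exact (abs_add_le _ _).trans (add_le_add (h₁'' w w' hw hw') (h₂'' w w' hw hw'))
  | mul_X p i hp =>
    obtain ⟨C₁, h₁, h₁', h₁''⟩ := hp
    refine ⟨C₁ * |ρ| + C₁, by positivity, fun w hw => ?_, fun w w' hw hw' => ?_⟩
    · rw [map_mul, eval_X, abs_mul]
      have h3 : |w i| ≤ |ρ| := ((norm_le_pi_norm w i).trans hw).trans (le_abs_self _)
      have h4 := h₁' w hw
      calc |eval w p| * |w i| ≤ C₁ * |ρ| := by gcongr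
        _ ≤ _ := by linarith
    · rw [map_mul, map_mul, eval_X, eval_X]
      have h3 : |w i| ≤ |ρ| := ((norm_le_pi_norm w i).trans hw).trans (le_abs_self _)
      have h4 := h₁' w' hw'
      have h5 : |w i - w' i| ≤ ‖w - w'‖ := norm_le_pi_norm (w - w') i
      have h6 := h₁'' w w' hw hw'
      have e : eval w p * w i - eval w' p * w' i = (eval w p - eval w' p) * w i +
          eval w' p * (w i - w' i) := by ring
      rw [e]
      refine (abs_add_le _ _).trans ?_
      rw [abs_mul, abs_mul]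
      calc |eval w p - eval w' p| * |w i| + |eval w' p| * |w i - w' i|
          ≤ (C₁ * ‖w - w'‖) * |ρ| + C₁ * ‖w - w'‖ := by gcongr
        _ = (C₁ * |ρ| + C₁) * ‖w - w'‖ := by ring

theorem poly_line (q : MvPolynomial W ℝ) : ∃ D : ℕ, ∀ x v : W → ℝ,
    PolyD D fun s => eval (x + s • v) q := by
  induction q using MvPolynomial.induction_on with
  | C a => exact ⟨0, fun x v => by simpa using PolyD.const 0 a⟩
  | add p q hp hq =>
    obtain ⟨D₁, h₁⟩ := hp
    obtain ⟨D₂, h₂⟩ := hq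
    refine ⟨max D₁ D₂, fun x v => ?_⟩
    simp only [map_add]
    exact ((h₁ x v).mono (le_max_left _ _)).add ((h₂ x v).mono (le_max_right _ _))
  | mul_X p i hp =>
    obtain ⟨D₁, h₁⟩ := hp
    refine ⟨D₁ + 1, fun x v => ?_⟩
    simp only [map_mul, eval_X]
    refine (h₁ x v).mul ⟨Polynomial.C (x i) + Polynomial.C (v i) * Polynomial.X, ?_, fun t => ?_⟩
    · compute_degree
    · simp only [Pi.add_apply, Pi.smul_apply, smul_eq_mul, Polynomial.eval_add,
        Polynomial.eval_C, Polynomial.eval_mul, Polynomial.eval_X]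
      ring

theorem prod_lip {ι : Type*} (s : Finset ι) {b ε : ℝ} (hb : 1 ≤ b) (hε : 0 ≤ ε) {f g : ι → ℝ}
    (hf : ∀ i ∈ s, |f i| ≤ b) (hg : ∀ i ∈ s, |g i| ≤ b) (hfg : ∀ i ∈ s, |f i - g i| ≤ ε) :
    |∏ i ∈ s, f i| ≤ b ^ s.card ∧ |∏ i ∈ s, g i| ≤ b ^ s.card ∧
      |∏ i ∈ s, f i - ∏ i ∈ s, g i| ≤ s.card * b ^ s.card * ε := by
  classical
  induction s using Finset.induction_on with
  | empty => simp
  | insert a s ha ih =>
    obtain ⟨i1, i2, i3⟩ := ih (fun i hi => hf i (mem_insert_of_mem hi))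
      (fun i hi => hg i (mem_insert_of_mem hi)) (fun i hi => hfg i (mem_insert_of_mem hi))
    have a1 := hf a (mem_insert_self a s)
    have a2 := hg a (mem_insert_self a s)
    have a3 := hfg a (mem_insert_self a s)
    rw [prod_insert ha, prod_insert ha, card_insert_of_notMem ha, pow_succ']
    have hb0 : 0 ≤ b := by linarith
    have hbn : 0 ≤ b ^ s.card := by positivity
    refine ⟨?_, ?_, ?_⟩
    · rw [abs_mul]; gcongr
    · rw [abs_mul]; gcongr
    · have e : f a * ∏ i ∈ s, f i - g a * ∏ i ∈ s, g i = (f a - g a) * ∏ i ∈ s, f i +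
          g a * (∏ i ∈ s, f i - ∏ i ∈ s, g i) := by ring
      rw [e]
      refine (abs_add_le _ _).trans ?_
      rw [abs_mul, abs_mul]
      calc |f a - g a| * |∏ i ∈ s, f i| + |g a| * |∏ i ∈ s, f i - ∏ i ∈ s, g i|
          ≤ ε * b ^ s.card + b * (s.card * b ^ s.card * ε) := by gcongr
        _ ≤ ε * (b * b ^ s.card) + b * (s.card * b ^ s.card * ε) := by
            gcongr
            nlinarith
        _ = ((s.card + 1 : ℕ) : ℝ) * (b * b ^ s.card) * ε := by push_cast; ring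

theorem det_lip (n : ℕ) (b : ℝ) : ∃ C : ℝ, 0 ≤ C ∧ ∀ A B : Matrix (Fin n) (Fin n) ℝ, ∀ ε : ℝ,
    0 ≤ ε → (∀ i j, |A i j| ≤ b) → (∀ i j, |B i j| ≤ b) → (∀ i j, |A i j - B i j| ≤ ε) →
      |A.det - B.det| ≤ C * ε := by
  set b' := max 1 b
  refine ⟨n.factorial * (n * b' ^ n), by positivity, fun A B ε hε hA hB hAB => ?_⟩
  rw [Matrix.det_apply', Matrix.det_apply', ← Finset.sum_sub_distrib]
  refine (Finset.abs_sum_le_sum_abs _ _).trans ?_
  have h1 : ∀ σ ∈ (Finset.univ : Finset (Equiv.Perm (Fin n))),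
      |((Equiv.Perm.sign σ : ℤ) : ℝ) * ∏ i, A (σ i) i - ((Equiv.Perm.sign σ : ℤ) : ℝ) *
        ∏ i, B (σ i) i| ≤ n * b' ^ n * ε := by
    intro σ _
    rw [← mul_sub, abs_mul]
    have h2 : |((Equiv.Perm.sign σ : ℤ) : ℝ)| = 1 := by
      rcases Int.units_eq_one_or (Equiv.Perm.sign σ) with h | h <;> simp [h]
    rw [h2, one_mul]
    have h3 := (prod_lip (Finset.univ : Finset (Fin n)) (le_max_left 1 b) hε
      (f := fun i => A (σ i) i) (g := fun i => B (σ i) i)
      (fun i _ => (hA _ _).trans (le_max_right _ _)) (fun i _ => (hB _ _).trans (le_max_right _ _))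
      (fun i _ => hAB _ _)).2.2
    simpa using h3
  refine (Finset.sum_le_sum h1).trans ?_
  rw [Finset.sum_const, Finset.card_univ, Fintype.card_perm, Fintype.card_fin, nsmul_eq_mul]
  exact le_of_eq (by ring)

section family

variable {K : Type*} [Fintype K] {d : ℕ}

/-- directional derivative -/
noncomputable def dq (p : MvPolynomial W ℝ) (r : W → ℝ) : MvPolynomial W ℝ :=
  ∑ i, C (r i) * pderiv i p

theorem eval_dq (p : MvPolynomial W ℝ) (r w : W → ℝ) : eval w (dq p r) = dpoly p w r := by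
  rw [dq, map_sum, dpoly_apply]
  refine Finset.sum_congr rfl fun i _ => ?_
  rw [map_mul, eval_C, mul_comm]

/-- the family of polynomial maps -/
noncomputable def fF (p : K → MvPolynomial W ℝ) (θ : K → Fin d → ℝ) (w : W → ℝ) : Fin d → ℝ :=
  fun k => ∑ κ, θ κ k * eval w (p κ)

/-- matrix of the derivative in the directions `R` -/
noncomputable def fM (p : K → MvPolynomial W ℝ) (R : Fin d → W → ℝ) (θ : K → Fin d → ℝ)
    (w : W → ℝ) : Matrix (Fin d) (Fin d) ℝ :=
  Matrix.of fun k j => ∑ κ, θ κ k * eval w (dq (p κ) (R j))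

/-- the linear map `x ↦ ∑ x_j R_j` -/
noncomputable def Rl (R : Fin d → W → ℝ) : (Fin d → ℝ) →L[ℝ] (W → ℝ) :=
  ∑ j, (ContinuousLinearMap.proj (R := ℝ) (φ := fun _ : Fin d => ℝ) j).smulRight (R j)

theorem Rl_apply (R : Fin d → W → ℝ) (x : Fin d → ℝ) : Rl R x = ∑ j, x j • R j := by
  simp [Rl]

theorem continuous_fF (p : K → MvPolynomial W ℝ) (θ : K → Fin d → ℝ) : Continuous (fF p θ) := by
  refine continuous_pi fun k => ?_
  unfold fF
  exact continuous_finsetSum _ fun κ _ => continuous_const.mul (MvPolynomial.continuous_eval _)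

theorem continuous_fM (p : K → MvPolynomial W ℝ) (R : Fin d → W → ℝ) (θ : K → Fin d → ℝ) :
    Continuous (fM p R θ) := by
  refine continuous_pi fun k => continuous_pi fun j => ?_
  change Continuous fun w => ∑ κ, θ κ k * eval w (dq (p κ) (R j))
  exact continuous_finsetSum _ fun κ _ => continuous_const.mul (MvPolynomial.continuous_eval _)

/-- the derivative of the slice -/
theorem hasFDerivAt_slice (p : K → MvPolynomial W ℝ) (R : Fin d → W → ℝ) (θ : K → Fin d → ℝ)
    (w : W → ℝ) (x : Fin d → ℝ) :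
    HasFDerivAt (fun x => fF p θ (w + Rl R x))
      (Matrix.toLin' (fM p R θ (w + Rl R x))).toContinuousLinearMap x := by
  rw [hasFDerivAt_pi']
  intro k
  have h1 : HasFDerivAt (fun x => w + Rl R x) (Rl R) x := (Rl R).hasFDerivAt.const_add w
  have h2 : ∀ κ, HasFDerivAt (fun x => θ κ k * eval (w + Rl R x) (p κ))
      (θ κ k • (dpoly (p κ) (w + Rl R x)).comp (Rl R)) x := fun κ =>
    ((hasFDerivAt_eval (p κ) (w + Rl R x)).comp x h1).const_mul (θ κ k)
  have h3 : HasFDerivAt (fun x => ∑ κ, θ κ k * eval (w + Rl R x) (p κ))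
      (∑ κ, θ κ k • (dpoly (p κ) (w + Rl R x)).comp (Rl R)) x := by
    have := HasFDerivAt.fun_sum (u := Finset.univ) fun κ _ => h2 κ
    exact this
  refine h3.congr_fderiv ?_
  ext y
  simp only [ContinuousLinearMap.comp_apply, ContinuousLinearMap.proj_apply,
    LinearMap.coe_toContinuousLinearMap', Matrix.toLin'_apply, Matrix.mulVec, dotProduct, fM,
    Matrix.of_apply, _root_.sum_apply, _root_.smul_apply, smul_eq_mul]
  have hy : ∀ κ, dpoly (p κ) (w + Rl R x) (Rl R y) =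
      ∑ j, y j * dpoly (p κ) (w + Rl R x) (R j) := fun κ => by
    rw [Rl_apply R y, map_sum]
    exact Finset.sum_congr rfl fun j _ => by rw [map_smul, smul_eq_mul]
  simp only [hy, eval_dq, Finset.mul_sum, Finset.sum_mul]
  rw [Finset.sum_comm]
  refine Finset.sum_congr rfl fun j _ => Finset.sum_congr rfl fun κ _ => ?_
  ring

theorem norm_Rl_le (R : Fin d → W → ℝ) : ∃ C : ℝ, 0 ≤ C ∧ ∀ x, ‖Rl R x‖ ≤ C * ‖x‖ :=
  ⟨‖Rl R‖, norm_nonneg _, fun x => (Rl R).le_opNorm x⟩

/-- bounds for the derivative matrix, uniform in the parameters -/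
theorem fM_bound (p : K → MvPolynomial W ℝ) (R : Fin d → W → ℝ) (ρ : ℝ) : ∃ C : ℝ, 0 ≤ C ∧
    ∀ θ : K → Fin d → ℝ, (∀ κ k, |θ κ k| ≤ 1) →
      (∀ w : W → ℝ, ‖w‖ ≤ ρ → ∀ k j, |fM p R θ w k j| ≤ C) ∧
      ∀ w w' : W → ℝ, ‖w‖ ≤ ρ → ‖w'‖ ≤ ρ → ∀ k j,
        |fM p R θ w k j - fM p R θ w' k j| ≤ C * ‖w - w'‖ := by
  choose C hC h1 h2 using fun (κ : K) (j : Fin d) => poly_lip (dq (p κ) (R j)) ρ
  have hle : ∀ κ j, C κ j ≤ ∑ κ, ∑ j, C κ j := fun κ j =>
    (Finset.single_le_sum (f := fun j => C κ j) (fun j _ => hC κ j) (Finset.mem_univ j)).trans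
      (Finset.single_le_sum (f := fun κ => ∑ j, C κ j)
        (fun κ _ => Finset.sum_nonneg fun j _ => hC κ j) (Finset.mem_univ κ))
  set B := ∑ κ, ∑ j, C κ j with hB
  have hB0 : 0 ≤ B := Finset.sum_nonneg fun κ _ => Finset.sum_nonneg fun j _ => hC κ j
  refine ⟨Fintype.card K * B, by positivity, fun θ hθ => ⟨fun w hw k j => ?_,
    fun w w' hw hw' k j => ?_⟩⟩
  · change |∑ κ, θ κ k * eval w (dq (p κ) (R j))| ≤ _
    refine (Finset.abs_sum_le_sum_abs _ _).trans ?_
    calc ∑ κ, |θ κ k * eval w (dq (p κ) (R j))| ≤ ∑ _κ : K, B := by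
          refine Finset.sum_le_sum fun κ _ => ?_
          rw [abs_mul]
          have := (h1 κ j w hw).trans (hle κ j)
          have h3 := hθ κ k
          calc |θ κ k| * |eval w (dq (p κ) (R j))| ≤ 1 * B := by gcongr
            _ = B := one_mul B
      _ = Fintype.card K * B := by rw [Finset.sum_const, Finset.card_univ, nsmul_eq_mul]
  · change |∑ κ, θ κ k * eval w (dq (p κ) (R j)) - ∑ κ, θ κ k * eval w' (dq (p κ) (R j))| ≤ _
    rw [← Finset.sum_sub_distrib]
    refine (Finset.abs_sum_le_sum_abs _ _).trans ?_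
    calc ∑ κ, |θ κ k * eval w (dq (p κ) (R j)) - θ κ k * eval w' (dq (p κ) (R j))|
        ≤ ∑ _κ : K, B * ‖w - w'‖ := by
          refine Finset.sum_le_sum fun κ _ => ?_
          rw [← mul_sub, abs_mul]
          have h4 := h2 κ j w w' hw hw'
          have h3 := hθ κ k
          calc |θ κ k| * |eval w (dq (p κ) (R j)) - eval w' (dq (p κ) (R j))|
              ≤ 1 * (C κ j * ‖w - w'‖) := by gcongr
            _ ≤ B * ‖w - w'‖ := by
              rw [one_mul]; exact mul_le_mul_of_nonneg_right (hle κ j) (norm_nonneg _)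
      _ = Fintype.card K * B * ‖w - w'‖ := by
          rw [Finset.sum_const, Finset.card_univ, nsmul_eq_mul]; ring

/-- **injectivity on short slices** -/
theorem slice_injOn (p : K → MvPolynomial W ℝ) (R : Fin d → W → ℝ) (ρ : ℝ) : ∃ C : ℝ, 0 ≤ C ∧
    ∀ θ : K → Fin d → ℝ, (∀ κ k, |θ κ k| ≤ 1) → ∀ (w : W → ℝ) (r δ : ℝ), 0 ≤ r → C * r < δ →
      Set.InjOn (fun x => fF p θ (w + Rl R x))
        {x | ‖x‖ ≤ r ∧ ‖w + Rl R x‖ ≤ ρ ∧ δ ≤ |(fM p R θ (w + Rl R x)).det|} := by
  obtain ⟨CM, hCM, hM⟩ := fM_bound p R ρ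
  obtain ⟨CR, hCR, hR⟩ := norm_Rl_le R
  obtain ⟨Cd, hCd, hdet⟩ := det_lip d CM
  refine ⟨Cd * (CM * (CR * 2)), by positivity, fun θ hθ w r δ hr hδ => ?_⟩
  rintro x ⟨hx1, hx2, hx3⟩ x' ⟨hx1', hx2', -⟩ hF
  by_contra hne
  obtain ⟨hM1, hM2⟩ := hM θ hθ
  -- points of the segment
  set z : ℝ → (Fin d → ℝ) := fun s => x' + s • (x - x') with hz
  have hzw : ∀ s ∈ Set.Icc (0 : ℝ) 1, ‖w + Rl R (z s)‖ ≤ ρ := by
    intro s hs
    have e : w + Rl R (z s) = (1 - s) • (w + Rl R x') + s • (w + Rl R x) := by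
      rw [hz]
      simp only [map_add, map_smul, map_sub, smul_add, sub_smul, one_smul, smul_sub]
      abel
    rw [e]
    calc _ ≤ ‖(1 - s) • (w + Rl R x')‖ + ‖s • (w + Rl R x)‖ := norm_add_le _ _
      _ = (1 - s) * ‖w + Rl R x'‖ + s * ‖w + Rl R x‖ := by
          rw [norm_smul, norm_smul, Real.norm_of_nonneg (by linarith [hs.2]),
            Real.norm_of_nonneg hs.1]
      _ ≤ (1 - s) * ρ + s * ρ := by
          have h1 := hs.1
          have h2 : 0 ≤ 1 - s := by linarith [hs.2]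
          gcongr
      _ = ρ := by ring
  have hzd : ∀ s ∈ Set.Icc (0 : ℝ) 1, ‖(w + Rl R (z s)) - (w + Rl R x)‖ ≤ CR * (2 * r) := by
    intro s hs
    have e : (w + Rl R (z s)) - (w + Rl R x) = Rl R ((1 - s) • (x' - x)) := by
      rw [hz]
      simp only [map_add, map_smul, map_sub, sub_smul, one_smul, smul_sub]
      abel
    rw [e]
    refine (hR _).trans ?_
    gcongr
    rw [norm_smul, Real.norm_of_nonneg (by linarith [hs.2])]
    have h1 : ‖x' - x‖ ≤ 2 * r := (norm_sub_le _ _).trans (by linarith)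
    have h2 : 1 - s ≤ 1 := by linarith [hs.1]
    calc (1 - s) * ‖x' - x‖ ≤ 1 * (2 * r) := by
          have h3 : 0 ≤ 1 - s := by linarith [hs.2]
          gcongr
      _ = 2 * r := one_mul _
  -- Rolle for every component
  have hroll : ∀ k, ∃ s ∈ Set.Ioo (0 : ℝ) 1,
      (fM p R θ (w + Rl R (z s))).mulVec (x - x') k = 0 := by
    intro k
    have hzd' : ∀ s, HasDerivAt z (x - x') s := by
      intro s
      have h1 := ((hasDerivAt_id s).smul_const (x - x')).const_add x'
      rw [one_smul] at h1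
      exact h1
    have hder : ∀ s, HasDerivAt (fun s => fF p θ (w + Rl R (z s)) k)
        ((fM p R θ (w + Rl R (z s))).mulVec (x - x') k) s := by
      intro s
      have h1 := (hasFDerivAt_slice p R θ w (z s)).comp_hasDerivAt s (hzd' s)
      have h2 := hasDerivAt_pi.mp h1 k
      simpa [Matrix.toLin'_apply] using h2
    obtain ⟨s, hs, hs'⟩ := exists_hasDerivAt_eq_zero (f := fun s => fF p θ (w + Rl R (z s)) k)
      (f' := fun s => (fM p R θ (w + Rl R (z s))).mulVec (x - x') k) zero_lt_one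
      (fun s _ => (hder s).continuousAt.continuousWithinAt) (by
        have e0 : z 0 = x' := by rw [hz]; simp
        have e1 : z 1 = x := by rw [hz]; simp
        simp only [e0, e1]
        exact (congrFun hF k).symm) (fun s _ => hder s)
    exact ⟨s, hs, hs'⟩
  choose s hs hs0 using hroll
  set A : Matrix (Fin d) (Fin d) ℝ := Matrix.of fun k j => fM p R θ (w + Rl R (z (s k))) k j
    with hA
  have hAx : A.mulVec (x - x') = 0 := by
    funext k
    exact hs0 k
  have hdet0 : A.det = 0 :=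
    Matrix.exists_mulVec_eq_zero_iff.mp ⟨x - x', sub_ne_zero.mpr hne, hAx⟩
  have hs' : ∀ k, s k ∈ Set.Icc (0 : ℝ) 1 := fun k => ⟨(hs k).1.le, (hs k).2.le⟩
  have h1 := hdet (fM p R θ (w + Rl R x)) A (CM * (CR * (2 * r))) (by positivity)
    (hM1 _ hx2) (fun k j => hM1 _ (hzw _ (hs' k)) k j) (fun k j => by
      refine (hM2 _ _ hx2 (hzw _ (hs' k)) k j).trans ?_
      rw [norm_sub_rev]
      gcongr
      exact hzd _ (hs' k))
  rw [hdet0, sub_zero] at h1
  have h2 : Cd * (CM * (CR * (2 * r))) = Cd * (CM * (CR * 2)) * r := by ring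
  linarith

/-- measure of a slice -/
theorem slice_measure (p : K → MvPolynomial W ℝ) (R : Fin d → W → ℝ) (θ : K → Fin d → ℝ)
    (w : W → ℝ) {δ : ℝ} (hδ : 0 < δ) {A : Set (Fin d → ℝ)} (hA : MeasurableSet A)
    (hinj : Set.InjOn (fun x => fF p θ (w + Rl R x)) A)
    (hdet : ∀ x ∈ A, δ ≤ |(fM p R θ (w + Rl R x)).det|) {S : Set (Fin d → ℝ)}
    (hS : ∀ x ∈ A, fF p θ (w + Rl R x) ∈ S) :
    ENNReal.ofReal δ * volume A ≤ volume S := by
  have h1 := lintegral_abs_det_fderiv_eq_addHaar_image (volume : Measure (Fin d → ℝ)) hA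
    (fun x _ => (hasFDerivAt_slice p R θ w x).hasFDerivWithinAt) hinj
  have h2 : volume ((fun x => fF p θ (w + Rl R x)) '' A) ≤ volume S :=
    measure_mono (by rintro _ ⟨x, hx, rfl⟩; exact hS x hx)
  refine le_trans ?_ h2
  rw [← h1]
  calc ENNReal.ofReal δ * volume A = ∫⁻ _ in A, ENNReal.ofReal δ := by
        rw [lintegral_const, Measure.restrict_apply_univ]
    _ ≤ _ := by
        refine setLIntegral_mono' hA fun x hx => ENNReal.ofReal_le_ofReal ?_
        refine (hdet x hx).trans (le_of_eq ?_)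
        rw [ContinuousLinearMap.det, LinearMap.coe_toContinuousLinearMap, LinearMap.det_toLin']

end family

end Crest.Agent.R182.Nb
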