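/-
R182, module NILBOX (helper89): the power law for push-forwards under bounded polynomial families.
-/
import Mathlib
import Crest.Agent.R182.NbPoly

set_option autoImplicit false
set_option linter.unusedSectionVars false

namespace Crest.Agent.R182.Nb

open MeasureTheory Finset MvPolynomial ModelCount

variable {W : Type*} [Fintype W] {d : ℕ}

/-- Fubini along the slices -/
theorem fubini_slice (R : Fin d → W → ℝ) {ρ CR r : ℝ} (hCR : ∀ x, ‖Rl R x‖ ≤ CR * ‖x‖)
    (hCR0 : 0 ≤ CR) (hr : 0 < r) (hr1 : r ≤ 1) {A : Set (W → ℝ)} (hA : MeasurableSet A)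
    (hAρ : ∀ w ∈ A, ‖w‖ ≤ ρ) {M : ENNReal}
    (hM : ∀ w, volume {x : Fin d → ℝ | ‖x‖ ≤ r ∧ w + Rl R x ∈ A} ≤ M) :
    ENNReal.ofReal ((2 * r) ^ d) * volume A ≤
      M * volume (Metric.closedBall (0 : W → ℝ) (ρ + CR)) := by
  set Φ : (Fin d → ℝ) × (W → ℝ) → (W → ℝ) := fun z => z.2 + Rl R z.1 with hΦ
  have hΦc : Continuous Φ := continuous_snd.add ((Rl R).continuous.comp continuous_fst)
  set T : Set ((Fin d → ℝ) × (W → ℝ)) := (Metric.closedBall 0 r ×ˢ Set.univ) ∩ Φ ⁻¹' A with hT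
  have hTm : MeasurableSet T :=
    (Metric.isClosed_closedBall.measurableSet.prod MeasurableSet.univ).inter (hΦc.measurable hA)
  have h1 : (volume : Measure ((Fin d → ℝ) × (W → ℝ))) T = ∫⁻ x, volume (Prod.mk x ⁻¹' T) := by
    rw [Measure.volume_eq_prod]; exact Measure.prod_apply hTm
  have h2 : (volume : Measure ((Fin d → ℝ) × (W → ℝ))) T =
      ∫⁻ w, volume ((fun x => (x, w)) ⁻¹' T) := by
    rw [Measure.volume_eq_prod]; exact Measure.prod_apply_symm hTm
  have hlow : ENNReal.ofReal ((2 * r) ^ d) * volume A ≤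
      (volume : Measure ((Fin d → ℝ) × (W → ℝ))) T := by
    rw [h1]
    have h3 : ∀ x ∈ Metric.closedBall (0 : Fin d → ℝ) r, volume A ≤ volume (Prod.mk x ⁻¹' T) := by
      intro x hx
      have e1 : Prod.mk x ⁻¹' T = (fun w => w + Rl R x) ⁻¹' A := by
        ext w
        simp only [hT, hΦ, Set.mem_preimage, Set.mem_inter_iff, Set.mem_prod, Set.mem_univ,
          and_true]
        exact ⟨fun h => h.2, fun h => ⟨hx, h⟩⟩
      rw [e1, measure_preimage_add_right]
    calc ENNReal.ofReal ((2 * r) ^ d) * volume A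
        = ∫⁻ _ in Metric.closedBall (0 : Fin d → ℝ) r, volume A := by
          rw [lintegral_const, Measure.restrict_apply_univ, Real.volume_pi_closedBall _ hr.le,
            Fintype.card_fin, mul_comm]
      _ ≤ ∫⁻ x in Metric.closedBall (0 : Fin d → ℝ) r, volume (Prod.mk x ⁻¹' T) :=
          setLIntegral_mono' Metric.isClosed_closedBall.measurableSet h3
      _ ≤ ∫⁻ x, volume (Prod.mk x ⁻¹' T) := setLIntegral_le_lintegral _ _
  have hup : (volume : Measure ((Fin d → ℝ) × (W → ℝ))) T ≤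
      M * volume (Metric.closedBall (0 : W → ℝ) (ρ + CR)) := by
    rw [h2]
    have h3 : ∀ w, volume ((fun x => (x, w)) ⁻¹' T) ≤
        (Metric.closedBall (0 : W → ℝ) (ρ + CR)).indicator (fun _ => M) w := by
      intro w
      by_cases hw : w ∈ Metric.closedBall (0 : W → ℝ) (ρ + CR)
      · rw [Set.indicator_of_mem hw]
        refine (measure_mono ?_).trans (hM w)
        rintro x ⟨⟨hx, -⟩, hx'⟩
        exact ⟨by simpa using hx, hx'⟩
      · rw [Set.indicator_of_notMem hw, nonpos_iff_eq_zero]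
        have : (fun x => (x, w)) ⁻¹' T = ∅ := by
          rw [Set.eq_empty_iff_forall_notMem]
          rintro x ⟨⟨hx, -⟩, hx'⟩
          apply hw
          rw [mem_closedBall_zero_iff]
          have hx1 : ‖x‖ ≤ r := by simpa using hx
          have h4 : ‖w + Rl R x‖ ≤ ρ := hAρ _ hx'
          have e : w = (w + Rl R x) - Rl R x := by abel
          rw [e]
          refine (norm_sub_le _ _).trans (add_le_add h4 ((hCR x).trans ?_))
          calc CR * ‖x‖ ≤ CR * 1 := by gcongr; linarith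
            _ = CR := mul_one _
        rw [this, measure_empty]
    calc ∫⁻ w, volume ((fun x => (x, w)) ⁻¹' T)
        ≤ ∫⁻ w, (Metric.closedBall (0 : W → ℝ) (ρ + CR)).indicator (fun _ => M) w :=
          lintegral_mono h3
      _ = _ := lintegral_indicator_const Metric.isClosed_closedBall.measurableSet _
  exact hlow.trans hup

variable {K : Type*} [Fintype K]

/-- **the power law** -/
theorem exists_pow_law (p : K → MvPolynomial W ℝ) (R : Fin d → W → ℝ) (w₀ : W → ℝ) (ρ : ℝ)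
    (hρ : 0 < ρ) (hw₀ : ‖w₀‖ ≤ ρ) :
    ∃ C κ : ℝ, 0 ≤ C ∧ 0 < κ ∧ κ ≤ 1 ∧ ∀ θ : K → Fin d → ℝ, (∀ κ k, |θ κ k| ≤ 1) →
      fM p R θ w₀ = 1 → ∀ (S : Set (Fin d → ℝ)), MeasurableSet S → ∀ a : ℝ, 0 < a →
      volume S ≤ ENNReal.ofReal a →
      volume {w : W → ℝ | ‖w‖ ≤ ρ ∧ fF p θ w ∈ S} ≤ ENNReal.ofReal (C * a ^ κ) := by
  classical
  -- degree bound for the Jacobian along lines
  choose Dg hDg using fun (κ : K) (j : Fin d) => poly_line (dq (p κ) (R j))
  set D₀ : ℕ := ∑ κ, ∑ j, Dg κ j with hD₀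
  have hle : ∀ κ j, Dg κ j ≤ D₀ := fun κ j =>
    (Finset.single_le_sum (f := fun j => Dg κ j) (fun j _ => Nat.zero_le _)
      (Finset.mem_univ j)).trans
      (Finset.single_le_sum (f := fun κ => ∑ j, Dg κ j) (fun κ _ => Nat.zero_le _)
        (Finset.mem_univ κ))
  set D : ℕ := d * D₀ with hD
  have hline : ∀ (θ : K → Fin d → ℝ) (x v : W → ℝ), PolyD D fun s => (fM p R θ (x + s • v)).det := by
    intro θ x v
    refine PolyD.det fun k j => ?_
    change PolyD D₀ fun s => ∑ κ, θ κ k * eval (x + s • v) (dq (p κ) (R j))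
    exact PolyD.sum _ fun κ _ => ((hDg κ j x v).mono (hle κ j)).smul _
  obtain ⟨C₁, hC₁, hsmall⟩ := small_multi (W := W) D ρ hρ
  obtain ⟨C₂, hC₂, hinj⟩ := slice_injOn p R ρ
  obtain ⟨CR, hCR0, hCR⟩ := norm_Rl_le R
  set VB : ℝ := (volume (Metric.closedBall (0 : W → ℝ) (ρ + CR))).toReal with hVB
  have hVBfin : volume (Metric.closedBall (0 : W → ℝ) (ρ + CR)) = ENNReal.ofReal VB :=
    (ENNReal.ofReal_toReal (isCompact_closedBall _ _).measure_lt_top.ne).symm
  set E : ℕ := (D + 1) * (d + 1) with hE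
  set C₃ : ℝ := VB * ((D + 2 : ℝ)) * (((C₂ + 1) * (D + 2)) / 2) ^ d with hC₃
  have hVB0 : 0 ≤ VB := ENNReal.toReal_nonneg
  have hC₃0 : 0 ≤ C₃ := by positivity
  set κ : ℝ := 1 / ((E : ℝ) + 1) with hκ
  have hκ0 : 0 < κ := by positivity
  have hκ1 : κ ≤ 1 := by
    rw [hκ, div_le_one (by positivity)]; linarith [(Nat.cast_nonneg E : (0:ℝ) ≤ E)]
  refine ⟨C₁ + C₃ + VB, κ, by positivity, hκ0, hκ1, fun θ hθ hM S hS a ha hSa => ?_⟩
  set P : Set (W → ℝ) := {w : W → ℝ | ‖w‖ ≤ ρ ∧ fF p θ w ∈ S} with hP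
  have hPm : MeasurableSet P := by
    refine MeasurableSet.inter ?_ ?_
    · exact measurableSet_le measurable_norm measurable_const
    · exact (continuous_fF p θ).measurable hS
  -- the basic inequality
  have key : ∀ τ : ℝ, 0 < τ → τ ≤ 1 → volume P ≤ ENNReal.ofReal (C₁ * τ + C₃ * (τ⁻¹) ^ E * a) := by
    intro τ hτ hτ1
    set δ : ℝ := τ ^ (D + 1) / (D + 2) with hδ
    have hδ0 : 0 < δ := by positivity
    have hδ1 : δ ≤ 1 := by
      rw [hδ, div_le_one (by positivity)]
      have h1 : τ ^ (D + 1) ≤ 1 := pow_le_one₀ hτ.le hτ1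
      have h2 : (0:ℝ) ≤ D := Nat.cast_nonneg D
      linarith
    set A : Set (W → ℝ) := P ∩ {w | δ ≤ |(fM p R θ w).det|} with hA
    have hdetc : Continuous fun w => (fM p R θ w).det := (continuous_fM p R θ).matrix_det
    have hAm : MeasurableSet A := hPm.inter (measurableSet_le measurable_const
      hdetc.abs.measurable)
    have hsplit : volume P ≤ volume {w : W → ℝ | ‖w‖ ≤ ρ ∧ |(fM p R θ w).det| <
        τ ^ (D + 1) / (D + 2)} + volume A := by
      refine (measure_mono ?_).trans (measure_union_le _ _)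
      intro w hw
      by_cases h : |(fM p R θ w).det| < τ ^ (D + 1) / (D + 2)
      · exact Or.inl ⟨hw.1, h⟩
      · exact Or.inr ⟨hw, not_lt.mp h⟩
    have h1 := hsmall (fun w => (fM p R θ w).det) w₀ hdetc hw₀ (by
      simp only [hM, Matrix.det_one, abs_one, le_refl]) (hline θ w₀) τ hτ hτ1
    -- the slices
    set r : ℝ := δ / (C₂ + 1) with hr
    have hr0 : 0 < r := by positivity
    have hr1 : r ≤ 1 := by
      rw [hr, div_le_one (by positivity)]; linarith
    have hCr : C₂ * r < δ := by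
      rw [hr, mul_div_assoc', div_lt_iff₀ (by positivity)]; nlinarith
    have hsl : ∀ w, volume {x : Fin d → ℝ | ‖x‖ ≤ r ∧ w + Rl R x ∈ A} ≤
        ENNReal.ofReal (δ⁻¹ * a) := by
      intro w
      set X : Set (Fin d → ℝ) := {x : Fin d → ℝ | ‖x‖ ≤ r ∧ w + Rl R x ∈ A} with hX
      have hXm : MeasurableSet X := by
        refine MeasurableSet.inter (measurableSet_le measurable_norm measurable_const) ?_
        exact ((continuous_const.add (Rl R).continuous).measurable hAm)
      have hXinj : Set.InjOn (fun x => fF p θ (w + Rl R x)) X := by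
        refine (hinj θ hθ w r δ hr0.le hCr).mono ?_
        rintro x ⟨hx, hx'⟩
        exact ⟨hx, hx'.1.1, hx'.2⟩
      have h2 := slice_measure p R θ w hδ0 hXm hXinj (fun x hx => hx.2.2) (S := S)
        (fun x hx => hx.2.1.2)
      have h3 : volume X = ENNReal.ofReal (δ⁻¹) * (ENNReal.ofReal δ * volume X) := by
        rw [← mul_assoc, ← ENNReal.ofReal_mul (by positivity), inv_mul_cancel₀ hδ0.ne',
          ENNReal.ofReal_one, one_mul]
      rw [h3, ENNReal.ofReal_mul (by positivity)]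
      gcongr
      exact h2.trans hSa
    have h4 := fubini_slice R hCR hCR0 hr0 hr1 hAm (fun w hw => hw.1.1) hsl
    rw [hVBfin, ← ENNReal.ofReal_mul (by positivity)] at h4
    have h5 : volume A ≤ ENNReal.ofReal (C₃ * (τ⁻¹) ^ E * a) := by
      have h6 : volume A = ENNReal.ofReal (((2 * r) ^ d)⁻¹) *
          (ENNReal.ofReal ((2 * r) ^ d) * volume A) := by
        rw [← mul_assoc, ← ENNReal.ofReal_mul (by positivity), inv_mul_cancel₀ (by positivity),
          ENNReal.ofReal_one, one_mul]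
      rw [h6]
      refine (mul_le_mul_right h4 _).trans ?_
      rw [← ENNReal.ofReal_mul (by positivity)]
      refine ENNReal.ofReal_le_ofReal (le_of_eq ?_)
      have hτne : τ ≠ 0 := hτ.ne'
      have hC2 : C₂ + 1 ≠ 0 := by positivity
      have hD2 : (D : ℝ) + 2 ≠ 0 := by positivity
      have hXne : τ ^ (D + 1) ≠ 0 := pow_ne_zero _ hτne
      have hX : (τ⁻¹) ^ E = ((τ ^ (D + 1))⁻¹) ^ d * (τ ^ (D + 1))⁻¹ := by
        rw [hE, pow_mul, inv_pow τ, pow_succ]
      have hY : ((2 * r) ^ d)⁻¹ = ((τ ^ (D + 1))⁻¹) ^ d * (((C₂ + 1) * (D + 2)) / 2) ^ d := by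
        rw [← mul_pow, ← inv_pow, hr, hδ]
        congr 1
        field_simp
      have hZ : δ⁻¹ = (D + 2) * (τ ^ (D + 1))⁻¹ := by
        rw [hδ, inv_div, div_eq_mul_inv]
      rw [hX, hY, hC₃, hZ]
      ring
    calc volume P ≤ _ := hsplit
      _ ≤ ENNReal.ofReal (C₁ * τ) + ENNReal.ofReal (C₃ * (τ⁻¹) ^ E * a) := add_le_add h1 h5
      _ = _ := by rw [← ENNReal.ofReal_add (by positivity) (by positivity)]
  -- the trivial bound
  have htriv : volume P ≤ ENNReal.ofReal VB := by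
    rw [← hVBfin]
    refine measure_mono fun w hw => ?_
    rw [mem_closedBall_zero_iff]
    have := hw.1
    linarith
  rcases le_total 1 a with h1 | h1
  · refine htriv.trans (ENNReal.ofReal_le_ofReal ?_)
    have h2 : 1 ≤ a ^ κ := Real.one_le_rpow h1 hκ0.le
    nlinarith [mul_nonneg hC₁ (le_trans zero_le_one h2), mul_nonneg hC₃0 (le_trans zero_le_one h2)]
  · have h2 := key (a ^ κ) (Real.rpow_pos_of_pos ha _) (Real.rpow_le_one ha.le h1 hκ0.le)
    refine h2.trans (ENNReal.ofReal_le_ofReal ?_)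
    have h3 : ((a ^ κ)⁻¹) ^ E * a = a ^ κ := by
      rw [← Real.rpow_neg ha.le, ← Real.rpow_natCast, ← Real.rpow_mul ha.le]
      conv_lhs => rw [← Real.rpow_one a, ← Real.rpow_mul ha.le, one_mul,
        ← Real.rpow_add ha]
      congr 1
      rw [hκ]; field_simp; ring
    rw [mul_assoc, h3]
    have h4 : 0 ≤ a ^ κ := (Real.rpow_pos_of_pos ha _).le
    nlinarith [mul_nonneg hVB0 h4]

end Crest.Agent.R182.Nb
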