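/-
R182, module NILBOX (helper89): word maps as Lie polynomials with polynomial coefficients.
-/
import Mathlib
import Crest.Agent.R182.NbJet
import Crest.Agent.R182.NbPoly

set_option autoImplicit false
set_option linter.unusedSectionVars false

namespace Crest.Agent.R182.Nb

open Finset MvPolynomial ModelCount

section PL

variable {L : Type*} [LieRing L] [LieAlgebra ℝ L] {σ τ W : Type*}

/-- Lie polynomials with polynomial coefficients -/
def PL (W σ L : Type*) [LieRing L] [LieAlgebra ℝ L] : Submodule ℝ ((W → ℝ) × (σ → L) → L) :=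
  Submodule.span ℝ {f | ∃ (p : MvPolynomial W ℝ) (κ : List σ), f = fun z => eval z.1 p • mon z.2 κ}

theorem PL.of_LP (p : MvPolynomial W ℝ) {f : (σ → L) → L} (hf : f ∈ LP σ L) :
    (fun z : (W → ℝ) × (σ → L) => eval z.1 p • f z.2) ∈ PL W σ L := by
  induction hf using Submodule.span_induction with
  | mem f hf =>
    obtain ⟨κ, rfl⟩ := hf
    exact Submodule.subset_span ⟨p, κ, rfl⟩
  | zero =>
    have : (fun z : (W → ℝ) × (σ → L) => eval z.1 p • (0 : (σ → L) → L) z.2) = 0 := by
      funext z; simp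
    rw [this]; exact Submodule.zero_mem _
  | add f g _ _ hf hg =>
    have : (fun z : (W → ℝ) × (σ → L) => eval z.1 p • (f + g) z.2) =
        (fun z => eval z.1 p • f z.2) + fun z => eval z.1 p • g z.2 := by
      funext z; simp [smul_add]
    rw [this]; exact Submodule.add_mem _ hf hg
  | smul r f _ hf =>
    have : (fun z : (W → ℝ) × (σ → L) => eval z.1 p • (r • f) z.2) =
        r • fun z => eval z.1 p • f z.2 := by
      funext z; simp only [Pi.smul_apply]; exact smul_comm _ _ _
    rw [this]; exact Submodule.smul_mem _ _ hf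

theorem PL.lie {f g : (W → ℝ) × (σ → L) → L} (hf : f ∈ PL W σ L) (hg : g ∈ PL W σ L) :
    (fun z => ⁅f z, g z⁆) ∈ PL W σ L := by
  induction hf using Submodule.span_induction with
  | mem f hf =>
    obtain ⟨p, κ, rfl⟩ := hf
    induction hg using Submodule.span_induction with
    | mem g hg =>
      obtain ⟨q, κ', rfl⟩ := hg
      have : (fun z : (W → ℝ) × (σ → L) => ⁅eval z.1 p • mon z.2 κ, eval z.1 q • mon z.2 κ'⁆) =
          fun z => eval z.1 (p * q) • (fun v : σ → L => ⁅mon v κ, mon v κ'⁆) z.2 := by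
        funext z
        rw [smul_lie, lie_smul, smul_smul, map_mul]
      rw [this]
      exact PL.of_LP _ (LP.lie (LP.of_mon κ) (LP.of_mon κ'))
    | zero =>
      simp only [Pi.zero_apply, lie_zero]; exact Submodule.zero_mem _
    | add g g' _ _ h h' =>
      simp only [Pi.add_apply, lie_add]; exact Submodule.add_mem _ h h'
    | smul r g _ h =>
      simp only [Pi.smul_apply, lie_smul]; exact Submodule.smul_mem _ _ h
  | zero => simp only [Pi.zero_apply, zero_lie]; exact Submodule.zero_mem _
  | add f f' _ _ h h' => simp only [Pi.add_apply, add_lie]; exact Submodule.add_mem _ h h'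
  | smul r f _ h => simp only [Pi.smul_apply, smul_lie]; exact Submodule.smul_mem _ _ h

theorem PL.comp_mon {G : τ → (W → ℝ) × (σ → L) → L} (hG : ∀ i, G i ∈ PL W σ L) (κ : List τ) :
    (fun z => mon (fun i => G i z) κ) ∈ PL W σ L := by
  induction κ with
  | nil => simp only [mon_nil]; exact Submodule.zero_mem _
  | cons i κ ih =>
    by_cases hκ : κ = []
    · subst hκ; exact hG i
    · simp only [mon_cons _ i hκ]
      exact PL.lie (hG i) ih

theorem PL.comp {f : (τ → L) → L} (hf : f ∈ LP τ L) {G : τ → (W → ℝ) × (σ → L) → L}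
    (hG : ∀ i, G i ∈ PL W σ L) : (fun z => f fun i => G i z) ∈ PL W σ L := by
  induction hf using Submodule.span_induction with
  | mem f hf =>
    obtain ⟨κ, rfl⟩ := hf
    exact PL.comp_mon hG κ
  | zero => exact Submodule.zero_mem _
  | add f g _ _ hf hg => exact Submodule.add_mem _ hf hg
  | smul r f _ hf => exact Submodule.smul_mem _ _ hf

theorem PL.exists_repr [Fintype σ] {c : ℕ} (hL : NilC c L) {f : (W → ℝ) × (σ → L) → L}
    (hf : f ∈ PL W σ L) : ∃ p : KL σ c → MvPolynomial W ℝ, ∀ w g,
      f (w, g) = ∑ κ : KL σ c, eval w (p κ) • mon g (κ : List σ) := by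
  classical
  induction hf using Submodule.span_induction with
  | mem f hf =>
    obtain ⟨p, κ, rfl⟩ := hf
    by_cases h : κ ∈ KL σ c
    · refine ⟨fun κ' => if κ' = ⟨κ, h⟩ then p else 0, fun w g => ?_⟩
      rw [Finset.sum_eq_single ⟨κ, h⟩]
      · simp
      · intro κ' _ hne; simp [hne]
      · intro h'; exact absurd (Finset.mem_univ _) h'
    · refine ⟨0, fun w g => ?_⟩
      have h1 : mon g κ = 0 := hL.nil g κ (by rw [mem_KL] at h; omega)
      simp [h1]
  | zero => exact ⟨0, fun w g => by simp⟩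
  | add f g _ _ hf hg =>
    obtain ⟨p, hp⟩ := hf
    obtain ⟨q, hq⟩ := hg
    refine ⟨p + q, fun w g => ?_⟩
    rw [Pi.add_apply, hp, hq, ← Finset.sum_add_distrib]
    exact Finset.sum_congr rfl fun κ _ => by simp [add_smul]
  | smul r f _ hf =>
    obtain ⟨p, hp⟩ := hf
    refine ⟨fun κ => C r * p κ, fun w g => ?_⟩
    rw [Pi.smul_apply, hp, Finset.smul_sum]
    exact Finset.sum_congr rfl fun κ _ => by simp [smul_smul]

end PL

section word

variable {L : Type*} [LieRing L] [LieAlgebra ℝ L] (S : Star L) {V : Type*} {ι : Type*} [Fintype ι]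
  {M : ℕ}

/-- the word map -/
noncomputable def Phi (s : Fin M → V) (g : V × ι → L) (w : Fin M × ι → ℝ) : L :=
  S.prod (List.ofFn fun j => ∑ i, w (j, i) • g (s j, i))

theorem Phi_PL (s : Fin M → V) :
    (fun z : (Fin M × ι → ℝ) × (V × ι → L) => Phi S s z.2 z.1) ∈ PL (Fin M × ι) (V × ι) L := by
  have h1 : (fun z : (Fin M × ι → ℝ) × (V × ι → L) => Phi S s z.2 z.1) =
      fun z => (fun v : Fin M → L => S.prod ((List.finRange M).map v))
        fun j => ∑ i, z.1 (j, i) • z.2 (s j, i) := by
    funext z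
    rw [Phi, List.ofFn_eq_map]
  rw [h1]
  refine PL.comp (S.prod_lp (List.finRange M)) (G := fun j z => ∑ i, z.1 (j, i) • z.2 (s j, i))
    fun j => ?_
  have h2 : (fun z : (Fin M × ι → ℝ) × (V × ι → L) => ∑ i, z.1 (j, i) • z.2 (s j, i)) =
      ∑ i, fun z => eval z.1 (X (j, i) : MvPolynomial (Fin M × ι) ℝ) •
        (fun v : V × ι → L => v (s j, i)) z.2 := by
    funext z
    rw [Finset.sum_apply]
    simp
  rw [h2]
  exact Submodule.sum_mem _ fun i _ => PL.of_LP _ (LP.proj (s j, i))

variable [Fintype V]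

theorem exists_Phi_repr {c : ℕ} (hL : NilC c L) (s : Fin M → V) :
    ∃ p : KL (V × ι) c → MvPolynomial (Fin M × ι) ℝ, ∀ (g : V × ι → L) w,
      Phi S s g w = ∑ κ : KL (V × ι) c, eval w (p κ) • mon g (κ : List (V × ι)) := by
  obtain ⟨p, hp⟩ := PL.exists_repr hL (Phi_PL S (V := V) (ι := ι) s)
  exact ⟨p, fun g w => hp w g⟩

variable {S} [FiniteDimensional ℝ L] [DecidableEq ι] (A : AdS S) {d : ℕ}

include A in
/-- **the explicit point of full rank** -/
theorem exists_point {c : ℕ} : ∃ J : ℕ, ∀ (M : ℕ) (s : Fin M → V),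
    (∀ u : List V, u.length ≤ J → u.Sublist (List.ofFn s)) →
    ∀ p : KL (V × ι) c → MvPolynomial (Fin M × ι) ℝ,
    (∀ (g : V × ι → L) w, Phi S s g w = ∑ κ : KL (V × ι) c, eval w (p κ) • mon g (κ : List (V × ι))) →
    ∀ κ : Fin d → KL (V × ι) c, ∃ (w₀ : Fin M × ι → ℝ) (R : Fin d → Fin M × ι → ℝ),
      ∀ (g : V × ι → L) (k : Fin d),
        ∑ κ' : KL (V × ι) c, dpoly (p κ') w₀ (R k) • mon g (κ' : List (V × ι)) =
          mon g (κ k : List (V × ι)) := by
  obtain ⟨Q, hQ⟩ := UU.exists_mons A (V := V) (ι := ι) (d := d)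
  -- bound for the length
  set J : ℕ := ∑ n ∈ range (c + 1), wl Q n with hJ
  refine ⟨d * J, fun M s hs p hp κ => ?_⟩
  obtain ⟨u, hu, hU⟩ := hQ fun k => (κ k : List (V × ι))
  have hlen : u.length ≤ d * J := by
    rw [hu]
    calc ∑ k, wl Q (κ k : List (V × ι)).length ≤ ∑ _k : Fin d, J := by
          refine Finset.sum_le_sum fun k _ => ?_
          have h1 := mem_KL.mp (κ k).2
          exact Finset.single_le_sum (f := fun n => wl Q n) (fun _ _ => Nat.zero_le _)
            (Finset.mem_range.mpr (Nat.lt_succ_of_le h1))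
      _ = d * J := by simp
  obtain ⟨C, hC, hR⟩ := hU.sublist (hs u hlen)
  have hM : C.length = M := by
    have := congrArg List.length hC
    simpa using this
  subst hM
  have hfst : ∀ j, (C.get j).1 = s j := by
    have h1 : List.ofFn (fun j => (C.get j).1) = List.ofFn s := by
      rw [← hC]
      conv_rhs => rw [← List.ofFn_get C, List.map_ofFn]
      rfl
    exact fun j => congrFun (List.ofFn_injective h1) j
  refine ⟨fun z => (C.get z.1).2.1 z.2, fun k z => (C.get z.1).2.2 k z.2, fun g k => ?_⟩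
  set w₀ : Fin C.length × ι → ℝ := fun z => (C.get z.1).2.1 z.2 with hw₀
  set R : Fin d → Fin C.length × ι → ℝ := fun k z => (C.get z.1).2.2 k z.2 with hRdef
  have hcur : ∀ t : ℝ, cur S C g k t = Phi S s g (w₀ + t • R k) := by
    intro t
    rw [cur, Phi]
    congr 1
    conv_lhs => rw [← List.ofFn_get C, List.map_ofFn]
    congr 1
    funext j
    simp only [Function.comp_apply]
    refine Finset.sum_congr rfl fun i _ => ?_
    rw [hfst]; rfl
  have h1 : HD (cur S C g k) (∑ κ' : KL (V × ι) c, dpoly (p κ') w₀ (R k) •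
      mon g (κ' : List (V × ι))) := by
    have h2 : HD (fun t => ∑ κ' : KL (V × ι) c, eval (w₀ + t • R k) (p κ') •
        mon g (κ' : List (V × ι))) (∑ κ' : KL (V × ι) c, dpoly (p κ') w₀ (R k) •
        mon g (κ' : List (V × ι))) := by
      refine HD.sum _ fun κ' _ => ?_
      intro ℓ
      have h3 : HasDerivAt (fun t : ℝ => w₀ + t • R k) (R k) 0 := by
        have h4 := ((hasDerivAt_id (0:ℝ)).smul_const (R k)).const_add w₀
        rw [one_smul] at h4
        exact h4
      have h5 : HasFDerivAt (fun y => eval y (p κ')) (dpoly (p κ') w₀) (w₀ + (0:ℝ) • R k) := by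
        rw [zero_smul, add_zero]; exact hasFDerivAt_eval (p κ') w₀
      have h6 := (h5.comp_hasDerivAt (0:ℝ) h3).mul_const (ℓ (mon g (κ' : List (V × ι))))
      simp only [map_smul, smul_eq_mul]
      exact h6
    exact h2.congr fun t => by rw [hcur, hp]
  exact h1.unique (hR g k).2

end word

end Crest.Agent.R182.Nb
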