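/-
R182, module NILBOX (helper89): the power law for word maps in a nilpotent Lie algebra, uniform in the
family of generators.
-/
import Mathlib
import Crest.Agent.R182.NbVol
import Crest.Agent.R182.NbWord
import Crest.Agent.R182.NbPow

set_option autoImplicit false
set_option linter.unusedSectionVars false

namespace Crest.Agent.R182.Nb

open MeasureTheory Finset Module MvPolynomial ModelCount

variable {L : Type*} [LieRing L] [LieAlgebra ℝ L] {S : Star L} {V : Type*} [Fintype V] {d : ℕ}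

/-- **Power law for word maps** (uniform in the family `g`). -/
theorem exists_ent (A : AdS S) {c : ℕ} (hL : NilC c L) (b : Basis (Fin d) ℝ L) (V : Type*)
    [Fintype V] : ∃ J : ℕ, ∀ (M : ℕ) (s : Fin M → V),
    (∀ u : List V, u.length ≤ J → u.Sublist (List.ofFn s)) → ∀ ρ : ℝ,
    ∃ C κ : ℝ, 0 < C ∧ 0 < κ ∧ κ ≤ 1 ∧ ∀ g : V × Fin d → L, 0 < MD b c g →
      ∀ A' : Set L, MeasL b A' → ∀ a : ℝ, 0 < a → vb b A' ≤ ENNReal.ofReal (a * MD b c g) →
        volume {w : Fin M × Fin d → ℝ | ‖w‖ ≤ ρ ∧ Phi S s g w ∈ A'} ≤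
          ENNReal.ofReal (C * a ^ κ) := by
  classical
  have : FiniteDimensional ℝ L := Module.Finite.of_basis b
  obtain ⟨J, hJ⟩ := exists_point A (V := V) (ι := Fin d) (d := d) (c := c)
  refine ⟨J, fun M s hs ρ => ?_⟩
  obtain ⟨p, hp⟩ := exists_Phi_repr S hL s (ι := Fin d)
  choose w₀ R hR using hJ M s hs p hp
  -- a common radius
  set ρ' : ℝ := max ρ 1 + ∑ κ : Tup (V × Fin d) c d, ‖w₀ κ‖ with hρ'
  have hρ'0 : 0 < ρ' := by
    have h1 : 0 < max ρ 1 := lt_max_of_lt_right one_pos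
    have h2 : 0 ≤ ∑ κ : Tup (V × Fin d) c d, ‖w₀ κ‖ := Finset.sum_nonneg fun _ _ => norm_nonneg _
    linarith
  have hρρ' : ρ ≤ ρ' := by
    have h2 : 0 ≤ ∑ κ : Tup (V × Fin d) c d, ‖w₀ κ‖ := Finset.sum_nonneg fun _ _ => norm_nonneg _
    linarith [le_max_left ρ 1]
  have hw₀ : ∀ κ, ‖w₀ κ‖ ≤ ρ' := fun κ => by
    have h1 := Finset.single_le_sum (f := fun κ => ‖w₀ κ‖) (fun _ _ => norm_nonneg _)
      (Finset.mem_univ κ)
    have h2 : 0 < max ρ 1 := lt_max_of_lt_right one_pos

    linarith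
  choose C κe hC hκ0 hκ1 hpow using fun κ => exists_pow_law p (R κ) (w₀ κ) ρ' hρ'0 (hw₀ κ)
  set VB : ℝ := (volume (Metric.closedBall (0 : Fin M × Fin d → ℝ) ρ)).toReal with hVB
  have hVBfin : volume (Metric.closedBall (0 : Fin M × Fin d → ℝ) ρ) = ENNReal.ofReal VB :=
    (ENNReal.ofReal_toReal (isCompact_closedBall _ _).measure_lt_top.ne).symm
  have hVB0 : 0 ≤ VB := ENNReal.toReal_nonneg
  set κm : ℝ := (Finset.univ : Finset (Tup (V × Fin d) c d)).inf' Finset.univ_nonempty κe with hκm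
  have hκm0 : 0 < κm := (Finset.lt_inf'_iff _).mpr fun κ _ => hκ0 κ
  have hκmle : ∀ κ, κm ≤ κe κ := fun κ => Finset.inf'_le _ (Finset.mem_univ κ)
  obtain ⟨κx⟩ : Nonempty (Tup (V × Fin d) c d) := inferInstance
  refine ⟨(∑ κ, C κ) + VB + 1, κm, ?_, hκm0, (hκmle κx).trans (hκ1 κx),
    fun g hg A' hA' a ha hvb => ?_⟩
  · have : 0 ≤ ∑ κ, C κ := Finset.sum_nonneg fun κ _ => hC κ
    positivity
  have hsumC : ∀ κ, C κ ≤ ∑ κ, C κ := fun κ =>
    Finset.single_le_sum (f := C) (fun κ _ => hC κ) (Finset.mem_univ κ)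
  have hsum0 : 0 ≤ ∑ κ, C κ := Finset.sum_nonneg fun κ _ => hC κ
  rcases le_total 1 a with h1 | h1
  · -- trivial bound
    have h2 : volume {w : Fin M × Fin d → ℝ | ‖w‖ ≤ ρ ∧ Phi S s g w ∈ A'} ≤ ENNReal.ofReal VB := by
      rw [← hVBfin]
      refine measure_mono fun w hw => ?_
      rw [mem_closedBall_zero_iff]; exact hw.1
    refine h2.trans (ENNReal.ofReal_le_ofReal ?_)
    have h3 : 1 ≤ a ^ κm := Real.one_le_rpow h1 hκm0.le
    nlinarith
  · obtain ⟨κ, hκ⟩ := exists_MD (b := b) (c := c) (g := g)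
    have hdt : |dt b g κ| ≠ 0 := by rw [← hκ]; exact hg.ne'
    have hm : b.det (fun k => mon g (κ k : List (V × Fin d))) ≠ 0 := abs_ne_zero.mp hdt
    have hb := (Basis.is_basis_iff_det b).mpr (isUnit_iff_ne_zero.mpr hm)
    choose θ hθ hmon using fun κ' : KL (V × Fin d) c => coord_of_max hκ hg κ'
    set m : Fin d → L := fun k => mon g (κ k : List (V × Fin d)) with hmdef
    -- the word map in the coordinates of `m`
    have hPhi : ∀ w, Phi S s g w = ∑ k, fF p θ w k • m k := by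
      intro w
      rw [hp]
      simp only [fF, Finset.sum_smul]
      rw [Finset.sum_comm]
      refine Finset.sum_congr rfl fun κ' _ => ?_
      rw [hmon κ', Finset.smul_sum]
      refine Finset.sum_congr rfl fun k _ => ?_
      rw [smul_smul, mul_comm]
    -- derivative at the point
    have hM : fM p (R κ) θ (w₀ κ) = 1 := by
      ext k j
      have h2 := hR κ g j
      have h3 : ∑ k, (∑ κ' : KL (V × Fin d) c, θ κ' k * dpoly (p κ') (w₀ κ) (R κ j)) • m k =
          ∑ k, (if k = j then (1:ℝ) else 0) • m k := by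
        have h4 : ∑ k, (if k = j then (1:ℝ) else 0) • m k = m j := by simp
        rw [h4, hmdef]
        simp only
        rw [← h2]
        simp only [Finset.sum_smul]
        rw [Finset.sum_comm]
        refine Finset.sum_congr rfl fun κ' _ => ?_
        conv_rhs => rw [hmon κ', Finset.smul_sum]
        refine Finset.sum_congr rfl fun k _ => ?_
        rw [smul_smul, mul_comm]
      have h5 : ∑ k, ((∑ κ' : KL (V × Fin d) c, θ κ' k * dpoly (p κ') (w₀ κ) (R κ j)) -
          (if k = j then (1:ℝ) else 0)) • m k = 0 := by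
        simp only [sub_smul, Finset.sum_sub_distrib]
        rw [h3, sub_self]
      have h6 := Fintype.linearIndependent_iff.mp hb.1 _ h5 k
      change ∑ κ', θ κ' k * eval (w₀ κ) (dq (p κ') (R κ j)) = (1 : Matrix (Fin d) (Fin d) ℝ) k j
      simp only [eval_dq]
      rw [Matrix.one_apply]
      linarith
    -- the set in the coordinates of `m`
    set SF : Set (Fin d → ℝ) := {y : Fin d → ℝ | ∑ k, y k • m k ∈ A'} with hSF
    have hSFm : MeasurableSet SF := measL_iff b hA' m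
    have hvol : volume SF ≤ ENNReal.ofReal a := by
      have h2 := vb_eq b hm A'
      rw [h2] at hvb
      change ENNReal.ofReal |dt b g κ| * volume SF ≤ _ at hvb
      rw [← hκ, mul_comm a, ENNReal.ofReal_mul hg.le] at hvb
      exact (ENNReal.mul_le_mul_iff_right (by simpa using hg) ENNReal.ofReal_ne_top).mp hvb
    have h2 := hpow κ θ hθ hM SF hSFm a ha hvol
    have h3 : volume {w : Fin M × Fin d → ℝ | ‖w‖ ≤ ρ ∧ Phi S s g w ∈ A'} ≤
        volume {w : Fin M × Fin d → ℝ | ‖w‖ ≤ ρ' ∧ fF p θ w ∈ SF} := by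
      refine measure_mono fun w hw => ⟨hw.1.trans hρρ', ?_⟩
      change ∑ k, fF p θ w k • m k ∈ A'
      rw [← hPhi]; exact hw.2
    refine h3.trans (h2.trans (ENNReal.ofReal_le_ofReal ?_))
    have h4 : a ^ κe κ ≤ a ^ κm := Real.rpow_le_rpow_of_exponent_ge ha h1 (hκmle κ)
    have h5 : 0 ≤ a ^ κm := Real.rpow_nonneg ha.le _
    have h6 := hsumC κ
    have h7 := hC κ
    calc C κ * a ^ κe κ ≤ (∑ κ, C κ) * a ^ κm := by gcongr
      _ ≤ _ := by nlinarith

end Crest.Agent.R182.Nb
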