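/-
R182, module NILBOX (helper89): min-entropy of the walks in the model (F8), part 1.
-/
import Mathlib
import Crest.Agent.R182.NbEnt
import Crest.Agent.R182.NbGen
import Crest.Agent.R182.NbAd
import Crest.Agent.R182.CoreN
import Crest.Agent.R182.StarClean

set_option autoImplicit false
set_option linter.unusedSectionVars false

namespace Crest.Agent.R182.Nb

open Finset Module MeasureTheory Crest.Agent.R182.Core

/-- comparison of the law of the walk with Lebesgue measure -/
theorem pi_le_of_linear {H : Type*} [NormedAddCommGroup H] [NormedSpace ℝ H]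
    [FiniteDimensional ℝ H] [MeasurableSpace H] [BorelSpace H] (μ : Measure H)
    [μ.IsAddHaarMeasure] {V : Set H} (hV : MeasurableSet V) (h0 : μ V ≠ 0) (hfin : μ V ≠ ⊤)
    {L : ℕ} {W : Type*} [Fintype W] (T : (Fin L → H × H) ≃ₗ[ℝ] (W → ℝ)) :
    ∃ c : ENNReal, c ≠ ⊤ ∧ ∀ (A : Set (Fin L → H × H)) (X : Set (W → ℝ)),
      (∀ ω ∈ A, (∀ j, (ω j).1 ∈ V ∧ (ω j).2 ∈ V) → T ω ∈ X) →
      Measure.pi (fun _ : Fin L => (((μ V)⁻¹ • μ.restrict V).prod ((μ V)⁻¹ • μ.restrict V))) A ≤
        c * volume X := by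
  have : ProperSpace H := FiniteDimensional.proper_real H
  set a : ENNReal := (μ V)⁻¹ with ha
  have hatop : a ≠ ⊤ := by rw [ha]; exact ENNReal.inv_ne_top.mpr h0
  set B : Set (H × H) := V ×ˢ V with hB
  have hBm : MeasurableSet B := hV.prod hV
  have e1 : ((a • μ.restrict V).prod (a • μ.restrict V)) = (a * a) • (μ.prod μ).restrict B := by
    have : SFinite (a • μ.restrict V) := by infer_instance
    rw [Measure.prod_smul_left, Measure.prod_smul_right, smul_smul, Measure.prod_restrict]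
  have e2 : Measure.pi (fun _ : Fin L => (a * a) • (μ.prod μ).restrict B) =
      ((a * a) ^ L) • (Measure.pi fun _ : Fin L => μ.prod μ).restrict (Set.univ.pi fun _ => B) := by
    have : IsFiniteMeasure ((a * a) • (μ.prod μ).restrict B) := by
      refine ⟨?_⟩
      rw [Measure.smul_apply, Measure.restrict_apply_univ, Measure.prod_prod, smul_eq_mul]
      exact ENNReal.mul_lt_top (ENNReal.mul_lt_top hatop.lt_top hatop.lt_top)
        (ENNReal.mul_lt_top hfin.lt_top hfin.lt_top)
    refine Measure.pi_eq fun s hs => ?_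
    rw [Measure.smul_apply, Measure.restrict_apply (MeasurableSet.univ_pi hs), Set.pi_inter_distrib.symm,
      Measure.pi_pi, smul_eq_mul]
    simp only [Measure.smul_apply, smul_eq_mul, Measure.restrict_apply (hs _)]
    rw [Finset.prod_mul_distrib, Finset.prod_const, Finset.card_univ, Fintype.card_fin]
  have : SecondCountableTopology H := secondCountable_of_proper
  have hprod : (μ.prod μ).IsAddHaarMeasure := inferInstance
  set Λ : Measure (Fin L → H × H) := Measure.pi fun _ : Fin L => μ.prod μ with hΛ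
  have hΛh : Λ.IsAddHaarMeasure := by
    rw [hΛ]; exact Measure.pi.isAddHaarMeasure _
  have h3 : Λ.map T.toContinuousLinearEquiv =
      (Measure.addHaarScalarFactor (Λ.map T.toContinuousLinearEquiv) (volume : Measure (W → ℝ))) •
        (volume : Measure (W → ℝ)) := Measure.isAddLeftInvariant_eq_smul _ _
  set c' : NNReal := Measure.addHaarScalarFactor (Λ.map T.toContinuousLinearEquiv)
    (volume : Measure (W → ℝ)) with hc'
  refine ⟨(a * a) ^ L * c', ?_, fun A X₀ hAX₀ => ?_⟩
  · exact ENNReal.mul_ne_top (ENNReal.pow_ne_top (ENNReal.mul_ne_top hatop hatop))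
      ENNReal.coe_ne_top
  · rw [← measure_toMeasurable X₀]
    set X := toMeasurable (volume : Measure (W → ℝ)) X₀ with hXdef
    have hX : MeasurableSet X := measurableSet_toMeasurable _ _
    have hAX : ∀ ω ∈ A, (∀ j, (ω j).1 ∈ V ∧ (ω j).2 ∈ V) → T ω ∈ X := fun ω h h' =>
      subset_toMeasurable _ _ (hAX₀ ω h h')
    rw [e1, e2, Measure.smul_apply, smul_eq_mul,
      Measure.restrict_apply' (MeasurableSet.univ_pi fun _ => hBm), mul_assoc]
    gcongr
    have h4 : Λ (A ∩ Set.univ.pi fun _ => B) ≤ (Λ.map T.toContinuousLinearEquiv) X := by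
      rw [Measure.map_apply T.toContinuousLinearEquiv.continuous.measurable hX]
      refine measure_mono ?_
      rintro ω ⟨hω, hω'⟩
      exact hAX ω hω fun j => hω' j (Set.mem_univ j)
    refine h4.trans ?_
    rw [h3]
    rfl

/-- long enough periodic words contain all short words -/
theorem sublist_periodic (q L J : ℕ) (hL : (q + 1) * J ≤ L) (u : List (Fin (q + 1)))
    (hu : u.length ≤ J) :
    u.Sublist (List.ofFn fun j : Fin (2 * L) =>
      (⟨(j / 2) % (q + 1), Nat.mod_lt _ (Nat.succ_pos q)⟩ : Fin (q + 1))) := by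
  rw [List.sublist_iff_exists_fin_orderEmbedding_get_eq]
  have hlt : ∀ i : Fin u.length, (q + 1) * i + (u.get i : ℕ) < L := by
    intro i
    have h1 : (i : ℕ) + 1 ≤ J := by have := i.2; omega
    have h2 : (u.get i : ℕ) < q + 1 := (u.get i).2
    calc (q + 1) * i + (u.get i : ℕ) < (q + 1) * i + (q + 1) := by omega
      _ = (q + 1) * (i + 1) := by ring
      _ ≤ (q + 1) * J := Nat.mul_le_mul_left _ h1
      _ ≤ L := hL
  set s : Fin (2 * L) → Fin (q + 1) := fun j =>
    ⟨(j / 2) % (q + 1), Nat.mod_lt _ (Nat.succ_pos q)⟩ with hs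
  let f : Fin u.length → Fin (List.ofFn s).length := fun i =>
    ⟨2 * ((q + 1) * i + (u.get i : ℕ)), by rw [List.length_ofFn]; have := hlt i; omega⟩
  have hf : StrictMono f := by
    intro i i' hii
    have h2 : (u.get i : ℕ) < q + 1 := (u.get i).2
    have h3 : (i : ℕ) + 1 ≤ i' := hii
    have h4 : (q + 1) * ((i : ℕ) + 1) ≤ (q + 1) * i' := Nat.mul_le_mul_left _ h3
    have h5 : (q + 1) * ((i : ℕ) + 1) = (q + 1) * i + (q + 1) := by ring
    change 2 * ((q + 1) * (i : ℕ) + (u.get i : ℕ)) < 2 * ((q + 1) * (i' : ℕ) + (u.get i' : ℕ))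
    omega
  refine ⟨OrderEmbedding.ofStrictMono f hf, fun i => ?_⟩
  have h1 : (OrderEmbedding.ofStrictMono f hf) i = f i := rfl
  rw [h1, List.get_ofFn]
  apply Fin.ext
  change (u.get i : ℕ) = (2 * ((q + 1) * (i : ℕ) + (u.get i : ℕ)) / 2) % (q + 1)
  rw [Nat.mul_div_cancel_left _ (by norm_num), Nat.mul_add_mod]
  exact (Nat.mod_eq_of_lt (u.get i).2).symm

section model

variable {Γ : Type*} [Group Γ] {k : ℕ} {S : Set Γ} {π : Γ →* Multiplicative (Fin k → ℤ)}
  (M : BModel S π)

variable {M} in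
/-- the change of variables (letters `a⁻¹`, `b`) -/
noncomputable def TwF {L : ℕ} (ω : Fin L → M.NN × M.NN) (z : Fin (2 * L) × Fin M.r) : ℝ :=
  if (z.1 : ℕ) % 2 = 0 then -((ω ⟨(z.1 : ℕ) / 2, by have := z.1.2; omega⟩).1 z.2)
    else (ω ⟨(z.1 : ℕ) / 2, by have := z.1.2; omega⟩).2 z.2

/-- the linear change of variables -/
noncomputable def Tw (L : ℕ) : (Fin L → M.NN × M.NN) →ₗ[ℝ] (Fin (2 * L) × Fin M.r → ℝ) where
  toFun ω := TwF ω
  map_add' ω ω' := by
    funext z
    rw [Pi.add_apply]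
    unfold TwF
    split_ifs
    · exact neg_add _ _
    · rfl
  map_smul' a ω := by
    funext z
    rw [Pi.smul_apply]
    unfold TwF
    split_ifs
    · exact (mul_neg _ _).symm
    · rfl

variable {M} in
theorem TwF_even {L : ℕ} (ω : Fin L → M.NN × M.NN) (j : Fin (2 * L)) (i : Fin M.r)
    (h : (j : ℕ) % 2 = 0) (j' : Fin L) (hj : (j : ℕ) / 2 = j') : TwF ω (j, i) = -((ω j').1 i) := by
  have : (⟨(j : ℕ) / 2, by have := j.2; omega⟩ : Fin L) = j' := Fin.ext hj
  unfold TwF
  rw [if_pos h, this]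

variable {M} in
theorem TwF_odd {L : ℕ} (ω : Fin L → M.NN × M.NN) (j : Fin (2 * L)) (i : Fin M.r)
    (h : ¬ (j : ℕ) % 2 = 0) (j' : Fin L) (hj : (j : ℕ) / 2 = j') : TwF ω (j, i) = (ω j').2 i := by
  have : (⟨(j : ℕ) / 2, by have := j.2; omega⟩ : Fin L) = j' := Fin.ext hj
  unfold TwF
  rw [if_neg h, this]

theorem Tw_inj (L : ℕ) : Function.Injective (Tw M L) := by
  intro ω ω' h
  have h' : ∀ z, TwF ω z = TwF ω' z := congrFun h
  funext j
  have h1 : ∀ i, (ω j).1 i = (ω' j).1 i := by
    intro i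
    have h2 := h' (⟨2 * (j : ℕ), by have := j.2; omega⟩, i)
    rw [TwF_even ω _ i (by simp) j (by simp), TwF_even ω' _ i (by simp) j (by simp)] at h2
    exact neg_injective h2
  have h3 : ∀ i, (ω j).2 i = (ω' j).2 i := by
    intro i
    have h2 := h' (⟨2 * (j : ℕ) + 1, by have := j.2; omega⟩, i)
    rw [TwF_odd ω _ i (by simp only; omega) j (by simp only; omega),
      TwF_odd ω' _ i (by simp only; omega) j (by simp only; omega)] at h2
    exact h2
  exact Prod.ext (funext h1) (funext h3)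

theorem finrank_NN : Module.finrank ℝ M.NN = M.r := by
  change Module.finrank ℝ (Fin M.r → ℝ) = M.r
  simp

/-- the change of variables as an equivalence -/
noncomputable def TwE (L : ℕ) : (Fin L → M.NN × M.NN) ≃ₗ[ℝ] (Fin (2 * L) × Fin M.r → ℝ) :=
  LinearEquiv.ofInjectiveOfFinrankEq (Tw M L) (Tw_inj M L) (by
    rw [Module.finrank_pi_fintype]
    simp [finrank_NN]
    ring)

end model

end Crest.Agent.R182.Nb
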