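/-
R182, module NILBOX (helper89): min-entropy of the walks in the model (F8), part 2.
-/
import Mathlib
import Crest.Agent.R182.NbEntM

set_option autoImplicit false
set_option linter.unusedSectionVars false

namespace Crest.Agent.R182.Nb

open Finset Module MeasureTheory Crest.Agent.R182.Core

variable {Γ : Type*} [Group Γ] {k : ℕ} {S : Set Γ} {π : Γ →* Multiplicative (Fin k → ℤ)}
  (M : BModel S π)

/-- the moves -/
noncomputable def mvB (c : ℕ → M.G) (q : ℕ) (j : ℕ) : M.NN → M.NN := M.conjN (c (j % (q + 1)))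

/-- the letters of the walk in the Lie algebra -/
noncomputable def FL (c : ℕ → M.G) (q : ℕ) (ω : ℕ → M.NN × M.NN) (j : ℕ) : M.L :=
  if j % 2 = 0 then -(M.Ad (c ((j / 2) % (q + 1))) (M.E (ω (j / 2)).1))
    else M.Ad (c ((j / 2) % (q + 1))) (M.E (ω (j / 2)).2)

theorem E_inv (x : M.NN) : M.E x⁻¹ = -M.E x := by
  rw [BModel.inv_def, map_neg]

theorem E_wk (c : ℕ → M.G) (q : ℕ) (ω : ℕ → M.NN × M.NN) (n : ℕ) :
    M.E (Star.wk (mvB M c q) 1 ω n) = M.star.prod ((List.range (2 * n)).map (FL M c q ω)) := by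
  induction n with
  | zero => rw [Star.wk, BModel.one_def, map_zero]; rfl
  | succ n ih =>
    have e1 : 2 * (n + 1) = 2 * n + 1 + 1 := by ring
    rw [e1, List.range_succ, List.range_succ, List.append_assoc, List.map_append,
      M.star.prod_append, ← ih, Star.wk, BModel.E_mul, BModel.E_mul, M.star.assoc, E_inv]
    congr 1
    simp only [List.map_cons, List.map_nil, List.cons_append, List.nil_append,
      Nb.Star.prod_cons, Nb.Star.prod_nil, M.star.op_zero]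
    have e2 : FL M c q ω (2 * n) = -(M.Ad (c (n % (q + 1))) (M.E (ω n).1)) := by
      unfold FL
      rw [if_pos (by omega), Nat.mul_div_cancel_left _ (by norm_num)]
    have e3 : FL M c q ω (2 * n + 1) = M.Ad (c (n % (q + 1))) (M.E (ω n).2) := by
      unfold FL
      rw [if_neg (by omega)]
      have : (2 * n + 1) / 2 = n := by omega
      rw [this]
    rw [e2, e3]
    simp only [mvB, BModel.conjN_apply, LinearEquiv.apply_symm_apply]

/-- the periodic labels -/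
def sP (q L : ℕ) : Fin (2 * L) → Fin (q + 1) := fun j =>
  ⟨(j / 2) % (q + 1), Nat.mod_lt _ (Nat.succ_pos q)⟩

/-- the letters -/
noncomputable def gP (c : ℕ → M.G) (q : ℕ) (z : Fin (q + 1) × Fin M.r) : M.L :=
  M.Ad (c z.1) (M.bas z.2)

theorem E_wk_eq_Phi (c : ℕ → M.G) (q L : ℕ) (ω : Fin L → M.NN × M.NN) :
    M.E (Star.wk (mvB M c q) 1 (Star.extω ω) L) = Phi M.star (sP q L) (gP M c q) (Tw M L ω) := by
  rw [E_wk, Phi]
  congr 1
  rw [List.ofFn_eq_map]
  have e1 : (List.range (2 * L)).map (FL M c q (Star.extω ω)) =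
      (List.finRange (2 * L)).map (fun j : Fin (2 * L) => FL M c q (Star.extω ω) (j : ℕ)) := by
    rw [← List.map_coe_finRange_eq_range, List.map_map]; rfl
  rw [e1]
  refine List.map_congr_left fun j _ => ?_
  have hj : (j : ℕ) / 2 < L := by have := j.2; omega
  have h1 : ∀ (x : M.NN) (g : M.G), M.Ad g (M.E x) = ∑ i, x i • M.Ad g (M.bas i) := by
    intro x g
    rw [BModel.E_eq_sum, map_sum]
    exact Finset.sum_congr rfl fun i _ => map_smul _ _ _
  unfold FL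
  rw [Star.extω_of_lt ω hj]
  split_ifs with h
  · rw [h1, ← Finset.sum_neg_distrib]
    refine Finset.sum_congr rfl fun i _ => ?_
    have h2 : Tw M L ω (j, i) = -((ω ⟨(j : ℕ) / 2, hj⟩).1 i) := TwF_even ω j i h _ rfl
    rw [h2, neg_smul]
    rfl
  · rw [h1]
    refine Finset.sum_congr rfl fun i _ => ?_
    have h2 : Tw M L ω (j, i) = (ω ⟨(j : ℕ) / 2, hj⟩).2 i := TwF_odd ω j i h _ rfl
    rw [h2]
    rfl

/-- verticals: products of at most `m` elements of `C` of length `≤ R` -/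
def Clr (R : ℝ) (m : ℕ) : Set M.G :=
  {g | ∃ l : List M.G, l.length ≤ m ∧ l.prod = g ∧ ∀ s ∈ l, s ∈ M.C ∧ M.len s ≤ R}

theorem Clr_inv {R : ℝ} {m : ℕ} {g : M.G} (hg : g ∈ Clr M R m) : g⁻¹ ∈ Clr M R m := by
  obtain ⟨l, hl, rfl, h⟩ := hg
  refine ⟨(l.map fun s => s⁻¹).reverse, by simpa using hl, ?_, ?_⟩
  · rw [List.prod_inv_reverse]
  · intro s hs
    rw [List.mem_reverse, List.mem_map] at hs
    obtain ⟨s', hs', rfl⟩ := hs
    exact ⟨M.C.inv_mem (h s' hs').1, by rw [M.isLen.inv]; exact (h s' hs').2⟩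

theorem Clr_mem_C {R : ℝ} {m : ℕ} {g : M.G} (hg : g ∈ Clr M R m) : g ∈ M.C := by
  obtain ⟨l, _, rfl, h⟩ := hg
  exact Subgroup.list_prod_mem _ fun s hs => (h s hs).1

/-- size of the coefficients of `Ad` on weight vectors -/
theorem exists_Ad_bound (R : ℝ) : ∃ A : ℝ, 1 ≤ A ∧ ∀ (m : ℕ) (g : M.G), g ∈ Clr M R m →
    ∀ i j, |M.bas.repr (M.Ad g (M.bas j)) i| ≤ A * (1 + m) ^ M.d * Real.exp (M.wt j (M.h g)) := by
  obtain ⟨A, hA⟩ := M.Ad_C_le R
  refine ⟨max A 1, le_max_right _ _, fun m g hg i j => ?_⟩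
  have hgC := Clr_mem_C M hg
  by_cases h0 : M.bas.repr (M.Ad g (M.bas j)) i = 0
  · rw [h0, abs_zero]; positivity
  · have hw := M.Ad_C g hgC i j h0
    obtain ⟨l, hl, rfl, h⟩ := hg
    have h1 := hA l h i j
    rw [hw] at h1
    refine h1.trans ?_
    have h2 : ((1 : ℝ) + l.length) ^ M.d ≤ (1 + m) ^ M.d := by
      gcongr
    have h3 : A ≤ max A 1 := le_max_left _ _
    have h4 : (0:ℝ) ≤ (1 + l.length) ^ M.d := by positivity
    calc A * (1 + l.length) ^ M.d * Real.exp (M.wt j (M.h l.prod))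
        ≤ max A 1 * (1 + m) ^ M.d * Real.exp (M.wt j (M.h l.prod)) := by
          gcongr
      _ = _ := rfl

theorem gP_zero_mem {c : ℕ → M.G} (hc : c 0 = 1) (q : ℕ) (i : Fin M.r) :
    gP M c q (0, i) = M.bas i := by
  change M.Ad (c 0) (M.bas i) = M.bas i
  rw [hc, map_one]; rfl

theorem MD_gP_pos {c : ℕ → M.G} (hc : c 0 = 1) (q : ℕ) : 0 < MD M.bas M.c (gP M c q) := by
  have h1 : Pm (gP M c q) = ⊤ := by
    rw [eq_top_iff, ← M.bas.span_eq]
    refine Submodule.span_le.mpr ?_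
    rintro _ ⟨i, rfl⟩
    exact Submodule.subset_span ⟨[(0, i)], by simp only [mon_single]; exact gP_zero_mem M hc q i⟩
  obtain ⟨κ, hκ⟩ := exists_tup M.nilC M.bas (gP M c q) h1
  exact MD_pos_of hκ

/-- **lower bound for the maximal determinant of the word** -/
theorem exists_MD_word (R : ℝ) (q : ℕ) : ∃ (K : ℝ) (D : ℕ), 1 ≤ K ∧ ∀ (m : ℕ) (c : ℕ → M.G),
    1 ≤ m → c 0 = 1 → (∀ j ≤ q, c j ∈ Clr M R m) → ∀ Z : GI M → ℝ, (∀ i, 0 ≤ Z i) →
    (∀ i, ∃ j ≤ q, Z i ≤ max 0 (wg M i (M.h (c j)))) →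
    Real.exp ((gsys M).Gt Z) ≤ K * (m : ℝ) ^ D * MD M.bas M.c (gP M c q) := by
  obtain ⟨A, hA1, hA⟩ := exists_Ad_bound M R
  obtain ⟨c₀, hc₀, hlow⟩ := le_MD_scaled M
  obtain ⟨C, hC, hMD⟩ := exists_MD_le (b := M.bas) M.nilC (Fin (q + 1) × Fin M.r) (GI M)
  set T : ℝ := (M.r + 1) * (A * 2 ^ M.d) with hT
  have hT1 : 1 ≤ T := by
    have h1 : (1:ℝ) ≤ 2 ^ M.d := one_le_pow₀ (by norm_num)
    have h2 : 1 ≤ A * 2 ^ M.d := by nlinarith
    have h3 : (1:ℝ) ≤ M.r + 1 := by linarith [(Nat.cast_nonneg M.r : (0:ℝ) ≤ M.r)]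
    nlinarith
  refine ⟨max 1 (C * T ^ (M.c * M.r) / c₀), M.d * (M.c * M.r), le_max_left _ _,
    fun m c hm hc1 hc Z hZ hZc => ?_⟩
  have hpos := MD_gP_pos M hc1 q
  have hm1 : (1:ℝ) ≤ m := by exact_mod_cast hm
  set t : ℝ := T * (m : ℝ) ^ M.d with ht
  have htm : (1:ℝ) ≤ (m : ℝ) ^ M.d := one_le_pow₀ hm1
  have ht1 : 1 ≤ t := by nlinarith
  have hbox : ∀ i : GI M, (fun i => Real.exp (Z i) • eg M i) i ∈ Bx M.c (gP M c q) t := by
    intro i
    -- the vertex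
    have hex : ∃ j : Fin (q + 1), c j ∈ Clr M R m ∧ Z i ≤ wg M i (M.h (c j)) := by
      obtain ⟨j, hj, hZj⟩ := hZc i
      rcases le_total 0 (wg M i (M.h (c j))) with h1 | h1
      · exact ⟨⟨j, Nat.lt_succ_of_le hj⟩, hc j hj, by rwa [max_eq_right h1] at hZj⟩
      · refine ⟨0, hc 0 (Nat.zero_le _), ?_⟩
        rw [max_eq_left h1] at hZj
        have h2 : c ((0 : Fin (q + 1)) : ℕ) = 1 := hc1
        rw [h2, BModel.h_one, map_zero]
        exact hZj
    obtain ⟨j, hj, hZj⟩ := hex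
    have e1 : eg M i = M.Ad (c j) (M.Ad (c j)⁻¹ (M.bas i)) := by
      rw [map_inv]
      exact (LinearEquiv.apply_symm_apply (M.Ad (c j)) (M.bas i)).symm
    have e2 : Real.exp (Z i) • eg M i =
        ∑ l, (Real.exp (Z i) * M.bas.repr (M.Ad (c j)⁻¹ (M.bas i)) l) • gP M c q (j, l) := by
      conv_lhs => rw [e1, ← M.bas.sum_repr (M.Ad (c j)⁻¹ (M.bas i)), map_sum, Finset.smul_sum]
      refine Finset.sum_congr rfl fun l _ => ?_
      rw [map_smul, smul_smul]; rfl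
    change Real.exp (Z i) • eg M i ∈ _
    rw [e2]
    have h3 : ∀ l ∈ (Finset.univ : Finset (Fin M.r)),
        (Real.exp (Z i) * M.bas.repr (M.Ad (c j)⁻¹ (M.bas i)) l) • gP M c q (j, l) ∈
          Bx M.c (gP M c q) (A * 2 ^ M.d * (m : ℝ) ^ M.d) := by
      intro l _
      have h4 := Bx_smul (gen_mem_Bx (M.nilC.nil (gP M c q)) (j, l))
        (Real.exp (Z i) * M.bas.repr (M.Ad (c j)⁻¹ (M.bas i)) l)
      refine Bx_mono ?_ h4
      rw [mul_one, abs_mul, abs_of_pos (Real.exp_pos _)]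
      have h5 := hA m _ (Clr_inv M hj) l i
      rw [BModel.h_inv, map_neg] at h5
      have h6 : Real.exp (Z i) * Real.exp (-(M.wt i (M.h (c j)))) ≤ 1 := by
        rw [← Real.exp_add, Real.exp_le_one_iff]
        have : wg M i (M.h (c j)) = M.wt i (M.h (c j)) := rfl
        linarith
      have h7 : ((1:ℝ) + m) ^ M.d ≤ 2 ^ M.d * (m : ℝ) ^ M.d := by
        rw [← mul_pow]
        gcongr
        linarith
      have h8 : 0 ≤ Real.exp (Z i) := (Real.exp_pos _).le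
      calc Real.exp (Z i) * |M.bas.repr (M.Ad (c j)⁻¹ (M.bas i)) l|
          ≤ Real.exp (Z i) * (A * (1 + m) ^ M.d * Real.exp (-(M.wt i (M.h (c j))))) := by gcongr
        _ = (A * (1 + m) ^ M.d) * (Real.exp (Z i) * Real.exp (-(M.wt i (M.h (c j))))) := by ring
        _ ≤ (A * (1 + m) ^ M.d) * 1 := by gcongr
        _ ≤ A * 2 ^ M.d * (m : ℝ) ^ M.d := by
            rw [mul_one, mul_assoc]
            gcongr
    refine Bx_mono ?_ (Bx_sum _ _ _ h3)
    rw [Finset.sum_const, Finset.card_univ, Fintype.card_fin, nsmul_eq_mul, ht, hT]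
    have : 0 ≤ A * 2 ^ M.d * (m : ℝ) ^ M.d := by positivity
    nlinarith
  have h1 := hMD (gP M c q) (fun i => Real.exp (Z i) • eg M i) t ht1 hpos hbox
  have h2 := (hlow Z).trans h1
  have h3 : t ^ (M.c * M.r) = T ^ (M.c * M.r) * (m : ℝ) ^ (M.d * (M.c * M.r)) := by
    rw [ht, mul_pow, ← pow_mul]
  rw [h3] at h2
  have h4 : Real.exp ((gsys M).Gt Z) ≤ (C * T ^ (M.c * M.r) / c₀) *
      (m : ℝ) ^ (M.d * (M.c * M.r)) * MD M.bas M.c (gP M c q) := by
    rw [div_mul_eq_mul_div, div_mul_eq_mul_div, le_div_iff₀ hc₀, mul_comm]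
    refine h2.trans (le_of_eq (by ring))
  refine h4.trans ?_
  gcongr
  exact le_max_right _ _

/-- the law of one letter -/
noncomputable def nuV (V : Set M.NN) : Measure M.NN :=
  ((volume : Measure M.NN) V)⁻¹ • (volume : Measure M.NN).restrict V

/-- **(F8) ENT**: min-entropy of the walks, in power law form. -/
theorem ent_bmodel (A : AdS M.star) (R : ℝ) {V : Set M.NN} (hV : MeasurableSet V) {ρ : ℝ}
    (hρ : ∀ n ∈ V, ‖n‖ ≤ ρ) (h0 : (volume : Measure M.NN) V ≠ 0) (q : ℕ) :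
    ∃ L0 : ℕ, ∀ L ≥ L0, ∃ (κ C : ℝ) (D : ℕ), 0 < κ ∧ 0 < C ∧
      ∀ (m : ℕ) (c : ℕ → M.G), 1 ≤ m → c 0 = 1 → (∀ j ≤ q, c j ∈ Clr M R m) →
      ∀ Z : GI M → ℝ, (∀ i, 0 ≤ Z i) → (∀ i, ∃ j ≤ q, Z i ≤ max 0 (wg M i (M.h (c j)))) →
      ∀ S' : Set M.NN, MeasurableSet S' →
      (Measure.pi fun _ : Fin L => (nuV M V).prod (nuV M V))
        {ω | Star.wk (mvB M c q) 1 (Star.extω ω) L ∈ S'} ≤
      ENNReal.ofReal (C * (m : ℝ) ^ D) *
        ((volume : Measure M.NN) S' * ENNReal.ofReal (Real.exp (- (gsys M).Gt Z))) ^ κ := by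
  have hVfin : (volume : Measure M.NN) V ≠ ⊤ := by
    have h1 : V ⊆ Metric.closedBall 0 ρ := fun n hn => by
      rw [mem_closedBall_zero_iff]; exact hρ n hn
    exact ne_top_of_le_ne_top (isCompact_closedBall (0 : M.NN) ρ).measure_lt_top.ne (measure_mono h1)
  obtain ⟨J, hJ⟩ := exists_ent A M.nilC M.bas (Fin (q + 1))
  obtain ⟨K, D, hK, hMD⟩ := exists_MD_word M R q
  refine ⟨(q + 1) * J, fun L hL => ?_⟩
  obtain ⟨C₁, κ, hC₁, hκ, hκ1, hent⟩ := hJ (2 * L) (sP q L) (sublist_periodic q L J hL) (max ρ 0)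
  obtain ⟨c₂, hc₂, hpi⟩ := pi_le_of_linear (volume : Measure M.NN) hV h0 hVfin (TwE M L)
  set c₂' : ℝ := c₂.toReal with hc₂'
  have hc₂eq : c₂ = ENNReal.ofReal c₂' := (ENNReal.ofReal_toReal hc₂).symm
  have hc₂0 : 0 ≤ c₂' := ENNReal.toReal_nonneg
  refine ⟨κ, c₂' * C₁ * K + 1, D, hκ, by positivity, fun m c hm hc1 hc Z hZ hZc S' hS' => ?_⟩
  set g := gP M c q with hg
  have hpos : 0 < MD M.bas M.c g := MD_gP_pos M hc1 q
  have hmd := hMD m c hm hc1 hc Z hZ hZc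
  have hm1 : (1:ℝ) ≤ m := by exact_mod_cast hm
  have hmD : (1:ℝ) ≤ (m : ℝ) ^ D := one_le_pow₀ hm1
  set A' : Set M.L := {x | M.E.symm x ∈ S'} with hA'
  have hset : {y : Fin M.r → ℝ | M.bas.equivFun.symm y ∈ A'} = S' := by
    ext y
    have e : M.E.symm (M.E (show M.NN from y)) = (show M.NN from y) := M.E.symm_apply_apply _
    exact Iff.of_eq (congrArg (fun z : M.NN => z ∈ S') e)
  have hA'm : MeasL M.bas A' := by
    unfold MeasL; rw [hset]; exact hS'
  have hvb : vb M.bas A' = (volume : Measure M.NN) S' := by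
    unfold vb; rw [hset]; rfl
  set P := (Measure.pi fun _ : Fin L => (nuV M V).prod (nuV M V))
    {ω | Star.wk (mvB M c q) 1 (Star.extω ω) L ∈ S'} with hP
  -- the basic estimate
  have key : ∀ a : ℝ, 0 < a → (volume : Measure M.NN) S' ≤ ENNReal.ofReal (a * MD M.bas M.c g) →
      P ≤ ENNReal.ofReal (c₂' * (C₁ * a ^ κ)) := by
    intro a ha hle
    have h1 := hent g hpos A' hA'm a ha (by rw [hvb]; exact hle)
    have h2 := hpi {ω | Star.wk (mvB M c q) 1 (Star.extω ω) L ∈ S'}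
      {w : Fin (2 * L) × Fin M.r → ℝ | ‖w‖ ≤ max ρ 0 ∧ Phi M.star (sP q L) g w ∈ A'} (by
        intro ω hω hωV
        have e : TwE M L ω = Tw M L ω := rfl
        rw [e]
        refine ⟨?_, ?_⟩
        · rw [pi_norm_le_iff_of_nonneg (le_max_right _ _)]
          intro z
          have hj : (z.1 : ℕ) / 2 < L := by have := z.1.2; omega
          refine le_trans ?_ (le_max_left _ _)
          rw [Real.norm_eq_abs]
          by_cases h3 : (z.1 : ℕ) % 2 = 0
          · have h4 : Tw M L ω z = -((ω ⟨(z.1 : ℕ) / 2, hj⟩).1 z.2) :=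
              TwF_even ω z.1 z.2 h3 _ rfl
            rw [h4, abs_neg]
            exact (norm_le_pi_norm (ω ⟨(z.1 : ℕ) / 2, hj⟩).1 z.2).trans (hρ _ (hωV _).1)
          · have h4 : Tw M L ω z = (ω ⟨(z.1 : ℕ) / 2, hj⟩).2 z.2 :=
              TwF_odd ω z.1 z.2 h3 _ rfl
            rw [h4]
            exact (norm_le_pi_norm (ω ⟨(z.1 : ℕ) / 2, hj⟩).2 z.2).trans (hρ _ (hωV _).2)
        · rw [hg, ← E_wk_eq_Phi]
          change M.E.symm (M.E _) ∈ S'
          rw [LinearEquiv.symm_apply_apply]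
          exact hω)
    calc P ≤ c₂ * volume {w : Fin (2 * L) × Fin M.r → ℝ |
          ‖w‖ ≤ max ρ 0 ∧ Phi M.star (sP q L) g w ∈ A'} := h2
      _ ≤ ENNReal.ofReal c₂' * ENNReal.ofReal (C₁ * a ^ κ) := by rw [← hc₂eq]; gcongr
      _ = _ := by rw [← ENNReal.ofReal_mul hc₂0]
  set x : ENNReal := (volume : Measure M.NN) S' * ENNReal.ofReal (Real.exp (- (gsys M).Gt Z)) with hx
  have hexp : (0:ℝ) < Real.exp (- (gsys M).Gt Z) := Real.exp_pos _
  have hCm : (0:ℝ) < (c₂' * C₁ * K + 1) * (m : ℝ) ^ D := by positivity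
  rcases eq_or_ne x ⊤ with hxt | hxt
  · rw [hxt, ENNReal.top_rpow_of_pos hκ, ENNReal.mul_top]
    · exact le_top
    · simpa using hCm
  -- the volume in terms of `x`
  have hvol : (volume : Measure M.NN) S' = ENNReal.ofReal (x.toReal * Real.exp ((gsys M).Gt Z)) := by
    have h1 : (volume : Measure M.NN) S' = x * ENNReal.ofReal (Real.exp ((gsys M).Gt Z)) := by
      rw [hx, mul_assoc, ← ENNReal.ofReal_mul hexp.le, ← Real.exp_add, neg_add_cancel, Real.exp_zero,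
        ENNReal.ofReal_one, mul_one]
    rw [h1, ENNReal.ofReal_mul ENNReal.toReal_nonneg, ENNReal.ofReal_toReal hxt]
  rcases eq_or_ne x 0 with hx0 | hx0
  · -- measure zero
    have h1 : (volume : Measure M.NN) S' = 0 := by rw [hvol, hx0]; simp
    have h2 : ∀ b : ℝ, 0 < b → P ≤ ENNReal.ofReal (c₂' * (C₁ * b)) := by
      intro b hb
      have h3 := key (b ^ (1 / κ)) (Real.rpow_pos_of_pos hb _) (by rw [h1]; exact zero_le)
      rwa [← Real.rpow_mul hb.le, one_div, inv_mul_cancel₀ hκ.ne', Real.rpow_one] at h3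
    have h4 : P = 0 := by
      by_contra hne
      have hPfin : P ≠ ⊤ := ne_top_of_le_ne_top ENNReal.ofReal_ne_top (h2 1 one_pos)
      have hP0 : 0 < P.toReal := ENNReal.toReal_pos hne hPfin
      have h5 := h2 (P.toReal / (2 * (c₂' * C₁ + 1))) (by positivity)
      have h6 := ENNReal.toReal_mono ENNReal.ofReal_ne_top h5
      rw [ENNReal.toReal_ofReal (by positivity)] at h6
      have h7 : c₂' * (C₁ * (P.toReal / (2 * (c₂' * C₁ + 1)))) ≤ P.toReal / 2 := by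
        rw [← mul_assoc, mul_div_assoc', div_le_div_iff₀ (by positivity) (by norm_num)]
        have : 0 ≤ c₂' * C₁ := by positivity
        nlinarith
      linarith
    rw [h4]; exact zero_le
  · have hxr : 0 < x.toReal := ENNReal.toReal_pos hx0 hxt
    set a : ℝ := x.toReal * (K * (m : ℝ) ^ D) with ha
    have ha0 : 0 < a := by positivity
    have h1 := key a ha0 (by
      rw [hvol]
      refine ENNReal.ofReal_le_ofReal ?_
      rw [ha, mul_assoc]
      gcongr)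
    refine h1.trans ?_
    have h2 : a ^ κ ≤ x.toReal ^ κ * (K * (m : ℝ) ^ D) := by
      rw [ha, Real.mul_rpow hxr.le (by positivity)]
      gcongr
      have h3 : (1:ℝ) ≤ K * (m : ℝ) ^ D := by nlinarith
      calc (K * (m : ℝ) ^ D) ^ κ ≤ (K * (m : ℝ) ^ D) ^ (1:ℝ) :=
            Real.rpow_le_rpow_of_exponent_le h3 hκ1
        _ = _ := Real.rpow_one _
    have h4 : x ^ κ = ENNReal.ofReal (x.toReal ^ κ) := by
      rw [← ENNReal.ofReal_rpow_of_pos hxr, ENNReal.ofReal_toReal hxt]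
    rw [h4, ← ENNReal.ofReal_mul hCm.le]
    refine ENNReal.ofReal_le_ofReal ?_
    have h5 : 0 ≤ x.toReal ^ κ := Real.rpow_nonneg hxr.le _
    calc c₂' * (C₁ * a ^ κ) ≤ c₂' * (C₁ * (x.toReal ^ κ * (K * (m : ℝ) ^ D))) := by gcongr
      _ = (c₂' * C₁ * K) * (m : ℝ) ^ D * x.toReal ^ κ := by ring
      _ ≤ (c₂' * C₁ * K + 1) * (m : ℝ) ^ D * x.toReal ^ κ := by
          gcongr
          linarith

end Crest.Agent.R182.Nb
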