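/-
R182, module CAP (helper710): the slab version of the volume upper bound.
-/
import Crest.Agent.R182.CapModel

set_option autoImplicit false

namespace Crest.Agent.R182.Cap

open MeasureTheory

variable {G H ι E : Type*} [Group G] [Group H] [MeasurableSpace H] [Fintype ι]
    [NormedAddCommGroup E] [NormedSpace ℝ E]

namespace CapModel

variable (M : CapModel G H ι E)

theorem δ_one {i : ι} (hi : M.S.NZ i) : M.δ i 1 = 0 := by
  have h := M.crossed i hi 1 1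
  have h2 : M.χ i 1 = 1 := by have := M.χ_emb i hi 1; rwa [map_one] at this
  rw [mul_one, h2, one_mul] at h
  have h3 : M.δ i 1 + 0 = M.δ i 1 + M.δ i 1 := by rw [add_zero]; exact h
  exact (add_left_cancel h3).symm

theorem χ_ne {i : ι} (hi : M.S.NZ i) (y : G) : M.χ i y ≠ 0 := by
  intro h
  have := M.χ_norm i hi y
  rw [h, norm_zero] at this
  exact (Real.exp_pos _).ne this

/-- `δ (P⁻¹ * y)` -/
theorem norm_δ_inv_mul {i : ι} (hi : M.S.NZ i) (P y : G) :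
    ‖M.δ i (P⁻¹ * y)‖ = Real.exp (- M.S.l i (M.hgt P)) * ‖M.δ i y - M.δ i P‖ := by
  have h1 : M.δ i y = M.δ i P + M.χ i P * M.δ i (P⁻¹ * y) := by
    rw [← M.crossed i hi]; congr 1; group
  have h2 : M.δ i y - M.δ i P = M.χ i P * M.δ i (P⁻¹ * y) := by rw [h1]; ring
  rw [h2, norm_mul, M.χ_norm i hi, ← mul_assoc, ← Real.exp_add, neg_add_cancel, Real.exp_zero,
    one_mul]

theorem δ_conj {i : ι} (hi : M.S.NZ i) (b : G) (n : H) :
    M.δ i (M.emb (M.cj b n)) = M.χ i b * M.δ i (M.emb n) := by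
  have h1 : M.emb (M.cj b n) * b = b * M.emb n := by rw [M.emb_cj]; group
  have h2 := M.crossed i hi (M.emb (M.cj b n)) b
  rw [h1, M.crossed i hi, M.χ_emb i hi, one_mul] at h2
  have h3 : M.δ i b + M.χ i b * M.δ i (M.emb n) = M.δ i b + M.δ i (M.emb (M.cj b n)) := by
    rw [h2]; ring
  exact (add_left_cancel h3).symm

variable {M}

/-- the translating elements -/
theorem exists_nu {i : ι} (hi : M.S.NZ i) {Z : ι → ℝ} (hZ : ∀ j, 0 ≤ Z j) {v : E}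
    (hv : ∀ j, M.S.l j v ≤ Z j) {m : ℕ} (hm : 1 ≤ m) (hvm : ‖v‖ ≤ m) :
    ∃ z : ℂ, Real.exp (M.S.l i v - M.C0 ^ 2) ≤ ‖z‖ ∧ ∀ t : ℝ, 0 ≤ t → t ≤ 1 → ∃ n : H,
      M.Conn (fun j => Z j + (M.C0 ^ 2 + M.C0 ^ 4 * (M.C0 + 1)))
        (m * (2 * ⌈2 * M.C0⌉₊) + ⌈M.C0 * (M.C0 + 1)⌉₊) 1 (M.emb n) ∧ M.δ i (M.emb n) = z * t := by
  obtain ⟨m', p, hm', h0, hend, hstep, hpt⟩ := M.vert v
  set b := p m' with hb
  have hC := M.one_le_C0
  have hmR : (1 : ℝ) ≤ m := by exact_mod_cast hm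
  have hm2 : m' ≤ m * ⌈2 * M.C0⌉₊ := by
    have h1 : (m' : ℝ) ≤ m * ⌈2 * M.C0⌉₊ := by
      calc (m' : ℝ) ≤ M.C0 * (‖v‖ + 1) := hm'
        _ ≤ M.C0 * (m + m) := by gcongr
        _ = m * (2 * M.C0) := by ring
        _ ≤ m * ⌈2 * M.C0⌉₊ := by gcongr; exact Nat.le_ceil _
    exact_mod_cast h1
  have hlv : ∀ j, ∀ t : ℝ, 0 ≤ t → t ≤ 1 → t * M.S.l j v ≤ Z j := by
    intro j t ht0 ht1
    rcases le_total 0 (M.S.l j v) with h | h
    · have := hv j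
      nlinarith [hZ j]
    · have := hZ j
      nlinarith
  have hpj : ∀ k ≤ m', ∀ j, M.S.l j (M.hgt (p k)) ≤ Z j + M.C0 ^ 2 := by
    intro k hk j
    obtain ⟨t, ht0, ht1, ht⟩ := hpt k hk
    have h1 := (le_abs_self _).trans (M.l_le j (M.hgt (p k) - t • v))
    rw [map_sub, map_smul, smul_eq_mul] at h1
    have h2 : M.C0 * ‖M.hgt (p k) - t • v‖ ≤ M.C0 * M.C0 :=
      mul_le_mul_of_nonneg_left ht M.C0_pos.le
    have h3 := hlv j t ht0 ht1
    nlinarith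
  have hpath : M.Conn (fun j => Z j + M.C0 ^ 2) m' 1 b :=
    ⟨p, h0, rfl, hstep, fun k hk j => hpj k hk j⟩
  refine ⟨M.χ i b, ?_, ?_⟩
  · rw [M.χ_norm i hi]
    apply Real.exp_le_exp.2
    have h1 := (abs_le.1 ((M.l_le i (M.hgt b - v)).trans
      (mul_le_mul_of_nonneg_left hend M.C0_pos.le))).1
    rw [map_sub] at h1
    nlinarith
  · intro t ht0 ht1
    obtain ⟨n, hn, hδ⟩ := M.exists_u i hi t ht0 ht1
    refine ⟨M.cj b n, ?_, by rw [δ_conj M hi, hδ]⟩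
    have hZ1 : ∀ j, Z j + M.C0 ^ 2 ≤ Z j + (M.C0 ^ 2 + M.C0 ^ 4 * (M.C0 + 1)) := by
      intro j
      have : 0 ≤ M.C0 ^ 4 * (M.C0 + 1) := by positivity
      linarith
    have c1 : M.Conn (fun j => Z j + (M.C0 ^ 2 + M.C0 ^ 4 * (M.C0 + 1))) m' 1 b :=
      hpath.mono hZ1
    have c2 : M.Conn (fun j => Z j + (M.C0 ^ 2 + M.C0 ^ 4 * (M.C0 + 1)))
        ⌈M.C0 * (M.C0 + 1)⌉₊ b (b * M.emb n) := by
      refine conn_of_dst (s := M.C0) ?_ (Nat.le_ceil _) ?_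
      · unfold dst; rw [inv_mul_cancel_left]; exact hn
      · intro j
        have := hpj m' le_rfl j
        rw [← hb] at this
        linarith
    have c3 : M.Conn (fun j => Z j + (M.C0 ^ 2 + M.C0 ^ 4 * (M.C0 + 1))) m' (b * M.emb n)
        (M.emb (M.cj b n)) := by
      have h1 := (c1.symm).mul_left (M.emb (M.cj b n))
      have h2 : M.emb (M.cj b n) * b = b * M.emb n := by rw [M.emb_cj]; group
      rw [mul_one, h2] at h1
      refine h1.mono fun j => ?_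
      rw [M.hgt_emb, map_zero, zero_add]
    have c4 := (c1.trans c2).trans c3
    refine c4.extend ?_
    have : m' + m' ≤ m * (2 * ⌈2 * M.C0⌉₊) := by
      calc m' + m' ≤ m * ⌈2 * M.C0⌉₊ + m * ⌈2 * M.C0⌉₊ := add_le_add hm2 hm2
        _ = m * (2 * ⌈2 * M.C0⌉₊) := by ring
    omega

/-- crude bound for the crossed homomorphisms -/
theorem δ_le_of_len {i : ι} (hi : M.S.NZ i) {y : G} {s : ℝ} (hs : M.len y ≤ s) :
    ‖M.δ i y‖ ≤ (⌈M.C0 * (s + 1)⌉₊ : ℕ) * (M.C0 * Real.exp (M.C0 ^ 4 * (s + 1))) := by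
  have h1 : M.Conn (fun _ => M.C0 ^ 4 * (s + 1)) ⌈M.C0 * (s + 1)⌉₊ 1 y := by
    refine conn_of_dst (s := s) ?_ (Nat.le_ceil _) ?_
    · unfold dst; rw [inv_one, one_mul]; exact hs
    · intro j; rw [M.hgt_one, map_zero, zero_add]
  have h2 := h1.delta hi
  rwa [M.δ_one hi, sub_zero] at h2

/-- **slab lemma**: points whose `i`-th abelianised coordinate is small are rare. -/
theorem slab (hR : M.Reach) {i : ι} (hi : M.S.NZ i) : ∃ (s₀ C : ℝ) (D : ℕ), 0 < s₀ ∧ 0 < C ∧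
    ∀ Z : ι → ℝ, (∀ j, 0 ≤ Z j) → ∀ m : ℕ, 1 ≤ m → ∀ v : E, (∀ j, M.S.l j v ≤ Z j) → ‖v‖ ≤ m →
    ∀ Y : ℝ, 0 ≤ Y → ∀ F : Finset G, (∀ y ∈ F, M.Conn Z m 1 y) →
    (∀ y ∈ F, M.S.l i (M.hgt y) ≤ Y) → (∀ y ∈ F, ‖M.δ i y‖ ≤ Real.exp Y) →
    (∀ y ∈ F, ∀ z ∈ F, y ≠ z → s₀ < M.dst y z) →
    (F.card : ℝ) ≤ C * (m : ℝ) ^ D * Real.exp (M.S.Gt Z - (M.S.l i v - Y)) := by
  classical
  obtain ⟨s₀, C, D, hs₀, hC, hReach⟩ := hR
  set Cd : ℝ := (⌈M.C0 * (s₀ + 1)⌉₊ : ℕ) * (M.C0 * Real.exp (M.C0 ^ 4 * (s₀ + 1))) with hCd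
  have hCdp : 0 ≤ Cd := by have := M.C0_pos; positivity
  have hC0 := M.one_le_C0
  set C1 : ℝ := M.C0 ^ 2 + M.C0 ^ 4 * (M.C0 + 1) with hC1
  have hC1p : 0 ≤ C1 := by positivity
  set A : ℝ := Real.exp (M.C0 ^ 2) * (Cd + 3) with hA
  have hAp : 0 < A := by positivity
  set k0 : ℕ := 2 * ⌈2 * M.C0⌉₊ + ⌈M.C0 * (M.C0 + 1)⌉₊ + 1 with hk0
  refine ⟨s₀, A * (C * (k0 : ℝ) ^ D * Real.exp (M.S.Lip * C1)), D, hs₀, by positivity, ?_⟩
  intro Z hZ m hm v hv hvm Y hY F hF1 hF2 hF3 hF4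
  obtain ⟨z, hz, hnu⟩ := exists_nu hi hZ hv hm hvm
  -- the step
  set s : ℝ := A * Real.exp (Y - M.S.l i v) with hs
  have hsp : 0 < s := by positivity
  set n : ℕ := ⌊s⁻¹⌋₊ with hn
  have ht : ∀ k : ℕ, k ∈ Finset.range (n + 1) → 0 ≤ (k : ℝ) * s ∧ (k : ℝ) * s ≤ 1 := by
    intro k hk
    refine ⟨by positivity, ?_⟩
    have h1 : k ≤ n := Nat.lt_succ_iff.1 (Finset.mem_range.1 hk)
    have h2 : (k : ℝ) ≤ s⁻¹ := (Nat.cast_le.2 h1).trans (Nat.floor_le (by positivity))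
    calc (k : ℝ) * s ≤ s⁻¹ * s := by gcongr
      _ = 1 := inv_mul_cancel₀ hsp.ne'
  have hex : ∀ k : ℕ, ∃ x : H, k ∈ Finset.range (n + 1) →
      (M.Conn (fun j => Z j + C1) (m * (2 * ⌈2 * M.C0⌉₊) + ⌈M.C0 * (M.C0 + 1)⌉₊) 1 (M.emb x) ∧
        M.δ i (M.emb x) = z * ((k : ℝ) * s : ℝ)) := by
    intro k
    by_cases hk : k ∈ Finset.range (n + 1)
    · obtain ⟨x, hx⟩ := hnu ((k : ℝ) * s) (ht k hk).1 (ht k hk).2
      exact ⟨x, fun _ => hx⟩
    · exact ⟨1, fun h => absurd h hk⟩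
  choose w hw using hex
  -- distances
  have hsepk : ∀ k ∈ Finset.range (n + 1), ∀ k' ∈ Finset.range (n + 1), k ≠ k' → ∀ y ∈ F,
      ∀ y' ∈ F, s₀ < M.dst (M.emb (w k) * y) (M.emb (w k') * y') := by
    intro k hk k' hk' hkk y hy y' hy'
    by_contra hcon
    push Not at hcon
    have h1 : ‖M.δ i (M.emb (w k') * y') - M.δ i (M.emb (w k) * y)‖ ≤ Cd * Real.exp Y := by
      have e1 : M.emb (w k') * y' = (M.emb (w k) * y) * ((M.emb (w k) * y)⁻¹ * (M.emb (w k') * y')) := by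
        group
      have e2 : M.δ i (M.emb (w k') * y') = M.δ i (M.emb (w k) * y) +
          M.χ i (M.emb (w k) * y) * M.δ i ((M.emb (w k) * y)⁻¹ * (M.emb (w k') * y')) := by
        conv_lhs => rw [e1]
        exact M.crossed i hi _ _
      rw [e2, add_sub_cancel_left, norm_mul, M.χ_norm i hi, M.hgt_mul, M.hgt_emb, zero_add,
        mul_comm]
      exact mul_le_mul (δ_le_of_len hi hcon) (Real.exp_le_exp.2 (hF2 y hy))
        (Real.exp_pos _).le hCdp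
    have h2 : M.δ i (M.emb (w k') * y') - M.δ i (M.emb (w k) * y) =
        z * ((((k' : ℝ) - k) * s : ℝ) : ℂ) + (M.δ i y' - M.δ i y) := by
      rw [M.crossed i hi, M.crossed i hi, M.χ_emb i hi, M.χ_emb i hi, (hw k hk).2, (hw k' hk').2]
      push_cast
      ring
    have h3 : ‖z‖ * s ≤ ‖z * ((((k' : ℝ) - k) * s : ℝ) : ℂ)‖ := by
      rw [norm_mul, Complex.norm_real, Real.norm_eq_abs, abs_mul, abs_of_pos hsp]
      have h4 : (1 : ℝ) ≤ |(k' : ℝ) - k| := by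
        have h5 : (1 : ℤ) ≤ |(k' : ℤ) - k| := Int.one_le_abs (by omega)
        have h6 : ((1 : ℤ) : ℝ) ≤ ((|(k' : ℤ) - k| : ℤ) : ℝ) := by exact_mod_cast h5
        push_cast at h6
        exact h6
      have : s ≤ |(k' : ℝ) - k| * s := by nlinarith
      exact mul_le_mul_of_nonneg_left this (norm_nonneg _)
    have h4 : ‖z * ((((k' : ℝ) - k) * s : ℝ) : ℂ)‖ ≤ Cd * Real.exp Y + 2 * Real.exp Y := by
      have e : z * ((((k' : ℝ) - k) * s : ℝ) : ℂ) =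
          (M.δ i (M.emb (w k') * y') - M.δ i (M.emb (w k) * y)) - (M.δ i y' - M.δ i y) := by
        rw [h2]; ring
      rw [e]
      refine (norm_sub_le _ _).trans (add_le_add h1 ((norm_sub_le _ _).trans ?_))
      linarith [hF3 y hy, hF3 y' hy']
    have h5 : (Cd + 3) * Real.exp Y ≤ ‖z‖ * s := by
      have e : (Cd + 3) * Real.exp Y = Real.exp (M.S.l i v - M.C0 ^ 2) * s := by
        rw [hs, hA]
        have : Real.exp (M.S.l i v - M.C0 ^ 2) * (Real.exp (M.C0 ^ 2) * (Cd + 3) *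
            Real.exp (Y - M.S.l i v)) = (Cd + 3) * (Real.exp (M.S.l i v - M.C0 ^ 2) *
            Real.exp (M.C0 ^ 2) * Real.exp (Y - M.S.l i v)) := by ring
        rw [this, ← Real.exp_add, ← Real.exp_add]
        congr 2
        ring
      rw [e]
      exact mul_le_mul_of_nonneg_right hz hsp.le
    have h6 := Real.exp_pos Y
    nlinarith
  have hsepy : ∀ k, ∀ y ∈ F, ∀ y' ∈ F, y ≠ y' →
      s₀ < M.dst (M.emb (w k) * y) (M.emb (w k) * y') := by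
    intro k y hy y' hy' hne
    rw [M.dst_mul_left]; exact hF4 y hy y' hy' hne
  -- the big separated set
  let φ : ℕ × G → G := fun q => M.emb (w q.1) * q.2
  set B : Finset (ℕ × G) := Finset.range (n + 1) ×ˢ F with hB
  have hsep : ∀ q ∈ B, ∀ q' ∈ B, q ≠ q' → s₀ < M.dst (φ q) (φ q') := by
    rintro ⟨k, y⟩ hq ⟨k', y'⟩ hq' hne
    rw [hB, Finset.mem_product] at hq hq'
    by_cases hk : k = k'
    · subst hk
      exact hsepy k y hq.2 y' hq'.2 (fun h => hne (by rw [h]))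
    · exact hsepk k hq.1 k' hq'.1 hk y hq.2 y' hq'.2
  have hinj : Set.InjOn φ (B : Set (ℕ × G)) := by
    intro q hq q' hq' h
    by_contra hne
    have h1 := hsep q hq q' hq' hne
    rw [h, M.dst_self] at h1
    linarith
  have hcard : (B.image φ).card = B.card := Finset.card_image_of_injOn hinj
  have hm1 : 1 ≤ k0 * m := Nat.le_trans hm (Nat.le_mul_of_pos_left m (by omega))
  have h1 := hReach (fun j => Z j + C1) (fun j => by linarith [hZ j]) (k0 * m) hm1 (B.image φ)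
    (by
      intro y hy
      obtain ⟨⟨k, y0⟩, hq, rfl⟩ := Finset.mem_image.1 hy
      rw [hB, Finset.mem_product] at hq
      have c1 := (hw k hq.1).1
      have c2 := ((hF1 y0 hq.2).mul_left (M.emb (w k))).mono (Z' := fun j => Z j + C1) (by
        intro j; rw [M.hgt_emb, map_zero]; linarith)
      rw [mul_one] at c2
      refine (c1.trans c2).extend ?_
      rw [hk0]
      have : ⌈M.C0 * (M.C0 + 1)⌉₊ ≤ ⌈M.C0 * (M.C0 + 1)⌉₊ * m := Nat.le_mul_of_pos_right _ hm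
      nlinarith)
    (by
      intro y hy y' hy' hne
      obtain ⟨q, hq, rfl⟩ := Finset.mem_image.1 hy
      obtain ⟨q', hq', rfl⟩ := Finset.mem_image.1 hy'
      exact hsep q hq q' hq' (fun h => hne (by rw [h])))
  rw [hcard, hB, Finset.card_product, Finset.card_range] at h1
  have h2 : s⁻¹ ≤ ((n + 1 : ℕ) : ℝ) := by
    push_cast
    exact (Nat.lt_floor_add_one _).le
  have h3 : M.S.Gt (fun j => Z j + C1) ≤ M.S.Gt Z + M.S.Lip * C1 :=
    M.S.Gt_le_add hC1p fun j => le_rfl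
  have h4 : s⁻¹ * (F.card : ℝ) ≤ C * ((k0 * m : ℕ) : ℝ) ^ D *
      Real.exp (M.S.Gt Z + M.S.Lip * C1) := by
    calc s⁻¹ * (F.card : ℝ) ≤ ((n + 1 : ℕ) : ℝ) * F.card := by gcongr
      _ = (((n + 1) * F.card : ℕ) : ℝ) := by push_cast; ring
      _ ≤ _ := h1
      _ ≤ _ := by gcongr
  have h5 : (F.card : ℝ) ≤ s * (C * ((k0 * m : ℕ) : ℝ) ^ D *
      Real.exp (M.S.Gt Z + M.S.Lip * C1)) := by
    calc (F.card : ℝ) = s * (s⁻¹ * F.card) := by field_simp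
      _ ≤ _ := by gcongr
  refine h5.trans (le_of_eq ?_)
  rw [hs]
  push_cast
  rw [mul_pow, Real.exp_add, show M.S.Gt Z - (M.S.l i v - Y) = M.S.Gt Z + (Y - M.S.l i v) by ring,
    Real.exp_add]
  ring

end CapModel

end Crest.Agent.R182.Cap
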