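/-
R182, module CAP (helper710): volume upper bounds for sets of `H` whose images under a
quasi-isometry are connected at bounded heights.
-/
import Crest.Agent.R182.CapSlab

set_option autoImplicit false

namespace Crest.Agent.R182.Cap

open MeasureTheory

variable {G H ι E : Type*} [Group G] [Group H] [MeasurableSpace H] [Fintype ι]
    [NormedAddCommGroup E] [NormedSpace ℝ E]

/-- measurable uniform quasi-isometric embeddings of the model -/
structure QI (M : CapModel G H ι E) (K : ℝ) (Ψ : G → G) : Prop where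
  one_le : 1 ≤ K
  up : ∀ P Q, M.dst (Ψ P) (Ψ Q) ≤ K * M.dst P Q + K
  low : ∀ P Q, M.dst P Q ≤ K * M.dst (Ψ P) (Ψ Q) + K
  meas : ∀ (x g : G) (T : Set G), MeasurableSet {n | Ψ (x * M.emb n * g) ∈ T}

/-- maximal separated sets -/
theorem exists_maxsep {α : Type*} [DecidableEq α] (d : α → α → ℝ) (hd : ∀ x, d x x = 0)
    (hds : ∀ x y, d x y = d y x) {r : ℝ} (hr : 0 ≤ r) (S : Set α) (B : ℕ)
    (hB : ∀ F : Finset α, (∀ x ∈ F, x ∈ S) → (∀ x ∈ F, ∀ y ∈ F, x ≠ y → r < d x y) → F.card ≤ B) :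
    ∃ F : Finset α, (∀ x ∈ F, x ∈ S) ∧ (∀ x ∈ F, ∀ y ∈ F, x ≠ y → r < d x y) ∧
      ∀ x ∈ S, ∃ y ∈ F, d y x ≤ r := by
  classical
  let P : ℕ → Prop := fun n => ∃ F : Finset α, (∀ x ∈ F, x ∈ S) ∧
    (∀ x ∈ F, ∀ y ∈ F, x ≠ y → r < d x y) ∧ F.card = n
  have h0 : P 0 := ⟨∅, by simp, by simp, rfl⟩
  have hbd : ∀ n, P n → n ≤ B := by
    rintro n ⟨F, h1, h2, rfl⟩; exact hB F h1 h2
  obtain ⟨F, h1, h2, h3⟩ := Nat.findGreatest_spec (P := P) (Nat.zero_le B) h0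
  refine ⟨F, h1, h2, fun x hx => ?_⟩
  by_contra hcon
  push Not at hcon
  have hxF : x ∉ F := fun h => by
    have := hcon x h
    rw [hd] at this
    linarith
  have h4 : P (F.card + 1) := by
    refine ⟨insert x F, ?_, ?_, Finset.card_insert_of_notMem hxF⟩
    · intro y hy
      rcases Finset.mem_insert.1 hy with rfl | hy
      · exact hx
      · exact h1 y hy
    · intro y hy y' hy' hne
      rcases Finset.mem_insert.1 hy with e1 | k1
      · rcases Finset.mem_insert.1 hy' with e2 | k2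
        · exact absurd (e1.trans e2.symm) hne
        · rw [hds, e1]; exact hcon y' k2
      · rcases Finset.mem_insert.1 hy' with e2 | k2
        · rw [e2]; exact hcon y k1
        · exact h2 y k1 y' k2 hne
  have h5 := Nat.le_findGreatest (P := P) (hbd _ h4) h4
  rw [← h3] at h5
  omega

namespace CapModel

variable {M : CapModel G H ι E}

/-- counting to volume -/
theorem vol_le_of_card {K : ℝ} (hK : 1 ≤ K) {s₀ : ℝ} (hs₀ : 0 < s₀) :
    ∃ C : ℝ, 0 < C ∧ ∀ Ψ : G → G, QI M K Ψ →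
    ∀ (x : G) (S : Set H) (B : ℝ), 0 ≤ B →
    (∀ F : Finset G, (∀ y ∈ F, ∃ n ∈ S, Ψ (x * M.emb n) = y) →
      (∀ y ∈ F, ∀ z ∈ F, y ≠ z → s₀ < M.dst y z) → (F.card : ℝ) ≤ B) →
    M.μ S ≤ ENNReal.ofReal (C * B) := by
  classical
  obtain ⟨C, hC, hball⟩ := M.ball_le (K * (s₀ + 1))
  refine ⟨C, hC, ?_⟩
  intro Ψ hΨ x S B hB0 hB
  have himg : ∀ n n' : H, K * (s₀ + 1) < M.dst (x * M.emb n) (x * M.emb n') →
      s₀ < M.dst (Ψ (x * M.emb n)) (Ψ (x * M.emb n')) := by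
    intro n n' h
    have h1 := hΨ.low (x * M.emb n) (x * M.emb n')
    by_contra hcon
    push Not at hcon
    nlinarith
  obtain ⟨F, hF1, hF2, hF3⟩ := exists_maxsep (fun n n' : H => M.dst (x * M.emb n) (x * M.emb n'))
    (fun n => M.dst_self _) (fun n n' => M.dst_comm _ _) (r := K * (s₀ + 1)) (by positivity) S ⌊B⌋₊ (by
      intro F h1 h2
      apply Nat.le_floor
      have hinj : Set.InjOn (fun n => Ψ (x * M.emb n)) (F : Set H) := by
        intro n hn n' hn' h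
        by_contra hne
        have := himg n n' (h2 n hn n' hn' hne)
        simp only at h
        rw [h, M.dst_self] at this
        linarith
      rw [← Finset.card_image_of_injOn hinj]
      refine hB _ ?_ ?_
      · intro y hy
        obtain ⟨n, hn, rfl⟩ := Finset.mem_image.1 hy
        exact ⟨n, h1 n hn, rfl⟩
      · intro y hy z hz hne
        obtain ⟨n, hn, rfl⟩ := Finset.mem_image.1 hy
        obtain ⟨n', hn', rfl⟩ := Finset.mem_image.1 hz
        exact himg n n' (h2 n hn n' hn' (fun h => hne (by rw [h]))))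
  have hcard : (F.card : ℝ) ≤ B := by
    have hinj : Set.InjOn (fun n => Ψ (x * M.emb n)) (F : Set H) := by
      intro n hn n' hn' h
      by_contra hne
      have := himg n n' (hF2 n hn n' hn' hne)
      simp only at h
      rw [h, M.dst_self] at this
      linarith
    rw [← Finset.card_image_of_injOn hinj]
    refine hB _ ?_ ?_
    · intro y hy
      obtain ⟨n, hn, rfl⟩ := Finset.mem_image.1 hy
      exact ⟨n, hF1 n hn, rfl⟩
    · intro y hy z hz hne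
      obtain ⟨n, hn, rfl⟩ := Finset.mem_image.1 hy
      obtain ⟨n', hn', rfl⟩ := Finset.mem_image.1 hz
      exact himg n n' (hF2 n hn n' hn' (fun h => hne (by rw [h])))
  have hcov : S ⊆ ⋃ n ∈ F, {n' | M.len ((M.emb n)⁻¹ * M.emb n') ≤ K * (s₀ + 1)} := by
    intro n' hn'
    obtain ⟨n, hn, h⟩ := hF3 n' hn'
    simp only [Set.mem_iUnion]
    refine ⟨n, hn, ?_⟩
    simp only [dst_mul_left] at h
    exact h
  calc M.μ S ≤ M.μ (⋃ n ∈ F, {n' | M.len ((M.emb n)⁻¹ * M.emb n') ≤ K * (s₀ + 1)}) := measure_mono hcov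
    _ ≤ ∑ n ∈ F, M.μ {n' | M.len ((M.emb n)⁻¹ * M.emb n') ≤ K * (s₀ + 1)} :=
        measure_biUnion_finset_le _ _
    _ ≤ ∑ n ∈ F, ENNReal.ofReal C := Finset.sum_le_sum fun n _ => hball _
    _ = ENNReal.ofReal (C * F.card) := by
        rw [Finset.sum_const, nsmul_eq_mul, mul_comm C, ENNReal.ofReal_mul (Nat.cast_nonneg _),
          ENNReal.ofReal_natCast]
    _ ≤ ENNReal.ofReal (C * B) := by
        apply ENNReal.ofReal_le_ofReal
        exact mul_le_mul_of_nonneg_left hcard hC.le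

/-- **volume upper bound**, heights relative to the image of the base point. -/
theorem vol_le_reach (hR : M.Reach) {K : ℝ} (hK : 1 ≤ K) : ∃ (C : ℝ) (D : ℕ), 0 < C ∧
    ∀ Ψ : G → G, QI M K Ψ → ∀ (x : G) (S : Set H) (P : G) (Z : ι → ℝ) (m : ℕ),
    (∀ i, 0 ≤ Z i) → 1 ≤ m →
    (∀ n ∈ S, M.Conn (fun i => M.S.l i (M.hgt P) + Z i) m P (Ψ (x * M.emb n))) →
    M.μ S ≤ ENNReal.ofReal (C * (m : ℝ) ^ D * Real.exp (M.S.Gt Z)) := by
  classical
  obtain ⟨s₀, C, D, hs₀, hC, hReach⟩ := hR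
  obtain ⟨C', hC', hvol⟩ := vol_le_of_card (M := M) hK hs₀
  refine ⟨C' * C, D, by positivity, ?_⟩
  intro Ψ hΨ x S P Z m hZ hm hconn
  have h1 := hvol Ψ hΨ x S (C * (m : ℝ) ^ D * Real.exp (M.S.Gt Z)) (by positivity) ?_
  · refine h1.trans (le_of_eq ?_)
    congr 1; ring
  · intro F hF1 hF2
    have hinj : Set.InjOn (fun y => P⁻¹ * y) (F : Set G) := fun y _ z _ h => mul_left_cancel h
    rw [← Finset.card_image_of_injOn hinj]
    refine hReach Z hZ m hm _ ?_ ?_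
    · intro y hy
      obtain ⟨y0, hy0, rfl⟩ := Finset.mem_image.1 hy
      obtain ⟨n, hn, rfl⟩ := hF1 y0 hy0
      have h2 := (hconn n hn).mul_left P⁻¹
      rw [inv_mul_cancel] at h2
      refine h2.mono fun i => ?_
      rw [M.hgt_inv, map_neg]; linarith
    · intro y hy z hz hne
      obtain ⟨y0, hy0, rfl⟩ := Finset.mem_image.1 hy
      obtain ⟨z0, hz0, rfl⟩ := Finset.mem_image.1 hz
      simp only [dst_mul_left]
      exact hF2 y0 hy0 z0 hz0 (fun h => hne (by rw [h]))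

/-- **slab volume upper bound**. -/
theorem vol_le_slab (hR : M.Reach) {K : ℝ} (hK : 1 ≤ K) {i : ι} (hi : M.S.NZ i) :
    ∃ (C : ℝ) (D : ℕ), 0 < C ∧
    ∀ Ψ : G → G, QI M K Ψ → ∀ (x : G) (S : Set H) (P : G) (Z : ι → ℝ) (m : ℕ) (v : E) (Y : ℝ),
    (∀ j, 0 ≤ Z j) → 1 ≤ m → (∀ j, M.S.l j v ≤ Z j) → ‖v‖ ≤ m → 0 ≤ Y →
    (∀ n ∈ S, M.Conn (fun j => M.S.l j (M.hgt P) + Z j) m P (Ψ (x * M.emb n))) →
    (∀ n ∈ S, M.S.l i (M.hgt (Ψ (x * M.emb n))) ≤ M.S.l i (M.hgt P) + Y) →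
    (∀ n ∈ S, ‖M.δ i (Ψ (x * M.emb n)) - M.δ i P‖ ≤ Real.exp (M.S.l i (M.hgt P) + Y)) →
    M.μ S ≤ ENNReal.ofReal
      (C * (m : ℝ) ^ D * Real.exp (M.S.Gt Z - (M.S.l i v - Y))) := by
  classical
  obtain ⟨s₀, C, D, hs₀, hC, hslab⟩ := slab hR hi
  obtain ⟨C', hC', hvol⟩ := vol_le_of_card (M := M) hK hs₀
  refine ⟨C' * C, D, by positivity, ?_⟩
  intro Ψ hΨ x S P Z m v Y hZ hm hv hvm hY hconn hh hδ
  have h1 := hvol Ψ hΨ x S (C * (m : ℝ) ^ D * Real.exp (M.S.Gt Z - (M.S.l i v - Y)))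
    (by positivity) ?_
  · refine h1.trans (le_of_eq ?_)
    congr 1; ring
  · intro F hF1 hF2
    have hinj : Set.InjOn (fun y => P⁻¹ * y) (F : Set G) := fun y _ z _ h => mul_left_cancel h
    rw [← Finset.card_image_of_injOn hinj]
    refine hslab Z hZ m hm v hv hvm Y hY _ ?_ ?_ ?_ ?_
    · intro y hy
      obtain ⟨y0, hy0, rfl⟩ := Finset.mem_image.1 hy
      obtain ⟨n, hn, rfl⟩ := hF1 y0 hy0
      have h2 := (hconn n hn).mul_left P⁻¹
      rw [inv_mul_cancel] at h2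
      refine h2.mono fun j => ?_
      rw [M.hgt_inv, map_neg]; linarith
    · intro y hy
      obtain ⟨y0, hy0, rfl⟩ := Finset.mem_image.1 hy
      obtain ⟨n, hn, rfl⟩ := hF1 y0 hy0
      rw [M.hgt_mul, M.hgt_inv, map_add, map_neg]
      linarith [hh n hn]
    · intro y hy
      obtain ⟨y0, hy0, rfl⟩ := Finset.mem_image.1 hy
      obtain ⟨n, hn, rfl⟩ := hF1 y0 hy0
      rw [M.norm_δ_inv_mul hi]
      calc _ ≤ Real.exp (- M.S.l i (M.hgt P)) * Real.exp (M.S.l i (M.hgt P) + Y) := by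
            gcongr; exact hδ n hn
        _ = Real.exp Y := by rw [← Real.exp_add]; congr 1; ring
    · intro y hy z hz hne
      obtain ⟨y0, hy0, rfl⟩ := Finset.mem_image.1 hy
      obtain ⟨z0, hz0, rfl⟩ := Finset.mem_image.1 hz
      simp only [dst_mul_left]
      exact hF2 y0 hy0 z0 hz0 (fun h => hne (by rw [h]))

/-! ### moves -/

/-- one move of the walk -/
theorem conn_move {K : ℝ} {Ψ : G → G} (hΨ : QI M K Ψ) {p : G} {u : H} {d : ℕ → G} {r : ℕ}
    {s : ℝ} (hd0 : d 0 = 1) (hd : ∀ j < r, M.dst (d j) (d (j + 1)) ≤ s)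
    (hu : M.len (M.emb u) ≤ s) {m0 : ℕ} (hm0 : M.C0 * (K * s + K + 1) ≤ m0) {Z : ι → ℝ}
    (hZ : ∀ j ≤ r, ∀ i, M.S.l i (M.hgt (Ψ (p * d j))) + M.C0 ^ 4 * (K * s + K + 1) ≤ Z i)
    (hZ' : ∀ j ≤ r, ∀ i, M.S.l i (M.hgt (Ψ (p * M.emb (M.cj (d r) u) * d j)))
      + M.C0 ^ 4 * (K * s + K + 1) ≤ Z i) :
    M.Conn Z ((2 * r + 1) * m0) (Ψ p) (Ψ (p * M.emb (M.cj (d r) u))) := by
  have hs0 : 0 ≤ s := (M.len_nonneg _).trans hu
  have hK := hΨ.one_le
  have hstep : ∀ P Q, M.dst P Q ≤ s → M.dst (Ψ P) (Ψ Q) ≤ K * s + K := by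
    intro P Q h
    have := hΨ.up P Q
    nlinarith
  have c1 := conn_of_seq (M := M) (Z := Z) (s := K * s + K) (m0 := m0) hm0
    (fun j => Ψ (p * d j)) r (fun j hj => hstep _ _ (by rw [dst_mul_left]; exact hd j hj))
    (by nlinarith) (fun j hj i => hZ j hj i)
  have c3 := conn_of_seq (M := M) (Z := Z) (s := K * s + K) (m0 := m0) hm0
    (fun j => Ψ (p * M.emb (M.cj (d r) u) * d j)) r
    (fun j hj => hstep _ _ (by rw [dst_mul_left]; exact hd j hj))
    (by nlinarith) (fun j hj i => hZ' j hj i)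
  have e : p * M.emb (M.cj (d r) u) * d r = p * d r * M.emb u := by
    rw [M.emb_cj]; group
  have c2 : M.Conn Z m0 (Ψ (p * d r)) (Ψ (p * M.emb (M.cj (d r) u) * d r)) := by
    refine conn_of_dst (s := K * s + K) ?_ hm0 (hZ r le_rfl)
    rw [e]
    apply hstep
    unfold dst; rw [inv_mul_cancel_left]; exact hu
  simp only [hd0, mul_one] at c1 c3
  have c4 := (c1.trans c2).trans c3.symm
  have e2 : (2 * r + 1) * m0 = r * m0 + m0 + r * m0 := by ring
  rw [e2]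
  exact c4

end CapModel

end Crest.Agent.R182.Cap
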