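/-
R182, module CAP (helper710): walks, the capacity inequality.
-/
import Crest.Agent.R182.CapVol

set_option autoImplicit false
set_option linter.unusedSectionVars false

namespace Crest.Agent.R182.Cap

open MeasureTheory

variable {G H ι E : Type*} [Group G] [Group H] [MeasurableSpace H] [MeasurableMul₂ H]
    [MeasurableInv H] [Fintype ι] [NormedAddCommGroup E] [NormedSpace ℝ E]

namespace CapModel

section cj

variable (M : CapModel G H ι E)

theorem cj_mul (g g' : G) (n : H) : M.cj (g * g') n = M.cj g (M.cj g' n) := by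
  apply M.emb_inj
  rw [M.emb_cj, M.emb_cj, M.emb_cj]; group

theorem cj_one (n : H) : M.cj 1 n = n := by
  apply M.emb_inj
  rw [M.emb_cj]; group

theorem cj_inv_cj (g : G) (n : H) : M.cj g⁻¹ (M.cj g n) = n := by
  rw [← M.cj_mul, inv_mul_cancel, M.cj_one]

theorem cj_cj_inv (g : G) (n : H) : M.cj g (M.cj g⁻¹ n) = n := by
  rw [← M.cj_mul, mul_inv_cancel, M.cj_one]

/-- base change -/
theorem mul_emb_mul (x g : G) (n : H) : x * M.emb n * g = x * g * M.emb (M.cj g⁻¹ n) := by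
  rw [M.emb_cj]; group

instance : M.μ.IsMulRightInvariant := ⟨M.mul_right⟩

instance : M.μ.IsMulLeftInvariant := ⟨M.mul_left⟩

theorem μ_cj_image (g : G) (S : Set H) : M.μ (M.cj g ⁻¹' S) = M.μ S := by
  have h1 : ∀ g : G, ∀ S : Set H, M.μ (M.cj g ⁻¹' S) ≤ M.μ S := by
    intro g S
    calc M.μ (M.cj g ⁻¹' S) ≤ M.μ (M.cj g ⁻¹' (toMeasurable M.μ S)) :=
          measure_mono (Set.preimage_mono (subset_toMeasurable _ _))
      _ = (Measure.map (M.cj g) M.μ) (toMeasurable M.μ S) :=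
          (Measure.map_apply (M.cj_meas g) (measurableSet_toMeasurable _ _)).symm
      _ = M.μ S := by rw [M.cj_map, measure_toMeasurable]
  refine le_antisymm (h1 g S) ?_
  have h2 := h1 g⁻¹ (M.cj g ⁻¹' S)
  have e : M.cj g⁻¹ ⁻¹' (M.cj g ⁻¹' S) = S := by
    ext n
    simp only [Set.mem_preimage, M.cj_cj_inv]
  rwa [e] at h2

end cj

variable {M : CapModel G H ι E}

/-! ### walks -/

theorem wk_left (φ : ℕ → H → H) (q : H) (ω : ℕ → H × H) (j : ℕ) :
    Star.wk φ q ω j = q * Star.wk φ 1 ω j := by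
  induction j with
  | zero => simp [Star.wk]
  | succ j ih => simp only [Star.wk]; rw [ih]; group

theorem wk_conj (M : CapModel G H ι E) (g : G) (c : ℕ → G) (q : H) (ω : ℕ → H × H) (j : ℕ) :
    Star.wk (fun j => M.cj (g * c j)) q ω j =
      M.cj g (Star.wk (fun j => M.cj (c j)) (M.cj g⁻¹ q) ω j) := by
  induction j with
  | zero => simp only [Star.wk]; rw [M.cj_cj_inv]
  | succ j ih =>
    simp only [Star.wk]
    rw [ih, map_mul, map_mul, map_inv, M.cj_mul, M.cj_mul]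

theorem wk_congr {φ φ' : ℕ → H → H} (q : H) {ω ω' : ℕ → H × H} {L : ℕ}
    (hφ : ∀ j < L, φ j = φ' j) (hω : ∀ j < L, ω j = ω' j) :
    Star.wk φ q ω L = Star.wk φ' q ω' L := by
  induction L with
  | zero => rfl
  | succ L ih =>
    simp only [Star.wk]
    rw [ih (fun j hj => hφ j (by omega)) (fun j hj => hω j (by omega)), hφ L (Nat.lt_succ_self L),
      hω L (Nat.lt_succ_self L)]

/-- all increments lie in `V` almost surely. -/
theorem ae_pi_mem_V (M : CapModel G H ι E) (L : ℕ) :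
    ∀ᵐ ω ∂(Measure.pi fun _ : Fin L => M.ν.prod M.ν), ∀ j : Fin L, (ω j).1 ∈ M.V ∧ (ω j).2 ∈ M.V := by
  rw [ae_all_iff]
  intro j
  have h1 : ∀ᵐ p ∂(M.ν.prod M.ν), p.1 ∈ M.V ∧ p.2 ∈ M.V := by
    have h2 : ∀ᵐ p ∂(M.ν.prod M.ν), p.1 ∈ M.V :=
      Measure.quasiMeasurePreserving_fst.ae M.ae_mem_V
    have h3 : ∀ᵐ p ∂(M.ν.prod M.ν), p.2 ∈ M.V :=
      Measure.quasiMeasurePreserving_snd.ae M.ae_mem_V
    filter_upwards [h2, h3] with p hp hp' using ⟨hp, hp'⟩
  exact (Measure.quasiMeasurePreserving_eval (μ := fun _ : Fin L => M.ν.prod M.ν) j).ae h1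

/-- the image of a walk is connected at bounded height. -/
theorem conn_walk {K : ℝ} {Ψ : G → G} (hΨ : QI M K Ψ) {x : G} {c : ℕ → G} {d : ℕ → ℕ → G} {r : ℕ}
    {s : ℝ} (hd0 : ∀ k, d k 0 = 1) (hdr : ∀ k, d k r = c k)
    (hd : ∀ k, ∀ j < r, M.dst (d k j) (d k (j + 1)) ≤ s) (hs : 2 * M.C0 ≤ s)
    {m0 : ℕ} (hm0 : M.C0 * (K * s + K + 1) ≤ m0) {Z : ι → ℝ} {q : H} {ω : ℕ → H × H}
    (L : ℕ) (hω : ∀ j < L, (ω j).1 ∈ M.V ∧ (ω j).2 ∈ M.V)
    (hq : ∀ i, M.S.l i (M.hgt (Ψ (x * M.emb q))) ≤ Z i)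
    (hZ : ∀ j < L, ∀ t ≤ r, ∀ i, M.S.l i (M.hgt (Ψ (x * M.emb
      (Star.wk (fun j => M.cj (c j)) q ω j) * d j t))) + M.C0 ^ 4 * (K * s + K + 1) ≤ Z i)
    (hZ' : ∀ j < L, ∀ t ≤ r, ∀ i, M.S.l i (M.hgt (Ψ (x * M.emb
      (Star.wk (fun j => M.cj (c j)) q ω (j + 1)) * d j t))) + M.C0 ^ 4 * (K * s + K + 1) ≤ Z i) :
    M.Conn Z (L * ((2 * r + 1) * m0)) (Ψ (x * M.emb q))
      (Ψ (x * M.emb (Star.wk (fun j => M.cj (c j)) q ω L))) := by
  induction L with
  | zero =>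
    rw [zero_mul]
    exact Conn.refl 0 hq
  | succ L ih =>
    have h1 := ih (fun j hj => hω j (by omega)) (fun j hj => hZ j (by omega))
      (fun j hj => hZ' j (by omega))
    rw [Nat.succ_mul]
    refine h1.trans ?_
    set p := Star.wk (fun j => M.cj (c j)) q ω L with hp
    have e : Star.wk (fun j => M.cj (c j)) q ω (L + 1) =
        p * M.cj (d L r) ((ω L).1⁻¹ * (ω L).2) := by
      simp only [Star.wk]
      rw [← hp, map_mul, map_inv, hdr]; group
    have e2 : x * M.emb (Star.wk (fun j => M.cj (c j)) q ω (L + 1)) =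
        x * M.emb p * M.emb (M.cj (d L r) ((ω L).1⁻¹ * (ω L).2)) := by
      rw [e, map_mul]; group
    have hu : M.len (M.emb ((ω L).1⁻¹ * (ω L).2)) ≤ s := by
      rw [map_mul, map_inv]
      refine (M.len_mul _ _).trans ?_
      rw [M.len_inv]
      have h2 := hω L (Nat.lt_succ_self L)
      linarith [M.V_le _ h2.1, M.V_le _ h2.2]
    rw [e2]
    refine conn_move hΨ (hd0 L) (hd L) hu hm0 (hZ L (Nat.lt_succ_self L)) ?_
    have h3 := hZ' L (Nat.lt_succ_self L)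
    rwa [e2] at h3

/-! ### lower bound -/

theorem ent_vol {κ C : ℝ} {D m : ℕ} (hκ : 0 < κ) (hC : 0 < C) (hm : 1 ≤ m) {T : ℝ} {S : Set H}
    {c : ℝ} (hc : 0 < c)
    (h : ENNReal.ofReal c ≤ ENNReal.ofReal (C * (m : ℝ) ^ D) *
      (M.μ S * ENNReal.ofReal (Real.exp (- T))) ^ κ) :
    ENNReal.ofReal (Real.exp T * (c / (C * (m : ℝ) ^ D)) ^ κ⁻¹) ≤ M.μ S := by
  have hmR : (1 : ℝ) ≤ m := by exact_mod_cast hm
  have hB : 0 < C * (m : ℝ) ^ D := by positivity
  set X := M.μ S * ENNReal.ofReal (Real.exp (- T)) with hX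
  have h1 : ENNReal.ofReal (c / (C * (m : ℝ) ^ D)) ≤ X ^ κ := by
    rw [ENNReal.ofReal_div_of_pos hB]
    refine ENNReal.div_le_of_le_mul ?_
    rwa [mul_comm]
  have h2 : ENNReal.ofReal ((c / (C * (m : ℝ) ^ D)) ^ κ⁻¹) ≤ X := by
    rw [← ENNReal.ofReal_rpow_of_pos (by positivity)]
    have h3 := ENNReal.rpow_le_rpow h1 (inv_nonneg.2 hκ.le)
    rwa [← ENNReal.rpow_mul, mul_inv_cancel₀ hκ.ne', ENNReal.rpow_one] at h3
  rw [ENNReal.ofReal_mul (Real.exp_pos _).le]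
  calc ENNReal.ofReal (Real.exp T) * ENNReal.ofReal ((c / (C * (m : ℝ) ^ D)) ^ κ⁻¹)
      ≤ ENNReal.ofReal (Real.exp T) * X := by gcongr
    _ = M.μ S * (ENNReal.ofReal (Real.exp T) * ENNReal.ofReal (Real.exp (-T))) := by
        rw [hX]; ring
    _ = M.μ S := by
        rw [← ENNReal.ofReal_mul (Real.exp_pos _).le, ← Real.exp_add, add_neg_cancel,
          Real.exp_zero, ENNReal.ofReal_one, mul_one]

/-- from a power law and an upper bound for the volume to an inequality of exponents. -/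
theorem exponent_le {κ C C' A : ℝ} {D D' m m' : ℕ} (hκ : 0 < κ) (hC : 0 < C) (hC' : 0 < C')
    (hm : 1 ≤ m) (hm' : 1 ≤ m') {T T' : ℝ} {S : Set H} {c : ℝ} (hc : 0 < c)
    (hA : κ⁻¹ * (|Real.log C| + D * Real.log m) + |Real.log C'| + D' * Real.log m' ≤ A)
    (h : ENNReal.ofReal c ≤ ENNReal.ofReal (C * (m : ℝ) ^ D) *
      (M.μ S * ENNReal.ofReal (Real.exp (- T))) ^ κ)
    (h' : M.μ S ≤ ENNReal.ofReal (C' * (m' : ℝ) ^ D' * Real.exp T')) :
    T ≤ T' + A + κ⁻¹ * Real.log c⁻¹ := by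
  have hmR : (1 : ℝ) ≤ m := by exact_mod_cast hm
  have hmR' : (1 : ℝ) ≤ m' := by exact_mod_cast hm'
  have h1 := (ent_vol hκ hC hm hc h).trans h'
  have hB : 0 < C * (m : ℝ) ^ D := by positivity
  have hpos : 0 < (c / (C * (m : ℝ) ^ D)) ^ κ⁻¹ := Real.rpow_pos_of_pos (by positivity) _
  rw [ENNReal.ofReal_le_ofReal_iff (by positivity)] at h1
  have h2 := Real.log_le_log (by positivity) h1
  rw [Real.log_mul (Real.exp_pos _).ne' hpos.ne', Real.log_exp, Real.log_rpow (by positivity),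
    Real.log_div hc.ne' hB.ne', Real.log_mul hC.ne' (by positivity), Real.log_pow,
    Real.log_mul (by positivity) (Real.exp_pos _).ne', Real.log_exp,
    Real.log_mul hC'.ne' (by positivity), Real.log_pow] at h2
  rw [Real.log_inv]
  have h3 := le_abs_self (Real.log C)
  have h4 := le_abs_self (Real.log C')
  have h5 : 0 < κ⁻¹ := inv_pos.2 hκ
  have h6 : κ⁻¹ * (Real.log C + D * Real.log m) ≤ κ⁻¹ * (|Real.log C| + D * Real.log m) := by
    gcongr
  nlinarith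

end CapModel

end Crest.Agent.R182.Cap
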