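/-
R182, module CAP (helper710): the capacity inequality for a quasi-isometry.
-/
import Crest.Agent.R182.CapWalk

set_option autoImplicit false
set_option linter.unusedSectionVars false

namespace Crest.Agent.R182.Cap

open MeasureTheory

variable {G H ι E : Type*} [Group G] [Group H] [MeasurableSpace H] [MeasurableMul₂ H]
    [MeasurableInv H] [Fintype ι] [NormedAddCommGroup E] [NormedSpace ℝ E]

namespace CapModel

variable {M : CapModel G H ι E}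

/-- the data of a star of vertical chains: `d k` is a chain of `r` steps of length `≤ s` from `1` to
`c k`, the `c k` (`k ≤ q`) are verticals of length `≤ m`, `c 0 = 1`. -/
structure StarData (M : CapModel G H ι E) (q r m : ℕ) (s : ℝ) (c : ℕ → G) (d : ℕ → ℕ → G) :
    Prop where
  one_le : 1 ≤ m
  c_zero : c 0 = 1
  c_mem : ∀ k ≤ q, c k ∈ M.Cl m
  d_zero : ∀ k, d k 0 = 1
  d_end : ∀ k, d k r = c k
  step : ∀ k, ∀ j < r, M.dst (d k j) (d k (j + 1)) ≤ s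
  le_s : 2 * M.C0 ≤ s
  r_le : r ≤ m
  s_le : s ≤ m

/-- the number of steps in the image of a walk -/
theorem steps_le {C0 K s : ℝ} {L r m : ℕ} (hC0 : 1 ≤ C0) (hK : 1 ≤ K) (hm : 1 ≤ m) (hr : r ≤ m)
    (hs : s ≤ m) :
    L * ((2 * r + 1) * ⌈C0 * (K * s + K + 1)⌉₊) ≤ (3 * (L + 1) * ⌈4 * C0 * K⌉₊) * m ^ 2 := by
  have hmR : (1 : ℝ) ≤ m := by exact_mod_cast hm
  have h1 : ⌈C0 * (K * s + K + 1)⌉₊ ≤ ⌈4 * C0 * K⌉₊ * m := by
    apply Nat.ceil_le.2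
    push_cast
    have h2 : C0 * (K * s + K + 1) ≤ C0 * (4 * K * m) := by
      have h3 : K * s ≤ K * m := by gcongr
      have h4 : K ≤ K * m := by nlinarith
      gcongr
      nlinarith
    calc C0 * (K * s + K + 1) ≤ C0 * (4 * K * m) := h2
      _ = 4 * C0 * K * m := by ring
      _ ≤ ⌈4 * C0 * K⌉₊ * m := by gcongr; exact Nat.le_ceil _
  calc L * ((2 * r + 1) * ⌈C0 * (K * s + K + 1)⌉₊)
      ≤ (L + 1) * ((3 * m) * (⌈4 * C0 * K⌉₊ * m)) := by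
        gcongr
        · omega
        · omega
    _ = (3 * (L + 1) * ⌈4 * C0 * K⌉₊) * m ^ 2 := by ring

/-- **connectedness along the walk**, at a general base vertex `g0`. -/
theorem conn_walk' {K : ℝ} {Ψ : G → G} (hΨ : QI M K Ψ) {q r m : ℕ} {s : ℝ} {c : ℕ → G}
    {d : ℕ → ℕ → G} (hst : StarData M q r m s c d) {x : G} {ω : ℕ → H × H} (L : ℕ)
    (hω : ∀ j < L, (ω j).1 ∈ M.V ∧ (ω j).2 ∈ M.V) {Z : ι → ℝ}
    (hL : 1 ≤ L)
    (hZ : ∀ j < L, ∀ t ≤ r, ∀ i, M.S.l i (M.hgt (Ψ (x * M.emb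
      (Star.wk (M.mv c q) 1 ω j) * d (j % (q + 1)) t))) + M.C0 ^ 4 * (K * s + K + 1) ≤ Z i)
    (hZ' : ∀ j < L, ∀ t ≤ r, ∀ i, M.S.l i (M.hgt (Ψ (x * M.emb
      (Star.wk (M.mv c q) 1 ω (j + 1)) * d (j % (q + 1)) t)))
        + M.C0 ^ 4 * (K * s + K + 1) ≤ Z i) :
    M.Conn Z ((3 * (L + 1) * ⌈4 * M.C0 * K⌉₊) * m ^ 2) (Ψ x)
      (Ψ (x * M.emb (Star.wk (M.mv c q) 1 ω L))) := by
  have hs0 : 0 ≤ s := le_trans (by have := M.C0_pos; linarith) hst.le_s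
  have h1 := conn_walk (M := M) hΨ (x := x) (c := fun j => c (j % (q + 1)))
    (d := fun j => d (j % (q + 1))) (r := r) (s := s) (fun k => hst.d_zero _)
    (fun k => hst.d_end _) (fun k => hst.step _) hst.le_s (Nat.le_ceil _) (Z := Z) (q := 1)
    (ω := ω) L hω (by
      intro i
      have h2 := hZ 0 (by omega) 0 (Nat.zero_le _) i
      simp only [Star.wk, hst.d_zero, mul_one] at h2
      have : 0 ≤ M.C0 ^ 4 * (K * s + K + 1) := by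
        have := M.C0_pos; have := hΨ.one_le
        positivity
      linarith) hZ hZ'
  rw [map_one, mul_one] at h1
  exact h1.extend (steps_le M.one_le_C0 hΨ.one_le hst.one_le hst.r_le hst.s_le)

/-- **CAP** at the base vertex `1` starting at `1`. -/
theorem cap_one (hR : M.Reach) (hE : M.Ent) {K : ℝ} (hK : 1 ≤ K) (q : ℕ) : ∃ L0 : ℕ, ∀ L ≥ L0,
    ∃ A : ℝ, 0 ≤ A ∧ ∀ Ψ : G → G, QI M K Ψ → ∀ (r m : ℕ) (s : ℝ) (c : ℕ → G) (d : ℕ → ℕ → G),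
    StarData M q r m s c d → ∀ Zs Zt : ι → ℝ, (∀ i, 0 ≤ Zs i) → (∀ i, 0 ≤ Zt i) →
    (∀ i, ∃ j ≤ q, Zs i ≤ max 0 (M.S.l i (M.hgt (c j)))) →
    ∀ (x : G) (Ω : Set (Fin L → H × H)) (η : ℝ), 0 < η →
    ENNReal.ofReal η ≤ (Measure.pi fun _ : Fin L => M.ν.prod M.ν) Ω →
    (∀ ω ∈ Ω, ∀ j < L, ∀ t ≤ r, ∀ i, M.S.l i (M.hgt (Ψ (x * M.emb
      (Star.wk (M.mv c q) 1 (Star.extω ω) j) * d (j % (q + 1)) t))) ≤
        M.S.l i (M.hgt (Ψ x)) + Zt i) →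
    (∀ ω ∈ Ω, ∀ j < L, ∀ t ≤ r, ∀ i, M.S.l i (M.hgt (Ψ (x * M.emb
      (Star.wk (M.mv c q) 1 (Star.extω ω) (j + 1)) * d (j % (q + 1)) t))) ≤
        M.S.l i (M.hgt (Ψ x)) + Zt i) →
    M.S.Gt Zs ≤ M.S.Gt Zt + A * (s + 1) + A * Real.log m + A * |Real.log η| := by
  obtain ⟨L0, hL0⟩ := hE q
  refine ⟨L0 + 1, fun L hL => ?_⟩
  obtain ⟨κ, C, D, hκ, hC, hent⟩ := hL0 L (by omega)
  obtain ⟨C', D', hC', hvol⟩ := vol_le_reach hR hK
  set k1 : ℕ := 3 * (L + 1) * ⌈4 * M.C0 * K⌉₊ with hk1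
  have hC0 := M.one_le_C0
  have hk1p : 1 ≤ k1 := by
    have : 1 ≤ ⌈4 * M.C0 * K⌉₊ := Nat.one_le_ceil_iff.2 (by positivity)
    rw [hk1]; nlinarith
  have hk1R : (1 : ℝ) ≤ k1 := by exact_mod_cast hk1p
  set A1 : ℝ := M.S.Lip * (M.C0 ^ 4 * (2 * K + 1)) with hA1
  set A2 : ℝ := κ⁻¹ * D + 2 * D' with hA2
  set A3 : ℝ := κ⁻¹ * |Real.log C| + |Real.log C'| + D' * Real.log k1 with hA3
  have hLip := M.S.Lip_nonneg
  have hA1p : 0 ≤ A1 := by positivity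
  have hA2p : 0 ≤ A2 := by positivity
  have hA3p : 0 ≤ A3 := by
    have : 0 ≤ Real.log k1 := Real.log_nonneg hk1R
    positivity
  refine ⟨A1 + A2 + A3 + κ⁻¹, by positivity, ?_⟩
  intro Ψ hΨ r m s c d hst Zs Zt hZs hZt hZc x Ω η hη hΩ h1 h2
  have hmR : (1 : ℝ) ≤ m := by exact_mod_cast hst.one_le
  have hs0 : 0 ≤ s := le_trans (by have := M.C0_pos; linarith) hst.le_s
  set C1 : ℝ := M.C0 ^ 4 * (K * s + K + 1) with hC1
  have hC1p : 0 ≤ C1 := by positivity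
  set m' : ℕ := k1 * m ^ 2 with hm'
  have hm'1 : 1 ≤ m' := by rw [hm']; exact Nat.mul_pos hk1p (pow_pos hst.one_le 2)
  set S : Set H := {n | M.Conn (fun i => M.S.l i (M.hgt (Ψ x)) + (Zt i + C1)) m' (Ψ x)
    (Ψ (x * M.emb n))} with hS
  have hSle : M.μ S ≤ ENNReal.ofReal (C' * (m' : ℝ) ^ D' *
      Real.exp (M.S.Gt fun i => Zt i + C1)) :=
    hvol Ψ hΨ x S (Ψ x) (fun i => Zt i + C1) m' (fun i => by linarith [hZt i]) hm'1
      (fun n hn => hn)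
  have hP : ENNReal.ofReal η ≤ (Measure.pi fun _ : Fin L => M.ν.prod M.ν)
      {ω | Star.wk (M.mv c q) 1 (Star.extω ω) L ∈ toMeasurable M.μ S} := by
    refine hΩ.trans (measure_mono_ae ?_)
    filter_upwards [ae_pi_mem_V M L] with ω hω hωΩ
    apply subset_toMeasurable
    refine conn_walk' hΨ hst L ?_ (by omega) ?_ ?_
    · intro j hj
      rw [Star.extω_of_lt ω hj]; exact hω ⟨j, hj⟩
    · intro j hj t ht i
      have := h1 ω hωΩ j hj t ht i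
      linarith
    · intro j hj t ht i
      have := h2 ω hωΩ j hj t ht i
      linarith
  have hE1 := hP.trans (hent m c hst.one_le hst.c_zero hst.c_mem Zs hZs hZc _
    (measurableSet_toMeasurable _ _))
  rw [measure_toMeasurable] at hE1
  have h3 := exponent_le (M := M) hκ hC hC' hst.one_le hm'1 hη le_rfl hE1 hSle
  have h4 : M.S.Gt (fun i => Zt i + C1) ≤ M.S.Gt Zt + M.S.Lip * C1 :=
    M.S.Gt_le_add hC1p fun i => le_rfl
  have h5 : M.S.Lip * C1 ≤ A1 * (s + 1) := by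
    rw [hA1, hC1]
    have h6 : K * s + K + 1 ≤ (2 * K + 1) * (s + 1) := by nlinarith
    calc M.S.Lip * (M.C0 ^ 4 * (K * s + K + 1)) ≤ M.S.Lip * (M.C0 ^ 4 * ((2 * K + 1) * (s + 1))) := by
          gcongr
      _ = _ := by ring
  have h6 : Real.log (m' : ℝ) = Real.log k1 + 2 * Real.log m := by
    rw [hm']
    push_cast
    rw [Real.log_mul (by positivity) (by positivity), Real.log_pow]
    push_cast; ring
  have hlm : 0 ≤ Real.log m := Real.log_nonneg hmR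
  have h7 : κ⁻¹ * (|Real.log C| + D * Real.log m) + |Real.log C'| + D' * Real.log m' =
      A3 + A2 * Real.log m := by
    rw [h6, hA2, hA3]; ring
  have h8 : κ⁻¹ * Real.log η⁻¹ ≤ κ⁻¹ * |Real.log η| := by
    rw [Real.log_inv]
    exact mul_le_mul_of_nonneg_left (neg_le_abs _) (inv_nonneg.2 hκ.le)
  have h9 := abs_nonneg (Real.log η)
  have hκ' : 0 < κ⁻¹ := inv_pos.2 hκ
  have h10 : A3 ≤ A3 * (s + 1) := by nlinarith
  rw [h7] at h3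
  have e1 : (A1 + A2 + A3 + κ⁻¹) * (s + 1) = A1 * (s + 1) + A3 * (s + 1) + (A2 + κ⁻¹) * (s + 1) := by
    ring
  have e2 : (A1 + A2 + A3 + κ⁻¹) * Real.log m = A2 * Real.log m + (A1 + A3 + κ⁻¹) * Real.log m := by
    ring
  have e3 : (A1 + A2 + A3 + κ⁻¹) * |Real.log η| = κ⁻¹ * |Real.log η| +
      (A1 + A2 + A3) * |Real.log η| := by ring
  have p1 : 0 ≤ (A2 + κ⁻¹) * (s + 1) := by positivity
  have p2 : 0 ≤ (A1 + A3 + κ⁻¹) * Real.log m := by positivity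
  have p3 : 0 ≤ (A1 + A2 + A3) * |Real.log η| := by positivity
  linarith

/-- **CAP**, general form: base vertex `g0`, starting point `n0`. -/
theorem cap (hR : M.Reach) (hE : M.Ent) {K : ℝ} (hK : 1 ≤ K) (q : ℕ) : ∃ L0 : ℕ, ∀ L ≥ L0,
    ∃ A : ℝ, 0 ≤ A ∧ ∀ Ψ : G → G, QI M K Ψ → ∀ (r m : ℕ) (s : ℝ) (c : ℕ → G) (d : ℕ → ℕ → G),
    StarData M q r m s c d → ∀ Zs Zt : ι → ℝ, (∀ i, 0 ≤ Zs i) → (∀ i, 0 ≤ Zt i) →
    (∀ i, ∃ j ≤ q, Zs i ≤ max 0 (M.S.l i (M.hgt (c j)))) →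
    ∀ (x g0 : G) (n0 : H) (Ω : Set (Fin L → H × H)) (η : ℝ), 0 < η →
    ENNReal.ofReal η ≤ (Measure.pi fun _ : Fin L => M.ν.prod M.ν) Ω →
    (∀ ω ∈ Ω, ∀ j < L, ∀ t ≤ r, ∀ i, M.S.l i (M.hgt (Ψ (x * M.emb
      (Star.wk (fun j => M.cj (g0 * c (j % (q + 1)))) n0 (Star.extω ω) j) * g0 *
        d (j % (q + 1)) t))) ≤ M.S.l i (M.hgt (Ψ (x * M.emb n0 * g0))) + Zt i) →
    (∀ ω ∈ Ω, ∀ j < L, ∀ t ≤ r, ∀ i, M.S.l i (M.hgt (Ψ (x * M.emb
      (Star.wk (fun j => M.cj (g0 * c (j % (q + 1)))) n0 (Star.extω ω) (j + 1)) * g0 *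
        d (j % (q + 1)) t))) ≤ M.S.l i (M.hgt (Ψ (x * M.emb n0 * g0))) + Zt i) →
    M.S.Gt Zs ≤ M.S.Gt Zt + A * (s + 1) + A * Real.log m + A * |Real.log η| := by
  obtain ⟨L0, hL0⟩ := cap_one hR hE hK q
  refine ⟨L0, fun L hL => ?_⟩
  obtain ⟨A, hA, hcap⟩ := hL0 L hL
  refine ⟨A, hA, ?_⟩
  intro Ψ hΨ r m s c d hst Zs Zt hZs hZt hZc x g0 n0 Ω η hη hΩ h1 h2
  have key : ∀ (ω : ℕ → H × H) (j : ℕ), x * M.emb
      (Star.wk (fun j => M.cj (g0 * c (j % (q + 1)))) n0 ω j) * g0 =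
      (x * M.emb n0 * g0) * M.emb (Star.wk (M.mv c q) 1 ω j) := by
    intro ω j
    rw [wk_conj M g0 (fun j => c (j % (q + 1))) n0 ω j, mul_emb_mul, cj_inv_cj,
      wk_left (fun j => M.cj (c (j % (q + 1)))) (M.cj g0⁻¹ n0) ω j, map_mul,
      M.mul_emb_mul x g0 n0]
    simp only [mul_assoc]
    rfl
  refine hcap Ψ hΨ r m s c d hst Zs Zt hZs hZt hZc (x * M.emb n0 * g0) Ω η hη hΩ ?_ ?_
  · intro ω hω j hj t ht i
    have := h1 ω hω j hj t ht i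
    rwa [key] at this
  · intro ω hω j hj t ht i
    have := h2 ω hω j hj t ht i
    rwa [key] at this

end CapModel

end Crest.Agent.R182.Cap
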