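/-
R182, module FACET (helper710): boxes in the source, drift of the base heights along a walk in a
class, `δ`-numbers along a walk.
-/
import Crest.Agent.R182.CapMain

set_option autoImplicit false
set_option linter.unusedSectionVars false

namespace Crest.Agent.R182.Facet

open MeasureTheory Cap CapModel

variable {G H ι E : Type*} [Group G] [Group H] [MeasurableSpace H] [MeasurableMul₂ H]
    [MeasurableInv H] [Fintype ι] [NormedAddCommGroup E] [NormedSpace ℝ E]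

section rd

variable (M : CapModel G H ι E)

theorem dst_rd (y : G) : M.dst (M.rd y) y ≤ M.C0 := M.rd_le y

/-- the rounding is a quasi-isometry -/
theorem rd_qi : QI M (2 * M.C0 + 1) M.rd where
  one_le := by have := M.C0_pos; linarith
  up := by
    intro P Q
    have h1 := M.dst_tri (M.rd P) P (M.rd Q)
    have h2 := M.dst_tri P Q (M.rd Q)
    have h3 := dst_rd M P
    have h4 := dst_rd M Q
    rw [M.dst_comm] at h4
    have h5 := M.dst_nonneg P Q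
    have := M.C0_pos
    nlinarith
  low := by
    intro P Q
    have h1 := M.dst_tri P (M.rd P) Q
    have h2 := M.dst_tri (M.rd P) (M.rd Q) Q
    have h3 := dst_rd M P
    rw [M.dst_comm] at h3
    have h4 := dst_rd M Q
    have h5 := M.dst_nonneg (M.rd P) (M.rd Q)
    have := M.C0_pos
    nlinarith
  meas := M.rd_meas

theorem l_rd (i : ι) (y : G) : |M.S.l i (M.hgt (M.rd y)) - M.S.l i (M.hgt y)| ≤ M.C0 ^ 3 := by
  have h := M.l_hgt_sub i y (M.rd y)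
  have h2 := dst_rd M y
  rw [M.dst_comm] at h2
  have h0 := M.C0_pos
  refine h.trans ?_
  calc M.C0 * (M.C0 * M.dst y (M.rd y)) ≤ M.C0 * (M.C0 * M.C0) := by gcongr
    _ = M.C0 ^ 3 := by ring

/-- the box of size `Z` in the source, seen from `x`. -/
def box (x : G) (Z : ι → ℝ) (m : ℕ) : Set H :=
  {n | M.Conn (fun j => M.S.l j (M.hgt (M.rd x)) + Z j) m (M.rd x) (M.rd (x * M.emb n))}

theorem measurableSet_box (x : G) (Z : ι → ℝ) (m : ℕ) : MeasurableSet (box M x Z m) := by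
  have := M.rd_meas x 1 {P | M.Conn (fun j => M.S.l j (M.hgt (M.rd x)) + Z j) m (M.rd x) P}
  simpa [box] using this

variable {M}

theorem vol_box (hR : M.Reach) : ∃ (C : ℝ) (D : ℕ), 0 < C ∧ ∀ (x : G) (Z : ι → ℝ) (m : ℕ),
    (∀ i, 0 ≤ Z i) → 1 ≤ m →
    M.μ (box M x Z m) ≤ ENNReal.ofReal (C * (m : ℝ) ^ D * Real.exp (M.S.Gt Z)) := by
  obtain ⟨C, D, hC, h⟩ := vol_le_reach hR (rd_qi M).one_le
  refine ⟨C, D, hC, fun x Z m hZ hm => ?_⟩
  exact h M.rd (rd_qi M) x (box M x Z m) (M.rd x) Z m hZ hm (fun n hn => hn)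

theorem box_mono {x : G} {Z Z' : ι → ℝ} {m m' : ℕ} (hZ : ∀ j, Z j ≤ Z' j) (hm : m ≤ m') :
    box M x Z m ⊆ box M x Z' m' := fun _ hn =>
  ((hn : M.Conn _ _ _ _).mono (fun j => by linarith [hZ j])).extend hm

/-- heights of the source chain, seen through the rounding -/
theorem l_rd_chain (i : ι) (x : G) (n : H) (g : G) {z : ℝ} (hz : M.S.l i (M.hgt g) ≤ z) :
    M.S.l i (M.hgt (M.rd (x * M.emb n * g))) ≤ M.S.l i (M.hgt (M.rd x)) + z + 2 * M.C0 ^ 3 := by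
  have h1 := (abs_le.1 (l_rd M i (x * M.emb n * g))).2
  have h2 := (abs_le.1 (l_rd M i x)).1
  rw [M.hgt_mul, M.hgt_mul, M.hgt_emb, add_zero, map_add] at h1
  linarith

/-- the constant for source boxes -/
def bc (M : CapModel G H ι E) (s : ℝ) : ℝ :=
  2 * M.C0 ^ 3 + M.C0 ^ 4 * ((2 * M.C0 + 1) * s + (2 * M.C0 + 1) + 1)

theorem walk_mem_box {q r m : ℕ} {s : ℝ} {c : ℕ → G} {d : ℕ → ℕ → G}
    (hst : StarData M q r m s c d) {Zs : ι → ℝ} (hZs : ∀ k ≤ q, ∀ t ≤ r, ∀ i,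
      M.S.l i (M.hgt (d k t)) ≤ Zs i) (x : G) {ω : ℕ → H × H} (L : ℕ) (hL : 1 ≤ L)
    (hω : ∀ j < L, (ω j).1 ∈ M.V ∧ (ω j).2 ∈ M.V) :
    Star.wk (M.mv c q) 1 ω L ∈ box M x (fun i => Zs i + bc M s)
      ((3 * (L + 1) * ⌈4 * M.C0 * (2 * M.C0 + 1)⌉₊) * m ^ 2) := by
  refine conn_walk' (rd_qi M) hst L hω hL ?_ ?_
  · intro j _ t ht i
    have := l_rd_chain i x (Star.wk (M.mv c q) 1 ω j) (d (j % (q + 1)) t)
      (hZs (j % (q + 1)) (Nat.lt_succ_iff.1 (Nat.mod_lt _ (Nat.succ_pos q))) t ht i)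
    unfold bc
    linarith
  · intro j _ t ht i
    have := l_rd_chain i x (Star.wk (M.mv c q) 1 ω (j + 1)) (d (j % (q + 1)) t)
      (hZs (j % (q + 1)) (Nat.lt_succ_iff.1 (Nat.mod_lt _ (Nat.succ_pos q))) t ht i)
    unfold bc
    linarith

theorem box_move {q r m : ℕ} {s : ℝ} {c : ℕ → G} {d : ℕ → ℕ → G}
    (hst : StarData M q r m s c d) {Zs : ι → ℝ} (hZs : ∀ k ≤ q, ∀ t ≤ r, ∀ i,
      M.S.l i (M.hgt (d k t)) ≤ Zs i) {x : G} {n a : H} {m' k : ℕ} (hk : k ≤ q)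
    (hn : n ∈ box M x (fun i => Zs i + bc M s) m') (ha : a ∈ M.V) :
    n * (M.cj (c k) a)⁻¹ ∈ box M x (fun i => Zs i + bc M s)
      (m' + (3 * (1 + 1) * ⌈4 * M.C0 * (2 * M.C0 + 1)⌉₊) * m ^ 2) := by
  have hs0 : 0 ≤ s := le_trans (by have := M.C0_pos; linarith) hst.le_s
  have h1 : (M.cj (c k) a)⁻¹ = M.cj (d k r) a⁻¹ := by rw [map_inv, hst.d_end]
  have hu : M.len (M.emb a⁻¹) ≤ s := by
    rw [map_inv, M.len_inv]
    have := M.V_le a ha
    have := hst.le_s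
    have := M.C0_pos
    linarith
  have h2 : M.Conn (fun i => M.S.l i (M.hgt (M.rd x)) + (Zs i + bc M s))
      ((2 * r + 1) * ⌈M.C0 * ((2 * M.C0 + 1) * s + (2 * M.C0 + 1) + 1)⌉₊) (M.rd (x * M.emb n))
      (M.rd (x * M.emb n * M.emb (M.cj (d k r) a⁻¹))) := by
    refine conn_move (rd_qi M) (hst.d_zero k) (hst.step k) hu (Nat.le_ceil _) ?_ ?_
    · intro t ht i
      have := l_rd_chain i x n (d k t) (hZs k hk t ht i)
      unfold bc
      linarith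
    · intro t ht i
      have := l_rd_chain i x (n * M.cj (d k r) a⁻¹) (d k t) (hZs k hk t ht i)
      rw [map_mul, ← mul_assoc] at this
      unfold bc
      linarith
  have h3 := steps_le (L := 1) M.one_le_C0 (rd_qi M).one_le hst.one_le hst.r_le hst.s_le
  rw [one_mul] at h3
  have h4 := (hn : M.Conn _ _ _ _).trans (h2.extend h3)
  rw [h1]
  show M.Conn _ _ _ (M.rd (x * M.emb (n * M.cj (d k r) a⁻¹)))
  rw [map_mul, ← mul_assoc]
  exact h4

end rd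

section drift

variable {M : CapModel G H ι E} {K : ℝ} {Ψ : G → G}

theorem len_inc {ω : ℕ → H × H} {j : ℕ} (h : (ω j).1 ∈ M.V ∧ (ω j).2 ∈ M.V) :
    M.len (M.emb ((ω j).1⁻¹ * (ω j).2)) ≤ 2 * M.C0 := by
  rw [map_mul, map_inv]
  refine (M.len_mul _ _).trans ?_
  rw [M.len_inv]
  linarith [M.V_le _ h.1, M.V_le _ h.2]

theorem drift_step (hΨ : QI M K Ψ) {p g : G} {u : H} (hu : M.len (M.emb u) ≤ 2 * M.C0) {v : E}
    {e : ℝ} (h1 : ‖M.hgt (Ψ (p * g)) - M.hgt (Ψ p) - v‖ ≤ e)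
    (h2 : ‖M.hgt (Ψ (p * M.emb (M.cj g u) * g)) - M.hgt (Ψ (p * M.emb (M.cj g u))) - v‖ ≤ e) :
    ‖M.hgt (Ψ (p * M.emb (M.cj g u))) - M.hgt (Ψ p)‖ ≤
      2 * e + M.C0 * (K * (2 * M.C0) + K) := by
  have e1 : p * M.emb (M.cj g u) * g = p * g * M.emb u := by rw [M.emb_cj]; group
  have h3 : ‖M.hgt (Ψ (p * M.emb (M.cj g u) * g)) - M.hgt (Ψ (p * g))‖ ≤
      M.C0 * (K * (2 * M.C0) + K) := by
    refine (M.norm_hgt_sub _ _).trans ?_
    have h4 := hΨ.up (p * g) (p * M.emb (M.cj g u) * g)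
    have h5 : M.dst (p * g) (p * M.emb (M.cj g u) * g) ≤ 2 * M.C0 := by
      rw [e1]; unfold dst; rw [inv_mul_cancel_left]; exact hu
    have h6 := hΨ.one_le
    have h7 := M.C0_pos
    gcongr
    nlinarith
  have e2 : M.hgt (Ψ (p * M.emb (M.cj g u))) - M.hgt (Ψ p) =
      (M.hgt (Ψ (p * M.emb (M.cj g u) * g)) - M.hgt (Ψ (p * g)))
      - (M.hgt (Ψ (p * M.emb (M.cj g u) * g)) - M.hgt (Ψ (p * M.emb (M.cj g u))) - v)
      + (M.hgt (Ψ (p * g)) - M.hgt (Ψ p) - v) := by abel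
  rw [e2]
  calc _ ≤ _ := norm_add_le _ _
    _ ≤ (_ + _) + _ := add_le_add (norm_sub_le _ _) le_rfl
    _ ≤ (M.C0 * (K * (2 * M.C0) + K) + e) + e := by gcongr
    _ = _ := by ring

/-- the base heights do not drift along a walk all of whose legs have the increment of the class. -/
theorem drift (hΨ : QI M K Ψ) {x : G} {c : ℕ → G} {q0 : H} {ω : ℕ → H × H} {v : ℕ → E} {e : ℝ}
    (L : ℕ) (hω : ∀ j < L, (ω j).1 ∈ M.V ∧ (ω j).2 ∈ M.V)
    (h1 : ∀ j < L, ‖M.hgt (Ψ (x * M.emb (Star.wk (fun j => M.cj (c j)) q0 ω j) * c j)) -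
      M.hgt (Ψ (x * M.emb (Star.wk (fun j => M.cj (c j)) q0 ω j))) - v j‖ ≤ e)
    (h2 : ∀ j < L, ‖M.hgt (Ψ (x * M.emb (Star.wk (fun j => M.cj (c j)) q0 ω (j + 1)) * c j)) -
      M.hgt (Ψ (x * M.emb (Star.wk (fun j => M.cj (c j)) q0 ω (j + 1)))) - v j‖ ≤ e) :
    ‖M.hgt (Ψ (x * M.emb (Star.wk (fun j => M.cj (c j)) q0 ω L))) - M.hgt (Ψ (x * M.emb q0))‖ ≤
      L * (2 * e + M.C0 * (K * (2 * M.C0) + K)) := by
  induction L with
  | zero => simp [Star.wk]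
  | succ L ih =>
    have h3 := ih (fun j hj => hω j (by omega)) (fun j hj => h1 j (by omega))
      (fun j hj => h2 j (by omega))
    have hL := Nat.lt_succ_self L
    set p := Star.wk (fun j => M.cj (c j)) q0 ω L with hp
    have e1 : Star.wk (fun j => M.cj (c j)) q0 ω (L + 1) =
        p * M.cj (c L) ((ω L).1⁻¹ * (ω L).2) := by
      simp only [Star.wk]
      rw [← hp, map_mul, map_inv]; group
    have e2 : x * M.emb (Star.wk (fun j => M.cj (c j)) q0 ω (L + 1)) =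
        x * M.emb p * M.emb (M.cj (c L) ((ω L).1⁻¹ * (ω L).2)) := by
      rw [e1, map_mul]; group
    have h4 := h1 L hL
    have h5 := h2 L hL
    rw [← hp] at h4
    rw [e2] at h5
    have h6 := drift_step hΨ (len_inc (hω L hL)) h4 h5
    rw [e2]
    have e3 : M.hgt (Ψ (x * M.emb p * M.emb (M.cj (c L) ((ω L).1⁻¹ * (ω L).2)))) -
        M.hgt (Ψ (x * M.emb q0)) =
        (M.hgt (Ψ (x * M.emb p * M.emb (M.cj (c L) ((ω L).1⁻¹ * (ω L).2)))) -
          M.hgt (Ψ (x * M.emb p))) + (M.hgt (Ψ (x * M.emb p)) - M.hgt (Ψ (x * M.emb q0))) := by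
      abel
    rw [e3]
    refine (norm_add_le _ _).trans ?_
    push_cast
    linarith

/-- `δ`-numbers along a walk. -/
theorem dnum_walk (hΨ : QI M K Ψ) {q r m : ℕ} {s : ℝ} {c : ℕ → G} {d : ℕ → ℕ → G}
    (hst : StarData M q r m s c d) {x : G} {ω : ℕ → H × H} (L : ℕ) (hL : 1 ≤ L)
    (hω : ∀ j < L, (ω j).1 ∈ M.V ∧ (ω j).2 ∈ M.V) {i : ι} (hi : M.S.NZ i) {T : ℝ}
    (hZ : ∀ j < L, ∀ t ≤ r, M.S.l i (M.hgt (Ψ (x * M.emb
      (Star.wk (M.mv c q) 1 ω j) * d (j % (q + 1)) t))) ≤ T)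
    (hZ' : ∀ j < L, ∀ t ≤ r, M.S.l i (M.hgt (Ψ (x * M.emb
      (Star.wk (M.mv c q) 1 ω (j + 1)) * d (j % (q + 1)) t))) ≤ T) :
    ‖M.δ i (Ψ (x * M.emb (Star.wk (M.mv c q) 1 ω L))) - M.δ i (Ψ x)‖ ≤
      ((3 * (L + 1) * ⌈4 * M.C0 * K⌉₊) * m ^ 2 : ℕ) *
        (M.C0 * Real.exp (T + M.C0 ^ 4 * (K * s + K + 1))) := by
  classical
  set U : ι → ℝ := fun i' => (∑ j ∈ Finset.range L, ∑ t ∈ Finset.range (r + 1),
      (|M.S.l i' (M.hgt (Ψ (x * M.emb (Star.wk (M.mv c q) 1 ω j) * d (j % (q + 1)) t)))| +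
       |M.S.l i' (M.hgt (Ψ (x * M.emb (Star.wk (M.mv c q) 1 ω (j + 1)) * d (j % (q + 1)) t)))|))
    with hU
  have hUle : ∀ i', ∀ j < L, ∀ t ≤ r,
      M.S.l i' (M.hgt (Ψ (x * M.emb (Star.wk (M.mv c q) 1 ω j) * d (j % (q + 1)) t))) ≤ U i' ∧
      M.S.l i' (M.hgt (Ψ (x * M.emb (Star.wk (M.mv c q) 1 ω (j + 1)) * d (j % (q + 1)) t)))
        ≤ U i' := by
    intro i' j hj t ht
    have h1 : (|M.S.l i' (M.hgt (Ψ (x * M.emb (Star.wk (M.mv c q) 1 ω j) * d (j % (q + 1)) t)))| +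
       |M.S.l i' (M.hgt (Ψ (x * M.emb (Star.wk (M.mv c q) 1 ω (j + 1)) * d (j % (q + 1)) t)))|) ≤
        U i' := by
      refine le_trans ?_ (Finset.single_le_sum (f := fun j => ∑ t ∈ Finset.range (r + 1),
        (|M.S.l i' (M.hgt (Ψ (x * M.emb (Star.wk (M.mv c q) 1 ω j) * d (j % (q + 1)) t)))| +
        |M.S.l i' (M.hgt (Ψ (x * M.emb (Star.wk (M.mv c q) 1 ω (j + 1)) * d (j % (q + 1)) t)))|))
        (fun j _ => Finset.sum_nonneg fun t _ => by positivity) (Finset.mem_range.2 hj))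
      exact Finset.single_le_sum (f := fun t =>
        (|M.S.l i' (M.hgt (Ψ (x * M.emb (Star.wk (M.mv c q) 1 ω j) * d (j % (q + 1)) t)))| +
        |M.S.l i' (M.hgt (Ψ (x * M.emb (Star.wk (M.mv c q) 1 ω (j + 1)) * d (j % (q + 1)) t)))|))
        (fun t _ => by positivity) (Finset.mem_range.2 (Nat.lt_succ_of_le ht))
    have h2 := le_abs_self
      (M.S.l i' (M.hgt (Ψ (x * M.emb (Star.wk (M.mv c q) 1 ω j) * d (j % (q + 1)) t))))
    have h3 := le_abs_self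
      (M.S.l i' (M.hgt (Ψ (x * M.emb (Star.wk (M.mv c q) 1 ω (j + 1)) * d (j % (q + 1)) t))))
    have h4 := abs_nonneg
      (M.S.l i' (M.hgt (Ψ (x * M.emb (Star.wk (M.mv c q) 1 ω j) * d (j % (q + 1)) t))))
    have h5 := abs_nonneg
      (M.S.l i' (M.hgt (Ψ (x * M.emb (Star.wk (M.mv c q) 1 ω (j + 1)) * d (j % (q + 1)) t))))
    constructor <;> linarith
  have hconn := conn_walk' hΨ hst (x := x) (ω := ω) L hω
    (Z := fun i' => (if i' = i then T else U i') + M.C0 ^ 4 * (K * s + K + 1)) hL ?_ ?_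
  · have h1 := hconn.delta hi
    simp only [if_true] at h1
    exact h1
  · intro j hj t ht i'
    by_cases h : i' = i
    · subst h
      simp only [if_true]
      linarith [hZ j hj t ht]
    · simp only [h, if_false]
      linarith [(hUle i' j hj t ht).1]
  · intro j hj t ht i'
    by_cases h : i' = i
    · subst h
      simp only [if_true]
      linarith [hZ' j hj t ht]
    · simp only [h, if_false]
      linarith [(hUle i' j hj t ht).2]

end drift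

end Crest.Agent.R182.Facet
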