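/-
R182, module FACET (helper710): the facet inequality.
-/
import Crest.Agent.R182.FacetBase

set_option autoImplicit false
set_option linter.unusedSectionVars false

namespace Crest.Agent.R182.Facet

open MeasureTheory Cap CapModel

variable {G H ι E : Type*} [Group G] [Group H] [MeasurableSpace H] [MeasurableMul₂ H]
    [MeasurableInv H] [Fintype ι] [NormedAddCommGroup E] [NormedSpace ℝ E]

/-- height of the image -/
def F (M : CapModel G H ι E) (Ψ : G → G) (x : G) (n : H) (g : G) : E :=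
  M.hgt (Ψ (x * M.emb n * g))

/-- the class data: on `A` the legs have increments `v k` and (relative) height bounds `Z`. -/
structure Cls (M : CapModel G H ι E) (Ψ : G → G) (x : G) (q r : ℕ) (c : ℕ → G) (d : ℕ → ℕ → G)
    (A : Set H) (v : ℕ → E) (e : ℝ) : Prop where
  meas : MeasurableSet A
  inc : ∀ n ∈ A, ∀ k ≤ q, ‖F M Ψ x n (c k) - F M Ψ x n 1 - v k‖ ≤ e

section

variable {M : CapModel G H ι E} {K : ℝ} {Ψ : G → G}

/-- crude size of the drift -/
def dr (M : CapModel G H ι E) (K : ℝ) (L : ℕ) (e : ℝ) : ℝ :=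
  L * (2 * e + M.C0 * (K * (2 * M.C0) + K))

theorem dr_nonneg {K : ℝ} (hK : 1 ≤ K) {L : ℕ} {e : ℝ} (he : 0 ≤ e) : 0 ≤ dr M K L e := by
  have := M.C0_pos
  unfold dr; positivity

/-- number of steps -/
noncomputable def N1 (M : CapModel G H ι E) (K : ℝ) (L m : ℕ) : ℕ := (3 * (L + 1) * ⌈4 * M.C0 * K⌉₊) * m ^ 2

theorem drift_le (hΨ : QI M K Ψ) {x : G} {c : ℕ → G} {q0 : H} {ω : ℕ → H × H} {v : ℕ → E} {e : ℝ}
    (he : 0 ≤ e) {L j : ℕ} (hj : j ≤ L) (hω : ∀ j < L, (ω j).1 ∈ M.V ∧ (ω j).2 ∈ M.V)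
    (h1 : ∀ j < L, ‖F M Ψ x (Star.wk (fun j => M.cj (c j)) q0 ω j) (c j) -
      F M Ψ x (Star.wk (fun j => M.cj (c j)) q0 ω j) 1 - v j‖ ≤ e)
    (h2 : ∀ j < L, ‖F M Ψ x (Star.wk (fun j => M.cj (c j)) q0 ω (j + 1)) (c j) -
      F M Ψ x (Star.wk (fun j => M.cj (c j)) q0 ω (j + 1)) 1 - v j‖ ≤ e) :
    ‖F M Ψ x (Star.wk (fun j => M.cj (c j)) q0 ω j) 1 - F M Ψ x q0 1‖ ≤ dr M K L e := by
  unfold F at *
  simp only [mul_one] at *
  have h3 := drift hΨ (x := x) (c := c) (q0 := q0) (ω := ω) (v := v) (e := e) j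
    (fun i hi => hω i (by omega)) (fun i hi => h1 i (by omega)) (fun i hi => h2 i (by omega))
  refine h3.trans ?_
  have h4 : (j : ℝ) ≤ L := by exact_mod_cast hj
  have h5 := M.C0_pos
  have h6 := hΨ.one_le
  unfold dr
  gcongr

theorem l_drift (i : ι) {a b : E} {D : ℝ} (h : ‖a - b‖ ≤ D) :
    M.S.l i a ≤ M.S.l i b + M.C0 * D := by
  have h1 := (le_abs_self _).trans (M.l_le i (a - b))
  rw [map_sub] at h1
  have h2 : M.C0 * ‖a - b‖ ≤ M.C0 * D := mul_le_mul_of_nonneg_left h M.C0_pos.le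
  linarith

/-- step (1): the set `S1` of points of `A` which are reached from `B`. -/
theorem exists_S1 (hΨ : QI M K Ψ) {q r m L : ℕ} {s e : ℝ} {c : ℕ → G} {d : ℕ → ℕ → G}
    (hst : StarData M q r m s c d) (hd0 : ∀ t, d 0 t = 1) (hL : 1 ≤ L)
    (hLq : (L - 1) % (q + 1) = 0) (he : 0 ≤ e)
    {x : G} {A B : Set H} {v1 v2 : ℕ → E} (hA : Cls M Ψ x q r c d A v1 e)
    (hB : Cls M Ψ x q r c d B v2 e) {i : ι} (hi : M.S.NZ i) {Y : ℝ} (hY : 0 ≤ Y)
    (hBY : ∀ n ∈ B, ∀ k ≤ q, ∀ t ≤ r, M.S.l i (F M Ψ x n (d k t)) ≤ M.S.l i (F M Ψ x n 1) + Y + e)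
    {Zs : ι → ℝ} (hZs2 : ∀ k ≤ q, ∀ t ≤ r, ∀ i, M.S.l i (M.hgt (d k t)) ≤ Zs i + e)
    {Q' : Set H} (hQ'm : MeasurableSet Q') (hQ'fin : M.μ Q' ≠ ⊤) (hQ'0 : M.μ Q' ≠ 0)
    (hAQ : M.μ A ≤ M.μ Q') (hBQ : M.μ B ≤ M.μ Q')
    (hAV : ∀ k ≤ q, ∀ a ∈ M.V, ∀ n ∈ A, n * (M.cj (c k) a)⁻¹ ∈ Q')
    (hBV : ∀ k ≤ q, ∀ a ∈ M.V, ∀ n ∈ B, n * (M.cj (c k) a)⁻¹ ∈ Q')
    {β : ℝ} (hβ : 0 < β)
    (hedge : ENNReal.ofReal β * M.μ Q' ≤ ∫⁻ n in A, Star.Tk M.ν (M.cj (c 0)) B n ∂M.μ) :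
    ∃ (p0 : H) (S1 : Set H), MeasurableSet S1 ∧ S1 ⊆ A ∧
      (∀ n ∈ S1, p0⁻¹ * n ∈ box M (x * M.emb p0) (fun j => (Zs j + e) + bc M s)
        (N1 M (2 * M.C0 + 1) L m)) ∧
      (∀ n ∈ S1, ∀ n' ∈ S1, ‖M.δ i (Ψ (x * M.emb n)) - M.δ i (Ψ (x * M.emb n'))‖ ≤
        2 * (N1 M K L m * (M.C0 * Real.exp (M.S.l i (F M Ψ x n' 1) + Y + e +
          2 * (M.C0 * dr M K L e) + M.C0 ^ 4 * (K * s + K + 1))))) ∧
      ENNReal.ofReal ((β / (4 * L * (q + 2))) ^ L) ≤
        (Measure.pi fun _ : Fin L => M.ν.prod M.ν)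
          {ω | Star.wk (M.mv c q) 1 (Star.extω ω) L ∈ (fun n => p0 * n) ⁻¹' S1} := by
  classical
  have hLR : (0 : ℝ) < L := by exact_mod_cast hL
  set c0 : ℝ := β / (4 * L * (q + 2)) with hc0
  have hc0p : 0 < c0 := by positivity
  set φ : Fin (q + 1) → H → H := fun k => M.cj (c k) with hφ
  have hφm : ∀ k, Measurable (φ k) := fun k => M.cj_meas _
  set ψ : H → H := fun n => M.cj (c 0) n with hψ
  have hψm : Measurable ψ := M.cj_meas _
  set AB : ℕ → Set H × Set H := Star.clean2N M.ν φ ψ (ENNReal.ofReal c0) (A, B) with hAB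
  have hest := Star.clean2N_est (μ := M.μ) (ν := M.ν) (φ := φ) (ψ := ψ) hφm hψm (X := (A, B))
    (Q' := Q') hA.meas hB.meas hQ'm hQ'fin hAQ hBQ
    (fun k => by
      filter_upwards [M.ae_mem_V] with a ha n hn
      exact hAV k (Nat.lt_succ_iff.1 k.2) a ha n hn)
    (fun k => by
      filter_upwards [M.ae_mem_V] with a ha n hn
      exact hBV k (Nat.lt_succ_iff.1 k.2) a ha n hn)
    (ENNReal.ofReal c0) L
  have hloss : (L : ENNReal) * (2 * ((Fintype.card (Fin (q + 1)) + 1) *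
      (ENNReal.ofReal c0 * M.μ Q'))) = ENNReal.ofReal (β / 2) * M.μ Q' := by
    have e1 : (L : ENNReal) * (2 * ((Fintype.card (Fin (q + 1)) + 1) *
      (ENNReal.ofReal c0 * M.μ Q'))) =
      ((L : ENNReal) * 2 * ((q + 1 : ℕ) + 1) * ENNReal.ofReal c0) * M.μ Q' := by
      rw [Fintype.card_fin]; ring
    rw [e1]
    congr 1
    have e2 : ((L : ENNReal) * 2 * ((q + 1 : ℕ) + 1)) = ENNReal.ofReal (L * 2 * ((q : ℝ) + 2)) := by
      have : (L : ℝ) * 2 * ((q : ℝ) + 2) = ((L * 2 * (q + 2) : ℕ) : ℝ) := by push_cast; ring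
      rw [this, ENNReal.ofReal_natCast]
      push_cast
      ring
    rw [e2, ← ENNReal.ofReal_mul (by positivity)]
    congr 1
    rw [hc0]
    field_simp
    norm_num
  rw [hloss] at hest
  -- `B_L` is nonempty
  have hne : (AB L).2.Nonempty := by
    by_contra hcon
    rw [Set.not_nonempty_iff_eq_empty] at hcon
    have h0 : ∫⁻ n in (AB L).1, Star.Tk M.ν ψ (AB L).2 n ∂M.μ = 0 := by
      rw [hcon]
      simp [Star.Tk]
    rw [← hAB, h0, zero_add] at hest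
    have h1 := hedge.trans hest
    rw [ENNReal.mul_le_mul_iff_left hQ'0 hQ'fin,
      ENNReal.ofReal_le_ofReal_iff (by positivity)] at h1
    linarith
  obtain ⟨p0, hp0⟩ := hne
  have hsubB : ∀ i, (AB i).2 ⊆ B := fun i => (Star.clean2N_subset φ ψ _ (A, B) i).2
  have hmeasAB := Star.measurableSet_clean2N (ν := M.ν) hφm hψm (ENNReal.ofReal c0) (X := (A, B))
    hA.meas hB.meas
  set x' : G := x * M.emb p0 with hx'
  set D0 : ℝ := dr M K L e with hD0
  have hD0p : 0 ≤ D0 := dr_nonneg hΨ.one_le he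
  have hC0 := M.C0_pos
  set T : ℝ := M.S.l i (F M Ψ x p0 1) + Y + e + M.C0 * D0 with hT
  set c1 : ℝ := M.C0 ^ 4 * (K * s + K + 1) with hc1
  set S1 : Set H := {n | n ∈ A ∧ p0⁻¹ * n ∈ box M x' (fun j => (Zs j + e) + bc M s)
        (N1 M (2 * M.C0 + 1) L m) ∧
      (‖M.δ i (Ψ (x * M.emb n)) - M.δ i (Ψ (x * M.emb p0))‖ ≤
        N1 M K L m * (M.C0 * Real.exp (T + c1)) ∧
       M.S.l i (F M Ψ x p0 1) ≤ M.S.l i (F M Ψ x n 1) + M.C0 * D0)} with hS1
  have hS1m : MeasurableSet S1 := by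
    have h1 : MeasurableSet {n : H | p0⁻¹ * n ∈ box M x' (fun j => (Zs j + e) + bc M s)
        (N1 M (2 * M.C0 + 1) L m)} :=
      (measurable_const_mul p0⁻¹) (measurableSet_box M x' _ _)
    have h2 := hΨ.meas x 1 {P | ‖M.δ i P - M.δ i (Ψ (x * M.emb p0))‖ ≤
        N1 M K L m * (M.C0 * Real.exp (T + c1)) ∧
       M.S.l i (F M Ψ x p0 1) ≤ M.S.l i (M.hgt P) + M.C0 * D0}
    have e1 : {n | Ψ (x * M.emb n * 1) ∈ {P | ‖M.δ i P - M.δ i (Ψ (x * M.emb p0))‖ ≤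
        N1 M K L m * (M.C0 * Real.exp (T + c1)) ∧
       M.S.l i (F M Ψ x p0 1) ≤ M.S.l i (M.hgt P) + M.C0 * D0}} =
      {n | ‖M.δ i (Ψ (x * M.emb n)) - M.δ i (Ψ (x * M.emb p0))‖ ≤
        N1 M K L m * (M.C0 * Real.exp (T + c1)) ∧
       M.S.l i (F M Ψ x p0 1) ≤ M.S.l i (F M Ψ x n 1) + M.C0 * D0} := by
      ext n
      simp only [Set.mem_ofPred_eq, F, mul_one]
    rw [e1] at h2
    exact hA.meas.inter (h1.inter h2)
  refine ⟨p0, S1, hS1m, fun n hn => hn.1, fun n hn => hn.2.1, ?_, ?_⟩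
  · -- distances inside `S1`
    intro n hn n' hn'
    have h1 := hn.2.2.1
    have h2 := hn'.2.2.1
    have h3 := hn'.2.2.2
    have h4 : ‖M.δ i (Ψ (x * M.emb n)) - M.δ i (Ψ (x * M.emb n'))‖ ≤
        2 * (N1 M K L m * (M.C0 * Real.exp (T + c1))) := by
      have e1 : M.δ i (Ψ (x * M.emb n)) - M.δ i (Ψ (x * M.emb n')) =
          (M.δ i (Ψ (x * M.emb n)) - M.δ i (Ψ (x * M.emb p0))) -
          (M.δ i (Ψ (x * M.emb n')) - M.δ i (Ψ (x * M.emb p0))) := by ring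
      rw [e1]
      refine (norm_sub_le _ _).trans ?_
      linarith
    refine h4.trans ?_
    have h5 : T + c1 ≤ M.S.l i (F M Ψ x n' 1) + Y + e + 2 * (M.C0 * D0) + c1 := by
      rw [hT]; linarith
    gcongr
  · -- the walk
    set W : ℕ → Set H := fun j => if j < L then (AB (L - j)).2 else A with hW
    have hWm : ∀ j, MeasurableSet (W j) := by
      intro j
      rw [hW]
      by_cases h : j < L
      · simp only [h, if_true]; exact (hmeasAB _).2
      · simp only [h, if_false]; exact hA.meas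
    have hstep : ∀ j < L, ∀ n ∈ W j, ENNReal.ofReal c0 ≤ Star.Tk M.ν (M.mv c q j) (W (j + 1)) n := by
      intro j hj n hn
      simp only [hW, hj, if_true] at hn
      have e1 : L - j = (L - (j + 1)) + 1 := by omega
      rw [e1] at hn
      have h1 := (Star.Tk_clean2N (ν := M.ν) φ ψ (ENNReal.ofReal c0) (A, B) (L - (j + 1))
        (q := n)).2 hn
      by_cases h : j + 1 < L
      · simp only [hW, h, if_true]
        have h2 := h1.1 ⟨j % (q + 1), Nat.mod_lt _ (Nat.succ_pos q)⟩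
        exact h2
      · have e2 : j + 1 = L := by omega
        have e3 : j = L - 1 := by omega
        simp only [hW, h, if_false]
        have h2 := h1.2
        rw [e2, Nat.sub_self] at h2
        have e4 : M.mv c q j = ψ := by
          unfold CapModel.mv
          rw [e3, hLq, hψ]
        rw [e4]
        exact h2
    have hp0W : p0 ∈ W 0 := by
      simp only [hW, show 0 < L by omega, if_true, Nat.sub_zero]
      exact hp0
    have hprob := Star.walk_prob (ν := M.ν) (ENNReal.ofReal c0) L (M.mv c q) W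
      (fun j => M.cj_meas _) hWm hstep p0 hp0W
    rw [ENNReal.ofReal_pow hc0p.le]
    refine hprob.trans (measure_mono_ae ?_)
    filter_upwards [ae_pi_mem_V M L] with ω hω hωW
    have hωV : ∀ j < L, (Star.extω ω j).1 ∈ M.V ∧ (Star.extω ω j).2 ∈ M.V := by
      intro j hj
      rw [Star.extω_of_lt ω hj]; exact hω ⟨j, hj⟩
    have hn : ∀ j, Star.wk (M.mv c q) p0 (Star.extω ω) j =
        p0 * Star.wk (M.mv c q) 1 (Star.extω ω) j := fun j => wk_left _ _ _ _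
    have hxn : ∀ j, x * M.emb (Star.wk (M.mv c q) p0 (Star.extω ω) j) =
        x' * M.emb (Star.wk (M.mv c q) 1 (Star.extω ω) j) := by
      intro j; rw [hn, map_mul, hx']; group
    have hinB : ∀ j < L, Star.wk (M.mv c q) p0 (Star.extω ω) j ∈ B := by
      intro j hj
      have := hωW j hj.le
      simp only [hW, hj, if_true] at this
      exact hsubB _ this
    have hinA : Star.wk (M.mv c q) p0 (Star.extω ω) L ∈ A := by
      have := hωW L le_rfl
      simpa only [hW, lt_irrefl, if_false] using this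
    have hcl : c ((L - 1) % (q + 1)) = 1 := by rw [hLq, hst.c_zero]
    -- drift
    have hdr : ∀ j ≤ L, ‖F M Ψ x (Star.wk (M.mv c q) p0 (Star.extω ω) j) 1 - F M Ψ x p0 1‖ ≤
        D0 := by
      intro j hj
      refine drift_le hΨ (c := fun j => c (j % (q + 1)))
        (v := fun j => if j = L - 1 then 0 else v2 (j % (q + 1))) he hj hωV ?_ ?_
      · intro j hj
        by_cases h : j = L - 1
        · simp only [h, if_true, hcl]
          simpa using he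
        · simp only [h, if_false]
          exact hB.inc _ (hinB j hj) _ (Nat.lt_succ_iff.1 (Nat.mod_lt _ (Nat.succ_pos q)))
      · intro j hj
        by_cases h : j = L - 1
        · simp only [h, if_true, hcl]
          simpa using he
        · simp only [h, if_false]
          exact hB.inc _ (hinB (j + 1) (by omega)) _
            (Nat.lt_succ_iff.1 (Nat.mod_lt _ (Nat.succ_pos q)))
    have hdl : ∀ j ≤ L, M.S.l i (F M Ψ x (Star.wk (M.mv c q) p0 (Star.extω ω) j) 1) ≤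
        M.S.l i (F M Ψ x p0 1) + M.C0 * D0 := fun j hj => l_drift i (hdr j hj)
    have hhB : ∀ j < L, ∀ k ≤ q, ∀ t ≤ r, M.S.l i (M.hgt (Ψ (x' * M.emb
        (Star.wk (M.mv c q) 1 (Star.extω ω) j) * d k t))) ≤ T := by
      intro j hj k hk t ht
      have h1 := hBY _ (hinB j hj) k hk t ht
      have h2 := hdl j hj.le
      rw [F, hxn] at h1
      rw [hT]; linarith
    show Star.wk (M.mv c q) 1 (Star.extω ω) L ∈ (fun n => p0 * n) ⁻¹' S1
    rw [Set.mem_preimage, ← hn]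
    refine ⟨hinA, ?_, ?_, ?_⟩
    · rw [hn, inv_mul_cancel_left]
      exact walk_mem_box hst hZs2 x' L hL hωV
    · rw [hxn, ← hx']
      refine dnum_walk hΨ hst L hL hωV hi ?_ ?_
      · intro j hj t ht
        exact hhB j hj _ (Nat.lt_succ_iff.1 (Nat.mod_lt _ (Nat.succ_pos q))) t ht
      · intro j hj t ht
        by_cases h : j + 1 < L
        · exact hhB (j + 1) h _ (Nat.lt_succ_iff.1 (Nat.mod_lt _ (Nat.succ_pos q))) t ht
        · have e2 : j + 1 = L := by omega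
          have e3 : j % (q + 1) = 0 := by rw [← hLq]; congr 1; omega
          rw [e2, e3, hd0]
          have h2 := hdl L le_rfl
          rw [F, hxn] at h2
          rw [hT]; linarith
    · have h2 := hdr L le_rfl
      rw [← norm_neg, neg_sub] at h2
      exact l_drift i h2


theorem log_N1_le {K : ℝ} (hK : 1 ≤ K) (L : ℕ) {m : ℕ} (hm : 1 ≤ m) :
    1 ≤ N1 M K L m ∧ Real.log (N1 M K L m) =
      Real.log (3 * (L + 1) * ⌈4 * M.C0 * K⌉₊) + 2 * Real.log m := by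
  have hC0 := M.C0_pos
  have h1 : 1 ≤ ⌈4 * M.C0 * K⌉₊ := Nat.one_le_ceil_iff.2 (by positivity)
  have h2 : 1 ≤ 3 * (L + 1) * ⌈4 * M.C0 * K⌉₊ := by nlinarith
  constructor
  · exact Nat.mul_pos h2 (pow_pos hm 2)
  · have hmR : (0 : ℝ) < m := by exact_mod_cast hm
    have h3 : (0 : ℝ) < 3 * (L + 1) * ⌈4 * M.C0 * K⌉₊ := by
      have : (1 : ℝ) ≤ ⌈4 * M.C0 * K⌉₊ := by exact_mod_cast h1
      positivity
    unfold N1
    push_cast
    rw [Real.log_mul h3.ne' (by positivity), Real.log_pow]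
    push_cast; ring

/-- final data of step (1) -/
structure S1Data (M : CapModel G H ι E) (K : ℝ) (Ψ : G → G) (x : G) (i : ι) (L m : ℕ)
    (Zb : ι → ℝ) (R : ℝ) (p0 : H) (S1 A : Set H) : Prop where
  meas : MeasurableSet S1
  sub : S1 ⊆ A
  inbox : ∀ n ∈ S1, p0⁻¹ * n ∈ box M (x * M.emb p0) Zb (N1 M (2 * M.C0 + 1) L m)
  dlt : ∀ n ∈ S1, ∀ n' ∈ S1, ‖M.δ i (Ψ (x * M.emb n)) - M.δ i (Ψ (x * M.emb n'))‖ ≤
        R * Real.exp (M.S.l i (F M Ψ x n' 1))

/-- step (2): the walk inside `S1`. -/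
theorem walk_S1 (hΨ : QI M K Ψ) {q r m L : ℕ} {s e : ℝ} {c : ℕ → G} {d : ℕ → ℕ → G}
    (hst : StarData M q r m s c d) (hL : 1 ≤ L) (he : 0 ≤ e)
    {x : G} {A S1 : Set H} {v1 : ℕ → E} (hA : Cls M Ψ x q r c d A v1 e) {i : ι}
    {Zs Zt : ι → ℝ}
    (hAZ : ∀ n ∈ A, ∀ k ≤ q, ∀ t ≤ r, ∀ j,
      M.S.l j (F M Ψ x n (d k t)) ≤ M.S.l j (F M Ψ x n 1) + Zt j + e)
    (hZs2 : ∀ k ≤ q, ∀ t ≤ r, ∀ i, M.S.l i (M.hgt (d k t)) ≤ Zs i + e)
    {R : ℝ} {p0 : H} (hS1 : S1Data M K Ψ x i L m (fun j => (Zs j + e) + bc M s) R p0 S1 A)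
    {v1' M1 : ℝ} (hv1 : 0 < v1') (hμ1 : ENNReal.ofReal v1' ≤ M.μ S1)
    (hM1 : 0 < M1) (hbox : M.μ (box M (x * M.emb p0) (fun j => (Zs j + e) + bc M s)
      (N1 M (2 * M.C0 + 1) L m + N1 M (2 * M.C0 + 1) 1 m)) ≤ ENNReal.ofReal M1) :
    ∃ q0 ∈ S1, ENNReal.ofReal ((v1' / (2 * L * (q + 1) * M1)) ^ L) ≤
      (Measure.pi fun _ : Fin L => M.ν.prod M.ν) {ω |
        M.Conn (fun j => M.S.l j (F M Ψ x q0 1) + (Zt j + e + M.C0 * dr M K L e +
          M.C0 ^ 4 * (K * s + K + 1))) (N1 M K L m) (Ψ (x * M.emb q0))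
          (Ψ (x * M.emb q0 * M.emb (Star.wk (M.mv c q) 1 (Star.extω ω) L))) ∧
        M.S.l i (M.hgt (Ψ (x * M.emb q0 * M.emb (Star.wk (M.mv c q) 1 (Star.extω ω) L)))) ≤
          M.S.l i (F M Ψ x q0 1) + M.C0 * dr M K L e ∧
        ‖M.δ i (Ψ (x * M.emb q0 * M.emb (Star.wk (M.mv c q) 1 (Star.extω ω) L))) -
          M.δ i (Ψ (x * M.emb q0))‖ ≤ R * Real.exp (M.S.l i (F M Ψ x q0 1))} := by
  classical
  have hLR : (0 : ℝ) < L := by exact_mod_cast hL
  set c2 : ℝ := v1' / (2 * L * (q + 1) * M1) with hc2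
  have hc2p : 0 < c2 := by positivity
  set φ : Fin (q + 1) → H → H := fun k n => M.cj (c k) n with hφ
  have hφm : ∀ k, Measurable (φ k) := fun k => M.cj_meas _
  set x' : G := x * M.emb p0 with hx'
  set Q'' : Set H := {n | p0⁻¹ * n ∈ box M x' (fun j => (Zs j + e) + bc M s)
      (N1 M (2 * M.C0 + 1) L m + N1 M (2 * M.C0 + 1) 1 m)} with hQ''
  have hQm : MeasurableSet Q'' := (measurable_const_mul p0⁻¹) (measurableSet_box M x' _ _)
  have hQμ : M.μ Q'' ≤ ENNReal.ofReal M1 := by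
    have e1 : Q'' = (fun n => p0⁻¹ * n) ⁻¹' (box M x' (fun j => (Zs j + e) + bc M s)
      (N1 M (2 * M.C0 + 1) L m + N1 M (2 * M.C0 + 1) 1 m)) := rfl
    rw [e1, measure_preimage_mul]
    exact hbox
  have hQ1 : S1 ⊆ Q'' := by
    intro n hn
    exact box_mono (fun j => le_rfl) (Nat.le_add_right _ _) (hS1.inbox n hn)
  have hfin : M.μ S1 ≠ ⊤ := ne_top_of_le_ne_top ENNReal.ofReal_ne_top ((measure_mono hQ1).trans hQμ)
  have hDQ : ∀ k : Fin (q + 1), ∀ᵐ a ∂M.ν, ∀ n ∈ S1, n * (φ k a)⁻¹ ∈ Q'' := by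
    intro k
    filter_upwards [M.ae_mem_V] with a ha n hn
    have h1 := box_move hst hZs2 (x := x') (Nat.lt_succ_iff.1 k.2) (hS1.inbox n hn) ha
    show p0⁻¹ * (n * (M.cj (c k) a)⁻¹) ∈ box M x' (fun j => (Zs j + e) + bc M s)
      (N1 M (2 * M.C0 + 1) L m + N1 M (2 * M.C0 + 1) 1 m)
    rw [← mul_assoc p0⁻¹ n]
    exact h1
  have hcl := Star.measure_cleanN (μ := M.μ) (ν := M.ν) hφm hS1.meas hQm hfin hDQ
    (ENNReal.ofReal c2) L
  have hloss : (L : ENNReal) * (Fintype.card (Fin (q + 1)) * (ENNReal.ofReal c2 * M.μ Q'')) ≤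
      ENNReal.ofReal (v1' / 2) := by
    calc (L : ENNReal) * (Fintype.card (Fin (q + 1)) * (ENNReal.ofReal c2 * M.μ Q''))
        ≤ (L : ENNReal) * (Fintype.card (Fin (q + 1)) *
            (ENNReal.ofReal c2 * ENNReal.ofReal M1)) := by gcongr
      _ = ENNReal.ofReal (L * ((q + 1 : ℕ) * (c2 * M1))) := by
          rw [Fintype.card_fin, ENNReal.ofReal_mul hLR.le, ENNReal.ofReal_natCast,
            ENNReal.ofReal_mul (Nat.cast_nonneg _), ENNReal.ofReal_natCast,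
            ENNReal.ofReal_mul hc2p.le]
      _ = ENNReal.ofReal (v1' / 2) := by
          congr 1
          rw [hc2]
          push_cast
          field_simp
  have hne : (Star.cleanN M.ν φ (ENNReal.ofReal c2) S1 L).Nonempty := by
    by_contra hcon
    rw [Set.not_nonempty_iff_eq_empty] at hcon
    rw [hcon, measure_empty, zero_add] at hcl
    have h1 := hμ1.trans (hcl.trans hloss)
    rw [ENNReal.ofReal_le_ofReal_iff (by positivity)] at h1
    linarith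
  obtain ⟨q0, hq0⟩ := hne
  have hsub : ∀ j, Star.cleanN M.ν φ (ENNReal.ofReal c2) S1 j ⊆ S1 :=
    fun j => Star.cleanN_subset φ _ S1 j
  refine ⟨q0, hsub L hq0, ?_⟩
  set W : ℕ → Set H := fun j => Star.cleanN M.ν φ (ENNReal.ofReal c2) S1 (L - j) with hW
  have hprob := Star.walk_prob (ν := M.ν) (ENNReal.ofReal c2) L (M.mv c q) W
    (fun j => M.cj_meas _) (fun j => Star.measurableSet_cleanN hφm _ hS1.meas _) (by
      intro j hj n hn
      simp only [hW] at hn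
      have e1 : L - j = (L - (j + 1)) + 1 := by omega
      rw [e1] at hn
      exact Star.Tk_cleanN φ _ S1 _ hn ⟨j % (q + 1), Nat.mod_lt _ (Nat.succ_pos q)⟩) q0
    (by simpa only [hW, Nat.sub_zero] using hq0)
  rw [ENNReal.ofReal_pow hc2p.le]
  refine hprob.trans (measure_mono_ae ?_)
  filter_upwards [ae_pi_mem_V M L] with ω hω hωW
  have hωV : ∀ j < L, (Star.extω ω j).1 ∈ M.V ∧ (Star.extω ω j).2 ∈ M.V := by
    intro j hj
    rw [Star.extω_of_lt ω hj]; exact hω ⟨j, hj⟩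
  have hin : ∀ j ≤ L, Star.wk (M.mv c q) q0 (Star.extω ω) j ∈ S1 := fun j hj => hsub _ (hωW j hj)
  have hxn : ∀ j, x * M.emb (Star.wk (M.mv c q) q0 (Star.extω ω) j) =
      x * M.emb q0 * M.emb (Star.wk (M.mv c q) 1 (Star.extω ω) j) := by
    intro j; rw [wk_left, map_mul]; group
  have hmod : ∀ j : ℕ, j % (q + 1) ≤ q := fun j => Nat.lt_succ_iff.1 (Nat.mod_lt _ (Nat.succ_pos q))
  have hdr : ∀ j ≤ L, ‖F M Ψ x (Star.wk (M.mv c q) q0 (Star.extω ω) j) 1 - F M Ψ x q0 1‖ ≤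
      dr M K L e := by
    intro j hj
    refine drift_le hΨ (c := fun j => c (j % (q + 1))) (v := fun j => v1 (j % (q + 1))) he hj hωV
      ?_ ?_
    · intro j hj
      exact hA.inc _ (hS1.sub (hin j hj.le)) _ (hmod j)
    · intro j hj
      exact hA.inc _ (hS1.sub (hin (j + 1) hj)) _ (hmod j)
  have hht : ∀ j ≤ L, ∀ k ≤ q, ∀ t ≤ r, ∀ i', M.S.l i' (M.hgt (Ψ (x * M.emb q0 * M.emb
      (Star.wk (M.mv c q) 1 (Star.extω ω) j) * d k t))) ≤
      M.S.l i' (F M Ψ x q0 1) + (Zt i' + e + M.C0 * dr M K L e) := by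
    intro j hj k hk t ht i'
    have h1 := hAZ _ (hS1.sub (hin j hj)) k hk t ht i'
    have h2 := l_drift (M := M) i' (hdr j hj)
    rw [F, hxn] at h1
    linarith
  refine ⟨?_, ?_, ?_⟩
  · refine conn_walk' hΨ hst L hωV hL ?_ ?_
    · intro j hj t ht i'
      have := hht j hj.le _ (hmod j) t ht i'
      linarith
    · intro j hj t ht i'
      have := hht (j + 1) hj _ (hmod j) t ht i'
      linarith
  · have h2 := l_drift (M := M) i (hdr L le_rfl)
    rw [F, hxn, mul_one] at h2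
    exact h2
  · have h3 := hS1.dlt _ (hin L le_rfl) _ (hsub L hq0)
    rw [hxn] at h3
    exact h3

end

end Crest.Agent.R182.Facet
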