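/-
R182, module FACET (helper710): the facet inequality.
-/
import Crest.Agent.R182.FacetMain

set_option autoImplicit false
set_option linter.unusedSectionVars false

namespace Crest.Agent.R182.Facet

open MeasureTheory Cap CapModel

variable {G H ι E : Type*} [Group G] [Group H] [MeasurableSpace H] [MeasurableMul₂ H]
    [MeasurableInv H] [Fintype ι] [NormedAddCommGroup E] [NormedSpace ℝ E]

variable {M : CapModel G H ι E}

theorem N1_mono_L {K : ℝ} {L L' m : ℕ} (h : L ≤ L') : N1 M K L m ≤ N1 M K L' m := by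
  unfold N1; gcongr

theorem le_N1 {K : ℝ} (hK : 1 ≤ K) (L : ℕ) {m : ℕ} : m ≤ N1 M K L m := by
  have hC0 := M.C0_pos
  have h1 : 1 ≤ ⌈4 * M.C0 * K⌉₊ := Nat.one_le_ceil_iff.2 (by positivity)
  have h2 : 1 ≤ 3 * (L + 1) * ⌈4 * M.C0 * K⌉₊ := by nlinarith
  unfold N1
  calc m ≤ m ^ 2 := Nat.le_self_pow (by norm_num) m
    _ = 1 * m ^ 2 := (one_mul _).symm
    _ ≤ _ := Nat.mul_le_mul_right _ h2

/-- **the facet inequality** -/
theorem facet_ineq (hR : M.Reach) (hE : M.Ent) {K : ℝ} (hK : 1 ≤ K) (q : ℕ) {i : ι}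
    (hi : M.S.NZ i) : ∃ Ac : ℝ, 0 ≤ Ac ∧ ∀ Ψ : G → G, QI M K Ψ →
    ∀ (r m : ℕ) (s e : ℝ) (c : ℕ → G) (d : ℕ → ℕ → G), StarData M q r m s c d →
    (∀ t, d 0 t = 1) → 0 ≤ e → ∀ Zs Zt : ι → ℝ, (∀ j, 0 ≤ Zs j) → (∀ j, 0 ≤ Zt j) →
    (∀ j, ∃ k ≤ q, Zs j ≤ max 0 (M.S.l j (M.hgt (c k)))) →
    (∀ k ≤ q, ∀ t ≤ r, ∀ j, M.S.l j (M.hgt (d k t)) ≤ Zs j + e) →
    ∀ v : E, (∀ j, M.S.l j v ≤ Zt j) → ‖v‖ ≤ m →
    ∀ (x : G) (A B : Set H) (v1 v2 : ℕ → E), Cls M Ψ x q r c d A v1 e → Cls M Ψ x q r c d B v2 e →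
    (∀ n ∈ A, ∀ k ≤ q, ∀ t ≤ r, ∀ j,
      M.S.l j (F M Ψ x n (d k t)) ≤ M.S.l j (F M Ψ x n 1) + Zt j + e) →
    ∀ Y : ℝ, 0 ≤ Y →
    (∀ n ∈ B, ∀ k ≤ q, ∀ t ≤ r, M.S.l i (F M Ψ x n (d k t)) ≤ M.S.l i (F M Ψ x n 1) + Y + e) →
    ∀ Q' : Set H, MeasurableSet Q' → M.μ Q' ≠ ⊤ → M.μ Q' ≠ 0 → M.μ A ≤ M.μ Q' → M.μ B ≤ M.μ Q' →
    (∀ k ≤ q, ∀ a ∈ M.V, ∀ n ∈ A, n * (M.cj (c k) a)⁻¹ ∈ Q') →
    (∀ k ≤ q, ∀ a ∈ M.V, ∀ n ∈ B, n * (M.cj (c k) a)⁻¹ ∈ Q') →
    ∀ β : ℝ, 0 < β →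
    ENNReal.ofReal β * M.μ Q' ≤ ∫⁻ n in A, Star.Tk M.ν (M.cj (c 0)) B n ∂M.μ →
    M.S.Gt Zs + M.S.l i v ≤ M.S.Gt Zt + Y + Ac * (s + 1 + e) + Ac * Real.log m +
      Ac * |Real.log β| := by
  obtain ⟨L0, hL0⟩ := hE q
  set L : ℕ := L0 * (q + 1) + 1 with hLdef
  have hLL0 : L0 ≤ L := by
    have : L0 * 1 ≤ L0 * (q + 1) := Nat.mul_le_mul_left _ (by omega)
    omega
  have hL1 : 1 ≤ L := by omega
  have hLq : (L - 1) % (q + 1) = 0 := by
    rw [hLdef, Nat.add_sub_cancel]; exact Nat.mul_mod_left _ _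
  obtain ⟨κ, C, D, hκ, hC, hent⟩ := hL0 L hLL0
  obtain ⟨C', D', hC', hvb⟩ := vol_box (M := M) hR
  obtain ⟨C'', D'', hC'', hvs⟩ := vol_le_slab hR hK hi
  have hC0 := M.one_le_C0
  have hC0p := M.C0_pos
  have hLR : (1 : ℝ) ≤ L := by exact_mod_cast hL1
  have hLip := M.S.Lip_nonneg
  have hκ' : 0 < κ⁻¹ := inv_pos.2 hκ
  -- constants
  set adr : ℝ := L * (2 + M.C0 * (K * (2 * M.C0) + K)) with hadr
  set ac1 : ℝ := M.C0 ^ 4 * (2 * K + 1) with hac1
  set abc : ℝ := 2 * M.C0 ^ 3 + M.C0 ^ 4 * (2 * (2 * M.C0 + 1) + 1) with habc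
  set n1 : ℝ := Real.log (3 * (L + 1) * ⌈4 * M.C0 * K⌉₊) with hn1
  set nS : ℝ := Real.log 2 + Real.log (3 * (L + 1) * ⌈4 * M.C0 * (2 * M.C0 + 1)⌉₊) with hnS
  have hadr0 : 0 ≤ adr := by positivity
  have hac10 : 0 ≤ ac1 := by positivity
  have habc0 : 0 ≤ abc := by positivity
  set A1 : ℝ := M.S.Lip * (1 + M.C0 * adr + ac1) + (1 + 2 * (M.C0 * adr) + ac1) +
    κ⁻¹ * (L * (M.S.Lip * (1 + abc))) with hA1
  set A2 : ℝ := |n1| + |Real.log (2 * M.C0)| + κ⁻¹ * |Real.log C| + |Real.log C''| + D'' * |n1| +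
    κ⁻¹ * (L * (|Real.log (2 * L * (q + 1))| + |Real.log C'| + D' * |nS| +
      κ⁻¹ * (L * |Real.log (4 * L * (q + 2))| + |Real.log C|))) with hA2
  set A3 : ℝ := 2 + κ⁻¹ * D + 2 * D'' + κ⁻¹ * (L * (2 * D' + κ⁻¹ * D)) with hA3
  set A4 : ℝ := κ⁻¹ * (L * (κ⁻¹ * L)) with hA4
  have hA1p : 0 ≤ A1 := by positivity
  have hA2p : 0 ≤ A2 := by positivity
  have hA3p : 0 ≤ A3 := by positivity
  have hA4p : 0 ≤ A4 := by positivity
  refine ⟨A1 + A2 + A3 + A4, by positivity, ?_⟩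
  intro Ψ hΨ r m s e c d hst hd0 he Zs Zt hZs hZt hZs1 hZs2 v hv hvm x A B v1 v2 hA hB hAZ Y hY hBY
    Q' hQ'm hQ'fin hQ'0 hAQ hBQ hAV hBV β hβ hedge
  have hm := hst.one_le
  have hmR : (1 : ℝ) ≤ m := by exact_mod_cast hm
  have hs0 : 0 ≤ s := le_trans (by linarith) hst.le_s
  set lm : ℝ := Real.log m with hlm
  have hlm0 : 0 ≤ lm := Real.log_nonneg hmR
  set s1 : ℝ := s + 1 + e with hs1
  have hs11 : 1 ≤ s1 := by linarith
  have hes1 : e ≤ s1 := by linarith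
  -- the constants of size `s1`
  set D0 : ℝ := dr M K L e with hD0
  have hD0p : 0 ≤ D0 := dr_nonneg hK he
  have hD0le : D0 ≤ adr * s1 := by
    rw [hD0, hadr, mul_assoc]
    unfold dr
    have : 2 * e + M.C0 * (K * (2 * M.C0) + K) ≤ (2 + M.C0 * (K * (2 * M.C0) + K)) * s1 := by
      have h1 : 0 ≤ M.C0 * (K * (2 * M.C0) + K) := by positivity
      have h2 := le_mul_of_one_le_right h1 hs11
      linarith only [h2, hes1]
    gcongr
  set c1 : ℝ := M.C0 ^ 4 * (K * s + K + 1) with hc1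
  have hc1p : 0 ≤ c1 := by positivity
  have hc1le : c1 ≤ ac1 * s1 := by
    rw [hc1, hac1, mul_assoc]
    have : K * s + K + 1 ≤ (2 * K + 1) * s1 := by
      have h2 : K * s ≤ K * s1 := by
        refine mul_le_mul_of_nonneg_left ?_ (by linarith)
        linarith only [hs1, he]
      have h3 : K ≤ K * s1 := le_mul_of_one_le_right (by linarith) hs11
      linarith only [h2, h3, hs11]
    gcongr
  have hbcp : 0 ≤ bc M s := by unfold bc; positivity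
  have hbcle : bc M s ≤ abc * s1 := by
    unfold bc
    rw [habc]
    have h1 : (2 * M.C0 + 1) * s + (2 * M.C0 + 1) + 1 ≤ (2 * (2 * M.C0 + 1) + 1) * s1 := by
      have h2 : (2 * M.C0 + 1) * s ≤ (2 * M.C0 + 1) * s1 := by
        refine mul_le_mul_of_nonneg_left ?_ (by linarith)
        linarith only [hs1, he]
      have h3 : (2 * M.C0 + 1) ≤ (2 * M.C0 + 1) * s1 :=
        le_mul_of_one_le_right (by linarith) hs11
      linarith only [h2, h3, hs11]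
    have h2 : M.C0 ^ 4 * ((2 * M.C0 + 1) * s + (2 * M.C0 + 1) + 1) ≤
        M.C0 ^ 4 * ((2 * (2 * M.C0 + 1) + 1) * s1) := by gcongr
    have h3 : 2 * M.C0 ^ 3 ≤ 2 * M.C0 ^ 3 * s1 := le_mul_of_one_le_right (by positivity) hs11
    calc _ ≤ 2 * M.C0 ^ 3 * s1 + M.C0 ^ 4 * ((2 * (2 * M.C0 + 1) + 1) * s1) := add_le_add h3 h2
      _ = _ := by ring
  -- step (1)
  obtain ⟨p0, S1, hS1m, hS1A, hS1box, hS1δ, hprob⟩ := exists_S1 hΨ hst hd0 hL1 hLq he hA hB hi hY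
    hBY hZs2 hQ'm hQ'fin hQ'0 hAQ hBQ hAV hBV hβ hedge
  set c0 : ℝ := β / (4 * L * (q + 2)) with hc0
  have hc0p : 0 < c0 := by positivity
  have hE1 := hprob.trans (hent m c hm hst.c_zero hst.c_mem Zs hZs hZs1 _
    ((measurable_const_mul p0) hS1m))
  rw [measure_preimage_mul] at hE1
  have hv1 := ent_vol (M := M) hκ hC hm (pow_pos hc0p L) hE1
  set v1' : ℝ := Real.exp (M.S.Gt Zs) * (c0 ^ L / (C * (m : ℝ) ^ D)) ^ κ⁻¹ with hv1'
  have hv1p : 0 < v1' := by positivity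
  -- the box
  obtain ⟨hN1, hN1log⟩ := log_N1_le (M := M) hK L hm
  obtain ⟨hNS, hNSlog⟩ := log_N1_le (M := M) (rd_qi M).one_le L hm
  set NS : ℕ := N1 M (2 * M.C0 + 1) L m with hNSdef
  have hN1R : (1 : ℝ) ≤ N1 M K L m := by exact_mod_cast hN1
  have hNSR : (1 : ℝ) ≤ NS := by exact_mod_cast hNS
  set M1 : ℝ := C' * ((2 * NS : ℕ) : ℝ) ^ D' * Real.exp (M.S.Gt fun j => (Zs j + e) + bc M s)
    with hM1
  have hNS2 : (0 : ℝ) < ((2 * NS : ℕ) : ℝ) := by push_cast; linarith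
  have hM1p : 0 < M1 := by positivity
  have hboxle : M.μ (box M (x * M.emb p0) (fun j => (Zs j + e) + bc M s)
      (NS + N1 M (2 * M.C0 + 1) 1 m)) ≤ ENNReal.ofReal M1 := by
    refine (measure_mono (box_mono (fun j => le_rfl) (m' := 2 * NS) ?_)).trans
      (hvb (x * M.emb p0) _ (2 * NS) (fun j => by linarith [hZs j]) (by omega))
    have : N1 M (2 * M.C0 + 1) 1 m ≤ NS := N1_mono_L hL1
    omega
  -- step (2)
  set R : ℝ := 2 * (N1 M K L m * (M.C0 * Real.exp (Y + e + 2 * (M.C0 * D0) + c1))) with hRdef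
  have hS1D : S1Data M K Ψ x i L m (fun j => (Zs j + e) + bc M s) R p0 S1 A := by
    refine ⟨hS1m, hS1A, hS1box, ?_⟩
    intro n hn n' hn'
    refine (hS1δ n hn n' hn').trans (le_of_eq ?_)
    rw [hRdef]
    have : M.S.l i (F M Ψ x n' 1) + Y + e + 2 * (M.C0 * dr M K L e) + M.C0 ^ 4 * (K * s + K + 1) =
        (Y + e + 2 * (M.C0 * D0) + c1) + M.S.l i (F M Ψ x n' 1) := by
      rw [hD0, hc1]; ring
    rw [this, Real.exp_add]
    ring
  obtain ⟨q0, hq0, hprob2⟩ := walk_S1 hΨ hst hL1 he hA hAZ hZs2 hS1D hv1p hv1 hM1p hboxle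
  set c2 : ℝ := v1' / (2 * L * (q + 1) * M1) with hc2
  have hc2p : 0 < c2 := by positivity
  set Y' : ℝ := Y + e + 2 * (M.C0 * D0) + c1 + (Real.log (2 * M.C0) + Real.log (N1 M K L m)) with hY'
  have hlogC0 : 0 ≤ Real.log (2 * M.C0) := Real.log_nonneg (by linarith)
  have hlogN : 0 ≤ Real.log (N1 M K L m) := Real.log_nonneg hN1R
  have hY'0 : 0 ≤ Y' := by positivity
  have hRle : R = Real.exp Y' := by
    rw [hRdef, hY', Real.exp_add (Y + e + 2 * (M.C0 * D0) + c1), Real.exp_add (Real.log (2 * M.C0)),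
      Real.exp_log (by positivity), Real.exp_log (by linarith)]
    ring
  set Z' : ι → ℝ := fun j => Zt j + e + M.C0 * D0 + c1 with hZ'
  set S2 : Set H := {w | M.Conn (fun j => M.S.l j (F M Ψ x q0 1) + Z' j) (N1 M K L m)
      (Ψ (x * M.emb q0)) (Ψ (x * M.emb q0 * M.emb w)) ∧
    M.S.l i (M.hgt (Ψ (x * M.emb q0 * M.emb w))) ≤ M.S.l i (F M Ψ x q0 1) + M.C0 * D0 ∧
    ‖M.δ i (Ψ (x * M.emb q0 * M.emb w)) - M.δ i (Ψ (x * M.emb q0))‖ ≤
      R * Real.exp (M.S.l i (F M Ψ x q0 1))} with hS2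
  have hFq : F M Ψ x q0 1 = M.hgt (Ψ (x * M.emb q0)) := by rw [F, mul_one]
  have hvolS2 : M.μ S2 ≤ ENNReal.ofReal (C'' * ((N1 M K L m : ℕ) : ℝ) ^ D'' *
      Real.exp (M.S.Gt Z' - (M.S.l i v - Y'))) := by
    refine hvs Ψ hΨ (x * M.emb q0) S2 (Ψ (x * M.emb q0)) Z' (N1 M K L m) v Y' ?_ hN1 ?_ ?_ hY'0
      ?_ ?_ ?_
    · intro j
      have := hZt j
      simp only [hZ']
      positivity
    · intro j
      have := hv j
      have h0 : 0 ≤ M.C0 * D0 := by positivity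
      simp only [hZ']
      linarith
    · refine hvm.trans ?_
      exact_mod_cast le_N1 hK L
    · intro w hw
      have := hw.1
      rw [hFq] at this
      exact this
    · intro w hw
      have h1 := hw.2.1
      rw [hFq] at h1
      have h0 : 0 ≤ M.C0 * D0 := by positivity
      have h2 : M.C0 * D0 ≤ Y' := by rw [hY']; linarith
      linarith
    · intro w hw
      have h1 := hw.2.2
      rw [hFq, hRle, ← Real.exp_add, add_comm Y'] at h1
      exact h1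
  have hprob3 : ENNReal.ofReal (c2 ^ L) ≤ (Measure.pi fun _ : Fin L => M.ν.prod M.ν)
      {ω | Star.wk (M.mv c q) 1 (Star.extω ω) L ∈ toMeasurable M.μ S2} := by
    refine hprob2.trans (measure_mono fun ω hω => ?_)
    exact subset_toMeasurable _ _ hω
  have hE2 := hprob3.trans (hent m c hm hst.c_zero hst.c_mem Zs hZs hZs1 _
    (measurableSet_toMeasurable _ _))
  rw [measure_toMeasurable] at hE2
  have hfin := exponent_le (M := M) hκ hC hC'' hm hN1 (pow_pos hc2p L) le_rfl hE2 hvolS2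
  -- bookkeeping
  have hg1 : M.S.Gt Z' ≤ M.S.Gt Zt + M.S.Lip * (e + M.C0 * D0 + c1) :=
    M.S.Gt_le_add (by positivity) fun j => by simp only [hZ']; linarith
  have hg2 : (M.S.Gt fun j => (Zs j + e) + bc M s) ≤ M.S.Gt Zs + M.S.Lip * (e + bc M s) :=
    M.S.Gt_le_add (by positivity) fun j => by linarith
  have hlogc2 : Real.log (c2 ^ L)⁻¹ = L * (Real.log (2 * L * (q + 1)) + Real.log M1 -
      Real.log v1') := by
    rw [Real.log_inv, Real.log_pow, hc2, Real.log_div hv1p.ne' (by positivity),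
      Real.log_mul (by positivity) hM1p.ne']
    ring
  have hlogM1 : Real.log M1 = Real.log C' + D' * (nS + 2 * lm) +
      M.S.Gt (fun j => (Zs j + e) + bc M s) := by
    rw [hM1, Real.log_mul (by positivity) (Real.exp_pos _).ne', Real.log_exp,
      Real.log_mul hC'.ne' (by positivity), Real.log_pow]
    push_cast
    rw [Real.log_mul (by norm_num) (by linarith), hNSlog, hnS]
    ring
  have hlogv1 : Real.log v1' = M.S.Gt Zs + κ⁻¹ * (L * (Real.log β - Real.log (4 * L * (q + 2))) -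
      (Real.log C + D * lm)) := by
    rw [hv1', Real.log_mul (Real.exp_pos _).ne' (by positivity), Real.log_exp,
      Real.log_rpow (by positivity), Real.log_div (by positivity) (by positivity), Real.log_pow,
      Real.log_mul hC.ne' (by positivity), Real.log_pow, hc0,
      Real.log_div hβ.ne' (by positivity)]
  rw [hlogc2, hlogM1, hlogv1, hN1log] at hfin
  -- elementary bounds
  have b1 : M.S.Lip * (e + M.C0 * D0 + c1) ≤ M.S.Lip * (1 + M.C0 * adr + ac1) * s1 := by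
    rw [mul_assoc]
    refine mul_le_mul_of_nonneg_left ?_ hLip
    have h1 : M.C0 * D0 ≤ M.C0 * (adr * s1) := by gcongr
    linarith only [h1, hes1, hc1le]
  have b2 : M.S.Lip * (e + bc M s) ≤ M.S.Lip * (1 + abc) * s1 := by
    rw [mul_assoc]
    refine mul_le_mul_of_nonneg_left ?_ hLip
    linarith only [hes1, hbcle]
  have b3 : Y' ≤ Y + (1 + 2 * (M.C0 * adr) + ac1) * s1 + |n1| + |Real.log (2 * M.C0)| + 2 * lm := by
    rw [hY', hN1log]
    have h1 : M.C0 * D0 ≤ M.C0 * (adr * s1) := by gcongr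
    have h2 := le_abs_self n1
    have h3 := le_abs_self (Real.log (2 * M.C0))
    linarith only [h1, h2, h3, hes1, hc1le]
  have b4 : (L : ℝ) * (Real.log (2 * L * (q + 1)) + (Real.log C' + D' * (nS + 2 * lm) +
      M.S.Gt (fun j => (Zs j + e) + bc M s)) - (M.S.Gt Zs +
      κ⁻¹ * (L * (Real.log β - Real.log (4 * L * (q + 2))) - (Real.log C + D * lm)))) ≤
      L * (|Real.log (2 * L * (q + 1))| + |Real.log C'| + D' * |nS| +
        κ⁻¹ * (L * |Real.log (4 * L * (q + 2))| + |Real.log C|) +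
        (2 * D' + κ⁻¹ * D) * lm + M.S.Lip * (1 + abc) * s1 + κ⁻¹ * L * |Real.log β|) := by
    refine mul_le_mul_of_nonneg_left ?_ (by linarith)
    have h1 := le_abs_self (Real.log (2 * L * (q + 1)))
    have h2 := le_abs_self (Real.log C')
    have h3 : (D' : ℝ) * nS ≤ D' * |nS| := mul_le_mul_of_nonneg_left (le_abs_self _) (Nat.cast_nonneg _)
    have h4 : κ⁻¹ * (L * Real.log (4 * L * (q + 2))) ≤ κ⁻¹ * (L * |Real.log (4 * L * (q + 2))|) := by
      gcongr; exact le_abs_self _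
    have h5 : κ⁻¹ * Real.log C ≤ κ⁻¹ * |Real.log C| := by gcongr; exact le_abs_self _
    have h6 : κ⁻¹ * (L * (-Real.log β)) ≤ κ⁻¹ * (L * |Real.log β|) := by
      gcongr; exact neg_le_abs _
    linarith only [h1, h2, h3, h4, h5, h6, hg2, b2]
  have b5 : κ⁻¹ * (|Real.log C| + D * lm) + |Real.log C''| + D'' * (n1 + 2 * lm) ≤
      κ⁻¹ * |Real.log C| + |Real.log C''| + D'' * |n1| + (κ⁻¹ * D + 2 * D'') * lm := by
    have h3 : (D'' : ℝ) * n1 ≤ D'' * |n1| := mul_le_mul_of_nonneg_left (le_abs_self _) (Nat.cast_nonneg _)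
    linarith only [h3]
  have b6 := mul_le_mul_of_nonneg_left b4 hκ'.le
  have hkey : M.S.Gt Zs + M.S.l i v ≤ M.S.Gt Zt + Y + A1 * s1 + A2 + A3 * lm + A4 * |Real.log β| := by
    rw [hA1, hA2, hA3, hA4]
    have e1 : κ⁻¹ * (L * (|Real.log (2 * L * (q + 1))| + |Real.log C'| + D' * |nS| +
        κ⁻¹ * (L * |Real.log (4 * L * (q + 2))| + |Real.log C|) +
        (2 * D' + κ⁻¹ * D) * lm + M.S.Lip * (1 + abc) * s1 + κ⁻¹ * L * |Real.log β|)) =
        κ⁻¹ * (L * (|Real.log (2 * L * (q + 1))| + |Real.log C'| + D' * |nS| +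
        κ⁻¹ * (L * |Real.log (4 * L * (q + 2))| + |Real.log C|))) +
        κ⁻¹ * (L * (2 * D' + κ⁻¹ * D)) * lm + κ⁻¹ * (L * (M.S.Lip * (1 + abc))) * s1 +
        κ⁻¹ * (L * (κ⁻¹ * L)) * |Real.log β| := by ring
    rw [e1] at b6
    linarith only [b6, b5, b3, b1, hg1, hfin]
  have h0 := abs_nonneg (Real.log β)
  have g1 : A2 ≤ A2 * s1 := le_mul_of_one_le_right hA2p hs11
  have g2 : 0 ≤ (A3 + A4) * s1 := by positivity
  have g3 : 0 ≤ (A1 + A2 + A4) * lm := by positivity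
  have g4 : 0 ≤ (A1 + A2 + A3) * |Real.log β| := by positivity
  linarith only [hkey, g1, g2, g3, g4]

end Crest.Agent.R182.Facet
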