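/-
R182, module FACET (helper710): the facet inequality at a general base vertex.
-/
import Crest.Agent.R182.FacetIneq

set_option autoImplicit false
set_option linter.unusedSectionVars false

namespace Crest.Agent.R182.Facet

open MeasureTheory Cap CapModel

variable {G H ι E : Type*} [Group G] [Group H] [MeasurableSpace H] [MeasurableMul₂ H]
    [MeasurableInv H] [Fintype ι] [NormedAddCommGroup E] [NormedSpace ℝ E]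

variable {M : CapModel G H ι E}

theorem F_base (Ψ : G → G) (x g0 : G) (n : H) (g : G) :
    F M Ψ (x * g0) n g = F M Ψ x (M.cj g0 n) (g0 * g) := by
  unfold F
  rw [M.emb_cj]
  congr 2
  group

theorem cj_preserving (M : CapModel G H ι E) (g : G) : MeasurePreserving (M.cj g) M.μ M.μ :=
  ⟨M.cj_meas g, M.cj_map g⟩

theorem Tk_base (g0 : G) (B : Set H) (n : H) :
    Star.Tk M.ν (M.cj 1) (M.cj g0 ⁻¹' B) n = Star.Tk M.ν (M.cj g0) B (M.cj g0 n) := by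
  unfold Star.Tk
  congr 1
  ext p
  show M.cj g0 (n * (M.cj 1 p.1)⁻¹ * M.cj 1 p.2) ∈ B ↔ _
  rw [M.cj_one, M.cj_one, map_mul, map_mul, map_inv]
  rfl

/-- **the facet inequality**, at the base vertex `g0` -/
theorem facet_ineq' (hR : M.Reach) (hE : M.Ent) {K : ℝ} (hK : 1 ≤ K) (q : ℕ) {i : ι}
    (hi : M.S.NZ i) : ∃ Ac : ℝ, 0 ≤ Ac ∧ ∀ Ψ : G → G, QI M K Ψ →
    ∀ (r m : ℕ) (s e : ℝ) (c : ℕ → G) (d : ℕ → ℕ → G), StarData M q r m s c d →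
    (∀ t, d 0 t = 1) → 0 ≤ e → ∀ Zs Zt : ι → ℝ, (∀ j, 0 ≤ Zs j) → (∀ j, 0 ≤ Zt j) →
    (∀ j, ∃ k ≤ q, Zs j ≤ max 0 (M.S.l j (M.hgt (c k)))) →
    (∀ k ≤ q, ∀ t ≤ r, ∀ j, M.S.l j (M.hgt (d k t)) ≤ Zs j + e) →
    ∀ v : E, (∀ j, M.S.l j v ≤ Zt j) → ‖v‖ ≤ m →
    ∀ (x g0 : G) (A B : Set H) (v1 v2 : ℕ → E), MeasurableSet A → MeasurableSet B →
    (∀ n ∈ A, ∀ k ≤ q, ‖F M Ψ x n (g0 * c k) - F M Ψ x n g0 - v1 k‖ ≤ e) →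
    (∀ n ∈ B, ∀ k ≤ q, ‖F M Ψ x n (g0 * c k) - F M Ψ x n g0 - v2 k‖ ≤ e) →
    (∀ n ∈ A, ∀ k ≤ q, ∀ t ≤ r, ∀ j,
      M.S.l j (F M Ψ x n (g0 * d k t)) ≤ M.S.l j (F M Ψ x n g0) + Zt j + e) →
    ∀ Y : ℝ, 0 ≤ Y →
    (∀ n ∈ B, ∀ k ≤ q, ∀ t ≤ r,
      M.S.l i (F M Ψ x n (g0 * d k t)) ≤ M.S.l i (F M Ψ x n g0) + Y + e) →
    ∀ Q' : Set H, MeasurableSet Q' → M.μ Q' ≠ ⊤ → M.μ Q' ≠ 0 → M.μ A ≤ M.μ Q' → M.μ B ≤ M.μ Q' →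
    (∀ k ≤ q, ∀ a ∈ M.V, ∀ n ∈ A, n * (M.cj (g0 * c k) a)⁻¹ ∈ Q') →
    (∀ k ≤ q, ∀ a ∈ M.V, ∀ n ∈ B, n * (M.cj (g0 * c k) a)⁻¹ ∈ Q') →
    ∀ β : ℝ, 0 < β →
    ENNReal.ofReal β * M.μ Q' ≤ ∫⁻ n in A, Star.Tk M.ν (M.cj g0) B n ∂M.μ →
    M.S.Gt Zs + M.S.l i v ≤ M.S.Gt Zt + Y + Ac * (s + 1 + e) + Ac * Real.log m +
      Ac * |Real.log β| := by
  obtain ⟨Ac, hAc, hfac⟩ := facet_ineq hR hE hK q hi
  refine ⟨Ac, hAc, ?_⟩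
  intro Ψ hΨ r m s e c d hst hd0 he Zs Zt hZs hZt hZs1 hZs2 v hv hvm x g0 A B v1 v2 hAm hBm hA hB
    hAZ Y hY hBY Q' hQ'm hQ'fin hQ'0 hAQ hBQ hAV hBV β hβ hedge
  have hm : ∀ S : Set H, M.μ (M.cj g0 ⁻¹' S) = M.μ S := M.μ_cj_image g0
  have hF1 : ∀ n, F M Ψ (x * g0) n 1 = F M Ψ x (M.cj g0 n) g0 := by
    intro n; rw [F_base, mul_one]
  refine hfac Ψ hΨ r m s e c d hst hd0 he Zs Zt hZs hZt hZs1 hZs2 v hv hvm (x * g0)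
    (M.cj g0 ⁻¹' A) (M.cj g0 ⁻¹' B) v1 v2 ⟨M.cj_meas g0 hAm, ?_⟩ ⟨M.cj_meas g0 hBm, ?_⟩ ?_ Y hY ?_
    (M.cj g0 ⁻¹' Q') (M.cj_meas g0 hQ'm) (by rw [hm]; exact hQ'fin) (by rw [hm]; exact hQ'0)
    (by rw [hm, hm]; exact hAQ) (by rw [hm, hm]; exact hBQ) ?_ ?_ β hβ ?_
  · intro n hn k hk
    rw [hF1, F_base]
    exact hA _ hn k hk
  · intro n hn k hk
    rw [hF1, F_base]
    exact hB _ hn k hk
  · intro n hn k hk t ht j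
    rw [hF1, F_base]
    exact hAZ _ hn k hk t ht j
  · intro n hn k hk t ht
    rw [hF1, F_base]
    exact hBY _ hn k hk t ht
  · intro k hk a ha n hn
    show M.cj g0 (n * (M.cj (c k) a)⁻¹) ∈ Q'
    rw [map_mul, map_inv, ← M.cj_mul]
    exact hAV k hk a ha _ hn
  · intro k hk a ha n hn
    show M.cj g0 (n * (M.cj (c k) a)⁻¹) ∈ Q'
    rw [map_mul, map_inv, ← M.cj_mul]
    exact hBV k hk a ha _ hn
  · rw [hm, hst.c_zero]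
    refine hedge.trans (le_of_eq ?_)
    have h1 : ∀ n, Star.Tk M.ν (M.cj 1) (M.cj g0 ⁻¹' B) n =
        Star.Tk M.ν (M.cj g0) B (M.cj g0 n) := Tk_base g0 B
    simp only [h1]
    have hTm : Measurable (Star.Tk M.ν (M.cj g0) B) := Star.measurable_Tk (M.cj_meas g0) hBm
    exact ((cj_preserving M g0).setLIntegral_comp_preimage hAm hTm).symm

end Crest.Agent.R182.Facet
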