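/-
R182, module FACET (helper710): two different laws are separated in every open half space.
-/
import Crest.Agent.R182.StarSys
import Crest.Agent.R182.ConvType

set_option autoImplicit false
set_option linter.unusedSectionVars false

namespace Crest.Agent.R182.Facet

open Crest.Agent.R182.Star Conv

variable {ι : Type*} [Fintype ι] {E : Type*} [NormedAddCommGroup E] [InnerProductSpace ℝ E]

/-- the linear map permutes the directions -/
def IsPerm (R : RSys ι E) (L : E →ₗ[ℝ] E) : Prop := ∃ σ : Equiv.Perm R.Eb, ∀ e : R.Eb, L e = σ e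

section

variable {R : RSys ι E}

theorem IsPerm.mem {L : E →ₗ[ℝ] E} (h : IsPerm R L) : ∀ e ∈ R.Eb, L e ∈ R.Eb := by
  obtain ⟨σ, hσ⟩ := h
  intro e he
  rw [hσ ⟨e, he⟩]; exact (σ ⟨e, he⟩).2

theorem NZ_iff (i : ι) : R.NZ i ↔ R.lam i ≠ 0 := by
  constructor
  · rintro ⟨x, hx⟩ h
    rw [R.l_eq, h, zero_mul] at hx
    exact hx rfl
  · intro h
    refine ⟨R.dir i, ?_⟩
    rw [R.l_eq, real_inner_self_eq_norm_sq, R.unit _ (R.dir_mem i h)]
    simpa using h

variable [FiniteDimensional ℝ E]

theorem finite_isPerm : {L : E →ₗ[ℝ] E | IsPerm R L}.Finite :=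
  (finite_lin R.span_Eb).subset fun _ h => IsPerm.mem h

theorem IsPerm.pow {L : E →ₗ[ℝ] E} (h : IsPerm R L) : ∃ m : ℕ, 1 ≤ m ∧ L ^ m = 1 := by
  obtain ⟨σ, hσ⟩ := h
  refine ⟨orderOf σ, orderOf_pos σ, ?_⟩
  have key : ∀ (m : ℕ) (e : R.Eb), (L ^ m) (e : E) = ((σ ^ m) e : R.Eb) := by
    intro m
    induction m with
    | zero => intro e; simp
    | succ m ih =>
      intro e
      rw [pow_succ', Module.End.mul_apply, ih, hσ, pow_succ', Equiv.Perm.mul_apply]
  apply LinearMap.ext_on R.span_Eb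
  intro e he
  have := key (orderOf σ) ⟨e, he⟩
  rw [pow_orderOf_eq_one] at this
  simpa using this

/-- some generating weight is nonnegative at every vector -/
theorem exists_nonneg (R : RSys ι E) {er : E} (her : er ∈ R.Eb) (v : E) :
    ∃ i, R.NZ i ∧ 0 ≤ R.l i v := by
  by_contra hcon
  push Not at hcon
  obtain ⟨n, hn⟩ := R.ne
  have h1 := R.tr n hn v
  obtain ⟨i0, hi0, _⟩ := R.exists_dir er her
  have h2 : ∑ i, (n i : ℝ) * R.l i v < ∑ i : ι, (0 : ℝ) := by
    refine Finset.sum_lt_sum (fun i _ => ?_) ⟨i0, Finset.mem_univ _, ?_⟩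
    · have hni : (0 : ℝ) ≤ n i := Nat.cast_nonneg _
      by_cases h : R.NZ i
      · exact mul_nonpos_of_nonneg_of_nonpos hni (hcon i h).le
      · have h0 : R.l i v = 0 := by
          by_contra h3
          exact h ⟨v, h3⟩
        rw [h0, mul_zero]
    · have hni : (1 : ℝ) ≤ n i0 := by exact_mod_cast R.one_le n hn i0
      have := hcon i0 ((NZ_iff i0).2 hi0.ne')
      nlinarith
  rw [h1] at h2
  simp at h2

/-- if `g` does not decrease in the half space, it is preserved. -/
theorem g_eq_of_le {L : E →ₗ[ℝ] E} (hL : IsPerm R L) {er : E} (her : er ∈ R.Eb)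
    (h : ∀ a, inner ℝ er a < 0 → R.g a ≤ R.g (L a)) (a : E) : R.g (L a) = R.g a := by
  have hu := R.unit er her
  have h1 : ∀ a, R.g a ≤ R.g (L a) := by
    intro a
    rcases lt_trichotomy (inner ℝ er a) 0 with h2 | h2 | h2
    · exact h a h2
    · refine le_of_forall_pos_le_add fun ε hε => ?_
      set c := R.g (L er) + R.g er + 1 with hc
      have hcp : 0 < c := by
        have := R.g_nonneg (L er)
        have := R.g_nonneg er
        linarith
      have h3 : inner ℝ er (a - (ε / c) • er) < 0 := by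
        rw [inner_sub_right, inner_smul_right, real_inner_self_eq_norm_sq, hu, h2]
        have : 0 < ε / c := by positivity
        linarith
      have h4 := h _ h3
      have h5 : R.g a ≤ R.g (a - (ε / c) • er) + ε / c * R.g er := by
        have := R.g_add_le (a - (ε / c) • er) ((ε / c) • er)
        rwa [sub_add_cancel, R.g_smul_of_nonneg (by positivity)] at this
      have h6 : R.g (L (a - (ε / c) • er)) ≤ R.g (L a) + ε / c * R.g (L er) := by
        have h7 : L (a - (ε / c) • er) = L a + -((ε / c) • L er) := by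
          rw [map_sub, map_smul, sub_eq_add_neg]
        rw [h7]
        have := R.g_add_le (L a) (-((ε / c) • L er))
        rwa [R.g_neg, R.g_smul_of_nonneg (by positivity)] at this
      have h7 : ε / c * R.g er + ε / c * R.g (L er) ≤ ε := by
        have : ε / c * R.g er + ε / c * R.g (L er) = ε * ((R.g (L er) + R.g er) / c) := by ring
        rw [this]
        have h8 : (R.g (L er) + R.g er) / c ≤ 1 := by
          rw [div_le_one hcp]; linarith
        nlinarith
      linarith
    · have h3 := h (-a) (by rw [inner_neg_right]; linarith)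
      rwa [map_neg, R.g_neg, R.g_neg] at h3
  obtain ⟨m, hm, hm1⟩ := hL.pow
  have h2 : ∀ (j : ℕ) (a : E), R.g a ≤ R.g ((L ^ j) a) := by
    intro j
    induction j with
    | zero => intro a; simp
    | succ j ih =>
      intro a
      rw [pow_succ, Module.End.mul_apply]
      exact (h1 a).trans (ih _)
  refine le_antisymm ?_ (h1 a)
  have h3 := h2 (m - 1) (L a)
  have h4 : (L ^ (m - 1)) (L a) = a := by
    have : (L ^ (m - 1)) (L a) = (L ^ (m - 1 + 1)) a := by rw [pow_succ, Module.End.mul_apply]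
    rw [this, Nat.sub_add_cancel hm, hm1]; rfl
  rwa [h4] at h3

/-- one generating weight composed with a law, which is `≤ 0` on the half space -/
theorem comp_of_nonpos {L : E →ₗ[ℝ] E} (hL : IsPerm R L) {er : E} (her : er ∈ R.Eb) {i : ι}
    (hi : R.NZ i) (h : ∀ a, inner ℝ er a < 0 → R.l i (L a) ≤ 0) (a : E) :
    R.l i (L a) = R.lam i * inner ℝ er a := by
  have hu := R.unit er her
  have hlam : R.lam i ≠ 0 := (NZ_iff i).1 hi
  have hlp : 0 < R.lam i := lt_of_le_of_ne (R.lam_nonneg i) (Ne.symm hlam)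
  obtain ⟨c, hc, hc2⟩ := exists_nonneg_mul (ξ := (innerₛₗ ℝ er : E →ₗ[ℝ] ℝ))
    (η := (R.l i) ∘ₗ L) ⟨er, by
      rw [innerₛₗ_apply_apply, real_inner_self_eq_norm_sq, hu]; norm_num⟩ (fun w hw => h w hw)
  have hc3 : ∀ x, R.l i (L x) = c * inner ℝ er x := hc2
  obtain ⟨σ, hσ⟩ := hL
  have hdm := R.dir_mem i hlam
  set e1 : R.Eb := σ.symm ⟨R.dir i, hdm⟩ with he1
  have h1 : L (e1 : E) = R.dir i := by rw [hσ, he1, Equiv.apply_symm_apply]
  have hd := R.unit _ hdm
  have h2 : R.lam i = c * inner ℝ er (e1 : E) := by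
    have := hc3 e1
    rw [h1, R.l_eq, real_inner_self_eq_norm_sq, hd] at this
    simpa using this
  have h3 : c ≤ R.lam i := by
    have h4 := hc3 er
    rw [real_inner_self_eq_norm_sq, hu, R.l_eq] at h4
    have h5 : inner ℝ (R.dir i) (L er) ≤ 1 := by
      have h6 := real_inner_le_norm (R.dir i) (L er)
      have h7 : ‖L er‖ = 1 := by
        rw [hσ ⟨er, her⟩]; exact R.unit _ (σ ⟨er, her⟩).2
      rwa [hd, h7, one_mul] at h6
    have h6 : R.lam i * inner ℝ (R.dir i) (L er) ≤ R.lam i * 1 :=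
      mul_le_mul_of_nonneg_left h5 hlp.le
    linarith
  have h4 : inner ℝ er (e1 : E) ≤ 1 := by
    have h6 := real_inner_le_norm er (e1 : E)
    rwa [hu, R.unit _ e1.2, one_mul] at h6
  have h5 : c = R.lam i := by
    refine le_antisymm h3 ?_
    rw [h2]
    calc c * inner ℝ er (e1 : E) ≤ c * 1 := mul_le_mul_of_nonneg_left h4 hc
      _ = c := mul_one c
  rw [hc3, h5]

/-- **two laws which agree on positive values in a half space are equal.** -/
theorem eq_of_le {L1 L2 : E →ₗ[ℝ] E} (h1 : IsPerm R L1) (h2 : IsPerm R L2) {er : E}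
    (her : er ∈ R.Eb)
    (h12 : ∀ a, inner ℝ er a < 0 → ∀ i, R.NZ i → R.l i (L1 a) ≤ max 0 (R.l i (L2 a)))
    (h21 : ∀ a, inner ℝ er a < 0 → ∀ i, R.NZ i → R.l i (L2 a) ≤ max 0 (R.l i (L1 a))) :
    L1 = L2 := by
  have key : ∀ i, R.NZ i → ∀ L L' : E →ₗ[ℝ] E,
      (∀ a, inner ℝ er a < 0 → R.l i (L a) ≤ max 0 (R.l i (L' a))) →
      (∀ a, inner ℝ er a < 0 → R.l i (L' a) ≤ max 0 (R.l i (L a))) →
      (∃ a0, inner ℝ er a0 < 0 ∧ 0 < R.l i (L a0)) → ∀ v, R.l i (L v) = R.l i (L' v) := by
    intro i _ L L' h h' ⟨a0, ha0, hp⟩ v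
    -- equality near `a0`
    have hloc : ∀ a, inner ℝ er a < 0 → 0 < R.l i (L a) → R.l i (L a) = R.l i (L' a) := by
      intro a ha hpa
      have g1 := h a ha
      have g2 := h' a ha
      rw [max_eq_right hpa.le] at g2
      rcases le_or_gt (R.l i (L' a)) 0 with g3 | g3
      · rw [max_eq_left g3] at g1; linarith
      · rw [max_eq_right g3.le] at g1; linarith
    have e0 := hloc a0 ha0 hp
    -- perturb
    obtain ⟨t, ht, ht1, ht2⟩ : ∃ t : ℝ, 0 < t ∧ inner ℝ er (a0 + t • v) < 0 ∧
        0 < R.l i (L (a0 + t • v)) := by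
      have c1 : Filter.Tendsto (fun t : ℝ => inner ℝ er (a0 + t • v)) (nhdsWithin 0 (Set.Ioi 0))
          (nhds (inner ℝ er a0)) := by
        have : Continuous fun t : ℝ => inner ℝ er (a0 + t • v) := by fun_prop
        have := this.tendsto 0
        simp only [zero_smul, add_zero] at this
        exact this.mono_left nhdsWithin_le_nhds
      have c2 : Filter.Tendsto (fun t : ℝ => R.l i (L (a0 + t • v))) (nhdsWithin 0 (Set.Ioi 0))
          (nhds (R.l i (L a0))) := by
        have : Continuous fun t : ℝ => R.l i (L (a0 + t • v)) := by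
          simp only [map_add, map_smul, smul_eq_mul]; fun_prop
        have := this.tendsto 0
        simp only [zero_smul, add_zero] at this
        exact this.mono_left nhdsWithin_le_nhds
      have e1 := c1.eventually (gt_mem_nhds ha0)
      have e2 := c2.eventually (lt_mem_nhds hp)
      obtain ⟨t, ht⟩ := (e1.and (e2.and self_mem_nhdsWithin)).exists
      exact ⟨t, ht.2.2, ht.1, ht.2.1⟩
    have e1 := hloc _ ht1 ht2
    simp only [map_add, map_smul, smul_eq_mul] at e1
    have e2 : t * R.l i (L v) = t * R.l i (L' v) := by linarith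
    exact mul_left_cancel₀ ht.ne' e2
  have hall : ∀ i, R.NZ i → ∀ v, R.l i (L1 v) = R.l i (L2 v) := by
    intro i hi v
    by_cases c1 : ∃ a0, inner ℝ er a0 < 0 ∧ 0 < R.l i (L1 a0)
    · exact key i hi L1 L2 (fun a ha => h12 a ha i hi) (fun a ha => h21 a ha i hi) c1 v
    · by_cases c2 : ∃ a0, inner ℝ er a0 < 0 ∧ 0 < R.l i (L2 a0)
      · exact (key i hi L2 L1 (fun a ha => h21 a ha i hi) (fun a ha => h12 a ha i hi) c2 v).symm
      · push Not at c1 c2
        rw [comp_of_nonpos h1 her hi c1, comp_of_nonpos h2 her hi c2]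
  ext v
  have : L1 v - L2 v = 0 := by
    refine R.sep _ fun i => ?_
    by_cases hi : R.NZ i
    · rw [map_sub, hall i hi v, sub_self]
    · by_contra h3
      exact hi ⟨_, h3⟩
  exact sub_eq_zero.1 this

/-- the gap functional of the facet inequality -/
noncomputable def gap (R : RSys ι E) (i : ι) (a v1 v2 : E) : ℝ :=
  R.g a + R.l i v1 - R.g v1 - max 0 (R.l i v2)

/-- **geometry of FACET**: for different laws one of the four facet inequalities fails, in every
open half space `⟪er, a⟫ < 0`. -/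
theorem exists_gap {L1 L2 : E →ₗ[ℝ] E} (h1 : IsPerm R L1) (h2 : IsPerm R L2) (hne : L1 ≠ L2)
    {er : E} (her : er ∈ R.Eb) : ∃ a, inner ℝ er a < 0 ∧ ∃ i, R.NZ i ∧
      (0 < gap R i a (L1 a) (L1 a) ∨ 0 < gap R i a (L2 a) (L2 a) ∨
        0 < gap R i a (L1 a) (L2 a) ∨ 0 < gap R i a (L2 a) (L1 a)) := by
  by_contra hcon
  push Not at hcon
  have hty : ∀ L : E →ₗ[ℝ] E, IsPerm R L →
      (∀ a, inner ℝ er a < 0 → ∀ i, R.NZ i → gap R i a (L a) (L a) ≤ 0) →
      ∀ a, R.g (L a) = R.g a := by
    intro L hL h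
    refine g_eq_of_le hL her fun a ha => ?_
    obtain ⟨i, hi, hi2⟩ := exists_nonneg R her (L a)
    have := h a ha i hi
    unfold gap at this
    rw [max_eq_right hi2] at this
    linarith
  have g1 := hty L1 h1 fun a ha i hi => (hcon a ha i hi).1
  have g2 := hty L2 h2 fun a ha i hi => (hcon a ha i hi).2.1
  refine hne (eq_of_le h1 h2 her (fun a ha i hi => ?_) (fun a ha i hi => ?_))
  · have := (hcon a ha i hi).2.2.1
    unfold gap at this
    rw [g1] at this
    linarith
  · have := (hcon a ha i hi).2.2.2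
    unfold gap at this
    rw [g2] at this
    linarith

/-- the gap is homogeneous -/
theorem gap_smul {c : ℝ} (hc : 0 ≤ c) (i : ι) (a v1 v2 : E) :
    gap R i (c • a) (c • v1) (c • v2) = c * gap R i a v1 v2 := by
  unfold gap
  rw [R.g_smul_of_nonneg hc, R.g_smul_of_nonneg hc, map_smul, map_smul, smul_eq_mul, smul_eq_mul]
  have : max 0 (c * R.l i v2) = c * max 0 (R.l i v2) := by
    rw [mul_max_of_nonneg _ _ hc, mul_zero]
  rw [this]; ring

end

end Crest.Agent.R182.Facet
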