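/-
R182, module STAR (helper554): legs in a capacity model, the capacity inequality at one scale.
-/
import Crest.Agent.R182.StarSys
import Crest.Agent.R182.CapMain

set_option autoImplicit false
set_option linter.unusedSectionVars false

open MeasureTheory ENNReal List

namespace Crest.Agent.R182.Star

open Crest.Agent.R182.Conv Crest.Agent.R182.Cap

section Bl

variable {G : Type*} [Group G]

/-- products of at most `m` elements of `T ∪ T⁻¹` -/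
def Bl (T : Set G) (m : ℕ) : Set G :=
  {g | ∃ l : List G, l.length ≤ m ∧ (∀ s ∈ l, s ∈ T ∨ s⁻¹ ∈ T) ∧ l.prod = g}

variable {T : Set G}

theorem one_mem_Bl (m : ℕ) : (1 : G) ∈ Bl T m := ⟨[], by simp⟩

theorem Bl_mono {m m' : ℕ} (h : m ≤ m') : Bl T m ⊆ Bl T m' := by
  rintro g ⟨l, h1, h2, h3⟩; exact ⟨l, h1.trans h, h2, h3⟩

theorem Bl_mul {m m' : ℕ} {g g' : G} (h : g ∈ Bl T m) (h' : g' ∈ Bl T m') :
    g * g' ∈ Bl T (m + m') := by
  obtain ⟨l, h1, h2, rfl⟩ := h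
  obtain ⟨l', h1', h2', rfl⟩ := h'
  refine ⟨l ++ l', by rw [length_append]; omega, fun s hs => ?_, prod_append⟩
  rcases mem_append.mp hs with h | h
  · exact h2 s h
  · exact h2' s h

theorem Bl_inv {m : ℕ} {g : G} (h : g ∈ Bl T m) : g⁻¹ ∈ Bl T m := by
  obtain ⟨l, h1, h2, rfl⟩ := h
  refine ⟨(l.map fun x => x⁻¹).reverse, by simpa using h1, fun s hs => ?_, ?_⟩
  · rw [mem_reverse, mem_map] at hs
    obtain ⟨a, ha, rfl⟩ := hs
    rw [inv_inv]
    exact (h2 a ha).symm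
  · rw [prod_inv_reverse]

theorem Bl_pow {m : ℕ} {g : G} (h : g ∈ Bl T m) (p : ℕ) : g ^ p ∈ Bl T (p * m) := by
  induction p with
  | zero => rw [pow_zero]; exact one_mem_Bl _
  | succ p ih => rw [pow_succ, Nat.succ_mul]; exact Bl_mul ih h

/-- (SLOW) conjugation by long elements keeps short elements relatively short. -/
def Slow (T : Set G) : Prop := ∀ A δ : ℝ, 0 < δ → ∃ δ' : ℝ, 0 < δ' ∧ ∃ N0 : ℕ, ∀ N ≥ N0,
  ∀ m m' : ℕ, (m : ℝ) ≤ δ' * N → (m' : ℝ) ≤ A * N → ∀ y ∈ Bl T m, ∀ c ∈ Bl T m',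
    ∃ m'' : ℕ, (m'' : ℝ) ≤ δ * N ∧ c⁻¹ * y * c ∈ Bl T m''

/-- (POW) elements of almost zero height have slowly growing powers. -/
def Pow {E : Type*} [Norm E] (T : Set G) (hgt : G → E) : Prop := ∀ κ B : ℝ, 0 < κ →
  ∃ j : ℕ, 1 ≤ j ∧ ∃ ε : ℝ, 0 < ε ∧ ∃ N0 : ℕ, ∀ N ≥ N0, ∀ m : ℕ, (m : ℝ) ≤ B * N →
    ∀ h ∈ Bl T m, ‖hgt h‖ ≤ ε * N → ∃ m' : ℕ, (m' : ℝ) ≤ κ * j * N ∧ h ^ j ∈ Bl T m'

end Bl

variable {G H ι E : Type*} [Group G] [Group H] [MeasurableSpace H] [MeasurableMul₂ H]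
    [MeasurableInv H] [Fintype ι] [NormedAddCommGroup E] [InnerProductSpace ℝ E]

theorem Bl_subset_Cl (M : CapModel G H ι E) {T : Set G} {r0 : ℕ} (hT : ∀ s ∈ T, s ∈ M.Cl r0)
    {m : ℕ} {g : G} (h : g ∈ Bl T m) : g ∈ M.Cl (m * r0) := by
  obtain ⟨l, h1, h2, rfl⟩ := h
  refine M.Cl_mono (l.length * r0) _ (Nat.mul_le_mul_right _ h1) ?_
  clear h1
  induction l with
  | nil => simpa using M.one_mem_Cl
  | cons s l ih =>
    rw [prod_cons, length_cons, Nat.succ_mul, add_comm]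
    refine M.Cl_mul _ _ _ _ ?_ (ih fun s hs => h2 s (mem_cons_of_mem _ hs))
    rcases h2 s mem_cons_self with h | h
    · exact hT s h
    · have := M.Cl_inv _ _ (hT _ h)
      rwa [inv_inv] at this

theorem len_Bl (M : CapModel G H ι E) {T : Set G} {r0 : ℕ} (hT : ∀ s ∈ T, s ∈ M.Cl r0)
    {m : ℕ} {g : G} (h : g ∈ Bl T m) : M.len g ≤ M.C0 * (r0 * m) := by
  have := M.len_Cl _ _ (Bl_subset_Cl M hT h)
  push_cast at this
  rwa [mul_comm (r0 : ℝ)]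

/-- Legs in the Riesz directions, with accuracy `eps`. -/
structure Legs (M : CapModel G H ι E) (R : RSys ι E) (T : Set G) (Cb eps : ℝ) where
  b : R.Eb → G
  mE : R.Eb → ℝ
  mE_pos : ∀ e, 0 < mE e
  rb : R.Eb → ℕ
  b_mem : ∀ e, b e ∈ Bl T (rb e)
  rb_le : ∀ e, (rb e : ℝ) ≤ Cb * mE e
  acc : ∀ e, ‖M.hgt (b e) - mE e • (e : E)‖ ≤ eps * mE e

namespace Legs

variable {M : CapModel G H ι E} {R : RSys ι E} {T : Set G} {Cb eps : ℝ}

/-- the exponent of the unit leg -/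
noncomputable def p (𝓛 : Legs M R T Cb eps) (N : ℕ) (t : ℝ) (e : R.Eb) : ℕ := ⌊t * N / 𝓛.mE e⌋₊

/-- the unit leg -/
noncomputable def u (𝓛 : Legs M R T Cb eps) (N : ℕ) (t : ℝ) (e : R.Eb) : G := 𝓛.b e ^ 𝓛.p N t e

/-- the position reached by a word -/
noncomputable def pos (𝓛 : Legs M R T Cb eps) (N : ℕ) (τ : ℝ) (w : List R.Eb) : G :=
  (w.map fun e => 𝓛.u N τ e).prod

variable (𝓛 : Legs M R T Cb eps)

theorem pos_nil (N : ℕ) (τ : ℝ) : 𝓛.pos N τ [] = 1 := rfl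

theorem pos_append (N : ℕ) (τ : ℝ) (w w' : List R.Eb) :
    𝓛.pos N τ (w ++ w') = 𝓛.pos N τ w * 𝓛.pos N τ w' := by
  simp [pos]

theorem pos_replicate (N : ℕ) (τ : ℝ) (a : ℕ) (e : R.Eb) :
    𝓛.pos N τ (replicate a e) = 𝓛.u N τ e ^ a := by
  simp [pos]

theorem pos_singleton (N : ℕ) (τ : ℝ) (e : R.Eb) : 𝓛.pos N τ [e] = 𝓛.u N τ e := by
  simp [pos]

theorem pos_flatten (N : ℕ) (τ : ℝ) (w : List R.Eb) (j : ℕ) :
    𝓛.pos N τ ((replicate j w).flatten) = 𝓛.pos N τ w ^ j := by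
  induction j with
  | zero => simp [pos]
  | succ j ih => rw [replicate_succ, flatten_cons, pos_append, ih, pow_succ']

theorem p_le {N : ℕ} {t : ℝ} (ht : 0 ≤ t) (e : R.Eb) : (𝓛.p N t e : ℝ) * 𝓛.mE e ≤ t * N := by
  have h1 := Nat.floor_le (div_nonneg (mul_nonneg ht (Nat.cast_nonneg N)) (𝓛.mE_pos e).le)
  rwa [le_div_iff₀ (𝓛.mE_pos e)] at h1

theorem lt_p {N : ℕ} (t : ℝ) (e : R.Eb) : t * N - 𝓛.mE e < (𝓛.p N t e : ℝ) * 𝓛.mE e := by
  have h1 := Nat.lt_floor_add_one (t * N / 𝓛.mE e)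
  rw [div_lt_iff₀ (𝓛.mE_pos e)] at h1
  have : (((⌊t * N / 𝓛.mE e⌋₊ : ℕ) : ℝ) + 1) * 𝓛.mE e =
    (𝓛.p N t e : ℝ) * 𝓛.mE e + 𝓛.mE e := by unfold p; ring
  linarith

theorem u_mem (N : ℕ) (t : ℝ) (e : R.Eb) : 𝓛.u N t e ∈ Bl T (𝓛.p N t e * 𝓛.rb e) :=
  Bl_pow (𝓛.b_mem e) _

theorem p_rb_le {N : ℕ} {t : ℝ} (ht : 0 ≤ t) (e : R.Eb) :
    ((𝓛.p N t e * 𝓛.rb e : ℕ) : ℝ) ≤ Cb * (t * N) := by
  have h1 := 𝓛.p_le (N := N) ht e
  have h2 := 𝓛.rb_le e
  have h3 : 0 ≤ Cb := by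
    by_contra h
    push Not at h
    have : Cb * 𝓛.mE e < 0 := mul_neg_of_neg_of_pos h (𝓛.mE_pos e)
    have : (0 : ℝ) ≤ 𝓛.rb e := Nat.cast_nonneg _
    linarith
  push_cast
  calc (𝓛.p N t e : ℝ) * 𝓛.rb e ≤ 𝓛.p N t e * (Cb * 𝓛.mE e) := by gcongr
    _ = Cb * (𝓛.p N t e * 𝓛.mE e) := by ring
    _ ≤ Cb * (t * N) := by gcongr

theorem hgt_pow (g : G) (p : ℕ) : M.hgt (g ^ p) = (p : ℝ) • M.hgt g := by
  induction p with
  | zero => simp [M.hgt_one]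
  | succ p ih => rw [pow_succ, M.hgt_mul, ih]; push_cast; rw [add_smul, one_smul]

/-- height of a leg -/
theorem hgt_u {N : ℕ} {t : ℝ} (ht : 0 ≤ t) (heps : 0 ≤ eps) (e : R.Eb) (a : ℕ) (he : ‖(e : E)‖ = 1) :
    ‖M.hgt (𝓛.u N t e ^ a) - (a * (t * N)) • (e : E)‖ ≤ a * (eps * (t * N) + 𝓛.mE e) := by
  unfold u
  rw [hgt_pow, hgt_pow, smul_smul]
  have h1 := 𝓛.p_le (N := N) ht e
  have h2 := 𝓛.lt_p (N := N) t e
  have h3 := 𝓛.acc e
  have ha : (0 : ℝ) ≤ a := Nat.cast_nonneg a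
  have hp : (0 : ℝ) ≤ 𝓛.p N t e := Nat.cast_nonneg _
  have e1 : ((a : ℝ) * 𝓛.p N t e) • M.hgt (𝓛.b e) - (a * (t * N)) • (e : E) =
      ((a : ℝ) * 𝓛.p N t e) • (M.hgt (𝓛.b e) - 𝓛.mE e • (e : E)) +
      (a * (𝓛.p N t e * 𝓛.mE e - t * N)) • (e : E) := by
    rw [smul_sub, smul_smul]
    rw [show (a : ℝ) * (𝓛.p N t e * 𝓛.mE e - t * N) = a * 𝓛.p N t e * 𝓛.mE e - a * (t * N) by ring,
      sub_smul]
    abel
  rw [e1]
  refine (norm_add_le _ _).trans ?_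
  rw [norm_smul, norm_smul, he, mul_one, Real.norm_of_nonneg (by positivity), Real.norm_eq_abs,
    abs_mul, abs_of_nonneg ha]
  have h4 : |(𝓛.p N t e : ℝ) * 𝓛.mE e - t * N| ≤ 𝓛.mE e := by
    rw [abs_le]; constructor
    · linarith
    · have := 𝓛.mE_pos e; linarith
  have h5 : (a : ℝ) * 𝓛.p N t e * ‖M.hgt (𝓛.b e) - 𝓛.mE e • (e : E)‖ ≤ a * (eps * (t * N)) := by
    calc (a : ℝ) * 𝓛.p N t e * ‖M.hgt (𝓛.b e) - 𝓛.mE e • (e : E)‖
        ≤ a * 𝓛.p N t e * (eps * 𝓛.mE e) := by gcongr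
      _ = a * (eps * (𝓛.p N t e * 𝓛.mE e)) := by ring
      _ ≤ a * (eps * (t * N)) := by gcongr
  have h6 := mul_le_mul_of_nonneg_left h4 ha
  linarith

/-- a bound for all `mE` -/
noncomputable def mX : ℝ := ∑ e : R.Eb, 𝓛.mE e

theorem mE_le (e : R.Eb) : 𝓛.mE e ≤ 𝓛.mX :=
  Finset.single_le_sum (fun e _ => (𝓛.mE_pos e).le) (Finset.mem_univ e)

theorem mX_nonneg : 0 ≤ 𝓛.mX := Finset.sum_nonneg fun e _ => (𝓛.mE_pos e).le

end Legs

/-- the rescaled absolute height of the image -/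
noncomputable def FF (M : CapModel G H ι E) {R : RSys ι E} {T : Set G} {Cb eps : ℝ}
    (𝓛 : Legs M R T Cb eps) (N : ℕ) (τ : ℝ) (Ψ : G → G) (x : G) (n : H) (w : List R.Eb) : E :=
  (N : ℝ)⁻¹ • M.hgt (Ψ (x * M.emb n * 𝓛.pos N τ w))

/-- the conjugation by the position -/
noncomputable def Fφ (M : CapModel G H ι E) {R : RSys ι E} {T : Set G} {Cb eps : ℝ}
    (𝓛 : Legs M R T Cb eps) (N : ℕ) (τ : ℝ) (w : List R.Eb) : H → H := M.cj (𝓛.pos N τ w)

/-- enumeration of the legs, `0 ↦ none` -/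
noncomputable def ek {ι E : Type*} [Fintype ι] [NormedAddCommGroup E] [InnerProductSpace ℝ E]
    (R : RSys ι E) : ℕ → Option R.Eb
  | 0 => none
  | k + 1 => if h : k < Fintype.card R.Eb then some ((Fintype.equivFin R.Eb).symm ⟨k, h⟩) else none

/-- the periodic pattern of the legs -/
noncomputable def es {ι E : Type*} [Fintype ι] [NormedAddCommGroup E] [InnerProductSpace ℝ E]
    (R : RSys ι E) (j : ℕ) : Option R.Eb := ek R (j % (Fintype.card R.Eb + 1))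

theorem exists_ek (R : RSys ι E) (e : R.Eb) : ∃ k ≤ Fintype.card R.Eb, ek R k = some e := by
  refine ⟨(Fintype.equivFin R.Eb e : ℕ) + 1, ?_, ?_⟩
  · have := (Fintype.equivFin R.Eb e).2; omega
  · have h := (Fintype.equivFin R.Eb e).2
    simp only [ek]
    rw [dif_pos h]
    simp

/-- the element of a leg -/
noncomputable def legel {M : CapModel G H ι E} {R : RSys ι E} {T : Set G} {Cb eps : ℝ}
    (𝓛 : Legs M R T Cb eps) (N : ℕ) (τ : ℝ) (o : Option R.Eb) (a : ℕ) : G :=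
  match o with
  | none => 1
  | some e => 𝓛.u N τ e ^ a

theorem pos_legw {M : CapModel G H ι E} {R : RSys ι E} {T : Set G} {Cb eps : ℝ}
    (𝓛 : Legs M R T Cb eps) (N : ℕ) (τ : ℝ) (w0 : List R.Eb) (o : Option R.Eb) (a : ℕ) :
    𝓛.pos N τ (legw w0 o a) = 𝓛.pos N τ w0 * legel 𝓛 N τ o a := by
  cases o with
  | none => simp [legel]
  | some e => rw [legw_some, 𝓛.pos_append, 𝓛.pos_replicate]; rfl

theorem log_le_eventually (A : ℝ) {C δ0 : ℝ} (hδ0 : 0 < δ0) :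
    ∃ N0 : ℕ, ∀ N ≥ N0, ∀ m : ℝ, 1 ≤ m → m ≤ C * (N + 1) → A * Real.log m ≤ δ0 * N := by
  have h1 : Filter.Tendsto (fun N : ℕ => |A| * Real.log (|C| * ((N : ℝ) + 1) + 1) / N)
      Filter.atTop (nhds 0) := by
    have h2 : Filter.Tendsto (fun x : ℝ => Real.log x / x) Filter.atTop (nhds 0) := by
      have := Real.isLittleO_log_id_atTop
      exact this.tendsto_div_nhds_zero
    have h3 : Filter.Tendsto (fun N : ℕ => |C| * ((N : ℝ) + 1) + 1 + N) Filter.atTop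
        Filter.atTop := by
      refine Filter.tendsto_atTop_mono (f := fun N : ℕ => (N : ℝ)) (fun N => ?_)
        tendsto_natCast_atTop_atTop
      have : 0 ≤ |C| * ((N : ℝ) + 1) := by positivity
      linarith
    have h4 := (h2.comp h3).const_mul (|A| * (2 * |C| + 2))
    rw [mul_zero] at h4
    refine squeeze_zero' (Filter.Eventually.of_forall fun N => ?_) ?_ h4
    · apply div_nonneg _ (Nat.cast_nonneg _)
      refine mul_nonneg (abs_nonneg _) (Real.log_nonneg ?_)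
      have : 0 ≤ |C| * ((N : ℝ) + 1) := by positivity
      linarith
    · filter_upwards [Filter.eventually_ge_atTop 1] with N hN
      have hN' : (1 : ℝ) ≤ N := by exact_mod_cast hN
      have hx : 0 < |C| * ((N : ℝ) + 1) + 1 := by positivity
      have hlog : Real.log (|C| * ((N : ℝ) + 1) + 1) ≤ Real.log (|C| * ((N : ℝ) + 1) + 1 + N) :=
        Real.log_le_log hx (by linarith)
      have hlog0 : 0 ≤ Real.log (|C| * ((N : ℝ) + 1) + 1 + N) := Real.log_nonneg (by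
        have : 0 ≤ |C| * ((N : ℝ) + 1) := by positivity
        linarith)
      simp only [Function.comp]
      rw [div_le_iff₀ (by linarith)]
      have h5 : |C| * ((N : ℝ) + 1) + 1 + N ≤ (2 * |C| + 2) * N := by
        nlinarith [abs_nonneg C]
      have h6 : Real.log (|C| * ((N : ℝ) + 1) + 1 + N) ≤
          (2 * |C| + 2) * (Real.log (|C| * ((N : ℝ) + 1) + 1 + N) /
            (|C| * ((N : ℝ) + 1) + 1 + N)) * N := by
        rw [← mul_div_assoc, div_mul_eq_mul_div, le_div_iff₀ (by positivity)]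
        calc _ ≤ Real.log (|C| * ((N : ℝ) + 1) + 1 + N) * ((2 * |C| + 2) * N) := by gcongr
          _ = _ := by ring
      calc |A| * Real.log (|C| * ((N : ℝ) + 1) + 1)
          ≤ |A| * ((2 * |C| + 2) * (Real.log (|C| * ((N : ℝ) + 1) + 1 + N) /
            (|C| * ((N : ℝ) + 1) + 1 + N)) * N) := by gcongr; exact hlog.trans h6
        _ = _ := by ring
  have h2 := h1.eventually (gt_mem_nhds hδ0)
  obtain ⟨N0, hN0⟩ := Filter.eventually_atTop.mp h2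
  refine ⟨max N0 1, fun N hN m hm1 hm => ?_⟩
  have h3 := hN0 N (le_of_max_le_left hN)
  have hN' : (1 : ℝ) ≤ N := by exact_mod_cast le_of_max_le_right hN
  rw [div_lt_iff₀ (by linarith)] at h3
  have h4 : Real.log m ≤ Real.log (|C| * ((N : ℝ) + 1) + 1) := by
    apply Real.log_le_log (by linarith)
    have : C * ((N : ℝ) + 1) ≤ |C| * ((N : ℝ) + 1) := by
      gcongr; exact le_abs_self C
    linarith
  have h5 : 0 ≤ Real.log m := Real.log_nonneg hm1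
  calc A * Real.log m ≤ |A| * Real.log m := by gcongr; exact le_abs_self A
    _ ≤ |A| * Real.log (|C| * ((N : ℝ) + 1) + 1) := by gcongr
    _ ≤ _ := h3.le

/-- the height of a full leg in its own weight -/
theorem l_leg (M : CapModel G H ι E) (R : RSys ι E) (hRS : M.S = R.toGenSys) {T : Set G}
    {Cb eps : ℝ} (𝓛 : Legs M R T Cb eps) {N : ℕ} {τ : ℝ} (hτ : 0 ≤ τ) (heps : 0 ≤ eps) (i : ι)
    (h : R.lam i ≠ 0) (A : ℕ) :
    N * (A * τ * R.lam i) - R.lam i * (A * (eps * (τ * N) + 𝓛.mX)) ≤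
      M.S.l i (M.hgt (legel 𝓛 N τ (some ⟨R.dir i, R.dir_mem i h⟩) A)) := by
  have hu := R.unit _ (R.dir_mem i h)
  have h1 := 𝓛.hgt_u (N := N) hτ heps ⟨R.dir i, R.dir_mem i h⟩ A hu
  rw [hRS, R.l_eq]
  set v : E := M.hgt (𝓛.u N τ ⟨R.dir i, R.dir_mem i h⟩ ^ A) with hv
  have h4 : inner ℝ (R.dir i) v =
      inner ℝ (R.dir i) (v - ((A : ℝ) * (τ * N)) • R.dir i) + A * (τ * N) := by
    have := inner_sub_right (𝕜 := ℝ) (R.dir i) v (((A : ℝ) * (τ * N)) • R.dir i)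
    rw [this, inner_smul_right, real_inner_self_eq_norm_sq, hu]
    ring
  have h5 := abs_real_inner_le_norm (R.dir i) (v - ((A : ℝ) * (τ * N)) • R.dir i)
  rw [hu, one_mul] at h5
  have h6 := neg_le_of_abs_le h5
  have hA0 : (0 : ℝ) ≤ A := Nat.cast_nonneg A
  have h7 : (A : ℝ) * (eps * (τ * N) + 𝓛.mE ⟨R.dir i, R.dir_mem i h⟩) ≤
      A * (eps * (τ * N) + 𝓛.mX) :=
    mul_le_mul_of_nonneg_left (by linarith [𝓛.mE_le ⟨R.dir i, R.dir_mem i h⟩]) hA0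
  have h1' : ‖v - ((A : ℝ) * (τ * N)) • R.dir i‖ ≤
      A * (eps * (τ * N) + 𝓛.mE ⟨R.dir i, R.dir_mem i h⟩) := h1
  have h8 : (A * (τ * N) - A * (eps * (τ * N) + 𝓛.mX) : ℝ) ≤ inner ℝ (R.dir i) v := by
    rw [h4]; linarith
  have h9 := mul_le_mul_of_nonneg_left h8 (R.lam_nonneg i)
  have h10 : R.lam i * ((A : ℝ) * (τ * N) - A * (eps * (τ * N) + 𝓛.mX)) =
      N * (A * τ * R.lam i) - R.lam i * (A * (eps * (τ * N) + 𝓛.mX)) := by ring
  rw [h10] at h9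
  exact h9

/-- **the capacity inequality at one scale.** -/
theorem exists_capAt (M : CapModel G H ι E) (hR : M.Reach) (hE : M.Ent) {K : ℝ} (hK : 1 ≤ K)
    (R : RSys ι E) (hRS : M.S = R.toGenSys) {T : Set G} {r0 : ℕ} (hT : ∀ s ∈ T, s ∈ M.Cl r0)
    (Cb : ℝ) : ∃ L0 : ℕ, ∀ L ≥ L0, ∃ Cc : ℝ, 0 ≤ Cc ∧ ∀ (τ : ℝ) (A : ℕ) (eps : ℝ), 0 < τ → τ ≤ 1 →
      0 ≤ eps → eps ≤ 1 → ∀ (𝓛 : Legs M R T Cb eps) (η δ0 : ℝ), 0 < η → 0 < δ0 →
      ∃ N0 : ℕ, ∀ N ≥ N0, ∀ Ψ : G → G, QI M K Ψ → ∀ (x : G) (w0 : List R.Eb),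
        CapAt R M.ν (FF M 𝓛 N τ Ψ x) (Fφ M 𝓛 N τ) A τ L (es R) η
          (Cc * (τ + A * τ * eps) + δ0) w0 := by
  classical
  obtain ⟨L0, hL0⟩ := M.cap hR hE hK (Fintype.card R.Eb)
  refine ⟨L0, fun L hL => ?_⟩
  obtain ⟨Ac, hAc, hcap⟩ := hL0 L hL
  obtain ⟨mm, MM, hmm, hMM, hm1, hM1⟩ := R.exists_bounds
  have hC0 := M.one_le_C0
  have hLip := R.Lip_nonneg
  set c1 : ℝ := M.C0 * (r0 * |Cb|) with hc1
  have hc1p : 0 ≤ c1 := by positivity
  have hc1' : (r0 : ℝ) * |Cb| ≤ c1 := le_mul_of_one_le_left (by positivity) hC0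
  refine ⟨Ac * c1 + R.Lip * MM, by positivity, ?_⟩
  intro τ A eps hτ hτ1 heps heps1 𝓛 η δ0 hη hδ0
  have hmX := 𝓛.mX_nonneg
  -- the bound for the lengths
  set cm : ℝ := (c1 + 1) * (A * τ + τ + 1) + 2 * M.C0 + A + 2 with hcm
  obtain ⟨N1, hN1⟩ := log_le_eventually Ac (C := cm) (δ0 := δ0 / 2) (by positivity)
  set κ0 : ℝ := Ac * (2 * M.C0 + 1) + Ac * |Real.log η| + R.Lip * MM * (A * 𝓛.mX) with hκ0
  have hκ0p : 0 ≤ κ0 := by
    have := abs_nonneg (Real.log η)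
    positivity
  obtain ⟨N2, hN2⟩ := exists_nat_ge (κ0 / (δ0 / 2))
  refine ⟨max (max N1 N2) 1, fun N hN Ψ hΨ x w0 => ?_⟩
  have hN1' : N1 ≤ N := le_of_max_le_left (le_of_max_le_left hN)
  have hN2' : N2 ≤ N := le_of_max_le_right (le_of_max_le_left hN)
  have hNp : (1 : ℝ) ≤ N := by exact_mod_cast le_of_max_le_right hN
  have hN0 : (0 : ℝ) < N := by linarith
  have hA0 : (0 : ℝ) ≤ A := Nat.cast_nonneg A
  intro n Ω hΩm hΩ Y hY hh
  set m : ℕ := ⌈(c1 + 1) * (A * τ + τ + 1) * N + 2 * M.C0⌉₊ + A + 1 with hm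
  set s : ℝ := c1 * τ * N + 2 * M.C0 with hs
  have hmge : (c1 + 1) * (A * τ + τ + 1) * N + 2 * M.C0 + A + 1 ≤ m := by
    rw [hm]; push_cast
    have := Nat.le_ceil ((c1 + 1) * (A * τ + τ + 1) * N + 2 * M.C0)
    linarith
  have hmle : (m : ℝ) ≤ cm * (N + 1) := by
    rw [hm]; push_cast
    have h1 := Nat.ceil_lt_add_one (a := (c1 + 1) * (A * τ + τ + 1) * N + 2 * M.C0) (by positivity)
    have h2 : cm * (N + 1) = (c1 + 1) * (A * τ + τ + 1) * N + (c1 + 1) * (A * τ + τ + 1) +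
        (2 * M.C0 + A + 2) * N + (2 * M.C0 + A + 2) := by rw [hcm]; ring
    have h3 : 0 ≤ (c1 + 1) * (A * τ + τ + 1) := by positivity
    have h4 : 0 ≤ (2 * M.C0 + A + 2) * N := by positivity
    rw [h2]; linarith
  -- chains
  have hu_mem : ∀ e, 𝓛.u N τ e ∈ Bl T (𝓛.p N τ e * 𝓛.rb e) := 𝓛.u_mem N τ
  have hrb : ∀ e, ((𝓛.p N τ e * 𝓛.rb e : ℕ) : ℝ) ≤ |Cb| * (τ * N) := fun e =>
    (𝓛.p_rb_le hτ.le e).trans (by gcongr; exact le_abs_self _)
  have hstar : CapModel.StarData M (Fintype.card R.Eb) A m s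
      (fun k => legel 𝓛 N τ (ek R k) A) (fun k a => legel 𝓛 N τ (ek R k) a) := by
    refine ⟨?_, ?_, ?_, ?_, ?_, ?_, ?_, ?_, ?_⟩
    · rw [hm]; omega
    · simp [ek, legel]
    · intro k _
      show legel 𝓛 N τ (ek R k) A ∈ M.Cl m
      cases ek R k with
      | none => exact M.Cl_mono 0 m (Nat.zero_le _) M.one_mem_Cl
      | some e =>
        have h1 := Bl_subset_Cl M hT (Bl_pow (hu_mem e) A)
        refine M.Cl_mono _ _ ?_ h1
        have h2 : ((A * (𝓛.p N τ e * 𝓛.rb e) * r0 : ℕ) : ℝ) ≤ m := by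
          have h3 := hrb e
          push_cast at h3 ⊢
          calc (A : ℝ) * (𝓛.p N τ e * 𝓛.rb e) * r0 ≤ A * (|Cb| * (τ * N)) * r0 := by gcongr
            _ = (r0 * |Cb|) * (A * τ) * N := by ring
            _ ≤ c1 * (A * τ) * N := by gcongr
            _ ≤ (c1 + 1) * (A * τ + τ + 1) * N := by gcongr <;> linarith
            _ ≤ m := by linarith
        exact_mod_cast h2
    · intro k
      show legel 𝓛 N τ (ek R k) 0 = 1
      cases ek R k <;> simp [legel]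
    · intro k; rfl
    · intro k j _
      show M.len ((legel 𝓛 N τ (ek R k) j)⁻¹ * legel 𝓛 N τ (ek R k) (j + 1)) ≤ s
      cases ek R k with
      | none =>
        simp only [legel, inv_one, one_mul, M.len_one]
        rw [hs]; positivity
      | some e =>
        have h1 : (legel 𝓛 N τ (some e) j)⁻¹ * legel 𝓛 N τ (some e) (j + 1) = 𝓛.u N τ e := by
          simp only [legel]; rw [pow_succ]; group
        rw [h1]
        refine (len_Bl M hT (hu_mem e)).trans ?_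
        rw [hs]
        have h3 := hrb e
        calc M.C0 * (r0 * ((𝓛.p N τ e * 𝓛.rb e : ℕ) : ℝ)) ≤ M.C0 * (r0 * (|Cb| * (τ * N))) := by
              gcongr
          _ = c1 * τ * N := by rw [hc1]; ring
          _ ≤ _ := by linarith
    · rw [hs]
      have : 0 ≤ c1 * τ * N := by positivity
      linarith
    · rw [hm]; omega
    · rw [hs]
      have h1 : c1 * τ * N ≤ (c1 + 1) * (A * τ + τ + 1) * N := by
        have : c1 * τ ≤ (c1 + 1) * (A * τ + τ + 1) := by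
          have h2 : 0 ≤ A * τ := by positivity
          nlinarith
        gcongr
      linarith
  -- source heights
  set Zs : ι → ℝ := fun i => if h : R.lam i ≠ 0 then
    max 0 (M.S.l i (M.hgt (legel 𝓛 N τ (some ⟨R.dir i, R.dir_mem i h⟩) A))) else 0 with hZs
  have hZs0 : ∀ i, 0 ≤ Zs i := by
    intro i; simp only [hZs]; split_ifs
    · exact le_max_left _ _
    · exact le_rfl
  have hZs1 : ∀ i, ∃ j ≤ Fintype.card R.Eb,
      Zs i ≤ max 0 (M.S.l i (M.hgt (legel 𝓛 N τ (ek R j) A))) := by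
    intro i
    by_cases h : R.lam i ≠ 0
    · obtain ⟨k, hk, hke⟩ := exists_ek R ⟨R.dir i, R.dir_mem i h⟩
      refine ⟨k, hk, ?_⟩
      rw [hke]; simp only [hZs]; rw [dif_pos h]
    · refine ⟨0, Nat.zero_le _, ?_⟩
      simp only [hZs]; rw [dif_neg h]; exact le_max_left _ _
  have hZs2 : ∀ i, N * (A * τ * R.lam i) ≤ Zs i + MM * (A * 𝓛.mX + A * τ * eps * N) := by
    intro i
    by_cases h : R.lam i ≠ 0
    · have h2 : M.S.l i (M.hgt (legel 𝓛 N τ (some ⟨R.dir i, R.dir_mem i h⟩) A)) ≤ Zs i := by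
        simp only [hZs]; rw [dif_pos h]; exact le_max_right _ _
      have h3 := l_leg M R hRS 𝓛 (N := N) hτ.le heps i h A
      have h11 : R.lam i * (A * (eps * (τ * N) + 𝓛.mX)) ≤
          MM * (A * 𝓛.mX + A * τ * eps * N) := by
        calc R.lam i * (A * (eps * (τ * N) + 𝓛.mX)) ≤ MM * (A * (eps * (τ * N) + 𝓛.mX)) :=
              mul_le_mul_of_nonneg_right (hM1 i) (by positivity)
          _ = _ := by ring
      linarith
    · push Not at h
      rw [h]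
      have := hZs0 i
      have h12 : 0 ≤ MM * (A * 𝓛.mX + A * τ * eps * N) := by positivity
      simp only [mul_zero]; linarith
  have hkey := hcap Ψ hΨ A m s _ _ hstar Zs (fun i => N * Y i) hZs0
    (fun i => mul_nonneg hN0.le (hY i)) hZs1 x (𝓛.pos N τ w0) n Ω η hη hΩ
  have hconv : ∀ (n' : H) (j a : ℕ) (i : ι),
      R.l i (FF M 𝓛 N τ Ψ x n' (legw w0 (es R j) a) - FF M 𝓛 N τ Ψ x n w0) ≤ Y i →
      M.S.l i (M.hgt (Ψ (x * M.emb n' * 𝓛.pos N τ w0 *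
        legel 𝓛 N τ (ek R (j % (Fintype.card R.Eb + 1))) a))) ≤
        M.S.l i (M.hgt (Ψ (x * M.emb n * 𝓛.pos N τ w0))) + N * Y i := by
    intro n' j a i h
    unfold FF at h
    rw [pos_legw, ← smul_sub, map_smul, map_sub, smul_eq_mul, ← mul_assoc,
      inv_mul_le_iff₀ hN0] at h
    rw [hRS]
    have h' : R.toGenSys.l i (M.hgt (Ψ (x * M.emb n' * 𝓛.pos N τ w0 *
        legel 𝓛 N τ (ek R (j % (Fintype.card R.Eb + 1))) a))) -
        R.toGenSys.l i (M.hgt (Ψ (x * M.emb n * 𝓛.pos N τ w0))) ≤ N * Y i := h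
    linarith
  have hfin := hkey
    (fun ω hω j hj a ha i => by
      have h1 := (hh ω hω j hj a ha i).1
      have h2 := hconv _ j a i h1
      simp only [Fφ, pos_legw] at h2
      exact h2)
    (fun ω hω j hj a ha i => by
      have h1 := (hh ω hω j hj a ha i).2
      have h2 := hconv _ j a i h1
      simp only [Fφ, pos_legw] at h2
      exact h2)
  -- conclusion
  rw [hRS] at hfin
  have g1 : R.Gt (fun i => N * (A * τ * R.lam i)) ≤ R.Gt Zs +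
      R.Lip * (MM * (A * 𝓛.mX + A * τ * eps * N)) :=
    R.Gt_le_add (by positivity) hZs2
  rw [R.Gt_smul hN0.le] at g1
  rw [R.Gt_smul hN0.le] at hfin
  have hm1' : (1 : ℝ) ≤ m := by exact_mod_cast hstar.one_le
  have g2 := hN1 N hN1' m hm1' hmle
  have g3 : κ0 ≤ δ0 / 2 * N := by
    have h1 : (N2 : ℝ) ≤ N := by exact_mod_cast hN2'
    have h2 := hN2.trans h1
    rw [div_le_iff₀ (by positivity)] at h2
    linarith
  have g4 : N * R.Gt (fun i => A * τ * R.lam i) ≤ N * (R.Gt Y +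
      ((Ac * c1 + R.Lip * MM) * (τ + A * τ * eps) + δ0)) := by
    have h1 : Ac * (s + 1) = Ac * c1 * τ * N + Ac * (2 * M.C0 + 1) := by rw [hs]; ring
    have h2 : R.Lip * (MM * (A * 𝓛.mX + A * τ * eps * N)) =
        R.Lip * MM * (A * 𝓛.mX) + R.Lip * MM * (A * τ * eps) * N := by ring
    have h3 : 0 ≤ Ac * c1 * (A * τ * eps) * N := by positivity
    have h4 : 0 ≤ R.Lip * MM * τ * N := by positivity
    have h5 : N * (R.Gt Y + ((Ac * c1 + R.Lip * MM) * (τ + A * τ * eps) + δ0)) =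
        N * R.Gt Y + Ac * c1 * τ * N + R.Lip * MM * (A * τ * eps) * N +
        Ac * c1 * (A * τ * eps) * N + R.Lip * MM * τ * N + δ0 * N := by ring
    rw [h5]
    rw [hκ0] at g3
    linarith
  exact le_of_mul_le_mul_left g4 hN0

end Crest.Agent.R182.Star
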