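/-
R182, module STAR (helper554): from the one-scale statements to the law per point (`N → ∞` wrapper).
-/
import Crest.Agent.R182.StarLeg

set_option autoImplicit false
set_option linter.unusedSectionVars false

open MeasureTheory ENNReal List

namespace Crest.Agent.R182.Star

open Crest.Agent.R182.Conv Crest.Agent.R182.Cap

/-- choice of the small numbers of the star argument -/
theorem exists_num {r1 b1 b3 : ℝ} (hr1 : 0 < r1) (hb1 : 0 < b1) (hb3 : 0 < b3) :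
    ∃ δ0 : ℝ, 0 < δ0 ∧ ∀ δs, 0 ≤ δs → δs ≤ δ0 → ∃ δ1 δ3 : ℝ, 0 ≤ δ1 ∧ 0 ≤ δ3 ∧
      16 * r1 * δs + 16 * δs ^ 2 ≤ δ1 ^ 2 ∧ δ1 ≤ b1 ∧
      4 * r1 * (δs + δ1) + (δs + δ1) ^ 2 ≤ δ3 ^ 2 ∧ δ3 ≤ b3 := by
  set f1 : ℝ → ℝ := fun x => 4 * Real.sqrt (r1 * x) + 4 * x with hf1
  set f3 : ℝ → ℝ := fun x => 2 * Real.sqrt (r1 * (x + f1 x)) + (x + f1 x) with hf3
  have hc1 : Continuous f1 := by rw [hf1]; fun_prop
  have hc3 : Continuous f3 := by rw [hf3]; fun_prop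
  have h10 : f1 0 = 0 := by simp [hf1]
  have h30 : f3 0 = 0 := by simp [hf3, h10]
  have e1 : ∀ᶠ x in nhds (0 : ℝ), f1 x < b1 := by
    have := hc1.tendsto 0
    rw [h10] at this
    exact this.eventually (gt_mem_nhds hb1)
  have e3 : ∀ᶠ x in nhds (0 : ℝ), f3 x < b3 := by
    have := hc3.tendsto 0
    rw [h30] at this
    exact this.eventually (gt_mem_nhds hb3)
  obtain ⟨d, hd, hball⟩ := Metric.eventually_nhds_iff.mp (e1.and e3)
  refine ⟨d / 2, by positivity, fun δs h0 h1 => ?_⟩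
  obtain ⟨g1, g3⟩ := hball (show dist δs 0 < d by
    rw [Real.dist_eq, sub_zero, abs_of_nonneg h0]; linarith)
  have hs1 : 0 ≤ Real.sqrt (r1 * δs) := Real.sqrt_nonneg _
  have hs1' : Real.sqrt (r1 * δs) ^ 2 = r1 * δs := Real.sq_sqrt (by positivity)
  have hf1p : 0 ≤ f1 δs := by simp only [hf1]; positivity
  have hs3 : 0 ≤ Real.sqrt (r1 * (δs + f1 δs)) := Real.sqrt_nonneg _
  have hs3' : Real.sqrt (r1 * (δs + f1 δs)) ^ 2 = r1 * (δs + f1 δs) :=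
    Real.sq_sqrt (by positivity)
  have hf3p : 0 ≤ f3 δs := by simp only [hf3]; positivity
  refine ⟨f1 δs, f3 δs, hf1p, hf3p, ?_, g1.le, ?_, g3.le⟩
  · have : f1 δs ^ 2 = 16 * Real.sqrt (r1 * δs) ^ 2 + 32 * (Real.sqrt (r1 * δs) * δs) +
        16 * δs ^ 2 := by simp only [hf1]; ring
    rw [this, hs1']
    have : 0 ≤ Real.sqrt (r1 * δs) * δs := by positivity
    linarith
  · have : f3 δs ^ 2 = 4 * Real.sqrt (r1 * (δs + f1 δs)) ^ 2 +
        4 * (Real.sqrt (r1 * (δs + f1 δs)) * (δs + f1 δs)) + (δs + f1 δs) ^ 2 := by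
      simp only [hf3]; ring
    rw [this, hs3']
    have : 0 ≤ Real.sqrt (r1 * (δs + f1 δs)) * (δs + f1 δs) := by positivity
    linarith

section Slow

variable {G : Type*} [Group G] {T : Set G}

/-- replacing the letters of a bounded word by close letters. -/
theorem Slow.iter (hS : Slow T) (A : ℝ) : ∀ k : ℕ, ∀ δ : ℝ, 0 < δ → ∃ δ' : ℝ, 0 < δ' ∧ ∃ N0 : ℕ,
    ∀ N ≥ N0, ∀ l : List (G × G), l.length ≤ k →
    (∀ p ∈ l, (∃ m : ℕ, (m : ℝ) ≤ A * N ∧ p.1 ∈ Bl T m) ∧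
      ∃ m : ℕ, (m : ℝ) ≤ δ' * N ∧ p.2 ∈ Bl T m) →
    ∃ m : ℕ, (m : ℝ) ≤ δ * N ∧ ((l.map Prod.fst).prod)⁻¹ * (l.map fun p => p.1 * p.2).prod ∈
      Bl T m := by
  intro k
  induction k with
  | zero =>
    intro δ hδ
    refine ⟨1, one_pos, 0, fun N _ l hl _ => ⟨0, by simp; positivity, ?_⟩⟩
    have : l = [] := List.length_eq_zero_iff.mp (by omega)
    subst this
    simpa using one_mem_Bl (T := T) 0
  | succ k ih =>
    intro δ hδ
    obtain ⟨δ1, hδ1, N1, h1⟩ := hS A (δ / 2) (by positivity)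
    obtain ⟨δ2, hδ2, N2, h2⟩ := ih δ1 hδ1
    refine ⟨min δ2 (δ / 2), by positivity, max N1 N2, fun N hN l hl hp => ?_⟩
    have hN1 : N1 ≤ N := le_of_max_le_left hN
    have hN2 : N2 ≤ N := le_of_max_le_right hN
    have hNn : (0 : ℝ) ≤ N := Nat.cast_nonneg N
    rcases eq_nil_or_concat l with h | ⟨l', p, h⟩
    · subst h
      refine ⟨0, by simp; positivity, by simpa using one_mem_Bl (T := T) 0⟩
    · rw [h] at hl hp ⊢
      have hl' : l'.length ≤ k := by simpa using hl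
      obtain ⟨m1, hm1, hmem⟩ := h2 N hN2 l' hl' (fun q hq => by
        obtain ⟨g1, m, hm, g2⟩ := hp q (by simp [hq])
        exact ⟨g1, m, hm.trans (by gcongr; exact min_le_left _ _), g2⟩)
      obtain ⟨⟨m2, hm2, hp1⟩, m3, hm3, hp2⟩ := hp p (by simp)
      obtain ⟨m4, hm4, hmem4⟩ := h1 N hN1 m1 m2 hm1 hm2 _ hmem _ hp1
      refine ⟨m4 + m3, ?_, ?_⟩
      · push_cast
        have : (m3 : ℝ) ≤ δ / 2 * N := hm3.trans (by gcongr; exact min_le_right _ _)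
        linarith
      · have := Bl_mul hmem4 hp2
        convert this using 1
        simp only [map_append, map_cons, map_nil, prod_append, prod_cons, prod_nil,
          mul_one, mul_inv_rev, concat_eq_append]
        group

end Slow

variable {G H ι E : Type*} [Group G] [Group H] [MeasurableSpace H] [MeasurableMul₂ H]
    [MeasurableInv H] [Fintype ι] [NormedAddCommGroup E] [InnerProductSpace ℝ E]

/-- the rescaled absolute height of the image, at a group element -/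
noncomputable def GF (M : CapModel G H ι E) (N : ℕ) (Ψ : G → G) (x : G) (n : H) (g : G) : E :=
  (N : ℝ)⁻¹ • M.hgt (Ψ (x * M.emb n * g))

theorem FF_eq {M : CapModel G H ι E} {R : RSys ι E} {T : Set G} {Cb eps : ℝ}
    (𝓛 : Legs M R T Cb eps) (N : ℕ) (τ : ℝ) (Ψ : G → G) (x : G) (n : H) (w : List R.Eb) :
    FF M 𝓛 N τ Ψ x n w = GF M N Ψ x n (𝓛.pos N τ w) := rfl

theorem GF_sub_le {M : CapModel G H ι E} {K : ℝ} {Ψ : G → G} (hΨ : QI M K Ψ) (N : ℕ) (x : G)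
    (n n' : H) (g g' : G) : ‖GF M N Ψ x n g - GF M N Ψ x n' g'‖ ≤
      (N : ℝ)⁻¹ * (M.C0 * (K * M.dst (x * M.emb n * g) (x * M.emb n' * g') + K)) := by
  unfold GF
  rw [← smul_sub, norm_smul, norm_inv, RCLike.norm_natCast]
  refine mul_le_mul_of_nonneg_left ?_ (by positivity)
  rw [← norm_neg, neg_sub]
  exact (M.norm_hgt_sub _ _).trans (mul_le_mul_of_nonneg_left (hΨ.up _ _) M.C0_pos.le)

theorem GF_close {M : CapModel G H ι E} {T : Set G} {r0 : ℕ} (hT : ∀ s ∈ T, s ∈ M.Cl r0) {K : ℝ}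
    {Ψ : G → G} (hΨ : QI M K Ψ) {N : ℕ} (hN : 1 ≤ N) (x : G)
    (n : H) (g g' : G) {m : ℕ} {δ : ℝ} (hm : (m : ℝ) ≤ δ * N) (h : g⁻¹ * g' ∈ Bl T m) :
    ‖GF M N Ψ x n g - GF M N Ψ x n g'‖ ≤ M.C0 * K * (M.C0 * r0) * δ + M.C0 * K / N := by
  refine (GF_sub_le hΨ N x n n g g').trans ?_
  have h1 : M.dst (x * M.emb n * g) (x * M.emb n * g') = M.len (g⁻¹ * g') := by
    rw [M.dst_mul_left]; rfl
  have h2 := len_Bl M hT h
  have hN' : (1 : ℝ) ≤ N := by exact_mod_cast hN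
  have hC0 := M.C0_pos
  have hK := hΨ.one_le
  rw [h1]
  have h3 : M.len (g⁻¹ * g') ≤ M.C0 * (r0 * (δ * N)) := h2.trans (by gcongr)
  calc (N : ℝ)⁻¹ * (M.C0 * (K * M.len (g⁻¹ * g') + K))
      ≤ (N : ℝ)⁻¹ * (M.C0 * (K * (M.C0 * (r0 * (δ * N))) + K)) := by gcongr
    _ = _ := by field_simp

namespace Legs

variable {M : CapModel G H ι E} {R : RSys ι E} {T : Set G} {Cb eps : ℝ} (𝓛 : Legs M R T Cb eps)

theorem u_pow_mem {N : ℕ} {t : ℝ} (ht : 0 ≤ t) (e : R.Eb) (a : ℕ) :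
    ∃ m : ℕ, (m : ℝ) ≤ |Cb| * (a * t) * N ∧ 𝓛.u N t e ^ a ∈ Bl T m := by
  refine ⟨a * (𝓛.p N t e * 𝓛.rb e), ?_, Bl_pow (𝓛.u_mem N t e) a⟩
  have h := 𝓛.p_rb_le (N := N) ht e
  have ha : (0 : ℝ) ≤ a := Nat.cast_nonneg a
  rw [Nat.cast_mul]
  calc (a : ℝ) * ((𝓛.p N t e * 𝓛.rb e : ℕ) : ℝ) ≤ a * (Cb * (t * N)) := by gcongr
    _ ≤ a * (|Cb| * (t * N)) := by gcongr; exact le_abs_self _
    _ = _ := by ring

/-- length of the position of a word -/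
theorem pos_mem {N : ℕ} {τ : ℝ} (hτ : 0 ≤ τ) (w : List R.Eb) :
    ∃ m : ℕ, (m : ℝ) ≤ |Cb| * (w.length * τ) * N ∧ 𝓛.pos N τ w ∈ Bl T m := by
  induction w with
  | nil => exact ⟨0, by simp, by simpa [pos] using one_mem_Bl (T := T) 0⟩
  | cons e w ih =>
    obtain ⟨m, hm, hw⟩ := ih
    obtain ⟨m', hm', he⟩ := 𝓛.u_pow_mem (N := N) hτ e 1
    rw [pow_one] at he
    refine ⟨m' + m, ?_, ?_⟩
    · rw [length_cons]; push_cast at hm' ⊢
      calc (m' : ℝ) + m ≤ |Cb| * (1 * τ) * N + |Cb| * (w.length * τ) * N := by linarith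
        _ = _ := by ring
    · have : 𝓛.pos N τ (e :: w) = 𝓛.u N τ e * 𝓛.pos N τ w := by simp [pos]
      rw [this]; exact Bl_mul he hw

/-- height of the position of a word -/
theorem hgt_pos {N : ℕ} {τ : ℝ} (hτ : 0 ≤ τ) (heps : 0 ≤ eps) (w : List R.Eb) :
    ‖M.hgt (𝓛.pos N τ w) - (N : ℝ) • τ • lsum w‖ ≤ w.length * (eps * (τ * N) + 𝓛.mX) := by
  induction w with
  | nil => simp [pos, lsum, M.hgt_one]
  | cons e w ih =>
    have h1 : 𝓛.pos N τ (e :: w) = 𝓛.u N τ e * 𝓛.pos N τ w := by simp [pos]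
    rw [h1, M.hgt_mul, lsum_cons]
    have h2 := 𝓛.hgt_u (N := N) hτ heps e 1 (R.unit _ e.2)
    rw [pow_one, Nat.cast_one, one_mul, one_mul] at h2
    have h3 : M.hgt (𝓛.u N τ e) + M.hgt (𝓛.pos N τ w) - (N : ℝ) • τ • ((e : E) + lsum w) =
        (M.hgt (𝓛.u N τ e) - (τ * N) • (e : E)) + (M.hgt (𝓛.pos N τ w) - (N : ℝ) • τ • lsum w) := by
      rw [smul_add, smul_add, smul_smul, mul_comm τ]
      abel
    rw [h3]
    refine (norm_add_le _ _).trans ?_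
    rw [length_cons]
    push_cast
    have := 𝓛.mE_le e
    linarith

end Legs

/-- a bound `1/N`-small numbers -/
theorem exists_N_inv {C δ : ℝ} (hδ : 0 < δ) : ∃ N0 : ℕ, 1 ≤ N0 ∧ ∀ N ≥ N0, C / N ≤ δ := by
  obtain ⟨N0, hN0⟩ := exists_nat_ge (|C| / δ)
  refine ⟨N0 + 1, by omega, fun N hN => ?_⟩
  have h1 : (N0 : ℝ) + 1 ≤ N := by exact_mod_cast hN
  have h2 : (0 : ℝ) < N := by
    have : (0 : ℝ) ≤ N0 := Nat.cast_nonneg _
    linarith
  rw [div_le_iff₀ h2]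
  rw [div_le_iff₀ hδ] at hN0
  have := le_abs_self C
  nlinarith

/-- **(slow)** the legs change slowly. -/
theorem slow_FF (M : CapModel G H ι E) {K : ℝ} (hK : 1 ≤ K)
    (R : RSys ι E) {T : Set G} {r0 : ℕ} (hT : ∀ s ∈ T, s ∈ M.Cl r0)
    (Cb : ℝ) (hS : Slow T) (r1 : ℝ) {ρ : ℝ} (hρ : 0 < ρ) :
    ∃ τ0 : ℝ, 0 < τ0 ∧ ∀ (τ : ℝ) (A : ℕ), 0 < τ → τ ≤ τ0 → A * τ ≤ r1 → ∀ (eps : ℝ)
      (𝓛 : Legs M R T Cb eps), ∃ N0 : ℕ, ∀ N ≥ N0, ∀ Ψ : G → G, QI M K Ψ → ∀ (x : G) (n : H)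
      (w : List R.Eb) (e e' : R.Eb),
      ‖FF M 𝓛 N τ Ψ x n ((w ++ [e']) ++ replicate A e) - FF M 𝓛 N τ Ψ x n (w ++ replicate A e)‖
        ≤ ρ := by
  have hC0 := M.C0_pos
  set cK : ℝ := M.C0 * K * (M.C0 * r0) with hcK
  have hcKp : 0 ≤ cK := by positivity
  obtain ⟨δ', hδ', N1, hN1⟩ := hS (|Cb| * r1) (ρ / (2 * (cK + 1))) (by positivity)
  refine ⟨δ' / (|Cb| + 1), by positivity, ?_⟩
  intro τ A hτ hτ0 hA eps 𝓛
  obtain ⟨N2, hN21, hN2⟩ := exists_N_inv (C := M.C0 * K) (δ := ρ / 2) (by positivity)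
  refine ⟨max N1 N2, fun N hN Ψ hΨ x n w e e' => ?_⟩
  have hN1' : N1 ≤ N := le_of_max_le_left hN
  have hN2' : N2 ≤ N := le_of_max_le_right hN
  have hNn : (0 : ℝ) ≤ N := Nat.cast_nonneg N
  obtain ⟨m1, hm1, h1⟩ := 𝓛.u_pow_mem (N := N) hτ.le e' 1
  obtain ⟨m2, hm2, h2⟩ := 𝓛.u_pow_mem (N := N) hτ.le e A
  rw [pow_one] at h1
  obtain ⟨m3, hm3, h3⟩ := hN1 N hN1' m1 m2 (hm1.trans (by
      rw [Nat.cast_one, one_mul]
      gcongr
      rw [le_div_iff₀ (by positivity)] at hτ0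
      nlinarith [abs_nonneg Cb])) (hm2.trans (by gcongr)) _ (Bl_inv h1) _ h2
  rw [FF_eq, FF_eq]
  refine (GF_close hT hΨ (hN21.trans hN2') x n _ _ hm3 ?_).trans ?_
  · rw [𝓛.pos_append, 𝓛.pos_append, 𝓛.pos_append, 𝓛.pos_replicate, 𝓛.pos_singleton]
    convert h3 using 1
    group
  · have h4 := hN2 N hN2'
    have h5 : cK * (ρ / (2 * (cK + 1))) ≤ ρ / 2 := by
      rw [mul_div_assoc', div_le_div_iff₀ (by positivity) (by positivity)]
      nlinarith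
    linarith

/-- length of a relation word -/
theorem length_relWord_le (R : RSys ι E) {τ : ℝ} (hτ : 0 < τ) {c : R.Eb → ℝ}
    (hc : ∀ e, 0 ≤ c e) {r : ℝ} (hr : ∑ e, c e ≤ r) :
    ((relWord R.Eb τ c).length : ℝ) * τ ≤ r := by
  unfold relWord
  rw [length_flatMap]
  simp only [length_replicate]
  rw [Finset.sum_map_toList]
  push_cast
  rw [Finset.sum_mul]
  refine le_trans (Finset.sum_le_sum fun e _ => ?_) hr
  have := Nat.floor_le (div_nonneg (hc e) hτ.le)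
  rwa [le_div_iff₀ hτ] at this

/-- **(pow)** powers of relation words. -/
theorem pow_FF (M : CapModel G H ι E) {K : ℝ} (hK : 1 ≤ K)
    (R : RSys ι E) {T : Set G} {r0 : ℕ} (hT : ∀ s ∈ T, s ∈ M.Cl r0)
    (Cb : ℝ) (hP : Pow T M.hgt) {r : ℝ} (hr : 0 ≤ r) {κ : ℝ} (hκ : 0 < κ) :
    ∃ j : ℕ, 1 ≤ j ∧ ∃ τ0 : ℝ, 0 < τ0 ∧ ∃ eps0 : ℝ, 0 < eps0 ∧ ∀ (τ : ℝ), 0 < τ → τ ≤ τ0 →
      ∀ eps : ℝ, 0 ≤ eps → eps ≤ eps0 →
      ∀ (𝓛 : Legs M R T Cb eps), ∃ N0 : ℕ, ∀ N ≥ N0, ∀ Ψ : G → G, QI M K Ψ → ∀ (x : G) (n : H)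
      (c : R.Eb → ℝ), (∀ e, 0 ≤ c e) → comb R.Eb c = 0 → ∑ e, c e ≤ r →
      ‖FF M 𝓛 N τ Ψ x n ((replicate j (relWord R.Eb τ c)).flatten) - FF M 𝓛 N τ Ψ x n []‖
        ≤ j * κ := by
  have hC0 := M.C0_pos
  set cK : ℝ := M.C0 * K * (M.C0 * r0) with hcK
  have hcKp : 0 ≤ cK := by positivity
  obtain ⟨j, hj, ε, hε, N1, hN1⟩ := hP (κ / (2 * (cK + 1))) (|Cb| * r) (by positivity)
  refine ⟨j, hj, ε / (4 * (R.Eb.card + 1)), by positivity, ε / (4 * (r + 1)), by positivity, ?_⟩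
  intro τ hτ hτ0 eps heps heps0 𝓛
  obtain ⟨N2, hN21, hN2⟩ := exists_N_inv (C := M.C0 * K) (δ := κ / 2) (by positivity)
  obtain ⟨N3, hN31, hN3⟩ := exists_N_inv (C := r / τ * 𝓛.mX) (δ := ε / 4) (by positivity)
  refine ⟨max N1 (max N2 N3), fun N hN Ψ hΨ x n c hc hc0 hcr => ?_⟩
  have hN1' : N1 ≤ N := le_of_max_le_left hN
  have hN2' : N2 ≤ N := le_of_max_le_left (le_of_max_le_right hN)
  have hN3' : N3 ≤ N := le_of_max_le_right (le_of_max_le_right hN)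
  have hNp : (1 : ℝ) ≤ N := by exact_mod_cast hN21.trans hN2'
  have hNn : (0 : ℝ) < N := by linarith
  set w := relWord R.Eb τ c with hw
  have hlen : (w.length : ℝ) * τ ≤ r := length_relWord_le R hτ hc hcr
  obtain ⟨m, hm, hmem⟩ := 𝓛.pos_mem (N := N) hτ.le w
  have hm' : (m : ℝ) ≤ |Cb| * r * N := hm.trans (by gcongr)
  have hh : ‖M.hgt (𝓛.pos N τ w)‖ ≤ ε * N := by
    have h1 := 𝓛.hgt_pos (N := N) hτ.le heps w
    have h2 : ‖τ • lsum w‖ ≤ R.Eb.card * τ := by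
      have h3 := norm_relWord_sub R.unit (1 : Equiv.Perm R.Eb) hτ c hc
      have h4 : combσ R.Eb (1 : Equiv.Perm R.Eb) c = 0 := by
        rw [combσ_apply]
        rw [comb_apply] at hc0
        exact hc0
      rw [h4, sub_zero] at h3
      have h5 : (relWord R.Eb τ c).map (1 : Equiv.Perm R.Eb) = w := by
        rw [hw]; exact map_id _
      rwa [h5] at h3
    have h3 : ‖(N : ℝ) • τ • lsum w‖ ≤ N * (R.Eb.card * τ) := by
      rw [norm_smul, Real.norm_of_nonneg hNn.le]; gcongr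
    have h4 : ‖M.hgt (𝓛.pos N τ w)‖ ≤ ‖M.hgt (𝓛.pos N τ w) - (N : ℝ) • τ • lsum w‖ +
        ‖(N : ℝ) • τ • lsum w‖ := by
      have : M.hgt (𝓛.pos N τ w) = (M.hgt (𝓛.pos N τ w) - (N : ℝ) • τ • lsum w) +
        (N : ℝ) • τ • lsum w := by abel
      conv_lhs => rw [this]
      exact norm_add_le _ _
    have h5 : (w.length : ℝ) * (eps * (τ * N) + 𝓛.mX) ≤ eps * r * N + r / τ * 𝓛.mX := by
      have h6 : (w.length : ℝ) ≤ r / τ := by rwa [le_div_iff₀ hτ]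
      have h7 := 𝓛.mX_nonneg
      calc (w.length : ℝ) * (eps * (τ * N) + 𝓛.mX)
          = eps * (w.length * τ) * N + w.length * 𝓛.mX := by ring
        _ ≤ _ := by gcongr
    have h6 : eps * r ≤ ε / 4 := by
      calc eps * r ≤ ε / (4 * (r + 1)) * r := by gcongr
        _ ≤ ε / 4 := by
          rw [div_mul_eq_mul_div, div_le_div_iff₀ (by positivity) (by positivity)]
          nlinarith
    have h7 : R.Eb.card * τ ≤ ε / 4 := by
      calc (R.Eb.card : ℝ) * τ ≤ R.Eb.card * (ε / (4 * (R.Eb.card + 1))) := by gcongr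
        _ ≤ ε / 4 := by
          rw [mul_div_assoc', div_le_div_iff₀ (by positivity) (by positivity)]
          have : (0 : ℝ) ≤ R.Eb.card := Nat.cast_nonneg _
          nlinarith
    have h8 := hN3 N hN3'
    rw [div_le_iff₀ hNn] at h8
    have h9 : eps * r * N ≤ ε / 4 * N := by gcongr
    have h10 : (N : ℝ) * (R.Eb.card * τ) ≤ N * (ε / 4) := by gcongr
    have h11 : 0 ≤ ε * N := by positivity
    linarith
  obtain ⟨m', hm', hmem'⟩ := hN1 N hN1' m hm' _ hmem hh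
  rw [FF_eq, FF_eq, 𝓛.pos_flatten, 𝓛.pos_nil]
  have hj' : (1 : ℝ) ≤ j := by exact_mod_cast hj
  rw [← norm_neg, neg_sub]
  refine (GF_close hT hΨ (hN21.trans hN2') x n _ _ (m := m') (δ := κ / (2 * (cK + 1)) * j)
    hm' ?_).trans ?_
  · simpa using hmem'
  · have h4 := hN2 N hN2'
    have h5 : cK * (κ / (2 * (cK + 1)) * j) ≤ j * (κ / 2) := by
      have : cK * (κ / (2 * (cK + 1))) ≤ κ / 2 := by
        rw [mul_div_assoc', div_le_div_iff₀ (by positivity) (by positivity)]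
        nlinarith
      calc cK * (κ / (2 * (cK + 1)) * j) = (cK * (κ / (2 * (cK + 1)))) * j := by ring
        _ ≤ κ / 2 * j := by gcongr
        _ = _ := by ring
    have h6 : κ / 2 ≤ j * (κ / 2) := by nlinarith
    linarith

/-! ### timed words -/

/-- position of a timed word -/
noncomputable def Legs.tpos {M : CapModel G H ι E} {R : RSys ι E} {T : Set G} {Cb eps : ℝ}
    (𝓛 : Legs M R T Cb eps) (N : ℕ) (w : List (R.Eb × ℝ)) : G :=
  (w.map fun p => 𝓛.u N p.2 p.1).prod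

/-- the height of a timed word -/
noncomputable def tsum {Eb : Finset E} (w : List (Eb × ℝ)) : E :=
  (w.map fun p => p.2 • (p.1 : E)).sum

/-- approximation of a timed word, contracted by `1 - s`, by a word in unit legs -/
noncomputable def uw {Eb : Finset E} (s τ : ℝ) (w : List (Eb × ℝ)) : List Eb :=
  w.flatMap fun p => replicate ⌊(1 - s) * p.2 / τ⌋₊ p.1

theorem Legs.pos_uw {M : CapModel G H ι E} {R : RSys ι E} {T : Set G} {Cb eps : ℝ}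
    (𝓛 : Legs M R T Cb eps) (N : ℕ) (s τ : ℝ) (w : List (R.Eb × ℝ)) :
    𝓛.pos N τ (uw s τ w) = (w.map fun p => 𝓛.u N τ p.1 ^ ⌊(1 - s) * p.2 / τ⌋₊).prod := by
  induction w with
  | nil => simp [uw, Legs.pos]
  | cons p w ih =>
    rw [uw, flatMap_cons, 𝓛.pos_append, 𝓛.pos_replicate, map_cons, prod_cons]
    congr 1

/-- **timed words are close to words in unit legs.** -/
theorem timed_FF (M : CapModel G H ι E) {K : ℝ} (hK : 1 ≤ K)
    (R : RSys ι E) {T : Set G} {r0 : ℕ} (hT : ∀ s ∈ T, s ∈ M.Cl r0)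
    (Cb : ℝ) (hS : Slow T) (kw : ℕ) {tW : ℝ} (htW : 0 ≤ tW) {δ : ℝ} (hδ : 0 < δ) :
    ∃ s0 : ℝ, 0 < s0 ∧ ∃ τ0 : ℝ, 0 < τ0 ∧ ∀ s : ℝ, 0 ≤ s → s ≤ s0 → s ≤ 1 → ∀ (τ : ℝ), 0 < τ →
      τ ≤ τ0 → ∀ (eps : ℝ) (𝓛 : Legs M R T Cb eps), ∃ N0 : ℕ, ∀ N ≥ N0, ∀ Ψ : G → G, QI M K Ψ →
      ∀ (x : G) (n : H) (w : List (R.Eb × ℝ)), w.length ≤ kw → (∀ p ∈ w, 0 ≤ p.2 ∧ p.2 ≤ tW) →
      ‖GF M N Ψ x n (𝓛.tpos N w) - FF M 𝓛 N τ Ψ x n (uw s τ w)‖ ≤ δ := by
  have hC0 := M.C0_pos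
  set cK : ℝ := M.C0 * K * (M.C0 * r0) with hcK
  have hcKp : 0 ≤ cK := by positivity
  obtain ⟨δ', hδ', N1, hN1⟩ := hS.iter (|Cb| * tW) kw (δ / (2 * (cK + 1))) (by positivity)
  refine ⟨δ' / (3 * (|Cb| * tW + 1)), by positivity, δ' / (3 * (|Cb| + 1)), by positivity, ?_⟩
  intro s hs hs0 hs1 τ hτ hτ0 eps 𝓛
  have hmX := 𝓛.mX_nonneg
  obtain ⟨N2, hN21, hN2⟩ := exists_N_inv (C := M.C0 * K) (δ := δ / 2) (by positivity)
  obtain ⟨N3, hN31, hN3⟩ := exists_N_inv (C := |Cb| * (tW / τ * 𝓛.mX)) (δ := δ' / 3)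
    (by positivity)
  refine ⟨max N1 (max N2 N3), fun N hN Ψ hΨ x n w hlen hw => ?_⟩
  have hN1' : N1 ≤ N := le_of_max_le_left hN
  have hN2' : N2 ≤ N := le_of_max_le_left (le_of_max_le_right hN)
  have hN3' : N3 ≤ N := le_of_max_le_right (le_of_max_le_right hN)
  have hNp : (1 : ℝ) ≤ N := by exact_mod_cast hN21.trans hN2'
  have hNn : (0 : ℝ) < N := by linarith
  -- the letters
  set l : List (G × G) := w.map fun p => (𝓛.u N τ p.1 ^ ⌊(1 - s) * p.2 / τ⌋₊,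
    (𝓛.u N τ p.1 ^ ⌊(1 - s) * p.2 / τ⌋₊)⁻¹ * 𝓛.u N p.2 p.1) with hl
  have hfst : (l.map Prod.fst).prod = 𝓛.pos N τ (uw s τ w) := by
    rw [𝓛.pos_uw, hl, map_map]; rfl
  have hprod : (l.map fun p => p.1 * p.2).prod = 𝓛.tpos N w := by
    rw [hl, map_map]
    unfold Legs.tpos
    congr 2
    funext p
    simp
  obtain ⟨m, hm, hmem⟩ := hN1 N hN1' l (by rw [hl, length_map]; exact hlen) (by
    intro q hq
    rw [hl, mem_map] at hq
    obtain ⟨p, hp, rfl⟩ := hq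
    obtain ⟨hp0, hp1⟩ := hw p hp
    set a : ℕ := ⌊(1 - s) * p.2 / τ⌋₊ with ha
    have ha1 : (a : ℝ) * τ ≤ (1 - s) * p.2 := by
      have := Nat.floor_le (div_nonneg (mul_nonneg (by linarith : (0 : ℝ) ≤ 1 - s) hp0) hτ.le)
      rwa [le_div_iff₀ hτ] at this
    have ha2 : (1 - s) * p.2 < (a + 1 : ℝ) * τ := by
      have := Nat.lt_floor_add_one ((1 - s) * p.2 / τ)
      rwa [div_lt_iff₀ hτ] at this
    have ha3 : (a : ℝ) * τ ≤ p.2 := by nlinarith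
    have hmE := 𝓛.mE_pos p.1
    constructor
    · obtain ⟨m, hm, h⟩ := 𝓛.u_pow_mem (N := N) hτ.le p.1 a
      refine ⟨m, hm.trans ?_, h⟩
      gcongr
      linarith
    · -- the remainder is a power of the leg
      have hp3 : a * 𝓛.p N τ p.1 ≤ 𝓛.p N p.2 p.1 := by
        unfold Legs.p
        apply Nat.le_floor
        rw [le_div_iff₀ hmE]
        push_cast
        have h1 := 𝓛.p_le (N := N) hτ.le p.1
        unfold Legs.p at h1
        calc (a : ℝ) * ⌊τ * N / 𝓛.mE p.1⌋₊ * 𝓛.mE p.1 = a * (⌊τ * N / 𝓛.mE p.1⌋₊ * 𝓛.mE p.1) := by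
              ring
          _ ≤ a * (τ * N) := by gcongr
          _ = (a * τ) * N := by ring
          _ ≤ p.2 * N := by gcongr
      have hrem : (𝓛.u N τ p.1 ^ a)⁻¹ * 𝓛.u N p.2 p.1 =
          𝓛.b p.1 ^ (𝓛.p N p.2 p.1 - a * 𝓛.p N τ p.1) := by
        unfold Legs.u
        rw [inv_mul_eq_iff_eq_mul, ← pow_mul, ← pow_add]
        congr 1
        rw [mul_comm (𝓛.p N τ p.1) a]; omega
      refine ⟨(𝓛.p N p.2 p.1 - a * 𝓛.p N τ p.1) * 𝓛.rb p.1, ?_, ?_⟩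
      · rw [Nat.cast_mul, Nat.cast_sub hp3]
        push_cast
        have h1 := 𝓛.p_le (N := N) hp0 p.1
        have h2 := 𝓛.lt_p (N := N) τ p.1
        have h3 := 𝓛.rb_le p.1
        have ha0 : (0 : ℝ) ≤ a := Nat.cast_nonneg a
        have h4 : (0 : ℝ) ≤ (𝓛.p N p.2 p.1 : ℝ) - a * 𝓛.p N τ p.1 := by
          rw [sub_nonneg]; exact_mod_cast hp3
        have h5 : ((𝓛.p N p.2 p.1 : ℝ) - a * 𝓛.p N τ p.1) * 𝓛.mE p.1 ≤
            (s * tW + τ) * N + tW / τ * 𝓛.mX := by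
          have h6 : (a : ℝ) * (τ * N - 𝓛.mE p.1) ≤ a * (𝓛.p N τ p.1 * 𝓛.mE p.1) :=
            mul_le_mul_of_nonneg_left h2.le ha0
          have h7 : (a : ℝ) * 𝓛.mE p.1 ≤ tW / τ * 𝓛.mX := by
            have h8 : (a : ℝ) ≤ tW / τ := by rw [le_div_iff₀ hτ]; linarith
            have h9 := 𝓛.mE_le p.1
            gcongr
          have h8 : (p.2 - a * τ) * N ≤ (s * tW + τ) * N := by
            gcongr
            have : s * p.2 ≤ s * tW := by gcongr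
            nlinarith
          calc ((𝓛.p N p.2 p.1 : ℝ) - a * 𝓛.p N τ p.1) * 𝓛.mE p.1
              = 𝓛.p N p.2 p.1 * 𝓛.mE p.1 - a * (𝓛.p N τ p.1 * 𝓛.mE p.1) := by ring
            _ ≤ p.2 * N - a * (τ * N - 𝓛.mE p.1) := by linarith
            _ = (p.2 - a * τ) * N + a * 𝓛.mE p.1 := by ring
            _ ≤ _ := by linarith
        have hCb : (𝓛.rb p.1 : ℝ) ≤ |Cb| * 𝓛.mE p.1 :=
          h3.trans (by gcongr; exact le_abs_self _)
        have h10 : |Cb| * ((s * tW + τ) * N) ≤ δ' / 3 * N + δ' / 3 * N := by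
          have g1 : |Cb| * (s * tW) ≤ δ' / 3 := by
            calc |Cb| * (s * tW) = (|Cb| * tW) * s := by ring
              _ ≤ (|Cb| * tW) * (δ' / (3 * (|Cb| * tW + 1))) := by gcongr
              _ ≤ δ' / 3 := by
                rw [mul_div_assoc', div_le_div_iff₀ (by positivity) (by positivity)]
                have : 0 ≤ |Cb| * tW := by positivity
                nlinarith
          have g2 : |Cb| * τ ≤ δ' / 3 := by
            calc |Cb| * τ ≤ |Cb| * (δ' / (3 * (|Cb| + 1))) := by gcongr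
              _ ≤ δ' / 3 := by
                rw [mul_div_assoc', div_le_div_iff₀ (by positivity) (by positivity)]
                have := abs_nonneg Cb
                nlinarith
          calc |Cb| * ((s * tW + τ) * N) = (|Cb| * (s * tW)) * N + (|Cb| * τ) * N := by ring
            _ ≤ _ := by gcongr
        have h11 := hN3 N hN3'
        rw [div_le_iff₀ hNn] at h11
        calc ((𝓛.p N p.2 p.1 : ℝ) - a * 𝓛.p N τ p.1) * 𝓛.rb p.1
            ≤ ((𝓛.p N p.2 p.1 : ℝ) - a * 𝓛.p N τ p.1) * (|Cb| * 𝓛.mE p.1) := by gcongr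
          _ = |Cb| * (((𝓛.p N p.2 p.1 : ℝ) - a * 𝓛.p N τ p.1) * 𝓛.mE p.1) := by ring
          _ ≤ |Cb| * ((s * tW + τ) * N + tW / τ * 𝓛.mX) := by gcongr
          _ = |Cb| * ((s * tW + τ) * N) + |Cb| * (tW / τ * 𝓛.mX) := by ring
          _ ≤ δ' * N := by linarith
      · show (𝓛.u N τ p.1 ^ a)⁻¹ * 𝓛.u N p.2 p.1 ∈ _
        rw [hrem]
        exact Bl_pow (𝓛.b_mem p.1) _)
  rw [hfst, hprod] at hmem
  rw [FF_eq, ← norm_neg, neg_sub]
  refine (GF_close hT hΨ (hN21.trans hN2') x n _ _ hm hmem).trans ?_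
  have h4 := hN2 N hN2'
  have h5 : cK * (δ / (2 * (cK + 1))) ≤ δ / 2 := by
    rw [mul_div_assoc', div_le_div_iff₀ (by positivity) (by positivity)]
    nlinarith
  linarith

end Crest.Agent.R182.Star
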