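/-
R182, module FACET (helper710): the facet inequality between two classes, at one scale.
-/
import Crest.Agent.R182.StarLaw
import Crest.Agent.R182.FacetGeom
import Crest.Agent.R182.FacetChange

set_option autoImplicit false
set_option linter.unusedSectionVars false

namespace Crest.Agent.R182.Facet

open MeasureTheory Cap CapModel Crest.Agent.R182.Star Conv

variable {G H ι E : Type*} [Group G] [Group H] [MeasurableSpace H] [MeasurableMul₂ H]
    [MeasurableInv H] [Fintype ι] [NormedAddCommGroup E] [InnerProductSpace ℝ E]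

/-- a test path at scale `N`: steps of length `≤ s N`, normalised heights close to the segment
`[0, a]`. -/
structure TPath (M : CapModel G H ι E) (N : ℕ) (s ζ Cm : ℝ) (r : ℕ) (d : ℕ → G) (a : E) :
    Prop where
  zero : d 0 = 1
  step : ∀ t < r, M.len ((d t)⁻¹ * d (t + 1)) ≤ s * N
  mem : ∃ m : ℕ, (m : ℝ) ≤ Cm * N ∧ d r ∈ M.Cl m
  seg : ∀ t ≤ r, ∃ θ : ℝ, 0 ≤ θ ∧ θ ≤ 1 ∧ ‖(N : ℝ)⁻¹ • M.hgt (d t) - θ • a‖ ≤ ζ
  fin : ‖(N : ℝ)⁻¹ • M.hgt (d r) - a‖ ≤ ζ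

/-- the image of the test path is close to the segment `[0, v]`. -/
def TLaw (M : CapModel G H ι E) (N : ℕ) (Ψ : G → G) (x : G) (g0 : G) (r : ℕ) (d : ℕ → G) (v : E)
    (e : ℝ) (n : H) : Prop :=
  ‖GF M N Ψ x n (g0 * d r) - GF M N Ψ x n g0 - v‖ ≤ e ∧
  ∀ t ≤ r, ∃ θ : ℝ, 0 ≤ θ ∧ θ ≤ 1 ∧ ‖GF M N Ψ x n (g0 * d t) - GF M N Ψ x n g0 - θ • v‖ ≤ e

theorem F_eq_GF {M : CapModel G H ι E} {N : ℕ} (hN : (N : ℝ) ≠ 0) (Ψ : G → G) (x : G) (n : H)
    (g : G) : F M Ψ x n g = (N : ℝ) • GF M N Ψ x n g := by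
  unfold F GF
  rw [smul_smul, mul_inv_cancel₀ hN, one_smul]

theorem l_seg_le (M : CapModel G H ι E) (j : ι) {u v : E} {θ ζ : ℝ} (h0 : 0 ≤ θ) (h1 : θ ≤ 1)
    (h : ‖u - θ • v‖ ≤ ζ) : M.S.l j u ≤ max 0 (M.S.l j v) + M.C0 * ζ := by
  have h2 := l_drift (M := M) j h
  rw [map_smul, smul_eq_mul] at h2
  have h3 : θ * M.S.l j v ≤ max 0 (M.S.l j v) := by
    calc θ * M.S.l j v ≤ θ * max 0 (M.S.l j v) := mul_le_mul_of_nonneg_left (le_max_right _ _) h0
      _ ≤ 1 * max 0 (M.S.l j v) := mul_le_mul_of_nonneg_right h1 (le_max_left _ _)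
      _ = _ := one_mul _
  linarith

/-- **the facet inequality between two classes, at scale `N`.** -/
theorem pair_rare {M : CapModel G H ι E} (hR : M.Reach) (hE : M.Ent) {K : ℝ} (hK : 1 ≤ K) {i : ι}
    (hi : M.S.NZ i) : ∃ Cc : ℝ, 0 ≤ Cc ∧ ∀ (r : ℕ) (Cm β δ0 : ℝ), 0 < β → 0 < δ0 → ∃ N0 : ℕ,
    ∀ N ≥ N0, ∀ Ψ : G → G, QI M K Ψ → ∀ (s ζ e : ℝ), 0 ≤ s → s ≤ 1 → 0 ≤ ζ → 0 ≤ e →
    ∀ (d : ℕ → G) (a v1 v2 : E), TPath M N s ζ Cm r d a → ‖v1‖ ≤ Cm → ∀ (x g0 : G) (A B : Set H),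
    MeasurableSet A → MeasurableSet B → (∀ n ∈ A, TLaw M N Ψ x g0 r d v1 e n) →
    (∀ n ∈ B, TLaw M N Ψ x g0 r d v2 e n) →
    ∀ Q' : Set H, MeasurableSet Q' → M.μ Q' ≠ ⊤ → M.μ Q' ≠ 0 → M.μ A ≤ M.μ Q' → M.μ B ≤ M.μ Q' →
    (∀ b ∈ M.V, ∀ n ∈ A, n * (M.cj g0 b)⁻¹ ∈ Q') →
    (∀ b ∈ M.V, ∀ n ∈ B, n * (M.cj g0 b)⁻¹ ∈ Q') →
    (∀ b ∈ M.V, ∀ n ∈ A, n * (M.cj (g0 * d r) b)⁻¹ ∈ Q') →
    (∀ b ∈ M.V, ∀ n ∈ B, n * (M.cj (g0 * d r) b)⁻¹ ∈ Q') →
    ENNReal.ofReal β * M.μ Q' ≤ ∫⁻ n in A, Star.Tk M.ν (M.cj g0) B n ∂M.μ →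
    M.S.g a + M.S.l i v1 ≤ M.S.g v1 + max 0 (M.S.l i v2) + Cc * (s + ζ + e) + δ0 := by
  obtain ⟨Ac, hAc, hfac⟩ := facet_ineq' hR hE hK 1 hi
  have hC0 := M.one_le_C0
  have hLip := M.S.Lip_nonneg
  refine ⟨M.S.Lip * M.C0 + Ac * (1 + 2 * M.C0), by positivity, ?_⟩
  intro r Cm β δ0 hβ hδ0
  set cm : ℝ := |Cm| + 1 + 2 * M.C0 + r + 2 with hcm
  obtain ⟨N1, hN1⟩ := log_le_eventually Ac (C := cm) (δ0 := δ0 / 2) (by positivity)
  set κ0 : ℝ := Ac * (2 * M.C0 + 1) + Ac * |Real.log β| with hκ0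
  obtain ⟨N2, hN2⟩ := exists_nat_ge (κ0 / (δ0 / 2))
  refine ⟨max (max N1 N2) 1, ?_⟩
  intro N hN Ψ hΨ s ζ e hs hs1 hζ he d a v1 v2 hd hv1 x g0 A B hAm hBm hA hB Q' hQ'm hQ'fin hQ'0
    hAQ hBQ hA0 hB0 hA1 hB1 hedge
  have hN1' : N1 ≤ N := le_of_max_le_left (le_of_max_le_left hN)
  have hN2' : N2 ≤ N := le_of_max_le_right (le_of_max_le_left hN)
  have hNp : (1 : ℝ) ≤ N := by exact_mod_cast le_of_max_le_right hN
  have hNpos : (0 : ℝ) < N := by linarith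
  have hNne : (N : ℝ) ≠ 0 := hNpos.ne'
  obtain ⟨m0, hm0, hm0'⟩ := hd.mem
  set m : ℕ := ⌈(|Cm| + 1) * N + 2 * M.C0⌉₊ + r + 1 with hm
  have hmge : (|Cm| + 1) * N + 2 * M.C0 + r + 1 ≤ m := by
    rw [hm]; push_cast
    have := Nat.le_ceil ((|Cm| + 1) * N + 2 * M.C0)
    linarith
  have habs := abs_nonneg Cm
  have hCmle := le_abs_self Cm
  have hrn : (0 : ℝ) ≤ r := Nat.cast_nonneg r
  have hmle : (m : ℝ) ≤ cm * (N + 1) := by
    rw [hm]; push_cast
    have h1 := Nat.ceil_lt_add_one (a := (|Cm| + 1) * N + 2 * M.C0) (by positivity)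
    have h2 : cm * (N + 1) = (|Cm| + 1) * N + (|Cm| + 1) +
        (2 * M.C0 + r + 2) * N + (2 * M.C0 + r + 2) := by rw [hcm]; ring
    have h4 : 0 ≤ (2 * M.C0 + r + 2) * N := by positivity
    rw [h2]; linarith
  set sf : ℝ := s * N + 2 * M.C0 with hsf
  set ef : ℝ := 2 * M.C0 * (e + ζ) * N with hef
  have hef0 : 0 ≤ ef := by positivity
  set c' : ℕ → G := fun k => if k = 0 then 1 else d r with hc'
  set d' : ℕ → ℕ → G := fun k t => if k = 0 then 1 else d t with hd'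
  have hCmN : Cm * N ≤ m := by
    have : Cm * N ≤ (|Cm| + 1) * N := by gcongr; linarith
    linarith
  have hsm : sf ≤ m := by
    have h1 : s * N ≤ (|Cm| + 1) * N := by gcongr; linarith
    rw [hsf]; linarith
  have hstar : StarData M 1 r m sf c' d' := by
    refine ⟨by rw [hm]; omega, by simp [hc'], ?_, ?_, ?_, ?_, ?_, by rw [hm]; omega, hsm⟩
    · intro k _
      simp only [hc']
      split_ifs
      · exact M.Cl_mono 0 m (Nat.zero_le _) M.one_mem_Cl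
      · refine M.Cl_mono m0 m ?_ hm0'
        exact_mod_cast hm0.trans hCmN
    · intro k
      simp only [hd']
      split_ifs
      · rfl
      · exact hd.zero
    · intro k
      simp only [hd', hc']
    · intro k j hj
      simp only [hd']
      split_ifs
      · rw [M.dst_self, hsf]; positivity
      · refine (hd.step j hj).trans ?_
        rw [hsf]; linarith
    · rw [hsf]
      have : 0 ≤ s * N := by positivity
      linarith
  set Zs : ι → ℝ := fun j => max 0 (M.S.l j (M.hgt (d r))) with hZs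
  set Zt : ι → ℝ := fun j => N * max 0 (M.S.l j v1) with hZt
  -- heights
  have hNζ : (N : ℝ) * (M.C0 * ζ) ≤ ef := by
    rw [hef]
    have h1 : 0 ≤ M.C0 * ζ * N := by positivity
    have h2 : 0 ≤ M.C0 * e * N := by positivity
    linarith
  have hhgt : ∀ g : G, ∀ j, M.S.l j (M.hgt g) = N * M.S.l j ((N : ℝ)⁻¹ • M.hgt g) := by
    intro g j
    rw [map_smul, smul_eq_mul, ← mul_assoc, mul_inv_cancel₀ hNne, one_mul]
  have hla : ∀ j, N * max (M.S.l j a) 0 ≤ Zs j + M.C0 * ζ * N := by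
    intro j
    have h1 : M.S.l j a ≤ M.S.l j ((N : ℝ)⁻¹ • M.hgt (d r)) + M.C0 * ζ := by
      refine l_drift (M := M) j ?_
      rw [← norm_neg, neg_sub]; exact hd.fin
    have h2 : (N : ℝ) * M.S.l j a ≤ M.S.l j (M.hgt (d r)) + M.C0 * ζ * N := by
      rw [hhgt (d r) j]
      have := mul_le_mul_of_nonneg_left h1 hNpos.le
      linarith
    rw [mul_max_of_nonneg _ _ hNpos.le, mul_zero]
    have h3 : 0 ≤ M.C0 * ζ * N := by positivity
    simp only [hZs]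
    refine max_le ?_ ?_
    · have := le_max_right 0 (M.S.l j (M.hgt (d r)))
      linarith
    · have := le_max_left 0 (M.S.l j (M.hgt (d r)))
      linarith
  have hZs2 : ∀ k ≤ 1, ∀ t ≤ r, ∀ j, M.S.l j (M.hgt (d' k t)) ≤ Zs j + ef := by
    intro k _ t ht j
    have hZ0 : 0 ≤ Zs j := le_max_left _ _
    simp only [hd']
    split_ifs
    · rw [M.hgt_one, map_zero]; linarith
    · obtain ⟨θ, h0, h1, h2⟩ := hd.seg t ht
      have h3 := l_seg_le M j h0 h1 h2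
      rw [hhgt (d t) j]
      have h4 := hla j
      rw [max_comm] at h4
      have h5 := mul_le_mul_of_nonneg_left h3 hNpos.le
      rw [hef]
      have h6 : 0 ≤ M.C0 * e * N := by positivity
      linarith
  -- images
  have hFd : ∀ (n : H) (g g' : G), F M Ψ x n g - F M Ψ x n g' =
      (N : ℝ) • (GF M N Ψ x n g - GF M N Ψ x n g') := by
    intro n g g'
    rw [F_eq_GF hNne, F_eq_GF hNne, smul_sub]
  have hinc : ∀ (v : E) (n : H), TLaw M N Ψ x g0 r d v e n → ∀ k ≤ 1,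
      ‖F M Ψ x n (g0 * c' k) - F M Ψ x n g0 - (if k = 0 then 0 else (N : ℝ) • v)‖ ≤ ef := by
    intro v n hn k _
    simp only [hc']
    split_ifs
    · rw [mul_one, sub_self, sub_self, norm_zero]; exact hef0
    · rw [hFd, ← smul_sub, norm_smul, Real.norm_of_nonneg hNpos.le]
      have h1 := mul_le_mul_of_nonneg_left hn.1 hNpos.le
      refine h1.trans ?_
      rw [hef]
      have h2 : 0 ≤ M.C0 * ζ * N := by positivity
      have h3 : e * N ≤ M.C0 * (e * N) := le_mul_of_one_le_left (by positivity) hC0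
      linarith
  have hhei : ∀ (v : E) (n : H), TLaw M N Ψ x g0 r d v e n → ∀ k ≤ 1, ∀ t ≤ r, ∀ j,
      M.S.l j (F M Ψ x n (g0 * d' k t)) ≤ M.S.l j (F M Ψ x n g0) + N * max 0 (M.S.l j v) + ef := by
    intro v n hn k _ t ht j
    have hp : 0 ≤ N * max 0 (M.S.l j v) := mul_nonneg hNpos.le (le_max_left _ _)
    simp only [hd']
    split_ifs
    · rw [mul_one]; linarith
    · obtain ⟨θ, h0, h1, h2⟩ := hn.2 t ht
      have h3 := l_seg_le M j h0 h1 h2
      have h4 := mul_le_mul_of_nonneg_left h3 hNpos.le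
      have h5 : M.S.l j (F M Ψ x n (g0 * d t)) - M.S.l j (F M Ψ x n g0) =
          N * M.S.l j (GF M N Ψ x n (g0 * d t) - GF M N Ψ x n g0) := by
        rw [← map_sub, hFd, map_smul, smul_eq_mul]
      have h6 : (N : ℝ) * (M.C0 * e) ≤ ef := by
        rw [hef]
        have h1 : 0 ≤ M.C0 * ζ * N := by positivity
        have h2 : 0 ≤ M.C0 * e * N := by positivity
        linarith
      linarith
  have hkey := hfac Ψ hΨ r m sf ef c' d' hstar (fun t => by simp [hd']) hef0 Zs Zt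
    (fun j => le_max_left _ _) (fun j => mul_nonneg hNpos.le (le_max_left _ _))
    (fun j => ⟨1, le_rfl, by simp [hZs, hc']⟩) hZs2 ((N : ℝ) • v1)
    (fun j => by
      rw [map_smul, smul_eq_mul]
      exact mul_le_mul_of_nonneg_left (le_max_right _ _) hNpos.le)
    (by
      rw [norm_smul, Real.norm_of_nonneg hNpos.le]
      have : (N : ℝ) * ‖v1‖ ≤ N * Cm := mul_le_mul_of_nonneg_left hv1 hNpos.le
      linarith)
    x g0 A B (fun k => if k = 0 then 0 else (N : ℝ) • v1)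
    (fun k => if k = 0 then 0 else (N : ℝ) • v2) hAm hBm
    (fun n hn k hk => hinc v1 n (hA n hn) k hk) (fun n hn k hk => hinc v2 n (hB n hn) k hk)
    (fun n hn k hk t ht j => hhei v1 n (hA n hn) k hk t ht j)
    (N * max 0 (M.S.l i v2)) (mul_nonneg hNpos.le (le_max_left _ _))
    (fun n hn k hk t ht => hhei v2 n (hB n hn) k hk t ht i)
    Q' hQ'm hQ'fin hQ'0 hAQ hBQ
    (fun k _ b hb n hn => by
      simp only [hc']
      split_ifs
      · rw [mul_one]; exact hA0 b hb n hn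
      · exact hA1 b hb n hn)
    (fun k _ b hb n hn => by
      simp only [hc']
      split_ifs
      · rw [mul_one]; exact hB0 b hb n hn
      · exact hB1 b hb n hn) β hβ hedge
  rw [map_smul, smul_eq_mul] at hkey
  have g1 : (N : ℝ) * M.S.g a ≤ M.S.Gt Zs + M.S.Lip * (M.C0 * ζ * N) := by
    unfold GenSys.g
    rw [← M.S.Gt_smul hNpos.le]
    exact M.S.Gt_le_add (by positivity) hla
  have g2 : M.S.Gt Zt = N * M.S.g v1 := by
    unfold GenSys.g
    rw [← M.S.Gt_smul hNpos.le]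
    congr 1
    funext j
    simp only [hZt, max_comm]
  rw [g2] at hkey
  have hm1' : (1 : ℝ) ≤ m := by exact_mod_cast hstar.one_le
  have g3 := hN1 N hN1' m hm1' hmle
  have g4 : κ0 ≤ δ0 / 2 * N := by
    have h1 : (N2 : ℝ) ≤ N := by exact_mod_cast hN2'
    have h2 := hN2.trans h1
    rw [div_le_iff₀ (by positivity)] at h2
    linarith
  have g5 : (N : ℝ) * (M.S.g a + M.S.l i v1) ≤ N * (M.S.g v1 + max 0 (M.S.l i v2) +
      (M.S.Lip * M.C0 + Ac * (1 + 2 * M.C0)) * (s + ζ + e) + δ0) := by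
    have h1 : (N : ℝ) * (M.S.g v1 + max 0 (M.S.l i v2) +
      (M.S.Lip * M.C0 + Ac * (1 + 2 * M.C0)) * (s + ζ + e) + δ0) =
      N * M.S.g v1 + N * max 0 (M.S.l i v2) + (M.S.Lip * (M.C0 * ζ * N) +
        Ac * (s * N + 2 * M.C0 * (e + ζ) * N)) + δ0 * N +
        (M.S.Lip * M.C0 * (s + e) + Ac * (ζ + e) + 2 * Ac * M.C0 * s) * N := by ring
    have h2 : 0 ≤ (M.S.Lip * M.C0 * (s + e) + Ac * (ζ + e) + 2 * Ac * M.C0 * s) * N := by
      positivity
    rw [h1]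
    rw [hκ0] at g4
    rw [hsf, hef] at hkey
    linarith
  exact le_of_mul_le_mul_left g5 hNpos

end Crest.Agent.R182.Facet
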