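/-
R182, module FACET (helper710): test words staying in a half space.
-/
import Crest.Agent.R182.FacetPair

set_option autoImplicit false
set_option linter.unusedSectionVars false

namespace Crest.Agent.R182.Facet

open List Crest.Agent.R182.Star Conv

section Lists

/-- first nonpositive, then nonnegative numbers with nonpositive sum: all prefixes have nonpositive
sum. -/
theorem prefix_sum_le {α : Type*} (f : α → ℝ) {l1 l2 l' : List α} (h1 : ∀ x ∈ l1, f x ≤ 0)
    (h2 : ∀ x ∈ l2, 0 ≤ f x) (hs : ((l1 ++ l2).map f).sum ≤ 0) (h : l' <+: l1 ++ l2) :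
    (l'.map f).sum ≤ 0 := by
  have hneg : ∀ l : List α, (∀ x ∈ l, f x ≤ 0) → (l.map f).sum ≤ 0 := by
    intro l
    induction l with
    | nil => intro _; simp
    | cons x l ih =>
      intro hl
      rw [map_cons, sum_cons]
      have := hl x mem_cons_self
      have := ih fun y hy => hl y (mem_cons_of_mem _ hy)
      linarith
  have hpos : ∀ l : List α, (∀ x ∈ l, 0 ≤ f x) → 0 ≤ (l.map f).sum := by
    intro l
    induction l with
    | nil => intro _; simp
    | cons x l ih =>
      intro hl
      rw [map_cons, sum_cons]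
      have := hl x mem_cons_self
      have := ih fun y hy => hl y (mem_cons_of_mem _ hy)
      linarith
  rcases prefix_or_prefix_of_prefix h (prefix_append l1 l2) with h3 | h3
  · exact hneg l' fun x hx => h1 x (h3.subset hx)
  · obtain ⟨l'', rfl⟩ := h3
    rw [prefix_append_right_inj] at h
    obtain ⟨l3, rfl⟩ := h
    rw [← append_assoc, map_append, sum_append] at hs
    have := hpos l3 fun x hx => h2 x (mem_append_right _ hx)
    linarith

/-- prefixes of a repeated list -/
theorem prefix_flatten_replicate {α : Type*} (w : List α) (m : ℕ) :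
    ∀ w', w' <+: (replicate m w).flatten →
      ∃ j ≤ m, ∃ w'', w'' <+: w ∧ w' = (replicate j w).flatten ++ w'' := by
  induction m with
  | zero =>
    intro w' h
    have : w' = [] := by simpa using h
    subst this
    exact ⟨0, le_rfl, [], nil_prefix, by simp⟩
  | succ m ih =>
    intro w' h
    rw [replicate_succ, flatten_cons] at h
    rcases prefix_or_prefix_of_prefix h (prefix_append w _) with h1 | h1
    · exact ⟨0, Nat.zero_le _, w', h1, by simp⟩
    · obtain ⟨u, rfl⟩ := h1
      rw [prefix_append_right_inj] at h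
      obtain ⟨j, hj, w'', hw'', rfl⟩ := ih u h
      refine ⟨j + 1, by omega, w'', hw'', ?_⟩
      rw [replicate_succ, flatten_cons, append_assoc]

end Lists

variable {ι : Type*} [Fintype ι] {E : Type*} [NormedAddCommGroup E] [InnerProductSpace ℝ E]

theorem tsum_append {Eb : Finset E} (w w' : List (Eb × ℝ)) :
    tsum (w ++ w') = tsum w + tsum w' := by
  simp [Star.tsum]

theorem tsum_flatten {Eb : Finset E} (w : List (Eb × ℝ)) (j : ℕ) :
    tsum (replicate j w).flatten = (j : ℝ) • tsum w := by
  induction j with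
  | zero => simp [Star.tsum]
  | succ j ih =>
    rw [replicate_succ, flatten_cons, tsum_append, ih]
    push_cast
    rw [add_smul, one_smul, add_comm]

variable [FiniteDimensional ℝ E]

/-- **test words.** -/
theorem exists_word (R : RSys ι E) (er : E) {a : E} (ha : inner ℝ er a < 0) {s ζ : ℝ}
    (hs : 0 < s) (hζ : 0 < ζ) : ∃ w : List (R.Eb × ℝ), tsum w = a ∧
      (∀ p ∈ w, 0 ≤ p.2 ∧ p.2 ≤ s) ∧ ∀ w', w' <+: w → inner ℝ er (tsum w') ≤ 0 ∧
        ∃ θ : ℝ, 0 ≤ θ ∧ θ ≤ 1 ∧ ‖tsum w' - θ • a‖ ≤ ζ := by
  classical
  obtain ⟨c0, hc0, hrel⟩ := R.exists_rel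
  obtain ⟨C0, _, hC0⟩ := exists_decomp R.span_Eb hc0 hrel
  obtain ⟨c, hc, hca, _⟩ := hC0 a
  set Sc : ℝ := ∑ e, c e with hSc
  have hSc0 : 0 ≤ Sc := Finset.sum_nonneg fun e _ => hc e
  have hcS : ∀ e, c e ≤ Sc := fun e =>
    Finset.single_le_sum (fun e _ => hc e) (Finset.mem_univ e)
  obtain ⟨m, hm⟩ := exists_nat_gt (Sc / min s ζ)
  have hsζ : 0 < min s ζ := lt_min hs hζ
  have hm0 : (0 : ℝ) < m := lt_of_le_of_lt (by positivity) hm
  have hm1 : Sc / m ≤ min s ζ := by
    rw [div_lt_iff₀ hsζ] at hm
    rw [div_le_iff₀ hm0]; linarith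
  set Ng : List R.Eb := (Finset.univ : Finset R.Eb).toList.filter
    (fun e => decide (inner ℝ er (e : E) ≤ 0)) with hNg
  set Ps : List R.Eb := (Finset.univ : Finset R.Eb).toList.filter
    (fun e => !decide (inner ℝ er (e : E) ≤ 0)) with hPs
  have hperm : (Ng ++ Ps).Perm (Finset.univ : Finset R.Eb).toList :=
    List.filter_append_perm _ _
  set f : R.Eb → R.Eb × ℝ := fun e => (e, c e / m) with hf
  set round : List (R.Eb × ℝ) := (Ng ++ Ps).map f with hround
  have hts : ∀ l : List R.Eb, tsum (l.map f) = (l.map fun e => (c e / m) • (e : E)).sum := by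
    intro l
    rw [Star.tsum, map_map]
    rfl
  have hsum_round : tsum round = (m : ℝ)⁻¹ • a := by
    rw [hround, hts, (hperm.map _).sum_eq, Finset.sum_map_toList, ← hca, comb_apply,
      Finset.smul_sum]
    refine Finset.sum_congr rfl fun e _ => ?_
    rw [smul_smul, div_eq_inv_mul]
  -- prefixes of a round
  have hpre : ∀ w'', w'' <+: round → inner ℝ er (tsum w'') ≤ 0 ∧ ‖tsum w''‖ ≤ ζ := by
    intro w'' hw''
    obtain ⟨l', hl', rfl⟩ : ∃ l', l' <+: Ng ++ Ps ∧ w'' = l'.map f := by
      refine ⟨(Ng ++ Ps).take w''.length, take_prefix _ _, ?_⟩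
      rw [map_take]
      exact (prefix_iff_eq_take.1 hw'')
    have hinner : ∀ l : List R.Eb, inner ℝ er (tsum (l.map f)) =
        (l.map fun e => c e / m * inner ℝ er (e : E)).sum := by
      intro l
      rw [hts]
      induction l with
      | nil => simp
      | cons e l ih =>
        rw [map_cons, sum_cons, inner_add_right, ih, inner_smul_right, map_cons, sum_cons]
    constructor
    · rw [hinner]
      refine prefix_sum_le _ (l1 := Ng) (l2 := Ps) ?_ ?_ ?_ hl'
      · intro e he
        have h1 : inner ℝ er (e : E) ≤ 0 := by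
          have := (mem_filter.1 he).2
          simpa using this
        exact mul_nonpos_of_nonneg_of_nonpos (div_nonneg (hc e) hm0.le) h1
      · intro e he
        have h1 : ¬ inner ℝ er (e : E) ≤ 0 := by
          have := (mem_filter.1 he).2
          simpa using this
        exact mul_nonneg (div_nonneg (hc e) hm0.le) (by push Not at h1; exact h1.le)
      · rw [← hinner, ← hround, hsum_round, inner_smul_right]
        exact mul_nonpos_of_nonneg_of_nonpos (by positivity) ha.le
    · rw [hts]
      have h1 : ∀ l : List R.Eb, ‖(l.map fun e => (c e / m) • (e : E)).sum‖ ≤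
          (l.map fun e => c e / m).sum := by
        intro l
        induction l with
        | nil => simp
        | cons e l ih =>
          rw [map_cons, sum_cons, map_cons, sum_cons]
          refine (norm_add_le _ _).trans (add_le_add ?_ ih)
          rw [norm_smul, R.unit _ e.2, mul_one, Real.norm_of_nonneg (div_nonneg (hc e) hm0.le)]
      refine (h1 l').trans ?_
      have h2 : (l'.map fun e => c e / m).sum ≤ ((Ng ++ Ps).map fun e => c e / m).sum := by
        obtain ⟨l3, hl3⟩ := hl'
        rw [← hl3, map_append, sum_append]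
        have : 0 ≤ (l3.map fun e => c e / m).sum := by
          refine List.sum_nonneg ?_
          intro x hx
          obtain ⟨e, _, rfl⟩ := mem_map.1 hx
          exact div_nonneg (hc e) hm0.le
        linarith
      refine h2.trans ?_
      rw [(hperm.map _).sum_eq, Finset.sum_map_toList, ← Finset.sum_div, ← hSc]
      exact hm1.trans (min_le_right _ _)
  refine ⟨(replicate m round).flatten, ?_, ?_, ?_⟩
  · rw [tsum_flatten, hsum_round, smul_smul, mul_inv_cancel₀ hm0.ne', one_smul]
  · intro p hp
    rw [mem_flatten] at hp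
    obtain ⟨l, hl, hp⟩ := hp
    rw [eq_of_mem_replicate hl, hround, mem_map] at hp
    obtain ⟨e, _, rfl⟩ := hp
    refine ⟨div_nonneg (hc e) hm0.le, ?_⟩
    calc c e / m ≤ Sc / m := by gcongr; exact hcS e
      _ ≤ s := hm1.trans (min_le_left _ _)
  · intro w' hw'
    obtain ⟨j, hj, w'', hw'', rfl⟩ := prefix_flatten_replicate _ _ _ hw'
    obtain ⟨h1, h2⟩ := hpre w'' hw''
    have hj' : (j : ℝ) ≤ m := by exact_mod_cast hj
    have e1 : tsum ((replicate j round).flatten ++ w'') = ((j : ℝ) / m) • a + tsum w'' := by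
      rw [tsum_append, tsum_flatten, hsum_round, smul_smul, div_eq_mul_inv]
    refine ⟨?_, (j : ℝ) / m, by positivity, by rw [div_le_one hm0]; exact hj', ?_⟩
    · rw [e1, inner_add_right, inner_smul_right]
      have : (j : ℝ) / m * inner ℝ er a ≤ 0 :=
        mul_nonpos_of_nonneg_of_nonpos (by positivity) ha.le
      linarith
    · rw [e1, add_sub_cancel_left]; exact h2

end Crest.Agent.R182.Facet
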