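/-
R182, module FACET (helper710): typical moves at a touching position do not change the law.
-/
import Crest.Agent.R182.FacetWord

set_option autoImplicit false
set_option linter.unusedSectionVars false

namespace Crest.Agent.R182.Facet

open MeasureTheory Cap CapModel Crest.Agent.R182.Star Conv

variable {G H ι E : Type*} [Group G] [Group H] [MeasurableSpace H] [MeasurableMul₂ H]
    [MeasurableInv H] [Fintype ι] [NormedAddCommGroup E] [InnerProductSpace ℝ E]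

/-- timed legs at scale `N`: `ψ (e, t)` is a vertical of length `O(N)` with height `≈ N t e`. -/
structure LegsAt (M : CapModel G H ι E) (R : RSys ι E) (N : ℕ) (Cs Cm e : ℝ)
    (ψ : R.Eb × ℝ → G) : Prop where
  len : ∀ p, 0 ≤ p.2 → p.2 ≤ 1 → M.len (ψ p) ≤ (Cs * p.2 + e) * N
  hgt : ∀ p, 0 ≤ p.2 → p.2 ≤ 1 → ‖(N : ℝ)⁻¹ • M.hgt (ψ p) - p.2 • (p.1 : E)‖ ≤ e
  mem : ∀ p, 0 ≤ p.2 → p.2 ≤ 1 → ∃ m : ℕ, (m : ℝ) ≤ Cm * N ∧ ψ p ∈ M.Cl m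

/-- the law `L` relative to the position `g0`, along a timed word. -/
def WLaw1 (M : CapModel G H ι E) {R : RSys ι E} (N : ℕ) (Ψ : G → G) (x g0 : G)
    (ψ : R.Eb × ℝ → G) (w : List (R.Eb × ℝ)) (L : E →ₗ[ℝ] E) (e : ℝ) (n : H) : Prop :=
  ∀ w', w' <+: w →
    ‖GF M N Ψ x n (g0 * (w'.map ψ).prod) - GF M N Ψ x n g0 - L (tsum w')‖ ≤ e

section Words

variable {M : CapModel G H ι E} {R : RSys ι E} {N : ℕ} {Cs Cm e : ℝ} {ψ : R.Eb × ℝ → G}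

theorem LegsAt.hgt_word (h : LegsAt M R N Cs Cm e ψ) (w : List (R.Eb × ℝ))
    (hw : ∀ p ∈ w, 0 ≤ p.2 ∧ p.2 ≤ 1) :
    ‖(N : ℝ)⁻¹ • M.hgt (w.map ψ).prod - tsum w‖ ≤ w.length * e := by
  induction w with
  | nil => simp [Star.tsum, M.hgt_one]
  | cons p w ih =>
    have h1 := ih fun q hq => hw q (List.mem_cons_of_mem _ hq)
    have h2 := h.hgt p (hw p List.mem_cons_self).1 (hw p List.mem_cons_self).2
    rw [List.map_cons, List.prod_cons, M.hgt_mul, smul_add]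
    have h3 : tsum (p :: w) = p.2 • (p.1 : E) + tsum w := by simp [Star.tsum]
    rw [h3]
    have h4 : (N : ℝ)⁻¹ • M.hgt (ψ p) + (N : ℝ)⁻¹ • M.hgt (w.map ψ).prod -
        (p.2 • (p.1 : E) + tsum w) = ((N : ℝ)⁻¹ • M.hgt (ψ p) - p.2 • (p.1 : E)) +
        ((N : ℝ)⁻¹ • M.hgt (w.map ψ).prod - tsum w) := by abel
    rw [h4]
    refine (norm_add_le _ _).trans ?_
    rw [List.length_cons]
    push_cast
    linarith

theorem LegsAt.mem_word (h : LegsAt M R N Cs Cm e ψ) (w : List (R.Eb × ℝ))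
    (hw : ∀ p ∈ w, 0 ≤ p.2 ∧ p.2 ≤ 1) :
    ∃ m : ℕ, (m : ℝ) ≤ w.length * Cm * N ∧ (w.map ψ).prod ∈ M.Cl m := by
  induction w with
  | nil => exact ⟨0, by simp, by simpa using M.one_mem_Cl⟩
  | cons p w ih =>
    obtain ⟨m, hm, h1⟩ := ih fun q hq => hw q (List.mem_cons_of_mem _ hq)
    obtain ⟨m', hm', h2⟩ := h.mem p (hw p List.mem_cons_self).1 (hw p List.mem_cons_self).2
    refine ⟨m' + m, ?_, ?_⟩
    · push_cast
      rw [List.length_cons]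
      push_cast
      linarith
    · rw [List.map_cons, List.prod_cons]
      exact M.Cl_mul _ _ _ _ h2 h1

theorem LegsAt.tpath (h : LegsAt M R N Cs Cm e ψ) (w : List (R.Eb × ℝ)) {s ζ : ℝ} (hs1 : s ≤ 1)
    (hCs : 0 ≤ Cs) (he : 0 ≤ e) (hw : ∀ p ∈ w, 0 ≤ p.2 ∧ p.2 ≤ s) {a : E} (ha : tsum w = a)
    (hseg : ∀ w', w' <+: w → ∃ θ : ℝ, 0 ≤ θ ∧ θ ≤ 1 ∧ ‖tsum w' - θ • a‖ ≤ ζ) :
    TPath M N (Cs * s + e) (w.length * e + ζ) (w.length * Cm) w.length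
      (fun t => ((w.take t).map ψ).prod) a := by
  have hw1 : ∀ p ∈ w, 0 ≤ p.2 ∧ p.2 ≤ 1 := fun p hp => ⟨(hw p hp).1, (hw p hp).2.trans hs1⟩
  have hζ : 0 ≤ ζ := by
    obtain ⟨θ, _, _, h1⟩ := hseg w (List.prefix_refl _)
    exact (norm_nonneg _).trans h1
  have hle : 0 ≤ (w.length : ℝ) * e := by positivity
  refine ⟨by simp, ?_, ?_, ?_, ?_⟩
  · intro t ht
    have h1 : w.take (t + 1) = w.take t ++ [w[t]] := by
      rw [List.take_succ_eq_append_getElem ht]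
    show M.len (((w.take t).map ψ).prod⁻¹ * ((w.take (t + 1)).map ψ).prod) ≤ _
    rw [h1, List.map_append, List.prod_append]
    simp only [List.map_cons, List.map_nil, List.prod_cons, List.prod_nil, mul_one,
      inv_mul_cancel_left]
    have h2 := hw _ (List.getElem_mem ht)
    refine (h.len _ h2.1 (h2.2.trans hs1)).trans ?_
    have h3 : Cs * (w[t]).2 ≤ Cs * s := mul_le_mul_of_nonneg_left h2.2 hCs
    have h4 : (0 : ℝ) ≤ N := Nat.cast_nonneg N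
    exact mul_le_mul_of_nonneg_right (by linarith) h4
  · obtain ⟨m, hm, h1⟩ := h.mem_word w hw1
    exact ⟨m, hm, by simpa using h1⟩
  · intro t _
    obtain ⟨θ, h0, h1, h2⟩ := hseg _ (List.take_prefix t w)
    refine ⟨θ, h0, h1, ?_⟩
    have h3 := h.hgt_word (w.take t) fun p hp => hw1 p (List.mem_of_mem_take hp)
    have h4 : ((w.take t).length : ℝ) * e ≤ w.length * e := by
      have : ((w.take t).length : ℝ) ≤ w.length := by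
        exact_mod_cast (List.take_prefix t w).length_le
      gcongr
    calc ‖(N : ℝ)⁻¹ • M.hgt ((w.take t).map ψ).prod - θ • a‖
        = ‖((N : ℝ)⁻¹ • M.hgt ((w.take t).map ψ).prod - tsum (w.take t)) +
          (tsum (w.take t) - θ • a)‖ := by congr 1; abel
      _ ≤ _ := norm_add_le _ _
      _ ≤ _ := by linarith
  · have h3 := h.hgt_word w hw1
    simp only [List.take_length]
    rw [← ha]
    linarith

theorem WLaw1.tlaw {Ψ : G → G} {x g0 : G} {w : List (R.Eb × ℝ)} {L : E →ₗ[ℝ] E} {e' : ℝ} {n : H}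
    (h : WLaw1 M N Ψ x g0 ψ w L e' n) {a : E} (ha : tsum w = a) {ζ CL : ℝ} (hCL : 0 ≤ CL)
    (hL : ∀ v, ‖L v‖ ≤ CL * ‖v‖)
    (hseg : ∀ w', w' <+: w → ∃ θ : ℝ, 0 ≤ θ ∧ θ ≤ 1 ∧ ‖tsum w' - θ • a‖ ≤ ζ) :
    TLaw M N Ψ x g0 w.length (fun t => ((w.take t).map ψ).prod) (L a) (e' + CL * ζ) n := by
  have hζ : 0 ≤ ζ := by
    obtain ⟨θ, _, _, h1⟩ := hseg w (List.prefix_refl _)
    exact (norm_nonneg _).trans h1
  refine ⟨?_, fun t _ => ?_⟩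
  · simp only [List.take_length]
    have h1 := h w (List.prefix_refl _)
    rw [ha] at h1
    have : 0 ≤ CL * ζ := by positivity
    linarith
  · obtain ⟨θ, h0, h1, h2⟩ := hseg _ (List.take_prefix t w)
    refine ⟨θ, h0, h1, ?_⟩
    have h3 := h _ (List.take_prefix t w)
    have h4 : ‖L (tsum (w.take t)) - θ • L a‖ ≤ CL * ζ := by
      rw [← map_smul, ← map_sub]
      exact (hL _).trans (mul_le_mul_of_nonneg_left h2 hCL)
    calc ‖GF M N Ψ x n (g0 * ((w.take t).map ψ).prod) - GF M N Ψ x n g0 - θ • L a‖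
        = ‖(GF M N Ψ x n (g0 * ((w.take t).map ψ).prod) - GF M N Ψ x n g0 -
          L (tsum (w.take t))) + (L (tsum (w.take t)) - θ • L a)‖ := by congr 1; abel
      _ ≤ _ := norm_add_le _ _
      _ ≤ _ := by linarith

end Words

variable [FiniteDimensional ℝ E]

theorem exists_norm_le (L : E →ₗ[ℝ] E) : ∃ CL : ℝ, 0 ≤ CL ∧ ∀ v, ‖L v‖ ≤ CL * ‖v‖ := by
  refine ⟨‖LinearMap.toContinuousLinearMap L‖, norm_nonneg _, fun v => ?_⟩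
  exact (LinearMap.toContinuousLinearMap L).le_opNorm v

section Meas

variable {M : CapModel G H ι E} {K : ℝ} {Ψ : G → G}

theorem measurableSet_GF (hΨ : QI M K Ψ) (N : ℕ) (x g g' : G) (v : E) (e : ℝ) :
    MeasurableSet {n | ‖GF M N Ψ x n g - GF M N Ψ x n g' - v‖ ≤ e} := by
  letI : MeasurableSpace E := borel E
  haveI : BorelSpace E := ⟨rfl⟩
  have hm : ∀ g, Measurable fun n => GF M N Ψ x n g := by
    intro g T _
    have := hΨ.meas x g ((fun y => (N : ℝ)⁻¹ • M.hgt y) ⁻¹' T)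
    exact this
  exact measurableSet_le (((hm g).sub (hm g')).sub measurable_const).norm measurable_const

theorem measurableSet_WLaw1 {R : RSys ι E} (hΨ : QI M K Ψ) (N : ℕ) (x g0 : G) (ψ : R.Eb × ℝ → G)
    (w : List (R.Eb × ℝ)) (L : E →ₗ[ℝ] E) (e : ℝ) :
    MeasurableSet {n | WLaw1 M N Ψ x g0 ψ w L e n} := by
  have : {n | WLaw1 M N Ψ x g0 ψ w L e n} = ⋂ t : ℕ, {n |
      ‖GF M N Ψ x n (g0 * ((w.take t).map ψ).prod) - GF M N Ψ x n g0 -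
        L (tsum (w.take t))‖ ≤ e} := by
    ext n
    simp only [Set.mem_iInter, Set.mem_ofPred_eq]
    constructor
    · intro h t
      exact h _ (List.take_prefix t w)
    · intro h w' hw'
      rw [List.prefix_iff_eq_take.1 hw']
      exact h _
  rw [this]
  exact MeasurableSet.iInter fun t => measurableSet_GF hΨ N x _ _ _ _

end Meas

/-- **one gap**: edges between the classes of `L1` and `L2` are rare. -/
theorem edge_gap {M : CapModel G H ι E} (hR : M.Reach) (hE : M.Ent) {K : ℝ} (hK : 1 ≤ K)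
    (R : RSys ι E) (hRS : M.S = R.toGenSys) {i : ι} (hi : R.NZ i) {L1 L2 : E →ₗ[ℝ] E} {a : E}
    (hgap : 0 < gap R i a (L1 a) (L2 a)) {Cs : ℝ} (hCs : 0 ≤ Cs) :
    ∃ e0 : ℝ, 0 < e0 ∧ ∀ w : List (R.Eb × ℝ), tsum w = a → (∀ p ∈ w, 0 ≤ p.2 ∧ p.2 ≤ e0) →
      (∀ w', w' <+: w → ∃ θ : ℝ, 0 ≤ θ ∧ θ ≤ 1 ∧ ‖tsum w' - θ • a‖ ≤ e0) →
      ∃ e1 : ℝ, 0 < e1 ∧ ∀ Cm β : ℝ, 0 < β → ∃ N0 : ℕ, ∀ N ≥ N0, ∀ e' : ℝ, 0 ≤ e' → e' ≤ e1 →
      ∀ ψ : R.Eb × ℝ → G, LegsAt M R N Cs Cm e' ψ → ∀ Ψ : G → G, QI M K Ψ → ∀ (x g0 : G)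
      (Q Q' : Set H), MeasurableSet Q → MeasurableSet Q' → M.μ Q' ≠ ⊤ → M.μ Q' ≠ 0 →
      M.μ Q ≤ M.μ Q' → (∀ b ∈ M.V, ∀ n ∈ Q, n * (M.cj g0 b)⁻¹ ∈ Q') →
      (∀ b ∈ M.V, ∀ n ∈ Q, n * (M.cj (g0 * (w.map ψ).prod) b)⁻¹ ∈ Q') →
      ∫⁻ n in (Q ∩ {n | WLaw1 M N Ψ x g0 ψ w L1 e' n}),
        Tk M.ν (M.cj g0) (Q ∩ {n | WLaw1 M N Ψ x g0 ψ w L2 e' n}) n ∂M.μ ≤
        ENNReal.ofReal β * M.μ Q' := by
  have hi' : M.S.NZ i := by rw [hRS]; exact hi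
  obtain ⟨Cc, hCc, hpair⟩ := pair_rare hR hE hK hi'
  obtain ⟨C1, hC1, hL1⟩ := exists_norm_le L1
  obtain ⟨C2, hC2, hL2⟩ := exists_norm_le L2
  set ε := gap R i a (L1 a) (L2 a) with hε
  set CL := max C1 C2 with hCL
  have hCLp : 0 ≤ CL := hC1.trans (le_max_left _ _)
  -- constants
  set e0 : ℝ := min (min 1 (1 / (2 * (Cs + 1)))) (ε / (8 * (Cc + 1) * (Cs + CL + 1))) with he0
  have he0p : 0 < e0 := by
    rw [he0]
    refine lt_min (lt_min one_pos (by positivity)) (by positivity)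
  refine ⟨e0, he0p, ?_⟩
  intro w hwa hw hseg
  set lw : ℝ := (w.length : ℝ) with hlw
  have hlw0 : 0 ≤ lw := Nat.cast_nonneg _
  set e1 : ℝ := min (1 / 2) (ε / (8 * (Cc + 1) * (lw + 2))) with he1
  have he1p : 0 < e1 := by
    rw [he1]; exact lt_min (by norm_num) (by positivity)
  refine ⟨e1, he1p, ?_⟩
  intro Cm β hβ
  obtain ⟨N0, hN0⟩ := hpair w.length (max (lw * Cm) ‖L1 a‖) β (ε / 4) hβ (by positivity)
  refine ⟨N0, ?_⟩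
  intro N hN e' he' he'1 ψ hψ Ψ hΨ x g0 Q Q' hQ hQ' hQ'fin hQ'0 hQQ hV0 hV1
  by_contra hcon
  push Not at hcon
  have he0s : e0 ≤ 1 := (min_le_left _ _).trans (min_le_left _ _)
  have he0Cs : Cs * e0 ≤ 1 / 2 := by
    have h1 : e0 ≤ 1 / (2 * (Cs + 1)) := (min_le_left _ _).trans (min_le_right _ _)
    calc Cs * e0 ≤ Cs * (1 / (2 * (Cs + 1))) := mul_le_mul_of_nonneg_left h1 hCs
      _ ≤ 1 / 2 := by
        rw [mul_one_div, div_le_div_iff₀ (by positivity) (by norm_num)]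
        linarith
  have hp1 := hψ.tpath w he0s hCs he' hw hwa hseg
  have hp2 : TPath M N (Cs * e0 + e') (lw * e' + e0) (max (lw * Cm) ‖L1 a‖) w.length
      (fun t => ((w.take t).map ψ).prod) a := by
    refine ⟨hp1.zero, hp1.step, ?_, hp1.seg, hp1.fin⟩
    obtain ⟨m, hm, hm'⟩ := hp1.mem
    refine ⟨m, hm.trans ?_, hm'⟩
    exact mul_le_mul_of_nonneg_right (le_max_left _ _) (Nat.cast_nonneg N)
  have hT1 : ∀ n ∈ Q ∩ {n | WLaw1 M N Ψ x g0 ψ w L1 e' n},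
      TLaw M N Ψ x g0 w.length (fun t => ((w.take t).map ψ).prod) (L1 a) (e' + CL * e0) n :=
    fun n hn => WLaw1.tlaw hn.2 hwa hCLp
      (fun v => (hL1 v).trans (by gcongr; exact le_max_left _ _)) hseg
  have hT2 : ∀ n ∈ Q ∩ {n | WLaw1 M N Ψ x g0 ψ w L2 e' n},
      TLaw M N Ψ x g0 w.length (fun t => ((w.take t).map ψ).prod) (L2 a) (e' + CL * e0) n :=
    fun n hn => WLaw1.tlaw hn.2 hwa hCLp
      (fun v => (hL2 v).trans (by gcongr; exact le_max_right _ _)) hseg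
  have hkey := hN0 N hN Ψ hΨ (Cs * e0 + e') (lw * e' + e0) (e' + CL * e0) (by positivity)
    (by
      have : e' ≤ 1 / 2 := he'1.trans (min_le_left _ _)
      linarith) (by positivity) (by positivity) _ a (L1 a) (L2 a) hp2 (le_max_right _ _) x g0
    _ _ (hQ.inter (measurableSet_WLaw1 hΨ N x g0 ψ w L1 e'))
    (hQ.inter (measurableSet_WLaw1 hΨ N x g0 ψ w L2 e')) hT1 hT2 Q' hQ' hQ'fin hQ'0
    ((measure_mono Set.inter_subset_left).trans hQQ)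
    ((measure_mono Set.inter_subset_left).trans hQQ)
    (fun b hb n hn => hV0 b hb n hn.1) (fun b hb n hn => hV0 b hb n hn.1)
    (fun b hb n hn => by
      simp only [List.take_length]
      exact hV1 b hb n hn.1)
    (fun b hb n hn => by
      simp only [List.take_length]
      exact hV1 b hb n hn.1) hcon.le
  rw [hRS] at hkey
  have hεd : ε = R.g a + R.l i (L1 a) - R.g (L1 a) - max 0 (R.l i (L2 a)) := rfl
  have hsum : Cc * (Cs * e0 + e' + (lw * e' + e0) + (e' + CL * e0)) ≤ ε / 4 := by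
    have h1 : Cc * (Cs * e0 + e' + (lw * e' + e0) + (e' + CL * e0)) =
        (Cc * (Cs + CL + 1)) * e0 + (Cc * (lw + 2)) * e' := by ring
    rw [h1]
    have h2 : (Cc * (Cs + CL + 1)) * e0 ≤ ε / 8 := by
      have h3 : e0 ≤ ε / (8 * (Cc + 1) * (Cs + CL + 1)) := min_le_right _ _
      calc (Cc * (Cs + CL + 1)) * e0 ≤ (Cc * (Cs + CL + 1)) *
            (ε / (8 * (Cc + 1) * (Cs + CL + 1))) := by gcongr
        _ = ε / 8 * (Cc / (Cc + 1)) := by field_simp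
        _ ≤ ε / 8 * 1 := by
          gcongr
          rw [div_le_one (by positivity)]; linarith
        _ = _ := mul_one _
    have h4 : (Cc * (lw + 2)) * e' ≤ ε / 8 := by
      have h3 : e' ≤ ε / (8 * (Cc + 1) * (lw + 2)) := he'1.trans (min_le_right _ _)
      calc (Cc * (lw + 2)) * e' ≤ (Cc * (lw + 2)) * (ε / (8 * (Cc + 1) * (lw + 2))) := by gcongr
        _ = ε / 8 * (Cc / (Cc + 1)) := by field_simp
        _ ≤ ε / 8 * 1 := by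
          gcongr
          rw [div_le_one (by positivity)]; linarith
        _ = _ := mul_one _
    linarith
  linarith

/-- the measure of the set of edges -/
theorem prod_edge {μ ν : Measure H} [SFinite μ] [SFinite ν] {φ : H → H} (hφ : Measurable φ)
    {A B : Set H} (hA : MeasurableSet A) (hB : MeasurableSet B) :
    (μ.prod (ν.prod ν)) {p | p.1 ∈ A ∧ p.1 * (φ p.2.1)⁻¹ * φ p.2.2 ∈ B} =
      ∫⁻ n in A, Tk ν φ B n ∂μ := by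
  have hm : MeasurableSet {p : H × (H × H) | p.1 ∈ A ∧ p.1 * (φ p.2.1)⁻¹ * φ p.2.2 ∈ B} :=
    (measurable_fst hA).inter (measurableSet_step hφ hB)
  rw [Measure.prod_apply hm, ← lintegral_indicator hA]
  refine lintegral_congr fun n => ?_
  by_cases hn : n ∈ A
  · rw [Set.indicator_of_mem hn]
    unfold Tk
    congr 1
    ext p
    simp [hn]
  · rw [Set.indicator_of_notMem hn]
    have : (Prod.mk n ⁻¹' {p : H × (H × H) | p.1 ∈ A ∧ p.1 * (φ p.2.1)⁻¹ * φ p.2.2 ∈ B}) = ∅ := by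
      ext p
      simp [hn]
    rw [this, measure_empty]

/-- **one pair of laws** -/
theorem edge_pair {M : CapModel G H ι E} (hR : M.Reach) (hE : M.Ent) {K : ℝ} (hK : 1 ≤ K)
    (R : RSys ι E) (hRS : M.S = R.toGenSys) {er : E} (her : er ∈ R.Eb) {L1 L2 : E →ₗ[ℝ] E}
    (h1 : IsPerm R L1) (h2 : IsPerm R L2) (hne : L1 ≠ L2) {Cs : ℝ} (hCs : 0 ≤ Cs) {ρ η : ℝ}
    (hρ : 0 < ρ) (hη : 0 < η) :
    ∃ (w : List (R.Eb × ℝ)) (e1 : ℝ), 0 < e1 ∧ (∀ p ∈ w, 0 ≤ p.2 ∧ p.2 ≤ 1) ∧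
      inner ℝ er (tsum w) < 0 ∧
      (∀ w', w' <+: w → inner ℝ er (tsum w') ≤ 0 ∧ ‖tsum w'‖ ≤ ρ) ∧
      ∀ Cm : ℝ, ∃ N0 : ℕ, ∀ N ≥ N0, ∀ e' : ℝ, 0 ≤ e' → e' ≤ e1 →
      ∀ ψ : R.Eb × ℝ → G, LegsAt M R N Cs Cm e' ψ → ∀ Ψ : G → G, QI M K Ψ → ∀ (x g0 : G)
      (Q Q' : Set H), MeasurableSet Q → MeasurableSet Q' → M.μ Q' ≠ ⊤ → M.μ Q' ≠ 0 →
      M.μ Q ≤ M.μ Q' → (∀ b ∈ M.V, ∀ n ∈ Q, n * (M.cj g0 b)⁻¹ ∈ Q') →
      (∀ b ∈ M.V, ∀ n ∈ Q, n * (M.cj (g0 * (w.map ψ).prod) b)⁻¹ ∈ Q') →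
      ∫⁻ n in (Q ∩ {n | WLaw1 M N Ψ x g0 ψ w L1 e' n}),
        Tk M.ν (M.cj g0) (Q ∩ {n | WLaw1 M N Ψ x g0 ψ w L2 e' n}) n ∂M.μ ≤
        ENNReal.ofReal η * M.μ Q' := by
  obtain ⟨a0, ha0, i, hi, hgaps⟩ := exists_gap h1 h2 hne her
  -- rescale
  set c : ℝ := ρ / (2 * (‖a0‖ + 1)) with hc
  have hcp : 0 < c := by positivity
  set a : E := c • a0 with ha
  have har : inner ℝ er a < 0 := by
    rw [ha, inner_smul_right]
    exact mul_neg_of_pos_of_neg hcp ha0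
  have han : ‖a‖ ≤ ρ / 2 := by
    rw [ha, norm_smul, Real.norm_of_nonneg hcp.le, hc, div_mul_eq_mul_div,
      div_le_div_iff₀ (by positivity) (by norm_num)]
    nlinarith [norm_nonneg a0]
  obtain ⟨P, P', hPP, hgap⟩ : ∃ P P' : E →ₗ[ℝ] E,
      ((P = L1 ∧ P' = L1) ∨ (P = L2 ∧ P' = L2) ∨ (P = L1 ∧ P' = L2) ∨ (P = L2 ∧ P' = L1)) ∧
      0 < gap R i a (P a) (P' a) := by
    have hsc : ∀ P P' : E →ₗ[ℝ] E, 0 < gap R i a0 (P a0) (P' a0) →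
        0 < gap R i a (P a) (P' a) := by
      intro P P' h
      rw [ha, map_smul, map_smul, gap_smul hcp.le]
      exact mul_pos hcp h
    rcases hgaps with h | h | h | h
    · exact ⟨L1, L1, Or.inl ⟨rfl, rfl⟩, hsc _ _ h⟩
    · exact ⟨L2, L2, Or.inr (Or.inl ⟨rfl, rfl⟩), hsc _ _ h⟩
    · exact ⟨L1, L2, Or.inr (Or.inr (Or.inl ⟨rfl, rfl⟩)), hsc _ _ h⟩
    · exact ⟨L2, L1, Or.inr (Or.inr (Or.inr ⟨rfl, rfl⟩)), hsc _ _ h⟩
  obtain ⟨e0, he0, hedge⟩ := edge_gap hR hE hK R hRS hi hgap hCs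
  obtain ⟨w, hwa, hw, hwp⟩ := exists_word R er har (s := min e0 1) (ζ := min e0 (ρ / 2))
    (lt_min he0 one_pos) (lt_min he0 (by positivity))
  obtain ⟨e1, he1, hfin⟩ := hedge w hwa (fun p hp => ⟨(hw p hp).1, (hw p hp).2.trans (min_le_left _ _)⟩)
    (fun w' hw' => by
      obtain ⟨θ, h0, h1, h2⟩ := (hwp w' hw').2
      exact ⟨θ, h0, h1, h2.trans (min_le_left _ _)⟩)
  refine ⟨w, e1, he1, fun p hp => ⟨(hw p hp).1, (hw p hp).2.trans (min_le_right _ _)⟩, ?_, ?_, ?_⟩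
  · rw [hwa]; exact har
  · intro w' hw'
    obtain ⟨g1, θ, h0, h1, h2⟩ := hwp w' hw'
    refine ⟨g1, ?_⟩
    have h3 : ‖tsum w'‖ ≤ ‖tsum w' - θ • a‖ + ‖θ • a‖ := by
      calc ‖tsum w'‖ = ‖(tsum w' - θ • a) + θ • a‖ := by rw [sub_add_cancel]
        _ ≤ _ := norm_add_le _ _
    have h4 : ‖θ • a‖ ≤ ρ / 2 := by
      rw [norm_smul, Real.norm_of_nonneg h0]
      calc θ * ‖a‖ ≤ 1 * (ρ / 2) := by gcongr
        _ = ρ / 2 := one_mul _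
    have h5 := h2.trans (min_le_right _ _)
    linarith
  · intro Cm
    obtain ⟨N1, hN1⟩ := hfin Cm η hη
    obtain ⟨N2, hN2⟩ := hfin Cm (η ^ 2) (by positivity)
    refine ⟨max N1 N2, ?_⟩
    intro N hN e' he' he'1 ψ hψ Ψ hΨ x g0 Q Q' hQ hQ' hQ'fin hQ'0 hQQ hV0 hV1
    have g1 := hN1 N (le_of_max_le_left hN) e' he' he'1 ψ hψ Ψ hΨ x g0 Q Q' hQ hQ' hQ'fin hQ'0 hQQ
      hV0 hV1
    have g2 := hN2 N (le_of_max_le_right hN) e' he' he'1 ψ hψ Ψ hΨ x g0 Q Q' hQ hQ' hQ'fin hQ'0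
      hQQ hV0 hV1
    have hmeas : ∀ L : E →ₗ[ℝ] E, MeasurableSet (Q ∩ {n | WLaw1 M N Ψ x g0 ψ w L e' n}) :=
      fun L => hQ.inter (measurableSet_WLaw1 hΨ N x g0 ψ w L e')
    have hcjm : Measurable (M.cj g0) := M.cj_meas g0
    -- the class of a bad type is small
    have hself : ∀ L : E →ₗ[ℝ] E, ∫⁻ n in (Q ∩ {n | WLaw1 M N Ψ x g0 ψ w L e' n}),
        Tk M.ν (M.cj g0) (Q ∩ {n | WLaw1 M N Ψ x g0 ψ w L e' n}) n ∂M.μ ≤
        ENNReal.ofReal (η ^ 2) * M.μ Q' →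
        M.μ (Q ∩ {n | WLaw1 M N Ψ x g0 ψ w L e' n}) ≤ ENNReal.ofReal η * M.μ Q' := by
      intro L hL
      have h3 := sq_le_Tk (μ := M.μ) (ν := M.ν) hcjm (hmeas L) hQ' (by
        filter_upwards [M.ae_mem_V] with b hb n hn using hV0 b hb n hn.1)
      have h4 : M.μ (Q ∩ {n | WLaw1 M N Ψ x g0 ψ w L e' n}) ^ 2 ≤
          (ENNReal.ofReal η * M.μ Q') ^ 2 := by
        refine h3.trans ((mul_le_mul_right hL _).trans (le_of_eq ?_))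
        rw [mul_pow, ENNReal.ofReal_pow hη.le]; ring
      exact (ENNReal.pow_le_pow_left_iff (by norm_num)).1 h4
    have hle : ∀ A B : Set H, ∫⁻ n in A, Tk M.ν (M.cj g0) B n ∂M.μ ≤ M.μ A := by
      intro A B
      calc ∫⁻ n in A, Tk M.ν (M.cj g0) B n ∂M.μ ≤ ∫⁻ _ in A, 1 ∂M.μ :=
            lintegral_mono fun n => Tk_le_one _ _ _
        _ = M.μ A := by simp
    rcases hPP with ⟨rfl, rfl⟩ | ⟨rfl, rfl⟩ | ⟨rfl, rfl⟩ | ⟨rfl, rfl⟩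
    · exact (hle _ _).trans (hself _ g2)
    · rw [lintegral_Tk_symm hcjm (hmeas _) (hmeas _)]
      exact (hle _ _).trans (hself _ g2)
    · exact g1
    · rw [lintegral_Tk_symm hcjm (hmeas _) (hmeas _)]
      exact g1

/-- **FACET**: typical moves at the position `g0` do not change the law; the laws are only tested on
finitely many timed words in the half space `⟪er, ·⟫ ≤ 0`. -/
theorem facet_edge {M : CapModel G H ι E} (hR : M.Reach) (hE : M.Ent) {K : ℝ} (hK : 1 ≤ K)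
    (R : RSys ι E) (hRS : M.S = R.toGenSys) {er : E} (her : er ∈ R.Eb) {Cs : ℝ} (hCs : 0 ≤ Cs)
    {ρ η : ℝ} (hρ : 0 < ρ) (hη : 0 < η) :
    ∃ (e1 : ℝ) (W : Finset (List (R.Eb × ℝ))), 0 < e1 ∧
      (∀ w ∈ W, (∀ p ∈ w, 0 ≤ p.2 ∧ p.2 ≤ 1) ∧ inner ℝ er (tsum w) < 0 ∧
        ∀ w', w' <+: w → inner ℝ er (tsum w') ≤ 0 ∧ ‖tsum w'‖ ≤ ρ) ∧
      ∀ Cm : ℝ, ∃ N0 : ℕ, ∀ N ≥ N0, ∀ e' : ℝ, 0 ≤ e' → e' ≤ e1 →
      ∀ ψ : R.Eb × ℝ → G, LegsAt M R N Cs Cm e' ψ → ∀ Ψ : G → G, QI M K Ψ → ∀ (x g0 : G)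
      (Q Q' : Set H), MeasurableSet Q → MeasurableSet Q' → M.μ Q' ≠ ⊤ → M.μ Q' ≠ 0 →
      M.μ Q ≤ M.μ Q' → (∀ b ∈ M.V, ∀ n ∈ Q, n * (M.cj g0 b)⁻¹ ∈ Q') →
      (∀ w ∈ W, ∀ b ∈ M.V, ∀ n ∈ Q, n * (M.cj (g0 * (w.map ψ).prod) b)⁻¹ ∈ Q') →
      (M.μ.prod (M.ν.prod M.ν)) {p | p.1 ∈ Q ∧ p.1 * (M.cj g0 p.2.1)⁻¹ * M.cj g0 p.2.2 ∈ Q ∧
        ∃ L1 L2 : E →ₗ[ℝ] E, IsPerm R L1 ∧ IsPerm R L2 ∧ L1 ≠ L2 ∧
          (∀ w ∈ W, WLaw1 M N Ψ x g0 ψ w L1 e' p.1) ∧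
          ∀ w ∈ W, WLaw1 M N Ψ x g0 ψ w L2 e' (p.1 * (M.cj g0 p.2.1)⁻¹ * M.cj g0 p.2.2)} ≤
        ENNReal.ofReal η * M.μ Q' := by
  classical
  set LL : Finset (E →ₗ[ℝ] E) := (finite_isPerm (R := R)).toFinset with hLL
  set PP : Finset ((E →ₗ[ℝ] E) × (E →ₗ[ℝ] E)) := (LL ×ˢ LL).filter fun p => p.1 ≠ p.2 with hPP
  have hmem : ∀ p ∈ PP, IsPerm R p.1 ∧ IsPerm R p.2 ∧ p.1 ≠ p.2 := by
    intro p hp
    rw [hPP, Finset.mem_filter, Finset.mem_product, hLL, Set.Finite.mem_toFinset,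
      Set.Finite.mem_toFinset] at hp
    exact ⟨hp.1.1, hp.1.2, hp.2⟩
  set η' : ℝ := η / (PP.card + 1) with hη'
  have hη'p : 0 < η' := by positivity
  have key : ∀ p : PP, ∃ (w : List (R.Eb × ℝ)) (e1 : ℝ), 0 < e1 ∧ (∀ p ∈ w, 0 ≤ p.2 ∧ p.2 ≤ 1) ∧
      inner ℝ er (tsum w) < 0 ∧
      (∀ w', w' <+: w → inner ℝ er (tsum w') ≤ 0 ∧ ‖tsum w'‖ ≤ ρ) ∧
      ∀ Cm : ℝ, ∃ N0 : ℕ, ∀ N ≥ N0, ∀ e' : ℝ, 0 ≤ e' → e' ≤ e1 →
      ∀ ψ : R.Eb × ℝ → G, LegsAt M R N Cs Cm e' ψ → ∀ Ψ : G → G, QI M K Ψ → ∀ (x g0 : G)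
      (Q Q' : Set H), MeasurableSet Q → MeasurableSet Q' → M.μ Q' ≠ ⊤ → M.μ Q' ≠ 0 →
      M.μ Q ≤ M.μ Q' → (∀ b ∈ M.V, ∀ n ∈ Q, n * (M.cj g0 b)⁻¹ ∈ Q') →
      (∀ b ∈ M.V, ∀ n ∈ Q, n * (M.cj (g0 * (w.map ψ).prod) b)⁻¹ ∈ Q') →
      ∫⁻ n in (Q ∩ {n | WLaw1 M N Ψ x g0 ψ w (p : (E →ₗ[ℝ] E) × (E →ₗ[ℝ] E)).1 e' n}),
        Tk M.ν (M.cj g0) (Q ∩ {n | WLaw1 M N Ψ x g0 ψ w (p : (E →ₗ[ℝ] E) × (E →ₗ[ℝ] E)).2 e' n})
          n ∂M.μ ≤ ENNReal.ofReal η' * M.μ Q' := by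
    intro p
    obtain ⟨h1, h2, h3⟩ := hmem p p.2
    exact edge_pair hR hE hK R hRS her h1 h2 h3 hCs hρ hη'p
  choose w e1 he1 hw1 hw2 hw3 hN using key
  obtain ⟨em, hem, hem'⟩ : ∃ em : ℝ, 0 < em ∧ ∀ p, em ≤ e1 p := by
    by_cases hne : Nonempty PP
    · refine ⟨Finset.univ.inf' Finset.univ_nonempty e1, ?_, fun p =>
        Finset.inf'_le _ (Finset.mem_univ p)⟩
      rw [Finset.lt_inf'_iff]; exact fun p _ => he1 p
    · exact ⟨1, one_pos, fun p => (hne ⟨p⟩).elim⟩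
  refine ⟨em, Finset.univ.image w, hem, ?_, ?_⟩
  · intro w' hw'
    obtain ⟨p, _, rfl⟩ := Finset.mem_image.1 hw'
    exact ⟨hw1 p, hw2 p, hw3 p⟩
  · intro Cm
    choose N0 hN0 using fun p => hN p Cm
    refine ⟨Finset.univ.sup N0, ?_⟩
    intro N hNN e' he' he'1 ψ hψ Ψ hΨ x g0 Q Q' hQ hQ' hQ'fin hQ'0 hQQ hV0 hV1
    have hmeas : ∀ (w : List (R.Eb × ℝ)) (L : E →ₗ[ℝ] E),
        MeasurableSet (Q ∩ {n | WLaw1 M N Ψ x g0 ψ w L e' n}) :=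
      fun w L => hQ.inter (measurableSet_WLaw1 hΨ N x g0 ψ w L e')
    have hcjm : Measurable (M.cj g0) := M.cj_meas g0
    have hsub : {p : H × (H × H) | p.1 ∈ Q ∧ p.1 * (M.cj g0 p.2.1)⁻¹ * M.cj g0 p.2.2 ∈ Q ∧
        ∃ L1 L2 : E →ₗ[ℝ] E, IsPerm R L1 ∧ IsPerm R L2 ∧ L1 ≠ L2 ∧
          (∀ w' ∈ Finset.univ.image w, WLaw1 M N Ψ x g0 ψ w' L1 e' p.1) ∧
          ∀ w' ∈ Finset.univ.image w,
            WLaw1 M N Ψ x g0 ψ w' L2 e' (p.1 * (M.cj g0 p.2.1)⁻¹ * M.cj g0 p.2.2)} ⊆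
        ⋃ P : PP, {p : H × (H × H) | p.1 ∈ Q ∩ {n | WLaw1 M N Ψ x g0 ψ (w P)
            (P : (E →ₗ[ℝ] E) × (E →ₗ[ℝ] E)).1 e' n} ∧
          p.1 * (M.cj g0 p.2.1)⁻¹ * M.cj g0 p.2.2 ∈ Q ∩ {n | WLaw1 M N Ψ x g0 ψ (w P)
            (P : (E →ₗ[ℝ] E) × (E →ₗ[ℝ] E)).2 e' n}} := by
      rintro p ⟨hp1, hp2, L1, L2, h1, h2, h3, h4, h5⟩
      have hPm : (L1, L2) ∈ PP := by
        rw [hPP, Finset.mem_filter, Finset.mem_product, hLL, Set.Finite.mem_toFinset,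
          Set.Finite.mem_toFinset]
        exact ⟨⟨h1, h2⟩, h3⟩
      have hwm : w ⟨(L1, L2), hPm⟩ ∈ Finset.univ.image w :=
        Finset.mem_image_of_mem w (Finset.mem_univ _)
      refine Set.mem_iUnion.2 ⟨⟨(L1, L2), hPm⟩, ⟨hp1, h4 _ hwm⟩, ⟨hp2, h5 _ hwm⟩⟩
    refine (measure_mono hsub).trans ((measure_iUnion_fintype_le _ _).trans ?_)
    have hone : ∀ P : PP, (M.μ.prod (M.ν.prod M.ν)) {p : H × (H × H) |
          p.1 ∈ Q ∩ {n | WLaw1 M N Ψ x g0 ψ (w P) (P : (E →ₗ[ℝ] E) × (E →ₗ[ℝ] E)).1 e' n} ∧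
          p.1 * (M.cj g0 p.2.1)⁻¹ * M.cj g0 p.2.2 ∈ Q ∩ {n | WLaw1 M N Ψ x g0 ψ (w P)
            (P : (E →ₗ[ℝ] E) × (E →ₗ[ℝ] E)).2 e' n}} ≤ ENNReal.ofReal η' * M.μ Q' := by
      intro P
      rw [prod_edge hcjm (hmeas _ _) (hmeas _ _)]
      exact hN0 P N ((Finset.le_sup (Finset.mem_univ P)).trans hNN) e' he'
        (he'1.trans (hem' P)) ψ hψ Ψ hΨ x g0 Q Q' hQ hQ' hQ'fin hQ'0 hQQ hV0
        (hV1 _ (Finset.mem_image_of_mem w (Finset.mem_univ P)))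
    refine (Finset.sum_le_sum fun P _ => hone P).trans ?_
    rw [Finset.sum_const, Finset.card_univ, Fintype.card_coe, nsmul_eq_mul, ← mul_assoc]
    refine mul_le_mul_left ?_ _
    rw [← ENNReal.ofReal_natCast, ← ENNReal.ofReal_mul (Nat.cast_nonneg _)]
    refine ENNReal.ofReal_le_ofReal ?_
    rw [hη', mul_div_assoc', div_le_iff₀ (by positivity)]
    nlinarith

end Crest.Agent.R182.Facet
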