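/-
R182, module FACET (helper710): the timed legs satisfy `LegsAt`.
-/
import Crest.Agent.R182.FacetThm

set_option autoImplicit false
set_option linter.unusedSectionVars false

namespace Crest.Agent.R182.Facet

open MeasureTheory Cap CapModel Crest.Agent.R182.Star Conv

variable {G H ι E : Type*} [Group G] [Group H] [MeasurableSpace H] [MeasurableMul₂ H]
    [MeasurableInv H] [Fintype ι] [NormedAddCommGroup E] [InnerProductSpace ℝ E]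

/-- **timed legs** -/
theorem exists_legsAt (M : CapModel G H ι E) (R : RSys ι E) {T : Set G} {r0 : ℕ}
    (hT : ∀ s ∈ T, s ∈ M.Cl r0) (Cb : ℝ) {eps e : ℝ} (heps : 0 ≤ eps) (he : 0 < e)
    (hee : eps ≤ e / 2) (𝓛 : Legs M R T Cb eps) :
    ∃ N0 : ℕ, 1 ≤ N0 ∧ ∀ N ≥ N0, LegsAt M R N (M.C0 * (r0 * |Cb|)) (r0 * |Cb|) e
      (fun p => 𝓛.u N p.2 p.1) := by
  obtain ⟨N0, hN01, hN0⟩ := exists_N_inv (C := 𝓛.mX) (δ := e / 2) (by positivity)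
  refine ⟨N0, hN01, fun N hN => ?_⟩
  have hNp : (1 : ℝ) ≤ N := by exact_mod_cast hN01.trans hN
  have hNpos : (0 : ℝ) < N := by linarith
  have hC0 := M.C0_pos
  have hm : ∀ p : R.Eb × ℝ, 0 ≤ p.2 → ((𝓛.p N p.2 p.1 * 𝓛.rb p.1 : ℕ) : ℝ) ≤ |Cb| * (p.2 * N) :=
    fun p hp => (𝓛.p_rb_le hp p.1).trans
      (mul_le_mul_of_nonneg_right (le_abs_self _) (mul_nonneg hp hNpos.le))
  refine ⟨?_, ?_, ?_⟩
  · intro p hp _
    have h1 := len_Bl M hT (𝓛.u_mem N p.2 p.1)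
    have h2 := hm p hp
    calc M.len (𝓛.u N p.2 p.1) ≤ M.C0 * (r0 * ((𝓛.p N p.2 p.1 * 𝓛.rb p.1 : ℕ) : ℝ)) := h1
      _ ≤ M.C0 * (r0 * (|Cb| * (p.2 * N))) := by gcongr
      _ = (M.C0 * (r0 * |Cb|) * p.2) * N := by ring
      _ ≤ (M.C0 * (r0 * |Cb|) * p.2 + e) * N := by gcongr; linarith
  · intro p hp hp1
    have h1 := 𝓛.hgt_u (N := N) hp heps p.1 1 (R.unit _ p.1.2)
    rw [pow_one, Nat.cast_one, one_mul, one_mul] at h1
    have h2 : (N : ℝ)⁻¹ • M.hgt (𝓛.u N p.2 p.1) - p.2 • (p.1 : E) =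
        (N : ℝ)⁻¹ • (M.hgt (𝓛.u N p.2 p.1) - (p.2 * N) • (p.1 : E)) := by
      rw [smul_sub, smul_smul, mul_comm p.2, inv_mul_cancel_left₀ hNpos.ne']
    show ‖(N : ℝ)⁻¹ • M.hgt (𝓛.u N p.2 p.1) - p.2 • (p.1 : E)‖ ≤ e
    rw [h2, norm_smul, norm_inv, Real.norm_of_nonneg hNpos.le, inv_mul_le_iff₀ hNpos]
    refine h1.trans ?_
    have h3 := hN0 N hN
    rw [div_le_iff₀ hNpos] at h3
    have h4 := 𝓛.mE_le p.1
    have h5 : eps * (p.2 * N) ≤ e / 2 * N := by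
      calc eps * (p.2 * N) ≤ (e / 2) * (1 * N) := by gcongr
        _ = e / 2 * N := by ring
    linarith
  · intro p hp hp1
    refine ⟨𝓛.p N p.2 p.1 * 𝓛.rb p.1 * r0, ?_, Bl_subset_Cl M hT (𝓛.u_mem N p.2 p.1)⟩
    have h2 := hm p hp
    have h0 := abs_nonneg Cb
    rw [Nat.cast_mul]
    calc ((𝓛.p N p.2 p.1 * 𝓛.rb p.1 : ℕ) : ℝ) * r0 ≤ (|Cb| * (p.2 * N)) * r0 := by gcongr
      _ ≤ (|Cb| * (1 * N)) * r0 := by gcongr
      _ = r0 * |Cb| * N := by ring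

end Crest.Agent.R182.Facet
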