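/-
R182, module FACET (helper710): the amount of bad moves at a touching position (input of GEN).
-/
import Crest.Agent.R182.FacetLegs
import Crest.Agent.R182.GenLaw

set_option autoImplicit false
set_option linter.unusedSectionVars false

namespace Crest.Agent.R182.Facet

open MeasureTheory Cap CapModel Crest.Agent.R182.Star Conv

section Meas

variable {H : Type*} [Group H] [MeasurableSpace H] [MeasurableMul₂ H] [MeasurableInv H]

theorem nested_eq {μ : Measure H} [SFinite μ] {T : Set (H × H × H)} (hT : MeasurableSet T) :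
    ∫⁻ q, ∫⁻ a, ∫⁻ b, T.indicator (fun _ => (1 : ENNReal)) (q, a, b) ∂μ ∂μ ∂μ =
      (μ.prod (μ.prod μ)) T := by
  rw [Measure.prod_apply hT]
  refine lintegral_congr fun q => ?_
  rw [Measure.prod_apply (measurable_prodMk_left hT)]
  refine lintegral_congr fun a => ?_
  have hm : MeasurableSet (Prod.mk a ⁻¹' (Prod.mk q ⁻¹' T)) :=
    measurable_prodMk_left (measurable_prodMk_left hT)
  rw [← lintegral_indicator_one hm]
  rfl

end Meas

variable {G H ι E : Type*} [Group G] [Group H] [MeasurableSpace H] [MeasurableMul₂ H]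
    [MeasurableInv H] [Fintype ι] [NormedAddCommGroup E] [InnerProductSpace ℝ E]

theorem smul_ν (M : CapModel G H ι E) : M.μ M.V • M.ν = M.μ.restrict M.V := by
  unfold CapModel.ν
  rw [smul_smul, ENNReal.mul_inv_cancel M.V_pos M.V_fin, one_smul]

/-- from Lebesgue measure on `V` to `ν` -/
theorem prod_V (M : CapModel G H ι E) {T : Set (H × H × H)} (hT : MeasurableSet T)
    (hTV : ∀ p ∈ T, p.2.1 ∈ M.V ∧ p.2.2 ∈ M.V) :
    (M.μ.prod (M.μ.prod M.μ)) T = (M.μ.prod (M.ν.prod M.ν)) T * M.μ M.V ^ 2 := by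
  have h1 : (M.μ.prod (M.μ.prod M.μ)) T =
      (M.μ.prod ((M.μ.restrict M.V).prod (M.μ.restrict M.V))) T := by
    rw [Measure.prod_apply hT, Measure.prod_apply hT]
    refine lintegral_congr fun q => ?_
    rw [Measure.prod_restrict, Measure.restrict_apply (measurable_prodMk_left hT)]
    congr 1
    ext p
    simp only [Set.mem_inter_iff, Set.mem_preimage, Set.mem_prod]
    constructor
    · intro h; exact ⟨h, (hTV _ h).1, (hTV _ h).2⟩
    · intro h; exact h.1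
  rw [h1, ← smul_ν]
  have h2 : (M.μ M.V • M.ν).prod (M.μ M.V • M.ν) = (M.μ M.V ^ 2) • M.ν.prod M.ν := by
    rw [Measure.prod_smul_left, Measure.prod_smul_right, smul_smul, sq]
  rw [h2, Measure.prod_smul_right, Measure.smul_apply, smul_eq_mul, mul_comm]

/-- the law of a point, used in `facet_bad` -/
def GoodAt (M : CapModel G H ι E) (R : RSys ι E) (N : ℕ) (Ψ : G → G) (x g0 : G) (y0 : E)
    (ψ : R.Eb × ℝ → G) (W : Finset (List (R.Eb × ℝ))) {κ : Type*} (g : κ → G) (y : κ → E) (e : ℝ)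
    (n : H) : Prop :=
  ∃ L : E →ₗ[ℝ] E, IsPerm R L ∧ ‖GF M N Ψ x n g0 - GF M N Ψ x n 1 - L y0‖ ≤ e ∧
    (∀ w ∈ W, ∀ w', w' <+: w →
      ‖GF M N Ψ x n (g0 * (w'.map ψ).prod) - GF M N Ψ x n 1 - L (y0 + tsum w')‖ ≤ e) ∧
    ∀ k, ‖GF M N Ψ x n (g k) - GF M N Ψ x n 1 - L (y k)‖ ≤ e

theorem wlaw_of_good {M : CapModel G H ι E} {R : RSys ι E} {N : ℕ} {Ψ : G → G} {x g0 : G} {y0 : E}
    {ψ : R.Eb × ℝ → G} {w : List (R.Eb × ℝ)} {e : ℝ} {n : H} {L : E →ₗ[ℝ] E}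
    (h0 : ‖GF M N Ψ x n g0 - GF M N Ψ x n 1 - L y0‖ ≤ e)
    (h : ∀ w', w' <+: w →
      ‖GF M N Ψ x n (g0 * (w'.map ψ).prod) - GF M N Ψ x n 1 - L (y0 + tsum w')‖ ≤ e) :
    WLaw1 M N Ψ x g0 ψ w L (2 * e) n := by
  intro w' hw'
  have h1 := h w' hw'
  have h2 : GF M N Ψ x n (g0 * (w'.map ψ).prod) - GF M N Ψ x n g0 - L (tsum w') =
      (GF M N Ψ x n (g0 * (w'.map ψ).prod) - GF M N Ψ x n 1 - L (y0 + tsum w')) -
      (GF M N Ψ x n g0 - GF M N Ψ x n 1 - L y0) := by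
    rw [map_add]; abel
  rw [h2]
  refine (norm_sub_le _ _).trans ?_
  linarith

/-- points joined by a move at `g0` -/
theorem GF_move {M : CapModel G H ι E} {K : ℝ} {Ψ : G → G} (hΨ : QI M K Ψ) (N : ℕ) (x g0 : G)
    (n a b : H) (ha : a ∈ M.V) (hb : b ∈ M.V) :
    ‖GF M N Ψ x n g0 - GF M N Ψ x (n * M.cj g0 (a⁻¹ * b)) g0‖ ≤
      (M.C0 * (K * (2 * M.C0) + K)) / N := by
  refine (GF_sub_le hΨ N x _ _ g0 g0).trans ?_
  have h1 : M.dst (x * M.emb n * g0) (x * M.emb (n * M.cj g0 (a⁻¹ * b)) * g0) ≤ 2 * M.C0 := by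
    unfold CapModel.dst
    have e1 : (x * M.emb n * g0)⁻¹ * (x * M.emb (n * M.cj g0 (a⁻¹ * b)) * g0) =
        (M.emb a)⁻¹ * M.emb b := by
      rw [map_mul, M.emb_cj, map_mul, map_inv]; group
    rw [e1]
    refine (M.len_mul _ _).trans ?_
    rw [M.len_inv]
    have h2 := M.V_le a ha
    have h3 := M.V_le b hb
    linarith
  have hC0 := M.C0_pos
  have hK := hΨ.one_le
  rw [div_eq_inv_mul]
  gcongr

variable [FiniteDimensional ℝ E]

/-- **FACET, final form**: the amount of bad random moves at the position `g0`. -/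
theorem facet_bad {M : CapModel G H ι E} (hR : M.Reach) (hE : M.Ent) {K : ℝ} (hK : 1 ≤ K)
    (R : RSys ι E) (hRS : M.S = R.toGenSys) {er : E} (her : er ∈ R.Eb) {Cs : ℝ} (hCs : 0 ≤ Cs)
    {ρ η : ℝ} (hρ : 0 < ρ) (hη : 0 < η) :
    ∃ (e1 : ℝ) (W : Finset (List (R.Eb × ℝ))), 0 < e1 ∧
      (∀ w ∈ W, (∀ p ∈ w, 0 ≤ p.2 ∧ p.2 ≤ 1) ∧ inner ℝ er (tsum w) < 0 ∧
        ∀ w', w' <+: w → inner ℝ er (tsum w') ≤ 0 ∧ ‖tsum w'‖ ≤ ρ) ∧
      ∀ Cm : ℝ, ∃ N0 : ℕ, ∀ N ≥ N0, ∀ e : ℝ, 0 ≤ e → e ≤ e1 →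
      ∀ ψ : R.Eb × ℝ → G, LegsAt M R N Cs Cm e ψ → ∀ Ψ : G → G, QI M K Ψ → ∀ (x g0 : G)
      (Q0 Q Q' : Set H), MeasurableSet Q → MeasurableSet Q' → M.μ Q' ≠ ⊤ → M.μ Q' ≠ 0 →
      M.μ Q ≤ M.μ Q' → (∀ b ∈ M.V, ∀ n ∈ Q, n * (M.cj g0 b)⁻¹ ∈ Q') →
      (∀ w ∈ W, ∀ b ∈ M.V, ∀ n ∈ Q, n * (M.cj (g0 * (w.map ψ).prod) b)⁻¹ ∈ Q') →
      Q0 ⊆ Q → (∀ a ∈ M.V, ∀ b ∈ M.V, ∀ n ∈ Q0, n * M.cj g0 (a⁻¹ * b) ∈ Q) →
      ∀ {κ : Type} [Fintype κ] (g : κ → G) (y : κ → E) (y0 : E) (δ : ℝ),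
      4 * e + (M.C0 * (K * (2 * M.C0) + K)) / N ≤ δ →
      Gen.badInt M.μ (fun n (k : κ) => GF M N Ψ x n (g k)) δ (M.cj g0) Q0 M.V ≤
        (ENNReal.ofReal η * M.μ Q' + 2 * M.μ {n | n ∈ Q ∧ ¬ GoodAt M R N Ψ x g0 y0 ψ W g y e n}) *
          M.μ M.V ^ 2 := by
  classical
  obtain ⟨e1, W, he1, hW, hN⟩ := facet_edge hR hE hK R hRS her hCs hρ hη
  refine ⟨e1 / 2, W, by positivity, hW, ?_⟩
  intro Cm
  obtain ⟨N0, hN0⟩ := hN Cm
  refine ⟨N0, ?_⟩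
  intro N hNN e he hee ψ hψ Ψ hΨ x g0 Q0 Q Q' hQ hQ' hQ'fin hQ'0 hQQ hV0 hV1 hQ0 hmv κ _ g y y0 δ hδ
  have hψ2 : LegsAt M R N Cs Cm (2 * e) ψ := by
    have hNn : (0 : ℝ) ≤ N := Nat.cast_nonneg N
    refine ⟨fun p h0 h1 => (hψ.len p h0 h1).trans ?_, fun p h0 h1 => (hψ.hgt p h0 h1).trans ?_,
      hψ.mem⟩
    · gcongr; linarith
    · linarith
  have hedge := hN0 N hNN (2 * e) (by positivity) (by linarith) ψ hψ2 Ψ hΨ x g0 Q Q' hQ hQ' hQ'fin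
    hQ'0 hQQ hV0 hV1
  set Bad : Set H := {n | n ∈ Q ∧ ¬ GoodAt M R N Ψ x g0 y0 ψ W g y e n} with hBad
  set Edge : Set (H × H × H) := {p | p.1 ∈ Q ∧ p.1 * (M.cj g0 p.2.1)⁻¹ * M.cj g0 p.2.2 ∈ Q ∧
        ∃ L1 L2 : E →ₗ[ℝ] E, IsPerm R L1 ∧ IsPerm R L2 ∧ L1 ≠ L2 ∧
          (∀ w ∈ W, WLaw1 M N Ψ x g0 ψ w L1 (2 * e) p.1) ∧
          ∀ w ∈ W, WLaw1 M N Ψ x g0 ψ w L2 (2 * e)
            (p.1 * (M.cj g0 p.2.1)⁻¹ * M.cj g0 p.2.2)} with hEdge
  set VV : Set (H × H × H) := Set.univ ×ˢ (M.V ×ˢ M.V) with hVV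
  have hVVm : MeasurableSet VV := MeasurableSet.univ.prod (M.V_meas.prod M.V_meas)
  set mv : H × H × H → H := fun p => p.1 * (M.cj g0 p.2.1)⁻¹ * M.cj g0 p.2.2 with hmvd
  have hcj := M.cj_meas g0
  have hmvm : Measurable mv := by
    have h1 : Measurable fun p : H × H × H => M.cj g0 p.2.1 := hcj.comp (by fun_prop)
    have h2 : Measurable fun p : H × H × H => M.cj g0 p.2.2 := hcj.comp (by fun_prop)
    exact (measurable_fst.mul h1.inv).mul h2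
  set T1 : Set (H × H × H) := Prod.fst ⁻¹' (toMeasurable M.μ Bad) with hT1
  set T2 : Set (H × H × H) := mv ⁻¹' (toMeasurable M.μ Bad) with hT2
  set T3 : Set (H × H × H) := toMeasurable (M.μ.prod (M.ν.prod M.ν)) Edge with hT3
  have hT1m : MeasurableSet T1 := measurable_fst (measurableSet_toMeasurable _ _)
  have hT2m : MeasurableSet T2 := hmvm (measurableSet_toMeasurable _ _)
  have hT3m : MeasurableSet T3 := measurableSet_toMeasurable _ _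
  set T : Set (H × H × H) := ((T1 ∪ T2) ∪ T3) ∩ VV with hT
  have hTm : MeasurableSet T := ((hT1m.union hT2m).union hT3m).inter hVVm
  have hmv' : ∀ p : H × H × H, mv p = p.1 * M.cj g0 (p.2.1⁻¹ * p.2.2) := by
    intro p
    simp only [hmvd]
    rw [map_mul, map_inv, mul_assoc]
  -- the inclusion
  have hsub : (Q0 ×ˢ M.V ×ˢ M.V ∩ {p : H × H × H |
      δ < dist (fun k : κ => GF M N Ψ x p.1 (g k))
        (fun k : κ => GF M N Ψ x (p.1 * M.cj g0 (p.2.1⁻¹ * p.2.2)) (g k))}) ⊆ T := by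
    rintro p ⟨⟨hp1, hp2, hp3⟩, hp4⟩
    refine ⟨?_, Set.mem_univ _, hp2, hp3⟩
    by_contra hcon
    rw [Set.mem_union, Set.mem_union, not_or, not_or] at hcon
    obtain ⟨⟨c1, c2⟩, c3⟩ := hcon
    have hq1 : p.1 ∉ Bad := fun h => c1 (subset_toMeasurable _ _ h)
    have hq2 : mv p ∉ Bad := fun h => c2 (subset_toMeasurable _ _ h)
    have hq3 : p ∉ Edge := fun h => c3 (subset_toMeasurable _ _ h)
    have hQ1 : p.1 ∈ Q := hQ0 hp1
    have hQ2 : mv p ∈ Q := by rw [hmv']; exact hmv _ hp2 _ hp3 _ hp1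
    have hg1 : GoodAt M R N Ψ x g0 y0 ψ W g y e p.1 := by
      by_contra h; exact hq1 ⟨hQ1, h⟩
    have hg2 : GoodAt M R N Ψ x g0 y0 ψ W g y e (mv p) := by
      by_contra h; exact hq2 ⟨hQ2, h⟩
    obtain ⟨L1, hL1, a1, b1, d1⟩ := hg1
    obtain ⟨L2, hL2, a2, b2, d2⟩ := hg2
    have hLL : L1 = L2 := by
      by_contra hne
      exact hq3 ⟨hQ1, hQ2, L1, L2, hL1, hL2, hne, fun w hw => wlaw_of_good a1 (b1 w hw),
        fun w hw => wlaw_of_good a2 (b2 w hw)⟩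
    subst hLL
    -- the two families are close
    have hbase := GF_move hΨ N x g0 p.1 p.2.1 p.2.2 hp2 hp3
    rw [← hmv'] at hbase
    have h1 : ‖GF M N Ψ x p.1 1 - GF M N Ψ x (mv p) 1‖ ≤
        2 * e + (M.C0 * (K * (2 * M.C0) + K)) / N := by
      have e2 : GF M N Ψ x p.1 1 - GF M N Ψ x (mv p) 1 =
          (GF M N Ψ x p.1 g0 - GF M N Ψ x (mv p) g0) -
          (GF M N Ψ x p.1 g0 - GF M N Ψ x p.1 1 - L1 y0) +
          (GF M N Ψ x (mv p) g0 - GF M N Ψ x (mv p) 1 - L1 y0) := by abel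
      rw [e2]
      refine (norm_add_le _ _).trans ?_
      have := norm_sub_le (GF M N Ψ x p.1 g0 - GF M N Ψ x (mv p) g0)
        (GF M N Ψ x p.1 g0 - GF M N Ψ x p.1 1 - L1 y0)
      linarith
    have h2 : dist (fun k : κ => GF M N Ψ x p.1 (g k)) (fun k : κ => GF M N Ψ x (mv p) (g k)) ≤
        δ := by
      have hCp : 0 ≤ (M.C0 * (K * (2 * M.C0) + K)) / N := by
        have := M.C0_pos
        positivity
      have hδ0 : 0 ≤ δ := le_trans (by positivity) hδ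
      rw [dist_pi_le_iff hδ0]
      intro k
      rw [dist_eq_norm]
      have e2 : GF M N Ψ x p.1 (g k) - GF M N Ψ x (mv p) (g k) =
          (GF M N Ψ x p.1 (g k) - GF M N Ψ x p.1 1 - L1 (y k)) -
          (GF M N Ψ x (mv p) (g k) - GF M N Ψ x (mv p) 1 - L1 (y k)) +
          (GF M N Ψ x p.1 1 - GF M N Ψ x (mv p) 1) := by abel
      rw [e2]
      refine (norm_add_le _ _).trans ?_
      have h3 := norm_sub_le (GF M N Ψ x p.1 (g k) - GF M N Ψ x p.1 1 - L1 (y k))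
        (GF M N Ψ x (mv p) (g k) - GF M N Ψ x (mv p) 1 - L1 (y k))
      have h4 := d1 k
      have h5 := d2 k
      linarith
    have hp4' : δ < dist (fun k : κ => GF M N Ψ x p.1 (g k))
        (fun k : κ => GF M N Ψ x (p.1 * M.cj g0 (p.2.1⁻¹ * p.2.2)) (g k)) := hp4
    rw [← hmv'] at hp4'
    linarith
  -- measures
  have hμT1 : (M.μ.prod (M.ν.prod M.ν)) T1 = M.μ Bad := by
    have : T1 = toMeasurable M.μ Bad ×ˢ (Set.univ : Set (H × H)) := by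
      ext p; simp [hT1]
    rw [this, Measure.prod_prod, measure_toMeasurable, measure_univ, mul_one]
  have hμT2 : (M.μ.prod (M.ν.prod M.ν)) T2 = M.μ Bad := by
    rw [Measure.prod_apply_symm hT2m]
    have : ∀ p : H × H, M.μ ((fun q => (q, p)) ⁻¹' T2) = M.μ Bad := by
      intro p
      have e1 : (fun q => (q, p)) ⁻¹' T2 =
          (fun q => q * ((M.cj g0 p.1)⁻¹ * M.cj g0 p.2)) ⁻¹' (toMeasurable M.μ Bad) := by
        ext q
        simp only [hT2, hmvd, Set.mem_preimage, mul_assoc]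
      rw [e1, measure_preimage_mul_right, measure_toMeasurable]
    simp only [this]
    rw [lintegral_const, measure_univ, mul_one]
  have hμT3 : (M.μ.prod (M.ν.prod M.ν)) T3 ≤ ENNReal.ofReal η * M.μ Q' := by
    rw [hT3, measure_toMeasurable]
    exact hedge
  have hμT : (M.μ.prod (M.ν.prod M.ν)) T ≤ ENNReal.ofReal η * M.μ Q' + 2 * M.μ Bad := by
    calc (M.μ.prod (M.ν.prod M.ν)) T ≤ (M.μ.prod (M.ν.prod M.ν)) ((T1 ∪ T2) ∪ T3) :=
          measure_mono Set.inter_subset_left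
      _ ≤ (M.μ.prod (M.ν.prod M.ν)) (T1 ∪ T2) + (M.μ.prod (M.ν.prod M.ν)) T3 :=
          measure_union_le _ _
      _ ≤ ((M.μ.prod (M.ν.prod M.ν)) T1 + (M.μ.prod (M.ν.prod M.ν)) T2) +
          (M.μ.prod (M.ν.prod M.ν)) T3 := by gcongr; exact measure_union_le _ _
      _ ≤ (M.μ Bad + M.μ Bad) + ENNReal.ofReal η * M.μ Q' := by
          rw [hμT1, hμT2]; gcongr
      _ = _ := by rw [two_mul]; ring
  calc Gen.badInt M.μ (fun n (k : κ) => GF M N Ψ x n (g k)) δ (M.cj g0) Q0 M.V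
      ≤ ∫⁻ q, ∫⁻ a, ∫⁻ b, T.indicator (fun _ => (1 : ENNReal)) (q, a, b) ∂M.μ ∂M.μ ∂M.μ := by
        unfold Gen.badInt
        refine lintegral_mono fun q => lintegral_mono fun a => lintegral_mono fun b => ?_
        exact Set.indicator_le_indicator_of_subset hsub (fun _ => zero_le) _
    _ = (M.μ.prod (M.μ.prod M.μ)) T := nested_eq hTm
    _ = (M.μ.prod (M.ν.prod M.ν)) T * M.μ M.V ^ 2 :=
        prod_V M hTm fun p hp => ⟨hp.2.2.1, hp.2.2.2⟩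
    _ ≤ _ := by gcongr

end Crest.Agent.R182.Facet
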