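/-
R182, block GEN (helper480): the touching tuples made of legs in the Riesz directions.
-/
import Mathlib
import Crest.Agent.R182.GenTouch
import Crest.Agent.R182.CapInst
import Crest.Agent.R182.StarLaw

set_option autoImplicit false
set_option linter.unusedSectionVars false

open MeasureTheory

namespace Crest.Agent.R182.Gen

open Crest.Agent.R182.Nb Crest.Agent.R182.Core Crest.Agent.R182.Cap Crest.Agent.R182.Star

variable {Γ : Type*} [Group Γ] {k : ℕ} {S : Set Γ} {π : Γ →* Multiplicative (Fin k → ℤ)}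
  {M : BModel S π} [Countable Γ] {E : Type} [NormedAddCommGroup E] [InnerProductSpace ℝ E]
  {T : (Fin k → ℝ) ≃ₗ[ℝ] E} {V : Set M.NN} {RC : ℝ} {P : BModel.CapPar M T V RC}
  {R : RSys (GI M) E}

theorem wg_eq (hRS : (M.toCap P).S = R.toGenSys) (i : GI M) (v : Fin k → ℝ) :
    wg M i v = R.lam i * inner ℝ (R.dir i) (T v) := by
  rw [← R.l_eq, ← hRS]
  exact (M.gsysT_l T i v).symm

theorem lam_ne (hRS : (M.toCap P).S = R.toGenSys) (i : GI M) : R.lam i ≠ 0 := by
  intro h
  refine M.wt_gen_ne i i.2 (LinearMap.ext fun v => ?_)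
  have := wg_eq hRS i v
  rw [h, zero_mul] at this
  exact this

theorem lam_pos (hRS : (M.toCap P).S = R.toGenSys) (i : GI M) : 0 < R.lam i :=
  lt_of_le_of_ne (R.lam_nonneg i) (Ne.symm (lam_ne hRS i))

/-- the ray of a generating index -/
noncomputable def rayE (hRS : (M.toCap P).S = R.toGenSys) : M.gen → R.Eb :=
  fun i => ⟨R.dir i, R.dir_mem i (lam_ne hRS i)⟩

theorem sum_wg (hRS : (M.toCap P).S = R.toGenSys) (e : R.Eb) (κ : List (GI M))
    (h : ∀ j ∈ κ, rayE hRS j = e) (v : Fin k → ℝ) :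
    (κ.map (wg M)).sum v = (κ.map fun j => R.lam j).sum * inner ℝ (e : E) (T v) := by
  induction κ with
  | nil => simp
  | cons j κ ih =>
    have h1 := ih fun i hi => h i (List.mem_cons_of_mem _ hi)
    have h2 : R.dir j = e := congrArg Subtype.val (h j List.mem_cons_self)
    rw [List.map_cons, List.sum_cons, LinearMap.add_apply, h1, List.map_cons, List.sum_cons,
      wg_eq hRS, h2]
    ring

theorem rays_rayE (hRS : (M.toCap P).S = R.toGenSys) : Rays M (rayE hRS) := by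
  intro κ i e hκ hne hsum
  have hpos : 0 < (κ.map fun j => R.lam j).sum := by
    refine List.sum_pos _ ?_ (by simpa using hne)
    intro x hx
    obtain ⟨j, _, rfl⟩ := List.mem_map.1 hx
    exact lam_pos hRS j
  have hi := lam_pos hRS i
  have key : ∀ x : E, (κ.map fun j => R.lam j).sum * inner ℝ (e : E) x =
      R.lam i * inner ℝ (R.dir i) x := by
    intro x
    have h1 := sum_wg hRS e κ hκ (T.symm x)
    rw [hsum, wg_eq hRS, LinearEquiv.apply_symm_apply] at h1
    exact h1.symm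
  set a := (κ.map fun j => R.lam j).sum with ha
  have h1 : a • (e : E) = R.lam i • R.dir i := by
    refine ext_inner_right ℝ fun x => ?_
    rw [inner_smul_left, inner_smul_left]
    exact key x
  have hu1 := R.unit e e.2
  have hu2 := R.unit _ (R.dir_mem i hi.ne')
  have h2 : a = R.lam i := by
    have := congrArg norm h1
    rwa [norm_smul, norm_smul, hu1, hu2, mul_one, mul_one, Real.norm_of_nonneg hpos.le,
      Real.norm_of_nonneg hi.le] at this
  apply Subtype.ext
  change R.dir i = e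
  rw [h2] at h1
  exact (smul_right_injective E hi.ne' h1).symm

theorem exists_margin (R : RSys (GI M) E) : ∃ m0 : ℝ, 0 < m0 ∧ m0 ≤ 1 ∧
    ∀ e ∈ R.Eb, ∀ e' ∈ R.Eb, e ≠ e' → inner ℝ e e' ≤ 1 - m0 := by
  obtain ⟨sep, hsep, h⟩ := exists_sep R.Eb
  refine ⟨min (sep ^ 2 / 2) 1, by positivity, min_le_right _ _, fun e he e' he' hne => ?_⟩
  have h1 := h e he e' he' hne
  have h2 := norm_sub_sq_real e e'
  rw [R.unit e he, R.unit e' he'] at h2
  have h3 : sep ^ 2 ≤ ‖e - e'‖ ^ 2 := pow_le_pow_left₀ hsep.le h1 2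
  have h4 := min_le_left (sep ^ 2 / 2) 1
  linarith

/-- exponentials beat polynomials -/
theorem exists_exp_ge (B : ℕ) (C c : ℝ) (hc : 0 < c) (hC : 0 ≤ C) :
    ∃ N0 : ℕ, ∀ N : ℕ, N0 ≤ N → (2 + C * N) ^ B ≤ Real.exp (c * N) := by
  have h1 : Filter.Tendsto (fun N : ℕ => (2 + C * (N : ℝ)) ^ B * Real.exp (-(c * N)))
      Filter.atTop (nhds 0) := by
    have h2 : Filter.Tendsto (fun x : ℝ => x ^ B * Real.exp (-((c / (C + 1)) * x)))
        Filter.atTop (nhds 0) := by
      have := tendsto_rpow_mul_exp_neg_mul_atTop_nhds_zero (B : ℝ) (c / (C + 1)) (by positivity)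
      refine this.congr fun x => ?_
      rw [Real.rpow_natCast, neg_mul]
    have h3 : Filter.Tendsto (fun N : ℕ => 2 + (C + 1) * (N : ℝ)) Filter.atTop Filter.atTop := by
      refine Filter.tendsto_atTop_mono (f := fun N : ℕ => (N : ℝ)) (fun N => ?_)
        tendsto_natCast_atTop_atTop
      have : 0 ≤ C * (N : ℝ) := by positivity
      nlinarith
    have h4 := (h2.comp h3).const_mul (Real.exp (c / (C + 1) * 2))
    rw [mul_zero] at h4
    refine squeeze_zero (fun N => by positivity) (fun N => ?_) h4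
    have hN : (0:ℝ) ≤ N := Nat.cast_nonneg N
    have e1 : Real.exp (-(c * N)) = Real.exp (c / (C + 1) * 2) *
        Real.exp (-((c / (C + 1)) * (2 + (C + 1) * N))) := by
      rw [← Real.exp_add]; congr 1; field_simp; ring
    simp only [Function.comp]
    rw [e1]
    have h5 : (2 + C * (N : ℝ)) ^ B ≤ (2 + (C + 1) * (N : ℝ)) ^ B := by
      gcongr; linarith
    calc (2 + C * (N : ℝ)) ^ B * (Real.exp (c / (C + 1) * 2) *
          Real.exp (-((c / (C + 1)) * (2 + (C + 1) * N))))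
        ≤ (2 + (C + 1) * (N : ℝ)) ^ B * (Real.exp (c / (C + 1) * 2) *
          Real.exp (-((c / (C + 1)) * (2 + (C + 1) * N)))) := by gcongr
      _ = _ := by ring
  have h2 := h1.eventually (gt_mem_nhds (zero_lt_one))
  obtain ⟨N0, hN0⟩ := Filter.eventually_atTop.1 h2
  refine ⟨N0, fun N hN => ?_⟩
  have h3 := (hN0 N hN).le
  rw [Real.exp_neg] at h3
  rwa [← div_eq_mul_inv, div_le_one (Real.exp_pos _)] at h3

/-- heights of the touching words -/
theorem inner_u {Tt : Set M.G} {Cb eps : ℝ} (𝓛 : Legs (M.toCap P) R Tt Cb eps) (heps : 0 ≤ eps)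
    {N : ℕ} {t : ℝ} (ht : 0 ≤ t) (e : R.Eb) (f : E) (hf : ‖f‖ = 1) :
    |inner ℝ f (T (M.h (𝓛.u N t e))) - t * N * inner ℝ f (e : E)| ≤ eps * (t * N) + 𝓛.mX := by
  have h1 := 𝓛.hgt_u (N := N) ht heps e 1 (R.unit e e.2)
  rw [pow_one, Nat.cast_one, one_mul, one_mul] at h1
  have h2 : (M.toCap P).hgt (𝓛.u N t e) = T (M.h (𝓛.u N t e)) := rfl
  rw [h2] at h1
  have h3 := abs_real_inner_le_norm f (T (M.h (𝓛.u N t e)) - (t * N) • (e : E))
  rw [hf, one_mul, inner_sub_right, inner_smul_right] at h3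
  have h4 := 𝓛.mE_le e
  linarith

/-- **the legs form touching tuples** -/
theorem exists_geom (hRS : (M.toCap P).S = R.toGenSys) {Tt : Set M.G} {r0 : ℕ}
    (hT : ∀ s ∈ Tt, s ∈ (M.toCap P).Cl r0) (Cb : ℝ) : ∃ ω0 : ℝ, 0 < ω0 ∧ ω0 ≤ 1 / 2 ∧
    ∀ δ : ℝ, 0 < δ → ∀ eps : ℝ, 0 ≤ eps → eps ≤ ω0 → 4 * eps ≤ δ →
    ∀ (𝓛 : Legs (M.toCap P) R Tt Cb eps) (Cw : ℝ), ∃ N0 : ℕ, ∀ N : ℕ, N0 ≤ N →
    ∀ X : R.Eb → ℝ, (∀ e, |X e - 1| ≤ ω0) →
      Touch M (rayE hRS) (fun e => 𝓛.u N (X e) e) 1 ∧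
      ∀ m : ℕ, (m : ℝ) ≤ Cw * N → ∀ g' ∈ Bl Tt m,
        (∀ e : R.Eb, inner ℝ (e : E) ((M.toCap P).hgt g') ≤ (X e - δ) * N) →
        Sm M (fam M (rayE hRS) fun e => 𝓛.u N (X e) e) 1 g' := by
  obtain ⟨m0, hm0, hm01, hm0le⟩ := exists_margin R
  obtain ⟨lm, LM, hlm, hLM, hlm1, hLM1⟩ := R.exists_bounds
  obtain ⟨B, hB⟩ := exists_touch M RC
  refine ⟨m0 / 10, by positivity, by linarith, ?_⟩
  intro δ hδ eps heps heps0 hepsδ 𝓛 Cw
  have hmX := 𝓛.mX_nonneg
  set c : ℝ := lm * min (m0 / 8) (δ / 4) with hc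
  have hc0 : 0 < c := by positivity
  set C : ℝ := (2 * |Cb| + |Cw|) * r0 with hC
  have hC0 : 0 ≤ C := by positivity
  obtain ⟨N1, hN1⟩ := exists_exp_ge B C c hc0 hC0
  obtain ⟨N2, hN2⟩ := exists_nat_ge (16 * 𝓛.mX / m0 + 4 * 𝓛.mX / δ)
  refine ⟨max N1 N2, fun N hN X hX => ?_⟩
  have hN1' : N1 ≤ N := le_of_max_le_left hN
  have hN2' : N2 ≤ N := le_of_max_le_right hN
  have hNr : (0:ℝ) ≤ N := Nat.cast_nonneg N
  have hN3 : 16 * 𝓛.mX / m0 + 4 * 𝓛.mX / δ ≤ N := hN2.trans (by exact_mod_cast hN2')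
  have hN4 : 16 * 𝓛.mX ≤ m0 * N := by
    have h1 : 16 * 𝓛.mX / m0 ≤ N := by
      have : 0 ≤ 4 * 𝓛.mX / δ := by positivity
      linarith
    rw [div_le_iff₀ hm0] at h1
    linarith
  have hN5 : 4 * 𝓛.mX ≤ δ * N := by
    have h1 : 4 * 𝓛.mX / δ ≤ N := by
      have : 0 ≤ 16 * 𝓛.mX / m0 := by positivity
      linarith
    rw [div_le_iff₀ hδ] at h1
    linarith
  have hX0 : ∀ e, 0 ≤ X e := fun e => by have := (abs_le.1 (hX e)).1; linarith
  have hX2 : ∀ e, X e ≤ 11 / 10 := fun e => by have := (abs_le.1 (hX e)).2; linarith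
  have hX3 : ∀ e, 1 - m0 / 10 ≤ X e := fun e => by have := (abs_le.1 (hX e)).1; linarith
  have hX4 : ∀ e, X e ≤ 1 + m0 / 10 := fun e => by have := (abs_le.1 (hX e)).2; linarith
  set g : R.Eb → M.G := fun e => 𝓛.u N (X e) e with hg
  set Pn : ℝ := 2 + C * N with hPn
  have hCW : ∀ m : ℕ, (m : ℝ) ≤ (2 * |Cb| + |Cw|) * N → ∀ g' ∈ Bl Tt m, CW M RC Pn g' := by
    intro m hm g' hg'
    obtain ⟨l, hl, hlC, rfl⟩ := Bl_subset_Cl (M.toCap P) hT hg'
    refine ⟨l, rfl, hlC, ?_⟩
    have h1 : (l.length : ℝ) ≤ m * r0 := by exact_mod_cast hl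
    have h2 : (m : ℝ) * r0 ≤ C * N := by
      calc (m : ℝ) * r0 ≤ ((2 * |Cb| + |Cw|) * N) * r0 := by gcongr
        _ = C * N := by rw [hC]; ring
    rw [hPn]; linarith
  have hgC : ∀ e, CW M RC Pn (g e) := by
    intro e
    refine hCW _ ?_ _ (𝓛.u_mem N (X e) e)
    have h1 := 𝓛.p_rb_le (N := N) (hX0 e) e
    refine h1.trans ?_
    have h2 : X e * N ≤ 2 * N := by
      have := hX2 e
      nlinarith
    calc Cb * (X e * N) ≤ |Cb| * (2 * N) := by
          have := hX0 e
          gcongr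
          exact le_abs_self _
      _ ≤ (2 * |Cb| + |Cw|) * N := by
          have : 0 ≤ |Cw| * N := by positivity
          linarith
  -- sides from below
  have hside : ∀ j : GI M, R.lam j * (X (rayE hRS j) * N - eps * (X (rayE hRS j) * N) - 𝓛.mX) ≤
      sides M (rayE hRS) g j := by
    intro j
    rw [sides, wg_eq hRS]
    refine mul_le_mul_of_nonneg_left ?_ (R.lam_nonneg j)
    have hu := R.unit _ (R.dir_mem j (lam_ne hRS j))
    have h1 := inner_u 𝓛 heps (N := N) (hX0 (rayE hRS j)) (rayE hRS j) (R.dir j) hu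
    have h2 : inner ℝ (R.dir j) ((rayE hRS j : R.Eb) : E) = (1:ℝ) := by
      change inner ℝ (R.dir j) (R.dir j) = (1:ℝ)
      rw [real_inner_self_eq_norm_sq, hu]; norm_num
    rw [h2, mul_one] at h1
    have h3 := (abs_le.1 h1).1
    change X (rayE hRS j) * N - eps * (X (rayE hRS j) * N) - 𝓛.mX ≤
      inner ℝ (R.dir j) (T (M.h (𝓛.u N (X (rayE hRS j)) (rayE hRS j))))
    linarith
  have hmin1 := min_le_left (m0 / 8) (δ / 4)
  have hmin2 := min_le_right (m0 / 8) (δ / 4)
  have hmin0 : 0 < min (m0 / 8) (δ / 4) := by positivity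
  have hgeo := hB Pn (by rw [hPn]; have : 0 ≤ C * N := by positivity
                         linarith) (rayE hRS) g (c * N) (rays_rayE hRS) hgC (by positivity)
    (hN1 N hN1') (fun e j hj => by
      -- margins at the touching words
      have hu := R.unit _ (R.dir_mem j (lam_ne hRS j))
      have h1 := inner_u 𝓛 heps (N := N) (hX0 e) e (R.dir j) hu
      have h2 := hm0le _ (R.dir_mem j (lam_ne hRS j)) _ e.2 (fun h => hj (Subtype.ext h))
      have h3 := (abs_le.1 h1).2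
      have h4 := hside j
      have hl := lam_pos hRS j
      have hlm' := hlm1 j hl.ne'
      have h5 : wg M j (M.h (g e)) ≤
          R.lam j * (X e * N * (1 - m0) + (eps * (X e * N) + 𝓛.mX)) := by
        rw [wg_eq hRS]
        refine mul_le_mul_of_nonneg_left ?_ hl.le
        have h6 : X e * N * inner ℝ (R.dir j) (e : E) ≤ X e * N * (1 - m0) :=
          mul_le_mul_of_nonneg_left h2 (mul_nonneg (hX0 e) hNr)
        change inner ℝ (R.dir j) (T (M.h (𝓛.u N (X e) e))) ≤ _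
        linarith
      have h6 : min (m0 / 8) (δ / 4) * N ≤
          (X (rayE hRS j) * N - eps * (X (rayE hRS j) * N) - 𝓛.mX) -
          (X e * N * (1 - m0) + (eps * (X e * N) + 𝓛.mX)) := by
        have a1 := hX3 (rayE hRS j)
        have a2 := hX4 e
        have a3 := hX2 (rayE hRS j)
        have a4 := hX2 e
        have a5 := hX0 e
        have a6 := hX0 (rayE hRS j)
        have b1 : eps * X (rayE hRS j) ≤ m0 / 10 * (11 / 10) := by gcongr
        have b2 : eps * X e ≤ m0 / 10 * (11 / 10) := by gcongr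
        have b3 : X e * (1 - m0) ≤ (1 + m0 / 10) * (1 - m0) :=
          mul_le_mul_of_nonneg_right a2 (by linarith)
        have b4 : m0 / 4 ≤ X (rayE hRS j) - eps * X (rayE hRS j) - X e * (1 - m0) - eps * X e := by
          nlinarith
        have b5 := mul_le_mul_of_nonneg_right b4 hNr
        have b6 := mul_le_mul_of_nonneg_right hmin1 hNr
        nlinarith
      have h7 : c * N ≤ R.lam j * (min (m0 / 8) (δ / 4) * N) := by
        rw [hc, mul_assoc]
        exact mul_le_mul_of_nonneg_right hlm' (by positivity)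
      have h8 := mul_le_mul_of_nonneg_left h6 hl.le
      linarith [mul_sub (R.lam j) (X (rayE hRS j) * N - eps * (X (rayE hRS j) * N) - 𝓛.mX)
        (X e * N * (1 - m0) + (eps * (X e * N) + 𝓛.mX))])
  refine ⟨hgeo.1, fun m hm g' hg' hh => hgeo.2.1 g' (hCW m ?_ g' hg') fun j => ?_⟩
  · refine hm.trans ?_
    have : Cw ≤ 2 * |Cb| + |Cw| := by
      have := le_abs_self Cw
      have := abs_nonneg Cb
      linarith
    gcongr
  · have h1 := hh (rayE hRS j)
    have h4 := hside j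
    have hl := lam_pos hRS j
    have hlm' := hlm1 j hl.ne'
    have h5 : wg M j (M.h g') ≤ R.lam j * ((X (rayE hRS j) - δ) * N) := by
      rw [wg_eq hRS]
      exact mul_le_mul_of_nonneg_left h1 hl.le
    have h6 : min (m0 / 8) (δ / 4) * N ≤
        (X (rayE hRS j) * N - eps * (X (rayE hRS j) * N) - 𝓛.mX) -
        (X (rayE hRS j) - δ) * N := by
      have a3 := hX2 (rayE hRS j)
      have a6 := hX0 (rayE hRS j)
      have b1 : eps * X (rayE hRS j) ≤ δ / 4 * (11 / 10) := by gcongr; linarith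
      have b2 := mul_le_mul_of_nonneg_right b1 hNr
      have b6 := mul_le_mul_of_nonneg_right hmin2 hNr
      nlinarith
    have h7 : c * N ≤ R.lam j * (min (m0 / 8) (δ / 4) * N) := by
      rw [hc, mul_assoc]
      exact mul_le_mul_of_nonneg_right hlm' (by positivity)
    have h8 := mul_le_mul_of_nonneg_left h6 hl.le
    linarith [mul_sub (R.lam j) (X (rayE hRS j) * N - eps * (X (rayE hRS j) * N) - 𝓛.mX)
      ((X (rayE hRS j) - δ) * N)]

end Crest.Agent.R182.Gen
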