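/-
R182, block GEN (helper480): the two model facts `Spans` and `BGen` hold for every model.
-/
import Mathlib
import Crest.Agent.R182.GenLegs
import Crest.Agent.R182.NbGen
import Crest.Agent.R182.BoxGen

set_option autoImplicit false

open MeasureTheory

namespace Crest.Agent.R182.Gen

open Crest.Agent.R182.Nb Crest.Agent.R182.Core

variable {Γ : Type*} [Group Γ] {k : ℕ} {S : Set Γ} {π : Γ →* Multiplicative (Fin k → ℤ)}

theorem spans (M : BModel S π) : Spans M := by
  intro x
  have h := span_mon M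
  have : x ∈ Pm (eg M) := by rw [h]; exact Submodule.mem_top
  exact this

theorem bgen (M : BModel S π) : BGen M := by
  intro T
  obtain ⟨J, A, hA, hgen⟩ := Nb.Star.exists_gen (S := M.star) (c := M.c) M.star_cj (GI M)
    (max T 0) (le_max_right _ _)
  refine ⟨J, A, fun v x hx => ?_⟩
  obtain ⟨l, hlJ, hlA, hlx⟩ := hgen v (M.nilC.nil _) x (Bx_mono (le_max_left _ _) hx)
  refine ⟨l.map fun p => p.1 • v p.2, by simpa using hlJ, fun y hy => ?_, hlx.symm⟩
  obtain ⟨p, hp, rfl⟩ := List.mem_map.1 hy
  exact ⟨p.2, p.1, hlA p hp, rfl⟩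

end Crest.Agent.R182.Gen
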