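/-
R182, block GEN (helper480): words with a margin act exponentially small, absorption for boxes.
-/
import Mathlib
import Crest.Agent.R182.GenInst
import Crest.Agent.R182.BoxNN

set_option autoImplicit false
set_option linter.unusedSectionVars false

open MeasureTheory

namespace Crest.Agent.R182.Gen

open Crest.Agent.R182.Nb Crest.Agent.R182.Core Crest.Agent.R182.Cap Crest.Agent.R182.Star

section tiny

variable {Γ : Type*} [Group Γ] {k : ℕ} {S : Set Γ} {π : Γ →* Multiplicative (Fin k → ℤ)}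
  (M : BModel S π)

theorem exists_tiny (R : ℝ) : ∃ B : ℕ, ∀ P : ℝ, 2 ≤ P → ∀ {ρ : Type} (ray : M.gen → ρ)
    (g : ρ → M.G), Rays M ray → (∀ r, CW M R P (g r)) →
    (∀ r, ∀ j : GI M, wg M j (M.h (g r)) ≤ sides M ray g j) → ∀ μ : ℝ, 0 ≤ μ →
    ∀ g' : M.G, CW M R P g' → (∀ j : GI M, wg M j (M.h g') ≤ sides M ray g j - μ) →
      Sm M (fam M ray g) (P ^ B * Real.exp (-μ)) g' := by
  obtain ⟨A₁, hA₁, h1⟩ := ad_bas_mem M R
  obtain ⟨A, hA⟩ := exists_W1 M R
  have hb := brC_pos (GI M) M.c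
  obtain ⟨m, hm⟩ := exists_pow_ge (A₁ * ((KL (GI M) M.c).card * brC (GI M) M.c ^ M.c))
  refine ⟨m + (M.d + A * M.c), fun P hP {ρ} ray g hrays hg htouch μ hμ g' hg' hmar i => ?_⟩
  have hP1 : 1 ≤ P := by linarith
  have hP0 : 0 ≤ P := by linarith
  set Y := sides M ray g with hY
  obtain ⟨hW1, hW2⟩ := hA P hP ray g hg (fun i j hij => by
    have := hrays [j] i (ray j) (by simp) (by simp) (by
      simp only [List.map_cons, List.map_nil, List.sum_cons, List.sum_nil, add_zero]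
      exact hij.symm)
    exact this) htouch
  obtain ⟨l, rfl, hlC, hlP⟩ := hg'
  have h2 := h1 l hlC i Y μ (fun κ h => by
    have hne : κ ≠ [] := by
      rintro rfl
      rw [List.map_nil, List.sum_nil] at h
      exact M.wt_gen_ne i i.2 h.symm
    obtain ⟨j, hj⟩ := List.exists_mem_of_ne_nil κ hne
    have hle : ∀ j : GI M, wg M j (M.h l.prod) ≤ Y j := fun j => by linarith [hmar j]
    have h3 := sum_le_sub hμ hle κ ⟨j, hj, hmar j⟩
    rw [← h, M.sum_wt_apply]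
    linarith)
  have h3 := Bx_comp_poly (M.nilC.nil (fam M ray g)) (one_le_pow₀ hP1) hW2 h2
  refine Bx_mono ?_ h3
  have h4 : (1 + (l.length : ℝ)) ^ M.d ≤ P ^ M.d := by gcongr
  calc A₁ * (1 + (l.length : ℝ)) ^ M.d * Real.exp (-μ) *
        ((KL (GI M) M.c).card * brC (GI M) M.c ^ M.c * (P ^ A) ^ M.c)
      ≤ A₁ * P ^ M.d * Real.exp (-μ) *
        ((KL (GI M) M.c).card * brC (GI M) M.c ^ M.c * (P ^ A) ^ M.c) := by gcongr
    _ = (A₁ * ((KL (GI M) M.c).card * brC (GI M) M.c ^ M.c)) * (P ^ (M.d + A * M.c)) *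
        Real.exp (-μ) := by rw [pow_add, pow_mul]; ring
    _ ≤ P ^ m * (P ^ (M.d + A * M.c)) * Real.exp (-μ) := by
        gcongr
        exact hm P hP
    _ = P ^ (m + (M.d + A * M.c)) * Real.exp (-μ) := by rw [pow_add P m]

theorem pow_one_add_le {a e : ℝ} (ha : 0 ≤ a) (he : 0 ≤ e) (he1 : e ≤ 1) (r : ℕ) :
    (1 + a * e) ^ r ≤ ((1 + a) ^ r - 1) * e + 1 := by
  induction r with
  | zero => simp
  | succ r ih =>
    have h1 : (1:ℝ) ≤ (1 + a) ^ r := one_le_pow₀ (by linarith)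
    rw [pow_succ, pow_succ]
    calc (1 + a * e) ^ r * (1 + a * e) ≤ (((1 + a) ^ r - 1) * e + 1) * (1 + a * e) := by
          gcongr
      _ ≤ ((1 + a) ^ r * (1 + a) - 1) * e + 1 := by
          have h2 : 0 ≤ ((1 + a) ^ r - 1) * a * e * (1 - e) := by
            have : 0 ≤ 1 - e := by linarith
            have : 0 ≤ (1 + a) ^ r - 1 := by linarith
            positivity
          nlinarith

/-- the part of a box which leaves it under a small translation -/
theorem exists_absorb_vol : ∃ A : ℝ, 0 ≤ A ∧ ∀ (v : M.gen → M.L) (e : ℝ), 0 ≤ e → e ≤ 1 →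
    ∀ u : M.NN, M.E u ∈ Bx M.c v e →
      volume {m : M.NN | m ∈ box M v 1 ∧ m * u ∉ box M v 1} ≤
        ENNReal.ofReal (A * e) * volume (box M v 1) := by
  obtain ⟨C, hC, h⟩ := M.star.exists_op_mixed M.c M.gen
  refine ⟨(1 + (C + 1)) ^ M.r - 1, by
    have : (1:ℝ) ≤ (1 + (C + 1)) ^ M.r := one_le_pow₀ (by linarith)
    linarith, fun v e he he1 u hu => ?_⟩
  set Q := box M v 1 with hQ
  set Q' := M.NB v ((1 + (C + 1) * e) * 1) with hQ'
  have hQQ : Q ⊆ Q' := M.NB_mono (by nlinarith)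
  have hvol : volume Q' = ENNReal.ofReal ((1 + (C + 1) * e) ^ M.r) * volume Q :=
    M.volume_NB_smul (by positivity)
  have hfin : volume Q ≠ ⊤ := (M.volume_NB_lt_top v 1).ne
  have hsub : {m : M.NN | m ∈ Q ∧ m * u ∉ Q} ⊆ (fun m => m * u) ⁻¹' (Q' \ Q) := by
    rintro m ⟨hm, hmu⟩
    refine ⟨?_, hmu⟩
    change M.E (m * u) ∈ Bx M.c v ((1 + (C + 1) * e) * 1)
    rw [M.E_mul]
    have h1 := h v (M.nilC.nil _) 1 e zero_le_one le_rfl he he1 _ hm _ hu
    have h2 : M.star.op (M.E m) (M.E u) = (M.star.op (M.E m) (M.E u) - M.E m - M.E u) +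
        (M.E m + M.E u) := by abel
    rw [h2]
    refine Bx_mono ?_ (Bx_add h1 (Bx_add hm hu))
    nlinarith
  refine (measure_mono hsub).trans ?_
  rw [measure_preimage_mul_right, measure_diff hQQ (M.measurableSet_NB v 1).nullMeasurableSet hfin,
    hvol, tsub_le_iff_right]
  have h3 : ENNReal.ofReal (((1 + (C + 1)) ^ M.r - 1) * e) * volume Q + volume Q =
      ENNReal.ofReal (((1 + (C + 1)) ^ M.r - 1) * e + 1) * volume Q := by
    rw [ENNReal.ofReal_add _ zero_le_one, add_mul, ENNReal.ofReal_one, one_mul]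
    have : (1:ℝ) ≤ (1 + (C + 1)) ^ M.r := one_le_pow₀ (by linarith)
    exact mul_nonneg (by linarith) he
  rw [h3]
  gcongr
  exact pow_one_add_le (by linarith) he he1 _

end tiny

section legs

variable {Γ : Type*} [Group Γ] {k : ℕ} {S : Set Γ} {π : Γ →* Multiplicative (Fin k → ℤ)}
  {M : BModel S π} [Countable Γ] {E : Type} [NormedAddCommGroup E] [InnerProductSpace ℝ E]
  {T : (Fin k → ℝ) ≃ₗ[ℝ] E} {V : Set M.NN} {RC : ℝ} {P : BModel.CapPar M T V RC}
  {R : RSys (GI M) E}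

/-- words `g e` of length `≤ C N` whose heights are `μ N`-close to `X e N e` -/
structure NearTup (M : BModel S π) (T : (Fin k → ℝ) ≃ₗ[ℝ] E) (R : RSys (GI M) E) (Rl C μ : ℝ)
    (N : ℕ) (X : R.Eb → ℝ) (g : R.Eb → M.G) : Prop where
  word : ∀ e, CW M Rl (2 + C * N) (g e)
  near : ∀ e : R.Eb, ‖T (M.h (g e)) - (X e * N) • (e : E)‖ ≤ μ * N

theorem NearTup.inner {Rl C μ : ℝ} {N : ℕ} {X : R.Eb → ℝ} {g : R.Eb → M.G}
    (h : NearTup M T R Rl C μ N X g) (e : R.Eb) (f : E) (hf : ‖f‖ = 1) :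
    |inner ℝ f (T (M.h (g e))) - X e * N * inner ℝ f (e : E)| ≤ μ * N := by
  have h3 := abs_real_inner_le_norm f (T (M.h (g e)) - (X e * N) • (e : E))
  rw [hf, one_mul, inner_sub_right, inner_smul_right] at h3
  exact h3.trans (h.near e)

/-- **near tuples touch**, and words with a margin act exponentially small; `m1` is the angle
margin of the Riesz directions. -/
theorem exists_geom2 (hRS : (M.toCap P).S = R.toGenSys) {m1 : ℝ} (hm1 : 0 < m1) (hm11 : m1 ≤ 1)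
    (hm1le : ∀ e ∈ R.Eb, ∀ e' ∈ R.Eb, e ≠ e' → inner ℝ e e' ≤ 1 - m1) (Rl C : ℝ) (hC : 0 ≤ C)
    {δ : ℝ} (hδ : 0 < δ) : ∃ μ0 c : ℝ, 0 < μ0 ∧ 0 < c ∧
    ∃ N0 : ℕ, ∀ N : ℕ, N0 ≤ N → ∀ X : R.Eb → ℝ, (∀ e, |X e - 1| ≤ m1 / 10) → ∀ g : R.Eb → M.G,
      NearTup M T R Rl C μ0 N X g →
      Touch M (rayE hRS) g 1 ∧ ∀ g' : M.G, CW M Rl (2 + C * N) g' →
        (∀ e : R.Eb, inner ℝ (e : E) (T (M.h g')) ≤ (X e - δ) * N) →
        Sm M (fam M (rayE hRS) g) (Real.exp (-(c * N))) g' := by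
  obtain ⟨lm, LM, hlm, hLM, hlm1, hLM1⟩ := R.exists_bounds
  obtain ⟨B, hB⟩ := exists_touch M Rl
  obtain ⟨B', hB'⟩ := exists_tiny M Rl
  set c1 : ℝ := lm * min (m1 / 2) (δ / 2) with hc1
  have hc10 : 0 < c1 := by positivity
  obtain ⟨N1, hN1⟩ := exists_exp_ge (B + B') C (c1 / 2) (by positivity) hC
  refine ⟨min (m1 / 10) (δ / 4), c1 / 2, by positivity, by positivity, N1,
    fun N hN X hX g hg => ?_⟩
  have hNr : (0:ℝ) ≤ N := Nat.cast_nonneg N
  set μ0 : ℝ := min (m1 / 10) (δ / 4) with hμ0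
  have hμ1 : μ0 ≤ m1 / 10 := min_le_left _ _
  have hμ2 : μ0 ≤ δ / 4 := min_le_right _ _
  have hμpos : 0 < μ0 := by positivity
  have hX0 : ∀ e, 0 ≤ X e := fun e => by have := (abs_le.1 (hX e)).1; linarith
  have hX3 : ∀ e, 1 - m1 / 10 ≤ X e := fun e => by have := (abs_le.1 (hX e)).1; linarith
  have hX4 : ∀ e, X e ≤ 1 + m1 / 10 := fun e => by have := (abs_le.1 (hX e)).2; linarith
  set Pn : ℝ := 2 + C * N with hPn
  have hPn2 : 2 ≤ Pn := by
    rw [hPn]
    have : 0 ≤ C * N := by positivity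
    linarith
  have hPn1 : 1 ≤ Pn := by linarith
  have hexp := hN1 N hN
  have hexpB : Pn ^ B ≤ Real.exp (c1 * N) := by
    refine (pow_le_pow_right₀ hPn1 (Nat.le_add_right B B')).trans (hexp.trans ?_)
    apply Real.exp_le_exp.2
    nlinarith
  have hexpB' : Pn ^ B' ≤ Real.exp (c1 / 2 * N) :=
    (pow_le_pow_right₀ hPn1 (Nat.le_add_left B' B)).trans hexp
  -- sides from below
  have hside : ∀ j : GI M, R.lam j * ((X (rayE hRS j) - μ0) * N) ≤ sides M (rayE hRS) g j := by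
    intro j
    rw [sides, wg_eq hRS]
    refine mul_le_mul_of_nonneg_left ?_ (R.lam_nonneg j)
    have hu := R.unit _ (R.dir_mem j (lam_ne hRS j))
    have h1 := hg.inner (rayE hRS j) (R.dir j) hu
    have h2 : inner ℝ (R.dir j) ((rayE hRS j : R.Eb) : E) = (1:ℝ) := by
      change inner ℝ (R.dir j) (R.dir j) = (1:ℝ)
      rw [real_inner_self_eq_norm_sq, hu]; norm_num
    rw [h2, mul_one] at h1
    have h3 := (abs_le.1 h1).1
    linarith
  have hsmall : ∀ j : GI M, ∀ y : ℝ, y ≤ (X (rayE hRS j) - μ0) * N - min (m1 / 2) (δ / 2) * N →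
      R.lam j * y ≤ sides M (rayE hRS) g j - c1 * N := by
    intro j y hy
    have hl := lam_pos hRS j
    have hlm' := hlm1 j hl.ne'
    have h1 := hside j
    have h2 := mul_le_mul_of_nonneg_left hy hl.le
    have h3 : c1 * N ≤ R.lam j * (min (m1 / 2) (δ / 2) * N) := by
      rw [hc1, mul_assoc]
      exact mul_le_mul_of_nonneg_right hlm' (by positivity)
    rw [mul_sub] at h2
    linarith
  have hmar : ∀ (e : R.Eb) (j : GI M), rayE hRS j ≠ e →
      wg M j (M.h (g e)) ≤ sides M (rayE hRS) g j - c1 * N := by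
    intro e j hj
    rw [wg_eq hRS]
    refine hsmall j _ ?_
    have hu := R.unit _ (R.dir_mem j (lam_ne hRS j))
    have h1 := hg.inner e (R.dir j) hu
    have h2 := hm1le _ (R.dir_mem j (lam_ne hRS j)) _ e.2 (fun h => hj (Subtype.ext h))
    have h3 := (abs_le.1 h1).2
    have h6 : X e * N * inner ℝ (R.dir j) (e : E) ≤ X e * N * (1 - m1) :=
      mul_le_mul_of_nonneg_left h2 (mul_nonneg (hX0 e) hNr)
    have a1 := hX3 (rayE hRS j)
    have a2 := hX4 e
    have b3 : X e * (1 - m1) ≤ (1 + m1 / 10) * (1 - m1) :=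
      mul_le_mul_of_nonneg_right a2 (by linarith)
    have b4 : X e * (1 - m1) + μ0 ≤ X (rayE hRS j) - μ0 - min (m1 / 2) (δ / 2) := by
      have := min_le_left (m1 / 2) (δ / 2)
      nlinarith
    have b5 := mul_le_mul_of_nonneg_right b4 hNr
    nlinarith
  have htouch : ∀ (r : R.Eb) (j : GI M), wg M j (M.h (g r)) ≤ sides M (rayE hRS) g j := by
    intro r j
    by_cases h : rayE hRS j = r
    · rw [sides, h]
    · have := hmar r j h
      have : 0 ≤ c1 * N := by positivity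
      linarith
  refine ⟨(hB Pn hPn2 (rayE hRS) g (c1 * N) (rays_rayE hRS) hg.word (by positivity) hexpB
    hmar).1, fun g' hg' hh => ?_⟩
  have h1 := hB' Pn hPn2 (rayE hRS) g (rays_rayE hRS) hg.word htouch (c1 * N) (by positivity) g' hg'
    fun j => by
      rw [wg_eq hRS]
      refine hsmall j _ ((hh (rayE hRS j)).trans ?_)
      have := min_le_right (m1 / 2) (δ / 2)
      have b5 := mul_le_mul_of_nonneg_right this hNr
      nlinarith
  intro i
  refine Bx_mono ?_ (h1 i)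
  calc Pn ^ B' * Real.exp (-(c1 * N)) ≤ Real.exp (c1 / 2 * N) * Real.exp (-(c1 * N)) := by gcongr
    _ = Real.exp (-(c1 / 2 * N)) := by rw [← Real.exp_add]; congr 1; ring

/-- the version with one constant -/
theorem exists_geom' (hRS : (M.toCap P).S = R.toGenSys) (Rl C : ℝ) (hC : 0 ≤ C) :
    ∃ m0 : ℝ, 0 < m0 ∧ m0 ≤ 1 / 2 ∧ ∀ δ : ℝ, 0 < δ → ∃ μ0 c : ℝ, 0 < μ0 ∧ 0 < c ∧
    ∃ N0 : ℕ, ∀ N : ℕ, N0 ≤ N → ∀ X : R.Eb → ℝ, (∀ e, |X e - 1| ≤ m0) → ∀ g : R.Eb → M.G,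
      NearTup M T R Rl C μ0 N X g →
      Touch M (rayE hRS) g 1 ∧ ∀ g' : M.G, CW M Rl (2 + C * N) g' →
        (∀ e : R.Eb, inner ℝ (e : E) (T (M.h g')) ≤ (X e - δ) * N) →
        Sm M (fam M (rayE hRS) g) (Real.exp (-(c * N))) g' := by
  obtain ⟨m1, hm1, hm11, hm1le⟩ := exists_margin R
  exact ⟨m1 / 10, by positivity, by linarith, fun δ hδ =>
    exists_geom2 hRS hm1 hm11 hm1le Rl C hC hδ⟩

end legs

end Crest.Agent.R182.Gen
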