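/-
R182, block GEN (helper480): one law on the box of any fixed size, over `BModel`.
-/
import Mathlib
import Crest.Agent.R182.GenMain

set_option autoImplicit false
set_option linter.unusedSectionVars false

open MeasureTheory Set
open scoped ENNReal Pointwise Topology

namespace Crest.Agent.R182.Gen

open Crest.Agent.R182.Core Crest.Agent.R182.Nb

variable {Γ : Type*} [Group Γ] {k : ℕ} {S : Set Γ} {π : Γ →* Multiplicative (Fin k → ℤ)}
  (M : BModel S π)

/-- **GEN.** A function which is almost constant along typical moves at the touching words is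
almost constant on the box. -/
theorem box_law' (hs : Spans M) (hG : BGen M) (T : ℝ) {V : Set M.NN} (hV : MeasurableSet V)
    (hVb : ∃ ρ : ℝ, ∀ n ∈ V, ‖n‖ ≤ ρ) (hV1 : V ∈ 𝓝 (1 : M.NN)) {R0 : ℝ} (hR0 : 1 ≤ R0) :
    ∃ (J : ℕ) (R C : ℝ), R0 ≤ R ∧ 0 < C ∧ ∀ {ρ : Type} (ray : M.gen → ρ) (g : ρ → M.G),
      Touch M ray g T → ∀ {X : Type} [PseudoMetricSpace X] [MeasurableSpace X]
      [OpensMeasurableSpace X] [SecondCountableTopology X] (Φ : M.NN → X), Measurable Φ →
      ∀ δ : ℝ, 0 ≤ δ → ∀ ε : ℝ≥0∞,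
      (∀ r, badInt volume Φ δ (M.conjN (g r)) (box M (fun i => R • fam M ray g i) 1) V ≤ ε) →
      ∀ A ⊆ box M (fun i => R0 • fam M ray g i) 1, volume A ≠ 0 → ∃ q₀ ∈ A,
        volume {q | q ∈ box M (fun i => R0 • fam M ray g i) 1 ∧ 2 * δ * J < dist (Φ q₀) (Φ q)} * volume A ≤
          ENNReal.ofReal C * ε * volume (box M (fun i => R0 • fam M ray g i) 1) := by
  obtain ⟨ρV, hρV⟩ := hVb
  obtain ⟨ρ2, hρ2, hsmall⟩ := exists_small M hV1
  obtain ⟨ρ3, hρ3⟩ := exists_bound M (max ρV ρ2)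
  set ρ4 := max (max ρ3 ρ2) 0 with hρ4
  obtain ⟨D, hD, hmove⟩ := exists_move M hs T ρ4 (le_max_right _ _)
  obtain ⟨D', hD', hop⟩ := exists_op_fam M.star M.gen M.c M.nilC 1
  obtain ⟨J, hJ⟩ := exists_gen_moves M hG ((D' * R0) ^ M.c) ρ2 hρ2
  set V0 : Set M.NN := Metric.closedBall (0 : M.NN) ρ2 with hV0def
  have hV0m : MeasurableSet V0 := Metric.isClosed_closedBall.measurableSet
  have hV0V : V0 ⊆ V := by
    intro a ha
    have ha' : ‖a‖ ≤ ρ2 := by simpa [hV0def] using ha
    have h0 : ‖(1 : M.NN)‖ ≤ ρ2 := by rw [M.one_def, norm_zero]; exact hρ2.le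
    have := hsmall a 1 ha' h0
    rwa [mul_one] at this
  have hV00 : volume V0 ≠ 0 := (Metric.measure_closedBall_pos _ _ hρ2).ne'
  have hV01 : volume V0 ≠ ∞ := (isCompact_closedBall _ _).measure_lt_top.ne
  have hV1' : volume V ≠ ∞ := by
    refine (lt_of_le_of_lt (measure_mono (t := Metric.closedBall (0 : M.NN) ρV) ?_)
      (isCompact_closedBall _ _).measure_lt_top).ne
    intro n hn
    simpa using hρV n hn
  have hVV0 : volume V0 * volume V ≠ 0 :=
    mul_ne_zero hV00 fun h => hV00 (measure_mono_null hV0V h)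
  have hVV1 : volume V0 * volume V ≠ ∞ := ENNReal.mul_ne_top hV01 hV1'
  have hR00 : 0 < R0 := by linarith
  set R : ℝ := D ^ (J + 1) with hR
  have hR1 : 1 ≤ R := one_le_pow₀ hD
  have hRR0 : 1 ≤ R * R0 := one_le_mul_of_one_le_of_one_le hR1 hR0
  set C' : ℝ≥0∞ := J * 2 * ENNReal.ofReal ((R ^ M.c) ^ M.r) / (volume V0 * volume V) with hC'
  have hC'top : C' ≠ ∞ := by
    rw [hC']
    refine ENNReal.div_ne_top (ENNReal.mul_ne_top ?_ ENNReal.ofReal_ne_top) hVV0
    exact ENNReal.mul_ne_top (ENNReal.natCast_ne_top J) (by norm_num)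
  refine ⟨J, R * R0, C'.toReal + 1, le_mul_of_one_le_left hR00.le hR1, by positivity, ?_⟩
  intro ρ ray g ht X _ _ _ _ Φ hΦ δ hδ ε hbad A hA hA0
  set Q := box M (fun i => R0 • fam M ray g i) 1 with hQ
  set Qs : ℕ → Set M.NN := fun i => box M (fun j => (D ^ i * R0) • fam M ray g j) 1 with hQs
  have hQs0 : Qs 0 = Q := by simp [hQs, hQ]
  have hQm : ∀ i, MeasurableSet (Qs i) := fun i => measurableSet_box M zero_le_one
  have hQfin : volume Q < ∞ := volume_box_lt_top M zero_le_one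
  have hmono : ∀ i ≤ J + 1, Qs i ⊆ box M (fun i => (R * R0) • fam M ray g i) 1 := by
    intro i hi n hn
    have h1 : (1:ℝ) ≤ D ^ (J + 1 - i) := one_le_pow₀ hD
    have h2 := Bx_le_smul h1 zero_le_one hn
    simp only [smul_smul, ← mul_assoc, ← pow_add] at h2
    rwa [Nat.sub_add_cancel hi] at h2
  have hmv : ∀ i, ∀ q ∈ Qs i, ∀ r (n : M.NN), ‖n‖ ≤ ρ4 → q * M.conjN (g r) n ∈ Qs (i + 1) := by
    intro i q hq r n hn
    have := hmove ray g ht (D ^ i * R0) (one_le_mul_of_one_le_of_one_le (one_le_pow₀ hD) hR0)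
      q hq r n hn
    rwa [← mul_assoc, ← pow_succ'] at this
  obtain ⟨q₀, hq₀, h⟩ := one_law volume hΦ (U := V0) (V0 := V0) (V := V)
    (Qb := box M (fun i => (R * R0) • fam M ray g i) 1) (Qs := Qs) (J := J) (δ := δ) (ε := ε)
    (fun r => (M.conjN (g r)).toMonoidHom) (fun r => (M.continuous_conjN (g r)).measurable) hQm
    (measurableSet_box M zero_le_one) (fun i hi => hmono i (by omega)) hV hV0m hV0V
    (fun u hu a ha => hsmall a u (by simpa [hV0def] using ha) (by simpa [hV0def] using hu))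
    (fun i hi q hq r a ha b hb => hmono (i + 1) (by omega) (hmv i q hq r _ (by
      refine (hρ3 a b ?_ ?_).trans ((le_max_left _ _).trans (le_max_left _ _))
      · exact (show ‖a‖ ≤ ρ2 by simpa [hV0def] using ha).trans (le_max_right _ _)
      · exact (hρV b hb).trans (le_max_left _ _))))
    (fun i hi q hq r u hu => hmv i q hq r u
      ((show ‖u‖ ≤ ρ2 by simpa [hV0def] using hu).trans
        ((le_max_right _ _).trans (le_max_left _ _))))
    (fun q hq q' hq' => by
      rw [hQs0] at hq hq'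
      have h1 : q⁻¹ * q' ∈ box M (fam M ray g) ((D' * R0) ^ M.c) := by
        change M.E (q⁻¹ * q') ∈ Bx M.c (fam M ray g) ((D' * R0) ^ M.c)
        rw [M.E_mul, E_inv]
        have h2 := hop (fun i => R0 • fam M ray g i) 1 le_rfl (-M.E q)
          (by simpa using Bx_neg hq) (M.E q') hq'
        rw [mul_one] at h2
        simp only [smul_smul] at h2
        obtain ⟨y, hy, hy'⟩ := Bx_smul_fam (one_le_mul_of_one_le_of_one_le hD' hR0) h2
        rw [hy']
        refine Bx_mono (le_of_eq ?_) (Bx_smul hy _)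
        rw [abs_of_nonneg (by positivity), mul_one]
      obtain ⟨l, hl1, hl2, hl3⟩ := hJ ray g _ h1
      refine ⟨l, fun p hp => by simpa [hV0def] using hl1 p hp, hl2, ?_⟩
      have h3 : q' = q * (q⁻¹ * q') := by group
      conv_lhs => rw [h3, hl3]
      rfl) hδ hbad hV00 hV01 hV1' (A := A) (by rw [hQs0]; exact hA) hA0
    ((measure_mono hA).trans_lt hQfin).ne
  refine ⟨q₀, hq₀, ?_⟩
  rw [hQs0] at h
  have h5 : volume (box M (fun i => (R * R0) • fam M ray g i) 1) ≤
      ENNReal.ofReal ((R ^ M.c) ^ M.r) * volume Q := by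
    have := volume_box_smul_le M (v := fun i => R0 • fam M ray g i) (t := 1) hR1
    simp only [smul_smul] at this
    exact this
  have h6 : volume {q | q ∈ Q ∧ 2 * δ * J < dist (Φ q₀) (Φ q)} * volume A ≤ C' * ε * volume Q := by
    have h7 := h.trans (mul_le_mul_right h5 _)
    rw [← ENNReal.le_div_iff_mul_le (Or.inl hVV0) (Or.inl hVV1)] at h7
    refine h7.trans (le_of_eq ?_)
    rw [hC', ENNReal.div_eq_inv_mul, ENNReal.div_eq_inv_mul]
    ring
  refine h6.trans ?_
  gcongr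
  calc C' = ENNReal.ofReal C'.toReal := (ENNReal.ofReal_toReal hC'top).symm
    _ ≤ ENNReal.ofReal (C'.toReal + 1) := ENNReal.ofReal_le_ofReal (by linarith)

end Crest.Agent.R182.Gen
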