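/-
R182, block GEN (helper480): absorption of conjugated bounded elements by boxes of near tuples.
-/
import Mathlib
import Crest.Agent.R182.GenAbs
import Crest.Agent.R182.GenBig

set_option autoImplicit false
set_option linter.unusedSectionVars false

open MeasureTheory

namespace Crest.Agent.R182.Gen

open Crest.Agent.R182.Nb Crest.Agent.R182.Core Crest.Agent.R182.Cap Crest.Agent.R182.Star

section tiny

variable {Γ : Type*} [Group Γ] {k : ℕ} {S : Set Γ} {π : Γ →* Multiplicative (Fin k → ℤ)}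
  (M : BModel S π)

/-- small words conjugate bounded elements into small boxes -/
theorem exists_conj_tiny (hs : Spans M) (ρ : ℝ) (hρ : 0 ≤ ρ) : ∃ D : ℝ, 0 ≤ D ∧
    ∀ (v : M.gen → M.L) (e : ℝ), 0 ≤ e → e ≤ 1 → ∀ g : M.G, Sm M v e g →
      ∀ n : M.NN, ‖n‖ ≤ ρ → M.E (M.conjN g n) ∈ Bx M.c v (D * e) := by
  classical
  obtain ⟨T0, hT0, hball⟩ := exists_ball M (v := fun i : M.gen => M.bas i) hs
  obtain ⟨A, hA, h⟩ := exists_Bx_split M.c M.gen M.gen 1 le_rfl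
  refine ⟨A * (T0 * ρ), by positivity, fun v e he he1 g hg n hn => ?_⟩
  rw [E_conjN]
  have h1 : M.Ad g (M.E n) ∈ Bx M.c (fun i : M.gen => M.Ad g (M.bas i)) (T0 * ρ) :=
    Bx_map_equiv (M.Ad g) (M.Ad_lie g) (hball ρ hρ n hn)
  obtain ⟨u, hu, k', hk', hx⟩ := h v (fun i : M.gen => M.Ad g (M.bas i)) (fun _ => False)
    (M.nilC.nil _) e he he1 (fun i hi => absurd hi id) (fun i _ => hg i) (T0 * ρ) (by positivity)
    _ h1
  have hu0 : u = 0 := by
    obtain ⟨a, ha, hu⟩ := hu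
    rw [hu]
    refine Finset.sum_eq_zero fun κ hκ => ?_
    have : mon (rst (fun i : M.gen => M.Ad g (M.bas i)) (fun _ => False)) κ = 0 := by
      cases κ with
      | nil => simp
      | cons i κ =>
        exact mon_rst_not (w := fun _ => False)
          (fun h' : ∀ j ∈ i :: κ, False => h' i List.mem_cons_self)
    rw [this, smul_zero]
  rw [hx, hu0, zero_add]
  refine Bx_mono (le_of_eq ?_) hk'
  ring

/-- **absorption**: translations by conjugates of bounded elements under small words. -/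
theorem exists_absorb_word (hs : Spans M) (R1 : ℝ) (hR1 : 0 ≤ R1) {τ : ℝ} (hτ : 0 < τ) :
    ∃ e0 : ℝ, 0 < e0 ∧ ∀ (v : M.gen → M.L) (e : ℝ), 0 ≤ e → e ≤ e0 → ∀ g : M.G, Sm M v e g →
      ∀ R' : ℝ, 1 ≤ R' → ∀ u : M.NN, ‖u‖ ≤ R1 →
        volume {m : M.NN | m ∈ box M (fun i => R' • v i) 1 ∧
          m * M.conjN g u ∉ box M (fun i => R' • v i) 1} ≤
        ENNReal.ofReal τ * volume (box M (fun i => R' • v i) 1) := by
  obtain ⟨D, hD, h1⟩ := exists_conj_tiny M hs R1 hR1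
  obtain ⟨A, hA, h2⟩ := exists_absorb_vol M
  refine ⟨min 1 (min (1 / (D + 1)) (τ / ((A + 1) * (D + 1)))), by positivity, ?_⟩
  intro v e he he0 g hg R' hR' u hu
  have he1 : e ≤ 1 := he0.trans (min_le_left _ _)
  have he2 : e ≤ 1 / (D + 1) := he0.trans ((min_le_right _ _).trans (min_le_left _ _))
  have he3 : e ≤ τ / ((A + 1) * (D + 1)) := he0.trans ((min_le_right _ _).trans (min_le_right _ _))
  rw [le_div_iff₀ (by positivity)] at he2 he3
  have h3 := h1 v e he he1 g hg u hu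
  have hDe0 : 0 ≤ D * e := by positivity
  have h4 : M.E (M.conjN g u) ∈ Bx M.c (fun i => R' • v i) (D * e) := Bx_le_smul hR' hDe0 h3
  refine (h2 (fun i => R' • v i) (D * e) hDe0 (by nlinarith) _ h4).trans ?_
  gcongr
  have : 0 ≤ A * e := by positivity
  nlinarith [mul_nonneg hA hDe0, mul_nonneg hD he]

end tiny

section legs

variable {Γ : Type*} [Group Γ] {k : ℕ} {S : Set Γ} {π : Γ →* Multiplicative (Fin k → ℤ)}
  {M : BModel S π} [Countable Γ] {E : Type} [NormedAddCommGroup E] [InnerProductSpace ℝ E]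
  {T : (Fin k → ℝ) ≃ₗ[ℝ] E} {V : Set M.NN} {RC : ℝ} {P : BModel.CapPar M T V RC}
  {R : RSys (GI M) E}

/-- **(ABSORB)** for boxes of near tuples and words with a margin; `m1` is the angle margin of the
Riesz directions. -/
theorem absorb_near2 (hRS : (M.toCap P).S = R.toGenSys) {m1 : ℝ} (hm1 : 0 < m1) (hm11 : m1 ≤ 1)
    (hm1le : ∀ e ∈ R.Eb, ∀ e' ∈ R.Eb, e ≠ e' → inner ℝ e e' ≤ 1 - m1) (Rl C : ℝ) (hC : 0 ≤ C)
    {δ : ℝ} (hδ : 0 < δ) : ∃ μ0 : ℝ, 0 < μ0 ∧ ∀ R1 τ' : ℝ, 0 < τ' →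
    ∃ N0 : ℕ, ∀ N : ℕ, N0 ≤ N → ∀ X : R.Eb → ℝ, (∀ e, |X e - 1| ≤ m1 / 10) → ∀ g : R.Eb → M.G,
      NearTup M T R Rl C μ0 N X g →
      Touch M (rayE hRS) g 1 ∧ ∀ g' : M.G, CW M Rl (2 + C * N) g' →
        (∀ e : R.Eb, inner ℝ (e : E) (T (M.h g')) ≤ (X e - δ) * N) →
        Sm M (fam M (rayE hRS) g) 1 g' ∧ ∀ R' : ℝ, 1 ≤ R' → ∀ u : M.NN, ‖u‖ ≤ R1 →
          volume {m : M.NN | m ∈ box M (fun i => R' • fam M (rayE hRS) g i) 1 ∧
            m * M.conjN g' u ∉ box M (fun i => R' • fam M (rayE hRS) g i) 1} ≤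
          ENNReal.ofReal τ' * volume (box M (fun i => R' • fam M (rayE hRS) g i) 1) := by
  obtain ⟨μ0, c, hμ0, hc, N0, hN0⟩ := exists_geom2 hRS hm1 hm11 hm1le Rl C hC hδ
  refine ⟨μ0, hμ0, fun R1 τ' hτ' => ?_⟩
  obtain ⟨e0, he0, habs⟩ := exists_absorb_word M (spans M) (max R1 0) (le_max_right _ _) hτ'
  obtain ⟨N1, hN1⟩ := exists_nat_ge (Real.log (1 / e0) / c)
  refine ⟨max N0 N1, fun N hN X hX g hg => ?_⟩
  obtain ⟨ht, hsm⟩ := hN0 N (le_of_max_le_left hN) X hX g hg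
  refine ⟨ht, fun g' hg' hmar => ?_⟩
  have h1 := hsm g' hg' hmar
  have hNN : (N1 : ℝ) ≤ N := by exact_mod_cast le_of_max_le_right hN
  have h2 : Real.exp (-(c * N)) ≤ e0 := by
    have h3 : Real.log (1 / e0) ≤ c * N := by
      have := hN1.trans hNN
      rwa [div_le_iff₀' hc] at this
    rw [Real.exp_neg]
    have h4 : 1 / e0 ≤ Real.exp (c * N) := by
      rw [← Real.exp_log (show 0 < 1 / e0 by positivity)]
      exact Real.exp_le_exp.2 h3
    rw [inv_le_comm₀ (Real.exp_pos _) he0, ← one_div]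
    exact h4
  have h3 : Real.exp (-(c * N)) ≤ 1 := Real.exp_le_one_iff.2 (by
    have : 0 ≤ c * (N : ℝ) := by positivity
    linarith)
  exact ⟨fun i => Bx_mono h3 (h1 i), fun R' hR' u hu =>
    habs _ _ (Real.exp_pos _).le h2 g' h1 R' hR' u (hu.trans (le_max_left _ _))⟩

/-- **(ABSORB)** for boxes of near tuples and words with a margin -/
theorem absorb_near (hRS : (M.toCap P).S = R.toGenSys) (Rl C : ℝ) (hC : 0 ≤ C) :
    ∃ m0 : ℝ, 0 < m0 ∧ m0 ≤ 1 / 2 ∧ ∀ δ : ℝ, 0 < δ → ∃ μ0 : ℝ, 0 < μ0 ∧ ∀ R1 τ' : ℝ, 0 < τ' →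
    ∃ N0 : ℕ, ∀ N : ℕ, N0 ≤ N → ∀ X : R.Eb → ℝ, (∀ e, |X e - 1| ≤ m0) → ∀ g : R.Eb → M.G,
      NearTup M T R Rl C μ0 N X g →
      Touch M (rayE hRS) g 1 ∧ ∀ g' : M.G, CW M Rl (2 + C * N) g' →
        (∀ e : R.Eb, inner ℝ (e : E) (T (M.h g')) ≤ (X e - δ) * N) →
        Sm M (fam M (rayE hRS) g) 1 g' ∧ ∀ R' : ℝ, 1 ≤ R' → ∀ u : M.NN, ‖u‖ ≤ R1 →
          volume {m : M.NN | m ∈ box M (fun i => R' • fam M (rayE hRS) g i) 1 ∧
            m * M.conjN g' u ∉ box M (fun i => R' • fam M (rayE hRS) g i) 1} ≤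
          ENNReal.ofReal τ' * volume (box M (fun i => R' • fam M (rayE hRS) g i) 1) := by
  obtain ⟨m1, hm1, hm11, hm1le⟩ := exists_margin R
  exact ⟨m1 / 10, by positivity, by linarith, fun δ hδ =>
    absorb_near2 hRS hm1 hm11 hm1le Rl C hC hδ⟩

end legs

end Crest.Agent.R182.Gen
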