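/-
R182, block BOX (helper480): the box theorem at one scale.
-/
import Mathlib
import Crest.Agent.R182.GenWord
import Crest.Agent.R182.FacetBad
import Crest.Agent.R182.CapFin

set_option autoImplicit false
set_option linter.unusedSectionVars false

open MeasureTheory Set
open scoped ENNReal Pointwise Topology

namespace Crest.Agent.R182.Gen

open Crest.Agent.R182.Nb Crest.Agent.R182.Core Crest.Agent.R182.Cap Crest.Agent.R182.Star
  Crest.Agent.R182.Facet

section len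

variable {Γ : Type*} [Group Γ] {k : ℕ} {S : Set Γ} {π : Γ →* Multiplicative (Fin k → ℤ)}
  (M : BModel S π)

theorem len_CW {Rl P : ℝ} (hRl : 0 ≤ Rl) {g : M.G} (h : CW M Rl P g) : M.len g ≤ P * Rl := by
  obtain ⟨l, rfl, hl, hP⟩ := h
  refine (M.len_list_le l fun s hs => (hl s hs).2).trans ?_
  have : (l.length : ℝ) ≤ P := by linarith
  gcongr

/-- the points of a box have linear length -/
theorem exists_len_box (Rl C R' : ℝ) (hRl : 0 ≤ Rl) (hC : 0 ≤ C) (hR' : 1 ≤ R') :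
    ∃ c2 : ℝ, 0 ≤ c2 ∧ ∀ {ρ : Type} (ray : M.gen → ρ) (g : ρ → M.G) (N : ℕ), 1 ≤ N →
      (∀ r, CW M Rl (2 + C * N) (g r)) → ∀ n ∈ box M (fun i => R' • fam M ray g i) 1,
        M.len (M.toG n) ≤ c2 * N := by
  obtain ⟨J, hJ⟩ := exists_gen_moves M (bgen M) (R' ^ M.c * 1) 1 one_pos
  have ha := M.a0
  have hlog : 0 ≤ Real.log (2 + 1) := Real.log_nonneg (by norm_num)
  set c0 : ℝ := 2 * ((2 + C) * Rl) + M.a * Real.log (2 + 1) with hc0
  have hc00 : 0 ≤ c0 := by positivity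
  refine ⟨J * c0, by positivity, fun {ρ} ray g N hN hg n hn => ?_⟩
  have hN1 : (1 : ℝ) ≤ N := by exact_mod_cast hN
  have hn' : n ∈ box M (fam M ray g) (R' ^ M.c * 1) := Bx_unscale hR' zero_le_one hn
  obtain ⟨l, hl1, hl2, rfl⟩ := hJ ray g n hn'
  have hstep : ∀ p ∈ l, M.len (M.toG (M.conjN (g p.1) p.2)) ≤ c0 * N := by
    intro p hp
    rw [M.toG_conjN]
    have h1 := M.isLen.mul (g p.1 * M.toG p.2) (g p.1)⁻¹
    have h2 := M.isLen.mul (g p.1) (M.toG p.2)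
    have h3 : M.len (g p.1)⁻¹ = M.len (g p.1) := M.isLen.inv _
    have h4 := len_CW M hRl (hg p.1)
    have h5 := M.len_toG_le p.2
    have h6 : Real.log (2 + ‖p.2‖) ≤ Real.log (2 + 1) :=
      Real.log_le_log (by positivity) (by linarith [hl1 p hp])
    have h7 : M.a * Real.log (2 + ‖p.2‖) ≤ M.a * Real.log (2 + 1) := by gcongr
    have h8 : (2 + C * N) * Rl ≤ ((2 + C) * Rl) * N := by nlinarith [mul_nonneg hRl hC]
    have h9 : M.a * Real.log (2 + 1) ≤ M.a * Real.log (2 + 1) * N :=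
      le_mul_of_one_le_right (by positivity) hN1
    rw [h3] at h1
    have h10 : c0 * N = 2 * (((2 + C) * Rl) * N) + M.a * Real.log (2 + 1) * N := by rw [hc0]; ring
    rw [h10]
    generalize ((2 + C) * Rl) * (N : ℝ) = X1 at *
    generalize M.a * Real.log (2 + 1) * (N : ℝ) = X2 at *
    generalize M.a * Real.log (2 + 1) = X3 at *
    linarith
  have key : ∀ l : List (ρ × M.NN), (∀ p ∈ l, M.len (M.toG (M.conjN (g p.1) p.2)) ≤ c0 * N) →
      M.len (M.toG (l.map fun p => M.conjN (g p.1) p.2).prod) ≤ l.length * (c0 * N) := by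
    intro l
    induction l with
    | nil => intro _; simp [M.isLen.one]
    | cons p l ih =>
      intro h
      rw [List.map_cons, List.prod_cons, map_mul]
      have h1 := M.isLen.mul (M.toG (M.conjN (g p.1) p.2))
        (M.toG (l.map fun p => M.conjN (g p.1) p.2).prod)
      have h2 := ih fun q hq => h q (List.mem_cons_of_mem _ hq)
      have h3 := h p List.mem_cons_self
      rw [List.length_cons]; push_cast; linarith
  refine (key l hstep).trans ?_
  have : (l.length : ℝ) ≤ J := by exact_mod_cast hl2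
  calc (l.length : ℝ) * (c0 * N) ≤ J * (c0 * N) := by gcongr
    _ = J * c0 * N := by ring

end len

end Crest.Agent.R182.Gen

namespace Crest.Agent.R182.Gen

open Crest.Agent.R182.Nb Crest.Agent.R182.Core Crest.Agent.R182.Cap Crest.Agent.R182.Star
  Crest.Agent.R182.Facet

section words

variable {G H ι E : Type*} [Group G] [Group H] [MeasurableSpace H] [MeasurableMul₂ H]
    [MeasurableInv H] [Fintype ι] [NormedAddCommGroup E] [InnerProductSpace ℝ E]

/-- replacing the first letter by a close one -/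
theorem exists_close (M : CapModel G H ι E) {T : Set G} {r0 : ℕ} (hT : ∀ s ∈ T, s ∈ M.Cl r0)
    (hS : Slow T) {K : ℝ} (hK : 0 ≤ K) (A : ℝ) {δ : ℝ} (hδ : 0 < δ) :
    ∃ κ : ℝ, 0 < κ ∧ ∃ N0 : ℕ, 1 ≤ N0 ∧ ∀ N ≥ N0, ∀ Ψ : G → G, QI M K Ψ → ∀ (x : G) (n : H)
      (u g p : G), (∃ m : ℕ, (m : ℝ) ≤ κ * N ∧ u⁻¹ * g ∈ Bl T m) →
      (∃ m : ℕ, (m : ℝ) ≤ A * N ∧ p ∈ Bl T m) →
      ‖GF M N Ψ x n (u * p) - GF M N Ψ x n (g * p)‖ ≤ δ := by
  have hC0 := M.C0_pos
  set cK : ℝ := M.C0 * K * (M.C0 * r0) with hcK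
  have hcKp : 0 ≤ cK := by positivity
  obtain ⟨κ, hκ, N1, h1⟩ := hS A (δ / (2 * (cK + 1))) (by positivity)
  obtain ⟨N2, hN21, hN2⟩ := exists_N_inv (C := M.C0 * K) (δ := δ / 2) (by positivity)
  refine ⟨κ, hκ, max N1 N2, le_max_of_le_right hN21, fun N hN Ψ hΨ x n u g p hu hp => ?_⟩
  obtain ⟨m, hm, hum⟩ := hu
  obtain ⟨m', hm', hpm⟩ := hp
  have hN2' : N2 ≤ N := le_of_max_le_right hN
  obtain ⟨m'', hm'', hmem⟩ := h1 N (le_of_max_le_left hN) m m' hm hm' _ hum _ hpm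
  have e1 : (u * p)⁻¹ * (g * p) = p⁻¹ * (u⁻¹ * g) * p := by group
  have h2 := GF_close hT hΨ (hN21.trans hN2') x n (u * p) (g * p) hm'' (by rw [e1]; exact hmem)
  refine h2.trans ?_
  have h3 := hN2 N hN2'
  have h4 : cK * (δ / (2 * (cK + 1))) ≤ δ / 2 := by
    rw [mul_div_assoc', div_le_div_iff₀ (by positivity) (by positivity)]
    nlinarith
  linarith

variable {M : CapModel G H ι E} {R : RSys ι E} {T : Set G} {Cb eps : ℝ} (𝓛 : Legs M R T Cb eps)

theorem tpos_mem {N : ℕ} {tW : ℝ} (w : List (R.Eb × ℝ)) (hw : ∀ p ∈ w, 0 ≤ p.2 ∧ p.2 ≤ tW) :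
    ∃ m : ℕ, (m : ℝ) ≤ |Cb| * (w.length * tW) * N ∧ 𝓛.tpos N w ∈ Bl T m := by
  induction w with
  | nil => exact ⟨0, by simp, by simpa [Legs.tpos] using one_mem_Bl (T := T) 0⟩
  | cons p w ih =>
    obtain ⟨m, hm, hmem⟩ := ih fun q hq => hw q (List.mem_cons_of_mem _ hq)
    obtain ⟨hp0, hp1⟩ := hw p List.mem_cons_self
    obtain ⟨m', hm', he⟩ := 𝓛.u_pow_mem (N := N) hp0 p.1 1
    rw [pow_one] at he
    refine ⟨m' + m, ?_, ?_⟩
    · have h1 : |Cb| * p.2 * N ≤ |Cb| * tW * N := by gcongr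
      rw [List.length_cons]; push_cast at hm' ⊢
      calc (m' : ℝ) + m ≤ |Cb| * (1 * p.2) * N + |Cb| * (w.length * tW) * N := by linarith
        _ ≤ _ := by
          have : |Cb| * (1 * p.2) * N = |Cb| * p.2 * N := by ring
          rw [this]
          linarith
    · have : 𝓛.tpos N (p :: w) = 𝓛.u N p.2 p.1 * 𝓛.tpos N w := by simp [Legs.tpos]
      rw [this]; exact Bl_mul he hmem

theorem hgt_tpos {N : ℕ} {tW : ℝ} (heps : 0 ≤ eps) (w : List (R.Eb × ℝ))
    (hw : ∀ p ∈ w, 0 ≤ p.2 ∧ p.2 ≤ tW) :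
    ‖M.hgt (𝓛.tpos N w) - (N : ℝ) • tsum w‖ ≤ w.length * (eps * (tW * N) + 𝓛.mX) := by
  induction w with
  | nil => simp [Legs.tpos, Star.tsum, M.hgt_one]
  | cons p w ih =>
    have ih' := ih fun q hq => hw q (List.mem_cons_of_mem _ hq)
    obtain ⟨hp0, hp1⟩ := hw p List.mem_cons_self
    have h1 : 𝓛.tpos N (p :: w) = 𝓛.u N p.2 p.1 * 𝓛.tpos N w := by simp [Legs.tpos]
    have h2 := 𝓛.hgt_u (N := N) hp0 heps p.1 1 (R.unit _ p.1.2)
    rw [pow_one, Nat.cast_one, one_mul, one_mul] at h2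
    have h3 : tsum (p :: w) = p.2 • (p.1 : E) + tsum w := by simp [Star.tsum]
    rw [h1, M.hgt_mul, h3]
    have h4 : M.hgt (𝓛.u N p.2 p.1) + M.hgt (𝓛.tpos N w) - (N : ℝ) • (p.2 • (p.1 : E) + tsum w) =
        (M.hgt (𝓛.u N p.2 p.1) - (p.2 * N) • (p.1 : E)) +
        (M.hgt (𝓛.tpos N w) - (N : ℝ) • tsum w) := by
      rw [smul_add, smul_smul, mul_comm p.2]; abel
    rw [h4]
    refine (norm_add_le _ _).trans ?_
    rw [List.length_cons]; push_cast
    have h5 := 𝓛.mE_le p.1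
    have h6 : eps * (p.2 * N) ≤ eps * (tW * N) := by gcongr
    linarith

end words

end Crest.Agent.R182.Gen

namespace Crest.Agent.R182.Gen

open Crest.Agent.R182.Nb Crest.Agent.R182.Core Crest.Agent.R182.Cap Crest.Agent.R182.Star
  Crest.Agent.R182.Facet

section shape

variable {ι : Type*} [Fintype ι] {E : Type*} [NormedAddCommGroup E] [InnerProductSpace ℝ E]
  {R : RSys ι E} {X : R.Eb → ℝ}

/-- the shape with sides `X` -/
def Om (R : RSys ι E) (X : R.Eb → ℝ) : Set E := {v | ∀ e : R.Eb, inner ℝ (e : E) v ≤ X e}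

theorem convex_Om : Convex ℝ (Om R X) := by
  intro v hv w hw a b ha hb hab e
  rw [inner_add_right, inner_smul_right, inner_smul_right]
  have h1 := mul_le_mul_of_nonneg_left (hv e) ha
  have h2 := mul_le_mul_of_nonneg_left (hw e) hb
  have h3 : a * X e + b * X e = X e := by rw [← add_mul, hab, one_mul]
  linarith

theorem mem_Om_of_norm {v : E} (hv : ‖v‖ ≤ 1 / 2) (hX : ∀ e, |X e - 1| ≤ 1 / 2) : v ∈ Om R X := by
  intro e
  have h1 := real_inner_le_norm (e : E) v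
  rw [R.unit e e.2, one_mul] at h1
  have := (abs_le.1 (hX e)).1
  linarith

theorem ball_Om (hX : ∀ e, |X e - 1| ≤ 1 / 2) : Metric.ball (0 : E) (1 / 2) ⊆ Om R X := by
  intro v hv
  exact mem_Om_of_norm (by simpa using (Metric.mem_ball.1 hv).le) hX

theorem zero_mem_Om (hX : ∀ e, |X e - 1| ≤ 1 / 2) : (0 : E) ∈ Om R X :=
  mem_Om_of_norm (by simp) hX

theorem touch_mem_Om {m1 : ℝ} (hm1 : 0 < m1) (hm11 : m1 ≤ 1)
    (hm : ∀ e ∈ R.Eb, ∀ e' ∈ R.Eb, e ≠ e' → inner ℝ e e' ≤ 1 - m1)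
    (hX : ∀ e, |X e - 1| ≤ m1 / 10) {er : R.Eb} {v : E} (hv : inner ℝ (er : E) v ≤ 0)
    (hv2 : ‖v‖ ≤ m1 / 2) : X er • (er : E) + v ∈ Om R X := by
  intro e
  rw [inner_add_right, inner_smul_right]
  by_cases h : e = er
  · subst h
    rw [real_inner_self_eq_norm_sq, R.unit e e.2]
    linarith
  · have h1 := hm e e.2 er er.2 fun h' => h (Subtype.ext h')
    have h2 := real_inner_le_norm (e : E) v
    rw [R.unit e e.2, one_mul] at h2
    have h3 := (abs_le.1 (hX er)).1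
    have h4 := (abs_le.1 (hX er)).2
    have h5 := (abs_le.1 (hX e)).1
    have h6 : X er * inner ℝ (e : E) (er : E) ≤ X er * (1 - m1) :=
      mul_le_mul_of_nonneg_left h1 (by linarith)
    nlinarith

end shape

section good

variable {Γ : Type*} [Group Γ] [Countable Γ] {k : ℕ} {S : Set Γ}
  {π : Γ →* Multiplicative (Fin k → ℤ)}
  {M : BModel S π} {E : Type} [NormedAddCommGroup E] [InnerProductSpace ℝ E]
  {T : (Fin k → ℝ) ≃ₗ[ℝ] E} {V : Set M.NN} {RC : ℝ} {P : BModel.CapPar M T V RC}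
  {R : RSys (GI M) E} {Tt : Set M.G} {r0 : ℕ} {Cb eps : ℝ}

/-- the law at a point -/
def SGood (𝓛 : Legs (M.toCap P) R Tt Cb eps) (N : ℕ) (X : R.Eb → ℝ) (kw : ℕ) (tW η : ℝ)
    (Ψ : M.G → M.G) (x : M.G) (n : M.NN) : Prop :=
  ∃ (σ : Equiv.Perm R.Eb) (L : E →ₗ[ℝ] E), (∀ e : R.Eb, L e = σ e) ∧
    ∀ w : List (R.Eb × ℝ), w.length ≤ kw → (∀ p ∈ w, 0 ≤ p.2 ∧ p.2 ≤ tW) →
      (∀ w', w' <+: w → tsum w' ∈ Om R X) →
      ‖GF (M.toCap P) N Ψ x n (𝓛.tpos N w) - GF (M.toCap P) N Ψ x n 1 - L (tsum w)‖ ≤ η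

/-- the test positions -/
noncomputable def tg (𝓛 : Legs (M.toCap P) R Tt Cb eps) (N : ℕ) : Option R.Eb → M.G
  | none => 1
  | some e => 𝓛.u N (1 / 2) e

noncomputable def ty (R : RSys (GI M) E) : Option R.Eb → E
  | none => 0
  | some e => (1 / 2 : ℝ) • (e : E)

/-- from the law at a point to the hypothesis of the facets -/
theorem SGood.goodAt {𝓛 : Legs (M.toCap P) R Tt Cb eps} {N : ℕ} {X : R.Eb → ℝ} {kw : ℕ}
    {tW η e' : ℝ} {Ψ : M.G → M.G} {x : M.G} {n : M.NN} (h : SGood 𝓛 N X kw tW η Ψ x n)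
    {m1 : ℝ} (hm1 : 0 < m1) (hm11 : m1 ≤ 1)
    (hm : ∀ e ∈ R.Eb, ∀ e' ∈ R.Eb, e ≠ e' → inner ℝ e e' ≤ 1 - m1)
    (hX : ∀ e, |X e - 1| ≤ m1 / 10) (htW : 2 ≤ tW) (er : R.Eb) {W : Finset (List (R.Eb × ℝ))}
    (hW : ∀ w ∈ W, (∀ p ∈ w, 0 ≤ p.2 ∧ p.2 ≤ 1) ∧ w.length + 1 ≤ kw ∧
      ∀ w', w' <+: w → inner ℝ (er : E) (tsum w') ≤ 0 ∧ ‖tsum w'‖ ≤ m1 / 2) (hkw : 1 ≤ kw)
    {g0 : M.G} (hη : η + e' ≤ e' + e') 
    (hclose : ∀ w : List (R.Eb × ℝ), w.length ≤ kw → (∀ p ∈ w, 0 ≤ p.2 ∧ p.2 ≤ 1) →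
      ‖GF (M.toCap P) N Ψ x n (𝓛.u N (X er) er * 𝓛.tpos N w) -
        GF (M.toCap P) N Ψ x n (g0 * 𝓛.tpos N w)‖ ≤ e') :
    GoodAt (M.toCap P) R N Ψ x g0 (X er • (er : E)) (fun p => 𝓛.u N p.2 p.1) W (tg 𝓛 N) (ty R)
      (e' + e') n := by
  obtain ⟨σ, L, hL, hlaw⟩ := h
  have hX2 : ∀ e, |X e - 1| ≤ 1 / 2 := fun e => (hX e).trans (by linarith)
  have hXer := abs_le.1 (hX er)
  have he'0 : 0 ≤ e' := (norm_nonneg _).trans (hclose [] (by simp) (by simp))
  have hpre0 : ∀ w' : List (R.Eb × ℝ), w' <+: [] → tsum w' ∈ Om R X := by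
    intro w' hw'
    have : w' = [] := by simpa using hw'
    subst this
    simpa [Star.tsum] using zero_mem_Om (R := R) hX2
  -- words at the touching point
  have key : ∀ w : List (R.Eb × ℝ), w.length + 1 ≤ kw → (∀ p ∈ w, 0 ≤ p.2 ∧ p.2 ≤ 1) →
      (∀ w', w' <+: w → inner ℝ (er : E) (tsum w') ≤ 0 ∧ ‖tsum w'‖ ≤ m1 / 2) →
      ‖GF (M.toCap P) N Ψ x n (g0 * 𝓛.tpos N w) - GF (M.toCap P) N Ψ x n 1 -
        L (X er • (er : E) + tsum w)‖ ≤ e' + e' := by
    intro w hwl hw hpre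
    have h1 := hlaw ((er, X er) :: w) (by simpa using hwl) (by
      intro p hp
      rcases List.mem_cons.1 hp with rfl | hp
      · constructor
        · change 0 ≤ X er; linarith
        · change X er ≤ tW; linarith
      · have := hw p hp
        exact ⟨this.1, by linarith⟩) (by
      intro w' hw'
      rcases List.prefix_cons_iff.1 hw' with rfl | ⟨t, rfl, ht⟩
      · simpa [Star.tsum] using zero_mem_Om (R := R) hX2
      · have : tsum ((er, X er) :: t) = X er • (er : E) + tsum t := by simp [Star.tsum]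
        rw [this]
        exact touch_mem_Om hm1 hm11 hm hX (hpre t ht).1 (hpre t ht).2)
    have e1 : 𝓛.tpos N ((er, X er) :: w) = 𝓛.u N (X er) er * 𝓛.tpos N w := by simp [Legs.tpos]
    have e2 : tsum ((er, X er) :: w) = X er • (er : E) + tsum w := by simp [Star.tsum]
    rw [e1, e2] at h1
    have h2 := hclose w (by omega) hw
    rw [norm_sub_rev] at h2
    have e3 : GF (M.toCap P) N Ψ x n (g0 * 𝓛.tpos N w) - GF (M.toCap P) N Ψ x n 1 -
        L (X er • (er : E) + tsum w) =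
        (GF (M.toCap P) N Ψ x n (g0 * 𝓛.tpos N w) -
          GF (M.toCap P) N Ψ x n (𝓛.u N (X er) er * 𝓛.tpos N w)) +
        (GF (M.toCap P) N Ψ x n (𝓛.u N (X er) er * 𝓛.tpos N w) - GF (M.toCap P) N Ψ x n 1 -
          L (X er • (er : E) + tsum w)) := by abel
    rw [e3]
    refine (norm_add_le _ _).trans ?_
    linarith
  refine ⟨L, ⟨σ, hL⟩, ?_, ?_, ?_⟩
  · have h1 := key [] (by simpa using hkw) (by simp) (by
      intro w' hw'
      have : w' = [] := by simpa using hw'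
      subst this
      simp [Star.tsum]; linarith)
    simpa [Legs.tpos, Star.tsum] using h1
  · intro w hw w' hw'
    obtain ⟨h1, h2, h3⟩ := hW w hw
    have hlen : w'.length ≤ w.length := hw'.length_le
    exact key w' (by omega) (fun p hp => h1 p (hw'.subset hp)) fun w'' hw'' =>
      h3 w'' (hw''.trans hw')
  · intro o
    cases o with
    | none =>
      change ‖GF (M.toCap P) N Ψ x n 1 - GF (M.toCap P) N Ψ x n 1 - L 0‖ ≤ e' + e'
      rw [map_zero, sub_self, sub_zero, norm_zero]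
      linarith
    | some e =>
      have h1 := hlaw [(e, 1 / 2)] (by simpa using hkw) (by
        intro p hp
        have : p = (e, 1 / 2) := by simpa using hp
        subst this
        constructor
        · norm_num
        · change (1 / 2 : ℝ) ≤ tW; linarith) (by
        intro w' hw'
        rcases List.prefix_cons_iff.1 hw' with rfl | ⟨t, rfl, ht⟩
        · simpa [Star.tsum] using zero_mem_Om (R := R) hX2
        · have ht' : t = [] := by simpa using ht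
          subst ht'
          refine mem_Om_of_norm ?_ hX2
          have : tsum [(e, (1 / 2 : ℝ))] = (1 / 2 : ℝ) • (e : E) := by simp [Star.tsum]
          rw [this, norm_smul, R.unit e e.2]
          norm_num)
      have e1 : 𝓛.tpos N [(e, (1 / 2 : ℝ))] = 𝓛.u N (1 / 2) e := by simp [Legs.tpos]
      have e2 : tsum [(e, (1 / 2 : ℝ))] = (1 / 2 : ℝ) • (e : E) := by simp [Star.tsum]
      rw [e1, e2] at h1
      change ‖GF (M.toCap P) N Ψ x n (𝓛.u N (1 / 2) e) - GF (M.toCap P) N Ψ x n 1 -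
        L ((1 / 2 : ℝ) • (e : E))‖ ≤ e' + e'
      linarith

end good

end Crest.Agent.R182.Gen
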