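/-
R182, module ERGCOC (helper278): cocycles over extreme invariant means have constant drift.
Elementary (no Hilbert space completion, no ergodic theorem).
-/
import Mathlib

set_option autoImplicit false
set_option linter.unusedSectionVars false

namespace Crest.Agent.R182.Erg

open Filter Topology

variable {G X : Type*} [Group G]

/-- a shift-invariant algebra of bounded functions on a right `G`-space -/
structure Alg (ρ : X → G → X) (𝓐 : Subalgebra ℝ (X → ℝ)) : Prop where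
  one : ∀ x, ρ x 1 = x
  mul : ∀ x g h, ρ x (g * h) = ρ (ρ x g) h
  bdd : ∀ φ ∈ 𝓐, ∃ C, ∀ x, |φ x| ≤ C
  shift : ∀ g, ∀ φ ∈ 𝓐, (fun x => φ (ρ x g)) ∈ 𝓐

/-- positive invariant functional on `𝓐` -/
structure PInv (ρ : X → G → X) (𝓐 : Subalgebra ℝ (X → ℝ)) (m : (X → ℝ) → ℝ) : Prop where
  add : ∀ φ ∈ 𝓐, ∀ χ ∈ 𝓐, m (φ + χ) = m φ + m χ
  smul : ∀ c : ℝ, ∀ φ ∈ 𝓐, m (c • φ) = c * m φ
  nonneg : ∀ φ ∈ 𝓐, (∀ x, 0 ≤ φ x) → 0 ≤ m φ
  inv : ∀ g, ∀ φ ∈ 𝓐, m (fun x => φ (ρ x g)) = m φ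

/-- invariant mean on `𝓐` -/
structure IMean (ρ : X → G → X) (𝓐 : Subalgebra ℝ (X → ℝ)) (m : (X → ℝ) → ℝ) : Prop extends
    PInv ρ 𝓐 m where
  one : m 1 = 1

/-- extremality (ergodicity) of an invariant mean. -/
def Ext (ρ : X → G → X) (𝓐 : Subalgebra ℝ (X → ℝ)) (m : (X → ℝ) → ℝ) : Prop :=
  ∀ m' : (X → ℝ) → ℝ, PInv ρ 𝓐 m' → (∀ φ ∈ 𝓐, (∀ x, 0 ≤ φ x) → m' φ ≤ m φ) →
    ∃ c : ℝ, ∀ φ ∈ 𝓐, m' φ = c * m φ

section Basic

variable {ρ : X → G → X} {𝓐 : Subalgebra ℝ (X → ℝ)} {m : (X → ℝ) → ℝ}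

theorem const_mem (𝓐 : Subalgebra ℝ (X → ℝ)) (c : ℝ) : (fun _ : X => c) ∈ 𝓐 :=
  𝓐.algebraMap_mem c

theorem PInv.neg (h : PInv ρ 𝓐 m) {φ : X → ℝ} (hφ : φ ∈ 𝓐) : m (-φ) = - m φ := by
  have := h.smul (-1) φ hφ
  rwa [neg_one_smul, neg_one_mul] at this

theorem PInv.sub (h : PInv ρ 𝓐 m) {φ χ : X → ℝ} (hφ : φ ∈ 𝓐) (hχ : χ ∈ 𝓐) :
    m (φ - χ) = m φ - m χ := by
  rw [sub_eq_add_neg, h.add φ hφ (-χ) (neg_mem hχ), h.neg hχ, sub_eq_add_neg]

theorem PInv.mono (h : PInv ρ 𝓐 m) {φ χ : X → ℝ} (hφ : φ ∈ 𝓐) (hχ : χ ∈ 𝓐)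
    (hle : ∀ x, φ x ≤ χ x) : m φ ≤ m χ := by
  have := h.nonneg (χ - φ) (sub_mem hχ hφ) (fun x => sub_nonneg.2 (hle x))
  rw [h.sub hχ hφ] at this
  linarith

theorem IMean.const (h : IMean ρ 𝓐 m) (c : ℝ) : m (fun _ => c) = c := by
  have h1 := h.smul c 1 (one_mem 𝓐)
  rw [h.one, mul_one] at h1
  have h2 : (fun _ : X => c) = c • (1 : X → ℝ) := by ext x; simp
  rw [h2, h1]

theorem PInv.sum (h : PInv ρ 𝓐 m) {ι : Type*} (s : Finset ι) (φ : ι → X → ℝ)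
    (hφ : ∀ i ∈ s, φ i ∈ 𝓐) : m (∑ i ∈ s, φ i) = ∑ i ∈ s, m (φ i) := by
  classical
  induction s using Finset.induction_on with
  | empty =>
    have := h.smul 0 0 (zero_mem 𝓐)
    simpa using this
  | insert a s ha ih =>
    rw [Finset.sum_insert ha, Finset.sum_insert ha, h.add _ (hφ a (Finset.mem_insert_self _ _)) _
      (sum_mem fun i hi => hφ i (Finset.mem_insert_of_mem hi)),
      ih fun i hi => hφ i (Finset.mem_insert_of_mem hi)]

/-- Cauchy–Schwarz -/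
theorem PInv.cs (h : PInv ρ 𝓐 m) {φ χ : X → ℝ} (hφ : φ ∈ 𝓐) (hχ : χ ∈ 𝓐) :
    (m (φ * χ)) ^ 2 ≤ m (φ * φ) * m (χ * χ) := by
  have key : ∀ t : ℝ, 0 ≤ m (χ * χ) * (t * t) + (2 * m (φ * χ)) * t + m (φ * φ) := by
    intro t
    have h1 := h.nonneg ((φ + t • χ) * (φ + t • χ))
      (mul_mem (add_mem hφ (𝓐.smul_mem hχ t)) (add_mem hφ (𝓐.smul_mem hχ t)))
      (fun x => mul_self_nonneg _)
    have h2 : (φ + t • χ) * (φ + t • χ) = φ * φ + ((2 * t) • (φ * χ) + (t * t) • (χ * χ)) := by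
      ext x
      simp only [Pi.mul_apply, Pi.add_apply, Pi.smul_apply, smul_eq_mul]
      ring
    rw [h2, h.add _ (mul_mem hφ hφ) _ (add_mem (𝓐.smul_mem (mul_mem hφ hχ) _)
      (𝓐.smul_mem (mul_mem hχ hχ) _)), h.add _ (𝓐.smul_mem (mul_mem hφ hχ) _) _
      (𝓐.smul_mem (mul_mem hχ hχ) _), h.smul _ _ (mul_mem hφ hχ), h.smul _ _ (mul_mem hχ hχ)]
      at h1
    linarith
  have h3 := discrim_le_zero key
  rw [discrim] at h3
  linarith

/-- the `L²` seminorm -/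
noncomputable def nrm (m : (X → ℝ) → ℝ) (φ : X → ℝ) : ℝ := Real.sqrt (m (φ * φ))

theorem PInv.sq_nonneg (h : PInv ρ 𝓐 m) {φ : X → ℝ} (hφ : φ ∈ 𝓐) : 0 ≤ m (φ * φ) :=
  h.nonneg _ (mul_mem hφ hφ) fun _ => mul_self_nonneg _

theorem PInv.nrm_sq (h : PInv ρ 𝓐 m) {φ : X → ℝ} (hφ : φ ∈ 𝓐) : nrm m φ ^ 2 = m (φ * φ) :=
  Real.sq_sqrt (h.sq_nonneg hφ)

theorem PInv.nrm_nonneg (m : (X → ℝ) → ℝ) (φ : X → ℝ) : 0 ≤ nrm m φ := Real.sqrt_nonneg _

theorem PInv.abs_le (h : PInv ρ 𝓐 m) {φ χ : X → ℝ} (hφ : φ ∈ 𝓐) (hχ : χ ∈ 𝓐) :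
    |m (φ * χ)| ≤ nrm m φ * nrm m χ := by
  refine abs_le_of_sq_le_sq ?_ (mul_nonneg (PInv.nrm_nonneg _ _) (PInv.nrm_nonneg _ _))
  rw [mul_pow, h.nrm_sq hφ, h.nrm_sq hχ]
  exact h.cs hφ hχ

theorem PInv.nrm_add (h : PInv ρ 𝓐 m) {φ χ : X → ℝ} (hφ : φ ∈ 𝓐) (hχ : χ ∈ 𝓐) :
    nrm m (φ + χ) ≤ nrm m φ + nrm m χ := by
  refine le_of_sq_le_sq ?_ (add_nonneg (PInv.nrm_nonneg _ _) (PInv.nrm_nonneg _ _))
  rw [h.nrm_sq (add_mem hφ hχ)]
  have h2 : (φ + χ) * (φ + χ) = φ * φ + ((2 : ℝ) • (φ * χ) + χ * χ) := by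
    ext x
    simp only [Pi.mul_apply, Pi.add_apply, Pi.smul_apply, smul_eq_mul]
    ring
  rw [h2, h.add _ (mul_mem hφ hφ) _ (add_mem (𝓐.smul_mem (mul_mem hφ hχ) _) (mul_mem hχ hχ)),
    h.add _ (𝓐.smul_mem (mul_mem hφ hχ) _) _ (mul_mem hχ hχ), h.smul _ _ (mul_mem hφ hχ),
    add_sq, h.nrm_sq hφ, h.nrm_sq hχ]
  have h3 := (le_abs_self _).trans (h.abs_le hφ hχ)
  linarith

theorem PInv.nrm_smul (h : PInv ρ 𝓐 m) {φ : X → ℝ} (hφ : φ ∈ 𝓐) (c : ℝ) :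
    nrm m (c • φ) = |c| * nrm m φ := by
  unfold nrm
  have h1 : (c • φ) * (c • φ) = (c * c) • (φ * φ) := by
    ext x
    simp only [Pi.mul_apply, Pi.smul_apply, smul_eq_mul]
    ring
  rw [h1, h.smul _ _ (mul_mem hφ hφ), Real.sqrt_mul (mul_self_nonneg c), Real.sqrt_mul_self_eq_abs]

theorem PInv.nrm_shift (h : PInv ρ 𝓐 m) {φ : X → ℝ} (hφ : φ ∈ 𝓐) (g : G) :
    nrm m (fun x => φ (ρ x g)) = nrm m φ := by
  unfold nrm
  have h1 : (fun x => φ (ρ x g)) * (fun x => φ (ρ x g)) = fun x => (φ * φ) (ρ x g) := rfl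
  rw [h1, h.inv g _ (mul_mem hφ hφ)]

theorem IMean.nrm_le (h : IMean ρ 𝓐 m) {φ : X → ℝ} (hφ : φ ∈ 𝓐) {C : ℝ} (hC : ∀ x, |φ x| ≤ C)
    (hC0 : 0 ≤ C) : nrm m φ ≤ C := by
  refine le_of_sq_le_sq ?_ hC0
  rw [h.toPInv.nrm_sq hφ, ← h.const (C ^ 2)]
  refine h.toPInv.mono (mul_mem hφ hφ) (const_mem 𝓐 _) fun x => ?_
  show φ x * φ x ≤ C ^ 2
  have := hC x
  rw [← sq, ← sq_abs]
  exact pow_le_pow_left₀ (abs_nonneg _) this 2

end Basic

/-! ### Cocycles -/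

/-- a real cocycle with values in `𝓐`. -/
structure Coc (ρ : X → G → X) (𝓐 : Subalgebra ℝ (X → ℝ)) (A : G → X → ℝ) : Prop where
  mem : ∀ g, A g ∈ 𝓐
  coc : ∀ g h x, A (g * h) x = A g x + A h (ρ x g)

/-- `g` is asymptotically invisible for the increments in direction `z`. -/
def Near (ρ : X → G → X) (A : G → X → ℝ) (z g : G) : Prop :=
  ∀ ε > 0, ∃ N : ℕ, ∀ n ≥ N, ∀ x, |A (z ^ n) (ρ x g) - A (z ^ n) x| ≤ ε * n

section Cocycle

variable {ρ : X → G → X} {𝓐 : Subalgebra ℝ (X → ℝ)} {m : (X → ℝ) → ℝ} {A : G → X → ℝ}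

theorem Coc.one (hA : Coc ρ 𝓐 A) (ha : Alg ρ 𝓐) (x : X) : A 1 x = 0 := by
  have := hA.coc 1 1 x
  rw [one_mul, ha.one] at this
  linarith

theorem Coc.inv (hA : Coc ρ 𝓐 A) (ha : Alg ρ 𝓐) (g : G) (x : X) :
    A g⁻¹ x = - A g (ρ x g⁻¹) := by
  have := hA.coc g⁻¹ g x
  rw [inv_mul_cancel, hA.one ha] at this
  linarith

theorem Coc.mean_pow (hA : Coc ρ 𝓐 A) (ha : Alg ρ 𝓐) (hm : PInv ρ 𝓐 m) (z : G) (n : ℕ) :
    m (A (z ^ n)) = n * m (A z) := by
  induction n with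
  | zero =>
    have h1 : A (z ^ 0) = (0 : ℝ) • (1 : X → ℝ) := by
      ext x; rw [pow_zero, hA.one ha]; simp
    rw [h1, hm.smul _ _ (one_mem 𝓐)]
    simp
  | succ n ih =>
    have h1 : A (z ^ (n + 1)) = A (z ^ n) + fun x => A z (ρ x (z ^ n)) := by
      ext x; rw [pow_succ, hA.coc]; rfl
    rw [h1, hm.add _ (hA.mem _) _ (ha.shift _ _ (hA.mem _)), hm.inv _ _ (hA.mem _), ih]
    push_cast
    ring

theorem Coc.bound_pow (hA : Coc ρ 𝓐 A) (ha : Alg ρ 𝓐) {z : G} {C : ℝ} (hC : ∀ x, |A z x| ≤ C)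
    (n : ℕ) (x : X) : |A (z ^ n) x| ≤ C * n := by
  induction n generalizing x with
  | zero => rw [pow_zero, hA.one ha]; simp
  | succ n ih =>
    rw [pow_succ, hA.coc]
    refine (abs_add_le _ _).trans ?_
    have h1 := ih x
    have h2 := hC (ρ x (z ^ n))
    push_cast
    linarith

/-- the subadditive sequence of norms. -/
theorem Coc.subadditive (hA : Coc ρ 𝓐 A) (ha : Alg ρ 𝓐) (hm : PInv ρ 𝓐 m) (z : G) :
    Subadditive (fun n : ℕ => nrm m (A (z ^ n))) := by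
  intro n k
  have h1 : A (z ^ (n + k)) = A (z ^ n) + fun x => A (z ^ k) (ρ x (z ^ n)) := by
    ext x; rw [pow_add, hA.coc]; rfl
  show nrm m (A (z ^ (n + k))) ≤ _
  rw [h1]
  refine (hm.nrm_add (hA.mem _) (ha.shift _ _ (hA.mem _))).trans ?_
  rw [hm.nrm_shift (hA.mem _)]

theorem Coc.exists_lim (hA : Coc ρ 𝓐 A) (ha : Alg ρ 𝓐) (hm : PInv ρ 𝓐 m) (z : G) :
    ∃ e : ℝ, Tendsto (fun n : ℕ => nrm m (A (z ^ n)) / n) atTop (𝓝 e) := by
  refine ⟨_, (hA.subadditive ha hm z).tendsto_lim ⟨0, ?_⟩⟩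
  rintro _ ⟨n, rfl⟩
  exact div_nonneg (PInv.nrm_nonneg _ _) (Nat.cast_nonneg _)

/-- forward and backward increments agree asymptotically: parallelogram identity. -/
theorem Coc.parallelogram (hA : Coc ρ 𝓐 A) (ha : Alg ρ 𝓐) (hm : PInv ρ 𝓐 m) (z : G) (n : ℕ) :
    nrm m (A (z ^ n) + A (z ^ n)⁻¹) ^ 2 =
      4 * nrm m (A (z ^ n)) ^ 2 - nrm m (A (z ^ (2 * n))) ^ 2 := by
  set a : X → ℝ := A (z ^ n) with hadef
  set b : X → ℝ := A (z ^ n)⁻¹ with hbdef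
  have ham : a ∈ 𝓐 := hA.mem _
  have hbm : b ∈ 𝓐 := hA.mem _
  have hb : b = -(fun x => a (ρ x (z ^ n)⁻¹)) := by
    ext x
    rw [hbdef, hA.inv ha]
    rfl
  have h1 : (fun x => A (z ^ (2 * n)) (ρ x (z ^ n)⁻¹)) = a - b := by
    ext x
    rw [two_mul, pow_add, hA.coc, ← ha.mul, inv_mul_cancel, ha.one]
    have h3 : b x = - a (ρ x (z ^ n)⁻¹) := by rw [hb]; rfl
    show A (z ^ n) (ρ x (z ^ n)⁻¹) + A (z ^ n) x = a x - b x
    rw [h3]
    ring
  have h2 : nrm m (A (z ^ (2 * n))) = nrm m (a - b) := by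
    rw [← hm.nrm_shift (hA.mem (z ^ (2 * n))) (z ^ n)⁻¹, h1]
  have h4 : m (b * b) = m (a * a) := by
    have h5 : b * b = fun x => (a * a) (ρ x (z ^ n)⁻¹) := by
      ext x
      rw [hb]
      simp
    rw [h5, hm.inv _ _ (mul_mem ham ham)]
  rw [h2, hm.nrm_sq (add_mem ham hbm), hm.nrm_sq ham, hm.nrm_sq (sub_mem ham hbm)]
  have e1 : (a + b) * (a + b) = a * a + ((2 : ℝ) • (a * b) + b * b) := by
    ext x
    simp only [Pi.mul_apply, Pi.add_apply, Pi.smul_apply, smul_eq_mul]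
    ring
  have e2 : (a - b) * (a - b) = a * a + ((-2 : ℝ) • (a * b) + b * b) := by
    ext x
    simp only [Pi.mul_apply, Pi.add_apply, Pi.sub_apply, Pi.smul_apply, smul_eq_mul]
    ring
  have hab := mul_mem ham hbm
  rw [e1, e2, hm.add _ (mul_mem ham ham) _ (add_mem (𝓐.smul_mem hab _) (mul_mem hbm hbm)),
    hm.add _ (𝓐.smul_mem hab _) _ (mul_mem hbm hbm), hm.smul _ _ hab,
    hm.add _ (mul_mem ham ham) _ (add_mem (𝓐.smul_mem hab _) (mul_mem hbm hbm)),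
    hm.add _ (𝓐.smul_mem hab _) _ (mul_mem hbm hbm), hm.smul _ _ hab, h4]
  ring

theorem Coc.tendsto_forward_backward (hA : Coc ρ 𝓐 A) (ha : Alg ρ 𝓐) (hm : PInv ρ 𝓐 m) (z : G) :
    Tendsto (fun n : ℕ => nrm m (A (z ^ n) + A (z ^ n)⁻¹) / n) atTop (𝓝 0) := by
  obtain ⟨e, he⟩ := hA.exists_lim ha hm z
  have h2 : Tendsto (fun n : ℕ => nrm m (A (z ^ (2 * n))) / ((2 * n : ℕ) : ℝ)) atTop (𝓝 e) :=
    he.comp (tendsto_id.const_mul_atTop' (by norm_num : 0 < 2))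
  have h3 : Tendsto (fun n : ℕ => 4 * (nrm m (A (z ^ n)) / n) ^ 2 -
      4 * (nrm m (A (z ^ (2 * n))) / ((2 * n : ℕ) : ℝ)) ^ 2) atTop (𝓝 0) := by
    have := ((he.pow 2).const_mul 4).sub ((h2.pow 2).const_mul 4)
    rwa [sub_self] at this
  have h4 : Tendsto (fun n : ℕ => (nrm m (A (z ^ n) + A (z ^ n)⁻¹) / n) ^ 2) atTop (𝓝 0) := by
    refine h3.congr fun n => ?_
    rw [div_pow, div_pow, div_pow, hA.parallelogram ha hm z n]
    rcases Nat.eq_zero_or_pos n with rfl | hn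
    · simp
    · have : (n : ℝ) ≠ 0 := by positivity
      push_cast
      field_simp
      ring
  have h5 := h4.sqrt
  rw [Real.sqrt_zero] at h5
  refine h5.congr fun n => ?_
  rw [Real.sqrt_sq (div_nonneg (PInv.nrm_nonneg _ _) (Nat.cast_nonneg _))]

/-- asymptotic invariance of the increments. -/
def AInv (ρ : X → G → X) (m : (X → ℝ) → ℝ) (A : G → X → ℝ) (z g : G) : Prop :=
  Tendsto (fun n : ℕ => nrm m ((fun x => A (z ^ n) (ρ x g)) - A (z ^ n)) / n) atTop (𝓝 0)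

theorem AInv.of_near (hA : Coc ρ 𝓐 A) (ha : Alg ρ 𝓐) (hm : IMean ρ 𝓐 m) {z g : G}
    (h : Near ρ A z g) : AInv ρ m A z g := by
  rw [AInv, Metric.tendsto_atTop]
  intro ε hε
  obtain ⟨N, hN⟩ := h (ε / 2) (by positivity)
  refine ⟨N, fun n hn => ?_⟩
  rw [dist_zero_right, Real.norm_eq_abs,
    abs_of_nonneg (div_nonneg (PInv.nrm_nonneg _ _) (Nat.cast_nonneg _))]
  have h1 : nrm m ((fun x => A (z ^ n) (ρ x g)) - A (z ^ n)) ≤ ε / 2 * n :=
    hm.nrm_le (sub_mem (ha.shift _ _ (hA.mem _)) (hA.mem _)) (fun x => hN n hn x) (by positivity)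
  rcases Nat.eq_zero_or_pos n with rfl | hn0
  · simpa using hε
  · have hn1 : (0 : ℝ) < n := by exact_mod_cast hn0
    rw [div_lt_iff₀ hn1]
    nlinarith

theorem AInv.of_near_inv (hA : Coc ρ 𝓐 A) (ha : Alg ρ 𝓐) (hm : IMean ρ 𝓐 m) {z g : G}
    (h : Near ρ A z⁻¹ g) : AInv ρ m A z g := by
  have h1 := hA.tendsto_forward_backward ha hm.toPInv z
  have h2 := AInv.of_near hA ha hm h
  have h3 : Tendsto (fun n : ℕ => 2 * (nrm m (A (z ^ n) + A (z ^ n)⁻¹) / n) +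
      nrm m ((fun x => A (z⁻¹ ^ n) (ρ x g)) - A (z⁻¹ ^ n)) / n) atTop (𝓝 0) := by
    have := (h1.const_mul 2).add h2
    rwa [mul_zero, add_zero] at this
  refine squeeze_zero (fun n => div_nonneg (PInv.nrm_nonneg _ _) (Nat.cast_nonneg _)) ?_ h3
  intro n
  have hs := hA.mem (z ^ n)
  have hi := hA.mem (z ^ n)⁻¹
  have e1 : (fun x => A (z ^ n) (ρ x g)) - A (z ^ n) =
      ((fun x => (A (z ^ n) + A (z ^ n)⁻¹) (ρ x g)) + (-1 : ℝ) • (A (z ^ n) + A (z ^ n)⁻¹)) +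
      (-1 : ℝ) • ((fun x => A (z ^ n)⁻¹ (ρ x g)) - A (z ^ n)⁻¹) := by
    ext x
    simp only [Pi.add_apply, Pi.sub_apply, Pi.smul_apply, smul_eq_mul]
    ring
  have hm' := hm.toPInv
  have k1 : nrm m ((fun x => A (z ^ n) (ρ x g)) - A (z ^ n)) ≤
      2 * nrm m (A (z ^ n) + A (z ^ n)⁻¹) +
        nrm m ((fun x => A (z⁻¹ ^ n) (ρ x g)) - A (z⁻¹ ^ n)) := by
    rw [e1]
    refine (hm'.nrm_add (add_mem (ha.shift _ _ (add_mem hs hi)) (𝓐.smul_mem (add_mem hs hi) _))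
      (𝓐.smul_mem (sub_mem (ha.shift _ _ hi) hi) _)).trans ?_
    have k2 := hm'.nrm_add (ha.shift g _ (add_mem hs hi)) (𝓐.smul_mem (add_mem hs hi) (-1))
    rw [hm'.nrm_shift (add_mem hs hi), hm'.nrm_smul (add_mem hs hi)] at k2
    rw [hm'.nrm_smul (sub_mem (ha.shift _ _ hi) hi)]
    simp only [abs_neg, abs_one, one_mul] at k2 ⊢
    rw [inv_pow]
    linarith
  have hn : (0 : ℝ) ≤ n := Nat.cast_nonneg n
  calc nrm m ((fun x => A (z ^ n) (ρ x g)) - A (z ^ n)) / n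
      ≤ (2 * nrm m (A (z ^ n) + A (z ^ n)⁻¹) +
        nrm m ((fun x => A (z⁻¹ ^ n) (ρ x g)) - A (z⁻¹ ^ n))) / n :=
        div_le_div_of_nonneg_right k1 hn
    _ = _ := by ring

theorem AInv.mul (hA : Coc ρ 𝓐 A) (ha : Alg ρ 𝓐) (hm : PInv ρ 𝓐 m) {z g h : G}
    (hg : AInv ρ m A z g) (hh : AInv ρ m A z h) : AInv ρ m A z (g * h) := by
  have h3 := hg.add hh
  rw [add_zero] at h3
  refine squeeze_zero (fun n => div_nonneg (PInv.nrm_nonneg _ _) (Nat.cast_nonneg _)) ?_ h3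
  intro n
  have hs := hA.mem (z ^ n)
  have e1 : (fun x => A (z ^ n) (ρ x (g * h))) - A (z ^ n) =
      ((fun x => A (z ^ n) (ρ x g)) - A (z ^ n)) +
      (fun x => ((fun y => A (z ^ n) (ρ y h)) - A (z ^ n)) (ρ x g)) := by
    ext x
    simp only [Pi.add_apply, Pi.sub_apply, ha.mul]
    ring
  have k1 : nrm m ((fun x => A (z ^ n) (ρ x (g * h))) - A (z ^ n)) ≤
      nrm m ((fun x => A (z ^ n) (ρ x g)) - A (z ^ n)) +
      nrm m ((fun x => A (z ^ n) (ρ x h)) - A (z ^ n)) := by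
    rw [e1]
    refine (hm.nrm_add (sub_mem (ha.shift _ _ hs) hs)
      (ha.shift _ _ (sub_mem (ha.shift _ _ hs) hs))).trans ?_
    rw [hm.nrm_shift (sub_mem (ha.shift _ _ hs) hs)]
  calc _ ≤ _ := div_le_div_of_nonneg_right k1 (Nat.cast_nonneg n)
    _ = _ := by ring

theorem AInv.inv (hA : Coc ρ 𝓐 A) (ha : Alg ρ 𝓐) (hm : PInv ρ 𝓐 m) {z g : G}
    (hg : AInv ρ m A z g) : AInv ρ m A z g⁻¹ := by
  refine hg.congr fun n => ?_
  have hs := hA.mem (z ^ n)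
  have e1 : (fun x => A (z ^ n) (ρ x g⁻¹)) - A (z ^ n) =
      (-1 : ℝ) • (fun x => ((fun y => A (z ^ n) (ρ y g)) - A (z ^ n)) (ρ x g⁻¹)) := by
    ext x
    simp only [Pi.sub_apply, Pi.smul_apply, smul_eq_mul, ← ha.mul, inv_mul_cancel, ha.one]
    ring
  rw [e1, hm.nrm_smul (ha.shift _ _ (sub_mem (ha.shift _ _ hs) hs)),
    hm.nrm_shift (sub_mem (ha.shift _ _ hs) hs)]
  simp

theorem AInv.of_closure (hA : Coc ρ 𝓐 A) (ha : Alg ρ 𝓐) (hm : IMean ρ 𝓐 m) {z : G}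
    (hgen : Subgroup.closure {g | Near ρ A z g ∨ Near ρ A z⁻¹ g} = ⊤) (g : G) :
    AInv ρ m A z g := by
  have hg : g ∈ Subgroup.closure {g | Near ρ A z g ∨ Near ρ A z⁻¹ g} := by rw [hgen]; trivial
  induction hg using Subgroup.closure_induction with
  | mem x hx =>
    rcases hx with hx | hx
    · exact AInv.of_near hA ha hm hx
    · exact AInv.of_near_inv hA ha hm hx
  | one =>
    have : (fun n : ℕ => nrm m ((fun x => A (z ^ n) (ρ x 1)) - A (z ^ n)) / n) = fun _ => 0 := by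
      funext n
      have h1 : (fun x => A (z ^ n) (ρ x 1)) - A (z ^ n) = (0 : ℝ) • A (z ^ n) := by
        ext x
        simp [ha.one]
      rw [h1, hm.toPInv.nrm_smul (hA.mem _)]
      simp
    rw [AInv, this]
    exact tendsto_const_nhds
  | mul x y _ _ hx hy => exact AInv.mul hA ha hm.toPInv hx hy
  | inv x _ hx => exact AInv.inv hA ha hm.toPInv hx

end Cocycle

/-! ### Weak and strong convergence for extreme means -/

section Weak

variable {ρ : X → G → X} {𝓐 : Subalgebra ℝ (X → ℝ)} {m : (X → ℝ) → ℝ} {A : G → X → ℝ}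

/-- the normalised weight. -/
noncomputable def wt (A : G → X → ℝ) (z : G) (C : ℝ) (n : ℕ) : X → ℝ :=
  fun x => (A (z ^ n) x / n + C) / (2 * C + 1)

theorem wt_eq (A : G → X → ℝ) (z : G) (C : ℝ) (n : ℕ) :
    wt A z C n = (1 / ((2 * C + 1) * n)) • A (z ^ n) + (C / (2 * C + 1)) • (1 : X → ℝ) := by
  ext x
  simp only [wt, Pi.add_apply, Pi.smul_apply, smul_eq_mul, Pi.one_apply]
  rcases Nat.eq_zero_or_pos n with rfl | hn
  · simp
  · have : (n : ℝ) ≠ 0 := by positivity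
    by_cases hC : 2 * C + 1 = 0
    · simp [hC]
    · field_simp

theorem wt_mem (hA : Coc ρ 𝓐 A) (z : G) (C : ℝ) (n : ℕ) : wt A z C n ∈ 𝓐 := by
  rw [wt_eq]
  exact add_mem (𝓐.smul_mem (hA.mem _) _) (𝓐.smul_mem (one_mem 𝓐) _)

theorem wt_nonneg (hA : Coc ρ 𝓐 A) (ha : Alg ρ 𝓐) {z : G} {C : ℝ} (hC : ∀ x, |A z x| ≤ C)
    (hC0 : 0 ≤ C) (n : ℕ) (x : X) : 0 ≤ wt A z C n x := by
  unfold wt
  have h1 := hA.bound_pow ha hC n x
  rcases Nat.eq_zero_or_pos n with rfl | hn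
  · simp; positivity
  · have hn1 : (0 : ℝ) < n := by exact_mod_cast hn
    have h2 : -C ≤ A (z ^ n) x / n := by
      rw [le_div_iff₀ hn1]
      rw [abs_le] at h1
      linarith [h1.1]
    have h3 : 0 ≤ A (z ^ n) x / n + C := by linarith
    positivity

theorem wt_le_one (hA : Coc ρ 𝓐 A) (ha : Alg ρ 𝓐) {z : G} {C : ℝ} (hC : ∀ x, |A z x| ≤ C)
    (hC0 : 0 ≤ C) (n : ℕ) (x : X) : wt A z C n x ≤ 1 := by
  unfold wt
  have h1 := hA.bound_pow ha hC n x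
  rw [div_le_one (by positivity)]
  rcases Nat.eq_zero_or_pos n with rfl | hn
  · simp; linarith
  · have hn1 : (0 : ℝ) < n := by exact_mod_cast hn
    have h2 : A (z ^ n) x / n ≤ C := by
      rw [div_le_iff₀ hn1]
      rw [abs_le] at h1
      linarith [h1.2]
    linarith

theorem m_mul_wt (hA : Coc ρ 𝓐 A) (hm : PInv ρ 𝓐 m) {φ : X → ℝ} (hφ : φ ∈ 𝓐) (z : G) (C : ℝ)
    (n : ℕ) : m (φ * wt A z C n) =
      (1 / (2 * C + 1)) * (m (φ * A (z ^ n)) / n) + (C / (2 * C + 1)) * m φ := by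
  rw [wt_eq, mul_add, mul_smul_comm, mul_smul_comm, mul_one,
    hm.add _ (𝓐.smul_mem (mul_mem hφ (hA.mem _)) _) _ (𝓐.smul_mem hφ _),
    hm.smul _ _ (mul_mem hφ (hA.mem _)), hm.smul _ _ hφ]
  rw [one_div, one_div, mul_inv]
  ring

/-- **Weak convergence** (independence): the increments of large scale are independent of any
fixed function, for an extreme invariant mean. -/
theorem tendsto_weak (hA : Coc ρ 𝓐 A) (ha : Alg ρ 𝓐) (hm : IMean ρ 𝓐 m) (hE : Ext ρ 𝓐 m) {z : G}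
    (hgen : Subgroup.closure {g | Near ρ A z g ∨ Near ρ A z⁻¹ g} = ⊤) {φ : X → ℝ} (hφ : φ ∈ 𝓐) :
    Tendsto (fun n : ℕ => m (φ * A (z ^ n)) / n) atTop (𝓝 (m (A z) * m φ)) := by
  obtain ⟨C, hC⟩ := ha.bdd _ (hA.mem z)
  obtain ⟨C, hC, hC0⟩ : ∃ C, (∀ x, |A z x| ≤ C) ∧ 0 ≤ C :=
    ⟨|C|, fun x => (hC x).trans (le_abs_self C), abs_nonneg C⟩
  have hm' := hm.toPInv
  have hpos : (0 : ℝ) < 2 * C + 1 := by positivity
  rw [tendsto_iff_ultrafilter]
  intro U hU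
  -- bounds
  have hbd : ∀ χ ∈ 𝓐, ∃ R, ∀ n, m (χ * wt A z C n) ∈ Set.Icc (-R) R := by
    intro χ hχ
    obtain ⟨D, hD⟩ := ha.bdd χ hχ
    refine ⟨|D|, fun n => ?_⟩
    have h1 : ∀ x, |(χ * wt A z C n) x| ≤ |D| := by
      intro x
      rw [Pi.mul_apply, abs_mul, abs_of_nonneg (wt_nonneg hA ha hC hC0 n x)]
      calc |χ x| * wt A z C n x ≤ |χ x| * 1 :=
            mul_le_mul_of_nonneg_left (wt_le_one hA ha hC hC0 n x) (abs_nonneg _)
        _ ≤ |D| := by rw [mul_one]; exact (hD x).trans (le_abs_self D)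
    have hmem := mul_mem hχ (wt_mem hA z C n)
    constructor
    · rw [← hm.const (-|D|)]
      exact hm'.mono (const_mem 𝓐 _) hmem fun x => (abs_le.1 (h1 x)).1
    · rw [← hm.const |D|]
      exact hm'.mono hmem (const_mem 𝓐 _) fun x => (abs_le.1 (h1 x)).2
  have hlim : ∀ χ ∈ 𝓐, ∃ l, Tendsto (fun n => m (χ * wt A z C n)) U (𝓝 l) := by
    intro χ hχ
    obtain ⟨R, hR⟩ := hbd χ hχ
    have h1 := (isCompact_Icc (a := -R) (b := R)).ultrafilter_le_nhds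
      (U.map fun n => m (χ * wt A z C n)) (by
        rw [le_principal_iff]
        exact Filter.mem_map.2 (Filter.Eventually.of_forall hR))
    obtain ⟨l, -, hl⟩ := h1
    exact ⟨l, hl⟩
  choose! L hL using hlim
  -- the limit functional
  have hwinv : ∀ g, ∀ χ ∈ 𝓐, Tendsto (fun n => m ((fun x => χ (ρ x g)) * wt A z C n) -
      m (χ * wt A z C n)) U (𝓝 0) := by
    intro g χ hχ
    obtain ⟨D, hD⟩ := ha.bdd χ hχ
    have h1 := (AInv.of_closure hA ha hm hgen g).mono_left hU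
    have h2 : Tendsto (fun n : ℕ => |D| / (2 * C + 1) *
        (nrm m ((fun x => A (z ^ n) (ρ x g)) - A (z ^ n)) / n)) U (𝓝 0) := by
      have := h1.const_mul (|D| / (2 * C + 1))
      rwa [mul_zero] at this
    rw [tendsto_zero_iff_abs_tendsto_zero]
    refine squeeze_zero (fun n => abs_nonneg _) ?_ h2
    intro n
    have hs := hA.mem (z ^ n)
    have hw := wt_mem hA z C n
    have e1 : m (χ * wt A z C n) = m ((fun x => χ (ρ x g)) * fun x => wt A z C n (ρ x g)) :=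
      (hm'.inv g _ (mul_mem hχ hw)).symm
    have e2 : (fun x => χ (ρ x g)) * wt A z C n - ((fun x => χ (ρ x g)) *
        fun x => wt A z C n (ρ x g)) = (fun x => χ (ρ x g)) *
          ((-(1 / ((2 * C + 1) * n))) • ((fun x => A (z ^ n) (ρ x g)) - A (z ^ n))) := by
      rw [wt_eq]
      ext x
      simp only [Pi.mul_apply, Pi.add_apply, Pi.sub_apply, Pi.smul_apply, smul_eq_mul,
        Pi.one_apply]
      ring
    have hd := sub_mem (ha.shift g _ hs) hs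
    show |m ((fun x => χ (ρ x g)) * wt A z C n) - m (χ * wt A z C n)| ≤ _
    rw [e1, ← hm'.sub (mul_mem (ha.shift g _ hχ) hw)
      (mul_mem (ha.shift g _ hχ) (ha.shift g _ hw)), e2]
    refine (hm'.abs_le (ha.shift g _ hχ) (𝓐.smul_mem hd _)).trans ?_
    rw [hm'.nrm_smul hd, hm'.nrm_shift hχ, abs_neg, abs_of_nonneg (by positivity)]
    have h3 : nrm m χ ≤ |D| := hm.nrm_le hχ (fun x => (hD x).trans (le_abs_self D)) (abs_nonneg D)
    calc nrm m χ * (1 / ((2 * C + 1) * n) * nrm m ((fun x => A (z ^ n) (ρ x g)) - A (z ^ n)))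
        ≤ |D| * (1 / ((2 * C + 1) * n) * nrm m ((fun x => A (z ^ n) (ρ x g)) - A (z ^ n))) :=
          mul_le_mul_of_nonneg_right h3 (mul_nonneg (by positivity) (PInv.nrm_nonneg _ _))
      _ = |D| / (2 * C + 1) * (nrm m ((fun x => A (z ^ n) (ρ x g)) - A (z ^ n)) / n) := by
          rw [one_div, mul_inv]; ring
  have hPI : PInv ρ 𝓐 L := by
    refine ⟨?_, ?_, ?_, ?_⟩
    · intro φ hφ χ hχ
      refine tendsto_nhds_unique (hL _ (add_mem hφ hχ)) ?_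
      refine ((hL _ hφ).add (hL _ hχ)).congr fun n => ?_
      rw [add_mul, hm'.add _ (mul_mem hφ (wt_mem hA z C n)) _ (mul_mem hχ (wt_mem hA z C n))]
    · intro c φ hφ
      refine tendsto_nhds_unique (hL _ (𝓐.smul_mem hφ c)) ?_
      refine ((hL _ hφ).const_mul c).congr fun n => ?_
      rw [smul_mul_assoc, hm'.smul _ _ (mul_mem hφ (wt_mem hA z C n))]
    · intro φ hφ h0
      refine ge_of_tendsto (hL _ hφ) (Filter.Eventually.of_forall fun n => ?_)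
      exact hm'.nonneg _ (mul_mem hφ (wt_mem hA z C n))
        fun x => mul_nonneg (h0 x) (wt_nonneg hA ha hC hC0 n x)
    · intro g φ hφ
      have h1 := (hL _ (ha.shift g _ hφ)).sub (hL _ hφ)
      have h2 := tendsto_nhds_unique h1 (hwinv g φ hφ)
      linarith
  obtain ⟨c, hc⟩ := hE L hPI (by
    intro χ hχ h0
    refine le_of_tendsto (hL _ hχ) (Filter.Eventually.of_forall fun n => ?_)
    refine hm'.mono (mul_mem hχ (wt_mem hA z C n)) hχ fun x => ?_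
    calc χ x * wt A z C n x ≤ χ x * 1 :=
          mul_le_mul_of_nonneg_left (wt_le_one hA ha hC hC0 n x) (h0 x)
      _ = χ x := mul_one _)
  -- value of `c`
  have hc1 : c = (1 / (2 * C + 1)) * m (A z) + C / (2 * C + 1) := by
    have h1 := hc 1 (one_mem 𝓐)
    rw [hm.one, mul_one] at h1
    rw [← h1]
    refine tendsto_nhds_unique (hL 1 (one_mem 𝓐)) ?_
    have h2 : ∀ᶠ n : ℕ in (U : Filter ℕ), 1 ≤ n := hU (eventually_ge_atTop 1)
    refine tendsto_const_nhds.congr' (h2.mono fun n hn => ?_)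
    show _ = m (1 * wt A z C n)
    rw [m_mul_wt hA hm' (one_mem 𝓐), one_mul, hA.mean_pow ha hm', hm.one]
    have : (n : ℝ) ≠ 0 := by positivity
    field_simp
  have h3 := hL φ hφ
  rw [hc φ hφ, hc1] at h3
  have h4 := ((h3.sub_const (C / (2 * C + 1) * m φ)).const_mul (2 * C + 1))
  have e5 : (2 * C + 1) * ((1 / (2 * C + 1) * m (A z) + C / (2 * C + 1)) * m φ -
      C / (2 * C + 1) * m φ) = m (A z) * m φ := by
    field_simp
    ring
  rw [e5] at h4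
  refine h4.congr fun n => ?_
  rw [m_mul_wt hA hm' hφ]
  field_simp
  ring

/-- elementary averaging lemma. -/
theorem sum_small {δ : ℕ → ℝ} (h : Tendsto (fun n : ℕ => δ n / n) atTop (𝓝 0)) :
    Tendsto (fun J : ℕ => (∑ j ∈ Finset.range (J + 1), |δ j|) / (J : ℝ) ^ 2) atTop (𝓝 0) := by
  rw [Metric.tendsto_atTop]
  intro ε hε
  obtain ⟨N, hN⟩ := (Metric.tendsto_atTop.1 h) (ε / 8) (by positivity)
  set K : ℝ := ∑ j ∈ Finset.range (N + 1), |δ j| with hK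
  have hK0 : 0 ≤ K := Finset.sum_nonneg fun _ _ => abs_nonneg _
  have hb : ∀ j : ℕ, |δ j| ≤ ε / 8 * j + K := by
    intro j
    by_cases hj : N + 1 ≤ j
    · have h1 := hN j (by omega)
      rw [dist_zero_right, Real.norm_eq_abs, abs_div, Nat.abs_cast] at h1
      have hj1 : (0 : ℝ) < j := by
        have : 0 < j := by omega
        exact_mod_cast this
      rw [div_lt_iff₀ hj1] at h1
      linarith
    · have h1 : |δ j| ≤ K := Finset.single_le_sum (f := fun j => |δ j|)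
        (fun _ _ => abs_nonneg _) (Finset.mem_range.2 (by omega))
      have : (0 : ℝ) ≤ ε / 8 * j := by positivity
      linarith
  obtain ⟨M, hM⟩ := exists_nat_gt (8 * K / ε)
  refine ⟨M + 1, fun J hJ => ?_⟩
  have hJ1 : (1 : ℝ) ≤ J := by
    have : 1 ≤ J := by omega
    exact_mod_cast this
  have hJM : (M : ℝ) ≤ J := by
    have : M ≤ J := by omega
    exact_mod_cast this
  rw [dist_zero_right, Real.norm_eq_abs, abs_of_nonneg (div_nonneg
    (Finset.sum_nonneg fun _ _ => abs_nonneg _) (by positivity)), div_lt_iff₀ (by positivity)]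
  calc ∑ j ∈ Finset.range (J + 1), |δ j|
      ≤ ∑ j ∈ Finset.range (J + 1), (ε / 8 * J + K) := by
        refine Finset.sum_le_sum fun j hj => (hb j).trans ?_
        have : (j : ℝ) ≤ J := by exact_mod_cast Nat.lt_succ_iff.1 (Finset.mem_range.1 hj)
        have : ε / 8 * (j : ℝ) ≤ ε / 8 * J := mul_le_mul_of_nonneg_left this (by positivity)
        linarith
    _ = (J + 1) * (ε / 8 * J + K) := by
        rw [Finset.sum_const, Finset.card_range, nsmul_eq_mul]; push_cast; ring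
    _ < ε * J ^ 2 := by
        have h1 : K < ε / 8 * J := by
          have h2 : 8 * K / ε < J := lt_of_lt_of_le hM hJM
          rw [div_lt_iff₀ hε] at h2
          linarith
        nlinarith

theorem pow_sum (hA : Coc ρ 𝓐 A) (ha : Alg ρ 𝓐) (z : G) (J : ℕ) :
    A (z ^ J) = ∑ j ∈ Finset.range J, fun x => A z (ρ x (z ^ j)) := by
  induction J with
  | zero => ext x; rw [pow_zero, hA.one ha]; simp
  | succ J ih =>
    rw [Finset.sum_range_succ, ← ih]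
    ext x
    rw [pow_succ, hA.coc]
    rfl

/-- **Strong convergence**: over an extreme invariant mean the drift in direction `z` is constant. -/
theorem tendsto_strong (hA : Coc ρ 𝓐 A) (ha : Alg ρ 𝓐) (hm : IMean ρ 𝓐 m) (hE : Ext ρ 𝓐 m)
    {z : G} (hgen : Subgroup.closure {g | Near ρ A z g ∨ Near ρ A z⁻¹ g} = ⊤) :
    Tendsto (fun n : ℕ => nrm m (A (z ^ n)) ^ 2 / (n : ℝ) ^ 2) atTop (𝓝 (m (A z) ^ 2)) := by
  have hm' := hm.toPInv
  set a : ℝ := m (A z) with hadef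
  have hz := hA.mem z
  -- forward and backward correlations
  have hβ : Tendsto (fun n : ℕ => m (A z * A (z ^ n)) / n) atTop (𝓝 (a ^ 2)) := by
    have := tendsto_weak hA ha hm hE hgen hz
    rwa [← sq] at this
  have hγ : Tendsto (fun n : ℕ => m (A z * A (z ^ n)⁻¹) / n) atTop (𝓝 (-(a ^ 2))) := by
    have h1 := (hA.tendsto_forward_backward ha hm' z).const_mul (nrm m (A z))
    rw [mul_zero] at h1
    have h2 : Tendsto (fun n : ℕ => m (A z * (A (z ^ n) + A (z ^ n)⁻¹)) / n) atTop (𝓝 0) := by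
      rw [tendsto_zero_iff_abs_tendsto_zero]
      refine squeeze_zero (fun n => abs_nonneg _) (fun n => ?_) h1
      show |m (A z * (A (z ^ n) + A (z ^ n)⁻¹)) / n| ≤ _
      rw [abs_div, Nat.abs_cast, ← mul_div_assoc]
      exact div_le_div_of_nonneg_right (hm'.abs_le hz (add_mem (hA.mem _) (hA.mem _)))
        (Nat.cast_nonneg n)
    have h3 := h2.sub hβ
    rw [zero_sub] at h3
    refine h3.congr fun n => ?_
    rw [mul_add, hm'.add _ (mul_mem hz (hA.mem _)) _ (mul_mem hz (hA.mem _))]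
    ring
  set δ₁ : ℕ → ℝ := fun n => m (A z * A (z ^ n)) - a ^ 2 * n with hδ₁
  set δ₂ : ℕ → ℝ := fun n => m (A z * A (z ^ n)⁻¹) + a ^ 2 * n with hδ₂
  have hδ₁' : Tendsto (fun n : ℕ => δ₁ n / n) atTop (𝓝 0) := by
    have h1 := hβ.sub_const (a ^ 2)
    rw [sub_self] at h1
    refine h1.congr' ((eventually_ge_atTop 1).mono fun n hn => ?_)
    have : (n : ℝ) ≠ 0 := by positivity
    rw [hδ₁]
    field_simp
  have hδ₂' : Tendsto (fun n : ℕ => δ₂ n / n) atTop (𝓝 0) := by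
    have h1 := hγ.add_const (a ^ 2)
    rw [neg_add_cancel] at h1
    refine h1.congr' ((eventually_ge_atTop 1).mono fun n hn => ?_)
    have : (n : ℝ) ≠ 0 := by positivity
    rw [hδ₂]
    field_simp
  -- the double sum
  have hsum : ∀ J : ℕ, m (A (z ^ J) * A (z ^ J)) =
      ∑ j ∈ Finset.range J, (m (A z * A (z ^ (J - j))) - m (A z * A (z ^ j)⁻¹)) := by
    intro J
    have h1 : A (z ^ J) * A (z ^ J) =
        ∑ j ∈ Finset.range J, (fun x => A z (ρ x (z ^ j))) * A (z ^ J) := by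
      rw [← Finset.sum_mul, ← pow_sum hA ha]
    rw [h1, hm'.sum _ _ (fun j _ => mul_mem (ha.shift _ _ hz) (hA.mem _))]
    refine Finset.sum_congr rfl fun j hj => ?_
    have hj' : j ≤ J := (Finset.mem_range.1 hj).le
    rw [← hm'.inv (z ^ j)⁻¹ _ (mul_mem (ha.shift _ _ hz) (hA.mem _))]
    have h2 : (fun x => ((fun x => A z (ρ x (z ^ j))) * A (z ^ J)) (ρ x (z ^ j)⁻¹)) =
        A z * A (z ^ (J - j)) - A z * A (z ^ j)⁻¹ := by
      ext x
      simp only [Pi.mul_apply, Pi.sub_apply, ← ha.mul, inv_mul_cancel, ha.one]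
      have h3 : A (z ^ J) (ρ x (z ^ j)⁻¹) = - A (z ^ j)⁻¹ x + A (z ^ (J - j)) x := by
        have h4 : z ^ J = z ^ j * z ^ (J - j) := by rw [← pow_add]; congr 1; omega
        rw [h4, hA.coc, ← ha.mul, inv_mul_cancel, ha.one, hA.inv ha (z ^ j) x]
        ring
      rw [h3]
      ring
    rw [h2, hm'.sub (mul_mem hz (hA.mem _)) (mul_mem hz (hA.mem _))]
  have hb : ∀ J : ℕ, |m (A (z ^ J) * A (z ^ J)) - a ^ 2 * (J : ℝ) ^ 2| ≤
      ∑ j ∈ Finset.range (J + 1), |δ₁ j| + ∑ j ∈ Finset.range (J + 1), |δ₂ j| := by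
    intro J
    have h1 : m (A (z ^ J) * A (z ^ J)) - a ^ 2 * (J : ℝ) ^ 2 =
        ∑ j ∈ Finset.range J, (δ₁ (J - j) - δ₂ j) := by
      rw [hsum]
      have h2 : ∀ j ∈ Finset.range J, δ₁ (J - j) - δ₂ j =
          (m (A z * A (z ^ (J - j))) - m (A z * A (z ^ j)⁻¹)) - a ^ 2 * J := by
        intro j hj
        have hj' : j ≤ J := (Finset.mem_range.1 hj).le
        rw [hδ₁, hδ₂]
        show m (A z * A (z ^ (J - j))) - a ^ 2 * ((J - j : ℕ) : ℝ) -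
          (m (A z * A (z ^ j)⁻¹) + a ^ 2 * j) = _
        rw [Nat.cast_sub hj']
        ring
      rw [Finset.sum_congr rfl h2]
      have h5 : ∀ F : ℕ → ℝ, ∑ j ∈ Finset.range J, (F j - a ^ 2 * J) =
          ∑ j ∈ Finset.range J, F j - J * (a ^ 2 * J) := by
        intro F
        rw [Finset.sum_sub_distrib, Finset.sum_const, Finset.card_range, nsmul_eq_mul]
      rw [h5]
      ring
    rw [h1]
    refine (Finset.abs_sum_le_sum_abs _ _).trans ?_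
    have h3 : ∑ j ∈ Finset.range J, |δ₁ (J - j) - δ₂ j| ≤
        ∑ j ∈ Finset.range J, |δ₁ (J - j)| + ∑ j ∈ Finset.range J, |δ₂ j| := by
      rw [← Finset.sum_add_distrib]
      exact Finset.sum_le_sum fun j _ => abs_sub _ _
    refine h3.trans (add_le_add ?_ ?_)
    · have h4 : ∑ j ∈ Finset.range J, |δ₁ (J - j)| = ∑ j ∈ Finset.range J, |δ₁ (j + 1)| := by
        rw [← Finset.sum_range_reflect]
        refine Finset.sum_congr rfl fun j hj => ?_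
        have := Finset.mem_range.1 hj
        congr 2
        omega
      rw [h4, Finset.sum_range_succ' (fun j => |δ₁ j|) J]
      have := abs_nonneg (δ₁ 0)
      linarith
    · rw [Finset.sum_range_succ]
      have := abs_nonneg (δ₂ J)
      linarith
  have hT : Tendsto (fun J : ℕ => (∑ j ∈ Finset.range (J + 1), |δ₁ j|) / (J : ℝ) ^ 2 +
      (∑ j ∈ Finset.range (J + 1), |δ₂ j|) / (J : ℝ) ^ 2) atTop (𝓝 0) := by
    have := (sum_small hδ₁').add (sum_small hδ₂')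
    rwa [add_zero] at this
  have hT2 : Tendsto (fun J : ℕ => nrm m (A (z ^ J)) ^ 2 / (J : ℝ) ^ 2 - a ^ 2) atTop (𝓝 0) := by
    rw [tendsto_zero_iff_abs_tendsto_zero]
    refine squeeze_zero' (Filter.Eventually.of_forall fun n => abs_nonneg _) ?_ hT
    refine (eventually_ge_atTop 1).mono fun J hJ => ?_
    have hJ0 : (0 : ℝ) < (J : ℝ) ^ 2 := by positivity
    show |nrm m (A (z ^ J)) ^ 2 / (J : ℝ) ^ 2 - a ^ 2| ≤ _
    rw [hm'.nrm_sq (hA.mem _), ← add_div, le_div_iff₀ hJ0, ← abs_of_pos hJ0, ← abs_mul,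
      abs_of_pos hJ0]
    refine le_trans (le_of_eq ?_) (hb J)
    congr 1
    field_simp
  have := hT2.add_const (a ^ 2)
  rw [zero_add] at this
  refine this.congr fun n => ?_
  ring

/-- **Constant drift over an extreme invariant mean** (mean-square form). -/
theorem tendsto_drift (hA : Coc ρ 𝓐 A) (ha : Alg ρ 𝓐) (hm : IMean ρ 𝓐 m) (hE : Ext ρ 𝓐 m)
    {z : G} (hgen : Subgroup.closure {g | Near ρ A z g ∨ Near ρ A z⁻¹ g} = ⊤) :
    Tendsto (fun n : ℕ => m (fun x => (A (z ^ n) x / n - m (A z)) ^ 2)) atTop (𝓝 0) := by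
  have hm' := hm.toPInv
  have h1 := (tendsto_strong hA ha hm hE hgen).sub_const (m (A z) ^ 2)
  rw [sub_self] at h1
  refine h1.congr' ((eventually_ge_atTop 1).mono fun n hn => ?_)
  have hn0 : (n : ℝ) ≠ 0 := by positivity
  have h2 : (fun x => (A (z ^ n) x / n - m (A z)) ^ 2) =
      (1 / (n : ℝ) ^ 2) • (A (z ^ n) * A (z ^ n)) +
        ((-2 * m (A z) / n) • A (z ^ n) + (m (A z) ^ 2) • (1 : X → ℝ)) := by
    ext x
    simp only [Pi.add_apply, Pi.smul_apply, smul_eq_mul, Pi.mul_apply, Pi.one_apply]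
    field_simp
    ring
  have hs := hA.mem (z ^ n)
  show _ = m (fun x => (A (z ^ n) x / n - m (A z)) ^ 2)
  rw [h2, hm'.add _ (𝓐.smul_mem (mul_mem hs hs) _) _ (add_mem (𝓐.smul_mem hs _)
    (𝓐.smul_mem (one_mem 𝓐) _)), hm'.add _ (𝓐.smul_mem hs _) _ (𝓐.smul_mem (one_mem 𝓐) _),
    hm'.smul _ _ (mul_mem hs hs), hm'.smul _ _ hs, hm'.smul _ _ (one_mem 𝓐), hm.one,
    hA.mean_pow ha hm', hm'.nrm_sq hs]
  field_simp
  ring

end Weak

end Crest.Agent.R182.Erg
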