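/-
R182, module ERGUNIF (helper278): uniformity over all invariant means (compactness, Krein–Milman,
Dini) and passage to almost invariant functionals (Følner averages).
-/
import Mathlib
import Crest.Agent.R182.ErgCoc

set_option autoImplicit false
set_option linter.unusedSectionVars false

namespace Crest.Agent.R182.Erg

open Filter Topology

variable {G X : Type*} [Group G]

/-- the compact convex set of invariant means, as functions on `𝓐`. -/
def MSet (ρ : X → G → X) (𝓐 : Subalgebra ℝ (X → ℝ)) : Set (𝓐 → ℝ) :=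
  {μ | (∀ φ χ : 𝓐, μ (φ + χ) = μ φ + μ χ) ∧ (∀ (c : ℝ) (φ : 𝓐), μ (c • φ) = c * μ φ) ∧
    (∀ φ : 𝓐, (∀ x, 0 ≤ (φ : X → ℝ) x) → 0 ≤ μ φ) ∧
    (∀ (g : G) (φ χ : 𝓐), (∀ x, (χ : X → ℝ) x = (φ : X → ℝ) (ρ x g)) → μ χ = μ φ) ∧ μ 1 = 1}

open Classical in
/-- extension by zero. -/
noncomputable def ext' {𝓐 : Subalgebra ℝ (X → ℝ)} (μ : 𝓐 → ℝ) : (X → ℝ) → ℝ :=
  fun φ => if h : φ ∈ 𝓐 then μ ⟨φ, h⟩ else 0

theorem ext'_of_mem {𝓐 : Subalgebra ℝ (X → ℝ)} (μ : 𝓐 → ℝ) {φ : X → ℝ} (h : φ ∈ 𝓐) :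
    ext' μ φ = μ ⟨φ, h⟩ := by
  unfold ext'; rw [dif_pos h]

section

variable {ρ : X → G → X} {𝓐 : Subalgebra ℝ (X → ℝ)}

theorem IMean.of_mem (ha : Alg ρ 𝓐) {μ : 𝓐 → ℝ} (hμ : μ ∈ MSet ρ 𝓐) : IMean ρ 𝓐 (ext' μ) := by
  obtain ⟨h1, h2, h3, h4, h5⟩ := hμ
  refine ⟨⟨?_, ?_, ?_, ?_⟩, ?_⟩
  · intro φ hφ χ hχ
    rw [ext'_of_mem μ hφ, ext'_of_mem μ hχ, ext'_of_mem μ (add_mem hφ hχ)]
    exact h1 ⟨φ, hφ⟩ ⟨χ, hχ⟩
  · intro c φ hφ
    rw [ext'_of_mem μ hφ, ext'_of_mem μ (𝓐.smul_mem hφ c)]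
    exact h2 c ⟨φ, hφ⟩
  · intro φ hφ h0
    rw [ext'_of_mem μ hφ]
    exact h3 ⟨φ, hφ⟩ h0
  · intro g φ hφ
    rw [ext'_of_mem μ hφ, ext'_of_mem μ (ha.shift g φ hφ)]
    exact h4 g ⟨φ, hφ⟩ ⟨_, ha.shift g φ hφ⟩ fun x => rfl
  · rw [ext'_of_mem μ (one_mem 𝓐)]
    exact h5

theorem IMean.restrict_mem {m : (X → ℝ) → ℝ} (hm : IMean ρ 𝓐 m) :
    (fun φ : 𝓐 => m φ) ∈ MSet ρ 𝓐 := by
  refine ⟨fun φ χ => hm.add _ φ.2 _ χ.2, fun c φ => hm.smul c _ φ.2, fun φ h => hm.nonneg _ φ.2 h,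
    fun g φ χ h => ?_, hm.one⟩
  have h1 : (χ : X → ℝ) = fun x => (φ : X → ℝ) (ρ x g) := funext h
  show m χ = m φ
  rw [h1, hm.inv g _ φ.2]

theorem isClosed_MSet : IsClosed (MSet ρ 𝓐) := by
  have h1 : MSet ρ 𝓐 = (⋂ (φ : 𝓐) (χ : 𝓐), {μ | μ (φ + χ) = μ φ + μ χ}) ∩
      ((⋂ (c : ℝ) (φ : 𝓐), {μ | μ (c • φ) = c * μ φ}) ∩
      ((⋂ (φ : 𝓐) (_ : ∀ x, 0 ≤ (φ : X → ℝ) x), {μ | 0 ≤ μ φ}) ∩
      ((⋂ (g : G) (φ : 𝓐) (χ : 𝓐) (_ : ∀ x, (χ : X → ℝ) x = (φ : X → ℝ) (ρ x g)),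
        {μ | μ χ = μ φ}) ∩ {μ | μ 1 = 1}))) := by
    ext μ
    simp only [MSet, Set.mem_ofPred_eq, Set.mem_inter_iff, Set.mem_iInter]
  rw [h1]
  refine IsClosed.inter ?_ (IsClosed.inter ?_ (IsClosed.inter ?_ (IsClosed.inter ?_ ?_)))
  · exact isClosed_iInter fun φ => isClosed_iInter fun χ =>
      isClosed_eq (continuous_apply _) (by fun_prop)
  · exact isClosed_iInter fun c => isClosed_iInter fun φ =>
      isClosed_eq (continuous_apply _) (continuous_const.mul (continuous_apply _))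
  · exact isClosed_iInter fun φ => isClosed_iInter fun _ =>
      isClosed_le continuous_const (continuous_apply _)
  · exact isClosed_iInter fun g => isClosed_iInter fun φ => isClosed_iInter fun χ =>
      isClosed_iInter fun _ => isClosed_eq (continuous_apply _) (continuous_apply _)
  · exact isClosed_eq (continuous_apply _) continuous_const

theorem isCompact_MSet (ha : Alg ρ 𝓐) : IsCompact (MSet ρ 𝓐) := by
  choose C hC using ha.bdd
  refine (isCompact_univ_pi (s := fun φ : 𝓐 => Set.Icc (-(C φ.1 φ.2)) (C φ.1 φ.2))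
    fun φ => isCompact_Icc).of_isClosed_subset isClosed_MSet ?_
  intro μ hμ φ _
  have hm := IMean.of_mem ha hμ
  have h2 : μ φ = ext' μ φ := by rw [ext'_of_mem μ φ.2]
  rw [h2]
  constructor
  · rw [← hm.const (-(C φ.1 φ.2))]
    exact hm.toPInv.mono (const_mem 𝓐 _) φ.2 fun x => (abs_le.1 (hC φ.1 φ.2 x)).1
  · rw [← hm.const (C φ.1 φ.2)]
    exact hm.toPInv.mono φ.2 (const_mem 𝓐 _) fun x => (abs_le.1 (hC φ.1 φ.2 x)).2

/-- Extreme points of the set of invariant means are ergodic in the sense of `Ext`. -/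
theorem Ext.of_extreme (ha : Alg ρ 𝓐) {μ : 𝓐 → ℝ} (hμ : μ ∈ (MSet ρ 𝓐).extremePoints ℝ) :
    Ext ρ 𝓐 (ext' μ) := by
  rw [mem_extremePoints_iff_left] at hμ
  obtain ⟨hμM, hμE⟩ := hμ
  have hm := IMean.of_mem ha hμM
  intro m' hm' hle
  set t : ℝ := m' 1 with ht
  have ht0 : 0 ≤ t := hm'.nonneg 1 (one_mem 𝓐) fun _ => zero_le_one
  have ht1 : t ≤ 1 := by
    rw [← hm.one]
    exact hle 1 (one_mem 𝓐) fun _ => zero_le_one
  -- a positive functional with total mass `0` vanishes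
  have hzero : ∀ m₀ : (X → ℝ) → ℝ, PInv ρ 𝓐 m₀ → m₀ 1 = 0 → ∀ φ ∈ 𝓐, m₀ φ = 0 := by
    intro m₀ h0 h1 φ hφ
    obtain ⟨C, hC⟩ := ha.bdd φ hφ
    have hc : ∀ c : ℝ, m₀ (fun _ => c) = 0 := by
      intro c
      have h2 : (fun _ : X => c) = c • (1 : X → ℝ) := by ext x; simp
      rw [h2, h0.smul c 1 (one_mem 𝓐), h1, mul_zero]
    apply le_antisymm
    · rw [← hc C]
      exact h0.mono hφ (const_mem 𝓐 _) fun x => (abs_le.1 (hC x)).2
    · rw [← hc (-C)]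
      exact h0.mono (const_mem 𝓐 _) hφ fun x => (abs_le.1 (hC x)).1
  rcases eq_or_lt_of_le ht0 with h0 | h0
  · exact ⟨0, fun φ hφ => by rw [hzero m' hm' h0.symm φ hφ, zero_mul]⟩
  rcases eq_or_lt_of_le ht1 with h1 | h1
  · refine ⟨1, fun φ hφ => ?_⟩
    have hd : PInv ρ 𝓐 (fun φ => ext' μ φ - m' φ) := by
      refine ⟨?_, ?_, ?_, ?_⟩
      · intro φ hφ χ hχ
        show ext' μ (φ + χ) - m' (φ + χ) = _
        rw [hm.add φ hφ χ hχ, hm'.add φ hφ χ hχ]; ring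
      · intro c φ hφ
        show ext' μ (c • φ) - m' (c • φ) = _
        rw [hm.smul c φ hφ, hm'.smul c φ hφ]; ring
      · intro φ hφ h
        exact sub_nonneg.2 (hle φ hφ h)
      · intro g φ hφ
        show ext' μ (fun x => φ (ρ x g)) - m' (fun x => φ (ρ x g)) = _
        rw [hm.inv g φ hφ, hm'.inv g φ hφ]
    have h2 := hzero _ hd (by show ext' μ 1 - m' 1 = 0; rw [hm.one, ← ht, h1, sub_self]) φ hφ
    have h3 : ext' μ φ - m' φ = 0 := h2
    linarith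
  · -- the generic case
    have h1t : 0 < 1 - t := by linarith
    let μ₁ : 𝓐 → ℝ := fun φ => m' φ / t
    let μ₂ : 𝓐 → ℝ := fun φ => (ext' μ φ - m' φ) / (1 - t)
    have hμ₁ : μ₁ ∈ MSet ρ 𝓐 := by
      refine ⟨?_, ?_, ?_, ?_, ?_⟩
      · intro φ χ
        show m' (φ + χ) / t = m' φ / t + m' χ / t
        rw [hm'.add _ φ.2 _ χ.2]; ring
      · intro c φ
        show m' (c • (φ : X → ℝ)) / t = c * (m' φ / t)
        rw [hm'.smul c _ φ.2]; ring
      · intro φ h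
        exact div_nonneg (hm'.nonneg _ φ.2 h) ht0
      · intro g φ χ h
        have e : (χ : X → ℝ) = fun x => (φ : X → ℝ) (ρ x g) := funext h
        show m' χ / t = m' φ / t
        rw [e, hm'.inv g _ φ.2]
      · show m' 1 / t = 1
        rw [← ht, div_self h0.ne']
    have hμ₂ : μ₂ ∈ MSet ρ 𝓐 := by
      refine ⟨?_, ?_, ?_, ?_, ?_⟩
      · intro φ χ
        show (ext' μ (φ + χ) - m' (φ + χ)) / (1 - t) = (ext' μ φ - m' φ) / (1 - t) +
          (ext' μ χ - m' χ) / (1 - t)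
        rw [hm'.add _ φ.2 _ χ.2, hm.add _ φ.2 _ χ.2]; ring
      · intro c φ
        show (ext' μ (c • (φ : X → ℝ)) - m' (c • (φ : X → ℝ))) / (1 - t) =
          c * ((ext' μ φ - m' φ) / (1 - t))
        rw [hm'.smul c _ φ.2, hm.smul c _ φ.2]; ring
      · intro φ h
        exact div_nonneg (sub_nonneg.2 (hle _ φ.2 h)) h1t.le
      · intro g φ χ h
        have e : (χ : X → ℝ) = fun x => (φ : X → ℝ) (ρ x g) := funext h
        show (ext' μ χ - m' χ) / (1 - t) = (ext' μ φ - m' φ) / (1 - t)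
        rw [e, hm'.inv g _ φ.2, hm.inv g _ φ.2]
      · show (ext' μ 1 - m' 1) / (1 - t) = 1
        rw [hm.one, ← ht, div_self h1t.ne']
    have hseg : μ ∈ openSegment ℝ μ₁ μ₂ := by
      refine ⟨t, 1 - t, h0, h1t, by ring, ?_⟩
      ext φ
      show t * (m' φ / t) + (1 - t) * ((ext' μ φ - m' φ) / (1 - t)) = μ φ
      rw [mul_div_cancel₀ _ h0.ne', mul_div_cancel₀ _ h1t.ne', ext'_of_mem μ φ.2]
      ring
    have h2 := hμE μ₁ hμ₁ μ₂ hμ₂ hseg
    refine ⟨t, fun φ hφ => ?_⟩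
    have h3 := congrFun h2 ⟨φ, hφ⟩
    have h4 : m' φ / t = μ ⟨φ, hφ⟩ := h3
    rw [ext'_of_mem μ hφ, ← h4, mul_div_cancel₀ _ h0.ne']

/-- **Dini + Krein–Milman**: a decreasing sequence of elements of `𝓐` (in mean) whose means tend to
something `≤ 0` on every ergodic mean is uniformly small. -/
theorem dini (ha : Alg ρ 𝓐) (f : ℕ → X → ℝ) (hf : ∀ n, f n ∈ 𝓐)
    (hdec : ∀ m, IMean ρ 𝓐 m → ∀ n, m (f (n + 1)) ≤ m (f n))
    (hext : ∀ m, IMean ρ 𝓐 m → Ext ρ 𝓐 m → ∀ ε > 0, ∃ n, m (f n) ≤ ε) :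
    ∀ ε > 0, ∃ N, ∀ n ≥ N, ∀ m, IMean ρ 𝓐 m → m (f n) ≤ ε := by
  intro ε hε
  by_contra hcon
  push Not at hcon
  have hdec' : ∀ m, IMean ρ 𝓐 m → Antitone fun n => m (f n) := fun m hm =>
    antitone_nat_of_succ_le (hdec m hm)
  let F : ℕ → 𝓐 := fun n => ⟨f n, hf n⟩
  -- suprema
  have hne : (MSet ρ 𝓐).Nonempty := by
    obtain ⟨n, -, m, hm, -⟩ := hcon 0
    exact ⟨_, hm.restrict_mem⟩
  have hmax : ∀ n, ∃ μ ∈ MSet ρ 𝓐, ∀ ν ∈ MSet ρ 𝓐, ν (F n) ≤ μ (F n) := by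
    intro n
    obtain ⟨μ, hμ, h⟩ := (isCompact_MSet ha).exists_isMaxOn hne
      (continuous_apply (F n)).continuousOn
    exact ⟨μ, hμ, fun ν hν => h hν⟩
  choose μ hμ hμmax using hmax
  set s : ℕ → ℝ := fun n => μ n (F n) with hs
  have hdecM : ∀ ν ∈ MSet ρ 𝓐, Antitone fun n => ν (F n) := by
    intro ν hν i j hij
    have := hdec' _ (IMean.of_mem ha hν) hij
    simp only [ext'_of_mem ν (hf _)] at this
    exact this
  have hsanti : Antitone s := fun i j hij =>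
    (hdecM _ (hμ j) hij).trans (hμmax i _ (hμ j))
  have hsε : ∀ n, ε ≤ s n := by
    intro n
    obtain ⟨k, hk, m, hm, hlt⟩ := hcon n
    have h1 : m (f k) ≤ m (f n) := hdec' m hm hk
    exact (hlt.le.trans h1).trans (hμmax n _ hm.restrict_mem)
  have hbdd : BddBelow (Set.range s) := ⟨ε, by rintro _ ⟨n, rfl⟩; exact hsε n⟩
  set s₀ : ℝ := ⨅ n, s n with hs₀
  have hs₀ε : ε ≤ s₀ := le_ciInf hsε
  have htend : Tendsto s atTop (𝓝 s₀) := tendsto_atTop_ciInf hsanti hbdd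
  -- the face
  let K : ℕ → Set (𝓐 → ℝ) := fun n => MSet ρ 𝓐 ∩ {ν | s₀ ≤ ν (F n)}
  have hKcl : ∀ n, IsClosed (K n) := fun n =>
    isClosed_MSet.inter (isClosed_le continuous_const (continuous_apply _))
  have hKne : ∀ n, (K n).Nonempty := fun n => ⟨μ n, hμ n, ciInf_le hbdd n⟩
  have hKdec : ∀ n, K (n + 1) ⊆ K n := fun n ν hν =>
    ⟨hν.1, hν.2.trans (hdecM ν hν.1 (Nat.le_succ n))⟩
  have hfne : (⋂ n, K n).Nonempty :=
    IsCompact.nonempty_iInter_of_sequence_nonempty_isCompact_isClosed K hKdec hKne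
      ((isCompact_MSet ha).of_isClosed_subset (hKcl 0) Set.inter_subset_left) hKcl
  have hfcomp : IsCompact (⋂ n, K n) :=
    (isCompact_MSet ha).of_isClosed_subset (isClosed_iInter hKcl)
      (Set.iInter_subset_of_subset 0 Set.inter_subset_left)
  have hface : IsExtreme ℝ (MSet ρ 𝓐) (⋂ n, K n) := by
    refine ⟨Set.iInter_subset_of_subset 0 Set.inter_subset_left, ?_⟩
    intro ν₁ hν₁ ν₂ hν₂ ν hν hseg
    obtain ⟨a, b, ha0, hb0, hab, rfl⟩ := hseg
    rw [Set.mem_iInter]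
    intro i
    refine ⟨hν₁, ?_⟩
    show s₀ ≤ ν₁ (F i)
    by_contra hlt
    push Not at hlt
    have h1 : ∀ n ≥ i, s₀ ≤ a * ν₁ (F i) + b * s n := by
      intro n hn
      have h2 : s₀ ≤ (a • ν₁ + b • ν₂) (F n) := (Set.mem_iInter.1 hν n).2
      have h3 : (a • ν₁ + b • ν₂) (F n) = a * ν₁ (F n) + b * ν₂ (F n) := rfl
      rw [h3] at h2
      have h4 : ν₁ (F n) ≤ ν₁ (F i) := hdecM ν₁ hν₁ hn
      have h5 : ν₂ (F n) ≤ s n := hμmax n _ hν₂
      nlinarith [mul_le_mul_of_nonneg_left h4 ha0.le, mul_le_mul_of_nonneg_left h5 hb0.le]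
    have h2 : s₀ ≤ a * ν₁ (F i) + b * s₀ :=
      ge_of_tendsto ((htend.const_mul b).const_add (a * ν₁ (F i)))
        ((eventually_ge_atTop i).mono h1)
    have h3 : a * s₀ ≤ a * ν₁ (F i) := by
      have : s₀ = a * s₀ + b * s₀ := by rw [← add_mul, hab, one_mul]
      linarith
    exact absurd (le_of_mul_le_mul_left h3 ha0) (not_le.2 hlt)
  obtain ⟨ν, hν⟩ := hfcomp.extremePoints_nonempty hfne
  have hνM := hface.extremePoints_subset_extremePoints hν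
  have hν0 : ν ∈ ⋂ n, K n := extremePoints_subset hν
  obtain ⟨n, hn⟩ := hext _ (IMean.of_mem ha (extremePoints_subset hνM))
    (Ext.of_extreme ha hνM) (ε / 2) (by positivity)
  rw [ext'_of_mem ν (hf n)] at hn
  have h1 : s₀ ≤ ν (F n) := (Set.mem_iInter.1 hν0 n).2
  have h2 : ν (F n) ≤ ε / 2 := hn
  linarith

end

section Folner

variable {ρ : X → G → X} {𝓐 : Subalgebra ℝ (X → ℝ)}

/-- normalised positive linear functional on `𝓐`. -/
structure PMean (𝓐 : Subalgebra ℝ (X → ℝ)) (m : (X → ℝ) → ℝ) : Prop where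
  add : ∀ φ ∈ 𝓐, ∀ χ ∈ 𝓐, m (φ + χ) = m φ + m χ
  smul : ∀ c : ℝ, ∀ φ ∈ 𝓐, m (c • φ) = c * m φ
  nonneg : ∀ φ ∈ 𝓐, (∀ x, 0 ≤ φ x) → 0 ≤ m φ
  one : m 1 = 1

theorem PMean.abs_le {m : (X → ℝ) → ℝ} (hm : PMean 𝓐 m) {φ : X → ℝ} (hφ : φ ∈ 𝓐) {C : ℝ}
    (hC : ∀ x, |φ x| ≤ C) : |m φ| ≤ C := by
  have h1 : ∀ c : ℝ, m (c • (1 : X → ℝ)) = c := by
    intro c
    rw [hm.smul c 1 (one_mem 𝓐), hm.one, mul_one]
  have h2 : 0 ≤ m (C • (1 : X → ℝ) + (-1 : ℝ) • φ) :=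
    hm.nonneg _ (add_mem (𝓐.smul_mem (one_mem 𝓐) _) (𝓐.smul_mem hφ _)) fun x => by
      have := (_root_.abs_le.1 (hC x)).2
      simp only [Pi.add_apply, Pi.smul_apply, Pi.one_apply, smul_eq_mul, mul_one]
      linarith
  have h3 : 0 ≤ m (C • (1 : X → ℝ) + φ) :=
    hm.nonneg _ (add_mem (𝓐.smul_mem (one_mem 𝓐) _) hφ) fun x => by
      have := (_root_.abs_le.1 (hC x)).1
      simp only [Pi.add_apply, Pi.smul_apply, Pi.one_apply, smul_eq_mul, mul_one]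
      linarith
  rw [hm.add _ (𝓐.smul_mem (one_mem 𝓐) _) _ (𝓐.smul_mem hφ _), h1, hm.smul _ _ hφ] at h2
  rw [hm.add _ (𝓐.smul_mem (one_mem 𝓐) _) _ hφ, h1] at h3
  rw [_root_.abs_le]
  constructor <;> linarith

/-- **Transfer to almost invariant functionals**: if `f` has small mean for all invariant means then
its mean is small for all sufficiently invariant functionals. -/
theorem eventually_le (ha : Alg ρ 𝓐) {ι : Type*} (l : Filter ι) (μ : ι → (X → ℝ) → ℝ)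
    (hμ : ∀ i, PMean 𝓐 (μ i))
    (hinv : ∀ g, ∀ φ ∈ 𝓐, Tendsto (fun i => μ i (fun x => φ (ρ x g)) - μ i φ) l (𝓝 0))
    {f : X → ℝ} (hf : f ∈ 𝓐) {ε ε' : ℝ} (hεε : ε < ε') (h : ∀ m, IMean ρ 𝓐 m → m f ≤ ε) :
    ∀ᶠ i in l, μ i f ≤ ε' := by
  by_contra hcon
  have hfreq : ∃ᶠ i in l, ε' < μ i f := by
    rw [Filter.Frequently]
    intro h'
    exact hcon (h'.mono fun i hi => not_lt.1 hi)
  -- an ultrafilter
  have hne : (l ⊓ 𝓟 {i | ε' < μ i f}).NeBot := by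
    rw [← Filter.frequently_mem_iff_neBot]
    exact hfreq
  let U : Ultrafilter ι := @Ultrafilter.of ι (l ⊓ 𝓟 {i | ε' < μ i f}) hne
  have hU : (U : Filter ι) ≤ l ⊓ 𝓟 {i | ε' < μ i f} := @Ultrafilter.of_le ι _ hne
  have hUl : (U : Filter ι) ≤ l := hU.trans inf_le_left
  have hUf : ∀ᶠ i in (U : Filter ι), ε' < μ i f :=
    hU.trans inf_le_right (mem_principal_self _)
  have hlim : ∀ φ ∈ 𝓐, ∃ r, Tendsto (fun i => μ i φ) U (𝓝 r) := by
    intro φ hφ
    obtain ⟨C, hC⟩ := ha.bdd φ hφ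
    obtain ⟨r, -, hr⟩ := (isCompact_Icc (a := -C) (b := C)).ultrafilter_le_nhds
      (U.map fun i => μ i φ) (by
        rw [le_principal_iff]
        exact Filter.mem_map.2 (Filter.Eventually.of_forall fun i =>
          _root_.abs_le.1 ((hμ i).abs_le hφ hC)))
    exact ⟨r, hr⟩
  choose! L hL using hlim
  have hIM : IMean ρ 𝓐 L := by
    refine ⟨⟨?_, ?_, ?_, ?_⟩, ?_⟩
    · intro φ hφ χ hχ
      refine tendsto_nhds_unique (hL _ (add_mem hφ hχ)) ?_
      exact ((hL _ hφ).add (hL _ hχ)).congr fun i => ((hμ i).add φ hφ χ hχ).symm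
    · intro c φ hφ
      refine tendsto_nhds_unique (hL _ (𝓐.smul_mem hφ c)) ?_
      exact ((hL _ hφ).const_mul c).congr fun i => ((hμ i).smul c φ hφ).symm
    · intro φ hφ h0
      exact ge_of_tendsto (hL _ hφ) (Filter.Eventually.of_forall fun i => (hμ i).nonneg φ hφ h0)
    · intro g φ hφ
      have h1 := (hL _ (ha.shift g φ hφ)).sub (hL _ hφ)
      have h2 := tendsto_nhds_unique h1 ((hinv g φ hφ).mono_left hUl)
      linarith
    · refine tendsto_nhds_unique (hL 1 (one_mem 𝓐)) ?_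
      exact tendsto_const_nhds.congr fun i => ((hμ i).one).symm
  have h1 := h L hIM
  have h2 : ε' ≤ L f := ge_of_tendsto (hL f hf) (hUf.mono fun i hi => hi.le)
  linarith

end Folner

section Drift

variable {ρ : X → G → X} {𝓐 : Subalgebra ℝ (X → ℝ)} {k : ℕ}

/-- the normalised increment vector. -/
noncomputable def inc (A : Fin k → G → X → ℝ) (z : G) (n : ℕ) (x : X) : Fin k → ℝ :=
  fun i => A i (z ^ n) x / n

theorem inc_double {A : Fin k → G → X → ℝ} (hA : ∀ i, Coc ρ 𝓐 (A i)) (z : G) (n : ℕ) (x : X) :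
    inc A z (2 * n) x = (1 / 2 : ℝ) • inc A z n x + (1 / 2 : ℝ) • inc A z n (ρ x (z ^ n)) := by
  ext i
  simp only [inc, Pi.add_apply, Pi.smul_apply, smul_eq_mul]
  rw [two_mul, pow_add, (hA i).coc]
  rcases Nat.eq_zero_or_pos n with rfl | hn
  · simp
  · have : (n : ℝ) ≠ 0 := by positivity
    push_cast
    field_simp
    ring

/-- convexity: doubling the scale does not increase the mean of a convex function of the slope. -/
theorem convex_double (ha : Alg ρ 𝓐) {A : Fin k → G → X → ℝ} (hA : ∀ i, Coc ρ 𝓐 (A i)) (z : G)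
    {ψ : (Fin k → ℝ) → ℝ} (hψ : ConvexOn ℝ Set.univ ψ)
    (hmem : ∀ n, (fun x => ψ (inc A z n x)) ∈ 𝓐) {m : (X → ℝ) → ℝ} (hm : PInv ρ 𝓐 m) (n : ℕ) :
    m (fun x => ψ (inc A z (2 * n) x)) ≤ m (fun x => ψ (inc A z n x)) := by
  have h1 : ∀ x, ψ (inc A z (2 * n) x) ≤ ((1 / 2 : ℝ) • (fun x => ψ (inc A z n x)) +
      (1 / 2 : ℝ) • (fun x => ψ (inc A z n (ρ x (z ^ n))))) x := by
    intro x
    rw [inc_double hA]
    have := hψ.2 (Set.mem_univ (inc A z n x)) (Set.mem_univ (inc A z n (ρ x (z ^ n))))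
      (by norm_num : (0 : ℝ) ≤ 1 / 2) (by norm_num : (0 : ℝ) ≤ 1 / 2) (by norm_num)
    simpa using this
  have hs := ha.shift (z ^ n) _ (hmem n)
  refine (hm.mono (hmem _) (add_mem (𝓐.smul_mem (hmem n) _) (𝓐.smul_mem hs _)) h1).trans ?_
  rw [hm.add _ (𝓐.smul_mem (hmem n) _) _ (𝓐.smul_mem hs _), hm.smul _ _ (hmem n),
    hm.smul _ _ hs, hm.inv _ _ (hmem n)]
  linarith

/-- **Uniform drift**: if a convex Lipschitz function `ψ` of the drift vector is `≤ 0` for every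
ergodic mean then the means of `ψ (slope at scale 2 ^ j)` are uniformly small over all invariant
means. -/
theorem uniform_drift (ha : Alg ρ 𝓐) {A : Fin k → G → X → ℝ} (hA : ∀ i, Coc ρ 𝓐 (A i)) {z : G}
    (hgen : ∀ i, Subgroup.closure {g | Near ρ (A i) z g ∨ Near ρ (A i) z⁻¹ g} = ⊤)
    {ψ : (Fin k → ℝ) → ℝ} (hψ : ConvexOn ℝ Set.univ ψ) {C : ℝ}
    (hlip : ∀ u v, |ψ u - ψ v| ≤ C * ∑ i, |u i - v i|)
    (hmem : ∀ n, (fun x => ψ (inc A z n x)) ∈ 𝓐)
    (h0 : ∀ m, IMean ρ 𝓐 m → Ext ρ 𝓐 m → ψ (fun i => m (A i z)) ≤ 0) :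
    ∀ ε > 0, ∃ N, ∀ j ≥ N, ∀ m, IMean ρ 𝓐 m → m (fun x => ψ (inc A z (2 ^ j) x)) ≤ ε := by
  refine dini ha (fun j x => ψ (inc A z (2 ^ j) x)) (fun j => hmem _) ?_ ?_
  · intro m hm j
    show m (fun x => ψ (inc A z (2 ^ (j + 1)) x)) ≤ _
    rw [pow_succ']
    exact convex_double ha hA z hψ hmem hm.toPInv _
  · intro m hm hE ε hε
    have hm' := hm.toPInv
    -- `L²` convergence of each coordinate along `2 ^ j`
    have hpow : Tendsto (fun j : ℕ => 2 ^ j) atTop atTop := tendsto_pow_atTop_atTop_of_one_lt one_lt_two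
    have h1 : ∀ i, Tendsto (fun j : ℕ =>
        nrm m ((((2 ^ j : ℕ) : ℝ)⁻¹ • A i (z ^ 2 ^ j)) + (-(m (A i z))) • (1 : X → ℝ)))
        atTop (𝓝 0) := by
      intro i
      have h2 := ((tendsto_drift (hA i) ha hm hE (hgen i)).comp hpow).sqrt
      rw [Real.sqrt_zero] at h2
      refine h2.congr fun j => ?_
      show Real.sqrt (m fun x => (A i (z ^ 2 ^ j) x / ((2 ^ j : ℕ) : ℝ) - m (A i z)) ^ 2) = _
      rw [nrm]
      congr 2
      ext x
      simp only [Pi.add_apply, Pi.smul_apply, Pi.mul_apply, smul_eq_mul, Pi.one_apply]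
      ring
    have h2 : Tendsto (fun j : ℕ => |C| * ∑ i, nrm m ((((2 ^ j : ℕ) : ℝ)⁻¹ • A i (z ^ 2 ^ j)) +
        (-(m (A i z))) • (1 : X → ℝ))) atTop (𝓝 0) := by
      have := (tendsto_finsetSum Finset.univ fun i _ => h1 i).const_mul |C|
      simpa using this
    obtain ⟨j, hj⟩ := (h2.eventually (gt_mem_nhds hε)).exists
    refine ⟨j, le_trans ?_ hj.le⟩
    -- bound `m (ψ (inc)) ≤ ψ (drift) + C ∑ m |..|`; `m φ ≤ nrm φ`
    have hmn : ∀ φ ∈ 𝓐, m φ ≤ nrm m φ := by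
      intro φ hφ
      have h3 := (le_abs_self _).trans (hm'.abs_le hφ (one_mem 𝓐))
      rw [mul_one] at h3
      have h4 : nrm m (1 : X → ℝ) = 1 := by
        rw [nrm, one_mul, hm.one, Real.sqrt_one]
      rwa [h4, mul_one] at h3
    -- use the pointwise bound through squares
    set a : Fin k → ℝ := fun i => m (A i z) with hadef
    set φ : Fin k → X → ℝ := fun i => (((2 ^ j : ℕ) : ℝ)⁻¹ • A i (z ^ 2 ^ j)) +
        (-(m (A i z))) • (1 : X → ℝ) with hφdef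
    have hφ : ∀ i, φ i ∈ 𝓐 := fun i =>
      add_mem (𝓐.smul_mem ((hA i).mem _) _) (𝓐.smul_mem (one_mem 𝓐) _)
    have hφx : ∀ i x, φ i x = inc A z (2 ^ j) x i - a i := by
      intro i x
      simp only [hφdef, inc, Pi.add_apply, Pi.smul_apply, smul_eq_mul, Pi.one_apply, hadef]
      ring
    -- `|φ i x| ≤ (φ i x)² / (2 t) + t / 2`
    have hkey : ∀ t : Fin k → ℝ, (∀ i, 0 < t i) → m (fun x => ψ (inc A z (2 ^ j) x)) ≤
        |C| * ∑ i, (m (φ i * φ i) / (2 * t i) + t i / 2) := by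
      intro t ht
      have h5 : ∀ x, ψ (inc A z (2 ^ j) x) ≤
          (∑ i, ((|C| / (2 * t i)) • (φ i * φ i) + (|C| * t i / 2) • (1 : X → ℝ))) x := by
        intro x
        have h6 := hlip (inc A z (2 ^ j) x) a
        have h7 := h0 m hm hE
        have h8 : ψ (inc A z (2 ^ j) x) ≤ |C| * ∑ i, |φ i x| := by
          have h9 : C * ∑ i, |inc A z (2 ^ j) x i - a i| ≤
              |C| * ∑ i, |inc A z (2 ^ j) x i - a i| :=
            mul_le_mul_of_nonneg_right (le_abs_self C) (Finset.sum_nonneg fun _ _ => abs_nonneg _)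
          have h10 := (le_abs_self _).trans (h6.trans h9)
          simp only [hφx]
          linarith
        refine h8.trans ?_
        rw [Finset.sum_apply, Finset.mul_sum]
        refine Finset.sum_le_sum fun i _ => ?_
        simp only [Pi.add_apply, Pi.smul_apply, smul_eq_mul, Pi.mul_apply, Pi.one_apply, mul_one]
        have hti : 0 < t i := ht i
        have h11 : |φ i x| ≤ φ i x * φ i x / (2 * t i) + t i / 2 := by
          have h12 : 0 ≤ (|φ i x| - t i) ^ 2 := sq_nonneg _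
          have h13 : |φ i x| * |φ i x| = φ i x * φ i x := abs_mul_abs_self _
          rw [div_add_div _ _ (by positivity) (by norm_num), le_div_iff₀ (by positivity)]
          nlinarith
        calc |C| * |φ i x| ≤ |C| * (φ i x * φ i x / (2 * t i) + t i / 2) :=
              mul_le_mul_of_nonneg_left h11 (abs_nonneg C)
          _ = _ := by ring
      have hmem2 : ∀ i, ((|C| / (2 * t i)) • (φ i * φ i) + (|C| * t i / 2) • (1 : X → ℝ)) ∈ 𝓐 :=
        fun i => add_mem (𝓐.smul_mem (mul_mem (hφ i) (hφ i)) _) (𝓐.smul_mem (one_mem 𝓐) _)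
      refine (hm'.mono (hmem _) (sum_mem fun i _ => hmem2 i) h5).trans (le_of_eq ?_)
      rw [hm'.sum _ _ (fun i _ => hmem2 i), Finset.mul_sum]
      refine Finset.sum_congr rfl fun i _ => ?_
      rw [hm'.add _ (𝓐.smul_mem (mul_mem (hφ i) (hφ i)) _) _ (𝓐.smul_mem (one_mem 𝓐) _),
        hm'.smul _ _ (mul_mem (hφ i) (hφ i)), hm'.smul _ _ (one_mem 𝓐), hm.one]
      ring
    -- optimise `t`
    refine le_of_forall_pos_le_add fun η hη => ?_
    set D : ℝ := |C| * k + 1 with hD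
    have hD0 : 0 < D := by positivity
    have h6 := hkey (fun i => nrm m (φ i) + η / D) (fun i =>
      add_pos_of_nonneg_of_pos (PInv.nrm_nonneg _ _) (div_pos hη hD0))
    refine h6.trans ?_
    have h7 : ∀ i, m (φ i * φ i) / (2 * (nrm m (φ i) + η / D)) + (nrm m (φ i) + η / D) / 2 ≤
        nrm m (φ i) + η / D := by
      intro i
      have hn0 : 0 ≤ nrm m (φ i) := PInv.nrm_nonneg _ _
      have hpos : 0 < nrm m (φ i) + η / D := add_pos_of_nonneg_of_pos hn0 (div_pos hη hD0)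
      rw [← hm'.nrm_sq (hφ i)]
      have h8 : nrm m (φ i) ^ 2 / (2 * (nrm m (φ i) + η / D)) ≤ (nrm m (φ i) + η / D) / 2 := by
        rw [div_le_iff₀ (by positivity)]
        have : 0 ≤ η / D := (div_pos hη hD0).le
        nlinarith
      linarith
    calc |C| * ∑ i, (m (φ i * φ i) / (2 * (nrm m (φ i) + η / D)) + (nrm m (φ i) + η / D) / 2)
        ≤ |C| * ∑ i, (nrm m (φ i) + η / D) :=
          mul_le_mul_of_nonneg_left (Finset.sum_le_sum fun i _ => h7 i) (abs_nonneg C)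
      _ = |C| * ∑ i, nrm m (φ i) + |C| * k * (η / D) := by
          rw [Finset.sum_add_distrib, Finset.sum_const, Finset.card_univ, Fintype.card_fin,
            nsmul_eq_mul]
          ring
      _ ≤ |C| * ∑ i, nrm m (φ i) + η := by
          have : |C| * k * (η / D) ≤ η := by
            rw [mul_div_assoc', div_le_iff₀ hD0, hD]
            nlinarith [abs_nonneg C]
          linarith

end Drift

end Crest.Agent.R182.Erg
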