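/-
R182, module ERGDINI (helper278): Dini's theorem for finite maxima (convex functionals) over the set of
invariant means, a finitary transfer principle, and extension of means.
-/
import Mathlib
import Crest.Agent.R182.ErgUnif
import Crest.Agent.R189.Mean

set_option autoImplicit false
set_option linter.unusedSectionVars false

namespace Crest.Agent.R182.Erg

open Filter Topology

variable {G X : Type*} [Group G] {ρ : X → G → X} {𝓐 : Subalgebra ℝ (X → ℝ)}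

/-- **Dini + Krein–Milman for finite maxima.** -/
theorem dini_max (ha : Alg ρ 𝓐) {ι : Type*} (J : ℕ → Finset ι) (f : ℕ → ι → X → ℝ)
    (hf : ∀ n i, f n i ∈ 𝓐)
    (hdec : ∀ m, IMean ρ 𝓐 m → ∀ n, ∀ i ∈ J (n + 1), ∃ j ∈ J n, m (f (n + 1) i) ≤ m (f n j))
    (hext : ∀ m, IMean ρ 𝓐 m → Ext ρ 𝓐 m → ∀ ε > 0, ∃ n, ∀ i ∈ J n, m (f n i) ≤ ε) :
    ∀ ε > 0, ∃ N, ∀ n ≥ N, ∀ m, IMean ρ 𝓐 m → ∀ i ∈ J n, m (f n i) ≤ ε := by
  intro ε hε
  by_contra hcon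
  push Not at hcon
  let F : ℕ → ι → 𝓐 := fun n i => ⟨f n i, hf n i⟩
  have hcomp := isCompact_MSet (ρ := ρ) ha
  have hdecM1 : ∀ ν ∈ MSet ρ 𝓐, ∀ n, ∀ i ∈ J (n + 1), ∃ j ∈ J n, ν (F (n + 1) i) ≤ ν (F n j) := by
    intro ν hν n i hi
    obtain ⟨j, hj, h⟩ := hdec _ (IMean.of_mem ha hν) n i hi
    rw [ext'_of_mem ν (hf _ _), ext'_of_mem ν (hf _ _)] at h
    exact ⟨j, hj, h⟩
  have hdecM : ∀ ν ∈ MSet ρ 𝓐, ∀ n d, ∀ i ∈ J (n + d), ∃ j ∈ J n, ν (F (n + d) i) ≤ ν (F n j) := by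
    intro ν hν n d
    induction d with
    | zero => exact fun i hi => ⟨i, hi, le_rfl⟩
    | succ d ih =>
      intro i hi
      obtain ⟨j, hj, h⟩ := hdecM1 ν hν (n + d) i hi
      obtain ⟨l, hl, h'⟩ := ih j hj
      exact ⟨l, hl, h.trans h'⟩
  have hne : (MSet ρ 𝓐).Nonempty := by
    obtain ⟨n, -, m, hm, -⟩ := hcon 0
    exact ⟨_, hm.restrict_mem⟩
  have hJne : ∀ n, (J n).Nonempty := by
    intro n
    obtain ⟨k, hk, m, hm, i, hi, -⟩ := hcon n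
    obtain ⟨d, rfl⟩ := Nat.exists_eq_add_of_le hk
    obtain ⟨j, hj, -⟩ := hdecM _ hm.restrict_mem n d i hi
    exact ⟨j, hj⟩
  -- suprema
  have hmax0 : ∀ n i, ∃ μ ∈ MSet ρ 𝓐, ∀ ν ∈ MSet ρ 𝓐, ν (F n i) ≤ μ (F n i) := by
    intro n i
    obtain ⟨μ, hμ, h⟩ := hcomp.exists_isMaxOn hne (continuous_apply (F n i)).continuousOn
    exact ⟨μ, hμ, fun ν hν => h hν⟩
  choose μ hμ hμmax using hmax0
  have hmax : ∀ n, ∃ i ∈ J n, ∀ i' ∈ J n, μ n i' (F n i') ≤ μ n i (F n i) := fun n =>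
    (J n).exists_max_image (fun i => μ n i (F n i)) (hJne n)
  choose e he hemax using hmax
  set s : ℕ → ℝ := fun n => μ n (e n) (F n (e n)) with hs
  have hle : ∀ n, ∀ ν ∈ MSet ρ 𝓐, ∀ i ∈ J n, ν (F n i) ≤ s n := fun n ν hν i hi =>
    (hμmax n i ν hν).trans (hemax n i hi)
  have hsanti : Antitone s := by
    refine antitone_nat_of_succ_le fun n => ?_
    obtain ⟨j, hj, h⟩ := hdecM1 _ (hμ (n + 1) (e (n + 1))) n (e (n + 1)) (he (n + 1))
    exact h.trans (hle n _ (hμ _ _) j hj)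
  have hsε : ∀ n, ε ≤ s n := by
    intro n
    obtain ⟨k, hk, m, hm, i, hi, hlt⟩ := hcon n
    have h1 : m (f k i) ≤ s k := hle k _ hm.restrict_mem i hi
    exact (hlt.le.trans h1).trans (hsanti hk)
  have hbdd : BddBelow (Set.range s) := ⟨ε, by rintro _ ⟨n, rfl⟩; exact hsε n⟩
  set s₀ : ℝ := ⨅ n, s n with hs₀
  have hs₀ε : ε ≤ s₀ := le_ciInf hsε
  have htend : Tendsto s atTop (𝓝 s₀) := tendsto_atTop_ciInf hsanti hbdd
  -- the face
  let K : ℕ → Set (𝓐 → ℝ) := fun n => MSet ρ 𝓐 ∩ {ν | ∃ i ∈ J n, s₀ ≤ ν (F n i)}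
  have hKcl : ∀ n, IsClosed (K n) := by
    intro n
    refine isClosed_MSet.inter ?_
    have h1 : {ν : 𝓐 → ℝ | ∃ i ∈ J n, s₀ ≤ ν (F n i)} = ⋃ i ∈ J n, {ν | s₀ ≤ ν (F n i)} := by
      ext ν; simp
    rw [h1]
    exact isClosed_biUnion_finset fun i _ => isClosed_le continuous_const (continuous_apply _)
  have hKne : ∀ n, (K n).Nonempty := fun n => ⟨μ n (e n), hμ n _, e n, he n, ciInf_le hbdd n⟩
  have hKdec : ∀ n, K (n + 1) ⊆ K n := by
    rintro n ν ⟨hν1, i, hi, h⟩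
    obtain ⟨j, hj, h'⟩ := hdecM1 ν hν1 n i hi
    exact ⟨hν1, j, hj, h.trans h'⟩
  have hfne : (⋂ n, K n).Nonempty :=
    IsCompact.nonempty_iInter_of_sequence_nonempty_isCompact_isClosed K hKdec hKne
      (hcomp.of_isClosed_subset (hKcl 0) Set.inter_subset_left) hKcl
  have hfcomp : IsCompact (⋂ n, K n) :=
    hcomp.of_isClosed_subset (isClosed_iInter hKcl)
      (Set.iInter_subset_of_subset 0 Set.inter_subset_left)
  have hface : IsExtreme ℝ (MSet ρ 𝓐) (⋂ n, K n) := by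
    refine ⟨Set.iInter_subset_of_subset 0 Set.inter_subset_left, ?_⟩
    intro ν₁ hν₁ ν₂ hν₂ ν hν hseg
    obtain ⟨a, b, ha0, hb0, hab, rfl⟩ := hseg
    rw [Set.mem_iInter]
    intro i₀
    refine ⟨hν₁, ?_⟩
    by_contra hlt'
    have hlt : ¬ ∃ i ∈ J i₀, s₀ ≤ ν₁ (F i₀ i) := hlt'
    push Not at hlt
    obtain ⟨j₀, hj₀, hj₀max⟩ := (J i₀).exists_max_image (fun i => ν₁ (F i₀ i)) (hJne i₀)
    set c : ℝ := ν₁ (F i₀ j₀) with hc
    have hcs : c < s₀ := hlt j₀ hj₀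
    have h1 : ∀ n ≥ i₀, s₀ ≤ a * c + b * s n := by
      intro n hn
      obtain ⟨-, i, hi, h2⟩ := Set.mem_iInter.1 hν n
      have h3 : (a • ν₁ + b • ν₂) (F n i) = a * ν₁ (F n i) + b * ν₂ (F n i) := rfl
      rw [h3] at h2
      obtain ⟨d, rfl⟩ := Nat.exists_eq_add_of_le hn
      obtain ⟨j, hj, h4⟩ := hdecM ν₁ hν₁ i₀ d i hi
      have h5 : ν₁ (F (i₀ + d) i) ≤ c := h4.trans (hj₀max j hj)
      have h6 : ν₂ (F (i₀ + d) i) ≤ s (i₀ + d) := hle _ ν₂ hν₂ i hi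
      nlinarith [mul_le_mul_of_nonneg_left h5 ha0.le, mul_le_mul_of_nonneg_left h6 hb0.le]
    have h2 : s₀ ≤ a * c + b * s₀ :=
      ge_of_tendsto ((htend.const_mul b).const_add (a * c)) ((eventually_ge_atTop i₀).mono h1)
    have h3 : a * s₀ ≤ a * c := by
      have : s₀ = a * s₀ + b * s₀ := by rw [← add_mul, hab, one_mul]
      linarith
    exact absurd (le_of_mul_le_mul_left h3 ha0) (not_le.2 hcs)
  obtain ⟨ν, hν⟩ := hfcomp.extremePoints_nonempty hfne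
  have hνM := hface.extremePoints_subset_extremePoints hν
  have hν0 : ν ∈ ⋂ n, K n := extremePoints_subset hν
  obtain ⟨n, hn⟩ := hext _ (IMean.of_mem ha (extremePoints_subset hνM))
    (Ext.of_extreme ha hνM) (ε / 2) (by positivity)
  obtain ⟨-, i, hi, h1⟩ := Set.mem_iInter.1 hν0 n
  have h2 := hn i hi
  rw [ext'_of_mem ν (hf n i)] at h2
  have h3 : ν (F n i) ≤ ε / 2 := h2
  linarith

/-- **Finitary transfer**: if `f` has small mean for all invariant means then its mean is small for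
all positive functionals which are sufficiently invariant under a finite set. -/
theorem exists_finite_inv (ha : Alg ρ 𝓐) {f : X → ℝ} (hf : f ∈ 𝓐) {ε ε' : ℝ} (hεε : ε < ε')
    (h : ∀ m, IMean ρ 𝓐 m → m f ≤ ε) :
    ∃ (T : Finset G) (τ : ℝ), 0 < τ ∧ ∀ μ : (X → ℝ) → ℝ, PMean 𝓐 μ →
      (∀ g ∈ T, ∀ φ ∈ 𝓐, ∀ C : ℝ, (∀ x, |φ x| ≤ C) →
        |μ (fun x => φ (ρ x g)) - μ φ| ≤ τ * C) → μ f ≤ ε' := by
  classical
  by_contra hcon
  push Not at hcon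
  have hτ : ∀ n : ℕ, (0 : ℝ) < 1 / ((n : ℝ) + 1) := fun n => by positivity
  choose μ hμ hinv hgt using fun i : Finset G × ℕ => hcon i.1 (1 / ((i.2 : ℝ) + 1)) (hτ i.2)
  have h1 := eventually_le ha (atTop : Filter (Finset G × ℕ)) μ hμ (fun g φ hφ => by
    obtain ⟨C, hC⟩ := ha.bdd φ hφ
    have hC' : ∀ x, |φ x| ≤ |C| := fun x => (hC x).trans (le_abs_self C)
    rw [Metric.tendsto_nhds]
    intro δ hδ
    obtain ⟨n, hn⟩ := exists_nat_gt ((|C| + 1) / δ)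
    filter_upwards [eventually_ge_atTop (({g} : Finset G), n)] with i hi
    have hg : g ∈ i.1 := hi.1 (Finset.mem_singleton_self g)
    have hni : (n : ℝ) ≤ i.2 := by exact_mod_cast hi.2
    rw [Real.dist_eq, sub_zero]
    refine (hinv i g hg φ hφ |C| hC').trans_lt ?_
    rw [div_lt_iff₀ hδ] at hn
    rw [one_div, inv_mul_lt_iff₀ (by positivity)]
    have hpos : 0 ≤ |C| := abs_nonneg C
    nlinarith) hf hεε h
  obtain ⟨i, hi⟩ := h1.exists
  exact absurd hi (not_le.2 (hgt i))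

/-- a normalised positive functional extends to all bounded functions. -/
theorem exists_ext_mean (hbdd : ∀ φ ∈ 𝓐, ∃ C, ∀ x, |φ x| ≤ C) {m : (X → ℝ) → ℝ}
    (hm : PMean 𝓐 m) :
    ∃ M : (X → ℝ) → ℝ, R189.MeanF.IsMean M ∧ ∀ φ ∈ 𝓐, M φ = m φ := by
  classical
  let B : Submodule ℝ (X → ℝ) :=
    { carrier := {φ | ∃ C : ℝ, ∀ x, |φ x| ≤ C}
      add_mem' := by
        rintro a b ⟨C, hC⟩ ⟨D, hD⟩
        exact ⟨C + D, fun x => (abs_add_le _ _).trans (add_le_add (hC x) (hD x))⟩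
      zero_mem' := ⟨0, fun x => by simp⟩
      smul_mem' := by
        rintro c a ⟨C, hC⟩
        exact ⟨|c| * C, fun x => by
          simpa [abs_mul] using mul_le_mul_of_nonneg_left (hC x) (abs_nonneg c)⟩ }
  let s : PointedCone ℝ B := 
    { carrier := {φ | ∀ x, 0 ≤ (φ : X → ℝ) x}
      add_mem' := fun {a b} ha hb x => add_nonneg (ha x) (hb x)
      zero_mem' := fun x => le_rfl
      smul_mem' := fun c a ha x => mul_nonneg c.2 (ha x) }
  let D : Submodule ℝ B := (Subalgebra.toSubmodule 𝓐).comap B.subtype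
  let f : B →ₗ.[ℝ] ℝ :=
    { domain := D
      toFun :=
        { toFun := fun φ => m ((φ : B) : X → ℝ)
          map_add' := fun a b => hm.add _ a.2 _ b.2
          map_smul' := fun c a => hm.smul c _ a.2 } }
  obtain ⟨g, hg1, hg2⟩ := riesz_extension s f (fun x hx => hm.nonneg _ x.2 hx) (fun y => by
    obtain ⟨C, hC⟩ := y.2
    have hcB : (fun _ : X => C) ∈ B := ⟨|C|, fun _ => le_rfl⟩
    refine ⟨⟨⟨fun _ => C, hcB⟩, const_mem 𝓐 C⟩, fun x => ?_⟩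
    have := (abs_le.1 (hC x)).1
    show 0 ≤ C + (y : X → ℝ) x
    linarith)
  refine ⟨fun φ => if h : φ ∈ B then g ⟨φ, h⟩ else 0, ⟨?_, ?_, ?_, ?_⟩, ?_⟩
  · intro φ χ hφ hχ
    have h1 : φ ∈ B := hφ
    have h2 : χ ∈ B := hχ
    show dite _ _ _ = dite _ _ _ + dite _ _ _
    rw [dif_pos (B.add_mem h1 h2), dif_pos h1, dif_pos h2, ← map_add]
    rfl
  · intro c φ hφ
    have h1 : φ ∈ B := hφ
    show dite _ _ _ = c * dite _ _ _
    rw [dif_pos (B.smul_mem c h1), dif_pos h1, ← smul_eq_mul, ← map_smul]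
    rfl
  · intro φ hφ h0
    have h1 : φ ∈ B := hφ
    show 0 ≤ dite _ _ _
    rw [dif_pos h1]
    exact hg2 _ h0
  · have h1 : (fun _ : X => (1 : ℝ)) ∈ B := ⟨1, fun _ => by simp⟩
    show dite _ _ _ = _
    rw [dif_pos h1]
    have h2 := hg1 ⟨⟨fun _ => 1, h1⟩, const_mem 𝓐 1⟩
    rw [h2]
    exact hm.one
  · intro φ hφ
    have h1 : φ ∈ B := hbdd φ hφ
    show dite _ _ _ = _
    rw [dif_pos h1]
    exact hg1 ⟨⟨φ, h1⟩, hφ⟩

end Crest.Agent.R182.Erg
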