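import Mathlib
import Crest.Agent.R182.QIMap
import Crest.Agent.R182.ErgUnif

/-!
# Row 182, module MICRO: definitions (author: helper506)

`Om S K` = pairs `(F, E)` of mutually `K`-inverse `K`-quasi-isometries of `Γ` with `F 1 = 1`,
with the right action `w.q = (F(q)⁻¹ F(q ·), q⁻¹ E(F(q) ·))` of `Γ`.
-/

set_option autoImplicit false

namespace Crest.Agent.R182.Mic

open Crest.GroupTheory Crest.Geometry Crest.Agent.R182.QI

/-- the algebra of all bounded functions -/
def bddAlg (X : Type*) : Subalgebra ℝ (X → ℝ) where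
  carrier := {φ | ∃ C, ∀ x, |φ x| ≤ C}
  mul_mem' := by
    rintro a b ⟨C, hC⟩ ⟨D, hD⟩
    refine ⟨C * D, fun x => ?_⟩
    rw [Pi.mul_apply, abs_mul]
    exact mul_le_mul (hC x) (hD x) (abs_nonneg _) ((abs_nonneg _).trans (hC x))
  add_mem' := by
    rintro a b ⟨C, hC⟩ ⟨D, hD⟩
    exact ⟨C + D, fun x => (abs_add_le _ _).trans (add_le_add (hC x) (hD x))⟩
  algebraMap_mem' := fun r => ⟨|r|, fun x => le_of_eq (by simp)⟩

theorem mem_bddAlg {X : Type*} {φ : X → ℝ} : φ ∈ bddAlg X ↔ ∃ C, ∀ x, |φ x| ≤ C := Iff.rfl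

variable {Γ : Type*} [Group Γ]

/-- pairs of mutually inverse quasi-isometries -/
@[ext] structure Om (S : Set Γ) (K : ℕ) where
  F : Γ → Γ
  E : Γ → Γ
  F_one : F 1 = 1
  F_up : ∀ x y, nd S (F x) (F y) ≤ K * nd S x y + K
  E_up : ∀ x y, nd S (E x) (E y) ≤ K * nd S x y + K
  EF : ∀ x, nd S (E (F x)) x ≤ K
  FE : ∀ y, nd S (F (E y)) y ≤ K

namespace Om

variable {S : Set Γ} {K : ℕ}

/-- the right action: move the base point to `q` -/
def act (w : Om S K) (q : Γ) : Om S K where
  F x := (w.F q)⁻¹ * w.F (q * x)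
  E y := q⁻¹ * w.E (w.F q * y)
  F_one := by simp
  F_up x y := by simpa using w.F_up (q * x) (q * y)
  E_up x y := by simpa using w.E_up (w.F q * x) (w.F q * y)
  EF x := by
    have h := w.EF (q * x)
    have h2 : nd S (q⁻¹ * w.E (w.F q * ((w.F q)⁻¹ * w.F (q * x)))) x =
        nd S (w.E (w.F (q * x))) (q * x) := by
      rw [mul_inv_cancel_left, ← nd_mul_left q, mul_inv_cancel_left]
    rw [h2]; exact h
  FE y := by
    have h := w.FE (w.F q * y)
    have h2 : nd S ((w.F q)⁻¹ * w.F (q * (q⁻¹ * w.E (w.F q * y)))) y =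
        nd S (w.F (w.E (w.F q * y))) (w.F q * y) := by
      rw [mul_inv_cancel_left, ← nd_mul_left (w.F q), mul_inv_cancel_left]
    rw [h2]; exact h

@[simp] theorem act_F (w : Om S K) (q x : Γ) : (w.act q).F x = (w.F q)⁻¹ * w.F (q * x) := rfl
@[simp] theorem act_E (w : Om S K) (q y : Γ) : (w.act q).E y = q⁻¹ * w.E (w.F q * y) := rfl

theorem act_one (w : Om S K) : w.act 1 = w := by
  ext x <;> simp [w.F_one]

theorem act_mul (w : Om S K) (q r : Γ) : w.act (q * r) = (w.act q).act r := by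
  ext x
  · simp [mul_assoc]
  · simp [mul_assoc]

theorem F_len (w : Om S K) (x : Γ) : wordLength S (w.F x) ≤ K * wordLength S x + K := by
  have := w.F_up 1 x
  simpa [w.F_one] using this

theorem E_one_len (hS : Subgroup.closure S = ⊤) (w : Om S K) : wordLength S (w.E 1) ≤ K := by
  have := w.EF 1
  rw [w.F_one, nd_comm hS] at this
  simpa using this

theorem F_lo (hS : Subgroup.closure S = ⊤) (w : Om S K) (x y : Γ) :
    nd S x y ≤ K * nd S (w.F x) (w.F y) + 3 * K := by
  have h1 := w.E_up (w.F x) (w.F y)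
  have h2 := w.EF x
  have h3 := w.EF y
  have h4 := nd_triangle hS x (w.E (w.F x)) y
  have h5 := nd_triangle hS (w.E (w.F x)) (w.E (w.F y)) y
  rw [nd_comm hS x (w.E (w.F x))] at h4
  omega

theorem E_lo (hS : Subgroup.closure S = ⊤) (w : Om S K) (x y : Γ) :
    nd S x y ≤ K * nd S (w.E x) (w.E y) + 3 * K := by
  have h1 := w.F_up (w.E x) (w.E y)
  have h2 := w.FE x
  have h3 := w.FE y
  have h4 := nd_triangle hS x (w.F (w.E x)) y
  have h5 := nd_triangle hS (w.F (w.E x)) (w.F (w.E y)) y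
  rw [nd_comm hS x (w.F (w.E x))] at h4
  omega

/-- the flipped pair based at `y`; meaningful (a point of `Om`) when `E y = 1`. -/
def flip (w : Om S K) (y : Γ) (hy : w.E y = 1) : Om S K where
  F x := w.E (y * x)
  E x := y⁻¹ * w.F x
  F_one := by simpa using hy
  F_up a b := by simpa using w.E_up (y * a) (y * b)
  E_up a b := by simpa using w.F_up a b
  EF x := by
    have h := w.FE (y * x)
    show nd S (y⁻¹ * w.F (w.E (y * x))) x ≤ K
    rw [← nd_mul_left y, mul_inv_cancel_left]
    exact h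
  FE x := by
    have h := w.EF x
    show nd S (w.E (y * (y⁻¹ * w.F x))) x ≤ K
    rw [mul_inv_cancel_left]
    exact h

@[simp] theorem flip_F (w : Om S K) (y : Γ) (hy : w.E y = 1) (x : Γ) :
    (w.flip y hy).F x = w.E (y * x) := rfl
@[simp] theorem flip_E (w : Om S K) (y : Γ) (hy : w.E y = 1) (x : Γ) :
    (w.flip y hy).E x = y⁻¹ * w.F x := rfl

end Om

section alg

variable {S : Set Γ} {K : ℕ}

theorem alg_Om : Erg.Alg (Om.act (S := S) (K := K)) (bddAlg (Om S K)) where
  one := Om.act_one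
  mul := Om.act_mul
  bdd φ hφ := hφ
  shift g φ hφ := by
    obtain ⟨C, hC⟩ := hφ
    exact ⟨C, fun x => hC _⟩

/-- the height cocycle of a coordinate of a homomorphism `π : Γ → ℤ^k` -/
def hc {k : ℕ} (π : Γ →* Multiplicative (Fin k → ℤ)) (i : Fin k) (g : Γ) (w : Om S K) : ℝ :=
  ((Multiplicative.toAdd (π (w.F g)) i : ℤ) : ℝ)

theorem exists_hom_bound {S : Finset Γ} (hS : Subgroup.closure (S : Set Γ) = ⊤) {k : ℕ}
    (π : Γ →* Multiplicative (Fin k → ℤ)) :
    ∃ D : ℕ, ∀ (g : Γ) (i : Fin k), |((Multiplicative.toAdd (π g) i : ℤ) : ℝ)| ≤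
      D * wordLength (S : Set Γ) g := by
  classical
  refine ⟨∑ s ∈ S, ∑ i, (Multiplicative.toAdd (π s) i).natAbs, fun g i => ?_⟩
  set D := ∑ s ∈ S, ∑ i, (Multiplicative.toAdd (π s) i).natAbs with hD
  have hs : ∀ s ∈ S, (|Multiplicative.toAdd (π s) i| : ℤ) ≤ D := by
    intro s hs
    have h1 : (Multiplicative.toAdd (π s) i).natAbs ≤ ∑ i, (Multiplicative.toAdd (π s) i).natAbs :=
      Finset.single_le_sum (f := fun i => (Multiplicative.toAdd (π s) i).natAbs)
        (fun _ _ => Nat.zero_le _) (Finset.mem_univ i)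
    have h2 : (∑ i, (Multiplicative.toAdd (π s) i).natAbs) ≤ D :=
      Finset.single_le_sum (f := fun s => ∑ i, (Multiplicative.toAdd (π s) i).natAbs)
        (fun _ _ => Nat.zero_le _) hs
    have h3 := h1.trans h2
    rw [Int.abs_eq_natAbs]
    exact_mod_cast h3
  have key : ∀ l : List Γ, IsWord (S : Set Γ) l →
      (|Multiplicative.toAdd (π l.prod) i| : ℤ) ≤ D * l.length := by
    intro l
    induction l with
    | nil => intro _; simp
    | cons a l ih =>
      intro hl
      rw [isWord_cons] at hl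
      have h1 := ih hl.2
      have h5 : (|Multiplicative.toAdd (π a) i| : ℤ) ≤ D := by
        rcases hl.1 with hs' | hs'
        · exact hs a hs'
        · have := hs _ hs'
          simpa using this
      rw [List.prod_cons, map_mul, toAdd_mul, Pi.add_apply, List.length_cons]
      push_cast
      have := abs_add_le (Multiplicative.toAdd (π a) i) (Multiplicative.toAdd (π l.prod) i)
      linarith
  obtain ⟨l, hlen, hl, hlg⟩ := wordLength_spec hS g
  have h6 := key l hl
  rw [hlg] at h6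
  rw [← hlen]
  exact_mod_cast h6

theorem coc_hc {S : Finset Γ} (hS : Subgroup.closure (S : Set Γ) = ⊤) {K k : ℕ}
    (π : Γ →* Multiplicative (Fin k → ℤ)) (i : Fin k) :
    Erg.Coc (Om.act (S := (S : Set Γ)) (K := K)) (bddAlg (Om (S : Set Γ) K)) (hc π i) where
  mem g := by
    obtain ⟨D, hD⟩ := exists_hom_bound hS π
    refine ⟨D * (K * wordLength (S : Set Γ) g + K), fun w => (hD _ i).trans ?_⟩
    have := w.F_len g
    have h2 : (wordLength (S : Set Γ) (w.F g) : ℝ) ≤ K * wordLength (S : Set Γ) g + K := by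
      exact_mod_cast this
    gcongr
  coc g h w := by
    simp only [hc, Om.act_F, map_mul, map_inv, toAdd_mul, toAdd_inv, Pi.add_apply, Pi.neg_apply]
    push_cast
    ring

end alg

end Crest.Agent.R182.Mic
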