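/-
R182, module ERGLIP (helper278): from the law for extreme invariant means on pairs of quasi-isometries
to the one-sided Lipschitz bound for all sufficiently invariant averages (finitary form).
-/
import Mathlib
import Crest.Agent.R182.ErgDini
import Crest.Agent.R182.MicDefs
import Crest.Agent.R182.QIAmen
import Crest.Agent.R182.FinRed

set_option autoImplicit false
set_option linter.unusedSectionVars false

namespace Crest.Agent.R182.Erg

open Filter Topology Crest.GroupTheory Crest.Geometry Crest.Agent.R182.QI Crest.Agent.R182.Mic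
  Crest.Agent.R182.FinRed Crest.Agent.R182.FinPath Crest.Agent.R189.MeanF

variable {Γ : Type*} [Group Γ]

section XFdef

variable {S : Set Γ} {K : ℕ}

/-- normalised self-quasi-isometries -/
@[ext] structure XF (S : Set Γ) (K : ℕ) where
  F : Γ → Γ
  F_one : F 1 = 1
  qi : QIMap S S F K

/-- the right action -/
def XF.act (w : XF S K) (q : Γ) : XF S K where
  F x := (w.F q)⁻¹ * w.F (q * x)
  F_one := by simp
  qi := (w.qi.compMulLeft q).mulLeft _

@[simp] theorem XF.act_F (w : XF S K) (q x : Γ) : (w.act q).F x = (w.F q)⁻¹ * w.F (q * x) := rfl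

theorem XF.act_one (w : XF S K) : w.act 1 = w := by
  ext x; simp [w.F_one]

theorem XF.act_mul (w : XF S K) (q r : Γ) : w.act (q * r) = (w.act q).act r := by
  ext x; simp [mul_assoc]

/-- bounded functions of finitely many values -/
def cyl (S : Set Γ) (K : ℕ) : Subalgebra ℝ (XF S K → ℝ) where
  carrier := {φ | (∃ C : ℝ, ∀ x, |φ x| ≤ C) ∧
    ∃ J : Finset Γ, ∀ F F' : XF S K, (∀ j ∈ J, F.F j = F'.F j) → φ F = φ F'}
  mul_mem' := by
    classical
    rintro a b ⟨⟨C, hC⟩, J, hJ⟩ ⟨⟨D, hD⟩, J', hJ'⟩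
    refine ⟨⟨C * D, fun x => ?_⟩, J ∪ J', fun F F' h => ?_⟩
    · rw [Pi.mul_apply, abs_mul]
      exact mul_le_mul (hC x) (hD x) (abs_nonneg _) ((abs_nonneg _).trans (hC x))
    · rw [Pi.mul_apply, Pi.mul_apply, hJ F F' fun j hj => h j (Finset.mem_union_left _ hj),
        hJ' F F' fun j hj => h j (Finset.mem_union_right _ hj)]
  add_mem' := by
    classical
    rintro a b ⟨⟨C, hC⟩, J, hJ⟩ ⟨⟨D, hD⟩, J', hJ'⟩
    refine ⟨⟨C + D, fun x => (abs_add_le _ _).trans (add_le_add (hC x) (hD x))⟩,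
      J ∪ J', fun F F' h => ?_⟩
    rw [Pi.add_apply, Pi.add_apply, hJ F F' fun j hj => h j (Finset.mem_union_left _ hj),
        hJ' F F' fun j hj => h j (Finset.mem_union_right _ hj)]
  algebraMap_mem' := fun r => ⟨⟨|r|, fun x => le_of_eq (by simp)⟩, ∅, fun F F' _ => by simp⟩

theorem mem_cyl {φ : XF S K → ℝ} : φ ∈ cyl S K ↔ (∃ C : ℝ, ∀ x, |φ x| ≤ C) ∧
    ∃ J : Finset Γ, ∀ F F' : XF S K, (∀ j ∈ J, F.F j = F'.F j) → φ F = φ F' := Iff.rfl

theorem alg_cyl : Alg (XF.act (S := S) (K := K)) (cyl S K) where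
  one := XF.act_one
  mul := XF.act_mul
  bdd φ hφ := hφ.1
  shift g φ hφ := by
    classical
    obtain ⟨⟨C, hC⟩, J, hJ⟩ := hφ
    refine ⟨⟨C, fun x => hC _⟩, insert g (J.image (g * ·)), fun F F' h => ?_⟩
    refine hJ _ _ fun j hj => ?_
    rw [XF.act_F, XF.act_F, h g (Finset.mem_insert_self _ _),
      h (g * j) (Finset.mem_insert_of_mem (Finset.mem_image_of_mem _ hj))]

theorem cyl_eval (x : Γ) (u : Γ → ℝ) (hu : ∃ C : ℝ, ∀ F : XF S K, |u (F.F x)| ≤ C) :
    (fun F : XF S K => u (F.F x)) ∈ cyl S K :=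
  ⟨hu, {x}, fun _ _ h => congrArg u (h x (Finset.mem_singleton_self x))⟩

theorem XF.F_len (w : XF S K) (x : Γ) : wordLength S (w.F x) ≤ K * wordLength S x + K := by
  have := w.qi.up 1 x
  simpa [w.F_one] using this

/-- a normalised quasi-isometry is part of a pair. -/
theorem XF.exists_om (hS : Subgroup.closure S = ⊤) (w : XF S K) :
    ∃ v : Om S (2 * K * K + 2 * K), v.F = w.F := by
  have h := w.qi
  choose E hE using h.dense
  have hE' : ∀ p, nd S (w.F (E p)) p ≤ K := fun p => by rw [nd_comm hS]; exact hE p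
  have hEF : ∀ x, nd S (E (w.F x)) x ≤ K * K + K := fun x =>
    (h.lo _ _).trans (by have := hE' (w.F x); gcongr)
  refine ⟨⟨w.F, E, w.F_one, fun x y => (h.up x y).trans ?_, fun p q => ?_, fun x => ?_,
    fun y => ?_⟩, rfl⟩
  · have : K * nd S x y ≤ (2 * K * K + 2 * K) * nd S x y := Nat.mul_le_mul_right _ (by nlinarith)
    nlinarith
  · have h1 := h.lo (E p) (E q)
    have h2 : nd S (w.F (E p)) (w.F (E q)) ≤ nd S p q + 2 * K := by
      have a1 := nd_triangle hS (w.F (E p)) p (w.F (E q))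
      have a2 := nd_triangle hS p q (w.F (E q))
      have a3 := hE q
      have a4 := hE' p
      omega
    calc nd S (E p) (E q) ≤ K * (nd S p q + 2 * K) + K := h1.trans (by gcongr)
      _ = K * nd S p q + (2 * K * K + K) := by ring
      _ ≤ (2 * K * K + 2 * K) * nd S p q + (2 * K * K + 2 * K) := by
        have : K * nd S p q ≤ (2 * K * K + 2 * K) * nd S p q :=
          Nat.mul_le_mul_right _ (by nlinarith)
        nlinarith
  · exact (hEF x).trans (by nlinarith)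
  · exact (hE' y).trans (by nlinarith)

/-- **Lifting of invariant means** from the cylinder algebra on quasi-isometries to all bounded
functions on pairs. -/
theorem exists_lift (hS : Subgroup.closure S = ⊤) (hΓ : Amen Γ) {m0 : (XF S K → ℝ) → ℝ}
    (hm0 : IMean XF.act (cyl S K) m0) :
    ∃ m : (Om S (2 * K * K + 2 * K) → ℝ) → ℝ, IMean Om.act (bddAlg _) m ∧
      ∀ (x : Γ) (u : Γ → ℝ), (∃ C : ℝ, ∀ F : XF S K, |u (F.F x)| ≤ C) →
        m (fun w => u (w.F x)) = m0 (fun F => u (F.F x)) := by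
  obtain ⟨M, hM, hMeq⟩ := exists_ext_mean (𝓐 := cyl S K) (fun φ hφ => hφ.1) (m := m0)
    ⟨hm0.add, hm0.smul, hm0.nonneg, hm0.one⟩
  obtain ⟨μ, hμ, -, hμR⟩ := hΓ.biinv
  choose σ hσ using fun w : XF S K => w.exists_om hS
  have hsh : ∀ γ : Γ, IsMean (fun φ : Om S (2 * K * K + 2 * K) → ℝ =>
      M (fun w => φ ((σ w).act γ))) := fun γ => hM.map fun w => (σ w).act γ
  have hbind := hμ.bind (n := fun γ φ => M (fun w => φ ((σ w).act γ))) hsh
  refine ⟨fun φ => μ (fun γ => M (fun w => φ ((σ w).act γ))), ⟨⟨?_, ?_, ?_, ?_⟩, ?_⟩, ?_⟩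
  · exact fun φ hφ χ hχ => hbind.add φ χ hφ hχ
  · exact fun c φ hφ => hbind.smul c φ hφ
  · exact fun φ hφ h => hbind.nonneg φ hφ h
  · intro g φ hφ
    have h1 : (fun γ : Γ => M (fun w => φ (((σ w).act γ).act g))) =
        fun γ => (fun γ' => M (fun w => φ ((σ w).act γ'))) (γ * g) := by
      funext γ
      simp only [Om.act_mul]
    show μ (fun γ : Γ => M (fun w => φ (((σ w).act γ).act g))) = _
    rw [h1]
    exact hμR g _ (IsMean.bdd_bind hsh hφ)
  · exact hbind.one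
  · intro x u hu
    have h1 : ∀ γ : Γ, M (fun w => u (((σ w).act γ).F x)) = m0 (fun F => u (F.F x)) := by
      intro γ
      have h2 : (fun w : XF S K => u (((σ w).act γ).F x)) = fun w => u ((w.act γ).F x) := by
        funext w
        rw [Om.act_F, XF.act_F, hσ w]
      rw [h2]
      have h3 := cyl_eval (K := K) x u hu
      have h4 := alg_cyl.shift γ _ h3
      rw [hMeq _ h4]
      exact hm0.inv γ _ h3
    show μ (fun γ => M (fun w => u (((σ w).act γ).F x))) = _
    simp only [h1]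
    exact hμ.const _

end XFdef

section Main

variable {S : Finset Γ} {k : ℕ} {π : Γ →* Multiplicative (Fin k → ℤ)}
  {N : Seminorm ℝ (Fin k → ℝ)}

/-- The law for extreme invariant means (output of the module MICRO). -/
def MicOut (S : Set Γ) (π : Γ →* Multiplicative (Fin k → ℤ)) (N : Seminorm ℝ (Fin k → ℝ)) :
    Prop :=
  ∀ (K : ℕ) (m : (Om S K → ℝ) → ℝ), IMean Om.act (bddAlg (Om S K)) m →
    Ext Om.act (bddAlg (Om S K)) m →
    ∃ L : (Fin k → ℝ) →ₗ[ℝ] (Fin k → ℝ), (∀ v, N (L v) = N v) ∧ ∀ ε > 0, ∃ C : ℝ,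
      ∀ (x : Γ) (i : Fin k), m (fun w => |hc π i x w - L (hgtR π x) i|) ≤
        ε * wordLength S x + C

theorem seminorm_le (N : Seminorm ℝ (Fin k → ℝ)) (u : Fin k → ℝ) :
    N u ≤ ∑ i, |u i| * N (Pi.single i 1) := by
  have h1 : u = ∑ i, u i • (Pi.single i (1 : ℝ) : Fin k → ℝ) := by
    ext j
    simp [Finset.sum_apply, Pi.single_apply]
  calc N u = N (∑ i, u i • (Pi.single i (1 : ℝ) : Fin k → ℝ)) := by rw [← h1]
    _ ≤ ∑ i, N (u i • (Pi.single i (1 : ℝ) : Fin k → ℝ)) :=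
        Finset.le_sum_of_subadditive N (map_zero N).le (map_add_le_add N) _ _
    _ = ∑ i, |u i| * N (Pi.single i 1) := by
        refine Finset.sum_congr rfl fun i _ => ?_
        rw [map_smul_eq_mul, Real.norm_eq_abs]

/-- excess of the height along the word `l` -/
noncomputable def exc (π : Γ →* Multiplicative (Fin k → ℤ)) (N : Seminorm ℝ (Fin k → ℝ)) (c : ℝ)
    (x : Γ) : ℝ := max (N (hgtR π x) - c) 0

theorem exc_nonneg (c : ℝ) (x : Γ) : 0 ≤ exc π N c x := le_max_right _ _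

theorem hgtR_mul' (g y : Γ) : hgtR π (g * y) = hgtR π g + hgtR π y := by
  funext i; simp [hgtR, hgt_mul]

theorem exc_mul (c d : ℝ) (x y : Γ) : exc π N (c + d) (x * y) ≤ exc π N c x + exc π N d y := by
  have h1 : N (hgtR π (x * y)) ≤ N (hgtR π x) + N (hgtR π y) := by
    rw [hgtR_mul']; exact map_add_le_add N _ _
  refine max_le ?_ (add_nonneg (exc_nonneg _ _) (exc_nonneg _ _))
  have h2 : N (hgtR π x) - c ≤ exc π N c x := le_max_left _ _
  have h3 : N (hgtR π y) - d ≤ exc π N d y := le_max_left _ _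
  linarith

theorem exists_N_bound (hS : Subgroup.closure (S : Set Γ) = ⊤)
    (π : Γ →* Multiplicative (Fin k → ℤ)) (N : Seminorm ℝ (Fin k → ℝ)) :
    ∃ D : ℝ, 0 ≤ D ∧ ∀ g : Γ, N (hgtR π g) ≤ D * wordLength (S : Set Γ) g := by
  obtain ⟨D, hD⟩ := exists_hom_bound hS π
  refine ⟨∑ i : Fin k, D * N (Pi.single i 1), Finset.sum_nonneg fun i _ =>
    mul_nonneg (Nat.cast_nonneg _) (apply_nonneg _ _), fun g => ?_⟩
  refine (seminorm_le N _).trans ?_
  rw [Finset.sum_mul]
  refine Finset.sum_le_sum fun i _ => ?_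
  have h1 : |hgtR π g i| ≤ D * wordLength (S : Set Γ) g := hD g i
  have h2 : 0 ≤ N (Pi.single i (1 : ℝ) : Fin k → ℝ) := apply_nonneg _ _
  nlinarith [mul_le_mul_of_nonneg_right h1 h2]

theorem exc_le (c : ℝ) (x : Γ) : exc π N c x ≤ N (hgtR π x) + |c| := by
  refine max_le ?_ (add_nonneg (apply_nonneg _ _) (abs_nonneg _))
  have := neg_abs_le c
  linarith

theorem exists_exc_bound (hS : Subgroup.closure (S : Set Γ) = ⊤)
    (π : Γ →* Multiplicative (Fin k → ℤ)) (N : Seminorm ℝ (Fin k → ℝ)) (K : ℕ) (c : ℝ) (x : Γ) :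
    ∃ C : ℝ, ∀ F : XF (S : Set Γ) K, |exc π N c (F.F x)| ≤ C := by
  obtain ⟨D, hD0, hD⟩ := exists_N_bound hS π N
  refine ⟨D * (K * wordLength (S : Set Γ) x + K) + |c|, fun F => ?_⟩
  rw [abs_of_nonneg (exc_nonneg c _)]
  refine (exc_le c _).trans (add_le_add_left ((hD _).trans ?_) _)
  have h1 : (wordLength (S : Set Γ) (F.F x) : ℝ) ≤ K * wordLength (S : Set Γ) x + K := by
    exact_mod_cast F.F_len x
  exact mul_le_mul_of_nonneg_left h1 hD0

open Classical in
open scoped Pointwise in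
/-- the law for the means on pairs -/
theorem lip_om (hS : Subgroup.closure (S : Set Γ) = ⊤) (hmic : MicOut (S : Set Γ) π N) (K : ℕ)
    (𝒮 : Finset Γ) (ℓ : ℝ) (h𝒮 : ∀ s ∈ 𝒮, N (hgtR π s) ≤ ℓ) {ε : ℝ} (hε : 0 < ε) :
    ∃ n0 : ℕ, ∀ n ≥ n0, ∀ m : (Om (S : Set Γ) K → ℝ) → ℝ, IMean Om.act (bddAlg _) m →
      ∀ l : List Γ, l.length = n → (∀ s ∈ l, s ∈ 𝒮) →
        m (fun w => exc π N (n * ℓ) (w.F l.prod)) ≤ ε * n := by
  obtain ⟨D, hD0, hD⟩ := exists_N_bound hS π N
  have ha := alg_Om (S := (S : Set Γ)) (K := K)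
  -- bounded functions
  have hbd : ∀ (c : ℝ) (x : Γ) (w : Om (S : Set Γ) K),
      exc π N c (w.F x) ≤ D * (K * wordLength (S : Set Γ) x + K) + |c| := by
    intro c x w
    refine (exc_le c _).trans (add_le_add_left ((hD _).trans ?_) _)
    have h1 : (wordLength (S : Set Γ) (w.F x) : ℝ) ≤ K * wordLength (S : Set Γ) x + K := by
      exact_mod_cast w.F_len x
    exact mul_le_mul_of_nonneg_left h1 hD0
  have hmem : ∀ (c : ℝ) (x : Γ), (fun w : Om (S : Set Γ) K => exc π N c (w.F x)) ∈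
      bddAlg (Om (S : Set Γ) K) := fun c x =>
    ⟨_, fun w => (abs_of_nonneg (exc_nonneg c _)).trans_le (hbd c x w)⟩
  -- subadditivity
  have hsub : ∀ m : (Om (S : Set Γ) K → ℝ) → ℝ, IMean Om.act (bddAlg _) m → ∀ (c d : ℝ)
      (x y : Γ), m (fun w => exc π N (c + d) (w.F (x * y))) ≤
        m (fun w => exc π N c (w.F x)) + m (fun w => exc π N d (w.F y)) := by
    intro m hm c d x y
    rw [← hm.inv x _ (hmem d y), ← hm.add _ (hmem c x) _ (ha.shift x _ (hmem d y))]
    refine hm.toPInv.mono (hmem _ _) (add_mem (hmem c x) (ha.shift x _ (hmem d y))) fun w => ?_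
    have h1 : w.F (x * y) = w.F x * (w.act x).F y := by rw [Om.act_F, mul_inv_cancel_left]
    rw [Pi.add_apply, h1]
    exact exc_mul _ _ _ _
  -- elements of powers of `𝒮`
  have hNpow : ∀ n : ℕ, ∀ x ∈ 𝒮 ^ n, N (hgtR π x) ≤ n * ℓ := by
    intro n
    induction n with
    | zero =>
      intro x hx
      rw [pow_zero, Finset.mem_one] at hx
      subst hx
      have : hgtR π (1 : Γ) = 0 := by funext i; simp [hgtR, hgt_one]
      rw [this, map_zero]; simp
    | succ n ih =>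
      intro x hx
      rw [pow_succ, Finset.mem_mul] at hx
      obtain ⟨y, hy, s, hs, rfl⟩ := hx
      rw [hgtR_mul']
      refine (map_add_le_add N _ _).trans ?_
      have h1 := ih y hy
      have h2 := h𝒮 s hs
      push_cast
      linarith
  obtain ⟨W, hW⟩ : ∃ W : ℕ, ∀ s ∈ 𝒮, wordLength (S : Set Γ) s ≤ W :=
    ⟨𝒮.sup fun s => wordLength (S : Set Γ) s, fun s hs => Finset.le_sup (f := fun s =>
      wordLength (S : Set Γ) s) hs⟩
  have hLpow : ∀ n : ℕ, ∀ x ∈ 𝒮 ^ n, wordLength (S : Set Γ) x ≤ n * W := by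
    intro n
    induction n with
    | zero =>
      intro x hx
      rw [pow_zero, Finset.mem_one] at hx
      subst hx
      simp
    | succ n ih =>
      intro x hx
      rw [pow_succ, Finset.mem_mul] at hx
      obtain ⟨y, hy, s, hs, rfl⟩ := hx
      refine (wordLength_mul_le hS _ _).trans ?_
      have h1 := ih y hy
      have h2 := hW s hs
      nlinarith
  have hlist : ∀ l : List Γ, (∀ s ∈ l, s ∈ 𝒮) → l.prod ∈ 𝒮 ^ l.length := by
    intro l
    induction l with
    | nil => intro _; simp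
    | cons a l ih =>
      intro h
      rw [List.prod_cons, List.length_cons, pow_succ']
      exact Finset.mul_mem_mul (h a List.mem_cons_self) (ih fun s hs => h s (List.mem_cons_of_mem a hs))
  -- Dini
  have hdini := dini_max ha (fun j => 𝒮 ^ (2 ^ j : ℕ))
    (fun j x => ((((2 : ℝ) ^ j)⁻¹ : ℝ) • fun w : Om (S : Set Γ) K =>
      exc π N ((2 : ℝ) ^ j * ℓ) (w.F x)))
    (fun j x => (bddAlg _).smul_mem (hmem _ _) _) (by
      intro m hm j x hx
      have hx' : x ∈ 𝒮 ^ (2 ^ j : ℕ) * 𝒮 ^ (2 ^ j : ℕ) := by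
        rw [← pow_add, ← two_mul, ← pow_succ']; exact hx
      obtain ⟨y, hy, z, hz, rfl⟩ := Finset.mem_mul.1 hx'
      have h1 := hsub m hm ((2 : ℝ) ^ j * ℓ) ((2 : ℝ) ^ j * ℓ) y z
      have h2 : (2 : ℝ) ^ j * ℓ + (2 : ℝ) ^ j * ℓ = (2 : ℝ) ^ (j + 1) * ℓ := by ring
      rw [h2] at h1
      have hp : (0 : ℝ) < 2 ^ j := by positivity
      rcases le_total (m (fun w => exc π N ((2 : ℝ) ^ j * ℓ) (w.F y)))
        (m (fun w => exc π N ((2 : ℝ) ^ j * ℓ) (w.F z))) with h | h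
      · refine ⟨z, hz, ?_⟩
        rw [hm.smul _ _ (hmem _ _), hm.smul _ _ (hmem _ _), pow_succ, mul_inv, mul_assoc]
        refine mul_le_mul_of_nonneg_left ?_ (by positivity)
        rw [pow_succ] at h1
        linarith
      · refine ⟨y, hy, ?_⟩
        rw [hm.smul _ _ (hmem _ _), hm.smul _ _ (hmem _ _), pow_succ, mul_inv, mul_assoc]
        refine mul_le_mul_of_nonneg_left ?_ (by positivity)
        rw [pow_succ] at h1
        linarith) (by
      intro m hm hE δ hδ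
      obtain ⟨L, hL, hlaw⟩ := hmic K m hm hE
      set c : ℝ := ∑ i : Fin k, N (Pi.single i 1) with hcd
      have hc0 : 0 ≤ c := Finset.sum_nonneg fun i _ => apply_nonneg _ _
      obtain ⟨C, hC⟩ := hlaw (δ / (2 * (c + 1) * (W + 1))) (by positivity)
      obtain ⟨j, hj⟩ := exists_nat_gt (2 * (c * |C|) / δ)
      refine ⟨j, fun x hx => ?_⟩
      have hp : (0 : ℝ) < 2 ^ j := by positivity
      rw [hm.smul _ _ (hmem _ _), inv_mul_le_iff₀ hp]
      have hu : ∀ i : Fin k, (fun w : Om (S : Set Γ) K => |hc π i x w - L (hgtR π x) i|) ∈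
          bddAlg (Om (S : Set Γ) K) := by
        intro i
        obtain ⟨A, hA⟩ := (coc_hc (K := K) hS π i).mem x
        refine ⟨A + |L (hgtR π x) i|, fun w => ?_⟩
        rw [abs_abs]
        exact (abs_sub _ _).trans (add_le_add_left (hA w) _)
      have hpt : ∀ w : Om (S : Set Γ) K, exc π N ((2 : ℝ) ^ j * ℓ) (w.F x) ≤
          (∑ i, N (Pi.single i 1) • fun w : Om (S : Set Γ) K =>
            |hc π i x w - L (hgtR π x) i|) w := by
        intro w
        rw [Finset.sum_apply]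
        simp only [Pi.smul_apply, smul_eq_mul]
        refine max_le ?_ (Finset.sum_nonneg fun i _ => mul_nonneg (apply_nonneg _ _) (abs_nonneg _))
        have h1 : N (hgtR π (w.F x)) ≤ N (L (hgtR π x)) + N (hgtR π (w.F x) - L (hgtR π x)) := by
          have := map_add_le_add N (L (hgtR π x)) (hgtR π (w.F x) - L (hgtR π x))
          rwa [add_sub_cancel] at this
        have h2 : N (L (hgtR π x)) ≤ (2 : ℝ) ^ j * ℓ := by
          rw [hL]
          have := hNpow _ x hx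
          push_cast at this
          exact this
        have h3 := seminorm_le N (hgtR π (w.F x) - L (hgtR π x))
        have h4 : ∑ i, |(hgtR π (w.F x) - L (hgtR π x)) i| * N (Pi.single i 1) =
            ∑ i, N (Pi.single i 1) * |hc π i x w - L (hgtR π x) i| :=
          Finset.sum_congr rfl fun i _ => mul_comm _ _
        linarith
      have hlen : (wordLength (S : Set Γ) x : ℝ) ≤ 2 ^ j * W := by
        have := hLpow _ x hx
        exact_mod_cast this
      have h5 : m (fun w => exc π N ((2 : ℝ) ^ j * ℓ) (w.F x)) ≤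
          ∑ i : Fin k, N (Pi.single i 1) * (δ / (2 * (c + 1) * (W + 1)) *
            wordLength (S : Set Γ) x + C) := by
        refine (hm.toPInv.mono (hmem _ _) (sum_mem fun i _ => (bddAlg _).smul_mem (hu i) _)
          hpt).trans ?_
        rw [hm.toPInv.sum _ _ (fun i _ => (bddAlg _).smul_mem (hu i) _)]
        refine Finset.sum_le_sum fun i _ => ?_
        rw [hm.smul _ _ (hu i)]
        exact mul_le_mul_of_nonneg_left (hC x i) (apply_nonneg _ _)
      rw [← Finset.sum_mul, ← hcd] at h5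
      refine h5.trans ?_
      have h6 : δ / (2 * (c + 1) * (W + 1)) * wordLength (S : Set Γ) x ≤
          δ / (2 * (c + 1) * (W + 1)) * (2 ^ j * W) :=
        mul_le_mul_of_nonneg_left hlen (by positivity)
      have h7 : c * (δ / (2 * (c + 1) * (W + 1)) * (2 ^ j * W)) ≤ 2 ^ j * (δ / 2) := by
        have h8 : c * (δ / (2 * (c + 1) * (W + 1)) * (2 ^ j * W)) =
            (2 ^ j * (δ / 2)) * ((c / (c + 1)) * (W / (W + 1))) := by
          field_simp
        have h9 : c / (c + 1) ≤ 1 := by rw [div_le_one (by positivity)]; linarith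
        have h10 : (W : ℝ) / (W + 1) ≤ 1 := by rw [div_le_one (by positivity)]; linarith
        have h11 : (c / (c + 1)) * ((W : ℝ) / (W + 1)) ≤ 1 := by
          have : 0 ≤ (W : ℝ) / (W + 1) := by positivity
          nlinarith [show 0 ≤ c / (c + 1) by positivity]
        rw [h8]
        nlinarith [show 0 ≤ (2 : ℝ) ^ j * (δ / 2) by positivity]
      have h8 : c * |C| ≤ 2 ^ j * (δ / 2) := by
        rw [div_lt_iff₀ hδ] at hj
        have h9 : (j : ℝ) ≤ 2 ^ j := by exact_mod_cast (Nat.lt_two_pow_self (n := j)).le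
        nlinarith [mul_le_mul_of_nonneg_right h9 hδ.le]
      have h9 : C ≤ |C| := le_abs_self C
      nlinarith [mul_le_mul_of_nonneg_left h6 hc0, mul_le_mul_of_nonneg_left h9 hc0]) (ε / 2)
      (by positivity)
  obtain ⟨j₀, hj₀⟩ := hdini
  set B : ℕ := 2 ^ j₀ with hB
  have hB0 : 0 < B := by positivity
  have hblock : ∀ m : (Om (S : Set Γ) K → ℝ) → ℝ, IMean Om.act (bddAlg _) m → ∀ l : List Γ,
      l.length = B → (∀ s ∈ l, s ∈ 𝒮) →
      m (fun w => exc π N (B * ℓ) (w.F l.prod)) ≤ ε / 2 * B := by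
    intro m hm l hl hs
    have h1 := hj₀ j₀ le_rfl m hm l.prod (by rw [← hB, ← hl]; exact hlist l hs)
    rw [hm.smul _ _ (hmem _ _), inv_mul_le_iff₀ (by positivity)] at h1
    have h2 : (B : ℝ) = 2 ^ j₀ := by rw [hB]; push_cast; ring
    rw [h2]
    linarith
  have hblocks : ∀ m : (Om (S : Set Γ) K → ℝ) → ℝ, IMean Om.act (bddAlg _) m → ∀ q : ℕ,
      ∀ l : List Γ, l.length = q * B → (∀ s ∈ l, s ∈ 𝒮) →
      m (fun w => exc π N ((q * B : ℕ) * ℓ) (w.F l.prod)) ≤ ε / 2 * (q * B : ℕ) := by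
    intro m hm q
    induction q with
    | zero =>
      intro l hl _
      have : l = [] := List.eq_nil_of_length_eq_zero (by rw [hl]; simp)
      subst this
      have h1 : (fun w : Om (S : Set Γ) K => exc π N (((0 * B : ℕ) : ℝ) * ℓ) (w.F ([] : List Γ).prod)) =
          fun _ => (0 : ℝ) := by
        funext w
        have : hgtR π (1 : Γ) = 0 := by funext i; simp [hgtR, hgt_one]
        simp [exc, w.F_one, this]
      rw [h1, hm.const]
      simp
    | succ q ih =>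
      intro l hl hs
      have h1 : (l.take B).length = B := by
        rw [List.length_take, hl]
        exact Nat.min_eq_left (by nlinarith)
      have h2 : (l.drop B).length = q * B := by
        rw [List.length_drop, hl]
        rw [Nat.succ_mul]; omega
      have h3 := hblock m hm (l.take B) h1 fun s hs' => hs s (List.mem_of_mem_take hs')
      have h4 := ih (l.drop B) h2 fun s hs' => hs s (List.mem_of_mem_drop hs')
      have h5 := hsub m hm (B * ℓ) ((q * B : ℕ) * ℓ) (l.take B).prod (l.drop B).prod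
      rw [← List.prod_append, List.take_append_drop] at h5
      have h6 : (B : ℝ) * ℓ + ((q * B : ℕ) : ℝ) * ℓ = (((q + 1) * B : ℕ) : ℝ) * ℓ := by
        push_cast; ring
      rw [h6] at h5
      refine h5.trans ((add_le_add h3 h4).trans_eq ?_)
      push_cast; ring
  set CB : ℝ := D * (K * (B * W) + K) + B * |ℓ| with hCB
  obtain ⟨n0, hn0⟩ := exists_nat_ge (2 * CB / ε)
  refine ⟨n0, fun n hn m hm l hl hs => ?_⟩
  set q : ℕ := n / B with hq
  set r : ℕ := n % B with hr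
  have hqr : n = q * B + r := by rw [hq, hr]; exact (Nat.div_add_mod' n B).symm
  have hrB : r < B := Nat.mod_lt _ hB0
  have h1 : (l.take (q * B)).length = q * B := by
    rw [List.length_take, hl]; exact Nat.min_eq_left (by omega)
  have h2 : (l.drop (q * B)).length = r := by
    rw [List.length_drop, hl]; omega
  have h3 := hblocks m hm q (l.take (q * B)) h1 fun s hs' => hs s (List.mem_of_mem_take hs')
  have h5 := hsub m hm ((q * B : ℕ) * ℓ) (r * ℓ) (l.take (q * B)).prod (l.drop (q * B)).prod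
  rw [← List.prod_append, List.take_append_drop] at h5
  have h6 : ((q * B : ℕ) : ℝ) * ℓ + (r : ℝ) * ℓ = (n : ℝ) * ℓ := by
    rw [← add_mul]; congr 1; rw [hqr]; push_cast; ring
  rw [h6] at h5
  have h7 : m (fun w => exc π N (r * ℓ) (w.F (l.drop (q * B)).prod)) ≤ CB := by
    rw [← hm.const CB]
    refine hm.toPInv.mono (hmem _ _) (const_mem _ _) fun w => (hbd _ _ w).trans ?_
    have e1 : (wordLength (S : Set Γ) (l.drop (q * B)).prod : ℝ) ≤ B * W := by
      have e2 := hLpow _ _ (hlist (l.drop (q * B)) fun s hs' => hs s (List.mem_of_mem_drop hs'))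
      rw [h2] at e2
      have e3 : r * W ≤ B * W := Nat.mul_le_mul_right _ hrB.le
      exact_mod_cast e2.trans e3
    have e4 : |(r : ℝ) * ℓ| ≤ B * |ℓ| := by
      rw [abs_mul, Nat.abs_cast]
      have : (r : ℝ) ≤ B := by exact_mod_cast hrB.le
      exact mul_le_mul_of_nonneg_right this (abs_nonneg _)
    rw [hCB]
    have e5 : D * (K * wordLength (S : Set Γ) (l.drop (q * B)).prod + K) ≤
        D * (K * (B * W) + K) := by
      refine mul_le_mul_of_nonneg_left ?_ hD0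
      have := mul_le_mul_of_nonneg_left e1 (Nat.cast_nonneg (α := ℝ) K)
      linarith
    linarith
  have h8 : CB ≤ ε / 2 * n := by
    have h9 : 2 * CB / ε ≤ n := hn0.trans (by exact_mod_cast hn)
    rw [div_le_iff₀ hε] at h9
    linarith
  have h9 : ((q * B : ℕ) : ℝ) ≤ n := by exact_mod_cast (by omega : q * B ≤ n)
  have h10 : ε / 2 * ((q * B : ℕ) : ℝ) ≤ ε / 2 * n := mul_le_mul_of_nonneg_left h9 (by positivity)
  linarith

/-- the law for the means on quasi-isometries -/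
theorem lip_XF (hS : Subgroup.closure (S : Set Γ) = ⊤) (hΓ : Amen Γ)
    (hmic : MicOut (S : Set Γ) π N) (K : ℕ) (𝒮 : Finset Γ) (ℓ : ℝ)
    (h𝒮 : ∀ s ∈ 𝒮, N (hgtR π s) ≤ ℓ) {ε : ℝ} (hε : 0 < ε) :
    ∃ n0 : ℕ, ∀ n ≥ n0, ∀ m : (XF (S : Set Γ) K → ℝ) → ℝ, IMean XF.act (cyl (S : Set Γ) K) m →
      ∀ l : List Γ, l.length = n → (∀ s ∈ l, s ∈ 𝒮) →
        m (fun w => exc π N (n * ℓ) (w.F l.prod)) ≤ ε * n := by
  obtain ⟨n0, hn0⟩ := lip_om hS hmic (2 * K * K + 2 * K) 𝒮 ℓ h𝒮 hε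
  refine ⟨n0, fun n hn m0 hm0 l hl hs => ?_⟩
  obtain ⟨m, hm, heq⟩ := exists_lift hS hΓ hm0
  rw [← heq l.prod (exc π N (n * ℓ)) (exists_exc_bound hS π N _ _ _)]
  exact hn0 n hn m hm l hl hs

open Classical in
open scoped Pointwise in
/-- **Finitary one-sided Lipschitz law**: for every sufficiently invariant average. -/
theorem lip_finite (hS : Subgroup.closure (S : Set Γ) = ⊤) (hΓ : Amen Γ)
    (hmic : MicOut (S : Set Γ) π N) (K : ℕ) (𝒮 : Finset Γ) (ℓ : ℝ)
    (h𝒮 : ∀ s ∈ 𝒮, N (hgtR π s) ≤ ℓ) {ε : ℝ} (hε : 0 < ε) :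
    ∃ n0 : ℕ, ∀ n ≥ n0, ∃ (T : Finset Γ) (τ : ℝ), 0 < τ ∧
      ∀ μ : (XF (S : Set Γ) K → ℝ) → ℝ, PMean (cyl (S : Set Γ) K) μ →
        (∀ γ ∈ T, ∀ φ ∈ cyl (S : Set Γ) K, ∀ C : ℝ, (∀ F, |φ F| ≤ C) →
          |μ (fun F => φ (F.act γ)) - μ φ| ≤ τ * C) →
        ∀ l : List Γ, l.length = n → (∀ s ∈ l, s ∈ 𝒮) →
          μ (fun w => exc π N (n * ℓ) (w.F l.prod)) ≤ ε * n := by
  obtain ⟨n0, hn0⟩ := lip_XF hS hΓ hmic K 𝒮 ℓ h𝒮 (half_pos hε)
  refine ⟨max n0 1, fun n hn => ?_⟩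
  have hn1 : n0 ≤ n := (le_max_left _ _).trans hn
  have hn2 : 1 ≤ n := (le_max_right _ _).trans hn
  have hnpos : (0 : ℝ) < n := by exact_mod_cast hn2
  have hx : ∀ x ∈ 𝒮 ^ n, ∃ (T : Finset Γ) (τ : ℝ), 0 < τ ∧
      ∀ μ : (XF (S : Set Γ) K → ℝ) → ℝ, PMean (cyl (S : Set Γ) K) μ →
        (∀ γ ∈ T, ∀ φ ∈ cyl (S : Set Γ) K, ∀ C : ℝ, (∀ F, |φ F| ≤ C) →
          |μ (fun F => φ (F.act γ)) - μ φ| ≤ τ * C) →
          μ (fun w => exc π N (n * ℓ) (w.F x)) ≤ ε * n := by
    intro x hx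
    obtain ⟨f, hf⟩ := Finset.mem_pow.1 hx
    have hl : (List.ofFn fun i => (f i : Γ)).length = n := List.length_ofFn
    have hs : ∀ s ∈ List.ofFn fun i => (f i : Γ), s ∈ 𝒮 := by
      intro s hs
      obtain ⟨i, rfl⟩ := List.mem_ofFn.1 hs
      exact (f i).2
    have h1 := exists_finite_inv (ε := ε / 2 * n) (ε' := ε * n)
      (alg_cyl (S := (S : Set Γ)) (K := K))
      (cyl_eval x (exc π N (n * ℓ)) (exists_exc_bound hS π N _ _ _)) (by nlinarith)
      (fun m hm => by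
        have := hn0 n hn1 m hm _ hl hs
        rwa [hf] at this)
    exact h1
  choose! T τ hτ hTτ using hx
  obtain ⟨τ₀, hτ₀, hτ₀le⟩ : ∃ τ₀ : ℝ, 0 < τ₀ ∧ ∀ x ∈ 𝒮 ^ n, τ₀ ≤ τ x := by
    rcases (𝒮 ^ n).eq_empty_or_nonempty with h | h
    · exact ⟨1, one_pos, by rw [h]; simp⟩
    · obtain ⟨x0, hx0, hmin⟩ := (𝒮 ^ n).exists_min_image τ h
      exact ⟨τ x0, hτ x0 hx0, hmin⟩
  refine ⟨(𝒮 ^ n).biUnion T, τ₀, hτ₀, fun μ hμ hinv l hl hs => ?_⟩
  have hlp : l.prod ∈ 𝒮 ^ n := by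
    rw [Finset.mem_pow]
    subst hl
    refine ⟨fun i => ⟨l.get i, hs _ (List.get_mem l i)⟩, ?_⟩
    rw [List.ofFn_get]
  refine hTτ _ hlp μ hμ fun γ hγ φ hφ C hC => ?_
  have h1 := hinv γ (Finset.mem_biUnion.2 ⟨_, hlp, hγ⟩) φ hφ C hC
  have h2 : 0 ≤ C := by
    by_contra hneg
    push Not at hneg
    have h3 : τ₀ * C < 0 := mul_neg_of_pos_of_neg hτ₀ hneg
    exact absurd ((abs_nonneg _).trans h1) (not_le.2 h3)
  exact h1.trans (mul_le_mul_of_nonneg_right (hτ₀le _ hlp) h2)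

end Main

end Crest.Agent.R182.Erg
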