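/-
R182 (helper278): a Euclidean norm on `ℝ^k` invariant under all linear isometries of a given norm.
`⟨u, v⟩ = ∫ (ξ·u)(ξ·v) dξ` over the polar body of the unit ball.
-/
import Mathlib
import Crest.Agent.R182.ConvG
import Crest.Agent.R182.ErgLip

set_option autoImplicit false

open MeasureTheory

namespace Crest.Agent.R182.Conv

variable {k : ℕ}

/-- the polar body of the unit ball. -/
def polarB (p : Seminorm ℝ (Fin k → ℝ)) : Set (Fin k → ℝ) := {ξ | ∀ x, ξ ⬝ᵥ x ≤ p x}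

theorem polarB_closed (p : Seminorm ℝ (Fin k → ℝ)) : IsClosed (polarB p) := by
  have : polarB p = ⋂ x, {ξ | ξ ⬝ᵥ x ≤ p x} := by ext ξ; simp [polarB]
  rw [this]
  refine isClosed_iInter fun x => isClosed_le ?_ continuous_const
  fun_prop

theorem polarB_abs_le (p : Seminorm ℝ (Fin k → ℝ)) {ξ : Fin k → ℝ} (hξ : ξ ∈ polarB p)
    (x : Fin k → ℝ) : |ξ ⬝ᵥ x| ≤ p x := by
  rw [abs_le]
  constructor
  · have := hξ (-x)
    rw [dotProduct_neg, map_neg_eq_map] at this
    linarith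
  · exact hξ x

theorem polarB_bounded (p : Seminorm ℝ (Fin k → ℝ)) : Bornology.IsBounded (polarB p) := by
  rw [isBounded_iff_forall_norm_le]
  refine ⟨∑ i, p (Pi.single i 1), fun ξ hξ => ?_⟩
  have h0 : 0 ≤ ∑ i, p (Pi.single i 1) := Finset.sum_nonneg fun i _ => apply_nonneg p _
  rw [pi_norm_le_iff_of_nonneg h0]
  intro i
  have h1 := polarB_abs_le p hξ (Pi.single i 1)
  rw [dotProduct_single, mul_one] at h1
  exact h1.trans (Finset.single_le_sum (f := fun i => p (Pi.single i (1 : ℝ)))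
    (fun i _ => apply_nonneg p _) (Finset.mem_univ i))

theorem polarB_compact (p : Seminorm ℝ (Fin k → ℝ)) : IsCompact (polarB p) :=
  Metric.isCompact_of_isClosed_isBounded (polarB_closed p) (polarB_bounded p)

theorem continuous_pi_seminorm (p : Seminorm ℝ (Fin k → ℝ)) : Continuous p := by
  have hC : ∀ x, p x ≤ (∑ i, p (Pi.single i 1)) * ‖x‖ := by
    intro x
    refine (Erg.seminorm_le p x).trans ?_
    rw [Finset.sum_mul]
    refine Finset.sum_le_sum fun i _ => ?_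
    rw [mul_comm]
    exact mul_le_mul_of_nonneg_left (norm_le_pi_norm x i) (apply_nonneg p _)
  have hC0 : 0 ≤ ∑ i, p (Pi.single i (1 : ℝ)) := Finset.sum_nonneg fun i _ => apply_nonneg p _
  refine (LipschitzWith.of_dist_le_mul (K := ⟨_, hC0⟩) fun x y => ?_).continuous
  rw [Real.dist_eq, dist_eq_norm]
  exact (abs_sub_map_le_sub p x y).trans (hC _)

theorem exists_lower (p : Seminorm ℝ (Fin k → ℝ)) (hp : ∀ v, p v = 0 → v = 0) :
    ∃ c : ℝ, 0 < c ∧ ∀ x, c * ‖x‖ ≤ p x := by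
  by_cases hne : (Metric.sphere (0 : Fin k → ℝ) 1).Nonempty
  · obtain ⟨x0, hx0, hmin⟩ := (isCompact_sphere (0 : Fin k → ℝ) 1).exists_isMinOn hne
      (continuous_pi_seminorm p).continuousOn
    refine ⟨p x0, ?_, fun x => ?_⟩
    · refine lt_of_le_of_ne (apply_nonneg p _) fun h => ?_
      have := hp x0 h.symm
      rw [this] at hx0
      simp at hx0
    · by_cases hx : x = 0
      · rw [hx, norm_zero, mul_zero, map_zero]
      · have hx' : 0 < ‖x‖ := norm_pos_iff.2 hx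
        have h1 : ‖x‖⁻¹ • x ∈ Metric.sphere (0 : Fin k → ℝ) 1 := by
          rw [mem_sphere_zero_iff_norm, norm_smul, norm_inv, norm_norm, inv_mul_cancel₀ hx'.ne']
        have h2 : p x0 ≤ p (‖x‖⁻¹ • x) := hmin h1
        rw [map_smul_eq_mul, norm_inv, norm_norm] at h2
        calc p x0 * ‖x‖ ≤ ‖x‖⁻¹ * p x * ‖x‖ := by gcongr
          _ = p x := by field_simp
  · refine ⟨1, one_pos, fun x => ?_⟩
    have hx : x = 0 := by
      by_contra hx
      have hx' : 0 < ‖x‖ := norm_pos_iff.2 hx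
      exact hne ⟨‖x‖⁻¹ • x, by
        rw [mem_sphere_zero_iff_norm, norm_smul, norm_inv, norm_norm, inv_mul_cancel₀ hx'.ne']⟩
    rw [hx, norm_zero, mul_zero, map_zero]

theorem exists_ball_subset (p : Seminorm ℝ (Fin k → ℝ)) (hp : ∀ v, p v = 0 → v = 0) :
    ∃ r : ℝ, 0 < r ∧ Metric.ball (0 : Fin k → ℝ) r ⊆ polarB p := by
  obtain ⟨c, hc, h⟩ := exists_lower p hp
  refine ⟨c / (k + 1), by positivity, fun ξ hξ x => ?_⟩
  rw [mem_ball_zero_iff] at hξ
  refine le_trans ?_ (h x)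
  calc ξ ⬝ᵥ x ≤ ∑ i, |ξ i * x i| := (Finset.sum_le_sum fun i _ => le_abs_self _)
    _ ≤ ∑ _i : Fin k, (c / (k + 1)) * ‖x‖ := by
        refine Finset.sum_le_sum fun i _ => ?_
        rw [abs_mul]
        exact mul_le_mul ((norm_le_pi_norm ξ i).trans hξ.le) (norm_le_pi_norm x i) (abs_nonneg _)
          (by positivity)
    _ = k * (c / (k + 1)) * ‖x‖ := by
        rw [Finset.sum_const, Finset.card_univ, Fintype.card_fin, nsmul_eq_mul]; ring
    _ ≤ c * ‖x‖ := by
        refine mul_le_mul_of_nonneg_right ?_ (norm_nonneg x)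
        rw [mul_div_assoc', div_le_iff₀ (by positivity)]
        nlinarith

/-- the inner product -/
noncomputable def Bf (p : Seminorm ℝ (Fin k → ℝ)) (u v : Fin k → ℝ) : ℝ :=
  ∫ ξ in polarB p, (ξ ⬝ᵥ u) * (ξ ⬝ᵥ v)

theorem integrableOn_Bf (p : Seminorm ℝ (Fin k → ℝ)) (u v : Fin k → ℝ) :
    IntegrableOn (fun ξ : Fin k → ℝ => (ξ ⬝ᵥ u) * (ξ ⬝ᵥ v)) (polarB p) := by
  refine ContinuousOn.integrableOn_compact (polarB_compact p) ?_
  exact Continuous.continuousOn (by fun_prop)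

theorem Bf_comm (p : Seminorm ℝ (Fin k → ℝ)) (u v : Fin k → ℝ) : Bf p u v = Bf p v u := by
  unfold Bf; simp_rw [mul_comm]

theorem Bf_self_nonneg (p : Seminorm ℝ (Fin k → ℝ)) (u : Fin k → ℝ) : 0 ≤ Bf p u u :=
  integral_nonneg fun _ => mul_self_nonneg _

theorem Bf_add_left (p : Seminorm ℝ (Fin k → ℝ)) (u v w : Fin k → ℝ) :
    Bf p (u + v) w = Bf p u w + Bf p v w := by
  unfold Bf
  rw [← integral_add (integrableOn_Bf p u w) (integrableOn_Bf p v w)]
  congr 1
  funext ξ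
  rw [dotProduct_add]; ring

theorem Bf_smul_left (p : Seminorm ℝ (Fin k → ℝ)) (c : ℝ) (u w : Fin k → ℝ) :
    Bf p (c • u) w = c * Bf p u w := by
  unfold Bf
  rw [← integral_const_mul]
  congr 1
  funext ξ
  rw [dotProduct_smul, smul_eq_mul]; ring

theorem eq_zero_of_Bf (p : Seminorm ℝ (Fin k → ℝ)) (hp : ∀ v, p v = 0 → v = 0) {v : Fin k → ℝ}
    (h : Bf p v v = 0) : v = 0 := by
  obtain ⟨r, hr, hsub⟩ := exists_ball_subset p hp
  unfold Bf at h
  rw [integral_eq_zero_iff_of_nonneg (fun ξ => mul_self_nonneg _) (integrableOn_Bf p v v)] at h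
  have h2 : (fun ξ : Fin k → ℝ => (ξ ⬝ᵥ v) * (ξ ⬝ᵥ v)) =ᵐ[volume.restrict (Metric.ball 0 r)] 0 :=
    ae_restrict_of_ae_restrict_of_subset hsub h
  have h3 := Measure.eqOn_open_of_ae_eq h2 Metric.isOpen_ball
    (Continuous.continuousOn (by fun_prop)) continuousOn_const
  obtain ⟨c, hc, hcv⟩ : ∃ c : ℝ, 0 < c ∧ c • v ∈ Metric.ball (0 : Fin k → ℝ) r := by
    refine ⟨r / (2 * (‖v‖ + 1)), by positivity, ?_⟩
    rw [mem_ball_zero_iff, norm_smul, Real.norm_of_nonneg (by positivity)]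
    rw [div_mul_eq_mul_div, div_lt_iff₀ (by positivity)]
    nlinarith [norm_nonneg v]
  have h4 := h3 hcv
  simp only [smul_dotProduct, smul_eq_mul, Pi.zero_apply] at h4
  have h5 : v ⬝ᵥ v = 0 := by
    have h6 : (c * (v ⬝ᵥ v)) = 0 := mul_self_eq_zero.1 h4
    rcases mul_eq_zero.1 h6 with h7 | h7
    · exact absurd h7 hc.ne'
    · exact h7
  exact dotProduct_self_eq_zero.1 h5

/-- invariance -/
theorem Bf_invariant (p : Seminorm ℝ (Fin k → ℝ)) (hp : ∀ v, p v = 0 → v = 0)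
    {L : (Fin k → ℝ) →ₗ[ℝ] (Fin k → ℝ)} (hL : ∀ v, p (L v) = p v) (u v : Fin k → ℝ) :
    Bf p (L u) (L v) = Bf p u v := by
  classical
  have hinj : Function.Injective L := by
    rw [injective_iff_map_eq_zero]
    intro x hx
    apply hp
    rw [← hL, hx, map_zero]
  have hsurj : Function.Surjective L := LinearMap.surjective_of_injective hinj
  -- the adjoint
  set mL := LinearMap.toMatrix' L with hmL
  have hLm : ∀ x, L x = mL.mulVec x := fun x => by
    rw [hmL, LinearMap.toMatrix'_mulVec]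
  set A : (Fin k → ℝ) →ₗ[ℝ] (Fin k → ℝ) := mL.vecMulLinear with hA
  have hAx : ∀ ξ x, (A ξ) ⬝ᵥ x = ξ ⬝ᵥ (L x) := by
    intro ξ x
    rw [hLm, Matrix.dotProduct_mulVec, hA, Matrix.vecMulLinear_apply]
  have hdet : LinearMap.det A ≠ 0 := by
    intro h0
    have h1 := LinearMap.bot_lt_ker_of_det_eq_zero h0
    obtain ⟨ξ, hξ, hξ0⟩ := (Submodule.ne_bot_iff _).1 h1.ne'
    apply hξ0
    rw [LinearMap.mem_ker] at hξ
    obtain ⟨x, hx⟩ := hsurj ξ
    have h2 := hAx ξ x
    rw [hξ, hx, zero_dotProduct] at h2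
    exact dotProduct_self_eq_zero.1 h2.symm
  have hpre : A ⁻¹' polarB p = polarB p := by
    ext ξ
    constructor
    · intro h y
      obtain ⟨x, rfl⟩ := hsurj y
      rw [← hAx, hL]
      exact h x
    · intro h x
      rw [hAx, ← hL]
      exact h _
  obtain ⟨r, hr, hsub⟩ := exists_ball_subset p hp
  have hv0 : volume (polarB p) ≠ 0 := by
    have := Metric.measure_ball_pos volume (0 : Fin k → ℝ) hr
    exact (this.trans_le (measure_mono hsub)).ne'
  have hvt : volume (polarB p) ≠ ⊤ := (polarB_compact p).measure_lt_top.ne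
  have hone : ENNReal.ofReal |(LinearMap.det A)⁻¹| = 1 := by
    have h1 := Measure.addHaar_preimage_linearMap (volume : Measure (Fin k → ℝ)) hdet (polarB p)
    rw [hpre] at h1
    have h2 : 1 * volume (polarB p) = ENNReal.ofReal |(LinearMap.det A)⁻¹| * volume (polarB p) := by
      rw [one_mul]; exact h1
    exact ((ENNReal.mul_left_inj hv0 hvt).1 h2).symm
  have hcont : Continuous A := LinearMap.continuous_of_finiteDimensional A
  have hmp : MeasurePreserving A (volume : Measure (Fin k → ℝ)) volume := by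
    refine ⟨hcont.measurable, ?_⟩
    rw [Measure.map_linearMap_addHaar_eq_smul_addHaar _ hdet, hone, one_smul]
  have hemb : MeasurableEmbedding A :=
    ((A.equivOfDetNeZero hdet).toContinuousLinearEquiv.toHomeomorph).measurableEmbedding
  have h3 := hmp.setIntegral_preimage_emb hemb (fun ξ : Fin k → ℝ => (ξ ⬝ᵥ u) * (ξ ⬝ᵥ v)) (polarB p)
  rw [hpre] at h3
  unfold Bf
  rw [← h3]
  congr 1
  funext ξ
  rw [hAx, hAx]

/-- a type synonym for the new inner product space. -/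
def WS (_ : Seminorm ℝ (Fin k → ℝ)) : Type := Fin k → ℝ

instance (p : Seminorm ℝ (Fin k → ℝ)) : AddCommGroup (WS p) :=
  inferInstanceAs (AddCommGroup (Fin k → ℝ))
noncomputable instance (p : Seminorm ℝ (Fin k → ℝ)) : Module ℝ (WS p) :=
  inferInstanceAs (Module ℝ (Fin k → ℝ))
instance (p : Seminorm ℝ (Fin k → ℝ)) : FiniteDimensional ℝ (WS p) :=
  inferInstanceAs (FiniteDimensional ℝ (Fin k → ℝ))

/-- **A Euclidean norm invariant under all linear isometries of the norm `p`.** -/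
theorem exists_inv_euclid_of_seminorm (p : Seminorm ℝ (Fin k → ℝ)) (hp : ∀ v, p v = 0 → v = 0) :
    ∃ T : (Fin k → ℝ) ≃ₗ[ℝ] EuclideanSpace ℝ (Fin k),
      ∀ L : (Fin k → ℝ) →ₗ[ℝ] (Fin k → ℝ), (∀ v, p (L v) = p v) → ∀ v, ‖T (L v)‖ = ‖T v‖ := by
  classical
  let core : InnerProductSpace.Core ℝ (WS p) :=
    { inner := fun u v => Bf p u v
      conj_inner_symm := fun u v => by
        simp only [conj_trivial]; exact Bf_comm p _ _
      re_inner_nonneg := fun u => Bf_self_nonneg p u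
      add_left := fun u v w => Bf_add_left p u v w
      smul_left := fun u v c => by
        simp only [conj_trivial]; exact Bf_smul_left p c u v
      definite := fun u h => eq_zero_of_Bf p hp h }
  let _i1 : NormedAddCommGroup (WS p) := core.toNormedAddCommGroup
  let _i2 : InnerProductSpace ℝ (WS p) := InnerProductSpace.ofCore core.toCore
  have hfin : Module.finrank ℝ (WS p) = k := by
    have : Module.finrank ℝ (Fin k → ℝ) = k := by simp
    exact this
  let b : OrthonormalBasis (Fin k) ℝ (WS p) :=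
    (stdOrthonormalBasis ℝ (WS p)).reindex (finCongr hfin)
  let e0 : (Fin k → ℝ) ≃ₗ[ℝ] WS p := LinearEquiv.refl ℝ (Fin k → ℝ)
  refine ⟨e0 ≪≫ₗ b.repr.toLinearEquiv, fun L hL v => ?_⟩
  have key : ∀ x : Fin k → ℝ, ‖(e0 ≪≫ₗ b.repr.toLinearEquiv) x‖ ^ 2 = Bf p x x := by
    intro x
    have h1 : (e0 ≪≫ₗ b.repr.toLinearEquiv) x = b.repr (e0 x) := rfl
    rw [h1, b.repr.norm_map, ← real_inner_self_eq_norm_sq]
    rfl
  have h1 := key (L v)
  rw [Bf_invariant p hp hL, ← key v] at h1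
  exact (sq_eq_sq₀ (norm_nonneg _) (norm_nonneg _)).1 h1

theorem exists_inv_euclid {ι : Type*} [Fintype ι] (S : GenSys ι (Fin k → ℝ)) :
    ∃ T : (Fin k → ℝ) ≃ₗ[ℝ] EuclideanSpace ℝ (Fin k),
      ∀ L : (Fin k → ℝ) →ₗ[ℝ] (Fin k → ℝ), (∀ v, S.g (L v) = S.g v) → ∀ v, ‖T (L v)‖ = ‖T v‖ :=
  exists_inv_euclid_of_seminorm
    (Seminorm.of S.g S.g_add_le fun a x => by rw [S.g_smul, Real.norm_eq_abs])
    fun _ hv => S.eq_zero_of_g_eq_zero hv

/-- the Euclidean seminorm on `ℝ^k` in the coordinates `T`. -/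
noncomputable def nrmT {E : Type*} [NormedAddCommGroup E] [NormedSpace ℝ E]
    (T : (Fin k → ℝ) ≃ₗ[ℝ] E) : Seminorm ℝ (Fin k → ℝ) :=
  (normSeminorm ℝ E).comp (T : (Fin k → ℝ) →ₗ[ℝ] E)

@[simp] theorem nrmT_apply {E : Type*} [NormedAddCommGroup E] [NormedSpace ℝ E]
    (T : (Fin k → ℝ) ≃ₗ[ℝ] E) (v : Fin k → ℝ) : nrmT T v = ‖T v‖ := rfl

end Crest.Agent.R182.Conv

namespace Crest.Agent.R182.Erg

open Crest.Agent.R182.Mic

/-- the law is preserved by all seminorms invariant under the isometries of `N`. -/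
theorem MicOut.of_isom {Γ : Type*} [Group Γ] {S : Set Γ} {k : ℕ}
    {π : Γ →* Multiplicative (Fin k → ℤ)} {N N' : Seminorm ℝ (Fin k → ℝ)} (h : MicOut S π N)
    (hN : ∀ L : (Fin k → ℝ) →ₗ[ℝ] (Fin k → ℝ), (∀ v, N (L v) = N v) → ∀ v, N' (L v) = N' v) :
    MicOut S π N' := by
  intro K m hm hE
  obtain ⟨L, hL, h1⟩ := h K m hm hE
  exact ⟨L, hN L hL, h1⟩

end Crest.Agent.R182.Erg
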