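/-
R182, module LIP (helper595): finitely supported almost invariant means on solvable groups, and
their localisation at good scales in groups of polynomial growth.
-/
import Mathlib

set_option autoImplicit false

namespace Crest.Agent.R182.Lip

open Pointwise

/-- finitely supported probability measures -/
structure FM (X : Type*) where
  ι : Type
  [fin : Fintype ι]
  w : ι → ℝ
  p : ι → X
  w_nonneg : ∀ i, 0 ≤ w i
  w_sum : ∑ i, w i = 1

attribute [instance] FM.fin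

namespace FM

variable {X Y : Type*}

/-- expectation -/
noncomputable def E (m : FM X) (f : X → ℝ) : ℝ := ∑ i, m.w i * f (m.p i)

theorem E_const (m : FM X) (c : ℝ) : m.E (fun _ => c) = c := by
  unfold E
  rw [← Finset.sum_mul, m.w_sum, one_mul]

theorem E_mono (m : FM X) {f g : X → ℝ} (h : ∀ i, f (m.p i) ≤ g (m.p i)) : m.E f ≤ m.E g :=
  Finset.sum_le_sum fun i _ => mul_le_mul_of_nonneg_left (h i) (m.w_nonneg i)

theorem E_add (m : FM X) (f g : X → ℝ) : m.E (fun x => f x + g x) = m.E f + m.E g := by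
  unfold E; rw [← Finset.sum_add_distrib]; exact Finset.sum_congr rfl fun i _ => by ring

theorem E_sub (m : FM X) (f g : X → ℝ) : m.E (fun x => f x - g x) = m.E f - m.E g := by
  unfold E; rw [← Finset.sum_sub_distrib]; exact Finset.sum_congr rfl fun i _ => by ring

theorem E_smul (m : FM X) (c : ℝ) (f : X → ℝ) : m.E (fun x => c * f x) = c * m.E f := by
  unfold E; rw [Finset.mul_sum]; exact Finset.sum_congr rfl fun i _ => by ring

theorem E_sum {κ : Type*} (m : FM X) (s : Finset κ) (f : κ → X → ℝ) :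
    m.E (fun x => ∑ j ∈ s, f j x) = ∑ j ∈ s, m.E (f j) := by
  unfold E
  rw [Finset.sum_comm]
  exact Finset.sum_congr rfl fun i _ => by rw [Finset.mul_sum]

theorem E_nonneg (m : FM X) {f : X → ℝ} (h : ∀ i, 0 ≤ f (m.p i)) : 0 ≤ m.E f :=
  Finset.sum_nonneg fun i _ => mul_nonneg (m.w_nonneg i) (h i)

theorem abs_E_le (m : FM X) {f : X → ℝ} {C : ℝ} (h : ∀ i, |f (m.p i)| ≤ C) : |m.E f| ≤ C := by
  rw [abs_le]
  constructor
  · rw [← m.E_const (-C)]; exact m.E_mono fun i => (abs_le.1 (h i)).1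
  · conv_rhs => rw [← m.E_const C]
    exact m.E_mono fun i => (abs_le.1 (h i)).2

/-- push forward -/
def map (m : FM X) (g : X → Y) : FM Y where
  ι := m.ι
  w := m.w
  p i := g (m.p i)
  w_nonneg := m.w_nonneg
  w_sum := m.w_sum

theorem E_map (m : FM X) (g : X → Y) (f : Y → ℝ) : (m.map g).E f = m.E (fun x => f (g x)) := rfl

/-- the law of `g x y`, `x, y` independent -/
def bind {Z : Type*} (m : FM X) (m' : FM Y) (g : X → Y → Z) : FM Z where
  ι := m.ι × m'.ι
  w i := m.w i.1 * m'.w i.2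
  p i := g (m.p i.1) (m'.p i.2)
  w_nonneg i := mul_nonneg (m.w_nonneg _) (m'.w_nonneg _)
  w_sum := by
    rw [Fintype.sum_prod_type]
    simp only [← Finset.mul_sum, m'.w_sum, mul_one, m.w_sum]

theorem E_bind {Z : Type*} (m : FM X) (m' : FM Y) (g : X → Y → Z) (f : Z → ℝ) :
    (m.bind m' g).E f = m.E (fun x => m'.E (fun y => f (g x y))) := by
  unfold E bind
  rw [Fintype.sum_prod_type]
  refine Finset.sum_congr rfl fun i _ => ?_
  rw [Finset.mul_sum]
  exact Finset.sum_congr rfl fun j _ => by ring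

/-- point mass -/
def dirac (x : X) : FM X where
  ι := Unit
  w _ := 1
  p _ := x
  w_nonneg _ := zero_le_one
  w_sum := by simp

theorem E_dirac (x : X) (f : X → ℝ) : (dirac x).E f = f x := by
  change ∑ _i : Unit, (1:ℝ) * f x = f x
  simp

/-- uniform law on `0, …, n` -/
noncomputable def unif (n : ℕ) : FM ℕ where
  ι := Fin (n + 1)
  w _ := 1 / (n + 1)
  p i := i
  w_nonneg _ := by positivity
  w_sum := by
    simp only [Finset.sum_const, Finset.card_univ, Fintype.card_fin, nsmul_eq_mul]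
    push_cast
    field_simp

theorem E_unif (n : ℕ) (f : ℕ → ℝ) :
    (unif n).E f = 1 / (n + 1) * ∑ i ∈ Finset.range (n + 1), f i := by
  unfold E unif
  rw [← Finset.mul_sum, Finset.sum_range]

end FM

/-- Reiter's condition (right translations), in dual form -/
def Reiter (H : Type*) [Group H] : Prop :=
  ∀ (T : Finset H) (ε : ℝ), 0 < ε → ∃ m : FM H, ∀ t ∈ T, ∀ (Φ : H → ℝ) (C : ℝ),
    (∀ x, |Φ x| ≤ C) → |m.E (fun x => Φ (x * t)) - m.E Φ| ≤ ε * C

section Reiter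

theorem reiter_of_subsingleton {H : Type*} [Group H] [Subsingleton H] : Reiter H := by
  intro T ε hε
  refine ⟨FM.dirac 1, fun t _ Φ C hC => ?_⟩
  have ht : t = 1 := Subsingleton.elim _ _
  subst ht
  simp only [mul_one, sub_self, abs_zero]
  exact mul_nonneg hε.le ((abs_nonneg _).trans (hC 1))

theorem reiter_of_comm {H : Type*} [Group H] (hc : ∀ x y : H, x * y = y * x) : Reiter H := by
  classical
  intro T ε hε
  induction T using Finset.induction_on with
  | empty => exact ⟨FM.dirac 1, fun t ht => absurd ht (Finset.notMem_empty t)⟩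
  | insert t T _ ih =>
    obtain ⟨m, hm⟩ := ih
    obtain ⟨n, hn⟩ := exists_nat_gt (2 / ε)
    refine ⟨(FM.unif n).bind m (fun j x => x * t ^ j), fun t' ht' Φ C hC => ?_⟩
    have hC0 : 0 ≤ C := (abs_nonneg _).trans (hC 1)
    rw [FM.E_bind, FM.E_bind]
    rcases Finset.mem_insert.1 ht' with rfl | ht'
    · -- the new element
      rw [FM.E_unif, FM.E_unif, ← mul_sub, ← Finset.sum_sub_distrib]
      have h1 : ∑ i ∈ Finset.range (n + 1), (m.E (fun y => Φ (y * t' ^ i * t')) -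
          m.E (fun y => Φ (y * t' ^ i))) =
          m.E (fun y => Φ (y * t' ^ (n + 1))) - m.E (fun y => Φ (y * t' ^ 0)) := by
        rw [← Finset.sum_range_sub (fun i => m.E (fun y => Φ (y * t' ^ i)))]
        refine Finset.sum_congr rfl fun i _ => ?_
        congr 2
        funext y
        rw [pow_succ, mul_assoc]
      rw [h1, abs_mul]
      have h2 : |m.E (fun y => Φ (y * t' ^ (n + 1))) - m.E (fun y => Φ (y * t' ^ 0))| ≤ 2 * C := by
        have e1 := m.abs_E_le (f := fun y => Φ (y * t' ^ (n + 1))) fun i => hC _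
        have e2 := m.abs_E_le (f := fun y => Φ (y * t' ^ 0)) fun i => hC _
        rw [abs_le] at e1 e2 ⊢
        constructor <;> linarith [e1.1, e1.2, e2.1, e2.2]
      have h3 : (0:ℝ) < n + 1 := by positivity
      rw [abs_of_pos (by positivity)]
      calc 1 / (n + 1 : ℝ) * |m.E (fun y => Φ (y * t' ^ (n + 1))) - m.E (fun y => Φ (y * t' ^ 0))|
          ≤ 1 / (n + 1 : ℝ) * (2 * C) := by gcongr
        _ = (2 / (n + 1)) * C := by ring
        _ ≤ ε * C := by
          gcongr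
          rw [div_le_iff₀ h3]
          rw [div_lt_iff₀ hε] at hn
          nlinarith
    · have h1 : ∀ j : ℕ, |m.E (fun y => Φ (y * t ^ j * t')) - m.E (fun y => Φ (y * t ^ j))| ≤
          ε * C := by
        intro j
        have := hm t' ht' (fun y => Φ (y * t ^ j)) C (fun x => hC _)
        have e1 : (fun y => Φ (y * t' * t ^ j)) = fun y => Φ (y * t ^ j * t') := by
          funext y; rw [mul_assoc, mul_assoc, hc t']
        rwa [e1] at this
      rw [← FM.E_sub]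
      exact FM.abs_E_le _ fun i => h1 _

theorem reiter_ext {H : Type*} [Group H] (A : Subgroup H) [A.Normal] (hA : Reiter A)
    (hB : Reiter (H ⧸ A)) : Reiter H := by
  classical
  intro T ε hε
  obtain ⟨mB, hmB⟩ := hB (T.image (QuotientGroup.mk' A)) (ε / 2) (half_pos hε)
  let s : H ⧸ A → H := Quotient.out
  have hs : ∀ b, ((s b : H) : H ⧸ A) = b := fun b => QuotientGroup.out_eq' b
  have hmem : ∀ (b : H ⧸ A) (t : H), s b * t * (s (b * t))⁻¹ ∈ A := by
    intro b t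
    rw [← QuotientGroup.eq_one_iff, QuotientGroup.mk_mul, QuotientGroup.mk_mul,
      QuotientGroup.mk_inv, hs, hs]
    group
  let a : H ⧸ A → H → A := fun b t => ⟨s b * t * (s (b * t))⁻¹, hmem b t⟩
  obtain ⟨mA, hmA⟩ := hA (Finset.univ.biUnion fun i => T.image fun t => a (mB.p i) t) (ε / 2)
    (half_pos hε)
  refine ⟨mB.bind mA (fun b x => (x : H) * s b), fun t ht Φ C hC => ?_⟩
  rw [FM.E_bind, FM.E_bind]
  set Ψ : H ⧸ A → ℝ := fun b => mA.E (fun x => Φ ((x : H) * s b)) with hΨ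
  have hΨC : ∀ b, |Ψ b| ≤ C := fun b => mA.abs_E_le fun i => hC _
  have h1 := hmB (t : H ⧸ A) (Finset.mem_image_of_mem _ ht) Ψ C hΨC
  have h2 : |mB.E (fun b => mA.E (fun x => Φ ((x : H) * s b * t))) -
      mB.E (fun b => Ψ (b * (t : H ⧸ A)))| ≤ ε / 2 * C := by
    rw [← FM.E_sub]
    refine FM.abs_E_le _ fun i => ?_
    have h3 := hmA (a (mB.p i) t) (Finset.mem_biUnion.2 ⟨i, Finset.mem_univ _,
      Finset.mem_image_of_mem _ ht⟩) (fun x => Φ ((x : H) * s (mB.p i * (t : H ⧸ A)))) C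
      (fun x => hC _)
    have e1 : (fun x : A => Φ (((x * a (mB.p i) t : A) : H) * s (mB.p i * (t : H ⧸ A)))) =
        fun x : A => Φ ((x : H) * s (mB.p i) * t) := by
      funext x
      congr 1
      simp only [a, Subgroup.coe_mul]
      group
    rw [e1] at h3
    exact h3
  rw [abs_le] at h1 h2 ⊢
  constructor <;> linarith [h1.1, h1.2, h2.1, h2.2]

theorem reiter_of_derivedSeries (n : ℕ) : ∀ (H : Type*) [Group H], derivedSeries H n = ⊥ →
    Reiter H := by
  induction n with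
  | zero =>
    intro H _ h
    rw [derivedSeries_zero] at h
    have : Subsingleton H := by
      rw [subsingleton_iff_forall_eq 1]
      intro y
      have : y ∈ (⊤ : Subgroup H) := Subgroup.mem_top y
      rw [h] at this
      exact Subgroup.mem_bot.1 this
    exact reiter_of_subsingleton
  | succ n ih =>
    intro H _ h
    have hn : (derivedSeries H n).Normal := derivedSeries_normal H n
    refine reiter_ext (derivedSeries H n) (reiter_of_comm ?_) (ih _ ?_)
    · intro x y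
      rw [derivedSeries_succ] at h
      have : (x : H) * y * (x : H)⁻¹ * (y : H)⁻¹ ∈ (⊥ : Subgroup H) := by
        rw [← h]
        exact Subgroup.commutator_mem_commutator x.2 y.2
      rw [Subgroup.mem_bot] at this
      apply Subtype.ext
      rw [Subgroup.coe_mul, Subgroup.coe_mul]
      have h2 : (x : H) * y = y * x := by
        have := mul_inv_eq_one.1 this
        have := mul_inv_eq_iff_eq_mul.1 this
        exact this
      exact h2
    · have h1 := map_derivedSeries_eq (f := QuotientGroup.mk' (derivedSeries H n))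
        (QuotientGroup.mk'_surjective _) n
      rw [← h1, eq_bot_iff, Subgroup.map_le_iff_le_comap]
      intro x hx
      rw [Subgroup.mem_comap, Subgroup.mem_bot]
      exact (QuotientGroup.eq_one_iff x).2 hx

/-- Solvable groups satisfy Reiter's condition. -/
theorem reiter_of_isSolvable (H : Type*) [Group H] [h : Group.IsSolvable H] : Reiter H := by
  obtain ⟨n, hn⟩ := h.solvable
  exact reiter_of_derivedSeries n H hn

end Reiter

/-! ### separated sets and good scales -/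

section Scale

variable {H : Type*} [Group H] (Λ : Set H)

/-- `r`-separated sets -/
def Sep (Y : Finset H) (r : ℕ) : Prop := ∀ x ∈ Y, ∀ y ∈ Y, x⁻¹ * y ∈ Λ ^ r → x = y

/-- polynomial growth of `Λ`-separated sets -/
def PolyGr (A : ℕ) : Prop := ∀ (n : ℕ) (Y : Finset H), (∀ y ∈ Y, y ∈ Λ ^ n) → Sep Λ Y 2 →
  Y.card ≤ A * (1 + n) ^ A

/-- the cardinality of a largest separated set in the ball -/
noncomputable def qc (n : ℕ) : ℕ :=
  sSup {c | ∃ Y : Finset H, (∀ y ∈ Y, y ∈ Λ ^ n) ∧ Sep Λ Y 2 ∧ Y.card = c}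

variable {Λ}

theorem pow_mono (h1 : (1 : H) ∈ Λ) {m n : ℕ} (h : m ≤ n) : Λ ^ m ⊆ Λ ^ n :=
  Set.pow_subset_pow_right h1 h

theorem inv_mem_pow (hinv : Λ⁻¹ = Λ) {n : ℕ} {x : H} (hx : x ∈ Λ ^ n) : x⁻¹ ∈ Λ ^ n := by
  rw [← hinv, inv_pow, Set.mem_inv, inv_inv]
  exact hx

theorem mul_mem_pow {m n : ℕ} {x y : H} (hx : x ∈ Λ ^ m) (hy : y ∈ Λ ^ n) :
    x * y ∈ Λ ^ (m + n) := by
  rw [pow_add]; exact Set.mul_mem_mul hx hy

theorem Sep.mono (h1 : (1 : H) ∈ Λ) {Y : Finset H} {r r' : ℕ} (h : Sep Λ Y r') (hr : r ≤ r') :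
    Sep Λ Y r := fun x hx y hy hxy => h x hx y hy (pow_mono h1 hr hxy)

theorem qc_bdd {A : ℕ} (hA : PolyGr Λ A) (n : ℕ) :
    BddAbove {c | ∃ Y : Finset H, (∀ y ∈ Y, y ∈ Λ ^ n) ∧ Sep Λ Y 2 ∧ Y.card = c} := by
  refine ⟨A * (1 + n) ^ A, ?_⟩
  rintro c ⟨Y, hY, hs, rfl⟩
  exact hA n Y hY hs

theorem card_le_qc {A : ℕ} (hA : PolyGr Λ A) {n : ℕ} {Y : Finset H} (hY : ∀ y ∈ Y, y ∈ Λ ^ n)
    (hs : Sep Λ Y 2) : Y.card ≤ qc Λ n := le_csSup (qc_bdd hA n) ⟨Y, hY, hs, rfl⟩

theorem exists_qc (h1 : (1 : H) ∈ Λ) {A : ℕ} (hA : PolyGr Λ A) (n : ℕ) :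
    ∃ Y : Finset H, (∀ y ∈ Y, y ∈ Λ ^ n) ∧ Sep Λ Y 2 ∧ Y.card = qc Λ n := by
  have hne : {c | ∃ Y : Finset H, (∀ y ∈ Y, y ∈ Λ ^ n) ∧ Sep Λ Y 2 ∧ Y.card = c}.Nonempty := by
    refine ⟨1, {1}, fun y hy => ?_, fun x hx y hy _ => ?_, Finset.card_singleton _⟩
    · rw [Finset.mem_singleton] at hy; subst hy; exact Set.one_mem_pow h1
    · rw [Finset.mem_singleton] at hx hy; rw [hx, hy]
  exact Nat.sSup_mem hne (qc_bdd hA n)

theorem one_le_qc (h1 : (1 : H) ∈ Λ) {A : ℕ} (hA : PolyGr Λ A) (n : ℕ) : 1 ≤ qc Λ n := by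
  have := card_le_qc (Λ := Λ) (n := n) (Y := {1}) hA (fun y hy => by
    rw [Finset.mem_singleton] at hy; subst hy; exact Set.one_mem_pow h1)
    (fun x hx y hy _ => by rw [Finset.mem_singleton] at hx hy; rw [hx, hy])
  simpa using this

theorem qc_le (h1 : (1 : H) ∈ Λ) {A : ℕ} (hA : PolyGr Λ A) (n : ℕ) :
    qc Λ n ≤ A * (1 + n) ^ A := by
  obtain ⟨Y, hY, hs, hc⟩ := exists_qc h1 hA n
  rw [← hc]; exact hA n Y hY hs

theorem qc_mono (h1 : (1 : H) ∈ Λ) {A : ℕ} (hA : PolyGr Λ A) {m n : ℕ} (h : m ≤ n) :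
    qc Λ m ≤ qc Λ n := by
  obtain ⟨Y, hY, hs, hc⟩ := exists_qc h1 hA m
  rw [← hc]; exact card_le_qc hA (fun y hy => pow_mono h1 h (hY y hy)) hs

/-- packing -/
theorem packing (h1 : (1 : H) ∈ Λ) (hinv : Λ⁻¹ = Λ) {A : ℕ} (hA : PolyGr Λ A) {n r s : ℕ}
    (hr : 2 * s + 2 ≤ r) {P : Finset H} (g : H) (hP : ∀ y ∈ P, g⁻¹ * y ∈ Λ ^ n)
    (hs : Sep Λ P r) : P.card * qc Λ s ≤ qc Λ (n + s) := by
  classical
  obtain ⟨Y, hY, hYs, hc⟩ := exists_qc h1 hA s
  rw [← hc, ← Finset.card_product]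
  have hinj : Set.InjOn (fun z : H × H => g⁻¹ * z.1 * z.2) (P ×ˢ Y : Finset (H × H)) := by
    rintro ⟨p, y⟩ hp ⟨p', y'⟩ hp' he
    simp only [Finset.coe_product, Set.mem_prod, Finset.mem_coe] at hp hp'
    simp only at he
    have e0 : p * y = p' * y' := by
      have := congrArg (fun z => g * z) he
      simpa [mul_assoc] using this
    have e1 : p⁻¹ * p' = y * y'⁻¹ := by
      rw [inv_mul_eq_iff_eq_mul, ← mul_assoc, e0]; group
    have e2 : p⁻¹ * p' ∈ Λ ^ r := by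
      rw [e1]
      exact pow_mono h1 (by omega) (mul_mem_pow (hY y hp.2) (inv_mem_pow hinv (hY y' hp'.2)))
    have e3 := hs p hp.1 p' hp'.1 e2
    subst e3
    have e4 := mul_left_cancel e0
    subst e4
    rfl
  rw [← Finset.card_image_of_injOn hinj]
  refine card_le_qc hA ?_ ?_
  · intro z hz
    obtain ⟨⟨p, y⟩, hpy, rfl⟩ := Finset.mem_image.1 hz
    rw [Finset.mem_product] at hpy
    exact mul_mem_pow (hP p hpy.1) (hY y hpy.2)
  · intro z hz z' hz' hzz
    obtain ⟨⟨p, y⟩, hpy, rfl⟩ := Finset.mem_image.1 hz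
    obtain ⟨⟨p', y'⟩, hpy', rfl⟩ := Finset.mem_image.1 hz'
    rw [Finset.mem_product] at hpy hpy'
    simp only at hpy hpy' hzz ⊢
    have e1 : p⁻¹ * p' = y * ((g⁻¹ * p * y)⁻¹ * (g⁻¹ * p' * y')) * y'⁻¹ := by group
    have e2 : p⁻¹ * p' ∈ Λ ^ r := by
      rw [e1]
      have := mul_mem_pow (mul_mem_pow (hY y hpy.2) hzz) (inv_mem_pow hinv (hY y' hpy'.2))
      exact pow_mono h1 (by omega) this
    have e3 := hs p hpy.1 p' hpy'.1 e2
    subst e3
    have e4 : (g⁻¹ * p * y)⁻¹ * (g⁻¹ * p * y') = y⁻¹ * y' := by group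
    rw [e4] at hzz
    have e5 := hYs y hpy.2 y' hpy'.2 hzz
    subst e5
    rfl

/-- good scales -/
theorem exists_scale (q : ℕ → ℕ) (hq1 : ∀ n, 1 ≤ q n) {A : ℕ} (hq : ∀ n, q n ≤ A * (1 + n) ^ A)
    {l : ℕ} (hl : 2 ≤ l) (N1 : ℕ) : ∃ s, N1 ≤ s ∧ q (l * s) ≤ l ^ (A + 1) * q s := by
  by_contra hcon
  push Not at hcon
  set M0 := max N1 1 with hM0
  have hM1 : 1 ≤ M0 := le_max_right _ _
  have key : ∀ k : ℕ, l ^ ((A + 1) * k) ≤ q (l ^ k * M0) := by
    intro k
    induction k with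
    | zero => simpa using hq1 _
    | succ k ih =>
      have h1 := hcon (l ^ k * M0) ((le_max_left _ _).trans (Nat.le_mul_of_pos_left _ (by positivity)))
      have e1 : l * (l ^ k * M0) = l ^ (k + 1) * M0 := by ring
      rw [e1] at h1
      have e2 : l ^ ((A + 1) * (k + 1)) = l ^ (A + 1) * l ^ ((A + 1) * k) := by
        rw [← pow_add]; congr 1; ring
      rw [e2]
      exact (Nat.mul_le_mul_left _ ih).trans h1.le
  have h2 : ∀ k : ℕ, l ^ k ≤ A * (2 * M0) ^ A := by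
    intro k
    have h3 := (key k).trans (hq _)
    have h4 : 1 + l ^ k * M0 ≤ l ^ k * (2 * M0) := by
      have : 1 ≤ l ^ k * M0 := Nat.one_le_iff_ne_zero.2 (by positivity)
      nlinarith
    have h5 : A * (1 + l ^ k * M0) ^ A ≤ A * (l ^ k * (2 * M0)) ^ A := by gcongr
    have h6 : A * (l ^ k * (2 * M0)) ^ A = l ^ (A * k) * (A * (2 * M0) ^ A) := by
      rw [mul_pow, ← pow_mul, mul_comm k A]; ring
    have h7 : l ^ ((A + 1) * k) = l ^ (A * k) * l ^ k := by rw [← pow_add]; congr 1; ring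
    have h8 := h3.trans (h5.trans h6.le)
    rw [h7] at h8
    exact Nat.le_of_mul_le_mul_left h8 (by positivity)
  have h3 := h2 (A * (2 * M0) ^ A)
  have h4 : A * (2 * M0) ^ A < 2 ^ (A * (2 * M0) ^ A) := Nat.lt_two_pow_self
  have h5 : 2 ^ (A * (2 * M0) ^ A) ≤ l ^ (A * (2 * M0) ^ A) := Nat.pow_le_pow_left hl _
  omega

/-- maximal separated subsets -/
theorem exists_maxSep (h1 : (1 : H) ∈ Λ) (hinv : Λ⁻¹ = Λ) (X : Finset H) (r : ℕ) :
    ∃ Y ⊆ X, Sep Λ Y r ∧ ∀ x ∈ X, ∃ y ∈ Y, y⁻¹ * x ∈ Λ ^ r := by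
  classical
  induction X using Finset.induction_on with
  | empty => exact ⟨∅, le_rfl, fun x hx => absurd hx (Finset.notMem_empty x),
      fun x hx => absurd hx (Finset.notMem_empty x)⟩
  | insert a X _ ih =>
    obtain ⟨Y, hYX, hY, hcov⟩ := ih
    by_cases h : ∃ y ∈ Y, y⁻¹ * a ∈ Λ ^ r
    · refine ⟨Y, hYX.trans (Finset.subset_insert _ _), hY, fun x hx => ?_⟩
      rcases Finset.mem_insert.1 hx with rfl | hx
      · exact h
      · exact hcov x hx
    · push Not at h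
      refine ⟨insert a Y, Finset.insert_subset_insert _ hYX, ?_, ?_⟩
      · intro x hx y hy hxy
        rcases Finset.mem_insert.1 hx with rfl | hx' <;> rcases Finset.mem_insert.1 hy with rfl | hy'
        · rfl
        · exfalso
          have := inv_mem_pow hinv hxy
          rw [mul_inv_rev, inv_inv] at this
          exact h y hy' this
        · exact absurd hxy (h x hx')
        · exact hY x hx' y hy' hxy
      · intro x hx
        rcases Finset.mem_insert.1 hx with rfl | hx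
        · exact ⟨x, Finset.mem_insert_self _ _, by rw [inv_mul_cancel]; exact Set.one_mem_pow h1⟩
        · obtain ⟨y, hy, hxy⟩ := hcov x hx
          exact ⟨y, Finset.mem_insert_of_mem hy, hxy⟩

/-! ### the cut-off function -/

/-- truncated word length -/
noncomputable def ell (Λ : Set H) (R : ℕ) (x : H) : ℕ := sInf {n | x ∈ Λ ^ n ∨ n = R}

theorem ell_le (R : ℕ) (x : H) : ell Λ R x ≤ R := Nat.sInf_le (Or.inr rfl)

theorem ell_le_of_mem {R n : ℕ} {x : H} (h : x ∈ Λ ^ n) : ell Λ R x ≤ n := Nat.sInf_le (Or.inl h)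

theorem mem_of_ell_lt {R : ℕ} {x : H} (h : ell Λ R x < R) : x ∈ Λ ^ (ell Λ R x) := by
  have : (ell Λ R x) ∈ {n | x ∈ Λ ^ n ∨ n = R} := Nat.sInf_mem ⟨R, Or.inr rfl⟩
  rcases this with h' | h'
  · exact h'
  · omega

theorem ell_mul_le {R w : ℕ} {x k : H} (hk : k ∈ Λ ^ w) : ell Λ R (x * k) ≤ ell Λ R x + w := by
  rcases (ell_le (Λ := Λ) R x).lt_or_eq with h | h
  · exact ell_le_of_mem (mul_mem_pow (mem_of_ell_lt h) hk)
  · rw [h]; exact (ell_le R _).trans (Nat.le_add_right _ _)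

/-- cut-off function -/
noncomputable def psi (Λ : Set H) (R : ℕ) (x : H) : ℝ := 1 - ell Λ R x / R

theorem psi_nonneg (R : ℕ) (x : H) : 0 ≤ psi Λ R x := by
  unfold psi
  rcases Nat.eq_zero_or_pos R with rfl | hR
  · simp
  have : (ell Λ R x : ℝ) ≤ R := by exact_mod_cast ell_le R x
  have hR' : (0:ℝ) < R := by exact_mod_cast hR
  rw [sub_nonneg, div_le_one hR']
  exact this

theorem psi_le_one (R : ℕ) (x : H) : psi Λ R x ≤ 1 := by
  unfold psi
  have : (0:ℝ) ≤ (ell Λ R x : ℝ) / R := by positivity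
  linarith

theorem mem_of_psi_ne (h1 : (1 : H) ∈ Λ) {R : ℕ} (hR : 0 < R) {x : H} (h : psi Λ R x ≠ 0) :
    x ∈ Λ ^ R := by
  have hlt : ell Λ R x < R := by
    refine lt_of_le_of_ne (ell_le R x) fun he => h ?_
    unfold psi
    rw [he, div_self (by exact_mod_cast hR.ne'), sub_self]
  exact pow_mono h1 hlt.le (mem_of_ell_lt hlt)

theorem half_le_psi {R r : ℕ} (hR : 0 < R) (hr : 2 * r ≤ R) {x : H} (h : x ∈ Λ ^ r) :
    1 / 2 ≤ psi Λ R x := by
  unfold psi
  have h1 : (ell Λ R x : ℝ) ≤ r := by exact_mod_cast ell_le_of_mem h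
  have h2 : (2:ℝ) * r ≤ R := by exact_mod_cast hr
  have hR' : (0:ℝ) < R := by exact_mod_cast hR
  have h3 : (ell Λ R x : ℝ) / R ≤ 1 / 2 := by
    rw [div_le_iff₀ hR']; linarith
  linarith

theorem psi_lip (hinv : Λ⁻¹ = Λ) {R w : ℕ} (hR : 0 < R) {x k : H} (hk : k ∈ Λ ^ w) :
    |psi Λ R x - psi Λ R (x * k)| ≤ w / R := by
  have hR' : (0:ℝ) < R := by exact_mod_cast hR
  have h1 : (ell Λ R (x * k) : ℝ) ≤ ell Λ R x + w := by exact_mod_cast ell_mul_le hk
  have h2 : (ell Λ R x : ℝ) ≤ ell Λ R (x * k) + w := by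
    have := ell_mul_le (Λ := Λ) (R := R) (x := x * k) (inv_mem_pow hinv hk)
    rw [mul_inv_cancel_right] at this
    exact_mod_cast this
  have e1 : psi Λ R x - psi Λ R (x * k) = ((ell Λ R (x * k) : ℝ) - ell Λ R x) / R := by
    unfold psi; ring
  rw [e1, abs_div, abs_of_pos hR']
  gcongr
  rw [abs_le]
  constructor <;> linarith

/-- **localised almost invariant measures at good scales.** -/
theorem exists_local (h1 : (1 : H) ∈ Λ) (hinv : Λ⁻¹ = Λ) (hRt : Reiter H) {A : ℕ}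
    (hA : PolyGr Λ A) (T : ℕ) :
    ∃ κ : ℝ, 0 < κ ∧ ∀ τ : ℝ, 0 < τ → ∃ ω : ℝ, 0 < ω ∧ ∀ N1 : ℕ, ∃ M : ℕ, N1 ≤ M ∧
      ∀ (𝒦 : Finset H) (w : ℕ), (w : ℝ) ≤ ω * M → (∀ k ∈ 𝒦, k ∈ Λ ^ w) → ∀ b ∈ Λ ^ (T * M),
        ∃ θ : FM H, (∀ i, θ.p i ∈ Λ ^ M) ∧
          (∀ k ∈ 𝒦, ∀ (Φ : H → ℝ) (C : ℝ), (∀ x, |Φ x| ≤ C) →
            |θ.E (fun x => Φ (x * k)) - θ.E Φ| ≤ τ * C) ∧
          κ ≤ θ.E (Set.indicator {c | b⁻¹ * c * b ∈ Λ ^ M} 1) := by
  classical
  set l : ℕ := 32 * T + 17 with hl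
  set B : ℕ := l ^ (A + 1) with hB
  have hB1 : 1 ≤ B := Nat.one_le_iff_ne_zero.2 (by positivity)
  have hBr : (1:ℝ) ≤ B := by exact_mod_cast hB1
  have hB0 : (0:ℝ) < B := by linarith
  refine ⟨1 / B, by positivity, fun τ hτ => ⟨min (1 / 2) (τ / (16 * B)), by positivity,
    fun N1 => ?_⟩⟩
  obtain ⟨s, hs, hqs⟩ := exists_scale (qc Λ) (one_le_qc h1 hA) (qc_le h1 hA) (l := l) (by omega)
    (max N1 1)
  have hs1 : 1 ≤ s := (le_max_right _ _).trans hs
  have hsN : N1 ≤ s := (le_max_left _ _).trans hs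
  set R : ℕ := 4 * s + 4 with hR
  set M : ℕ := 8 * s + 8 with hM
  have hR0 : 0 < R := by omega
  have hRM : (M : ℝ) = 2 * R := by rw [hM, hR]; push_cast; ring
  refine ⟨M, by omega, fun 𝒦 w hw h𝒦 b hb => ?_⟩
  have hRr : (0:ℝ) < R := by exact_mod_cast hR0
  have hM0 : (0:ℝ) < M := by rw [hRM]; positivity
  have hwR : w ≤ R := by
    have : (w : ℝ) ≤ R := by
      calc (w : ℝ) ≤ min (1 / 2) (τ / (16 * B)) * M := hw
        _ ≤ 1 / 2 * M := by gcongr; exact min_le_left _ _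
        _ = R := by rw [hRM]; ring
    exact_mod_cast this
  have hwτ : (w : ℝ) / R ≤ τ / (8 * B) := by
    rw [div_le_iff₀ hRr]
    calc (w : ℝ) ≤ min (1 / 2) (τ / (16 * B)) * M := hw
      _ ≤ (τ / (16 * B)) * M := by gcongr; exact min_le_right _ _
      _ = τ / (8 * B) * R := by rw [hRM]; field_simp; ring
  -- packing constants
  have hpack : ∀ (P : Finset H) (g : H) (n r : ℕ), 2 * s + 2 ≤ r → n + s ≤ l * s →
      (∀ y ∈ P, g⁻¹ * y ∈ Λ ^ n) → Sep Λ P r → P.card ≤ B := by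
    intro P g n r hr hn hP hsep
    have e1 := packing h1 hinv hA hr g hP hsep
    have e2 := e1.trans ((qc_mono h1 hA hn).trans hqs)
    exact Nat.le_of_mul_le_mul_right e2 (one_le_qc h1 hA s)
  set ε₀ : ℝ := τ / (8 * B * (𝒦.card + 1)) with hε₀
  have hε₀pos : 0 < ε₀ := by positivity
  obtain ⟨m, hm⟩ := hRt 𝒦 ε₀ hε₀pos
  obtain ⟨Y, hYX, hYsep, hcov⟩ := exists_maxSep h1 hinv (Finset.univ.image m.p) (2 * s + 2)
  have hmult : ∀ x : H, (Y.filter fun y => y⁻¹ * x ∈ Λ ^ (R + w)).card ≤ B := by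
    intro x
    refine hpack _ x (R + w) (2 * s + 2) le_rfl ?_ ?_ ?_
    · rw [hl]; nlinarith
    · intro y hy
      have := inv_mem_pow hinv (Finset.mem_filter.1 hy).2
      rwa [mul_inv_rev, inv_inv] at this
    · exact fun x hx y hy => hYsep x (Finset.mem_filter.1 hx).1 y (Finset.mem_filter.1 hy).1
  set ψ : H → H → ℝ := fun y x => psi Λ R (y⁻¹ * x) with hψ
  have hψ0 : ∀ y x, 0 ≤ ψ y x := fun y x => psi_nonneg R _
  have hψ1 : ∀ y x, ψ y x ≤ 1 := fun y x => psi_le_one R _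
  have hψR : ∀ y x, ψ y x ≠ 0 → y⁻¹ * x ∈ Λ ^ R := fun y x h => mem_of_psi_ne h1 hR0 h
  -- the total mass is at least one half
  set Y' := Y.filter fun y => 0 < m.E (ψ y) with hY'
  have hmass : 1 / 2 ≤ ∑ y ∈ Y', m.E (ψ y) := by
    have e1 : ∑ y ∈ Y', m.E (ψ y) = ∑ y ∈ Y, m.E (ψ y) := by
      rw [hY', Finset.sum_filter]
      refine Finset.sum_congr rfl fun y _ => ?_
      split_ifs with h
      · rfl
      · have := m.E_nonneg (f := ψ y) fun i => hψ0 _ _
        linarith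
    rw [e1, ← m.E_sum Y (fun y x => ψ y x), ← m.E_const (1 / 2)]
    refine m.E_mono fun i => ?_
    obtain ⟨y, hy, hyx⟩ := hcov (m.p i) (Finset.mem_image_of_mem _ (Finset.mem_univ i))
    refine (half_le_psi hR0 (by omega) hyx).trans ?_
    exact Finset.single_le_sum (f := fun y => ψ y (m.p i)) (fun y _ => hψ0 _ _) hy
  have hsumψ : ∀ x, ∑ y ∈ Y', ψ y x ≤ B := by
    intro x
    have e1 : ∑ y ∈ Y', ψ y x ≤ ∑ y ∈ Y, ψ y x :=
      Finset.sum_le_sum_of_subset_of_nonneg (Finset.filter_subset _ _) fun y _ _ => hψ0 _ _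
    have e2 : ∑ y ∈ Y, ψ y x ≤ ∑ y ∈ Y.filter (fun y => y⁻¹ * x ∈ Λ ^ (R + w)), (1:ℝ) := by
      rw [Finset.sum_filter]
      refine Finset.sum_le_sum fun y _ => ?_
      split_ifs with h
      · exact hψ1 _ _
      · by_contra hne
        have : ψ y x ≠ 0 := fun h0 => hne h0.le
        exact h (pow_mono h1 (Nat.le_add_right _ _) (hψR y x this))
    rw [Finset.sum_const, nsmul_eq_mul, mul_one] at e2
    exact e1.trans (e2.trans (by exact_mod_cast hmult x))
  -- the good piece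
  obtain ⟨y, hyY, hyinv⟩ : ∃ y ∈ Y', ∀ k ∈ 𝒦, ∀ Φ : H → ℝ, (∀ x, |Φ x| ≤ 1) →
      m.E (fun x => ψ y x * Φ (x * k)) - m.E (fun x => ψ y x * Φ x) ≤ τ * m.E (ψ y) := by
    by_contra hcon
    push Not at hcon
    choose! k hk Φ hΦ hlt using hcon
    have s1 : ∑ y ∈ Y', τ * m.E (ψ y) ≤ ∑ y ∈ Y',
        (m.E (fun x => ψ y x * Φ y (x * k y)) - m.E (fun x => ψ y x * Φ y x)) :=
      Finset.sum_le_sum fun y hy => (hlt y hy).le
    have s2 : ∑ y ∈ Y', (m.E (fun x => ψ y x * Φ y (x * k y)) - m.E (fun x => ψ y x * Φ y x)) =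
        m.E (fun x => ∑ y ∈ Y', (ψ y x - ψ y (x * k y)) * Φ y (x * k y)) +
        ∑ y ∈ Y', (m.E (fun x => ψ y (x * k y) * Φ y (x * k y)) -
          m.E (fun x => ψ y x * Φ y x)) := by
      rw [m.E_sum, ← Finset.sum_add_distrib]
      refine Finset.sum_congr rfl fun y _ => ?_
      have : (fun x => (ψ y x - ψ y (x * k y)) * Φ y (x * k y)) =
          fun x => ψ y x * Φ y (x * k y) - ψ y (x * k y) * Φ y (x * k y) := by
        funext x; ring
      rw [this, m.E_sub]; ring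
    have s3 : m.E (fun x => ∑ y ∈ Y', (ψ y x - ψ y (x * k y)) * Φ y (x * k y)) ≤
        w / R * B := by
      rw [← m.E_const (w / R * B)]
      refine m.E_mono fun i => ?_
      set x := m.p i
      have hterm : ∀ y ∈ Y', (ψ y x - ψ y (x * k y)) * Φ y (x * k y) ≤
          if y⁻¹ * x ∈ Λ ^ (R + w) then (w / R : ℝ) else 0 := by
        intro y hy
        have hkw := h𝒦 _ (hk y hy)
        split_ifs with h
        · have e1 : |ψ y x - ψ y (x * k y)| ≤ w / R := by
            have := psi_lip hinv hR0 (x := y⁻¹ * x) hkw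
            rwa [mul_assoc] at this
          calc (ψ y x - ψ y (x * k y)) * Φ y (x * k y)
              ≤ |(ψ y x - ψ y (x * k y)) * Φ y (x * k y)| := le_abs_self _
            _ = |ψ y x - ψ y (x * k y)| * |Φ y (x * k y)| := abs_mul _ _
            _ ≤ w / R * 1 := by
              gcongr
              exact hΦ y hy _
            _ = w / R := mul_one _
        · have e1 : ψ y x = 0 := by
            by_contra hne
            exact h (pow_mono h1 (Nat.le_add_right _ _) (hψR y x hne))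
          have e2 : ψ y (x * k y) = 0 := by
            by_contra hne
            refine h ?_
            have := mul_mem_pow (hψR y _ hne) (inv_mem_pow hinv hkw)
            rwa [← mul_assoc, mul_inv_cancel_right] at this
          rw [e1, e2, sub_zero, zero_mul]
      refine (Finset.sum_le_sum hterm).trans ?_
      rw [← Finset.sum_filter, Finset.sum_const, nsmul_eq_mul, mul_comm]
      have hc : (Y'.filter fun y => y⁻¹ * x ∈ Λ ^ (R + w)).card ≤ B := by
        refine (Finset.card_le_card ?_).trans (hmult x)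
        exact Finset.filter_subset_filter _ (Finset.filter_subset _ _)
      have hc' : ((Y'.filter fun y => y⁻¹ * x ∈ Λ ^ (R + w)).card : ℝ) ≤ B := by exact_mod_cast hc
      gcongr
    have s4 : ∑ y ∈ Y', (m.E (fun x => ψ y (x * k y) * Φ y (x * k y)) -
        m.E (fun x => ψ y x * Φ y x)) ≤ 𝒦.card * (ε₀ * B) := by
      rw [← Finset.sum_fiberwise_of_maps_to (t := 𝒦) (g := k) (fun y hy => hk y hy)]
      rw [← nsmul_eq_mul, ← Finset.sum_const]
      refine Finset.sum_le_sum fun κ hκ => ?_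
      have e1 : ∑ y ∈ Y' with k y = κ, (m.E (fun x => ψ y (x * k y) * Φ y (x * k y)) -
          m.E (fun x => ψ y x * Φ y x)) =
          m.E (fun x => (fun z => ∑ y ∈ Y' with k y = κ, ψ y z * Φ y z) (x * κ)) -
          m.E (fun z => ∑ y ∈ Y' with k y = κ, ψ y z * Φ y z) := by
        simp only
        rw [m.E_sum, m.E_sum, ← Finset.sum_sub_distrib]
        refine Finset.sum_congr rfl fun y hy => ?_
        rw [(Finset.mem_filter.1 hy).2]
      rw [e1]
      refine (le_abs_self _).trans (hm κ hκ (fun z => ∑ y ∈ Y' with k y = κ, ψ y z * Φ y z) B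
        fun z => ?_)
      refine (Finset.abs_sum_le_sum_abs _ _).trans ?_
      refine le_trans ?_ (hsumψ z)
      refine le_trans (Finset.sum_le_sum (g := fun y => ψ y z) fun y hy => ?_)
        (Finset.sum_le_sum_of_subset_of_nonneg (Finset.filter_subset _ _) fun y _ _ => hψ0 _ _)
      rw [abs_mul, abs_of_nonneg (hψ0 _ _)]
      exact mul_le_of_le_one_right (hψ0 _ _) (hΦ y (Finset.mem_filter.1 hy).1 z)
    rw [← Finset.mul_sum, s2] at s1
    have s5 : w / R * B ≤ τ / 8 := by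
      calc (w : ℝ) / R * B ≤ τ / (8 * B) * B := by gcongr
        _ = τ / 8 := by field_simp
    have s6 : 𝒦.card * (ε₀ * B) ≤ τ / 8 := by
      rw [hε₀]
      have : (𝒦.card : ℝ) * (τ / (8 * B * (𝒦.card + 1)) * B) =
          τ / 8 * (𝒦.card / (𝒦.card + 1)) := by field_simp
      rw [this]
      refine mul_le_of_le_one_right (by positivity) ?_
      rw [div_le_one (by positivity)]
      linarith
    nlinarith
  have hZ : 0 < m.E (ψ y) := (Finset.mem_filter.1 hyY).2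
  set Z := m.E (ψ y) with hZdef
  -- the localised measure
  let θ₀ : FM H :=
    { ι := m.ι
      w := fun i => m.w i * ψ y (m.p i) / Z
      p := fun i => if y⁻¹ * m.p i ∈ Λ ^ R then y⁻¹ * m.p i else 1
      w_nonneg := fun i => div_nonneg (mul_nonneg (m.w_nonneg i) (hψ0 _ _)) hZ.le
      w_sum := by
        rw [← Finset.sum_div]
        exact div_self hZ.ne' }
  have hθ₀p : ∀ i, θ₀.p i ∈ Λ ^ R := by
    intro i
    change (if y⁻¹ * m.p i ∈ Λ ^ R then y⁻¹ * m.p i else 1) ∈ Λ ^ R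
    split_ifs with h
    · exact h
    · exact Set.one_mem_pow h1
  have hθ₀E : ∀ f : H → ℝ, θ₀.E f = m.E (fun x => ψ y x * f (y⁻¹ * x)) / Z := by
    intro f
    unfold FM.E
    rw [Finset.sum_div]
    refine Finset.sum_congr rfl fun i _ => ?_
    change m.w i * ψ y (m.p i) / Z * f (if y⁻¹ * m.p i ∈ Λ ^ R then y⁻¹ * m.p i else 1) =
      m.w i * (ψ y (m.p i) * f (y⁻¹ * m.p i)) / Z
    split_ifs with h
    · ring
    · have : ψ y (m.p i) = 0 := by
        by_contra hne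
        exact h (hψR _ _ hne)
      rw [this]; ring
  have hθ₀inv : ∀ k ∈ 𝒦, ∀ (Φ : H → ℝ) (C : ℝ), (∀ x, |Φ x| ≤ C) →
      θ₀.E (fun x => Φ (x * k)) - θ₀.E Φ ≤ τ * C := by
    intro k hk Φ C hC
    have hC0 : 0 ≤ C := (abs_nonneg _).trans (hC 1)
    rcases hC0.eq_or_lt with h0 | hCpos
    · have hΦ0 : Φ = fun _ => 0 := by
        funext x
        have := hC x
        rw [← h0] at this
        exact abs_eq_zero.1 (le_antisymm this (abs_nonneg _))
      rw [hΦ0, sub_self, ← h0, mul_zero]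
    · have e1 := hyinv k hk (fun x => C⁻¹ * Φ (y⁻¹ * x)) (fun x => by
        rw [abs_mul, abs_of_pos (inv_pos.2 hCpos), inv_mul_le_iff₀ hCpos, mul_one]
        exact hC _)
      rw [hθ₀E, hθ₀E, ← sub_div, div_le_iff₀ hZ]
      have e2 : m.E (fun x => ψ y x * (C⁻¹ * Φ (y⁻¹ * (x * k)))) =
          C⁻¹ * m.E (fun x => ψ y x * Φ (y⁻¹ * x * k)) := by
        rw [← m.E_smul]
        congr 1
        funext x
        rw [mul_assoc y⁻¹]; ring
      have e3 : m.E (fun x => ψ y x * (C⁻¹ * Φ (y⁻¹ * x))) =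
          C⁻¹ * m.E (fun x => ψ y x * Φ (y⁻¹ * x)) := by
        rw [← m.E_smul]
        congr 1
        funext x
        ring
      rw [e2, e3, ← mul_sub, inv_mul_le_iff₀ hCpos] at e1
      linarith
  have hθ₀inv' : ∀ k ∈ 𝒦, ∀ (Φ : H → ℝ) (C : ℝ), (∀ x, |Φ x| ≤ C) →
      |θ₀.E (fun x => Φ (x * k)) - θ₀.E Φ| ≤ τ * C := by
    intro k hk Φ C hC
    rw [abs_le]
    refine ⟨?_, hθ₀inv k hk Φ C hC⟩
    have e1 := hθ₀inv k hk (fun x => -1 * Φ x) C (fun x => by simpa using hC x)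
    rw [θ₀.E_smul, θ₀.E_smul] at e1
    linarith
  -- the heavy cell
  obtain ⟨Z', hZ'X, hZ'sep, hZ'cov⟩ := exists_maxSep h1 hinv
    (Finset.univ.image fun i => b⁻¹ * θ₀.p i * b) M
  have hbinv : b⁻¹ ∈ Λ ^ (T * M) := inv_mem_pow hinv hb
  have hcard : Z'.card ≤ B := by
    refine hpack Z' 1 (T * M + R + T * M) M (by omega) ?_ ?_ hZ'sep
    · have h2 : T * M = 8 * (T * s) + 8 * T := by rw [hM]; ring
      have h3 : l * s = 32 * (T * s) + 17 * s := by rw [hl]; ring
      have h4 : T ≤ T * s := Nat.le_mul_of_pos_right _ hs1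
      rw [h2, h3]
      omega
    · intro z hz
      obtain ⟨i, -, rfl⟩ := Finset.mem_image.1 (hZ'X hz)
      rw [inv_one, one_mul]
      exact mul_mem_pow (mul_mem_pow hbinv (hθ₀p i)) hb
  obtain ⟨z, hz, hzmass⟩ : ∃ z ∈ Z', 1 / (B : ℝ) ≤
      θ₀.E (Set.indicator {c | z⁻¹ * (b⁻¹ * c * b) ∈ Λ ^ M} 1) := by
    by_contra hcon
    push Not at hcon
    have e1 : (1 : ℝ) ≤ ∑ z ∈ Z', θ₀.E (Set.indicator {c | z⁻¹ * (b⁻¹ * c * b) ∈ Λ ^ M} 1) := by
      rw [← θ₀.E_sum, ← θ₀.E_const 1]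
      refine θ₀.E_mono fun i => ?_
      obtain ⟨z, hz, hzi⟩ := hZ'cov _ (Finset.mem_image_of_mem
        (fun i => b⁻¹ * θ₀.p i * b) (Finset.mem_univ i))
      have e2 : (1 : ℝ) = Set.indicator {c | z⁻¹ * (b⁻¹ * c * b) ∈ Λ ^ M} 1 (θ₀.p i) := by
        rw [Set.indicator_of_mem (show θ₀.p i ∈ _ from hzi)]; rfl
      rw [e2]
      exact Finset.single_le_sum (f := fun z => Set.indicator
        {c | z⁻¹ * (b⁻¹ * c * b) ∈ Λ ^ M} (1 : H → ℝ) (θ₀.p i))
        (fun z _ => Set.indicator_nonneg (fun _ _ => zero_le_one) _) hz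
    have hne : Z'.Nonempty := by
      rw [Finset.nonempty_iff_ne_empty]
      rintro rfl
      rw [Finset.sum_empty] at e1
      linarith
    have e2 := Finset.sum_lt_sum_of_nonempty hne hcon
    rw [Finset.sum_const, nsmul_eq_mul] at e2
    have e3 : (Z'.card : ℝ) * (1 / B) ≤ 1 := by
      rw [mul_one_div, div_le_one hB0]
      exact_mod_cast hcard
    linarith
  obtain ⟨i₀, -, hi₀⟩ := Finset.mem_image.1 (hZ'X hz)
  refine ⟨θ₀.map (fun c => (θ₀.p i₀)⁻¹ * c), fun i => ?_, fun k hk Φ C hC => ?_, ?_⟩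
  · have := mul_mem_pow (inv_mem_pow hinv (hθ₀p i₀)) (hθ₀p i)
    have e : R + R = M := by omega
    rw [e] at this
    exact this
  · rw [FM.E_map, FM.E_map]
    have := hθ₀inv' k hk (fun x => Φ ((θ₀.p i₀)⁻¹ * x)) C (fun x => hC _)
    simp only [← mul_assoc] at this
    exact this
  · rw [FM.E_map]
    refine hzmass.trans (le_of_eq ?_)
    congr 1
    funext c
    have e : z⁻¹ * (b⁻¹ * c * b) = b⁻¹ * ((θ₀.p i₀)⁻¹ * c) * b := by
      rw [← hi₀]; group
    simp only [Set.indicator, Set.mem_ofPred_eq, e, Pi.one_apply]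

end Scale

end Crest.Agent.R182.Lip
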