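/-
R182, module LIP (helper595): averages over a set of finite measure, translates.
-/
import Mathlib
import Crest.Agent.R182.LipFol

set_option autoImplicit false
set_option linter.unusedSectionVars false

open MeasureTheory

namespace Crest.Agent.R182.Lip

theorem FM.exists_le {X : Type*} (m : FM X) (U : Set X) (f : X → ℝ) {κ c : ℝ} (hκ : 0 < κ)
    (hU : κ ≤ m.E (Set.indicator U 1)) (hf0 : ∀ x, 0 ≤ f x) (hf : m.E f ≤ c) :
    ∃ i, m.p i ∈ U ∧ f (m.p i) ≤ c / κ := by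
  classical
  by_contra hcon
  push Not at hcon
  have hc : 0 ≤ c := (m.E_nonneg fun i => hf0 _).trans hf
  have h1 : m.E (fun x => Set.indicator U 1 x * (f x - c / κ)) ≤ 0 := by
    have e1 : m.E (fun x => Set.indicator U 1 x * (f x - c / κ)) =
        m.E (fun x => Set.indicator U 1 x * f x) - c / κ * m.E (Set.indicator U 1) := by
      rw [← m.E_smul, ← m.E_sub]
      congr 1; funext x; ring
    have e2 : m.E (fun x => Set.indicator U 1 x * f x) ≤ m.E f := by
      refine m.E_mono fun i => ?_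
      refine mul_le_of_le_one_left (hf0 _) ?_
      exact Set.indicator_le_self' (fun _ _ => zero_le_one) _
    have e3 : c ≤ c / κ * m.E (Set.indicator U 1) := by
      calc c = c / κ * κ := by field_simp
        _ ≤ _ := by gcongr
    linarith
  have h2 : ∀ i ∈ Finset.univ, 0 ≤ m.w i * (Set.indicator U 1 (m.p i) * (f (m.p i) - c / κ)) := by
    intro i _
    refine mul_nonneg (m.w_nonneg i) ?_
    by_cases hi : m.p i ∈ U
    · rw [Set.indicator_of_mem hi, Pi.one_apply, one_mul]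
      linarith [hcon i hi]
    · rw [Set.indicator_of_notMem hi, zero_mul]
  have h3 : m.E (fun x => Set.indicator U 1 x * (f x - c / κ)) = 0 :=
    le_antisymm h1 (Finset.sum_nonneg h2)
  have h4 : ∀ i ∈ Finset.univ,
      m.w i * (Set.indicator U 1 (m.p i) * (f (m.p i) - c / κ)) = 0 :=
    (Finset.sum_eq_zero_iff_of_nonneg h2).1 h3
  have h5 : m.E (Set.indicator U 1) = 0 := by
    refine Finset.sum_eq_zero fun i hi => ?_
    have h6 := h4 i hi
    by_cases hiU : m.p i ∈ U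
    · rw [Set.indicator_of_mem hiU, Pi.one_apply] at h6 ⊢
      have h7 : f (m.p i) - c / κ ≠ 0 := (sub_pos.2 (hcon i hiU)).ne'
      rcases mul_eq_zero.1 h6 with h8 | h8
      · rw [h8, zero_mul]
      · rw [one_mul] at h8; exact absurd h8 h7
    · rw [Set.indicator_of_notMem hiU, mul_zero]
  linarith

section Av

variable {N : Type*} [MeasurableSpace N] (μ : Measure N) (Q : Set N)

/-- average over `Q` -/
noncomputable def av (f : N → ℝ) : ℝ := (∫ m in Q, f m ∂μ) / μ.real Q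

variable {μ Q}

theorem integrableOn_bdd (hQ : μ Q ≠ ⊤) {f : N → ℝ} (hf : Measurable f) {C : ℝ}
    (hC : ∀ m, |f m| ≤ C) : IntegrableOn f Q μ :=
  Measure.integrableOn_of_bounded (M := C) hQ hf.aestronglyMeasurable
    (Filter.Eventually.of_forall fun m => by rw [Real.norm_eq_abs]; exact hC m)

theorem av_add (hQ : μ Q ≠ ⊤) {f g : N → ℝ} (hf : Measurable f) {C : ℝ}
    (hC : ∀ m, |f m| ≤ C) (hg : Measurable g) {D : ℝ} (hD : ∀ m, |g m| ≤ D) :
    av μ Q (fun m => f m + g m) = av μ Q f + av μ Q g := by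
  unfold av
  rw [integral_add (integrableOn_bdd hQ hf hC) (integrableOn_bdd hQ hg hD), add_div]

theorem av_smul (c : ℝ) (f : N → ℝ) : av μ Q (fun m => c * f m) = c * av μ Q f := by
  unfold av
  rw [integral_const_mul, mul_div_assoc]

theorem av_const (hQ : μ Q ≠ ⊤) (hQ0 : μ Q ≠ 0) (c : ℝ) : av μ Q (fun _ => c) = c := by
  unfold av
  rw [setIntegral_const, smul_eq_mul, mul_comm, mul_div_assoc, div_self, mul_one]
  exact (ENNReal.toReal_pos hQ0 hQ).ne'

theorem av_nonneg {f : N → ℝ} (hf : ∀ m, 0 ≤ f m) : 0 ≤ av μ Q f :=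
  div_nonneg (integral_nonneg hf) ENNReal.toReal_nonneg

theorem av_mono (hQ : μ Q ≠ ⊤) {f g : N → ℝ} (hf : Measurable f) {C : ℝ}
    (hC : ∀ m, |f m| ≤ C) (hg : Measurable g) {D : ℝ} (hD : ∀ m, |g m| ≤ D)
    (h : ∀ m, f m ≤ g m) : av μ Q f ≤ av μ Q g := by
  unfold av
  refine div_le_div_of_nonneg_right ?_ ENNReal.toReal_nonneg
  exact integral_mono (integrableOn_bdd hQ hf hC) (integrableOn_bdd hQ hg hD) h

theorem abs_av_le (hQ : μ Q ≠ ⊤) (hQ0 : μ Q ≠ 0) {f : N → ℝ} {C : ℝ} (hC : ∀ m, |f m| ≤ C) :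
    |av μ Q f| ≤ C := by
  unfold av
  have hpos : 0 < μ.real Q := ENNReal.toReal_pos hQ0 hQ
  rw [abs_div, abs_of_pos hpos, div_le_iff₀ hpos, ← Real.norm_eq_abs]
  exact norm_setIntegral_le_of_norm_le_const hQ.lt_top fun m _ => by
    rw [Real.norm_eq_abs]; exact hC m

theorem av_sum {ι : Type*} (hQ : μ Q ≠ ⊤) (s : Finset ι) (f : ι → N → ℝ)
    (hf : ∀ i ∈ s, Measurable (f i)) {C : ι → ℝ} (hC : ∀ i ∈ s, ∀ m, |f i m| ≤ C i) :
    av μ Q (fun m => ∑ i ∈ s, f i m) = ∑ i ∈ s, av μ Q (f i) := by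
  unfold av
  rw [integral_finsetSum _ fun i hi => integrableOn_bdd hQ (hf i hi) (hC i hi), Finset.sum_div]

/-- Markov's inequality -/
theorem markov (hQm : MeasurableSet Q) (hQ : μ Q ≠ ⊤) (hQ0 : μ Q ≠ 0) {f : N → ℝ}
    (hf : Measurable f) {C : ℝ}
    (hC : ∀ m, |f m| ≤ C) (hf0 : ∀ m, 0 ≤ f m) {c δ : ℝ} (hc : 0 < c) (hδ : av μ Q f ≤ c * δ) :
    μ {m | m ∈ Q ∧ c < f m} ≤ ENNReal.ofReal δ * μ Q := by
  have hpos : 0 < μ.real Q := ENNReal.toReal_pos hQ0 hQ
  have hδ0 : 0 ≤ δ := by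
    have := (av_nonneg (μ := μ) (Q := Q) hf0).trans hδ
    exact nonneg_of_mul_nonneg_right this hc
  have hm : MeasurableSet {m | m ∈ Q ∧ c < f m} :=
    hQm.inter (measurableSet_lt measurable_const hf)
  have hfin : μ {m | m ∈ Q ∧ c < f m} ≠ ⊤ :=
    ne_top_of_le_ne_top hQ (measure_mono fun m hm => hm.1)
  have h1 : c * μ.real {m | m ∈ Q ∧ c < f m} ≤ ∫ m in Q, f m ∂μ := by
    have h2 := mul_meas_ge_le_integral_of_nonneg (μ := μ.restrict Q) (f := f)
      (Filter.Eventually.of_forall hf0) (integrableOn_bdd hQ hf hC) c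
    refine le_trans ?_ h2
    refine mul_le_mul_of_nonneg_left ?_ hc.le
    unfold Measure.real
    rw [Measure.restrict_apply (measurableSet_le measurable_const hf)]
    refine ENNReal.toReal_mono (ne_top_of_le_ne_top hQ (measure_mono Set.inter_subset_right))
      (measure_mono fun m hm => ⟨hm.2.le, hm.1⟩)
  have h3 : ∫ m in Q, f m ∂μ ≤ c * δ * μ.real Q := by
    unfold av at hδ
    rwa [div_le_iff₀ hpos] at hδ
  have h4 : μ.real {m | m ∈ Q ∧ c < f m} ≤ δ * μ.real Q := by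
    have := h1.trans h3
    rw [mul_assoc] at this
    exact le_of_mul_le_mul_left this hc
  rw [← ENNReal.ofReal_toReal hfin, ← ENNReal.ofReal_toReal hQ, ← ENNReal.ofReal_mul hδ0]
  exact ENNReal.ofReal_le_ofReal h4

end Av

section Shift

variable {N : Type*} [Group N] [MeasurableSpace N] [MeasurableMul₂ N] {μ : Measure N}
  [μ.IsMulRightInvariant] {Q : Set N}

theorem av_shift (hQm : MeasurableSet Q) (hQ : μ Q ≠ ⊤) (hQ0 : μ Q ≠ 0) {y : N} {τ : ℝ}
    (hτ : 0 ≤ τ)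
    (h1 : μ {m | m ∈ Q ∧ m * y ∉ Q} ≤ ENNReal.ofReal τ * μ Q)
    (h2 : μ {m | m ∈ Q ∧ m * y⁻¹ ∉ Q} ≤ ENNReal.ofReal τ * μ Q)
    {f : N → ℝ} (hf : Measurable f) {C : ℝ} (hC : ∀ m, |f m| ≤ C) :
    |av μ Q (fun m => f (m * y)) - av μ Q f| ≤ 2 * τ * C := by
  classical
  have hC0 : 0 ≤ C := (abs_nonneg _).trans (hC 1)
  have hpos : 0 < μ.real Q := ENNReal.toReal_pos hQ0 hQ
  have hm : ∀ z : N, Measurable fun m : N => m * z := fun z => measurable_mul_const z
  -- the translate of `Q`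
  set Q' : Set N := {m | m * y⁻¹ ∈ Q} with hQ'
  have hQ'm : MeasurableSet Q' := hm y⁻¹ hQm
  have hQ'Q : μ Q' = μ Q := measure_preimage_mul_right μ y⁻¹ Q
  have hQ'fin : μ Q' ≠ ⊤ := by rw [hQ'Q]; exact hQ
  have e1 : ∫ m in Q, f (m * y) ∂μ = ∫ m in Q', f m ∂μ := by
    rw [← integral_indicator hQm, ← integral_indicator hQ'm,
      ← integral_mul_right_eq_self (Set.indicator Q' f) y]
    congr 1
    funext m
    by_cases hmQ : m ∈ Q
    · have : m * y ∈ Q' := by
        change m * y * y⁻¹ ∈ Q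
        rwa [mul_inv_cancel_right]
      rw [Set.indicator_of_mem hmQ, Set.indicator_of_mem this]
    · have : m * y ∉ Q' := by
        change ¬ (m * y * y⁻¹ ∈ Q)
        rwa [mul_inv_cancel_right]
      rw [Set.indicator_of_notMem hmQ, Set.indicator_of_notMem this]
  have i1 := integrableOn_bdd hQ'fin hf hC
  have i2 := integrableOn_bdd hQ hf hC
  have e2 : ∫ m in Q', f m ∂μ = ∫ m in Q' ∩ Q, f m ∂μ + ∫ m in Q' \ Q, f m ∂μ :=
    (integral_inter_add_diff hQm i1).symm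
  have e3 : ∫ m in Q, f m ∂μ = ∫ m in Q ∩ Q', f m ∂μ + ∫ m in Q \ Q', f m ∂μ :=
    (integral_inter_add_diff hQ'm i2).symm
  have hb : ∀ A : Set N, μ A ≤ ENNReal.ofReal τ * μ Q → |∫ m in A, f m ∂μ| ≤ C * (τ * μ.real Q) := by
    intro A hA
    have hA' : μ A ≠ ⊤ := ne_top_of_le_ne_top (ENNReal.mul_ne_top ENNReal.ofReal_ne_top hQ) hA
    rw [← Real.norm_eq_abs]
    refine (norm_setIntegral_le_of_norm_le_const hA'.lt_top fun m _ => by
      rw [Real.norm_eq_abs]; exact hC m).trans ?_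
    refine mul_le_mul_of_nonneg_left ?_ hC0
    unfold Measure.real
    have := ENNReal.toReal_mono (ENNReal.mul_ne_top ENNReal.ofReal_ne_top hQ) hA
    rwa [ENNReal.toReal_mul, ENNReal.toReal_ofReal hτ] at this
  have b1 : μ (Q \ Q') ≤ ENNReal.ofReal τ * μ Q := h2
  have b2 : μ (Q' \ Q) ≤ ENNReal.ofReal τ * μ Q := by
    refine le_trans (le_of_eq ?_) h1
    rw [← measure_preimage_mul_right μ y (Q' \ Q)]
    congr 1
    ext m
    constructor
    · rintro ⟨h3, h4⟩
      change m * y * y⁻¹ ∈ Q at h3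
      rw [mul_inv_cancel_right] at h3
      exact ⟨h3, h4⟩
    · rintro ⟨h3, h4⟩
      refine ⟨?_, h4⟩
      change m * y * y⁻¹ ∈ Q
      rwa [mul_inv_cancel_right]
  unfold av
  rw [← sub_div, abs_div, abs_of_pos hpos, div_le_iff₀ hpos, e1, e2, e3, Set.inter_comm Q Q']
  have c1 := hb _ b1
  have c2 := hb _ b2
  rw [abs_le] at c1 c2 ⊢
  constructor <;> nlinarith [c1.1, c1.2, c2.1, c2.2]

end Shift

end Crest.Agent.R182.Lip
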