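/-
R182, module LIP (helper595): the normalised quasi-isometry seen from a point of the real model, and
the one-block estimate.
-/
import Mathlib
import Crest.Agent.R182.ErgLip
import Crest.Agent.R182.OneScale
import Crest.Agent.R182.CoreN
import Crest.Agent.R182.LipFol

set_option autoImplicit false
set_option linter.unusedSectionVars false

open MeasureTheory

namespace Crest.Agent.R182.Lip

open Crest.GroupTheory Crest.Geometry Crest.Agent.R182.QI Crest.Agent.R182.FinPath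
  Crest.Agent.R182.FinRed Crest.Agent.R182.Bnd Crest.Agent.R182.Core Crest.Agent.R182.Erg
  Crest.Agent.R182.OneScale Crest.Agent.R189.MeanF

variable {Γ : Type*} [Group Γ] {k : ℕ} {π : Γ →* Multiplicative (Fin k → ℤ)}

section XP

variable {S : Set Γ} (M : BModel S π)

/-- constant of the orbit maps -/
noncomputable def KO (M : BModel S π) : ℕ := ⌈2 * M.a ^ 2 + 4 * M.a ^ 2 + M.a⌉₊ + ⌈M.a ^ 2⌉₊

theorem qi_orbit (p : M.G) : QIMap S S (fun γ => M.rnd (p * M.ι γ)) (KO M) := by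
  have ha := M.a0
  have ha1 := M.one_le_a
  have hK1 : 2 * M.a ^ 2 + 4 * M.a ^ 2 + M.a ≤ (KO M : ℝ) := by
    unfold KO; push_cast
    have := Nat.le_ceil (2 * M.a ^ 2 + 4 * M.a ^ 2 + M.a)
    have h2 : (0:ℝ) ≤ (⌈M.a ^ 2⌉₊ : ℝ) := Nat.cast_nonneg _
    linarith
  have hK2 : M.a ^ 2 ≤ (KO M : ℝ) := by nlinarith
  refine ⟨fun x y => ?_, fun x y => ?_, fun g => ?_⟩
  · have h1 := near M (p * M.ι x) (M.ι (x⁻¹ * y))
    have e1 : p * M.ι x * M.ι (x⁻¹ * y) = p * M.ι y := by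
      rw [mul_assoc, ← map_mul, mul_inv_cancel_left]
    rw [e1] at h1
    have h2 : M.len (M.ι (x⁻¹ * y)) ≤ M.a * nd S x y := M.len_ι _
    have h3 : (nd S (M.rnd (p * M.ι x)) (M.rnd (p * M.ι y)) : ℝ) ≤ KO M * nd S x y + KO M := by
      refine h1.trans ?_
      have h4 : (0:ℝ) ≤ nd S x y := Nat.cast_nonneg _
      calc M.a * (M.len (M.ι (x⁻¹ * y)) + 2 * M.a) + M.a
          ≤ M.a * (M.a * nd S x y + 2 * M.a) + M.a := by gcongr
        _ = M.a ^ 2 * nd S x y + (2 * M.a ^ 2 + M.a) := by ring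
        _ ≤ KO M * nd S x y + KO M := by
          gcongr
          nlinarith
    exact_mod_cast h3
  · have h1 : M.len (M.ι (x⁻¹ * y)) ≤ 2 * M.a +
        M.a * nd S (M.rnd (p * M.ι x)) (M.rnd (p * M.ι y)) := by
      have e1 : M.ι (x⁻¹ * y) = ((p * M.ι x)⁻¹ * M.ι (M.rnd (p * M.ι x))) *
          M.ι ((M.rnd (p * M.ι x))⁻¹ * M.rnd (p * M.ι y)) *
          ((M.ι (M.rnd (p * M.ι y)))⁻¹ * (p * M.ι y)) := by
        rw [map_mul, map_inv, map_mul, map_inv]; group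
      rw [e1]
      have a1 := M.isLen.mul (((p * M.ι x)⁻¹ * M.ι (M.rnd (p * M.ι x))) *
          M.ι ((M.rnd (p * M.ι x))⁻¹ * M.rnd (p * M.ι y)))
          ((M.ι (M.rnd (p * M.ι y)))⁻¹ * (p * M.ι y))
      have a2 := M.isLen.mul ((p * M.ι x)⁻¹ * M.ι (M.rnd (p * M.ι x)))
          (M.ι ((M.rnd (p * M.ι x))⁻¹ * M.rnd (p * M.ι y)))
      have a3 := M.len_rnd' (p * M.ι x)
      have a4 := M.len_rnd (p * M.ι y)
      have a5 : M.len (M.ι ((M.rnd (p * M.ι x))⁻¹ * M.rnd (p * M.ι y))) ≤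
          M.a * nd S (M.rnd (p * M.ι x)) (M.rnd (p * M.ι y)) := M.len_ι _
      linarith
    have h2 : (nd S x y : ℝ) ≤ M.a * M.len (M.ι (x⁻¹ * y)) + M.a := M.ι_len _
    have h3 : (nd S x y : ℝ) ≤ KO M * nd S (M.rnd (p * M.ι x)) (M.rnd (p * M.ι y)) + KO M := by
      have h4 : (0:ℝ) ≤ nd S (M.rnd (p * M.ι x)) (M.rnd (p * M.ι y)) := Nat.cast_nonneg _
      calc (nd S x y : ℝ) ≤ M.a * (2 * M.a +
            M.a * nd S (M.rnd (p * M.ι x)) (M.rnd (p * M.ι y))) + M.a := by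
            refine h2.trans ?_; gcongr
        _ = M.a ^ 2 * nd S (M.rnd (p * M.ι x)) (M.rnd (p * M.ι y)) + (2 * M.a ^ 2 + M.a) := by
            ring
        _ ≤ _ := by
          gcongr
          nlinarith
    exact_mod_cast h3
  · refine ⟨M.rnd (p⁻¹ * M.ι g), ?_⟩
    set y := M.rnd (p⁻¹ * M.ι g) with hy
    have h1 := M.len_rnd' (p * M.ι y)
    have h2 := M.len_rnd' (p⁻¹ * M.ι g)
    rw [← hy] at h2
    have e1 : M.ι (g⁻¹ * M.rnd (p * M.ι y)) =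
        ((p⁻¹ * M.ι g)⁻¹ * M.ι y) * ((p * M.ι y)⁻¹ * M.ι (M.rnd (p * M.ι y))) := by
      rw [map_mul, map_inv]; group
    have h3 : M.len (M.ι (g⁻¹ * M.rnd (p * M.ι y))) ≤ 2 * M.a := by
      rw [e1]
      have := M.isLen.mul ((p⁻¹ * M.ι g)⁻¹ * M.ι y) ((p * M.ι y)⁻¹ * M.ι (M.rnd (p * M.ι y)))
      linarith
    have h4 : (nd S g (M.rnd (p * M.ι y)) : ℝ) ≤ KO M := by
      refine (M.ι_len _).trans (le_trans ?_ hK1)
      nlinarith
    exact_mod_cast h4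

/-- constant for the normalised maps -/
noncomputable def KX (M : BModel S π) (K : ℕ) : ℕ := KO M * K + KO M + 2 * K

/-- the map seen from `p` -/
noncomputable def XP (hS : Subgroup.closure S = ⊤) {Ψ : Γ → Γ} {K : ℕ} (hΨ : QIMap S S Ψ K)
    (p : M.G) : XF S (KX M K) where
  F γ := (Ψ (M.rnd p))⁻¹ * Ψ (M.rnd (p * M.ι γ))
  F_one := by rw [map_one, mul_one, inv_mul_cancel]
  qi := (QIMap.comp hS hΨ (qi_orbit M p)).mulLeft _

variable {M}

theorem XP_F (hS : Subgroup.closure S = ⊤) {Ψ : Γ → Γ} {K : ℕ} (hΨ : QIMap S S Ψ K)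
    (p : M.G) (γ : Γ) : (XP M hS hΨ p).F γ = (Ψ (M.rnd p))⁻¹ * Ψ (M.rnd (p * M.ι γ)) := rfl

theorem XP_act (hS : Subgroup.closure S = ⊤) {Ψ : Γ → Γ} {K : ℕ} (hΨ : QIMap S S Ψ K)
    (p : M.G) (γ : Γ) : (XP M hS hΨ p).act γ = XP M hS hΨ (p * M.ι γ) := by
  ext x
  rw [XF.act_F, XP_F, XP_F, XP_F, map_mul, ← mul_assoc p]
  group

theorem hgtR_XP (hS : Subgroup.closure S = ⊤) {Ψ : Γ → Γ} {K : ℕ} (hΨ : QIMap S S Ψ K)
    (p : M.G) (γ : Γ) : hgtR π ((XP M hS hΨ p).F γ) =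
      fh M Ψ (p * M.ι γ) - fh M Ψ p := by
  rw [XP_F, ← M.h_ι, map_mul, map_inv, M.h_mul, OneScale.h_inv]
  unfold fh
  abel

end XP

section Block

/-- the sum of the values of the seminorm at the basis vectors -/
noncomputable def nN (N : Seminorm ℝ (Fin k → ℝ)) : ℝ := ∑ i, N (Pi.single i 1)

theorem nN_nonneg (N : Seminorm ℝ (Fin k → ℝ)) : 0 ≤ nN N :=
  Finset.sum_nonneg fun i _ => apply_nonneg N _

theorem N_le (N : Seminorm ℝ (Fin k → ℝ)) {u : Fin k → ℝ} {c : ℝ} (hc : ∀ i, |u i| ≤ c) :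
    N u ≤ c * nN N := by
  refine (seminorm_le N u).trans ?_
  rw [nN, Finset.mul_sum]
  exact Finset.sum_le_sum fun i _ => mul_le_mul_of_nonneg_right (hc i) (apply_nonneg N _)

theorem fh_N_lip {S : Set Γ} (M : BModel S π) (N : Seminorm ℝ (Fin k → ℝ)) (K : ℕ) :
    ∃ c : ℝ, 0 ≤ c ∧ ∀ Ψ : Γ → Γ, QIMap S S Ψ K → ∀ g u : M.G,
      N (fh M Ψ (g * u) - fh M Ψ g) ≤ c * (M.len u + 1) := by
  obtain ⟨c, hc, h⟩ := fh_lip M K
  refine ⟨c * nN N, mul_nonneg hc (nN_nonneg N), fun Ψ hΨ g u => ?_⟩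
  refine (N_le N fun i => h Ψ hΨ g u i).trans (le_of_eq ?_)
  ring

variable {S : Finset Γ} {M : BModel (S : Set Γ) π} {N : Seminorm ℝ (Fin k → ℝ)}

theorem h_N_le (g : M.G) : N (M.h g) ≤ M.a * M.len g * nN N := N_le N fun i => M.h_le g i

theorem prod_range_map {G : Type*} [Group G] (z : ℕ → G) (n : ℕ) :
    ((List.range n).map fun j => (z j)⁻¹ * z (j + 1)).prod = (z 0)⁻¹ * z n := by
  induction n with
  | zero => simp
  | succ n ih => rw [List.range_succ, List.map_append, List.prod_append, ih]; simp [mul_assoc]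

/-- **the one-block estimate** -/
theorem block (hS : Subgroup.closure (S : Set Γ) = ⊤) (hΓ : Amen Γ)
    (hmic : MicOut (S : Set Γ) π N) (K : ℕ) (b : M.G) {δ : ℝ} (hδ : 0 < δ) (J0 : ℕ) :
    ∃ J : ℕ, J0 ≤ J ∧ 1 ≤ J ∧ ∃ (T : Finset Γ) (τ : ℝ), 0 < τ ∧
      ∀ μ : (XF (S : Set Γ) K → ℝ) → ℝ, PMean (cyl (S : Set Γ) K) μ →
        (∀ γ ∈ T, ∀ φ ∈ cyl (S : Set Γ) K, ∀ C : ℝ, (∀ F, |φ F| ≤ C) →
          |μ (fun F => φ (F.act γ)) - μ φ| ≤ τ * C) →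
        μ (fun w => exc π N (J * (N (M.h b) + δ)) (w.F (M.rnd (b ^ J)))) ≤ δ * J := by
  classical
  have ha := M.a0
  have hnN := nN_nonneg N
  set C2 : ℝ := 2 * M.a ^ 2 * nN N with hC2
  obtain ⟨n1, hn1⟩ := exists_nat_gt (C2 / δ)
  have hC20 : 0 ≤ C2 := by positivity
  have hn1pos : 0 < (n1 : ℝ) := lt_of_le_of_lt (by positivity) hn1
  have hn11 : 1 ≤ n1 := by exact_mod_cast hn1pos
  rw [div_lt_iff₀ hδ] at hn1
  set D1 : ℕ := ⌈M.a * (2 * M.a + M.len (b ^ n1)) + M.a⌉₊ with hD1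
  set ℓ : ℝ := n1 * N (M.h b) + C2 with hℓ
  set 𝒮 : Finset Γ := (ball_finite hS D1).toFinset.filter fun x => N (hgtR π x) ≤ ℓ with h𝒮
  obtain ⟨n0, hn0⟩ := lip_finite (N := N) (π := π) hS hΓ hmic K 𝒮 ℓ
    (fun s hs => (Finset.mem_filter.1 hs).2) (ε := δ * n1) (by positivity)
  set n : ℕ := max n0 (max J0 1) with hn
  have hnn0 : n0 ≤ n := le_max_left _ _
  have hnJ0 : J0 ≤ n := (le_max_left _ _).trans (le_max_right _ _)
  have hnn1 : 1 ≤ n := (le_max_right _ _).trans (le_max_right _ _)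
  obtain ⟨T, τ, hτ, hT⟩ := hn0 n hnn0
  refine ⟨n1 * n, hnJ0.trans (Nat.le_mul_of_pos_left _ hn11), Nat.mul_pos hn11 hnn1, T, τ, hτ,
    fun μ hμ hinv => ?_⟩
  -- the word
  let z : ℕ → Γ := fun j => if j = 0 then 1 else M.rnd (b ^ (n1 * j))
  have hz : ∀ j, M.len ((M.ι (z j))⁻¹ * b ^ (n1 * j)) ≤ M.a := by
    intro j
    by_cases hj : j = 0
    · subst hj
      simp only [z, if_true, map_one, mul_zero, pow_zero, inv_one, mul_one, M.isLen.one]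
      exact ha
    · simp only [z, hj, if_false]
      exact M.len_rnd _
  have hstep : ∀ j, M.ι ((z j)⁻¹ * z (j + 1)) = ((M.ι (z j))⁻¹ * b ^ (n1 * j)) * b ^ n1 *
      ((M.ι (z (j + 1)))⁻¹ * b ^ (n1 * (j + 1)))⁻¹ := by
    intro j
    rw [map_mul, map_inv, mul_add, mul_one, pow_add]; group
  have hmem : ∀ j, (z j)⁻¹ * z (j + 1) ∈ 𝒮 := by
    intro j
    have hz1 := hz j
    have hz2 := hz (j + 1)
    rw [h𝒮, Finset.mem_filter, Set.Finite.mem_toFinset]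
    constructor
    · have h1 := M.ι_len ((z j)⁻¹ * z (j + 1))
      have h2 : M.len (M.ι ((z j)⁻¹ * z (j + 1))) ≤ 2 * M.a + M.len (b ^ n1) := by
        rw [hstep]
        have e1 := M.isLen.mul (((M.ι (z j))⁻¹ * b ^ (n1 * j)) * b ^ n1)
          ((M.ι (z (j + 1)))⁻¹ * b ^ (n1 * (j + 1)))⁻¹
        have e2 := M.isLen.mul ((M.ι (z j))⁻¹ * b ^ (n1 * j)) (b ^ n1)
        rw [M.isLen.inv] at e1
        linarith
      have h3 : (wordLength (S : Set Γ) ((z j)⁻¹ * z (j + 1)) : ℝ) ≤ D1 := by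
        refine h1.trans (le_trans ?_ (Nat.le_ceil _))
        gcongr
      exact_mod_cast h3
    · rw [← M.h_ι, hstep, M.h_mul, M.h_mul, OneScale.h_inv, OneScale.h_pow]
      have e1 := h_N_le (M := M) (N := N) ((M.ι (z j))⁻¹ * b ^ (n1 * j))
      have e2 := h_N_le (M := M) (N := N) ((M.ι (z (j + 1)))⁻¹ * b ^ (n1 * (j + 1)))
      have e3 : M.a * M.len ((M.ι (z j))⁻¹ * b ^ (n1 * j)) * nN N ≤ M.a * M.a * nN N := by
        gcongr
      have e4 : M.a * M.len ((M.ι (z (j + 1)))⁻¹ * b ^ (n1 * (j + 1))) * nN N ≤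
          M.a * M.a * nN N := by
        gcongr
      have e5 := map_add_le_add N (M.h ((M.ι (z j))⁻¹ * b ^ (n1 * j)) + (n1 : ℝ) • M.h b)
        (-M.h ((M.ι (z (j + 1)))⁻¹ * b ^ (n1 * (j + 1))))
      have e6 := map_add_le_add N (M.h ((M.ι (z j))⁻¹ * b ^ (n1 * j))) ((n1 : ℝ) • M.h b)
      rw [map_smul_eq_mul, Real.norm_eq_abs, Nat.abs_cast] at e6
      rw [map_neg_eq_map] at e5
      rw [hℓ, hC2]
      nlinarith
  have hl := hT μ hμ hinv ((List.range n).map fun j => (z j)⁻¹ * z (j + 1)) (by simp)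
    (by
      intro s hs
      obtain ⟨j, -, rfl⟩ := List.mem_map.1 hs
      exact hmem j)
  rw [prod_range_map] at hl
  have hz0 : z 0 = 1 := by simp [z]
  have hzn : z n = M.rnd (b ^ (n1 * n)) := by
    simp only [z]; rw [if_neg (by omega)]
  rw [hz0, inv_one, one_mul, hzn] at hl
  -- monotonicity
  have hc1 := cyl_eval (K := K) (M.rnd (b ^ (n1 * n))) (exc π N (n * ℓ))
    (exists_exc_bound hS π N K (n * ℓ) (M.rnd (b ^ (n1 * n))))
  have hc2 := cyl_eval (K := K) (M.rnd (b ^ (n1 * n)))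
    (exc π N ((n1 * n : ℕ) * (N (M.h b) + δ)))
    (exists_exc_bound hS π N K ((n1 * n : ℕ) * (N (M.h b) + δ)) (M.rnd (b ^ (n1 * n))))
  have hle : (n : ℝ) * ℓ ≤ (n1 * n : ℕ) * (N (M.h b) + δ) := by
    push_cast
    rw [hℓ]
    have : (n : ℝ) * C2 ≤ n * (n1 * δ) := by gcongr
    linarith
  have hmono : μ (fun w => exc π N ((n1 * n : ℕ) * (N (M.h b) + δ))
      (w.F (M.rnd (b ^ (n1 * n))))) ≤
      μ (fun w => exc π N (n * ℓ) (w.F (M.rnd (b ^ (n1 * n))))) := by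
    have h1 : 0 ≤ μ ((fun w => exc π N (n * ℓ) (w.F (M.rnd (b ^ (n1 * n))))) + (-1 : ℝ) •
        fun w => exc π N ((n1 * n : ℕ) * (N (M.h b) + δ)) (w.F (M.rnd (b ^ (n1 * n))))) := by
      refine hμ.nonneg _ (add_mem hc1 ((cyl (S : Set Γ) K).smul_mem hc2 _)) fun w => ?_
      simp only [Pi.add_apply, Pi.smul_apply, smul_eq_mul, neg_mul, one_mul, ← sub_eq_add_neg]
      rw [sub_nonneg]
      exact max_le_max (by linarith) le_rfl
    rw [hμ.add _ hc1 _ ((cyl (S : Set Γ) K).smul_mem hc2 _), hμ.smul _ _ hc2] at h1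
    linarith
  refine hmono.trans (hl.trans (le_of_eq ?_))
  push_cast; ring

end Block

end Crest.Agent.R182.Lip
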