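/-
R182, module LIP (helper595): the one-sided Lipschitz bound at one scale, at every base point, on
average over absorbing sets `Q ⊆ E`.
-/
import Mathlib
import Crest.Agent.R182.LipPt
import Crest.Agent.R182.LipAv

set_option autoImplicit false
set_option linter.unusedSectionVars false

open MeasureTheory

namespace Crest.Agent.R182.Lip

open Crest.GroupTheory Crest.Geometry Crest.Agent.R182.QI Crest.Agent.R182.FinPath
  Crest.Agent.R182.FinRed Crest.Agent.R182.Bnd Crest.Agent.R182.Core Crest.Agent.R182.Erg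
  Crest.Agent.R182.OneScale Crest.Agent.R189.MeanF

variable {Γ : Type*} [Group Γ] {k : ℕ} {π : Γ →* Multiplicative (Fin k → ℤ)}

section Meas

variable {S : Set Γ} {M : BModel S π} [Countable Γ]

theorem measurable_pair {β : Type*} [MeasurableSpace β] (f : Γ → Γ → β) (x g g' : M.G) :
    Measurable fun m : M.NN => f (M.rnd (x * M.toG m * g)) (M.rnd (x * M.toG m * g')) := by
  let _ : MeasurableSpace Γ := ⊤
  have : DiscreteMeasurableSpace Γ := ⟨fun _ => trivial⟩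
  have h1 : Measurable fun m : M.NN => (M.rnd (x * M.toG m * g), M.rnd (x * M.toG m * g')) :=
    (M.measurable_rnd (fun γ => γ) x g).prodMk (M.measurable_rnd (fun γ => γ) x g')
  exact (Measurable.of_discrete (f := fun p : Γ × Γ => f p.1 p.2)).comp h1

theorem measurable_XP (hS : Subgroup.closure S = ⊤) {Ψ : Γ → Γ} {K : ℕ} (hΨ : QIMap S S Ψ K)
    {φ : XF S (KX M K) → ℝ} (hφ : φ ∈ cyl S (KX M K)) (x g : M.G) :
    Measurable fun m : M.NN => φ (XP M hS hΨ (x * M.toG m * g)) := by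
  classical
  obtain ⟨-, J, hJ⟩ := hφ
  let _ : MeasurableSpace Γ := ⊤
  have : DiscreteMeasurableSpace Γ := ⟨fun _ => trivial⟩
  let R : XF S (KX M K) → (J → Γ) := fun F j => F.F j
  have hfac : Function.FactorsThrough φ R := fun F F' h => hJ F F' fun j hj => congrFun h ⟨j, hj⟩
  have e : (fun m : M.NN => φ (XP M hS hΨ (x * M.toG m * g))) =
      (Function.extend R φ 0) ∘ fun m : M.NN => R (XP M hS hΨ (x * M.toG m * g)) := by
    funext m
    exact (hfac.extend_apply 0 _).symm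
  rw [e]
  refine Measurable.of_discrete.comp (measurable_pi_lambda _ fun j => ?_)
  have := measurable_pair (M := M) (fun γ γ' => (Ψ γ)⁻¹ * Ψ γ') x g (g * M.ι j)
  simp only [← mul_assoc] at this
  exact this

theorem measurable_N_fh (N : Seminorm ℝ (Fin k → ℝ)) (Ψ : Γ → Γ) (x g g' : M.G) :
    Measurable fun m : M.NN => N (fh M Ψ (x * M.toG m * g) - fh M Ψ (x * M.toG m * g')) :=
  measurable_pair (M := M) (fun γ γ' => N (M.h (M.ι (Ψ γ)) - M.h (M.ι (Ψ γ')))) x g g'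

end Meas

section Mu

variable {S : Finset Γ} {M : BModel (S : Set Γ) π} [Countable Γ]

variable (M) in
/-- the law of the points `x m (g c b)`. -/
noncomputable def mu (hS : Subgroup.closure (S : Set Γ) = ⊤) {Ψ : Γ → Γ} {K : ℕ}
    (hΨ : QIMap (S : Set Γ) (S : Set Γ) Ψ K) (Q : Set M.NN) (θ : FM M.C) (x g b : M.G)
    (φ : XF (S : Set Γ) (KX M K) → ℝ) : ℝ :=
  θ.E fun c => av volume Q fun m => φ (XP M hS hΨ (x * M.toG m * (g * c * b)))

variable {hS : Subgroup.closure (S : Set Γ) = ⊤} {Ψ : Γ → Γ} {K : ℕ}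
    {hΨ : QIMap (S : Set Γ) (S : Set Γ) Ψ K} {Q : Set M.NN} {θ : FM M.C} {x g b : M.G}

theorem pmean_mu (hQ : (volume : Measure M.NN) Q ≠ ⊤) (hQ0 : (volume : Measure M.NN) Q ≠ 0) :
    PMean (cyl (S : Set Γ) (KX M K)) (mu M hS hΨ Q θ x g b) where
  add φ hφ χ hχ := by
    unfold mu
    rw [← θ.E_add]
    congr 1
    funext c
    obtain ⟨C, hC⟩ := hφ.1
    obtain ⟨D, hD⟩ := hχ.1
    exact av_add hQ (measurable_XP hS hΨ hφ x _) (fun m => hC _) (measurable_XP hS hΨ hχ x _)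
      (fun m => hD _)
  smul c φ _ := by
    unfold mu
    rw [← θ.E_smul]
    congr 1
    funext c'
    exact av_smul c _
  nonneg φ _ h := by
    unfold mu
    exact θ.E_nonneg fun i => av_nonneg fun m => h _
  one := by
    unfold mu
    have : (fun c : M.C => av volume Q fun m : M.NN =>
        (1 : XF (S : Set Γ) (KX M K) → ℝ) (XP M hS hΨ (x * M.toG m * (g * c * b)))) =
        fun _ => 1 := by
      funext c
      exact av_const hQ hQ0 1
    rw [this, θ.E_const]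

theorem mu_inv (hQm : MeasurableSet Q) (hQ : (volume : Measure M.NN) Q ≠ ⊤)
    (hQ0 : (volume : Measure M.NN) Q ≠ 0) {γ : Γ} {X : M.L} {y : M.G}
    (hγ : M.ι γ = M.ex X * y) {κ : M.C} (hκ : (κ : M.G) = b * y * b⁻¹) {τ₁ τ₂ : ℝ} (hτ₁ : 0 ≤ τ₁)
    (hθ : ∀ (Φ : M.C → ℝ) (C : ℝ), (∀ x, |Φ x| ≤ C) →
      |θ.E (fun x => Φ (x * κ)) - θ.E Φ| ≤ τ₂ * C)
    (h1 : ∀ i, (volume : Measure M.NN)
      {m | m ∈ Q ∧ m * M.conjN (g * θ.p i * b) (M.E.symm X) ∉ Q} ≤ ENNReal.ofReal τ₁ * volume Q)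
    (h2 : ∀ i, (volume : Measure M.NN)
      {m | m ∈ Q ∧ m * (M.conjN (g * θ.p i * b) (M.E.symm X))⁻¹ ∉ Q} ≤
        ENNReal.ofReal τ₁ * volume Q)
    {φ : XF (S : Set Γ) (KX M K) → ℝ} (hφ : φ ∈ cyl (S : Set Γ) (KX M K)) {C : ℝ}
    (hC : ∀ F, |φ F| ≤ C) :
    |mu M hS hΨ Q θ x g b (fun F => φ (F.act γ)) - mu M hS hΨ Q θ x g b φ| ≤
      (2 * τ₁ + τ₂) * C := by
  set Φ : M.C → ℝ := fun c => av volume Q fun m => φ (XP M hS hΨ (x * M.toG m * (g * c * b)))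
    with hΦ
  have hΦC : ∀ c, |Φ c| ≤ C := fun c => abs_av_le hQ hQ0 fun m => hC _
  have e1 : ∀ (c : M.C) (m : M.NN), φ ((XP M hS hΨ (x * M.toG m * (g * c * b))).act γ) =
      φ (XP M hS hΨ (x * M.toG (m * M.conjN (g * c * b) (M.E.symm X)) *
        (g * ((c * κ : M.C) : M.G) * b))) := by
    intro c m
    rw [XP_act]
    congr 2
    rw [map_mul, hγ]
    have e2 := M.toG_conjN (g * c * b) (M.E.symm X)
    have e3 : M.toG (M.E.symm X) = M.ex X := by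
      rw [M.toG_apply, LinearEquiv.apply_symm_apply]
    rw [e2, e3, Subgroup.coe_mul, hκ]
    group
  have k1 := hθ Φ C hΦC
  have k2 : |mu M hS hΨ Q θ x g b (fun F => φ (F.act γ)) - θ.E (fun c => Φ (c * κ))| ≤
      2 * τ₁ * C := by
    unfold mu
    rw [← θ.E_sub]
    refine θ.abs_E_le fun i => ?_
    have e4 : (fun m : M.NN => φ ((XP M hS hΨ (x * M.toG m * (g * (θ.p i) * b))).act γ)) =
        fun m : M.NN => (fun m' : M.NN => φ (XP M hS hΨ (x * M.toG m' *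
          (g * ((θ.p i * κ : M.C) : M.G) * b)))) (m * M.conjN (g * (θ.p i) * b) (M.E.symm X)) := by
      funext m
      exact e1 _ _
    rw [e4]
    exact av_shift hQm hQ hQ0 hτ₁ (h1 i) (h2 i) (measurable_XP hS hΨ hφ x _) (fun m => hC _)
  have k3 : mu M hS hΨ Q θ x g b φ = θ.E Φ := rfl
  rw [k3]
  rw [abs_le] at k1 k2 ⊢
  constructor <;> nlinarith [k1.1, k1.2, k2.1, k2.2]

end Mu

section Growth

open Pointwise

variable {S : Set Γ} {M : BModel S π} {R₀ : ℝ}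

variable (M) in
/-- letters of `C` -/
def Lam (R₀ : ℝ) : Set M.C := {c | M.len (c : M.G) ≤ R₀}

theorem one_mem_Lam (h : 0 ≤ R₀) : (1 : M.C) ∈ Lam M R₀ := by
  change M.len ((1 : M.C) : M.G) ≤ R₀
  rw [Subgroup.coe_one, M.isLen.one]; exact h

theorem Lam_inv : (Lam M R₀)⁻¹ = Lam M R₀ := by
  ext c
  rw [Set.mem_inv]
  change M.len ((c⁻¹ : M.C) : M.G) ≤ R₀ ↔ M.len (c : M.G) ≤ R₀
  rw [Subgroup.coe_inv, M.isLen.inv]

theorem exists_list_of_mem {n : ℕ} {c : M.C} (hc : c ∈ Lam M R₀ ^ n) :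
    ∃ l : List M.G, l.length = n ∧ (∀ s ∈ l, s ∈ M.C ∧ M.len s ≤ R₀) ∧ (c : M.G) = l.prod := by
  induction n generalizing c with
  | zero =>
    rw [pow_zero, Set.mem_one] at hc
    exact ⟨[], rfl, by simp, by simp [hc]⟩
  | succ n ih =>
    rw [pow_succ'] at hc
    obtain ⟨a, ha, b, hb, rfl⟩ := Set.mem_mul.1 hc
    obtain ⟨l, hl, hl', hb'⟩ := ih hb
    refine ⟨(a : M.G) :: l, by simp [hl], ?_, by simp [hb']⟩
    intro s hs
    rcases List.mem_cons.1 hs with rfl | hs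
    · exact ⟨a.2, ha⟩
    · exact hl' s hs

theorem mem_Lam_pow {l : List M.G} {n : ℕ} (hR : 0 ≤ R₀) (hl : l.length ≤ n)
    (h : ∀ s ∈ l, s ∈ M.C ∧ M.len s ≤ R₀) {c : M.C} (hc : (c : M.G) = l.prod) :
    c ∈ Lam M R₀ ^ n := by
  refine pow_mono (one_mem_Lam hR) hl ?_
  clear hl
  induction l generalizing c with
  | nil =>
    have : c = 1 := Subtype.ext (by simpa using hc)
    rw [this]; simp
  | cons a l ih =>
    rw [List.length_cons, pow_succ']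
    have ha := h a (by simp)
    have hl : ∀ s ∈ l, s ∈ M.C ∧ M.len s ≤ R₀ := fun s hs => h s (by simp [hs])
    have hlC : l.prod ∈ M.C := Subgroup.list_prod_mem _ fun s hs => (hl s hs).1
    have : c = ⟨a, ha.1⟩ * ⟨l.prod, hlC⟩ := Subtype.ext (by simpa using hc)
    rw [this]
    exact Set.mul_mem_mul ha.2 (ih hl rfl)

theorem len_list_le {l : List M.G} (h : ∀ s ∈ l, M.len s ≤ R₀) : M.len l.prod ≤ l.length * R₀ := by
  induction l with
  | nil => simp [M.isLen.one]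
  | cons a l ih =>
    rw [List.prod_cons, List.length_cons]
    have h1 := M.isLen.mul a l.prod
    have h2 := h a (by simp)
    have h3 := ih fun s hs => h s (by simp [hs])
    push_cast
    linarith

theorem len_le_of_mem {n : ℕ} {c : M.C} (hc : c ∈ Lam M R₀ ^ n) : M.len (c : M.G) ≤ n * R₀ := by
  obtain ⟨l, hl, hl', hc'⟩ := exists_list_of_mem hc
  rw [hc', ← hl]
  exact len_list_le fun s hs => (hl' s hs).2

theorem exists_polyGr (hR : M.a ≤ R₀) : ∃ A, PolyGr (Lam M R₀) A := by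
  classical
  obtain ⟨A, hA⟩ := M.C_growth R₀
  refine ⟨A, fun n Y hY hsep => ?_⟩
  obtain ⟨F, hF, hF'⟩ := hA n
  have h1 : ∀ y ∈ Y, ∃ f ∈ F, f ∈ M.C ∧ M.len (f⁻¹ * (y : M.G)) ≤ M.a := by
    intro y hy
    obtain ⟨l, hl, hl', hc⟩ := exists_list_of_mem (hY y hy)
    rw [hc]
    exact hF' l hl.le hl'
  choose! f hf hfC hflen using h1
  refine (Finset.card_le_card_of_injOn f (fun y hy => hf y hy) ?_).trans hF
  intro y hy y' hy' he
  have hy1 : y ∈ Y := hy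
  have hy'1 : y' ∈ Y := hy'
  refine hsep y hy1 y' hy'1 ?_
  have e1 : y⁻¹ * y' = ((⟨f y, hfC y hy1⟩ : M.C)⁻¹ * y)⁻¹ * ((⟨f y, hfC y hy1⟩ : M.C)⁻¹ * y') := by
    group
  have e2 : ((⟨f y, hfC y hy1⟩ : M.C)⁻¹ * y) ∈ Lam M R₀ := by
    change M.len ((f y)⁻¹ * (y : M.G)) ≤ R₀
    exact (hflen y hy1).trans hR
  have e3 : ((⟨f y, hfC y hy1⟩ : M.C)⁻¹ * y') ∈ Lam M R₀ := by
    change M.len ((f y)⁻¹ * (y' : M.G)) ≤ R₀
    rw [he]
    exact (hflen y' hy'1).trans hR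
  have e4 : ((⟨f y, hfC y hy1⟩ : M.C)⁻¹ * y)⁻¹ ∈ Lam M R₀ := by
    have := Lam_inv (M := M) (R₀ := R₀)
    rw [← this, Set.mem_inv, inv_inv]; exact e2
  rw [e1, pow_two]
  exact Set.mul_mem_mul e4 e3

end Growth

/-- conjugates of bounded elements of `C` by powers of `b` have sublinear length with respect to
fixed letters. -/
def SubConj {S : Set Γ} (M : BModel S π) (b : M.G) (R₀ : ℝ) : Prop :=
  ∀ R δ : ℝ, 0 < δ → ∃ N₀ : ℕ, ∀ N : ℕ, N₀ ≤ N → ∀ j : ℕ, j ≤ N → ∀ y ∈ M.C, M.len y ≤ R →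
    ∃ l : List M.G, b ^ j * y * (b ^ j)⁻¹ = l.prod ∧ (l.length : ℝ) ≤ δ * N ∧
      ∀ s ∈ l, s ∈ M.C ∧ M.len s ≤ R₀

section Main

variable {S : Finset Γ} {M : BModel (S : Set Γ) π} [Countable Γ] {N : Seminorm ℝ (Fin k → ℝ)}

/-- excess of the height of the image over one step `u` at the point `x m p`. -/
noncomputable def Dv (M : BModel (S : Set Γ) π) (N : Seminorm ℝ (Fin k → ℝ)) (Ψ : Γ → Γ)
    (x p u : M.G) (c : ℝ) (m : M.NN) : ℝ :=
  max (N (fh M Ψ (x * M.toG m * (p * u)) - fh M Ψ (x * M.toG m * p)) - c) 0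

theorem Dv_nonneg (Ψ : Γ → Γ) (x p u : M.G) (c : ℝ) (m : M.NN) : 0 ≤ Dv M N Ψ x p u c m :=
  le_max_right _ _

theorem measurable_Dv (Ψ : Γ → Γ) (x p u : M.G) (c : ℝ) : Measurable (Dv M N Ψ x p u c) :=
  ((measurable_N_fh N Ψ x (p * u) p).sub_const c).max measurable_const

theorem abs_Dv_le {Ψ : Γ → Γ} {c0 : ℝ} (hc0 : ∀ g u : M.G,
    N (fh M Ψ (g * u) - fh M Ψ g) ≤ c0 * (M.len u + 1)) (x p u : M.G) {c : ℝ} (m : M.NN) :
    |Dv M N Ψ x p u c m| ≤ |c0| * (M.len u + 1) + |c| := by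
  rw [abs_of_nonneg (Dv_nonneg _ _ _ _ _ _)]
  have h1 := hc0 (x * M.toG m * p) u
  rw [mul_assoc _ p u] at h1
  have h2 : 0 ≤ M.len u := M.isLen.nonneg u
  have h3 : c0 * (M.len u + 1) ≤ |c0| * (M.len u + 1) := by
    gcongr; exact le_abs_self _
  refine max_le ?_ (by positivity)
  have := neg_abs_le c
  linarith

/-- sum over the blocks -/
theorem Dv_sum (Ψ : Γ → Γ) (x p b : M.G) (J : ℕ) (c : ℝ) (q : ℕ) (m : M.NN) :
    Dv M N Ψ x p (b ^ (J * q)) (q * c) m ≤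
      ∑ i ∈ Finset.range q, Dv M N Ψ x (p * b ^ (J * i)) (b ^ J) c m := by
  induction q with
  | zero => simp [Dv]
  | succ q ih =>
    rw [Finset.sum_range_succ]
    refine le_trans ?_ (add_le_add_left ih _)
    unfold Dv
    have e1 : p * b ^ (J * (q + 1)) = p * b ^ (J * q) * b ^ J := by
      rw [mul_add, mul_one, pow_add, mul_assoc]
    rw [e1]
    have h1 := map_add_le_add N
      (fh M Ψ (x * M.toG m * (p * b ^ (J * q))) - fh M Ψ (x * M.toG m * p))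
      (fh M Ψ (x * M.toG m * (p * b ^ (J * q) * b ^ J)) -
        fh M Ψ (x * M.toG m * (p * b ^ (J * q))))
    have e2 : fh M Ψ (x * M.toG m * (p * b ^ (J * q))) - fh M Ψ (x * M.toG m * p) +
      (fh M Ψ (x * M.toG m * (p * b ^ (J * q) * b ^ J)) -
        fh M Ψ (x * M.toG m * (p * b ^ (J * q)))) =
        fh M Ψ (x * M.toG m * (p * b ^ (J * q) * b ^ J)) - fh M Ψ (x * M.toG m * p) := by abel
    rw [e2] at h1
    have h2 := le_max_left (N (fh M Ψ (x * M.toG m * (p * b ^ (J * q))) -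
      fh M Ψ (x * M.toG m * p)) - q * c) 0
    have h3 := le_max_left (N (fh M Ψ (x * M.toG m * (p * b ^ (J * q) * b ^ J)) -
        fh M Ψ (x * M.toG m * (p * b ^ (J * q)))) - c) 0
    refine max_le ?_ (add_nonneg (le_max_right _ _) (le_max_right _ _))
    push_cast
    linarith

/-- the block estimate at the level of the points. -/
theorem block_pt (hS : Subgroup.closure (S : Set Γ) = ⊤) {K : ℕ} {b : M.G} {δ τ : ℝ} {J : ℕ}
    {T : Finset Γ} (hblock : ∀ μ : (XF (S : Set Γ) (KX M K) → ℝ) → ℝ,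
        PMean (cyl (S : Set Γ) (KX M K)) μ →
        (∀ γ ∈ T, ∀ φ ∈ cyl (S : Set Γ) (KX M K), ∀ C : ℝ, (∀ F, |φ F| ≤ C) →
          |μ (fun F => φ (F.act γ)) - μ φ| ≤ τ * C) →
        μ (fun w => exc π N (J * (N (M.h b) + δ)) (w.F (M.rnd (b ^ J)))) ≤ δ * J)
    {Ψ : Γ → Γ} (hΨ : QIMap (S : Set Γ) (S : Set Γ) Ψ K) {c0 : ℝ} (hc0 : ∀ g u : M.G,
      N (fh M Ψ (g * u) - fh M Ψ g) ≤ c0 * (M.len u + 1)) (hc00 : 0 ≤ c0)
    (hJ : c0 * (M.a + 1) ≤ δ * J) {Q : Set M.NN} (hQm : MeasurableSet Q)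
    (hQ : (volume : Measure M.NN) Q ≠ ⊤)
    (hQ0 : (volume : Measure M.NN) Q ≠ 0) {θ : FM M.C} {x g : M.G} {d : M.G} {τ₁ τ₂ : ℝ}
    (hτ₁ : 0 ≤ τ₁) (hτ : 2 * τ₁ + τ₂ ≤ τ)
    (hT : ∀ γ ∈ T, ∃ (X : M.L) (y : M.G) (κ : M.C), M.ι γ = M.ex X * y ∧
      (κ : M.G) = d * y * d⁻¹ ∧ (∀ (Φ : M.C → ℝ) (C : ℝ), (∀ x, |Φ x| ≤ C) →
        |θ.E (fun x => Φ (x * κ)) - θ.E Φ| ≤ τ₂ * C) ∧
      (∀ i, (volume : Measure M.NN)
        {m | m ∈ Q ∧ m * M.conjN (g * θ.p i * d) (M.E.symm X) ∉ Q} ≤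
          ENNReal.ofReal τ₁ * volume Q) ∧
      (∀ i, (volume : Measure M.NN)
        {m | m ∈ Q ∧ m * (M.conjN (g * θ.p i * d) (M.E.symm X))⁻¹ ∉ Q} ≤
          ENNReal.ofReal τ₁ * volume Q)) :
    θ.E (fun c => av volume Q (Dv M N Ψ x (g * c * d) (b ^ J) (J * (N (M.h b) + 2 * δ)))) ≤
      δ * J := by
  have h1 := hblock (mu M hS hΨ Q θ x g d) (pmean_mu hQ hQ0) (fun γ hγ φ hφ C hC => by
    obtain ⟨X, y, κ, e1, e2, e3, e4, e5⟩ := hT γ hγ
    refine (mu_inv hQm hQ hQ0 e1 e2 hτ₁ e3 e4 e5 hφ hC).trans ?_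
    have hC0 : 0 ≤ C := (abs_nonneg _).trans (hC (XP M hS hΨ 1))
    gcongr)
  refine le_trans ?_ h1
  unfold mu
  obtain ⟨Ce, hCe⟩ := exists_exc_bound hS π N (KX M K) (J * (N (M.h b) + δ)) (M.rnd (b ^ J))
  have hcyl := cyl_eval (K := KX M K) (M.rnd (b ^ J)) (exc π N (J * (N (M.h b) + δ))) ⟨Ce, hCe⟩
  refine θ.E_mono fun i => ?_
  refine av_mono hQ (measurable_Dv _ _ _ _ _) (fun m => abs_Dv_le hc0 _ _ _ m)
    (measurable_XP hS hΨ hcyl x _) (fun m => hCe _) fun m => ?_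
  unfold Dv exc
  refine max_le_max ?_ le_rfl
  rw [hgtR_XP]
  set p := x * M.toG m * (g * (θ.p i) * d) with hp
  have e1 : x * M.toG m * (g * (θ.p i) * d * b ^ J) =
      p * M.ι (M.rnd (b ^ J)) * ((M.ι (M.rnd (b ^ J)))⁻¹ * b ^ J) := by
    rw [hp]; group
  rw [e1]
  have h2 := hc0 (p * M.ι (M.rnd (b ^ J))) ((M.ι (M.rnd (b ^ J)))⁻¹ * b ^ J)
  have h3 : c0 * (M.len ((M.ι (M.rnd (b ^ J)))⁻¹ * b ^ J) + 1) ≤ c0 * (M.a + 1) := by
    gcongr
    exact M.len_rnd _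
  have h4 := map_add_le_add N
    (fh M Ψ (p * M.ι (M.rnd (b ^ J)) * ((M.ι (M.rnd (b ^ J)))⁻¹ * b ^ J)) -
      fh M Ψ (p * M.ι (M.rnd (b ^ J))))
    (fh M Ψ (p * M.ι (M.rnd (b ^ J))) - fh M Ψ p)
  rw [sub_add_sub_cancel] at h4
  have h5 : (J : ℝ) * (N (M.h b) + 2 * δ) = J * (N (M.h b) + δ) + δ * J := by ring
  rw [h5]
  linarith

set_option maxHeartbeats 1000000 in
open Pointwise in
/-- **LIP**: the one-sided Lipschitz bound along the legs `b ∈ B`, at one common scale `n`. -/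
theorem lip_main (hS : Subgroup.closure (S : Set Γ) = ⊤) (hΓ : Amen Γ)
    (hmic : MicOut (S : Set Γ) π N) (B : Finset M.G) (hBC : ∀ b ∈ B, b ∈ M.C) {R₀ : ℝ}
    (hR₀ : M.a ≤ R₀) (hBR : ∀ b ∈ B, M.len b ≤ R₀) (hsub : ∀ b ∈ B, SubConj M b R₀) (K T : ℕ)
    {μ₀ δ : ℝ} (hμ₀ : 0 < μ₀) (hδ : 0 < δ) :
    ∃ R1 τ : ℝ, 0 < τ ∧ ∀ N1 : ℕ, ∃ n : ℕ, N1 ≤ n ∧ ∀ Ψ : Γ → Γ,
      QIMap (S : Set Γ) (S : Set Γ) Ψ K → ∀ b ∈ B, ∀ x g : M.G, ∀ Q : Set M.NN,
      MeasurableSet Q → (volume : Measure M.NN) Q ≠ 0 → (volume : Measure M.NN) Q ≠ ⊤ →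
      ∀ J : ℕ, J ≤ T * n →
      (∀ l : List M.G, (l.length : ℝ) ≤ μ₀ * n → (∀ s ∈ l, s ∈ M.C ∧ M.len s ≤ R₀) →
        ∀ i ≤ J, ∀ u : M.NN, ‖u‖ ≤ R1 → (volume : Measure M.NN)
          {m | m ∈ Q ∧ m * M.conjN (g * l.prod * b ^ i) u ∉ Q} ≤
            ENNReal.ofReal τ * volume Q) →
      (volume : Measure M.NN) {m | m ∈ Q ∧ J * N (M.h b) + δ * n <
        N (fh M Ψ (x * M.toG m * (g * b ^ J)) - fh M Ψ (x * M.toG m * g))} ≤
          ENNReal.ofReal δ * volume Q := by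
  classical
  have ha := M.a0
  have hR₀0 : 0 ≤ R₀ := ha.trans hR₀
  obtain ⟨c0, hc0, hlip⟩ := fh_N_lip M N K
  -- the ratio of the scales
  obtain ⟨D, hD⟩ := exists_nat_gt (max (1 / μ₀) (32 * c0 * R₀ / δ))
  have hDμ : 1 ≤ μ₀ * D := by
    have := (le_max_left _ _).trans_lt hD
    rw [div_lt_iff₀ hμ₀] at this
    linarith
  have hDδ : 32 * c0 * R₀ ≤ δ * D := by
    have := (le_max_right _ _).trans_lt hD
    rw [div_lt_iff₀ hδ] at this
    linarith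
  have hD1 : 1 ≤ D := by
    rcases Nat.eq_zero_or_pos D with h | h
    · rw [h] at hDμ; simp at hDμ; linarith
    · exact h
  have hDr : (1:ℝ) ≤ D := by exact_mod_cast hD1
  obtain ⟨A, hA⟩ := exists_polyGr (M := M) hR₀
  have hsolv := M.C_solv
  obtain ⟨κ, hκ, hloc⟩ := exists_local (one_mem_Lam hR₀0) Lam_inv (reiter_of_isSolvable M.C) hA
    (T * D)
  set δ' : ℝ := min (δ / (32 * (T + 1))) (κ * δ ^ 2 / (8 * (T + 1))) with hδ'
  have hδ'0 : 0 < δ' := by rw [hδ']; positivity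
  have hδ'1 : δ' * T ≤ δ / 32 := by
    have h1 : δ' ≤ δ / (32 * (T + 1)) := min_le_left _ _
    have h2 : δ / (32 * (T + 1)) * T ≤ δ / 32 := by
      rw [div_mul_eq_mul_div, div_le_div_iff₀ (by positivity) (by positivity)]
      nlinarith
    exact (mul_le_mul_of_nonneg_right h1 (Nat.cast_nonneg T)).trans h2
  have hδ'2 : δ' * T / κ ≤ δ / 2 * δ := by
    have h1 : δ' ≤ κ * δ ^ 2 / (8 * (T + 1)) := min_le_right _ _
    rw [div_le_iff₀ hκ]
    have h2 : κ * δ ^ 2 / (8 * (T + 1)) * T ≤ κ * δ ^ 2 / 8 := by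
      rw [div_mul_eq_mul_div, div_le_div_iff₀ (by positivity) (by positivity)]
      have : 0 ≤ κ * δ ^ 2 := by positivity
      nlinarith
    have h3 := (mul_le_mul_of_nonneg_right h1 (Nat.cast_nonneg T)).trans h2
    have : 0 ≤ κ * δ ^ 2 := by positivity
    linarith
  -- blocks
  obtain ⟨J0, hJ0⟩ := exists_nat_gt (c0 * (M.a + 1) / δ')
  rw [div_lt_iff₀ hδ'0] at hJ0
  choose Jb hJb0 hJb1 Tb τb hτb hblock using fun b : M.G =>
    block (M := M) hS hΓ hmic (KX M K) b hδ'0 J0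
  obtain ⟨τ₀, hτ₀, hτ₀le⟩ : ∃ τ₀ : ℝ, 0 < τ₀ ∧ ∀ b ∈ B, τ₀ ≤ τb b := by
    rcases B.eq_empty_or_nonempty with h | h
    · exact ⟨1, one_pos, by rw [h]; simp⟩
    · obtain ⟨x0, hx0, hmin⟩ := B.exists_min_image τb h
      exact ⟨τb x0, hτb x0, hmin⟩
  set TT : Finset Γ := B.biUnion Tb with hTT
  -- decomposition of the elements of `TT`
  obtain ⟨Rl, hRl⟩ : ∃ Rl : ℝ, ∀ γ ∈ TT, M.len (M.ι γ) ≤ Rl :=
    ⟨∑ γ ∈ TT, M.len (M.ι γ), fun γ hγ => Finset.single_le_sum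
      (f := fun γ => M.len (M.ι γ)) (fun γ _ => M.isLen.nonneg _) hγ⟩
  obtain ⟨R', hR'⟩ := M.dec Rl
  choose! X y hyC hγe hX hy using fun γ (hγ : γ ∈ TT) => hR' (M.ι γ) (hRl γ hγ)
  obtain ⟨ω, hω, hscale⟩ := hloc (τ₀ / 2) (half_pos hτ₀)
  choose! N₀ hN₀ using fun b (hb : b ∈ B) => hsub b hb R' (ω / (T * D + 1)) (by positivity)
  set Jm : ℕ := B.sup Jb with hJm
  have hJm' : ∀ b ∈ B, Jb b ≤ Jm := fun b hb => Finset.le_sup (f := Jb) hb
  obtain ⟨n2, hn2⟩ := exists_nat_gt (32 * (3 * c0 + c0 * (Jm * R₀)) / δ)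
  rw [div_lt_iff₀ hδ] at hn2
  refine ⟨R', τ₀ / 4, by positivity, fun N1 => ?_⟩
  obtain ⟨M', hM'N, hM'⟩ := hscale (max (max N1 1) (max (B.sup N₀) n2))
  have hM'1 : N1 ≤ M' := ((le_max_left _ _).trans (le_max_left _ _)).trans hM'N
  have hM'2 : 1 ≤ M' := ((le_max_right _ _).trans (le_max_left _ _)).trans hM'N
  have hM'3 : ∀ b ∈ B, N₀ b ≤ M' := fun b hb =>
    (((Finset.le_sup (f := N₀) hb).trans (le_max_left _ _)).trans (le_max_right _ _)).trans hM'N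
  have hM'4 : n2 ≤ M' := ((le_max_right _ _).trans (le_max_right _ _)).trans hM'N
  have hM'r : (1:ℝ) ≤ M' := by exact_mod_cast hM'2
  have hM'0 : (0:ℝ) ≤ M' := by linarith
  refine ⟨D * M', hM'1.trans (Nat.le_mul_of_pos_left _ hD1), ?_⟩
  intro Ψ hΨ b hb x g Q hQm hQ0 hQ J hJ habs
  have hlipΨ := hlip Ψ hΨ
  have hM'μ : (M' : ℝ) ≤ μ₀ * (D * M') := by
    have := mul_le_mul_of_nonneg_right hDμ hM'0
    linarith only [this]
  set n : ℝ := ((D * M' : ℕ) : ℝ) with hn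
  have hnD : n = D * M' := by rw [hn]; push_cast; ring
  have hn0 : 0 < n := by rw [hnD]; nlinarith
  have hM'n : (M' : ℝ) ≤ n := by rw [hnD]; nlinarith
  have hJn : (J : ℝ) ≤ T * n := by rw [hn]; exact_mod_cast hJ
  -- conjugates
  let bC : M.C := ⟨b, hBC b hb⟩
  let yC : Γ → M.C := fun γ => if h : γ ∈ TT then ⟨y γ, hyC γ h⟩ else 1
  let kf : ℕ × Γ → M.C := fun p => bC ^ p.1 * yC p.2 * (bC ^ p.1)⁻¹
  set 𝒦 : Finset M.C := (Finset.range (J + 1) ×ˢ TT).image kf with h𝒦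
  set w : ℕ := ⌊ω * M'⌋₊ with hw
  have hw' : (w : ℝ) ≤ ω * M' := Nat.floor_le (by positivity)
  have hJT : J ≤ (T * D + 1) * M' := by
    calc J ≤ T * (D * M') := hJ
      _ = T * D * M' := by ring
      _ ≤ (T * D + 1) * M' := Nat.mul_le_mul_right _ (Nat.le_succ _)
  have hkw : ∀ k ∈ 𝒦, k ∈ Lam M R₀ ^ w := by
    intro k hk
    obtain ⟨⟨i, γ⟩, hiγ, rfl⟩ := Finset.mem_image.1 hk
    rw [Finset.mem_product, Finset.mem_range] at hiγ
    obtain ⟨hi, hγ⟩ := hiγ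
    simp only at hi hγ
    obtain ⟨l, hl, hlen, hls⟩ := hN₀ b hb ((T * D + 1) * M')
      ((hM'3 b hb).trans (Nat.le_mul_of_pos_left _ (Nat.succ_pos _))) i (by omega) (y γ)
      (hyC γ hγ) (hy γ hγ)
    refine mem_Lam_pow hR₀0 ?_ hls (c := kf (i, γ)) ?_
    · refine Nat.le_floor (hlen.trans (le_of_eq ?_))
      push_cast
      have : (T : ℝ) * D + 1 ≠ 0 := by positivity
      field_simp
    · rw [← hl]
      simp only [kf, yC, dif_pos hγ, bC, Subgroup.coe_mul, Subgroup.coe_inv, Subgroup.coe_pow]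
  have hbJ : bC ^ J ∈ Lam M R₀ ^ (T * D * M') := by
    have h1 : bC ∈ Lam M R₀ := hBR b hb
    have h2 : bC ^ J ∈ Lam M R₀ ^ J := Set.pow_mem_pow h1
    refine pow_mono (one_mem_Lam hR₀0) ?_ h2
    calc J ≤ T * (D * M') := hJ
      _ = T * D * M' := by ring
  obtain ⟨θ, hθp, hθinv, hθκ⟩ := hM' 𝒦 w hw' hkw (bC ^ J) hbJ
  -- invariance data for every block
  have hdata : ∀ i ≤ J, ∀ γ ∈ TT, ∃ (X : M.L) (y : M.G) (κ : M.C), M.ι γ = M.ex X * y ∧
      (κ : M.G) = b ^ i * y * (b ^ i)⁻¹ ∧ (∀ (Φ : M.C → ℝ) (C : ℝ), (∀ x, |Φ x| ≤ C) →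
        |θ.E (fun x => Φ (x * κ)) - θ.E Φ| ≤ τ₀ / 2 * C) ∧
      (∀ j, (volume : Measure M.NN)
        {m | m ∈ Q ∧ m * M.conjN (g * θ.p j * b ^ i) (M.E.symm X) ∉ Q} ≤
          ENNReal.ofReal (τ₀ / 4) * volume Q) ∧
      (∀ j, (volume : Measure M.NN)
        {m | m ∈ Q ∧ m * (M.conjN (g * θ.p j * b ^ i) (M.E.symm X))⁻¹ ∉ Q} ≤
          ENNReal.ofReal (τ₀ / 4) * volume Q) := by
    intro i hi γ hγ
    refine ⟨X γ, y γ, kf (i, γ), hγe γ hγ, ?_, ?_, fun j => ?_, fun j => ?_⟩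
    · simp only [kf, yC, dif_pos hγ, bC, Subgroup.coe_mul, Subgroup.coe_inv, Subgroup.coe_pow]
    · exact hθinv _ (Finset.mem_image_of_mem _ (Finset.mem_product.2
        ⟨Finset.mem_range.2 (by omega), hγ⟩))
    · obtain ⟨l, hl, hls, hle⟩ := exists_list_of_mem (hθp j)
      rw [hle]
      refine habs l ?_ hls i hi _ (hX γ hγ)
      rw [hl, hnD]
      exact hM'μ
    · obtain ⟨l, hl, hls, hle⟩ := exists_list_of_mem (hθp j)
      rw [hle, ← map_inv]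
      refine habs l ?_ hls i hi _ ?_
      · rw [hl, hnD]
        exact hM'μ
      · rw [M.inv_def, norm_neg]
        exact hX γ hγ
  have hJ0b : c0 * (M.a + 1) ≤ δ' * Jb b := by
    have h1 : (J0 : ℝ) ≤ Jb b := by exact_mod_cast hJb0 b
    have h2 : (J0 : ℝ) * δ' ≤ Jb b * δ' := mul_le_mul_of_nonneg_right h1 hδ'0.le
    linarith only [h2, hJ0]
  have hTb : Tb b ⊆ TT := Finset.subset_biUnion_of_mem Tb hb
  have hblk : ∀ i ≤ J, θ.E (fun c => av volume Q (Dv M N Ψ x (g * c * b ^ i) (b ^ Jb b)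
      (Jb b * (N (M.h b) + 2 * δ')))) ≤ δ' * Jb b := fun i hi =>
    block_pt hS (hblock b) hΨ hlipΨ hc0 hJ0b hQm hQ hQ0 (τ₁ := τ₀ / 4) (τ₂ := τ₀ / 2)
      (by positivity) (by linarith [hτ₀le b hb]) fun γ hγ => hdata i hi γ (hTb hγ)
  -- sum over the blocks
  set q : ℕ := J / Jb b with hq
  have hqJ : Jb b * q ≤ J := Nat.mul_div_le J (Jb b)
  set cb : ℝ := Jb b * (N (M.h b) + 2 * δ') with hcb
  have hsum : θ.E (fun c => av volume Q (Dv M N Ψ x (g * c) (b ^ (Jb b * q)) (q * cb))) ≤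
      δ' * J := by
    have h1 : θ.E (fun c => av volume Q (Dv M N Ψ x (g * c) (b ^ (Jb b * q)) (q * cb))) ≤
        θ.E (fun c => ∑ i ∈ Finset.range q,
          av volume Q (Dv M N Ψ x (g * c * b ^ (Jb b * i)) (b ^ Jb b) cb)) := by
      refine θ.E_mono fun j => ?_
      rw [← av_sum hQ _ _ (fun i _ => measurable_Dv _ _ _ _ _)
        (C := fun i => |c0| * (M.len (b ^ Jb b) + 1) + |cb|)
        (fun i _ m => abs_Dv_le hlipΨ _ _ _ m)]
      refine av_mono hQ (measurable_Dv _ _ _ _ _) (fun m => abs_Dv_le hlipΨ _ _ _ m)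
        (Finset.measurable_fun_sum _ fun i _ => measurable_Dv _ _ _ _ _)
        (D := ∑ i ∈ Finset.range q, (|c0| * (M.len (b ^ Jb b) + 1) + |cb|))
        (fun m => ?_) fun m => ?_
      · refine (Finset.abs_sum_le_sum_abs _ _).trans (Finset.sum_le_sum fun i _ => ?_)
        exact abs_Dv_le hlipΨ _ _ _ m
      · have := Dv_sum (M := M) (N := N) Ψ x (g * θ.p j) b (Jb b) cb q m
        simpa only [mul_assoc] using this
    refine h1.trans ?_
    rw [θ.E_sum]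
    have h2 : ∀ i ∈ Finset.range q, θ.E (fun c =>
        av volume Q (Dv M N Ψ x (g * c * b ^ (Jb b * i)) (b ^ Jb b) cb)) ≤ δ' * Jb b := by
      intro i hi
      refine hblk _ ?_
      have : i ≤ q := (Finset.mem_range.1 hi).le
      exact (Nat.mul_le_mul_left _ this).trans hqJ
    refine (Finset.sum_le_sum h2).trans ?_
    rw [Finset.sum_const, Finset.card_range, nsmul_eq_mul]
    have h3 : (Jb b : ℝ) * q ≤ J := by exact_mod_cast hqJ
    calc (q : ℝ) * (δ' * Jb b) = δ' * (Jb b * q) := by ring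
      _ ≤ δ' * J := by gcongr
  obtain ⟨j, hjU, hj⟩ := θ.exists_le {c | (bC ^ J)⁻¹ * c * bC ^ J ∈ Lam M R₀ ^ M'}
    (fun c => av volume Q (Dv M N Ψ x (g * c) (b ^ (Jb b * q)) (q * cb))) hκ hθκ
    (fun c => av_nonneg fun m => Dv_nonneg _ _ _ _ _ _) hsum
  set c : M.C := θ.p j with hc
  have hjU' : (bC ^ J)⁻¹ * c * bC ^ J ∈ Lam M R₀ ^ M' := hjU
  have hlc : M.len (c : M.G) ≤ M' * R₀ := len_le_of_mem (hθp j)
  have hlc' : M.len (((bC ^ J)⁻¹ * c * bC ^ J : M.C) : M.G) ≤ M' * R₀ := len_le_of_mem hjU'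
  have hlenb : M.len b ≤ R₀ := hBR b hb
  have hlenbr : ∀ r : ℕ, r ≤ Jm → M.len (b ^ r) ≤ Jm * R₀ := by
    intro r hr
    have hr' : (r : ℝ) ≤ Jm := by exact_mod_cast hr
    refine (M.isLen.pow b r).trans ?_
    exact mul_le_mul hr' hlenb (M.isLen.nonneg _) (Nat.cast_nonneg _)
  have hJbm : Jb b ≤ Jm := hJm' b hb
  -- the pointwise bound
  have hpt : ∀ m : M.NN, N (fh M Ψ (x * M.toG m * (g * b ^ J)) - fh M Ψ (x * M.toG m * g)) ≤
      J * N (M.h b) + δ / 2 * n + Dv M N Ψ x (g * c) (b ^ (Jb b * q)) (q * cb) m := by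
    intro m
    have hmod : J % Jb b < Jb b := Nat.mod_lt _ (hJb1 b)
    have hJe : Jb b * q + J % Jb b = J := Nat.div_add_mod J (Jb b)
    -- four comparisons
    have p1 : N (fh M Ψ (x * M.toG m * (g * b ^ J)) - fh M Ψ (x * M.toG m * (g * c * b ^ J))) ≤
        c0 * (M' * R₀ + 1) := by
      have e1 : x * M.toG m * (g * c * b ^ J) = x * M.toG m * (g * b ^ J) *
          (((bC ^ J)⁻¹ * c * bC ^ J : M.C) : M.G) := by
        simp only [bC, Subgroup.coe_mul, Subgroup.coe_inv, Subgroup.coe_pow]; group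
      rw [← map_neg_eq_map, neg_sub, e1]
      refine (hlipΨ _ _).trans ?_
      gcongr
    have p2 : N (fh M Ψ (x * M.toG m * (g * c * b ^ J)) -
        fh M Ψ (x * M.toG m * (g * c * b ^ (Jb b * q)))) ≤ c0 * (Jm * R₀ + 1) := by
      have e1 : x * M.toG m * (g * c * b ^ J) = x * M.toG m * (g * c * b ^ (Jb b * q)) *
          b ^ (J % Jb b) := by
        conv_lhs => rw [← hJe]
        rw [pow_add]; simp only [mul_assoc]
      rw [e1]
      refine (hlipΨ _ _).trans ?_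
      have := hlenbr (J % Jb b) (by omega)
      gcongr
    have p3 : N (fh M Ψ (x * M.toG m * (g * c * b ^ (Jb b * q))) -
        fh M Ψ (x * M.toG m * (g * c))) ≤
        q * cb + Dv M N Ψ x (g * c) (b ^ (Jb b * q)) (q * cb) m := by
      have := le_max_left (N (fh M Ψ (x * M.toG m * (g * c * b ^ (Jb b * q))) -
        fh M Ψ (x * M.toG m * (g * c))) - q * cb) 0
      unfold Dv
      linarith
    have p4 : N (fh M Ψ (x * M.toG m * (g * c)) - fh M Ψ (x * M.toG m * g)) ≤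
        c0 * (M' * R₀ + 1) := by
      rw [← mul_assoc (x * M.toG m) g]
      refine (hlipΨ _ _).trans ?_
      gcongr
    have h1 := map_add_le_add N (fh M Ψ (x * M.toG m * (g * b ^ J)) -
      fh M Ψ (x * M.toG m * (g * c * b ^ J))) (fh M Ψ (x * M.toG m * (g * c * b ^ J)) -
        fh M Ψ (x * M.toG m * g))
    rw [sub_add_sub_cancel] at h1
    have h2 := map_add_le_add N (fh M Ψ (x * M.toG m * (g * c * b ^ J)) -
      fh M Ψ (x * M.toG m * (g * c * b ^ (Jb b * q))))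
      (fh M Ψ (x * M.toG m * (g * c * b ^ (Jb b * q))) - fh M Ψ (x * M.toG m * g))
    rw [sub_add_sub_cancel] at h2
    have h3 := map_add_le_add N (fh M Ψ (x * M.toG m * (g * c * b ^ (Jb b * q))) -
      fh M Ψ (x * M.toG m * (g * c))) (fh M Ψ (x * M.toG m * (g * c)) -
        fh M Ψ (x * M.toG m * g))
    rw [sub_add_sub_cancel] at h3
    -- numbers
    have n1 : (q : ℝ) * cb ≤ J * N (M.h b) + 2 * δ' * J := by
      have h4 : (Jb b : ℝ) * q ≤ J := by exact_mod_cast hqJ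
      have h5 : 0 ≤ N (M.h b) + 2 * δ' := add_nonneg (apply_nonneg N _) (by positivity)
      calc (q : ℝ) * cb = (Jb b * q) * (N (M.h b) + 2 * δ') := by rw [hcb]; ring
        _ ≤ J * (N (M.h b) + 2 * δ') := by gcongr
        _ = _ := by ring
    have n2' : 2 * δ' * J ≤ δ / 16 * n := by
      calc 2 * δ' * J ≤ 2 * δ' * (T * n) := by gcongr
        _ = 2 * (δ' * T) * n := by ring
        _ ≤ 2 * (δ / 32) * n := by gcongr
        _ = δ / 16 * n := by ring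
    have n3 : 2 * c0 * (M' * R₀) ≤ δ / 16 * n := by
      rw [hnD]
      have : 32 * c0 * R₀ * M' ≤ δ * D * M' := by gcongr
      linarith
    have n4 : 3 * c0 + c0 * (Jm * R₀) ≤ δ / 32 * n := by
      have h4 : (n2 : ℝ) ≤ M' := by exact_mod_cast hM'4
      have h5 : (n2 : ℝ) * δ ≤ n * δ := by gcongr; linarith
      linarith
    have hδn : 0 ≤ δ * n := by positivity
    linarith
  refine (measure_mono fun m hm => ?_).trans (markov hQm hQ hQ0
    (measurable_Dv (M := M) (N := N) Ψ x (g * c) (b ^ (Jb b * q)) (q * cb))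
    (fun m => abs_Dv_le hlipΨ _ _ _ m)
    (fun m => Dv_nonneg _ _ _ _ _ _) (c := δ / 2 * n) (δ := δ) (by positivity) ?_)
  · refine ⟨hm.1, ?_⟩
    have h1 := hm.2
    have h2 := hpt m
    linarith
  · refine hj.trans ?_
    calc δ' * J / κ ≤ δ' * (T * n) / κ := by gcongr
      _ = δ' * T / κ * n := by ring
      _ ≤ δ / 2 * δ * n := by gcongr
      _ = δ / 2 * n * δ := by ring

end Main

end Crest.Agent.R182.Lip
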