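/-
R182 (helper278): the Lipschitz hypothesis of `star_law` from `lip_main`.
-/
import Mathlib
import Crest.Agent.R182.LipMain
import Crest.Agent.R182.CapFin
import Crest.Agent.R182.StarLeg
import Crest.Agent.R182.InvInner
import Crest.Agent.R182.CoreX

set_option autoImplicit false
set_option linter.unusedSectionVars false

open MeasureTheory List

namespace Crest.Agent.R182.Star

open Crest.GroupTheory Crest.Geometry Crest.Agent.R182.QI Crest.Agent.R182.FinPath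
  Crest.Agent.R182.FinRed Crest.Agent.R182.Bnd Crest.Agent.R182.Core Crest.Agent.R182.Erg
  Crest.Agent.R182.OneScale Crest.Agent.R189.MeanF Crest.Agent.R182.Nb Crest.Agent.R182.Lip
  Crest.Agent.R182.Conv

variable {Γ : Type*} [Group Γ] {k : ℕ} {π : Γ →* Multiplicative (Fin k → ℤ)} {S : Finset Γ}
  {M : BModel (S : Set Γ) π} [Countable Γ] {E : Type*} [NormedAddCommGroup E]
  [InnerProductSpace ℝ E] {T : (Fin k → ℝ) ≃ₗ[ℝ] E} {V : Set M.NN} {RC : ℝ}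
  {P : BModel.CapPar M T V RC} {RS : RSys (GI M) E} {Tt : Set M.G} {Cb eps : ℝ}

theorem FF_ext (𝓛 : Legs (M.toCap P) RS Tt Cb eps) (N : ℕ) (τ : ℝ) (Ψ : Γ → Γ) (x : M.G)
    (n : M.NN) (w : List RS.Eb) :
    FF (M.toCap P) 𝓛 N τ (M.ext Ψ) x n w =
      (N : ℝ)⁻¹ • T (fh M Ψ (x * M.toG n * 𝓛.pos N τ w)) := rfl

theorem norm_FF_sub (𝓛 : Legs (M.toCap P) RS Tt Cb eps) {N : ℕ} (τ : ℝ) (Ψ : Γ → Γ)
    (x : M.G) (n : M.NN) (w w' : List RS.Eb) :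
    ‖FF (M.toCap P) 𝓛 N τ (M.ext Ψ) x n w' - FF (M.toCap P) 𝓛 N τ (M.ext Ψ) x n w‖ =
      nrmT T (fh M Ψ (x * M.toG n * 𝓛.pos N τ w') - fh M Ψ (x * M.toG n * 𝓛.pos N τ w)) / N := by
  rw [FF_ext, FF_ext, ← smul_sub, norm_smul, norm_inv, RCLike.norm_natCast, nrmT_apply, map_sub,
    div_eq_inv_mul]

theorem _root_.Crest.Agent.R182.Lip.SubConj.mono {M : BModel (S : Set Γ) π} {b : M.G} {R₀ R₀' : ℝ}
    (h : SubConj M b R₀) (hR : R₀ ≤ R₀') : SubConj M b R₀' := by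
  intro R δ hδ
  obtain ⟨N₀, h1⟩ := h R δ hδ
  refine ⟨N₀, fun N hN j hj y hy hyR => ?_⟩
  obtain ⟨l, e1, e2, e3⟩ := h1 N hN j hj y hy hyR
  exact ⟨l, e1, e2, fun s hs => ⟨(e3 s hs).1, (e3 s hs).2.trans hR⟩⟩

/-- the constant `R₀` of `lip_star` for given legs. -/
theorem exists_R0 (hX : XModel M) (𝓛 : Legs (M.toCap P) RS Tt Cb eps)
    (hCN : ∀ e, 𝓛.b e ∈ M.CN) :
    ∃ R₀ : ℝ, M.a ≤ R₀ ∧ (∀ e, M.len (𝓛.b e) ≤ R₀) ∧ ∀ e, SubConj M (𝓛.b e) R₀ := by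
  obtain ⟨R1, h1⟩ := hX.sub_conj
  have h0 : ∀ e, 0 ≤ M.len (𝓛.b e) := fun e => M.len_nonneg _
  have hs : 0 ≤ ∑ e, M.len (𝓛.b e) := Finset.sum_nonneg fun e _ => h0 e
  refine ⟨max R1 0 + M.a + ∑ e, M.len (𝓛.b e), ?_, fun e => ?_, fun e => ?_⟩
  · have := le_max_right R1 0
    linarith
  · have h2 := Finset.single_le_sum (f := fun e => M.len (𝓛.b e)) (fun e _ => h0 e)
      (Finset.mem_univ e)
    have := le_max_right R1 0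
    have := M.a0
    linarith
  · have h2 : SubConj M (𝓛.b e) R1 := h1 _ (hCN e)
    refine h2.mono ?_
    have := le_max_left R1 0
    have := M.a0
    linarith

/-- the body of `lip_main` at one scale `n`. -/
def LipAt (M : BModel (S : Set Γ) π) (Nn : Seminorm ℝ (Fin k → ℝ))
    (B : Finset M.G) (K Tm : ℕ) (μ₀ δ R₀ R1 τ' : ℝ) (n : ℕ) : Prop :=
  ∀ Ψ : Γ → Γ, QIMap (S : Set Γ) (S : Set Γ) Ψ K → ∀ b ∈ B, ∀ x g : M.G, ∀ Q : Set M.NN,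
    MeasurableSet Q → (volume : Measure M.NN) Q ≠ 0 → (volume : Measure M.NN) Q ≠ ⊤ →
    ∀ J : ℕ, J ≤ Tm * n →
    (∀ l : List M.G, (l.length : ℝ) ≤ μ₀ * n → (∀ s ∈ l, s ∈ M.C ∧ M.len s ≤ R₀) →
      ∀ i ≤ J, ∀ u : M.NN, ‖u‖ ≤ R1 → (volume : Measure M.NN)
        {m | m ∈ Q ∧ m * M.conjN (g * l.prod * b ^ i) u ∉ Q} ≤ ENNReal.ofReal τ' * volume Q) →
    (volume : Measure M.NN) {m | m ∈ Q ∧ J * Nn (M.h b) + δ * n <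
      Nn (fh M Ψ (x * M.toG m * (g * b ^ J)) - fh M Ψ (x * M.toG m * g))} ≤
        ENNReal.ofReal δ * volume Q

theorem exists_lipAt {Nn : Seminorm ℝ (Fin k → ℝ)} (hS : Subgroup.closure (S : Set Γ) = ⊤)
    (hΓ : Amen Γ) (hmic : MicOut (S : Set Γ) π Nn) (B : Finset M.G) (hBC : ∀ b ∈ B, b ∈ M.C)
    {R₀ : ℝ} (hR₀ : M.a ≤ R₀) (hBR : ∀ b ∈ B, M.len b ≤ R₀) (hsub : ∀ b ∈ B, SubConj M b R₀)
    (K Tm : ℕ) {μ₀ δ : ℝ} (hμ₀ : 0 < μ₀) (hδ : 0 < δ) :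
    ∃ R1 τ' : ℝ, 0 < τ' ∧ ∀ N1 : ℕ, ∃ n : ℕ, N1 ≤ n ∧ LipAt M Nn B K Tm μ₀ δ R₀ R1 τ' n :=
  lip_main hS hΓ hmic B hBC hR₀ hBR hsub K Tm hμ₀ hδ

/-- the bound for the number of steps -/
theorem Legs.mul_p_le (𝓛 : Legs (M.toCap P) RS Tt Cb eps) {A a N : ℕ} {τ : ℝ} (hτ : 0 ≤ τ)
    (ha : a ≤ A) (e : RS.Eb) :
    a * 𝓛.p N τ e ≤ (A * ∑ e : RS.Eb, ⌈τ / 𝓛.mE e⌉₊) * N := by
  have h1 : 𝓛.p N τ e ≤ ⌈τ / 𝓛.mE e⌉₊ * N := by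
    have h2 : ((𝓛.p N τ e : ℕ) : ℝ) ≤ ((⌈τ / 𝓛.mE e⌉₊ * N : ℕ) : ℝ) := by
      have h3 := 𝓛.p_le (N := N) hτ e
      have h4 := 𝓛.mE_pos e
      have h5 : ((𝓛.p N τ e : ℕ) : ℝ) ≤ τ / 𝓛.mE e * N := by
        rw [div_mul_eq_mul_div, le_div_iff₀ h4]; exact h3
      push_cast
      exact h5.trans (by gcongr; exact Nat.le_ceil _)
    exact_mod_cast h2
  have h2 : ⌈τ / 𝓛.mE e⌉₊ ≤ ∑ e : RS.Eb, ⌈τ / 𝓛.mE e⌉₊ :=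
    Finset.single_le_sum (f := fun e : RS.Eb => ⌈τ / 𝓛.mE e⌉₊) (fun _ _ => Nat.zero_le _)
      (Finset.mem_univ e)
  calc a * 𝓛.p N τ e ≤ A * (⌈τ / 𝓛.mE e⌉₊ * N) := Nat.mul_le_mul ha h1
    _ ≤ A * ((∑ e : RS.Eb, ⌈τ / 𝓛.mE e⌉₊) * N) := by gcongr
    _ = _ := by ring

/-- **the LIP hypothesis of `star_law` from `LipAt`**: all parameters `A, τ, δ` (finitely many shapes)
are served by one `n = N` as soon as `A ∑ ⌈τ / mE⌉ ≤ Tm` and `δ₀ ≤ δ`. -/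
theorem LipAt.star {𝓛 : Legs (M.toCap P) RS Tt Cb eps} {B : Finset M.G} {K Tm N : ℕ}
    {μ₀ δ₀ R₀ R1 τ' : ℝ} (h : LipAt M (nrmT T) B K Tm μ₀ δ₀ R₀ R1 τ' N)
    (hB : ∀ e, 𝓛.b e ∈ B) (hN1 : 1 ≤ N)
    {Ψ : Γ → Γ} (hΨ : QIMap (S : Set Γ) (S : Set Γ) Ψ K) (x : M.G) {Q : Set M.NN}
    (hQ : MeasurableSet Q) (hQ0 : (volume : Measure M.NN) Q ≠ 0)
    (hQt : (volume : Measure M.NN) Q ≠ ⊤) {A : ℕ} {τ δ : ℝ} (hτ : 0 ≤ τ) (hδ : δ₀ ≤ δ)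
    (hTm : A * ∑ e : RS.Eb, ⌈τ / 𝓛.mE e⌉₊ ≤ Tm) (w : List RS.Eb) (e : RS.Eb) {a : ℕ}
    (ha : a ≤ A)
    (habs : ∀ l : List M.G, (l.length : ℝ) ≤ μ₀ * N → (∀ s ∈ l, s ∈ M.C ∧ M.len s ≤ R₀) →
        ∀ i ≤ a * 𝓛.p N τ e, ∀ u : M.NN, ‖u‖ ≤ R1 → (volume : Measure M.NN)
          {m | m ∈ Q ∧ m * M.conjN (𝓛.pos N τ w * l.prod * 𝓛.b e ^ i) u ∉ Q} ≤
            ENNReal.ofReal τ' * volume Q) :
    (M.toCap P).μ {n | n ∈ Q ∧ a * 𝓛.p N τ e * ‖(M.toCap P).hgt (𝓛.b e)‖ / N + δ <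
        ‖FF (M.toCap P) 𝓛 N τ (M.ext Ψ) x n (w ++ replicate a e) -
          FF (M.toCap P) 𝓛 N τ (M.ext Ψ) x n w‖} ≤ ENNReal.ofReal δ * (M.toCap P).μ Q := by
  classical
  have hNR : (0 : ℝ) < N := by exact_mod_cast hN1
  have hJ : a * 𝓛.p N τ e ≤ Tm * N := (𝓛.mul_p_le hτ ha e).trans (Nat.mul_le_mul_right _ hTm)
  have key := h Ψ hΨ (𝓛.b e) (hB e) x
    (𝓛.pos N τ w) Q hQ hQ0 hQt (a * 𝓛.p N τ e) hJ habs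
  have hpos : 𝓛.pos N τ (w ++ replicate a e) = 𝓛.pos N τ w * 𝓛.b e ^ (a * 𝓛.p N τ e) := by
    rw [𝓛.pos_append, 𝓛.pos_replicate]
    unfold Legs.u
    rw [← pow_mul, mul_comm a]
  refine le_trans (measure_mono ?_) (key.trans (mul_le_mul_left (ENNReal.ofReal_le_ofReal hδ) _))
  rintro n ⟨hn, hlt⟩
  refine ⟨hn, ?_⟩
  rw [norm_FF_sub, hpos] at hlt
  rw [lt_div_iff₀ hNR, add_mul, div_mul_cancel₀ _ hNR.ne'] at hlt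
  have e1 : nrmT T (M.h (𝓛.b e)) = ‖(M.toCap P).hgt (𝓛.b e)‖ := rfl
  rw [e1]
  push_cast
  have h2 : δ₀ * N ≤ δ * N := mul_le_mul_of_nonneg_right hδ hNR.le
  linarith

/-- **LIP in the form of `star_law`.** -/
theorem lip_star (hS : Subgroup.closure (S : Set Γ) = ⊤) (hΓ : Amen Γ)
    (hmic : MicOut (S : Set Γ) π (nrmT T)) (𝓛 : Legs (M.toCap P) RS Tt Cb eps) {R₀ : ℝ}
    (hR₀ : M.a ≤ R₀) (hbC : ∀ e, 𝓛.b e ∈ M.C) (hbR : ∀ e, M.len (𝓛.b e) ≤ R₀)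
    (hsub : ∀ e, SubConj M (𝓛.b e) R₀) (K A : ℕ) {τ μ₀ δ : ℝ} (hτ : 0 ≤ τ) (hμ₀ : 0 < μ₀)
    (hδ : 0 < δ) :
    ∃ R1 τ₁ : ℝ, 0 < τ₁ ∧ ∀ N1 : ℕ, ∃ N : ℕ, N1 ≤ N ∧ ∀ Ψ : Γ → Γ,
      QIMap (S : Set Γ) (S : Set Γ) Ψ K → ∀ x : M.G, ∀ Q : Set M.NN,
      MeasurableSet Q → (volume : Measure M.NN) Q ≠ 0 → (volume : Measure M.NN) Q ≠ ⊤ →
      ∀ (w : List RS.Eb) (e : RS.Eb) (a : ℕ), a ≤ A →
      (∀ l : List M.G, (l.length : ℝ) ≤ μ₀ * N → (∀ s ∈ l, s ∈ M.C ∧ M.len s ≤ R₀) →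
        ∀ i ≤ a * 𝓛.p N τ e, ∀ u : M.NN, ‖u‖ ≤ R1 → (volume : Measure M.NN)
          {m | m ∈ Q ∧ m * M.conjN (𝓛.pos N τ w * l.prod * 𝓛.b e ^ i) u ∉ Q} ≤
            ENNReal.ofReal τ₁ * volume Q) →
      (M.toCap P).μ {n | n ∈ Q ∧ a * 𝓛.p N τ e * ‖(M.toCap P).hgt (𝓛.b e)‖ / N + δ <
        ‖FF (M.toCap P) 𝓛 N τ (M.ext Ψ) x n (w ++ replicate a e) -
          FF (M.toCap P) 𝓛 N τ (M.ext Ψ) x n w‖} ≤ ENNReal.ofReal δ * (M.toCap P).μ Q := by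
  classical
  obtain ⟨Tn, hTn⟩ : ∃ Tn : ℕ, Tn = A * ∑ e : RS.Eb, ⌈τ / 𝓛.mE e⌉₊ := ⟨_, rfl⟩
  obtain ⟨R1, τ₁, hτ₁, h⟩ := lip_main hS hΓ hmic (Finset.univ.image 𝓛.b)
    (fun b hb => by
      obtain ⟨e, -, rfl⟩ := Finset.mem_image.1 hb
      exact hbC e) hR₀
    (fun b hb => by
      obtain ⟨e, -, rfl⟩ := Finset.mem_image.1 hb
      exact hbR e)
    (fun b hb => by
      obtain ⟨e, -, rfl⟩ := Finset.mem_image.1 hb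
      exact hsub e) K Tn hμ₀ hδ
  refine ⟨R1, τ₁, hτ₁, fun N1 => ?_⟩
  obtain ⟨N, hN, hmain⟩ := h (N1 + 1)
  have hN1 : 1 ≤ N := by omega
  have hNR : (0 : ℝ) < N := by exact_mod_cast hN1
  refine ⟨N, by omega, fun Ψ hΨ x Q hQ hQ0 hQt w e a ha habs => ?_⟩
  have hJ : a * 𝓛.p N τ e ≤ Tn * N := by
    have h1 : 𝓛.p N τ e ≤ ⌈τ / 𝓛.mE e⌉₊ * N := by
      have h2 : ((𝓛.p N τ e : ℕ) : ℝ) ≤ ((⌈τ / 𝓛.mE e⌉₊ * N : ℕ) : ℝ) := by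
        have h3 := 𝓛.p_le (N := N) hτ e
        have h4 := 𝓛.mE_pos e
        have h5 : ((𝓛.p N τ e : ℕ) : ℝ) ≤ τ / 𝓛.mE e * N := by
          rw [div_mul_eq_mul_div, le_div_iff₀ h4]; exact h3
        push_cast
        exact h5.trans (by gcongr; exact Nat.le_ceil _)
      exact_mod_cast h2
    have h2 : ⌈τ / 𝓛.mE e⌉₊ ≤ ∑ e : RS.Eb, ⌈τ / 𝓛.mE e⌉₊ :=
      Finset.single_le_sum (f := fun e : RS.Eb => ⌈τ / 𝓛.mE e⌉₊) (fun _ _ => Nat.zero_le _)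
        (Finset.mem_univ e)
    rw [hTn]
    calc a * 𝓛.p N τ e ≤ A * (⌈τ / 𝓛.mE e⌉₊ * N) := Nat.mul_le_mul ha h1
      _ ≤ A * ((∑ e : RS.Eb, ⌈τ / 𝓛.mE e⌉₊) * N) := by gcongr
      _ = _ := by ring
  have key := hmain Ψ hΨ (𝓛.b e) (Finset.mem_image_of_mem _ (Finset.mem_univ e)) x
    (𝓛.pos N τ w) Q hQ hQ0 hQt (a * 𝓛.p N τ e) hJ habs
  have hpos : 𝓛.pos N τ (w ++ replicate a e) = 𝓛.pos N τ w * 𝓛.b e ^ (a * 𝓛.p N τ e) := by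
    rw [𝓛.pos_append, 𝓛.pos_replicate]
    unfold Legs.u
    rw [← pow_mul, mul_comm a]
  refine le_trans (measure_mono ?_) key
  rintro n ⟨hn, hlt⟩
  refine ⟨hn, ?_⟩
  rw [norm_FF_sub, hpos] at hlt
  rw [lt_div_iff₀ hNR, add_mul, div_mul_cancel₀ _ hNR.ne'] at hlt
  have e1 : nrmT T (M.h (𝓛.b e)) = ‖(M.toCap P).hgt (𝓛.b e)‖ := rfl
  rw [e1]
  push_cast
  exact hlt

end Crest.Agent.R182.Star
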