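import Mathlib
import Crest.Agent.R182.StarLeg

/-!
# Row 182, module STAR (author: helper671): existence of legs of arbitrary accuracy
-/

set_option autoImplicit false
set_option linter.unusedSectionVars false

open MeasureTheory ENNReal List

namespace Crest.Agent.R182.Star

open Crest.Agent.R182.Conv Crest.Agent.R182.Cap

variable {G H ι E : Type*} [Group G] [Group H] [MeasurableSpace H] [MeasurableMul₂ H]
    [MeasurableInv H] [Fintype ι] [NormedAddCommGroup E] [InnerProductSpace ℝ E]

section Hgt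

variable (M : CapModel G H ι E)

theorem hgt_one' : M.hgt 1 = 0 := by
  have h := M.hgt_mul 1 1
  rw [mul_one] at h
  exact left_eq_add.1 h

theorem hgt_inv' (g : G) : M.hgt g⁻¹ = - M.hgt g := by
  have h := M.hgt_mul g⁻¹ g
  rw [inv_mul_cancel, hgt_one'] at h
  exact eq_neg_of_add_eq_zero_left h.symm

theorem hgt_pow' (g : G) (n : ℕ) : M.hgt (g ^ n) = (n : ℝ) • M.hgt g := by
  induction n with
  | zero => simp [hgt_one']
  | succ n ih => rw [pow_succ, M.hgt_mul, ih]; push_cast; rw [add_smul, one_smul]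

theorem hgt_zpow' (g : G) (n : ℤ) : M.hgt (g ^ n) = (n : ℝ) • M.hgt g := by
  cases n with
  | ofNat n => simpa using hgt_pow' M g n
  | negSucc n =>
    rw [zpow_negSucc, hgt_inv', hgt_pow', Int.cast_negSucc, neg_smul]

theorem hgt_list' (l : List G) : M.hgt l.prod = (l.map M.hgt).sum := by
  induction l with
  | nil => simp [hgt_one']
  | cons a l ih => rw [List.prod_cons, M.hgt_mul, ih, List.map_cons, List.sum_cons]

end Hgt

theorem Bl_zpow {T : Set G} {m : ℕ} {g : G} (h : g ∈ Bl T m) (n : ℤ) :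
    g ^ n ∈ Bl T (n.natAbs * m) := by
  cases n with
  | ofNat n => simpa using Bl_pow h n
  | negSucc n =>
    rw [zpow_negSucc]
    exact Bl_inv (Bl_pow h (n + 1))

theorem Bl_list {T : Set G} (l : List (G × ℕ)) (h : ∀ p ∈ l, p.1 ∈ Bl T p.2) :
    (l.map Prod.fst).prod ∈ Bl T (l.map Prod.snd).sum := by
  induction l with
  | nil => exact one_mem_Bl _
  | cons a l ih =>
    rw [List.map_cons, List.map_cons, List.prod_cons, List.sum_cons]
    exact Bl_mul (h a mem_cons_self) (ih fun p hp => h p (mem_cons_of_mem _ hp))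

/-- **Existence of legs** -/
theorem exists_legs (M : CapModel G H ι E) (R : RSys ι E) {d : ℕ} (t : Fin d → G)
    (hspan : Submodule.span ℝ (Set.range fun i => M.hgt (t i)) = ⊤) {T : Set G}
    (hT : ∀ i, t i ∈ T) :
    ∃ Cb : ℝ, 0 ≤ Cb ∧ ∀ eps : ℝ, 0 < eps → ∃ 𝓛 : Legs M R T Cb eps,
      ∀ e, ∃ v : Fin d → ℤ, 𝓛.b e = (List.ofFn fun i => t i ^ v i).prod := by
  classical
  have hc : ∀ e : E, ∃ c : Fin d → ℝ, ∑ i, c i • M.hgt (t i) = e := fun e =>
    (Submodule.mem_span_range_iff_exists_fun ℝ).1 (hspan ▸ Submodule.mem_top)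
  choose c hc using hc
  set c₀ : ℝ := ∑ i, ‖M.hgt (t i)‖ with hc₀
  have hc₀0 : 0 ≤ c₀ := Finset.sum_nonneg fun _ _ => norm_nonneg _
  refine ⟨∑ e : R.Eb, ∑ i, (|c e i| + 1), by positivity, fun eps heps => ?_⟩
  set m : ℝ := max 1 (c₀ / eps) with hm
  have hm1 : 1 ≤ m := le_max_left _ _
  have hm0 : 0 < m := by linarith
  have hmc : c₀ ≤ eps * m := by
    have := le_max_right 1 (c₀ / eps)
    rw [div_le_iff₀ heps] at this
    linarith
  let v : R.Eb → Fin d → ℤ := fun e i => ⌊m * c e i⌋
  refine ⟨{ b := fun e => (List.ofFn fun i => t i ^ v e i).prod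
            mE := fun _ => m
            mE_pos := fun _ => hm0
            rb := fun e => ∑ i, (v e i).natAbs
            b_mem := fun e => ?_
            rb_le := fun e => ?_
            acc := fun e => ?_ }, fun e => ⟨v e, rfl⟩⟩
  · have h1 := Bl_list (T := T) (List.ofFn fun i => (t i ^ v e i, (v e i).natAbs)) (by
      intro p hp
      rw [List.mem_ofFn] at hp
      obtain ⟨i, rfl⟩ := hp
      have h2 : t i ∈ Bl T 1 := ⟨[t i], by simp, by simp [hT i], by simp⟩
      simpa using Bl_zpow h2 (v e i))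
    rw [List.map_ofFn, List.map_ofFn, List.sum_ofFn] at h1
    exact h1
  · have h1 : ((∑ i, (v e i).natAbs : ℕ) : ℝ) ≤ ∑ i, (|c e i| + 1) * m := by
      push_cast
      refine Finset.sum_le_sum fun i _ => ?_
      rw [Nat.cast_natAbs, Int.cast_abs]
      have h2 : |((v e i : ℤ) : ℝ) - m * c e i| ≤ 1 := by
        rw [abs_le]
        constructor
        · have := (Int.lt_floor_add_one (m * c e i)).le
          show -1 ≤ ((⌊m * c e i⌋ : ℤ) : ℝ) - m * c e i
          linarith
        · have := Int.floor_le (m * c e i)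
          show ((⌊m * c e i⌋ : ℤ) : ℝ) - m * c e i ≤ 1
          linarith
      have h3 : |((v e i : ℤ) : ℝ)| ≤ |((v e i : ℤ) : ℝ) - m * c e i| + |m * c e i| := by
        have := abs_add_le (((v e i : ℤ) : ℝ) - m * c e i) (m * c e i)
        rwa [sub_add_cancel] at this
      rw [abs_mul, abs_of_pos hm0] at h3
      calc |((v e i : ℤ) : ℝ)| ≤ 1 + m * |c e i| := by linarith
        _ ≤ (|c e i| + 1) * m := by nlinarith
    refine h1.trans ?_
    rw [← Finset.sum_mul]
    refine mul_le_mul_of_nonneg_right ?_ hm0.le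
    exact Finset.single_le_sum (f := fun e : R.Eb => ∑ i, (|c e i| + 1))
      (fun e _ => Finset.sum_nonneg fun i _ => by positivity) (Finset.mem_univ e)
  · have h1 : M.hgt (List.ofFn fun i => t i ^ v e i).prod - m • (e : E) =
        ∑ i, (((v e i : ℤ) : ℝ) - m * c e i) • M.hgt (t i) := by
      rw [hgt_list', List.map_ofFn, List.sum_ofFn]
      conv_lhs => rw [← hc (e : E)]
      rw [Finset.smul_sum, ← Finset.sum_sub_distrib]
      refine Finset.sum_congr rfl fun i _ => ?_
      rw [Function.comp, hgt_zpow', sub_smul, mul_smul]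
    rw [h1]
    refine (norm_sum_le _ _).trans (le_trans ?_ hmc)
    rw [hc₀]
    refine Finset.sum_le_sum fun i _ => ?_
    rw [norm_smul, Real.norm_eq_abs]
    have h2 : |((v e i : ℤ) : ℝ) - m * c e i| ≤ 1 := by
      rw [abs_le]
      constructor
      · have := (Int.lt_floor_add_one (m * c e i)).le
        show -1 ≤ ((⌊m * c e i⌋ : ℤ) : ℝ) - m * c e i
        linarith
      · have := Int.floor_le (m * c e i)
        show ((⌊m * c e i⌋ : ℤ) : ℝ) - m * c e i ≤ 1
        linarith
    calc _ ≤ 1 * ‖M.hgt (t i)‖ := mul_le_mul_of_nonneg_right h2 (norm_nonneg _)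
      _ = _ := one_mul _

end Crest.Agent.R182.Star
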