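/-
R182, module NILBOX (helper89): the adjoint structure `AdS` from helper468's `BCH1`
(conjugation formula `x y x⁻¹ = ∑ (n!)⁻¹ (ad x)^n y`).
-/
import Mathlib
import Crest.Agent.R182.NbAd
import Crest.Agent.R182.BoxGen

set_option autoImplicit false

namespace Crest.Agent.R182.Nb

open Finset

variable {L : Type*} [LieRing L] [LieAlgebra ℝ L]

theorem ad_pow_apply (x y : L) (n : ℕ) :
    ((LieAlgebra.ad ℝ L x : Module.End ℝ L) ^ n) y = (fun z => ⁅x, z⁆)^[n] y := by
  induction n with
  | zero => simp
  | succ n ih => rw [pow_succ', Function.iterate_succ_apply', Module.End.mul_apply, ih]; rfl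

/-- the adjoint structure of a star product with `BCH1` -/
noncomputable def AdS.of_bch1 {c : ℕ} {S : Star L} (hL : NilC c L) (hB : S.BCH1 c) : AdS S :=
  AdS.of_cj S hL fun x y => by
    rw [expad_apply]
    refine (hB x y).trans (Finset.sum_congr rfl fun n _ => ?_)
    rw [ad_pow_apply]

end Crest.Agent.R182.Nb
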