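/-
R182, module SLOW (helper89): collection in nilpotent groups with an energy bookkeeping.

`Tr σ` = iterated commutators (binary trees) over the alphabet `σ`, `wt` = number of leaves,
`pv f l` = value of a list of trees, `en r l = ∑ r ^ wt` = energy of the list (`r = 1 / R`).
-/
import Mathlib

set_option autoImplicit false

namespace Crest.Agent.R182.Slow

universe u v

open scoped commutatorElement

/-- iterated commutators -/
inductive Tr (σ : Type v) : Type v
  | leaf : σ → Tr σ
  | br : Tr σ → Tr σ → Tr σ

variable {σ : Type v}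

namespace Tr

/-- weight -/
def wt : Tr σ → ℕ
  | leaf _ => 1
  | br x y => wt x + wt y

theorem wt_pos (t : Tr σ) : 1 ≤ t.wt := by
  induction t with
  | leaf s => exact le_rfl
  | br x y hx hy => exact hx.trans (Nat.le_add_right _ _)

theorem finite_wt_le [Finite σ] (n : ℕ) : {t : Tr σ | t.wt ≤ n}.Finite := by
  induction n with
  | zero =>
    refine Set.finite_empty.subset fun t ht => ?_
    have := t.wt_pos
    have h : t.wt ≤ 0 := ht
    omega
  | succ n ih =>
    refine ((Set.finite_range (leaf : σ → Tr σ)).union (ih.image2 br ih)).subset fun t ht => ?_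
    cases t with
    | leaf s => exact Or.inl ⟨s, rfl⟩
    | br x y =>
      refine Or.inr ⟨x, ?_, y, ?_, rfl⟩
      · have h : x.wt + y.wt ≤ n + 1 := ht
        have := y.wt_pos
        change x.wt ≤ n
        omega
      · have h : x.wt + y.wt ≤ n + 1 := ht
        have := x.wt_pos
        change y.wt ≤ n
        omega

/-- formal inverse -/
def inv (ι : σ → σ) : Tr σ → Tr σ
  | leaf s => leaf (ι s)
  | br x y => br y x

theorem wt_inv (ι : σ → σ) (t : Tr σ) : (t.inv ι).wt = t.wt := by
  cases t with
  | leaf s => rfl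
  | br x y => exact Nat.add_comm _ _

variable {G : Type u} [Group G]

/-- value of a tree -/
def ev (f : σ → G) : Tr σ → G
  | leaf s => f s
  | br x y => ⁅ev f x, ev f y⁆

theorem ev_inv {f : σ → G} {ι : σ → σ} (h : ∀ s, f (ι s) = (f s)⁻¹) (t : Tr σ) :
    (t.inv ι).ev f = (t.ev f)⁻¹ := by
  cases t with
  | leaf s => exact h s
  | br x y => exact (commutatorElement_inv _ _).symm

end Tr

open Tr

/-! ### lists of trees -/

section pv

variable {G : Type u} [Group G] (f : σ → G)

/-- value of a list of trees -/
def pv (l : List (Tr σ)) : G := (l.map (ev f)).prod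

@[simp] theorem pv_nil : pv f [] = 1 := rfl

@[simp] theorem pv_cons (t : Tr σ) (l : List (Tr σ)) : pv f (t :: l) = t.ev f * pv f l := by
  simp [pv]

@[simp] theorem pv_append (l l' : List (Tr σ)) : pv f (l ++ l') = pv f l * pv f l' := by
  simp [pv]

theorem pv_replicate (n : ℕ) (t : Tr σ) : pv f (List.replicate n t) = t.ev f ^ n := by
  simp [pv]

/-- formal inverse of a list -/
def linv (ι : σ → σ) (l : List (Tr σ)) : List (Tr σ) := (l.map (Tr.inv ι)).reverse

theorem pv_linv {f : σ → G} {ι : σ → σ} (h : ∀ s, f (ι s) = (f s)⁻¹) (l : List (Tr σ)) :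
    pv f (linv ι l) = (pv f l)⁻¹ := by
  induction l with
  | nil => simp [linv]
  | cons t l ih =>
    have e : linv ι (t :: l) = linv ι l ++ [t.inv ι] := by simp [linv]
    rw [e, pv_append, ih, pv_cons, pv_cons, pv_nil, ev_inv h]
    group

/-- the list of `p u p⁻¹` -/
def cl (p : Tr σ) : List (Tr σ) → List (Tr σ)
  | [] => []
  | t :: u => br p t :: t :: cl p u

theorem pv_cl (p : Tr σ) (u : List (Tr σ)) : pv f (cl p u) = p.ev f * pv f u * (p.ev f)⁻¹ := by
  induction u with
  | nil => simp [cl]
  | cons t u ih =>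
    rw [cl, pv_cons, pv_cons, ih, pv_cons]
    simp only [ev, commutatorElement_def]
    group

/-- conjugation by a list -/
def cls : List (Tr σ) → List (Tr σ) → List (Tr σ)
  | [], u => u
  | p :: P, u => cl p (cls P u)

theorem pv_cls (P u : List (Tr σ)) : pv f (cls P u) = pv f P * pv f u * (pv f P)⁻¹ := by
  induction P with
  | nil => simp [cls]
  | cons p P ih => rw [cls, pv_cl, ih, pv_cons]; group

/-- the list of `⁅P, q⁆` -/
def c1 (q : Tr σ) : List (Tr σ) → List (Tr σ)
  | [] => []
  | p :: P => cl p (c1 q P) ++ [br p q]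

theorem pv_c1 (q : Tr σ) (P : List (Tr σ)) : pv f (c1 q P) = ⁅pv f P, q.ev f⁆ := by
  induction P with
  | nil => simp [c1]
  | cons p P ih =>
    rw [c1, pv_append, pv_cl, ih, pv_cons, pv_cons, pv_nil]
    simp only [ev, commutatorElement_def]
    group

/-- the list of `⁅P, Q⁆` -/
def c2 (P : List (Tr σ)) : List (Tr σ) → List (Tr σ)
  | [] => []
  | q :: Q => c1 q P ++ cl q (c2 P Q)

theorem pv_c2 (P Q : List (Tr σ)) : pv f (c2 P Q) = ⁅pv f P, pv f Q⁆ := by
  induction Q with
  | nil => simp [c2]
  | cons q Q ih =>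
    rw [c2, pv_append, pv_cl, ih, pv_c1, pv_cons]
    simp only [commutatorElement_def]
    group

end pv

/-! ### energy -/

section energy

/-- energy -/
noncomputable def en (r : ℝ) (l : List (Tr σ)) : ℝ := (l.map fun t => r ^ t.wt).sum

/-- product of `1 + r ^ wt` -/
noncomputable def pe (r : ℝ) (l : List (Tr σ)) : ℝ := (l.map fun t => 1 + r ^ t.wt).prod

variable {r : ℝ}

@[simp] theorem en_nil : en r ([] : List (Tr σ)) = 0 := rfl

@[simp] theorem en_cons (t : Tr σ) (l : List (Tr σ)) : en r (t :: l) = r ^ t.wt + en r l := by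
  simp [en]

@[simp] theorem en_append (l l' : List (Tr σ)) : en r (l ++ l') = en r l + en r l' := by
  simp [en]

@[simp] theorem pe_nil : pe r ([] : List (Tr σ)) = 1 := rfl

@[simp] theorem pe_cons (t : Tr σ) (l : List (Tr σ)) :
    pe r (t :: l) = (1 + r ^ t.wt) * pe r l := by
  simp [pe]

theorem en_nonneg (hr : 0 ≤ r) (l : List (Tr σ)) : 0 ≤ en r l := by
  induction l with
  | nil => simp
  | cons t l ih => rw [en_cons]; positivity

theorem one_le_pe (hr : 0 ≤ r) (l : List (Tr σ)) : 1 ≤ pe r l := by
  induction l with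
  | nil => simp
  | cons t l ih =>
    rw [pe_cons]
    have : 0 ≤ r ^ t.wt := by positivity
    nlinarith

theorem pe_le (hr : 0 ≤ r) (l : List (Tr σ)) : pe r l ≤ Real.exp (en r l) := by
  induction l with
  | nil => simp
  | cons t l ih =>
    rw [pe_cons, en_cons, Real.exp_add]
    have h0 : 0 ≤ r ^ t.wt := by positivity
    have h1 : 1 + r ^ t.wt ≤ Real.exp (r ^ t.wt) := by
      have := Real.add_one_le_exp (r ^ t.wt)
      linarith
    have h2 := one_le_pe hr l
    exact mul_le_mul h1 ih (by linarith) (Real.exp_pos _).le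

theorem en_replicate (n : ℕ) (t : Tr σ) : en r (List.replicate n t) = n * r ^ t.wt := by
  simp [en]

theorem en_linv (ι : σ → σ) (l : List (Tr σ)) : en r (linv ι l) = en r l := by
  induction l with
  | nil => simp [linv]
  | cons t l ih =>
    have e : linv ι (t :: l) = linv ι l ++ [t.inv ι] := by simp [linv]
    rw [e, en_append, ih, en_cons, en_cons, en_nil, wt_inv]
    ring

theorem en_cl (p : Tr σ) (u : List (Tr σ)) : en r (cl p u) = (1 + r ^ p.wt) * en r u := by
  induction u with
  | nil => simp [cl]
  | cons t u ih =>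
    rw [cl, en_cons, en_cons, ih, en_cons, wt, pow_add]
    ring

theorem en_cls (P u : List (Tr σ)) : en r (cls P u) = pe r P * en r u := by
  induction P with
  | nil => simp [cls]
  | cons p P ih => rw [cls, en_cl, ih, pe_cons]; ring

theorem en_c1 (q : Tr σ) (P : List (Tr σ)) : en r (c1 q P) = (pe r P - 1) * r ^ q.wt := by
  induction P with
  | nil => simp [c1]
  | cons p P ih =>
    rw [c1, en_append, en_cl, ih, en_cons, en_nil, pe_cons, wt, pow_add]
    ring

theorem en_c2 (P Q : List (Tr σ)) : en r (c2 P Q) = (pe r P - 1) * (pe r Q - 1) := by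
  induction Q with
  | nil => simp [c2]
  | cons q Q ih =>
    rw [c2, en_append, en_cl, ih, en_c1, pe_cons]
    ring

theorem en_le_of_filter (hr : 0 ≤ r) (p : Tr σ → Bool) (l : List (Tr σ)) :
    en r (l.filter p) ≤ en r l := by
  induction l with
  | nil => simp
  | cons t l ih =>
    rw [List.filter_cons]
    have h0 : 0 ≤ r ^ t.wt := by positivity
    split_ifs
    · rw [en_cons, en_cons]; linarith
    · rw [en_cons]; linarith

/-- change of scale -/
theorem en_scale {r s : ℝ} (hr : 0 ≤ r) (hrs : r ≤ s) (hs : 0 < s) (w : ℕ) (l : List (Tr σ))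
    (hw : ∀ t ∈ l, w ≤ t.wt) : en r l ≤ (r / s) ^ w * en s l := by
  induction l with
  | nil => simp
  | cons t l ih =>
    rw [en_cons, en_cons, mul_add]
    have h1 := ih fun t ht => hw t (List.mem_cons_of_mem _ ht)
    have h2 : r ^ t.wt ≤ (r / s) ^ w * s ^ t.wt := by
      have h3 : w ≤ t.wt := hw t List.mem_cons_self
      have h4 : (r / s) ^ t.wt ≤ (r / s) ^ w :=
        pow_le_pow_of_le_one (by positivity) ((div_le_one hs).mpr hrs) h3
      calc r ^ t.wt = (r / s) ^ t.wt * s ^ t.wt := by
            rw [← mul_pow, div_mul_cancel₀ _ hs.ne']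
        _ ≤ _ := mul_le_mul_of_nonneg_right h4 (by positivity)
    linarith

end energy

/-! ### gathering -/

/-- move the trees with `p` to the right -/
def ga (p : Tr σ → Bool) : List (Tr σ) → List (Tr σ)
  | [] => []
  | t :: l => if p t then cl t (ga p l) else t :: ga p l

theorem pv_ga {G : Type u} [Group G] (f : σ → G) (p : Tr σ → Bool) (l : List (Tr σ)) :
    pv f (ga p l) * pv f (l.filter p) = pv f l := by
  induction l with
  | nil => simp [ga]
  | cons t l ih =>
    rw [ga, List.filter_cons]
    by_cases h : p t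
    · rw [if_pos h, if_pos h, pv_cl, pv_cons, pv_cons, ← ih]; group
    · rw [if_neg h, if_neg h, pv_cons, pv_cons, ← ih]; group

theorem en_ga {r : ℝ} (hr : 0 ≤ r) (p : Tr σ → Bool) (l : List (Tr σ)) :
    en r (ga p l) ≤ pe r (l.filter p) * en r l := by
  induction l with
  | nil => simp [ga]
  | cons t l ih =>
    have h0 : 0 ≤ r ^ t.wt := by positivity
    have h1 := one_le_pe hr (l.filter p)
    have h2 := en_nonneg hr l
    rw [ga, List.filter_cons]
    by_cases h : p t
    · rw [if_pos h, if_pos h, en_cl, pe_cons, en_cons, mul_assoc]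
      refine mul_le_mul_of_nonneg_left (ih.trans ?_) (by positivity)
      exact mul_le_mul_of_nonneg_left (by linarith) (by linarith)
    · rw [if_neg h, if_neg h, en_cons, en_cons]
      nlinarith

theorem mem_cl {Q : Tr σ → Prop} {p : Tr σ} {u : List (Tr σ)} (h : ∀ t ∈ u, Q t)
    (h' : ∀ t, Q t → Q (br p t)) : ∀ t ∈ cl p u, Q t := by
  induction u with
  | nil => simp [cl]
  | cons t u ih =>
    intro s hs
    rw [cl] at hs
    rcases List.mem_cons.mp hs with rfl | hs
    · exact h' _ (h _ List.mem_cons_self)
    rcases List.mem_cons.mp hs with rfl | hs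
    · exact h _ List.mem_cons_self
    · exact ih (fun t ht => h t (List.mem_cons_of_mem _ ht)) s hs

theorem mem_ga {Q : Tr σ → Prop} {p : Tr σ → Bool} {l : List (Tr σ)}
    (h : ∀ t ∈ l, p t = false → Q t)
    (h' : ∀ t ∈ l, p t = true → ∀ s, Q s → Q (br t s)) : ∀ t ∈ ga p l, Q t := by
  induction l with
  | nil => simp [ga]
  | cons t l ih =>
    have ih' := ih (fun t ht => h t (List.mem_cons_of_mem _ ht))
      (fun t ht => h' t (List.mem_cons_of_mem _ ht))
    rw [ga]
    by_cases hp : p t
    · rw [if_pos hp]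
      exact mem_cl ih' (h' t List.mem_cons_self hp)
    · rw [if_neg hp]
      intro s hs
      rcases List.mem_cons.mp hs with rfl | hs
      · exact h _ List.mem_cons_self (by simpa using hp)
      · exact ih' s hs

/-! ### the homogeneous part -/

/-- the trees of weight exactly `w` -/
def hw (w : ℕ) (l : List (Tr σ)) : List (Tr σ) := l.filter fun t => decide (t.wt = w)

theorem hw_append (w : ℕ) (l l' : List (Tr σ)) : hw w (l ++ l') = hw w l ++ hw w l' := by
  simp [hw]

theorem hw_of_lt {w : ℕ} {l : List (Tr σ)} (h : ∀ t ∈ l, w < t.wt) : hw w l = [] := by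
  rw [hw, List.filter_eq_nil_iff]
  intro t ht
  have := h t ht
  simp; omega

theorem hw_cl {w : ℕ} (p : Tr σ) {u : List (Tr σ)} (h : ∀ t ∈ u, w ≤ t.wt) :
    hw w (cl p u) = hw w u := by
  induction u with
  | nil => simp [cl]
  | cons t u ih =>
    have h1 : w < (br p t).wt := by
      have h2 := h t List.mem_cons_self
      have h3 := p.wt_pos
      change w < p.wt + t.wt
      omega
    have ih' := ih fun t ht => h t (List.mem_cons_of_mem _ ht)
    simp only [hw] at ih' ⊢
    rw [cl, List.filter_cons, if_neg (by simp; omega), List.filter_cons, List.filter_cons, ih']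

theorem le_wt_c1 {a : ℕ} (q : Tr σ) {P : List (Tr σ)} (h : ∀ t ∈ P, a ≤ t.wt) :
    ∀ t ∈ c1 q P, a + q.wt ≤ t.wt := by
  induction P with
  | nil => simp [c1]
  | cons p P ih =>
    have ih' := ih fun t ht => h t (List.mem_cons_of_mem _ ht)
    intro t ht
    rw [c1, List.mem_append] at ht
    rcases ht with ht | ht
    · refine mem_cl (Q := fun t => a + q.wt ≤ t.wt) ih' (fun s hs => ?_) t ht
      change a + q.wt ≤ p.wt + s.wt
      omega
    · rw [List.mem_singleton] at ht
      subst ht
      have := h p List.mem_cons_self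
      change a + q.wt ≤ p.wt + q.wt
      omega

theorem hw_c1 {a n : ℕ} {κ : Tr σ} (q : Tr σ) {P : List (Tr σ)} (h : ∀ t ∈ P, a ≤ t.wt)
    (hP : hw a P = List.replicate n κ) :
    hw (a + q.wt) (c1 q P) = List.replicate n (br κ q) := by
  induction P generalizing n with
  | nil =>
    have h0 : n = 0 := by
      have := congrArg List.length hP
      simpa [hw] using this.symm
    subst h0
    simp [c1, hw]
  | cons p P ih =>
    have h' : ∀ t ∈ P, a ≤ t.wt := fun t ht => h t (List.mem_cons_of_mem _ ht)
    rw [c1, hw_append, hw_cl _ (le_wt_c1 q h')]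
    rw [hw, List.filter_cons] at hP
    by_cases hp : p.wt = a
    · rw [if_pos (by simpa using hp)] at hP
      cases n with
      | zero => simp at hP
      | succ n =>
        rw [List.replicate_succ, List.cons.injEq] at hP
        obtain ⟨rfl, hP⟩ := hP
        rw [ih h' hP]
        have e : hw (a + q.wt) [br p q] = [br p q] := by
          rw [hw, List.filter_cons, if_pos (by simp [wt, hp])]; rfl
        rw [e, List.replicate_succ']
    · rw [if_neg (by simpa using hp)] at hP
      rw [ih h' hP]
      have e : hw (a + q.wt) [br p q] = [] := by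
        refine hw_of_lt fun t ht => ?_
        rw [List.mem_singleton] at ht
        subst ht
        have := h p List.mem_cons_self
        change a + q.wt < p.wt + q.wt
        omega
      rw [e, List.append_nil]

theorem le_wt_c2 {a b : ℕ} {P Q : List (Tr σ)} (hP : ∀ t ∈ P, a ≤ t.wt)
    (hQ : ∀ t ∈ Q, b ≤ t.wt) : ∀ t ∈ c2 P Q, a + b ≤ t.wt := by
  induction Q with
  | nil => simp [c2]
  | cons q Q ih =>
    have ih' := ih fun t ht => hQ t (List.mem_cons_of_mem _ ht)
    have hq := hQ q List.mem_cons_self
    intro t ht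
    rw [c2, List.mem_append] at ht
    rcases ht with ht | ht
    · have := le_wt_c1 q hP t ht
      omega
    · refine mem_cl (Q := fun t => a + b ≤ t.wt) ih' (fun s hs => ?_) t ht
      change a + b ≤ q.wt + s.wt
      omega

theorem hw_c2 {a b m n : ℕ} {κ κ' : Tr σ} {P Q : List (Tr σ)} (hP : ∀ t ∈ P, a ≤ t.wt)
    (hQ : ∀ t ∈ Q, b ≤ t.wt) (hP' : hw a P = List.replicate m κ)
    (hQ' : hw b Q = List.replicate n κ') :
    hw (a + b) (c2 P Q) = List.replicate (m * n) (br κ κ') := by
  induction Q generalizing n with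
  | nil =>
    have h0 : n = 0 := by
      have := congrArg List.length hQ'
      simpa [hw] using this.symm
    subst h0
    simp [c2, hw]
  | cons q Q ih =>
    have h' : ∀ t ∈ Q, b ≤ t.wt := fun t ht => hQ t (List.mem_cons_of_mem _ ht)
    rw [c2, hw_append, hw_cl _ (le_wt_c2 hP h')]
    rw [hw, List.filter_cons] at hQ'
    by_cases hq : q.wt = b
    · rw [if_pos (by simpa using hq)] at hQ'
      cases n with
      | zero => simp at hQ'
      | succ n =>
        rw [List.replicate_succ, List.cons.injEq] at hQ'
        obtain ⟨rfl, hQ'⟩ := hQ'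
        rw [ih h' hQ']
        have e := hw_c1 q hP hP'
        rw [hq] at e
        rw [e, ← List.replicate_add]
        congr 1
        ring
    · rw [if_neg (by simpa using hq)] at hQ'
      rw [ih h' hQ']
      have e : hw (a + b) (c1 q P) = [] := by
        refine hw_of_lt fun t ht => ?_
        have h1 := le_wt_c1 q hP t ht
        have h2 := hQ q List.mem_cons_self
        omega
      rw [e, List.nil_append]

end Crest.Agent.R182.Slow
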