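/-
R182, module SLOW (helper89): the discrete Guivarc'h estimate.  In a group of nilpotency class
`≤ c`, a product of iterated commutators with at most `K * R ^ w` commutators of weight `w` is a
product of at most `C * R` letters; `C` depends only on `c`, the alphabet and `K`.
-/
import Mathlib
import Crest.Agent.R182.SlowCol

set_option autoImplicit false

namespace Crest.Agent.R182.Slow

universe u v

open scoped commutatorElement

open Tr

variable {σ : Type v}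

/-! ### words -/

section words

variable {G : Type u} [Group G] (f : σ → G)

/-- values of words of length at most `m` -/
def Wd (m : ℕ) : Set G := {g | ∃ l : List σ, l.length ≤ m ∧ (l.map f).prod = g}

variable {f}

theorem one_mem_Wd (m : ℕ) : (1 : G) ∈ Wd f m := ⟨[], by simp⟩

theorem Wd_mono {m m' : ℕ} (h : m ≤ m') : Wd f m ⊆ Wd f m' := by
  rintro g ⟨l, h1, h2⟩; exact ⟨l, h1.trans h, h2⟩

theorem mul_mem_Wd {m m' : ℕ} {g g' : G} (h : g ∈ Wd f m) (h' : g' ∈ Wd f m') :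
    g * g' ∈ Wd f (m + m') := by
  obtain ⟨l, h1, rfl⟩ := h
  obtain ⟨l', h1', rfl⟩ := h'
  exact ⟨l ++ l', by rw [List.length_append]; omega, by simp⟩

theorem inv_mem_Wd {ι : σ → σ} (hι : ∀ s, f (ι s) = (f s)⁻¹) {m : ℕ} {g : G} (h : g ∈ Wd f m) :
    g⁻¹ ∈ Wd f m := by
  obtain ⟨l, h1, rfl⟩ := h
  refine ⟨(l.map ι).reverse, by simpa using h1, ?_⟩
  rw [List.prod_inv_reverse, List.map_reverse, List.map_map, List.map_map]
  congr 2
  exact List.map_congr_left fun s _ => hι s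

theorem pow_mem_Wd {m : ℕ} {g : G} (h : g ∈ Wd f m) (n : ℕ) : g ^ n ∈ Wd f (n * m) := by
  induction n with
  | zero => simpa using one_mem_Wd _
  | succ n ih =>
    rw [pow_succ, Nat.succ_mul]
    exact mul_mem_Wd ih h

theorem letter_mem_Wd (s : σ) : f s ∈ Wd f 1 := ⟨[s], by simp⟩

theorem comm_mem_Wd {ι : σ → σ} (hι : ∀ s, f (ι s) = (f s)⁻¹) {m m' : ℕ} {g g' : G}
    (h : g ∈ Wd f m) (h' : g' ∈ Wd f m') : ⁅g, g'⁆ ∈ Wd f (2 * (m + m')) := by
  rw [commutatorElement_def]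
  refine Wd_mono (by omega) (mul_mem_Wd (mul_mem_Wd (mul_mem_Wd h h') (inv_mem_Wd hι h))
    (inv_mem_Wd hι h') : _ ∈ Wd f (m + m' + m + m'))

end words

/-! ### the lower central series -/

theorem three_subgroups {G : Type u} [Group G] (A B K W : Subgroup G) [W.Normal]
    (h1 : ⁅⁅B, K⁆, A⁆ ≤ W) (h2 : ⁅⁅K, A⁆, B⁆ ≤ W) : ⁅⁅A, B⁆, K⁆ ≤ W := by
  have key : ∀ X Y Z : Subgroup G, ⁅⁅X, Y⁆, Z⁆ ≤ W ↔
      ⁅⁅X.map (QuotientGroup.mk' W), Y.map (QuotientGroup.mk' W)⁆,
        Z.map (QuotientGroup.mk' W)⁆ = ⊥ := by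
    intro X Y Z
    rw [← Subgroup.map_commutator, ← Subgroup.map_commutator, Subgroup.map_eq_bot_iff,
      QuotientGroup.ker_mk']
  rw [key] at h1 h2 ⊢
  exact Subgroup.commutator_commutator_eq_bot_of_rotate h1 h2

theorem lcs_comm (G : Type u) [Group G] (i j : ℕ) :
    ⁅(⊤ : Subgroup G).lowerCentralSeries i, (⊤ : Subgroup G).lowerCentralSeries j⁆ ≤
      (⊤ : Subgroup G).lowerCentralSeries (i + j + 1) := by
  induction j generalizing i with
  | zero => exact le_rfl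
  | succ j ih =>
    rw [Subgroup.commutator_comm, Subgroup.lowerCentralSeries_succ]
    refine three_subgroups _ _ _ _ ?_ ?_
    · rw [Subgroup.commutator_comm ⊤]
      refine (ih (i + 1)).trans ?_
      rw [show i + 1 + j + 1 = i + (j + 1) + 1 by omega]
    · exact Subgroup.commutator_mono (ih i) le_rfl

theorem ev_mem_lcs {G : Type u} [Group G] (f : σ → G) (t : Tr σ) :
    t.ev f ∈ (⊤ : Subgroup G).lowerCentralSeries (t.wt - 1) := by
  induction t with
  | leaf s => trivial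
  | br x y hx hy =>
    have h1 := lcs_comm G (x.wt - 1) (y.wt - 1)
      (Subgroup.commutator_mem_commutator hx hy)
    have h2 := x.wt_pos
    have h3 := y.wt_pos
    rw [show x.wt - 1 + (y.wt - 1) + 1 = (br x y).wt - 1 by simp only [wt]; omega] at h1
    exact h1

theorem ev_eq_one {G : Type u} [Group G] {c : ℕ}
    (hc : (⊤ : Subgroup G).lowerCentralSeries c = ⊥) (f : σ → G) {t : Tr σ}
    (ht : c + 1 ≤ t.wt) : t.ev f = 1 := by
  have h1 := ev_mem_lcs f t
  have h2 := Subgroup.lowerCentralSeries_antitone (⊤ : Subgroup G) (show c ≤ t.wt - 1 by omega) h1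
  rw [hc] at h2
  exact h2

theorem pv_eq_one {G : Type u} [Group G] {c : ℕ}
    (hc : (⊤ : Subgroup G).lowerCentralSeries c = ⊥) (f : σ → G) {l : List (Tr σ)}
    (ht : ∀ t ∈ l, c + 1 ≤ t.wt) : pv f l = 1 := by
  induction l with
  | nil => rfl
  | cons t l ih =>
    rw [pv_cons, ev_eq_one hc f (ht t List.mem_cons_self),
      ih fun t h => ht t (List.mem_cons_of_mem _ h), one_mul]

/-! ### commutators of powers -/

/-- energy constant -/
noncomputable def KE (D : ℕ) : Tr σ → ℝ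
  | leaf _ => D
  | br x y => Real.exp (KE D x + KE D y)

/-- length constant -/
def LE (D : ℕ) : Tr σ → ℕ
  | leaf _ => D
  | br x y => 2 * (LE D x + LE D y)

theorem KE_nonneg (D : ℕ) (t : Tr σ) : 0 ≤ KE D t := by
  cases t with
  | leaf s => exact Nat.cast_nonneg _
  | br x y => exact (Real.exp_pos _).le

theorem exists_form {G : Type u} [Group G] {f : σ → G} {ι : σ → σ}
    (hι : ∀ s, f (ι s) = (f s)⁻¹) {D : ℕ} (hD : 1 ≤ D) {R : ℕ} (hR : 1 ≤ R) (κ : Tr σ) :
    ∀ i < κ.wt, ∀ d ≤ D * R, ∃ l : List (Tr σ), (∀ t ∈ l, κ.wt ≤ t.wt) ∧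
      hw κ.wt l = List.replicate (d * R ^ i) κ ∧ en (R : ℝ)⁻¹ l ≤ KE D κ ∧
      pv f l ∈ Wd f (LE D κ * R) := by
  have hR0 : (0 : ℝ) < R := by exact_mod_cast hR
  have hr : (0 : ℝ) ≤ (R : ℝ)⁻¹ := by positivity
  induction κ with
  | leaf s =>
    intro i hi d hd
    have h0 : i = 0 := by have : i < 1 := hi; omega
    subst h0
    refine ⟨List.replicate d (leaf s), ?_, ?_, ?_, ?_⟩
    · intro t ht; rw [List.eq_of_mem_replicate ht]
    · rw [pow_zero, mul_one, hw, List.filter_replicate_of_pos]; simp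
    · rw [en_replicate]
      change (d : ℝ) * (R : ℝ)⁻¹ ^ 1 ≤ (D : ℝ)
      rw [pow_one, ← div_eq_mul_inv, div_le_iff₀ hR0]
      exact_mod_cast hd
    · rw [pv_replicate]
      refine Wd_mono ?_ (pow_mem_Wd (letter_mem_Wd s) d)
      change d * 1 ≤ D * R
      omega
  | br x y hx hy =>
    intro i hi d hd
    have hDR : 1 ≤ D * R := Nat.mul_pos hD hR
    have hRR : R ≤ D * R := Nat.le_mul_of_pos_left R hD
    have key : ∀ m n : ℕ, m * n = d * R ^ i →
        (∃ l : List (Tr σ), (∀ t ∈ l, x.wt ≤ t.wt) ∧ hw x.wt l = List.replicate m x ∧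
          en (R : ℝ)⁻¹ l ≤ KE D x ∧ pv f l ∈ Wd f (LE D x * R)) →
        (∃ l : List (Tr σ), (∀ t ∈ l, y.wt ≤ t.wt) ∧ hw y.wt l = List.replicate n y ∧
          en (R : ℝ)⁻¹ l ≤ KE D y ∧ pv f l ∈ Wd f (LE D y * R)) →
        ∃ l : List (Tr σ), (∀ t ∈ l, (br x y).wt ≤ t.wt) ∧
          hw (br x y).wt l = List.replicate (d * R ^ i) (br x y) ∧
          en (R : ℝ)⁻¹ l ≤ KE D (br x y) ∧ pv f l ∈ Wd f (LE D (br x y) * R) := by
      rintro m n hmn ⟨P, p1, p2, p3, p4⟩ ⟨Q, q1, q2, q3, q4⟩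
      refine ⟨c2 P Q, le_wt_c2 p1 q1, ?_, ?_, ?_⟩
      · rw [← hmn]; exact hw_c2 p1 q1 p2 q2
      · rw [en_c2]
        have e1 := pe_le hr P
        have e2 := pe_le hr Q
        have e3 := one_le_pe hr P
        have e4 := one_le_pe hr Q
        have e5 : Real.exp (en (R : ℝ)⁻¹ P) ≤ Real.exp (KE D x) := Real.exp_le_exp.mpr p3
        have e6 : Real.exp (en (R : ℝ)⁻¹ Q) ≤ Real.exp (KE D y) := Real.exp_le_exp.mpr q3
        change _ ≤ Real.exp (KE D x + KE D y)
        rw [Real.exp_add]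
        exact mul_le_mul (by linarith) (by linarith) (by linarith) (Real.exp_pos _).le
      · rw [pv_c2]
        refine Wd_mono (le_of_eq ?_) (comm_mem_Wd hι p4 q4)
        change 2 * (LE D x * R + LE D y * R) = 2 * (LE D x + LE D y) * R
        ring
    have hi' : i < x.wt + y.wt := hi
    rcases lt_or_ge i x.wt with h | h
    · exact key (d * R ^ i) (1 * R ^ 0) (by simp) (hx i h d hd) (hy 0 y.wt_pos 1 hDR)
    · refine key (d * R ^ (x.wt - 1)) (R * R ^ (i - x.wt)) ?_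
        (hx _ (by have := x.wt_pos; omega) d hd) (hy _ (by omega) R hRR)
      have e : R * R ^ (i - x.wt) = R ^ (i - x.wt + 1) := by rw [pow_succ]; ring
      rw [e, mul_assoc, ← pow_add]
      congr 2
      have := x.wt_pos
      omega

/-! ### the main induction -/

/-- products of trees with the property `Q` and bounded energy are short -/
def Sh (c : ℕ) (ι : σ → σ) (Q : Tr σ → Prop) : Prop := ∀ S : ℝ, ∃ C : ℕ,
  ∀ (G : Type u) [Group G], (⊤ : Subgroup G).lowerCentralSeries c = ⊥ →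
  ∀ f : σ → G, (∀ s, f (ι s) = (f s)⁻¹) → ∀ R : ℕ, 1 ≤ R → ∀ l : List (Tr σ),
    (∀ t ∈ l, Q t) → en (R : ℝ)⁻¹ l ≤ S → pv f l ∈ Wd f (C * R)

theorem sh_base (c : ℕ) (ι : σ → σ) : Sh.{u, v} c ι (fun t => c + 1 ≤ t.wt) := by
  intro S
  refine ⟨0, fun G _ hc f _ R _ l hl _ => ?_⟩
  rw [pv_eq_one hc f hl]
  exact one_mem_Wd _

theorem sh_digit {c : ℕ} {ι : σ → σ} {w : ℕ}
    (h : Sh.{u, v} c ι (fun t => w + 1 ≤ t.wt)) {κ : Tr σ} (hκ : κ.wt = w) {D : ℕ} (hD : 1 ≤ D) :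
    ∃ C : ℕ, ∀ (G : Type u) [Group G], (⊤ : Subgroup G).lowerCentralSeries c = ⊥ →
      ∀ f : σ → G, (∀ s, f (ι s) = (f s)⁻¹) → ∀ R : ℕ, 1 ≤ R → ∀ i < w, ∀ d ≤ D * R,
        (κ.ev f) ^ (d * R ^ i) ∈ Wd f (C * R) := by
  obtain ⟨C, hC⟩ := h (Real.exp (KE D κ) * KE D κ)
  refine ⟨C + LE D κ, fun G _ hc f hf R hR i hi d hd => ?_⟩
  have hr : (0 : ℝ) ≤ (R : ℝ)⁻¹ := by positivity
  obtain ⟨l, h1, h2, h3, h4⟩ := exists_form hf hD hR κ i (hκ ▸ hi) d hd
  have e1 := pv_ga f (fun t => decide (t.wt = κ.wt)) l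
  have e2 : l.filter (fun t => decide (t.wt = κ.wt)) = List.replicate (d * R ^ i) κ := h2
  rw [e2, pv_replicate] at e1
  have e3 : (κ.ev f) ^ (d * R ^ i) =
      (pv f (ga (fun t => decide (t.wt = κ.wt)) l))⁻¹ * pv f l := by
    rw [← e1]; group
  rw [e3, Nat.add_mul]
  refine mul_mem_Wd (inv_mem_Wd hf (hC G hc f hf R hR _ ?_ ?_)) h4
  · refine mem_ga (fun t ht hp => ?_) (fun t ht _ s hs => ?_)
    · have h5 := h1 t ht
      have h6 : ¬ (t.wt = κ.wt) := by simpa using hp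
      omega
    · have h5 := t.wt_pos
      change w + 1 ≤ t.wt + s.wt
      omega
  · refine (en_ga hr _ l).trans ?_
    have h5 : pe (R : ℝ)⁻¹ (l.filter (fun t => decide (t.wt = κ.wt))) ≤ Real.exp (KE D κ) :=
      (pe_le hr _).trans (Real.exp_le_exp.mpr ((en_le_of_filter hr _ _).trans h3))
    exact mul_le_mul h5 h3 (en_nonneg hr _) (Real.exp_pos _).le

theorem sh_pow {c : ℕ} {ι : σ → σ} {w : ℕ} (hw : 1 ≤ w)
    (h : Sh.{u, v} c ι (fun t => w + 1 ≤ t.wt)) {κ : Tr σ} (hκ : κ.wt = w) (S : ℝ) :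
    ∃ C : ℕ, ∀ (G : Type u) [Group G], (⊤ : Subgroup G).lowerCentralSeries c = ⊥ →
      ∀ f : σ → G, (∀ s, f (ι s) = (f s)⁻¹) → ∀ R : ℕ, 1 ≤ R → ∀ n : ℕ,
        (n : ℝ) ≤ S * (R : ℝ) ^ w → (κ.ev f) ^ n ∈ Wd f (C * R) := by
  obtain ⟨D, hD⟩ : ∃ D : ℕ, S ≤ D := ⟨⌈S⌉₊, Nat.le_ceil _⟩
  obtain ⟨C, hC⟩ := sh_digit h hκ (D := D + 1) (by omega)
  refine ⟨(w + 1) * C, fun G _ hc f hf R hR n hn => ?_⟩
  have hR0 : (0 : ℝ) < R := by exact_mod_cast hR
  -- small exponents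
  have key : ∀ i ≤ w, ∀ n < R ^ i, (κ.ev f) ^ n ∈ Wd f (i * C * R) := by
    intro i
    induction i with
    | zero =>
      intro _ n hn
      have : n = 0 := by simpa using hn
      subst this
      simpa using one_mem_Wd _
    | succ i ih =>
      intro hi n hn
      have hRi : 0 < R ^ i := Nat.pow_pos hR
      have e1 : n = n / R ^ i * R ^ i + n % R ^ i := (Nat.div_add_mod' n (R ^ i)).symm
      have e2 : n / R ^ i < R := by
        rw [Nat.div_lt_iff_lt_mul hRi, mul_comm, ← pow_succ]; exact hn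
      rw [e1, pow_add]
      refine Wd_mono (le_of_eq ?_) (mul_mem_Wd (hC G hc f hf R hR i (by omega) (n / R ^ i)
        (by nlinarith)) (ih (by omega) _ (Nat.mod_lt _ hRi)))
      ring
  obtain ⟨w', rfl⟩ : ∃ w', w = w' + 1 := ⟨w - 1, by omega⟩
  have hRi : 0 < R ^ w' := Nat.pow_pos hR
  have e1 : n = n / R ^ w' * R ^ w' + n % R ^ w' := (Nat.div_add_mod' n (R ^ w')).symm
  have e2 : n / R ^ w' ≤ (D + 1) * R := by
    rw [Nat.div_le_iff_le_mul_add_pred hRi]
    have h5 : (n : ℝ) ≤ D * (R : ℝ) ^ (w' + 1) :=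
      hn.trans (mul_le_mul_of_nonneg_right hD (by positivity))
    have h6 : n ≤ D * R ^ (w' + 1) := by exact_mod_cast h5
    have h7 : D * R ^ (w' + 1) ≤ R ^ w' * ((D + 1) * R) := by
      rw [pow_succ]; nlinarith [Nat.zero_le (R ^ w' * R)]
    omega
  rw [e1, pow_add]
  refine Wd_mono ?_ (mul_mem_Wd (hC G hc f hf R hR w' (by omega) (n / R ^ w') e2)
    (key w' (by omega) _ (Nat.mod_lt _ hRi)))
  nlinarith [Nat.zero_le (C * R)]

theorem sh_step {c : ℕ} {ι : σ → σ} {w : ℕ} (hw : 1 ≤ w)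
    (h : Sh.{u, v} c ι (fun t => w + 1 ≤ t.wt)) {F : Set (Tr σ)} (hF : F.Finite)
    (hFw : ∀ t ∈ F, t.wt = w) : Sh.{u, v} c ι (fun t => t ∈ F ∨ w + 1 ≤ t.wt) := by
  classical
  induction F, hF using Set.Finite.induction_on with
  | empty =>
    intro S
    obtain ⟨C, hC⟩ := h S
    exact ⟨C, fun G _ hc f hf R hR l hl => hC G hc f hf R hR l (by simpa using hl)⟩
  | @insert κ F' _ _ ih =>
    have ih' := ih fun t ht => hFw t (Set.mem_insert_of_mem _ ht)
    intro S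
    obtain ⟨C, hC⟩ := ih' (Real.exp S * S)
    obtain ⟨C', hC'⟩ := sh_pow hw h (hFw κ (Set.mem_insert _ _)) S
    refine ⟨C + C', fun G _ hc f hf R hR l hl hS => ?_⟩
    have hr : (0 : ℝ) ≤ (R : ℝ)⁻¹ := by positivity
    have hR0 : (0 : ℝ) < R := by exact_mod_cast hR
    have e1 := pv_ga f (fun t => decide (t = κ)) l
    have e2 : l.filter (fun t => decide (t = κ)) = List.replicate (l.count κ) κ := by
      rw [← List.filter_beq]
      congr 1
    have h3 : (l.count κ : ℝ) * (R : ℝ)⁻¹ ^ κ.wt ≤ S := by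
      have h4 := en_le_of_filter hr (fun t => decide (t = κ)) l
      rw [e2, en_replicate] at h4
      exact h4.trans hS
    rw [← e1, Nat.add_mul]
    refine mul_mem_Wd (hC G hc f hf R hR _ ?_ ?_) ?_
    · refine mem_ga (fun t ht hp => ?_) (fun t ht hp s hs => ?_)
      · have h6 : ¬ (t = κ) := by simpa using hp
        rcases hl t ht with h7 | h7
        · exact Or.inl ((Set.mem_insert_iff.mp h7).resolve_left h6)
        · exact Or.inr h7
      · have h6 : t = κ := by simpa using hp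
        right
        change w + 1 ≤ t.wt + s.wt
        have h7 := hFw κ (Set.mem_insert _ _)
        have h8 := s.wt_pos
        rw [h6, h7]
        omega
    · refine (en_ga hr _ l).trans ?_
      have h5 : pe (R : ℝ)⁻¹ (l.filter (fun t => decide (t = κ))) ≤ Real.exp S :=
        (pe_le hr _).trans (Real.exp_le_exp.mpr ((en_le_of_filter hr _ _).trans hS))
      exact mul_le_mul h5 hS (en_nonneg hr _) (Real.exp_pos _).le
    · rw [e2, pv_replicate]
      refine hC' G hc f hf R hR _ ?_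
      rw [hFw κ (Set.mem_insert _ _), inv_pow, ← div_eq_mul_inv, div_le_iff₀ (by positivity)] at h3
      exact h3

theorem sh_all [Finite σ] (c : ℕ) (ι : σ → σ) (w : ℕ) (hw : 1 ≤ w) :
    Sh.{u, v} c ι (fun t => w ≤ t.wt) := by
  have key : ∀ n w : ℕ, 1 ≤ w → c + 1 ≤ w + n → Sh.{u, v} c ι (fun t => w ≤ t.wt) := by
    intro n
    induction n with
    | zero =>
      intro w _ h S
      obtain ⟨C, hC⟩ := sh_base.{u, v} c ι S
      exact ⟨C, fun G _ hc f hf R hR l hl =>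
        hC G hc f hf R hR l fun t ht => by have := hl t ht; omega⟩
    | succ n ih =>
      intro w hw h S
      have h1 := ih (w + 1) (by omega) (by omega)
      have h2 : {t : Tr σ | t.wt = w}.Finite :=
        (finite_wt_le w).subset fun t ht => le_of_eq ht
      obtain ⟨C, hC⟩ := sh_step hw h1 h2 (fun t ht => ht) S
      refine ⟨C, fun G _ hc f hf R hR l hl => hC G hc f hf R hR l fun t ht => ?_⟩
      have h3 := hl t ht
      rcases Nat.eq_or_lt_of_le h3 with h4 | h4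
      · exact Or.inl h4.symm
      · exact Or.inr h4
  exact key (c + 1) w hw (by omega)

/-- **Discrete Guivarc'h estimate**, uniform over all groups of nilpotency class `≤ c`. -/
theorem exists_short [Finite σ] (c : ℕ) (ι : σ → σ) (S : ℝ) : ∃ C : ℕ, 1 ≤ C ∧
    ∀ (G : Type u) [Group G], (⊤ : Subgroup G).lowerCentralSeries c = ⊥ →
    ∀ f : σ → G, (∀ s, f (ι s) = (f s)⁻¹) → ∀ R : ℕ, 1 ≤ R → ∀ l : List (Tr σ),
      en (R : ℝ)⁻¹ l ≤ S → pv f l ∈ Wd f (C * R) := by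
  obtain ⟨C, hC⟩ := sh_all.{u, v} c ι 1 le_rfl S
  exact ⟨C + 1, by omega, fun G _ hc f hf R hR l hl =>
    Wd_mono (Nat.mul_le_mul_right _ (by omega))
      (hC G hc f hf R hR l (fun t _ => t.wt_pos) hl)⟩

end Crest.Agent.R182.Slow
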