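/-
R182, module SLOW (helper89): consequences of the discrete Guivarc'h estimate.
`exists_UL` : in a group of class `≤ c` the conjugate `y ^ j x y ^ -j` (`j ≤ N`) is a product of at
most `ε N` letters `x ^ ± 1`, `y ^ ± 1`, as soon as `N ≥ N₀(c, ε)`;
`exists_slow`, `exists_pow` : the estimates SLOW and POW for a finite family in a nilpotent group.
-/
import Mathlib
import Crest.Agent.R182.SlowNil

set_option autoImplicit false
set_option linter.unusedSectionVars false

namespace Crest.Agent.R182.Slow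

universe u v

open scoped commutatorElement

open Tr

variable {σ : Type v}

/-- the list of leaves of a word -/
def lv (l : List σ) : List (Tr σ) := l.map leaf

theorem pv_lv {G : Type u} [Group G] (f : σ → G) (l : List σ) : pv f (lv l) = (l.map f).prod := by
  simp only [pv, lv, List.map_map]
  rfl

theorem en_lv (r : ℝ) (l : List σ) : en r (lv l) = l.length * r := by
  induction l with
  | nil => simp [lv]
  | cons s l ih =>
    have e : lv (s :: l) = leaf s :: lv l := rfl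
    rw [e, en_cons, ih, List.length_cons]
    push_cast
    simp only [wt]
    ring

/-! ### (UL) -/

/-- conjugates by powers are short, uniformly in all groups of class `≤ c` -/
theorem exists_UL (c : ℕ) {ε : ℝ} (hε : 0 < ε) : ∃ N0 : ℕ, ∀ (G : Type u) [Group G],
    (⊤ : Subgroup G).lowerCentralSeries c = ⊥ → ∀ x y : G, ∀ N : ℕ, N0 ≤ N → ∀ j ≤ N,
    ∃ l : List G, (l.length : ℝ) ≤ ε * N ∧
      (∀ s ∈ l, s = x ∨ s = x⁻¹ ∨ s = y ∨ s = y⁻¹) ∧ l.prod = y ^ j * x * (y ^ j)⁻¹ := by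
  obtain ⟨C, hC1, hC⟩ := exists_short.{u, 0} (σ := Bool × Bool) c (fun s => (s.1, !s.2)) 1
  have hC0 : (0 : ℝ) < C := by exact_mod_cast hC1
  set ρ : ℝ := ε / (2 * C) with hρ
  have hρ0 : 0 < ρ := by positivity
  obtain ⟨N1, hN1⟩ : ∃ N1 : ℕ, 1 / ρ ≤ N1 := ⟨_, Nat.le_ceil _⟩
  obtain ⟨N2, hN2⟩ : ∃ N2 : ℕ, Real.exp (1 / ρ) / ρ ≤ N2 := ⟨_, Nat.le_ceil _⟩
  refine ⟨max N1 N2, fun G _ hc x y N hN j hj => ?_⟩
  have h1 : (1 : ℝ) ≤ ρ * N := by
    rw [div_le_iff₀ hρ0] at hN1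
    have : (N1 : ℝ) ≤ N := by exact_mod_cast (le_max_left _ _).trans hN
    nlinarith
  have h2 : Real.exp (1 / ρ) ≤ ρ * N := by
    rw [div_le_iff₀ hρ0] at hN2
    have : (N2 : ℝ) ≤ N := by exact_mod_cast (le_max_right _ _).trans hN
    nlinarith
  set R : ℕ := ⌈ρ * N⌉₊ with hR
  have hR1 : ρ * N ≤ R := Nat.le_ceil _
  have hR2 : (R : ℝ) ≤ ρ * N + 1 := (Nat.ceil_lt_add_one (by linarith)).le
  have hR0 : (0 : ℝ) < R := by linarith
  have hR3 : 1 ≤ R := by exact_mod_cast (by linarith : (1 : ℝ) ≤ R)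
  have hr : (0 : ℝ) ≤ (R : ℝ)⁻¹ := by positivity
  let f : Bool × Bool → G := fun s => if s.2 then (if s.1 then x else y)
    else (if s.1 then x else y)⁻¹
  have hf : ∀ s : Bool × Bool, f (s.1, !s.2) = (f s)⁻¹ := by
    rintro ⟨a, b⟩
    cases a <;> cases b <;> simp [f]
  have hmem := hC G hc f hf R hR3
    (cls (lv (List.replicate j (false, true))) (lv [(true, true)])) ?_
  · rw [pv_cls, pv_lv, pv_lv] at hmem
    obtain ⟨l, hl, hl'⟩ := hmem
    refine ⟨l.map f, ?_, ?_, ?_⟩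
    · rw [List.length_map]
      have h3 : (l.length : ℝ) ≤ C * R := by exact_mod_cast hl
      have h4 : (C : ℝ) * R ≤ C * (ρ * N + 1) := mul_le_mul_of_nonneg_left hR2 hC0.le
      have h5 : (C : ℝ) * (2 * (ρ * N)) = ε * N := by rw [hρ]; field_simp
      nlinarith
    · intro s hs
      obtain ⟨a, _, rfl⟩ := List.mem_map.mp hs
      rcases a with ⟨a, b⟩
      cases a <;> cases b <;> simp [f]
    · rw [hl']
      simp [f]
  · rw [en_cls, en_lv]
    have h3 : pe (R : ℝ)⁻¹ (lv (List.replicate j ((false, true) : Bool × Bool))) ≤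
        Real.exp (1 / ρ) := by
      refine (pe_le hr _).trans (Real.exp_le_exp.mpr ?_)
      rw [en_lv, List.length_replicate, ← div_eq_mul_inv, div_le_div_iff₀ hR0 hρ0]
      have : (j : ℝ) ≤ N := by exact_mod_cast hj
      nlinarith
    have h4 : (([((true, true) : Bool × Bool)].length : ℕ) : ℝ) * (R : ℝ)⁻¹ = (R : ℝ)⁻¹ := by simp
    rw [h4, ← div_eq_mul_inv, div_le_one hR0]
    linarith

/-! ### (SLOW) -/

/-- conjugation by long words keeps short words relatively short -/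
theorem exists_slow [Finite σ] {G : Type u} [Group G] {c : ℕ}
    (hc : (⊤ : Subgroup G).lowerCentralSeries c = ⊥) {ι : σ → σ} {f : σ → G}
    (hf : ∀ s, f (ι s) = (f s)⁻¹) (A : ℝ) {δ : ℝ} (hδ : 0 < δ) :
    ∃ δ' : ℝ, 0 < δ' ∧ ∃ N0 : ℕ, ∀ N ≥ N0, ∀ m m' : ℕ, (m : ℝ) ≤ δ' * N → (m' : ℝ) ≤ A * N →
      ∀ y ∈ Wd f m, ∀ b ∈ Wd f m', ∃ m'' : ℕ, (m'' : ℝ) ≤ δ * N ∧ b⁻¹ * y * b ∈ Wd f m'' := by
  obtain ⟨C, hC1, hC⟩ := exists_short.{u, v} c ι 1
  have hC0 : (0 : ℝ) < C := by exact_mod_cast hC1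
  set ρ : ℝ := δ / (2 * C) with hρ
  have hρ0 : 0 < ρ := by positivity
  set A' : ℝ := max A 0 with hA'
  obtain ⟨N1, hN1⟩ : ∃ N1 : ℕ, 1 / ρ ≤ N1 := ⟨_, Nat.le_ceil _⟩
  refine ⟨ρ * Real.exp (-(A' / ρ)), by positivity, N1, fun N hN m m' hm hm' => ?_⟩
  rintro _ ⟨Y, hY, rfl⟩ _ ⟨B, hB, rfl⟩
  have h1 : (1 : ℝ) ≤ ρ * N := by
    rw [div_le_iff₀ hρ0] at hN1
    have : (N1 : ℝ) ≤ N := by exact_mod_cast hN
    nlinarith
  have hN0 : (0 : ℝ) ≤ N := Nat.cast_nonneg _
  set R : ℕ := ⌈ρ * N⌉₊ with hR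
  have hR1 : ρ * N ≤ R := Nat.le_ceil _
  have hR2 : (R : ℝ) ≤ ρ * N + 1 := (Nat.ceil_lt_add_one (by linarith)).le
  have hR0 : (0 : ℝ) < R := by linarith
  have hR3 : 1 ≤ R := by exact_mod_cast (by linarith : (1 : ℝ) ≤ R)
  have hr : (0 : ℝ) ≤ (R : ℝ)⁻¹ := by positivity
  refine ⟨C * R, ?_, ?_⟩
  · push_cast
    have h4 : (C : ℝ) * R ≤ C * (ρ * N + 1) := mul_le_mul_of_nonneg_left hR2 hC0.le
    have h5 : (C : ℝ) * (2 * (ρ * N)) = δ * N := by rw [hρ]; field_simp
    nlinarith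
  · have hmem := hC G hc f hf R hR3 (cls (linv ι (lv B)) (lv Y)) ?_
    · rw [pv_cls, pv_linv hf, pv_lv, pv_lv, inv_inv] at hmem
      exact hmem
    · rw [en_cls, en_lv]
      have h3 : pe (R : ℝ)⁻¹ (linv ι (lv B)) ≤ Real.exp (A' / ρ) := by
        refine (pe_le hr _).trans (Real.exp_le_exp.mpr ?_)
        rw [en_linv, en_lv, ← div_eq_mul_inv, div_le_div_iff₀ hR0 hρ0]
        have e1 : (B.length : ℝ) ≤ A' * N := by
          have : (B.length : ℝ) ≤ m' := by exact_mod_cast hB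
          exact this.trans (hm'.trans (mul_le_mul_of_nonneg_right (le_max_left _ _) hN0))
        have e2 : 0 ≤ A' := le_max_right _ _
        calc (B.length : ℝ) * ρ ≤ A' * N * ρ := mul_le_mul_of_nonneg_right e1 hρ0.le
          _ = A' * (ρ * N) := by ring
          _ ≤ A' * R := mul_le_mul_of_nonneg_left hR1 e2
      have h4 : (Y.length : ℝ) * (R : ℝ)⁻¹ ≤ Real.exp (-(A' / ρ)) := by
        rw [← div_eq_mul_inv, div_le_iff₀ hR0]
        have e1 : (Y.length : ℝ) ≤ m := by exact_mod_cast hY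
        have e2 : Real.exp (-(A' / ρ)) * (ρ * N) ≤ Real.exp (-(A' / ρ)) * R :=
          mul_le_mul_of_nonneg_left hR1 (Real.exp_pos _).le
        nlinarith
      calc _ ≤ Real.exp (A' / ρ) * Real.exp (-(A' / ρ)) :=
            mul_le_mul h3 h4 (by positivity) (Real.exp_pos _).le
        _ = 1 := by rw [← Real.exp_add, add_neg_cancel, Real.exp_zero]
        _ ≤ 1 := le_rfl

/-! ### (POW) -/

section pow

variable {κ : Type v} [Fintype κ] {G : Type u} [Group G]

/-- signed letters -/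
def sg (t : κ → G) : κ × Bool → G := fun s => if s.2 then t s.1 else (t s.1)⁻¹

theorem sg_inv (t : κ → G) (s : κ × Bool) : sg t (s.1, !s.2) = (sg t s)⁻¹ := by
  rcases s with ⟨a, b⟩
  cases b <;> simp [sg]

theorem sg_zpow (t : κ → G) (i : κ) (z : ℤ) :
    ((List.replicate z.natAbs (i, decide (0 ≤ z))).map (sg t)).prod = t i ^ z := by
  rw [List.map_replicate, List.prod_replicate]
  by_cases hz : 0 ≤ z
  · have : sg t (i, decide (0 ≤ z)) = t i := by simp [sg, hz]
    rw [this, ← zpow_natCast, Int.natAbs_of_nonneg hz]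
  · have : sg t (i, decide (0 ≤ z)) = (t i)⁻¹ := by simp [sg, hz]
    have hz' : z ≤ 0 := by omega
    rw [this, ← zpow_natCast, Int.ofNat_natAbs_of_nonpos hz', inv_zpow, zpow_neg, inv_inv]

theorem pv_filter_leaf (t : κ → G) (i : κ) (l : List (Tr (κ × Bool)))
    (h : ∀ x ∈ l, ∃ b, x = leaf (i, b)) : ∃ z : ℤ, pv (sg t) l = t i ^ z := by
  induction l with
  | nil => exact ⟨0, by simp⟩
  | cons x l ih =>
    obtain ⟨z, hz⟩ := ih fun x hx => h x (List.mem_cons_of_mem _ hx)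
    obtain ⟨b, rfl⟩ := h x List.mem_cons_self
    rw [pv_cons, hz]
    cases b
    · refine ⟨-1 + z, ?_⟩
      rw [zpow_add, zpow_neg_one]
      simp [ev, sg]
    · refine ⟨1 + z, ?_⟩
      rw [zpow_add, zpow_one]
      simp [ev, sg]

variable {E : Type*} [NormedAddCommGroup E] [NormedSpace ℝ E]

theorem hom_one {H : G → E} (hH : ∀ g g', H (g * g') = H g + H g') : H 1 = 0 := by
  have := hH 1 1
  rw [mul_one] at this
  simpa using this

theorem hom_inv {H : G → E} (hH : ∀ g g', H (g * g') = H g + H g') (g : G) :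
    H g⁻¹ = -H g := by
  have := hH g g⁻¹
  rw [mul_inv_cancel, hom_one hH] at this
  exact (neg_eq_of_add_eq_zero_right this.symm).symm

theorem hom_pow {H : G → E} (hH : ∀ g g', H (g * g') = H g + H g') (g : G) (n : ℕ) :
    H (g ^ n) = (n : ℝ) • H g := by
  induction n with
  | zero => simp [hom_one hH]
  | succ n ih => rw [pow_succ, hH, ih]; push_cast; rw [add_smul, one_smul]

theorem hom_zpow {H : G → E} (hH : ∀ g g', H (g * g') = H g + H g') (g : G) (z : ℤ) :
    H (g ^ z) = (z : ℝ) • H g := by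
  cases z with
  | ofNat n => simpa using hom_pow hH g n
  | negSucc n =>
    rw [zpow_negSucc, hom_inv hH, hom_pow hH]
    push_cast
    rw [← neg_smul]

theorem hom_comm {H : G → E} (hH : ∀ g g', H (g * g') = H g + H g') (g g' : G) :
    H ⁅g, g'⁆ = 0 := by
  rw [commutatorElement_def, hH, hH, hH, hom_inv hH, hom_inv hH]
  abel

/-- collection of the letters -/
theorem exists_collect {H : G → E} (hH : ∀ g g', H (g * g') = H g + H g') (t : κ → G)
    (F : Finset κ) (S : ℝ) : ∃ S' : ℝ, 0 ≤ S' ∧ ∀ (r : ℝ), 0 ≤ r →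
    ∀ l : List (Tr (κ × Bool)), en r l ≤ S →
    ∃ (rest : List (Tr (κ × Bool))) (lets : List (κ × Bool)) (v : κ → ℤ),
      pv (sg t) l = pv (sg t) rest * (lets.map (sg t)).prod ∧ en r rest ≤ S' ∧
      (∀ x ∈ rest, ∀ i ∈ F, ∀ b, x ≠ leaf (i, b)) ∧
      (lets.length : ℝ) ≤ ∑ i ∈ F, |(v i : ℝ)| ∧
      H ((lets.map (sg t)).prod) = ∑ i ∈ F, (v i : ℝ) • H (t i) := by
  classical
  induction F using Finset.induction_on with
  | empty =>
    exact ⟨max S 0, le_max_right _ _, fun r hr l hl =>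
      ⟨l, [], 0, by simp, hl.trans (le_max_left _ _), by simp, by simp, by simp [hom_one hH]⟩⟩
  | @insert i F hi ih =>
    obtain ⟨S', hS', h⟩ := ih
    refine ⟨Real.exp S' * S', by positivity, fun r hr l hl => ?_⟩
    obtain ⟨rest, lets, v, h1, h2, h3, h4, h5⟩ := h r hr l hl
    set p : Tr (κ × Bool) → Bool := fun x => decide (∃ b, x = leaf (i, b)) with hp
    obtain ⟨z, hz⟩ := pv_filter_leaf t i (rest.filter p) (fun x hx => by
      have := (List.mem_filter.mp hx).2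
      simpa [hp] using this)
    refine ⟨ga p rest, List.replicate z.natAbs (i, decide (0 ≤ z)) ++ lets,
      Function.update v i z, ?_, ?_, ?_, ?_, ?_⟩
    · rw [h1, ← pv_ga (sg t) p rest, hz, List.map_append, List.prod_append, sg_zpow, mul_assoc]
    · refine (en_ga hr _ _).trans ?_
      have h5 : pe r (rest.filter p) ≤ Real.exp S' :=
        (pe_le hr _).trans (Real.exp_le_exp.mpr ((en_le_of_filter hr _ _).trans h2))
      exact mul_le_mul h5 h2 (en_nonneg hr _) (Real.exp_pos _).le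
    · refine mem_ga (fun x hx hpx => ?_) (fun x _ _ s _ => ?_)
      · intro j hj b hxb
        rcases Finset.mem_insert.mp hj with rfl | hj
        · have : ¬ ∃ b, x = leaf (j, b) := by simpa [hp] using hpx
          exact this ⟨b, hxb⟩
        · exact h3 x hx j hj b hxb
      · intro j _ b h; cases h
    · rw [Finset.sum_insert hi, List.length_append, List.length_replicate, Function.update_self]
      push_cast
      have e1 : ∑ j ∈ F, |((Function.update v i z j : ℤ) : ℝ)| = ∑ j ∈ F, |(v j : ℝ)| :=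
        Finset.sum_congr rfl fun j hj => by
          rw [Function.update_of_ne (show j ≠ i from fun e => hi (e ▸ hj))]
      rw [e1, Nat.cast_natAbs, Int.cast_abs]
      linarith
    · rw [List.map_append, List.prod_append, hH, sg_zpow, h5, hom_zpow hH,
        Finset.sum_insert hi, Function.update_self]
      congr 1
      exact Finset.sum_congr rfl fun j hj => by
        rw [Function.update_of_ne (show j ≠ i from fun e => hi (e ▸ hj))]

theorem pv_flatten {τ : Type*} (f : τ → G) (l : List (Tr τ)) (j : ℕ) :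
    pv f (List.replicate j l).flatten = pv f l ^ j := by
  induction j with
  | zero => simp
  | succ j ih => rw [List.replicate_succ, List.flatten_cons, pv_append, ih, pow_succ']

theorem en_flatten {τ : Type*} (r : ℝ) (l : List (Tr τ)) (j : ℕ) :
    en r (List.replicate j l).flatten = j * en r l := by
  induction j with
  | zero => simp
  | succ j ih => rw [List.replicate_succ, List.flatten_cons, en_append, ih]; push_cast; ring

theorem hom_pv {H : G → E} (hH : ∀ g g', H (g * g') = H g + H g') {τ : Type*} (f : τ → G)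
    (l : List (Tr τ)) (hl : ∀ x ∈ l, ∀ s, x ≠ leaf s) : H (pv f l) = 0 := by
  induction l with
  | nil => exact hom_one hH
  | cons x l ih =>
    rw [pv_cons, hH, ih fun y hy => hl y (List.mem_cons_of_mem _ hy), add_zero]
    cases x with
    | leaf s => exact absurd rfl (hl _ List.mem_cons_self s)
    | br a b => exact hom_comm hH _ _

theorem two_le_wt {τ : Type*} {x : Tr τ} (hx : ∀ s, x ≠ leaf s) : 2 ≤ x.wt := by
  cases x with
  | leaf s => exact absurd rfl (hx s)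
  | br a b =>
    have := a.wt_pos
    have := b.wt_pos
    change 2 ≤ a.wt + b.wt
    omega

/-- elements of almost zero height have slowly growing powers -/
theorem exists_pow {c : ℕ} (hc : (⊤ : Subgroup G).lowerCentralSeries c = ⊥) (t : κ → G)
    {H : G → E} (hH : ∀ g g', H (g * g') = H g + H g')
    (hli : LinearIndependent ℝ fun i => H (t i)) {δ : ℝ} (hδ : 0 < δ) (B : ℝ) :
    ∃ j : ℕ, 1 ≤ j ∧ ∃ ε : ℝ, 0 < ε ∧ ∃ N0 : ℕ, ∀ N ≥ N0, ∀ m : ℕ, (m : ℝ) ≤ B * N →
      ∀ g ∈ Wd (sg t) m, ‖H g‖ ≤ ε * N → ∃ m' : ℕ, (m' : ℝ) ≤ δ * j * N ∧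
        g ^ j ∈ Wd (sg t) m' := by
  classical
  -- the constants
  obtain ⟨C, hC1, hC⟩ := exists_short.{u, v} (σ := κ × Bool) c (fun s => (s.1, !s.2)) 1
  have hC0 : (0 : ℝ) < C := by exact_mod_cast hC1
  obtain ⟨S', hS', hcol⟩ := exists_collect hH t Finset.univ B
  obtain ⟨L, hL0, hL⟩ : ∃ L : ℝ, 0 < L ∧ ∀ v : κ → ℝ,
      ∑ i, |v i| ≤ L * ‖∑ i, v i • H (t i)‖ := by
    obtain ⟨K, _, hK⟩ := (Fintype.linearCombination ℝ fun i => H (t i)).exists_antilipschitzWith
      (LinearMap.ker_eq_bot.mpr (linearIndependent_iff_injective_fintypeLinearCombination.mp hli))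
    refine ⟨(Fintype.card κ + 1) * (K + 1), by positivity, fun v => ?_⟩
    have h1 : ‖v‖ ≤ K * ‖∑ i, v i • H (t i)‖ := by
      have := hK.le_mul_dist v 0
      rw [dist_zero_right, map_zero, dist_zero_right, Fintype.linearCombination_apply] at this
      exact this
    have h2 : ∑ i, |v i| ≤ Fintype.card κ * ‖v‖ := by
      have : ∑ i, |v i| ≤ ∑ _i : κ, ‖v‖ := Finset.sum_le_sum fun i _ => norm_le_pi_norm v i
      simpa using this
    have h3 : 0 ≤ ‖∑ i, v i • H (t i)‖ := norm_nonneg _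
    have h4 : 0 ≤ (K : ℝ) := K.2
    calc ∑ i, |v i| ≤ Fintype.card κ * ‖v‖ := h2
      _ ≤ Fintype.card κ * (K * ‖∑ i, v i • H (t i)‖) :=
        mul_le_mul_of_nonneg_left h1 (Nat.cast_nonneg _)
      _ ≤ (Fintype.card κ + 1) * ((K + 1) * ‖∑ i, v i • H (t i)‖) :=
        mul_le_mul (by linarith) (mul_le_mul_of_nonneg_right (by linarith) h3)
          (by positivity) (by positivity)
      _ = _ := by ring
  set ρ : ℝ := δ / (2 * C) with hρ
  have hρ0 : 0 < ρ := by positivity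
  obtain ⟨j, hj⟩ : ∃ j : ℕ, max (1 / ρ) (2 * S' / ρ ^ 2) ≤ j := ⟨_, Nat.le_ceil _⟩
  have hj1 : 1 / ρ ≤ j := (le_max_left _ _).trans hj
  have hj2 : 2 * S' / ρ ^ 2 ≤ j := (le_max_right _ _).trans hj
  have hj0 : (0 : ℝ) < j := lt_of_lt_of_le (by positivity) hj1
  have hj3 : 1 ≤ ρ * j := by rwa [div_le_iff₀' hρ0] at hj1
  refine ⟨j, by exact_mod_cast hj0, ρ / (2 * L), by positivity, 1, fun N hN m hm g hg hHg =>
    ⟨C * ⌈ρ * j * N⌉₊, ?_, ?_⟩⟩
  all_goals
    have hN1 : (1 : ℝ) ≤ N := by exact_mod_cast hN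
    have hN0 : (0 : ℝ) < N := by linarith
    have h1 : 1 ≤ ρ * j * N := by nlinarith
    have hR1 : ρ * j * N ≤ ⌈ρ * j * N⌉₊ := Nat.le_ceil _
    have hR2 : (⌈ρ * j * N⌉₊ : ℝ) ≤ ρ * j * N + 1 := (Nat.ceil_lt_add_one (by linarith)).le
  · push_cast
    have h4 : (C : ℝ) * ⌈ρ * j * N⌉₊ ≤ C * (ρ * j * N + 1) := mul_le_mul_of_nonneg_left hR2 hC0.le
    have h5 : (C : ℝ) * (2 * (ρ * j * N)) = δ * j * N := by rw [hρ]; field_simp
    nlinarith
  · set R : ℕ := ⌈ρ * j * N⌉₊ with hR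
    have hR0 : (0 : ℝ) < R := by linarith
    have hR3 : 1 ≤ R := by exact_mod_cast (by linarith : (1 : ℝ) ≤ R)
    have hr : (0 : ℝ) ≤ (R : ℝ)⁻¹ := by positivity
    obtain ⟨Y, hY, rfl⟩ := hg
    obtain ⟨rest, lets, v, e1, e2, e3, e4, e5⟩ := hcol (N : ℝ)⁻¹ (by positivity) (lv Y) (by
      rw [en_lv, ← div_eq_mul_inv, div_le_iff₀ hN0]
      have : (Y.length : ℝ) ≤ m := by exact_mod_cast hY
      linarith)
    rw [pv_lv] at e1
    have e3' : ∀ x ∈ rest, ∀ s, x ≠ leaf s := fun x hx s => e3 x hx s.1 (Finset.mem_univ _) s.2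
    have e6 : H (Y.map (sg t)).prod = ∑ i, (v i : ℝ) • H (t i) := by
      rw [e1, hH, e5, hom_pv hH _ _ e3', zero_add]
    have e7 : (lets.length : ℝ) ≤ ρ / 2 * N := by
      have h2 := hL fun i => (v i : ℝ)
      rw [← e6] at h2
      have h3 : L * ‖H (Y.map (sg t)).prod‖ ≤ L * (ρ / (2 * L) * N) :=
        mul_le_mul_of_nonneg_left hHg hL0.le
      have h4 : L * (ρ / (2 * L) * N) = ρ / 2 * N := by field_simp
      linarith
    have hmem := hC G hc (sg t) (fun s => sg_inv t s) R hR3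
      ((List.replicate j (rest ++ lv lets)).flatten) ?_
    · rw [pv_flatten, pv_append, pv_lv, ← e1] at hmem
      exact hmem
    · rw [en_flatten, en_append, en_lv]
      have hNR : (N : ℝ) ≤ R := by nlinarith
      have h2 := en_scale (r := (R : ℝ)⁻¹) (s := (N : ℝ)⁻¹) hr
        (inv_anti₀ hN0 hNR) (by positivity) 2 rest (fun x hx => two_le_wt (e3' x hx))
      have h3 : (R : ℝ)⁻¹ / (N : ℝ)⁻¹ ≤ 1 / (ρ * j) := by
        rw [div_inv_eq_mul, ← div_eq_inv_mul, div_le_div_iff₀ hR0 (by positivity)]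
        nlinarith
      have h4 : ((R : ℝ)⁻¹ / (N : ℝ)⁻¹) ^ 2 * en (N : ℝ)⁻¹ rest ≤ (1 / (ρ * j)) ^ 2 * S' :=
        mul_le_mul (pow_le_pow_left₀ (by positivity) h3 2) e2 (en_nonneg (by positivity) _)
          (by positivity)
      have h5 : (j : ℝ) * ((1 / (ρ * j)) ^ 2 * S') ≤ 1 / 2 := by
        have h6 : (j : ℝ) * ((1 / (ρ * j)) ^ 2 * S') = S' / ρ ^ 2 / j := by
          field_simp
        rw [h6, div_le_iff₀ hj0]
        have h7 : 2 * S' / ρ ^ 2 = 2 * (S' / ρ ^ 2) := by ring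
        linarith
      have h6 : (j : ℝ) * ((lets.length : ℝ) * (R : ℝ)⁻¹) ≤ 1 / 2 := by
        rw [← div_eq_mul_inv, ← mul_div_assoc, div_le_iff₀ hR0]
        calc (j : ℝ) * lets.length ≤ j * (ρ / 2 * N) := mul_le_mul_of_nonneg_left e7 hj0.le
          _ = 1 / 2 * (ρ * j * N) := by ring
          _ ≤ 1 / 2 * R := by linarith
      have h7 : (j : ℝ) * en (R : ℝ)⁻¹ rest ≤ (j : ℝ) * ((1 / (ρ * j)) ^ 2 * S') :=
        mul_le_mul_of_nonneg_left (h2.trans h4) hj0.le
      rw [mul_add]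
      linarith

end pow

end Crest.Agent.R182.Slow
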