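/-
R182, module SLOW (helper89): the properties `Star.Slow` and `Star.Pow` of helper554's StarLeg for a
finite set in a nilpotent subgroup.
-/
import Mathlib
import Crest.Agent.R182.SlowUL
import Crest.Agent.R182.StarLeg

set_option autoImplicit false

namespace Crest.Agent.R182.Slow

universe u v

open Tr

variable {G : Type u} [Group G]

theorem lcs_of_nilpotent {N : Subgroup G} (hN : Group.IsNilpotent N) :
    ∃ c, (⊤ : Subgroup N).lowerCentralSeries c = ⊥ :=
  Subgroup.nilpotent_iff_lowerCentralSeries.mp hN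

/-- **(SLOW)** for a finite set in a nilpotent subgroup -/
theorem slow_of_nilpotent (N : Subgroup G) (hN : Group.IsNilpotent N) {T : Set G}
    (hT : T.Finite) (hTN : T ⊆ N) : Star.Slow T := by
  obtain ⟨c, hc⟩ := lcs_of_nilpotent hN
  have hfin : Finite {s : G // s ∈ T ∨ s⁻¹ ∈ T} := (hT.union hT.inv).to_subtype
  have hmem : ∀ s : {s : G // s ∈ T ∨ s⁻¹ ∈ T}, (s : G) ∈ N := fun s => by
    rcases s.2 with h | h
    · exact hTN h
    · have := N.inv_mem (hTN h)
      rwa [inv_inv] at this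
  let f : {s : G // s ∈ T ∨ s⁻¹ ∈ T} → N := fun s => ⟨s, hmem s⟩
  let ι : {s : G // s ∈ T ∨ s⁻¹ ∈ T} → {s : G // s ∈ T ∨ s⁻¹ ∈ T} := fun s =>
    ⟨(s : G)⁻¹, by rw [inv_inv]; exact s.2.symm⟩
  have key : ∀ (m : ℕ) (g : G), g ∈ Star.Bl T m ↔ ∃ x ∈ Wd f m, (x : G) = g := by
    intro m g
    constructor
    · rintro ⟨l, h1, h2, rfl⟩
      refine ⟨_, ⟨l.attach.map fun s => ⟨s.1, h2 s.1 s.2⟩, by simpa using h1, rfl⟩, ?_⟩
      have : ((((l.attach.map fun s => (⟨s.1, h2 s.1 s.2⟩ : {s : G // s ∈ T ∨ s⁻¹ ∈ T})).map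
          f).prod : N) : G) = ((l.attach.map fun s => s.1).prod : G) := by
        rw [← Subgroup.coe_subtype, map_list_prod, List.map_map, List.map_map]
        rfl
      rw [this, List.attach_map_subtype_val]
    · rintro ⟨x, ⟨l, h1, rfl⟩, rfl⟩
      refine ⟨l.map fun s : {s : G // s ∈ T ∨ s⁻¹ ∈ T} => s.1, by simpa using h1,
        fun s hs => ?_, ?_⟩
      · obtain ⟨a, _, rfl⟩ := List.mem_map.mp hs
        exact a.2
      · rw [← Subgroup.coe_subtype, map_list_prod, List.map_map]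
        rfl
  intro A δ hδ
  obtain ⟨δ', hδ', N0, h⟩ := exists_slow hc (ι := ι) (f := f) (fun s => rfl) A hδ
  refine ⟨δ', hδ', N0, fun n hn m m' hm hm' y hy b hb => ?_⟩
  obtain ⟨y', hy', rfl⟩ := (key _ _).mp hy
  obtain ⟨b', hb', rfl⟩ := (key _ _).mp hb
  obtain ⟨m'', h1, h2⟩ := h n hn m m' hm hm' y' hy' b' hb'
  exact ⟨m'', h1, (key _ _).mpr ⟨_, h2, rfl⟩⟩

/-- **(POW)** for a finite family in a nilpotent subgroup, independent modulo the kernel of the
height -/
theorem pow_of_nilpotent (N : Subgroup G) (hN : Group.IsNilpotent N) {κ : Type v} [Fintype κ]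
    (t : κ → G) (ht : ∀ i, t i ∈ N) {E : Type*} [NormedAddCommGroup E] [NormedSpace ℝ E]
    (hgt : G → E) (hH : ∀ g g', hgt (g * g') = hgt g + hgt g')
    (hli : LinearIndependent ℝ fun i => hgt (t i)) : Star.Pow (Set.range t) hgt := by
  obtain ⟨c, hc⟩ := lcs_of_nilpotent hN
  let t' : κ → N := fun i => ⟨t i, ht i⟩
  have key : ∀ (m : ℕ) (g : G), g ∈ Star.Bl (Set.range t) m ↔ ∃ x ∈ Wd (sg t') m, (x : G) = g := by
    intro m g
    constructor
    · rintro ⟨l, h1, h2, rfl⟩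
      have h3 : ∃ w : List (κ × Bool), w.length = l.length ∧
          (((w.map (sg t')).prod : N) : G) = l.prod := by
        clear h1
        induction l with
        | nil => exact ⟨[], rfl, rfl⟩
        | cons s l ih =>
          obtain ⟨w, hw, hw'⟩ := ih fun s hs => h2 s (List.mem_cons_of_mem _ hs)
          obtain ⟨a, ha⟩ : ∃ a : κ × Bool, ((sg t' a : N) : G) = s := by
            rcases h2 s List.mem_cons_self with ⟨i, hi⟩ | ⟨i, hi⟩
            · exact ⟨(i, true), by simpa [sg, t'] using hi⟩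
            · refine ⟨(i, false), ?_⟩
              have : ((sg t' (i, false) : N) : G) = (t i)⁻¹ := by simp [sg, t']
              rw [this, hi, inv_inv]
          refine ⟨a :: w, by simp [hw], ?_⟩
          rw [List.map_cons, List.prod_cons, List.prod_cons, ← hw', ← ha]
          rfl
      obtain ⟨w, hw, hw'⟩ := h3
      exact ⟨_, ⟨w, by omega, rfl⟩, hw'⟩
    · rintro ⟨x, ⟨l, h1, rfl⟩, rfl⟩
      refine ⟨l.map fun s => ((sg t' s : N) : G), by simpa using h1, fun s hs => ?_, ?_⟩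
      · obtain ⟨⟨i, b⟩, _, rfl⟩ := List.mem_map.mp hs
        cases b
        · exact Or.inr ⟨i, by simp [sg, t']⟩
        · exact Or.inl ⟨i, by simp [sg, t']⟩
      · rw [← Subgroup.coe_subtype, map_list_prod, List.map_map]
        rfl
  intro δ B hδ
  obtain ⟨j, hj, ε, hε, N0, h⟩ := exists_pow hc t' (H := fun g : N => hgt g)
    (fun g g' => hH _ _) hli hδ B
  refine ⟨j, hj, ε, hε, N0, fun n hn m hm g hg hhg => ?_⟩
  obtain ⟨g', hg', rfl⟩ := (key _ _).mp hg
  obtain ⟨m', h1, h2⟩ := h n hn m hm g' hg' hhg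
  exact ⟨m', h1, (key _ _).mpr ⟨_, h2, rfl⟩⟩

end Crest.Agent.R182.Slow
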