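/-
R182, module STAR (helper554): the law per point.
-/
import Crest.Agent.R182.StarLaw

set_option autoImplicit false
set_option linter.unusedSectionVars false

open MeasureTheory ENNReal List

namespace Crest.Agent.R182.Star

open Crest.Agent.R182.Conv Crest.Agent.R182.Cap

section Words

variable {E : Type*} [NormedAddCommGroup E] [InnerProductSpace ℝ E] {Eb : Finset E}

/-- allowed words: bounded length, all prefixes at distance `≥ ρ` from the complement of `Ω`. -/
def PP (Ω : Set E) (τ ρ : ℝ) (Λ : ℕ) (u : List Eb) : Prop :=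
  u.length ≤ Λ ∧ ∀ u', u' <+: u → Metric.ball (τ • lsum u') ρ ⊆ Ω

theorem PP.init {Ω : Set E} {τ ρ : ℝ} {Λ : ℕ} (w : List Eb) (e : Eb)
    (h : PP Ω τ ρ Λ (w ++ [e])) : PP Ω τ ρ Λ w := by
  refine ⟨by have := h.1; rw [length_append] at this; omega, fun u' hu' => ?_⟩
  exact h.2 u' (hu'.trans (prefix_append _ _))

theorem finite_PP (Ω : Set E) (τ ρ : ℝ) (Λ : ℕ) : {u : List Eb | PP Ω τ ρ Λ u}.Finite :=
  (List.finite_length_le (α := Eb) Λ).subset fun _ hu => hu.1

theorem norm_lsum_le (hu : ∀ e ∈ Eb, ‖e‖ = 1) {τ : ℝ} (hτ : 0 ≤ τ) (w : List Eb) :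
    ‖τ • lsum w‖ ≤ w.length * τ := by
  induction w with
  | nil => simp [lsum]
  | cons e w ih =>
    rw [lsum_cons, smul_add, length_cons]
    refine (norm_add_le _ _).trans ?_
    rw [norm_smul τ (e : E), hu e e.2, mul_one, Real.norm_of_nonneg hτ]
    push_cast
    linarith

theorem prefix_flatten (hu : ∀ e ∈ Eb, ‖e‖ = 1) {τ : ℝ} (hτ : 0 ≤ τ) (w : List Eb) (j : ℕ) :
    ∀ u', u' <+: (replicate j w).flatten → ‖τ • lsum u'‖ ≤ j * ‖τ • lsum w‖ + w.length * τ := by
  induction j with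
  | zero =>
    intro u' h
    have : u' = [] := by simpa using h
    subst this
    simp [lsum]; positivity
  | succ j ih =>
    intro u' h
    rw [replicate_succ, flatten_cons] at h
    rcases prefix_or_prefix_of_prefix h (prefix_append w _) with h1 | h1
    · have h2 := norm_lsum_le hu hτ u'
      have h3 : (u'.length : ℝ) ≤ w.length := by exact_mod_cast h1.length_le
      have h4 : (u'.length : ℝ) * τ ≤ w.length * τ := by gcongr
      have h5 : 0 ≤ ((j + 1 : ℕ) : ℝ) * ‖τ • lsum w‖ := by positivity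
      linarith
    · obtain ⟨u'', rfl⟩ := h1
      rw [prefix_append_right_inj] at h
      have h2 := ih u'' h
      rw [lsum_append, smul_add]
      refine (norm_add_le _ _).trans ?_
      push_cast
      linarith

/-- comparison of the unit word with the timed word -/
theorem uw_sum (f : Eb → E) (hf : ∀ e, ‖f e‖ ≤ 1) {s τ : ℝ} (hs1 : s ≤ 1) (hτ : 0 < τ)
    (w : List (Eb × ℝ)) (hw : ∀ p ∈ w, 0 ≤ p.2) :
    ‖(w.map fun p => (τ * ⌊(1 - s) * p.2 / τ⌋₊) • f p.1).sum -
      (w.map fun p => ((1 - s) * p.2) • f p.1).sum‖ ≤ w.length * τ := by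
  induction w with
  | nil => simp
  | cons p w ih =>
    have h1 := ih fun q hq => hw q (mem_cons_of_mem _ hq)
    have h2 := hw p mem_cons_self
    simp only [map_cons, sum_cons, length_cons]
    have h3 : ‖(τ * (⌊(1 - s) * p.2 / τ⌋₊ : ℝ)) • f p.1 - ((1 - s) * p.2) • f p.1‖ ≤ τ := by
      rw [← sub_smul, norm_smul]
      have h0 : 0 ≤ (1 - s) * p.2 / τ := div_nonneg (mul_nonneg (by linarith) h2) hτ.le
      have h4 := Nat.floor_le h0
      have h5 := Nat.lt_floor_add_one ((1 - s) * p.2 / τ)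
      rw [le_div_iff₀ hτ] at h4
      rw [div_lt_iff₀ hτ] at h5
      have h6 : |τ * (⌊(1 - s) * p.2 / τ⌋₊ : ℝ) - (1 - s) * p.2| ≤ τ := by
        rw [abs_le]; constructor <;> linarith
      calc |τ * (⌊(1 - s) * p.2 / τ⌋₊ : ℝ) - (1 - s) * p.2| * ‖f p.1‖ ≤ τ * 1 := by
            gcongr
            exact hf _
        _ = τ := mul_one _
    have h4 : (τ * (⌊(1 - s) * p.2 / τ⌋₊ : ℝ)) • f p.1 +
        (w.map fun p => (τ * ⌊(1 - s) * p.2 / τ⌋₊) • f p.1).sum -
        (((1 - s) * p.2) • f p.1 + (w.map fun p => ((1 - s) * p.2) • f p.1).sum) =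
        ((τ * (⌊(1 - s) * p.2 / τ⌋₊ : ℝ)) • f p.1 - ((1 - s) * p.2) • f p.1) +
        ((w.map fun p => (τ * ⌊(1 - s) * p.2 / τ⌋₊) • f p.1).sum -
        (w.map fun p => ((1 - s) * p.2) • f p.1).sum) := by abel
    rw [h4]
    refine (norm_add_le _ _).trans ?_
    push_cast
    linarith

theorem lsum_uw (σ : Equiv.Perm Eb) (s τ : ℝ) (w : List (Eb × ℝ)) :
    τ • lsum ((uw s τ w).map σ) =
      (w.map fun p => (τ * ⌊(1 - s) * p.2 / τ⌋₊) • ((σ p.1 : Eb) : E)).sum := by
  induction w with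
  | nil => simp [uw, lsum]
  | cons p w ih =>
    have : uw s τ (p :: w) = replicate ⌊(1 - s) * p.2 / τ⌋₊ p.1 ++ uw s τ w := by
      rw [uw, flatMap_cons]; rfl
    rw [this, map_append, lsum_append, smul_add, ih, map_replicate, lsum_replicate, map_cons,
      sum_cons, smul_smul]

theorem tsum_eq (w : List (Eb × ℝ)) : tsum w = (w.map fun p => p.2 • (p.1 : E)).sum := rfl

theorem smul_tsum (f : Eb → E) (c : ℝ) (w : List (Eb × ℝ)) :
    (w.map fun p => (c * p.2) • f p.1).sum = c • (w.map fun p => p.2 • f p.1).sum := by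
  induction w with
  | nil => simp
  | cons p w ih => simp only [map_cons, sum_cons, ih, smul_add, smul_smul]

theorem norm_tsum_le (f : Eb → E) (hf : ∀ e, ‖f e‖ ≤ 1) {tW : ℝ} (w : List (Eb × ℝ))
    (hw : ∀ p ∈ w, 0 ≤ p.2 ∧ p.2 ≤ tW) :
    ‖(w.map fun p => p.2 • f p.1).sum‖ ≤ w.length * tW := by
  induction w with
  | nil => simp
  | cons p w ih =>
    have h1 := ih fun q hq => hw q (mem_cons_of_mem _ hq)
    obtain ⟨h2, h3⟩ := hw p mem_cons_self
    simp only [map_cons, sum_cons, length_cons]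
    refine (norm_add_le _ _).trans ?_
    have h4 : ‖p.2 • f p.1‖ ≤ tW := by
      rw [norm_smul, Real.norm_of_nonneg h2]
      calc p.2 * ‖f p.1‖ ≤ p.2 * 1 := by gcongr; exact hf _
        _ ≤ tW := by linarith
    push_cast
    linarith

theorem length_uw_le {s τ : ℝ} (hs : 0 ≤ s) (hs1 : s ≤ 1) (hτ : 0 < τ) {tW : ℝ}
    (w : List (Eb × ℝ)) (hw : ∀ p ∈ w, 0 ≤ p.2 ∧ p.2 ≤ tW) :
    ((uw s τ w).length : ℝ) ≤ w.length * (tW / τ) := by
  induction w with
  | nil => simp [uw]
  | cons p w ih =>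
    have h1 := ih fun q hq => hw q (mem_cons_of_mem _ hq)
    obtain ⟨h2, h3⟩ := hw p mem_cons_self
    have : uw s τ (p :: w) = replicate ⌊(1 - s) * p.2 / τ⌋₊ p.1 ++ uw s τ w := by
      rw [uw, flatMap_cons]; rfl
    rw [this, length_append, length_replicate, length_cons]
    have h0 : 0 ≤ (1 - s) * p.2 / τ := div_nonneg (mul_nonneg (by linarith) h2) hτ.le
    have h4 := Nat.floor_le h0
    have h5 : (1 - s) * p.2 / τ ≤ tW / τ := by
      gcongr
      nlinarith
    push_cast
    linarith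

theorem runs_uw {A : ℕ} (hA : 1 ≤ A) {s τ : ℝ} (hs : 0 ≤ s) (hs1 : s ≤ 1) (hτ : 0 < τ) {tW : ℝ}
    (w : List (Eb × ℝ)) (hw : ∀ p ∈ w, 0 ≤ p.2 ∧ p.2 ≤ tW) :
    ∃ k : ℕ, Runs A (uw s τ w) k ∧ (k : ℝ) ≤ w.length * (tW / (A * τ) + 1) := by
  induction w with
  | nil => exact ⟨0, Runs.nil, by simp⟩
  | cons p w ih =>
    obtain ⟨k, hk, hk'⟩ := ih fun q hq => hw q (mem_cons_of_mem _ hq)
    obtain ⟨h2, h3⟩ := hw p mem_cons_self
    have : uw s τ (p :: w) = replicate ⌊(1 - s) * p.2 / τ⌋₊ p.1 ++ uw s τ w := by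
      rw [uw, flatMap_cons]; rfl
    rw [this, length_cons]
    refine ⟨_, (Runs.replicate' hA p.1 _).append hk, ?_⟩
    have hA0 : (0 : ℝ) < A := by exact_mod_cast hA
    have h0 : 0 ≤ (1 - s) * p.2 / τ := div_nonneg (mul_nonneg (by linarith) h2) hτ.le
    have h4 := Nat.floor_le h0
    have h5 : (1 - s) * p.2 / τ ≤ tW / τ := by
      gcongr
      nlinarith
    have h6 : ((⌊(1 - s) * p.2 / τ⌋₊ / A : ℕ) : ℝ) ≤ tW / (A * τ) := by
      refine Nat.cast_div_le.trans ?_
      rw [div_le_div_iff₀ hA0 (by positivity)]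
      rw [le_div_iff₀ hτ] at h5
      rw [le_div_iff₀ hτ] at h4
      have : (⌊(1 - s) * p.2 / τ⌋₊ : ℝ) * τ ≤ tW := by
        refine h4.trans ?_
        rw [div_mul_cancel₀ _ hτ.ne'] at h5
        exact h5
      calc (⌊(1 - s) * p.2 / τ⌋₊ : ℝ) * (A * τ) = (⌊(1 - s) * p.2 / τ⌋₊ : ℝ) * τ * A := by ring
        _ ≤ tW * A := by gcongr
    push_cast
    linarith

/-- the prefixes of the contracted word stay inside. -/
theorem uw_prefix {Ω : Set E} (hΩ : Convex ℝ Ω) (hu : ∀ e ∈ Eb, ‖e‖ = 1) {s τ : ℝ} (hs1 : s < 1)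
    (hτ : 0 < τ) (w : List (Eb × ℝ)) (hw : ∀ p ∈ w, 0 ≤ p.2)
    (hpre : ∀ w', w' <+: w → tsum w' ∈ Ω) :
    ∀ u', u' <+: uw s τ w → ∃ z ∈ Ω, ‖τ • lsum u' - (1 - s) • z‖ ≤ w.length * τ := by
  induction w using List.reverseRecOn with
  | nil =>
    intro u' h
    have : u' = [] := by simpa [uw] using h
    subst this
    have h0 := hpre [] (prefix_refl _)
    refine ⟨0, by simpa [tsum] using h0, by simp [lsum]⟩
  | append_singleton w p ih =>
    intro u' h
    have hsplit : uw s τ (w ++ [p]) = uw s τ w ++ replicate ⌊(1 - s) * p.2 / τ⌋₊ p.1 := by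
      simp [uw, flatMap_append]
    rw [hsplit] at h
    have hw' : ∀ q ∈ w, 0 ≤ q.2 := fun q hq => hw q (by simp [hq])
    have hp0 : 0 ≤ p.2 := hw p (by simp)
    rcases prefix_or_prefix_of_prefix h (prefix_append (uw s τ w) _) with h1 | h1
    · obtain ⟨z, hz, hz'⟩ := ih hw' (fun w' hw' => hpre w' (hw'.trans (prefix_append _ _))) u' h1
      refine ⟨z, hz, hz'.trans ?_⟩
      rw [length_append]; push_cast
      have : 0 ≤ (1 : ℝ) * τ := by positivity
      simp only [length_cons, length_nil]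
      push_cast
      linarith
    · obtain ⟨u'', rfl⟩ := h1
      rw [prefix_append_right_inj] at h
      obtain ⟨b, hb⟩ : ∃ b, u'' = replicate b p.1 := by
        refine ⟨u''.length, ?_⟩
        rw [eq_replicate_iff]
        exact ⟨rfl, fun x hx => eq_of_mem_replicate (h.subset hx)⟩
      have hb' : b ≤ ⌊(1 - s) * p.2 / τ⌋₊ := by
        have := h.length_le
        rw [hb, length_replicate, length_replicate] at this
        exact this
      subst hb
      have hs0 : 0 < 1 - s := by linarith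
      have hbτ : (b : ℝ) * τ ≤ (1 - s) * p.2 := by
        have h4 := Nat.floor_le (div_nonneg (mul_nonneg hs0.le hp0) hτ.le)
        rw [le_div_iff₀ hτ] at h4
        have : (b : ℝ) ≤ ⌊(1 - s) * p.2 / τ⌋₊ := by exact_mod_cast hb'
        calc (b : ℝ) * τ ≤ (⌊(1 - s) * p.2 / τ⌋₊ : ℝ) * τ := by gcongr
          _ ≤ _ := h4
      set t' : ℝ := b * τ / (1 - s) with ht'
      have ht'0 : 0 ≤ t' := by positivity
      have ht'1 : t' ≤ p.2 := by
        rw [ht', div_le_iff₀ hs0]; linarith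
      have hx := hpre w (prefix_append _ _)
      have hy := hpre (w ++ [p]) (prefix_refl _)
      have hyx : tsum (w ++ [p]) = tsum w + p.2 • (p.1 : E) := by simp [tsum]
      refine ⟨tsum w + t' • (p.1 : E), ?_, ?_⟩
      · by_cases hp : p.2 = 0
        · have : t' = 0 := le_antisymm (by linarith) ht'0
          rw [this, zero_smul, add_zero]; exact hx
        · have hpp : 0 < p.2 := lt_of_le_of_ne hp0 (Ne.symm hp)
          have := hΩ.add_smul_sub_mem hx hy (t := t' / p.2)
            ⟨by positivity, by rwa [div_le_one hpp]⟩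
          rw [hyx, add_sub_cancel_left, smul_smul, div_mul_cancel₀ _ hp] at this
          exact this
      · have h5 := uw_sum (fun e : Eb => (e : E)) (fun e => (hu e e.2).le) hs1.le hτ w hw'
        have h6 := lsum_uw (1 : Equiv.Perm Eb) s τ w
        have h7 : (uw s τ w).map (1 : Equiv.Perm Eb) = uw s τ w := map_id _
        rw [h7] at h6
        simp only [Equiv.Perm.coe_one, id_eq] at h6
        rw [← h6, smul_tsum (fun e : Eb => (e : E)) (1 - s) w, ← tsum_eq] at h5
        have h8 : τ • lsum (uw s τ w ++ replicate b p.1) - (1 - s) • (tsum w + t' • (p.1 : E)) =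
            τ • lsum (uw s τ w) - (1 - s) • tsum w := by
          rw [lsum_append, lsum_replicate, smul_add, smul_add, smul_smul, smul_smul]
          have : (1 - s) * t' = τ * b := by rw [ht']; field_simp
          rw [this]; abel
        rw [h8]
        refine h5.trans ?_
        rw [length_append]
        push_cast
        simp only [length_cons, length_nil]
        push_cast
        linarith

end Words

end Crest.Agent.R182.Star
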