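/-
R182, module STAR (helper554): the law per point, the main theorem.
-/
import Crest.Agent.R182.StarThm

set_option autoImplicit false
set_option linter.unusedSectionVars false

open MeasureTheory ENNReal List

namespace Crest.Agent.R182.Star

open Crest.Agent.R182.Conv Crest.Agent.R182.Cap

section Words

variable {E : Type*} [NormedAddCommGroup E] [InnerProductSpace ℝ E] {Eb : Finset E}

theorem lin_tsum {σ : Equiv.Perm Eb} {L : E →ₗ[ℝ] E} (hL : ∀ e : Eb, L e = σ e)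
    (w : List (Eb × ℝ)) : L (tsum w) = (w.map fun p => p.2 • ((σ p.1 : Eb) : E)).sum := by
  induction w with
  | nil => simp [tsum]
  | cons p w ih =>
    have h1 : tsum (p :: w) = p.2 • (p.1 : E) + tsum w := by simp [tsum]
    rw [h1, map_add, ih, map_cons, sum_cons, map_smul, hL]

theorem lin_lsum' {σ : Equiv.Perm Eb} {L : E →ₗ[ℝ] E} (hL : ∀ e : Eb, L e = σ e)
    (w : List Eb) : L (lsum w) = lsum (w.map σ) := by
  induction w with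
  | nil => simp [lsum]
  | cons e w ih => rw [lsum_cons, map_add, ih, map_cons, lsum_cons, hL]

/-- from the affine law for words in unit legs to the one for timed words -/
theorem timed_of_words (hu : ∀ e ∈ Eb, ‖e‖ = 1) {F : List Eb → E} {P : List Eb → Prop}
    {σ : Equiv.Perm Eb} {L : E →ₗ[ℝ] E} (hL : ∀ e : Eb, L e = σ e) {A : ℕ} (hA : 1 ≤ A)
    {τ δ3 s : ℝ} (hτ : 0 < τ) (hδ3 : 0 ≤ δ3) (hs : 0 ≤ s) (hs1 : s ≤ 1) {tW : ℝ} (htW : 0 ≤ tW)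
    {kw : ℕ} (h : ∀ w m, P w → Runs A w m → ‖F w - F [] - L (τ • lsum w)‖ ≤ m * δ3)
    (w : List (Eb × ℝ)) (hlen : w.length ≤ kw) (hw : ∀ p ∈ w, 0 ≤ p.2 ∧ p.2 ≤ tW)
    (hPw : P (uw s τ w)) :
    ‖F (uw s τ w) - F [] - L (tsum w)‖ ≤
      kw * (tW / (A * τ) + 1) * δ3 + kw * τ + s * (kw * tW) := by
  have hA0 : (0 : ℝ) < A := by exact_mod_cast hA
  obtain ⟨m, hm, hm'⟩ := runs_uw hA hs hs1 hτ w hw
  have h1 := h _ m hPw hm
  have hlen' : (w.length : ℝ) ≤ kw := by exact_mod_cast hlen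
  have hm2 : (m : ℝ) ≤ kw * (tW / (A * τ) + 1) := hm'.trans (by gcongr)
  have hf : ∀ e : Eb, ‖((σ e : Eb) : E)‖ ≤ 1 := fun e => (hu _ (σ e).2).le
  have h2 : ‖L (τ • lsum (uw s τ w)) - (1 - s) • L (tsum w)‖ ≤ w.length * τ := by
    rw [map_smul, lin_lsum' hL, lsum_uw, lin_tsum hL, ← smul_tsum (fun e : Eb => ((σ e : Eb) : E))]
    exact uw_sum (fun e : Eb => ((σ e : Eb) : E)) hf hs1 hτ w fun p hp => (hw p hp).1
  have h3 : ‖s • L (tsum w)‖ ≤ s * (kw * tW) := by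
    rw [norm_smul, Real.norm_of_nonneg hs, lin_tsum hL]
    have := norm_tsum_le (fun e : Eb => ((σ e : Eb) : E)) hf w hw
    gcongr
    exact this.trans (by gcongr)
  have h4 : F (uw s τ w) - F [] - L (tsum w) =
      (F (uw s τ w) - F [] - L (τ • lsum (uw s τ w))) +
      (L (τ • lsum (uw s τ w)) - (1 - s) • L (tsum w)) - s • L (tsum w) := by
    rw [sub_smul, one_smul]; abel
  rw [h4]
  refine (norm_sub_le _ _).trans ((add_le_add_left (norm_add_le _ _) _).trans ?_)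
  have h5 : (m : ℝ) * δ3 ≤ kw * (tW / (A * τ) + 1) * δ3 := by gcongr
  have h6 : (w.length : ℝ) * τ ≤ kw * τ := by gcongr
  linarith

theorem PP_uw {Ω : Set E} (hΩ : Convex ℝ Ω) (hu : ∀ e ∈ Eb, ‖e‖ = 1) {ρ0 : ℝ}
    (hball : Metric.ball 0 ρ0 ⊆ Ω) {s τ ρ : ℝ} (hs : 0 < s) (hs1 : s < 1)
    (hτ : 0 < τ) {tW : ℝ} {kw Λ : ℕ} (hkw : kw * τ + ρ ≤ s * ρ0) (hΛ : kw * (tW / τ) ≤ Λ)
    (htW : 0 ≤ tW)
    (w : List (Eb × ℝ)) (hlen : w.length ≤ kw) (hw : ∀ p ∈ w, 0 ≤ p.2 ∧ p.2 ≤ tW)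
    (hpre : ∀ w', w' <+: w → tsum w' ∈ Ω) : PP Ω τ ρ Λ (uw s τ w) := by
  have hlen' : (w.length : ℝ) ≤ kw := by exact_mod_cast hlen
  refine ⟨?_, fun u' hu' => ?_⟩
  · have h1 := length_uw_le hs.le hs1.le hτ w hw
    have h2 : (w.length : ℝ) * (tW / τ) ≤ kw * (tW / τ) := by gcongr
    exact_mod_cast h1.trans (h2.trans hΛ)
  · obtain ⟨z, hz, hz'⟩ := uw_prefix hΩ hu hs1 hτ w (fun p hp => (hw p hp).1) hpre u' hu'
    intro y hy
    rw [Metric.mem_ball, dist_eq_norm] at hy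
    have h1 : ‖y - (1 - s) • z‖ < s * ρ0 := by
      have : y - (1 - s) • z = (y - τ • lsum u') + (τ • lsum u' - (1 - s) • z) := by abel
      rw [this]
      refine (norm_add_le _ _).trans_lt ?_
      have h6 : (w.length : ℝ) * τ ≤ kw * τ := by gcongr
      linarith
    have h2 : s⁻¹ • (y - (1 - s) • z) ∈ Ω := by
      apply hball
      rw [Metric.mem_ball, dist_zero_right, norm_smul, norm_inv, Real.norm_of_nonneg hs.le,
        inv_mul_lt_iff₀ hs]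
      exact h1
    have h3 := hΩ hz h2 (by linarith : (0:ℝ) ≤ 1 - s) hs.le (by ring)
    rw [smul_smul, mul_inv_cancel₀ hs.ne', one_smul] at h3
    convert h3 using 1
    abel

theorem PP_rel {Ω : Set E} (hu : ∀ e ∈ Eb, ‖e‖ = 1) {ρ0 : ℝ}
    (hball : Metric.ball 0 ρ0 ⊆ Ω) {τ ρ r : ℝ} (hτ : 0 < τ) {j Λ : ℕ}
    (hj : j * (Eb.card * τ) + r + ρ ≤ ρ0) (hΛ : j * (r / τ) ≤ Λ) {c : Eb → ℝ}
    (hc : ∀ e, 0 ≤ c e) (hc0 : comb Eb c = 0) (hcr : ∑ e, c e ≤ r) :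
    PP Ω τ ρ Λ ((replicate j (relWord Eb τ c)).flatten) := by
  have hlenw : ((relWord Eb τ c).length : ℝ) * τ ≤ r := by
    unfold relWord
    rw [length_flatMap]
    simp only [length_replicate]
    rw [Finset.sum_map_toList]
    push_cast
    rw [Finset.sum_mul]
    refine le_trans (Finset.sum_le_sum fun e _ => ?_) hcr
    have := Nat.floor_le (div_nonneg (hc e) hτ.le)
    rwa [le_div_iff₀ hτ] at this
  have hl : ‖τ • lsum (relWord Eb τ c)‖ ≤ Eb.card * τ := by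
    have h3 := norm_relWord_sub hu (1 : Equiv.Perm Eb) hτ c hc
    have h4 : combσ Eb (1 : Equiv.Perm Eb) c = 0 := by
      rw [combσ_apply]
      rw [comb_apply] at hc0
      exact hc0
    rw [h4, sub_zero] at h3
    have h5 : (relWord Eb τ c).map (1 : Equiv.Perm Eb) = relWord Eb τ c := map_id _
    rwa [h5] at h3
  refine ⟨?_, fun u' hu' y hy => hball ?_⟩
  · rw [length_flatten, map_replicate, sum_replicate, smul_eq_mul]
    have : ((relWord Eb τ c).length : ℝ) ≤ r / τ := by rwa [le_div_iff₀ hτ]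
    have h1 : (j : ℝ) * (relWord Eb τ c).length ≤ Λ := le_trans (by gcongr) hΛ
    exact_mod_cast h1
  · have h1 := prefix_flatten hu hτ.le (relWord Eb τ c) j u' hu'
    rw [Metric.mem_ball, dist_eq_norm] at hy
    rw [Metric.mem_ball, dist_zero_right]
    have h2 : ‖y‖ ≤ ‖y - τ • lsum u'‖ + ‖τ • lsum u'‖ := by
      have : y = (y - τ • lsum u') + τ • lsum u' := by abel
      conv_lhs => rw [this]
      exact norm_add_le _ _
    have h3 : (j : ℝ) * ‖τ • lsum (relWord Eb τ c)‖ ≤ j * (Eb.card * τ) := by gcongr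
    linarith

/-- moving along a leg shrinks the ball -/
theorem ball_leg {Ω : Set E} (hu : ∀ e ∈ Eb, ‖e‖ = 1) {τ ρ r1 : ℝ} (hτ : 0 ≤ τ) {w : List Eb}
    (h : Metric.ball (τ • lsum w) (ρ + r1) ⊆ Ω) (e : Eb) {a A : ℕ} (ha : a ≤ A)
    (hA : A * τ ≤ r1) : Metric.ball (τ • lsum (w ++ replicate a e)) ρ ⊆ Ω := by
  intro y hy
  apply h
  rw [Metric.mem_ball, dist_eq_norm] at hy ⊢
  have h1 : y - τ • lsum w = (y - τ • lsum (w ++ replicate a e)) + (τ * a) • (e : E) := by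
    rw [lsum_append, lsum_replicate, smul_add, smul_smul]; abel
  rw [h1]
  refine (norm_add_le _ _).trans_lt ?_
  rw [norm_smul, hu e e.2, mul_one, Real.norm_of_nonneg (by positivity)]
  have : (a : ℝ) ≤ A := by exact_mod_cast ha
  have : τ * a ≤ τ * A := by gcongr
  linarith

end Words

section Main

variable {G H ι E : Type*} [Group G] [Group H] [MeasurableSpace H] [MeasurableMul₂ H]
    [MeasurableInv H] [Fintype ι] [NormedAddCommGroup E] [InnerProductSpace ℝ E]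

theorem measurable_FF [MeasurableSpace E] [BorelSpace E] {M : CapModel G H ι E} {R : RSys ι E}
    {T : Set G} {Cb eps : ℝ} (𝓛 : Legs M R T Cb eps) {K : ℝ} {Ψ : G → G} (hΨ : QI M K Ψ) (N : ℕ)
    (τ : ℝ) (x : G) (w : List R.Eb) : Measurable fun n => FF M 𝓛 N τ Ψ x n w := by
  intro B _
  exact hΨ.meas x (𝓛.pos N τ w) {y | (N : ℝ)⁻¹ • M.hgt y ∈ B}

theorem FF_bound {M : CapModel G H ι E} {R : RSys ι E}
    {T : Set G} {Cb eps : ℝ} (𝓛 : Legs M R T Cb eps) {r0 : ℕ} (hT : ∀ s ∈ T, s ∈ M.Cl r0)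
    {K : ℝ} {Ψ : G → G} (hΨ : QI M K Ψ) {N : ℕ} (hN : 1 ≤ N) {τ : ℝ} (hτ : 0 ≤ τ) (x : G) {n : H}
    {C2 : ℝ} (hn : M.len (M.emb n) ≤ C2 * N) {w : List R.Eb} {Λ : ℕ} (hw : w.length ≤ Λ) :
    ‖FF M 𝓛 N τ Ψ x n w - (N : ℝ)⁻¹ • M.hgt (Ψ x)‖ ≤
      M.C0 * (K * (|C2| + M.C0 * (r0 * (|Cb| * (Λ * τ)))) + K) := by
  have hC0 := M.C0_pos
  have hK := hΨ.one_le
  have hN' : (1 : ℝ) ≤ N := by exact_mod_cast hN
  have h1 := GF_sub_le hΨ N x n 1 (𝓛.pos N τ w) 1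
  rw [FF_eq]
  have h2 : GF M N Ψ x (1 : H) 1 = (N : ℝ)⁻¹ • M.hgt (Ψ x) := by
    unfold GF; rw [map_one, mul_one, mul_one]
  rw [h2, map_one, mul_one, mul_one] at h1
  refine h1.trans ?_
  obtain ⟨m, hm, hmem⟩ := 𝓛.pos_mem (N := N) hτ w
  have h3 := len_Bl M hT hmem
  have h4 : M.dst (x * M.emb n * 𝓛.pos N τ w) x ≤ C2 * N + M.C0 * (r0 * m) := by
    rw [M.dst_comm]
    unfold CapModel.dst
    have : x⁻¹ * (x * M.emb n * 𝓛.pos N τ w) = M.emb n * 𝓛.pos N τ w := by group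
    rw [this]
    exact (M.len_mul _ _).trans (add_le_add hn h3)
  have h5 : (m : ℝ) ≤ |Cb| * (Λ * τ) * N := hm.trans (by
    have : (w.length : ℝ) ≤ Λ := by exact_mod_cast hw
    gcongr)
  have h6 : M.dst (x * M.emb n * 𝓛.pos N τ w) x ≤
      (|C2| + M.C0 * (r0 * (|Cb| * (Λ * τ)))) * N := by
    refine h4.trans ?_
    have h7 : C2 * N ≤ |C2| * N := by gcongr; exact le_abs_self _
    have h8 : M.C0 * (r0 * m) ≤ M.C0 * (r0 * (|Cb| * (Λ * τ) * N)) := by gcongr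
    linarith
  calc (N : ℝ)⁻¹ * (M.C0 * (K * M.dst (x * M.emb n * 𝓛.pos N τ w) x + K))
      ≤ (N : ℝ)⁻¹ * (M.C0 * (K * ((|C2| + M.C0 * (r0 * (|Cb| * (Λ * τ)))) * N) + K * N)) := by
        gcongr
        nlinarith
    _ = _ := by field_simp

/-- leg lengths -/
theorem leg_le {M : CapModel G H ι E} {R : RSys ι E} {T : Set G} {Cb eps : ℝ}
    (𝓛 : Legs M R T Cb eps) (heps : 0 ≤ eps) {N : ℕ} (hN : 1 ≤ N) {τ r1 : ℝ} (hτ : 0 ≤ τ)
    (e : R.Eb) {a A : ℕ} (ha : a ≤ A) (hA : A * τ ≤ r1) :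
    a * 𝓛.p N τ e * ‖M.hgt (𝓛.b e)‖ / N ≤ a * τ + r1 * eps := by
  have hN' : (0 : ℝ) < N := by exact_mod_cast hN
  have h1 := 𝓛.p_le (N := N) hτ e
  have h2 := 𝓛.acc e
  have h3 := 𝓛.mE_pos e
  have h4 : ‖M.hgt (𝓛.b e)‖ ≤ (1 + eps) * 𝓛.mE e := by
    have : M.hgt (𝓛.b e) = (M.hgt (𝓛.b e) - 𝓛.mE e • (e : E)) + 𝓛.mE e • (e : E) := by abel
    rw [this]
    refine (norm_add_le _ _).trans ?_
    rw [norm_smul, R.unit e e.2, Real.norm_of_nonneg h3.le]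
    linarith
  have ha' : (a : ℝ) ≤ A := by exact_mod_cast ha
  rw [div_le_iff₀ hN']
  have h5 : (a : ℝ) * τ ≤ r1 := le_trans (by gcongr) hA
  calc (a : ℝ) * 𝓛.p N τ e * ‖M.hgt (𝓛.b e)‖ ≤ a * 𝓛.p N τ e * ((1 + eps) * 𝓛.mE e) := by gcongr
    _ = a * (1 + eps) * (𝓛.p N τ e * 𝓛.mE e) := by ring
    _ ≤ a * (1 + eps) * (τ * N) := by gcongr
    _ = (a * τ + (a * τ) * eps) * N := by ring
    _ ≤ (a * τ + r1 * eps) * N := by gcongr

theorem ev_A (c r1 : ℝ) {d : ℝ} (hd : 0 < d) : ∀ᶠ A : ℕ in Filter.atTop, c * (r1 / A) ≤ d := by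
  have h1 : Filter.Tendsto (fun A : ℕ => c * (r1 / (A : ℝ))) Filter.atTop (nhds (c * 0)) :=
    (tendsto_const_div_atTop_nhds_zero_nat r1).const_mul c
  rw [mul_zero] at h1
  filter_upwards [h1.eventually (gt_mem_nhds hd)] with A hA using hA.le

theorem ex_mul_le {c : ℝ} (hc : 0 ≤ c) {d : ℝ} (hd : 0 < d) :
    ∃ t : ℝ, 0 < t ∧ ∀ x ≤ t, x * c ≤ d := by
  refine ⟨d / (c + 1), by positivity, fun x hx => ?_⟩
  calc x * c ≤ d / (c + 1) * c := by gcongr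
    _ = d * (c / (c + 1)) := by ring
    _ ≤ d * 1 := by
      gcongr
      rw [div_le_one (by positivity)]
      linarith
    _ = d := mul_one d

/-- the finite set of words -/
theorem exists_words {Eb : Finset E} {Ω : Set E} (hu : ∀ e ∈ Eb, ‖e‖ = 1) {τ r1 : ℝ} (hτ : 0 ≤ τ)
    {A : ℕ} (hA : A * τ ≤ r1) (Pf : Finset (List Eb))
    (hPf : ∀ w ∈ Pf, Metric.ball (τ • lsum w) (3 * r1) ⊆ Ω) :
    ∃ 𝒲 : Finset (List Eb), (∀ w ∈ Pf, w ∈ 𝒲) ∧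
      (∀ w ∈ Pf, ∀ e : Eb, ∀ a ≤ A, w ++ replicate a e ∈ 𝒲) ∧
      ∀ w ∈ 𝒲, Metric.ball (τ • lsum w) (r1 + r1) ⊆ Ω := by
  classical
  refine ⟨Pf ∪ (Pf ×ˢ ((Finset.univ : Finset Eb) ×ˢ Finset.range (A + 1))).image
    (fun q : List Eb × (Eb × ℕ) => q.1 ++ replicate q.2.2 q.2.1),
    fun w hw => Finset.mem_union_left _ hw, fun w hw e a ha => ?_, fun w hw => ?_⟩
  · refine Finset.mem_union_right _ (Finset.mem_image.2 ⟨(w, (e, a)), ?_, rfl⟩)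
    simp only [Finset.mem_product, Finset.mem_univ, Finset.mem_range, true_and]
    exact ⟨hw, by omega⟩
  · rcases Finset.mem_union.1 hw with hw | hw
    · refine (Metric.ball_subset_ball ?_).trans (hPf w hw)
      have : 0 ≤ (A : ℝ) * τ := by positivity
      linarith
    · obtain ⟨⟨w, e, a⟩, h1, rfl⟩ := Finset.mem_image.1 hw
      simp only [Finset.mem_product, Finset.mem_univ, Finset.mem_range, true_and] at h1
      refine ball_leg hu hτ ?_ e (a := a) (A := A) (by omega) hA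
      have h2 := hPf w h1.1
      rwa [show r1 + r1 + r1 = 3 * r1 by ring]

theorem union3 {Eb : Finset E} {μ : Measure H} {Q : Set H} {A : ℕ} (𝒲 : Finset (List Eb))
    (bad : H → List Eb → Eb → ℕ → Prop) {δ c : ℝ}
    (h : ∀ w ∈ 𝒲, ∀ e : Eb, ∀ a ≤ A, μ {n | n ∈ Q ∧ bad n w e a} ≤ ENNReal.ofReal δ * μ Q)
    (hc : 𝒲.card * (Eb.card * (A + 1)) * δ ≤ c) :
    μ {n | n ∈ Q ∧ ∃ w ∈ 𝒲, ∃ e : Eb, ∃ a ≤ A, bad n w e a} ≤ ENNReal.ofReal c * μ Q := by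
  have hsub : {n | n ∈ Q ∧ ∃ w ∈ 𝒲, ∃ e : Eb, ∃ a ≤ A, bad n w e a} ⊆
      ⋃ w ∈ 𝒲, ⋃ e : Eb, ⋃ a ∈ Finset.range (A + 1), {n | n ∈ Q ∧ bad n w e a} := by
    rintro n ⟨hn, w, hw, e, a, ha, h⟩
    simp only [Set.mem_iUnion]
    exact ⟨w, hw, e, a, Finset.mem_range.2 (by omega), hn, h⟩
  refine (measure_mono hsub).trans ((measure_biUnion_finset_le _ _).trans ?_)
  have h1 : ∀ w ∈ 𝒲, μ (⋃ e : Eb, ⋃ a ∈ Finset.range (A + 1), {n | n ∈ Q ∧ bad n w e a}) ≤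
      Eb.card * ((A + 1 : ℕ) * (ENNReal.ofReal δ * μ Q)) := by
    intro w hw
    refine (measure_iUnion_fintype_le μ _).trans ?_
    have h2 : ∀ e ∈ (Finset.univ : Finset Eb), μ (⋃ a ∈ Finset.range (A + 1),
        {n | n ∈ Q ∧ bad n w e a}) ≤ (A + 1 : ℕ) * (ENNReal.ofReal δ * μ Q) := by
      intro e _
      refine (measure_biUnion_finset_le _ _).trans ?_
      refine (Finset.sum_le_sum fun a ha => h w hw e a
        (by have := Finset.mem_range.1 ha; omega)).trans ?_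
      rw [Finset.sum_const, Finset.card_range, nsmul_eq_mul]
    refine (Finset.sum_le_sum h2).trans ?_
    simp
  refine (Finset.sum_le_sum h1).trans ?_
  rw [Finset.sum_const, nsmul_eq_mul]
  have h3 : (𝒲.card : ℝ≥0∞) * (Eb.card * ((A + 1 : ℕ) * (ENNReal.ofReal δ * μ Q))) =
      ENNReal.ofReal (𝒲.card * (Eb.card * (A + 1)) * δ) * μ Q := by
    rw [ENNReal.ofReal_mul (by positivity), ENNReal.ofReal_mul (by positivity),
      ENNReal.ofReal_mul (by positivity), ENNReal.ofReal_natCast, ENNReal.ofReal_natCast]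
    have : ENNReal.ofReal ((A : ℝ) + 1) = ((A + 1 : ℕ) : ℝ≥0∞) := by
      rw [← ENNReal.ofReal_natCast]; push_cast; rfl
    rw [this]
    ring
  rw [h3]
  gcongr

theorem count_le {μ : Measure H} {Q Q' : Set H} {CQ c' c : ℝ} (hQQ' : μ Q' ≤ ENNReal.ofReal CQ * μ Q)
    (hc' : 0 ≤ c') {n1 n2 n3 n4 n5 : ℕ}
    (h : (n1 : ℝ) * (n2 * (n3 * (n4 * n5))) * (c' * |CQ|) ≤ c) :
    (n1 : ℝ≥0∞) * (n2 * (n3 * (n4 * (n5 * (ENNReal.ofReal c' * μ Q'))))) ≤ ENNReal.ofReal c * μ Q := by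
  have h2 : (n1 : ℝ≥0∞) * (n2 * (n3 * (n4 * (n5 * (ENNReal.ofReal c' * μ Q'))))) ≤
      n1 * (n2 * (n3 * (n4 * (n5 * (ENNReal.ofReal c' * (ENNReal.ofReal |CQ| * μ Q)))))) := by
    gcongr
    refine hQQ'.trans ?_
    gcongr
    exact le_abs_self _
  refine h2.trans ?_
  have h3 : (n1 : ℝ≥0∞) * (n2 * (n3 * (n4 * (n5 * (ENNReal.ofReal c' *
      (ENNReal.ofReal |CQ| * μ Q)))))) =
      ENNReal.ofReal (n1 * (n2 * (n3 * (n4 * n5))) * (c' * |CQ|)) * μ Q := by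
    rw [ENNReal.ofReal_mul (by positivity), ENNReal.ofReal_mul (by positivity),
      ENNReal.ofReal_mul (by positivity), ENNReal.ofReal_mul (by positivity),
      ENNReal.ofReal_mul (by positivity), ENNReal.ofReal_mul (by positivity),
      ENNReal.ofReal_natCast, ENNReal.ofReal_natCast, ENNReal.ofReal_natCast,
      ENNReal.ofReal_natCast, ENNReal.ofReal_natCast]
    ring
  rw [h3]
  gcongr

set_option maxHeartbeats 4000000 in
/-- **THE LAW PER POINT.** Outside a small set of base points, the image of the flat is described by one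
linear map which permutes the Riesz directions. -/
theorem star_law [FiniteDimensional ℝ E] [MeasurableSpace E] [BorelSpace E]
    (M : CapModel G H ι E) (hR : M.Reach) (hE : M.Ent) {K : ℝ} (hK : 1 ≤ K)
    (R : RSys ι E) (hRS : M.S = R.toGenSys) {T : Set G} {r0 : ℕ} (hT : ∀ s ∈ T, s ∈ M.Cl r0)
    (Cb : ℝ) (hS : Slow T) (hP : Pow T M.hgt) {Ω : Set E} (hΩ : Convex ℝ Ω) {ρ0 : ℝ}
    (hρ0 : 0 < ρ0) (hball : Metric.ball 0 ρ0 ⊆ Ω) (C2 CQ : ℝ) {η : ℝ} (hη : 0 < η) (kw : ℕ)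
    {tW : ℝ} (htW : 0 ≤ tW) :
    ∃ eps1 : ℝ, 0 < eps1 ∧ ∀ eps : ℝ, 0 ≤ eps → eps ≤ eps1 → ∀ 𝓛 : Legs M R T Cb eps,
    ∃ (τ δ ρ1 : ℝ) (A : ℕ) (𝒲 : Finset (List R.Eb)) (N0 : ℕ), 0 < τ ∧ 0 < δ ∧ 0 < ρ1 ∧ 1 ≤ A ∧
      1 ≤ N0 ∧
      (∀ w ∈ 𝒲, ∀ e : R.Eb, ∀ a ≤ A, Metric.ball (τ • lsum (w ++ replicate a e)) ρ1 ⊆ Ω) ∧
      ∀ N ≥ N0, ∀ Ψ : G → G, QI M K Ψ → ∀ x : G, ∀ Q Q' : Set H, MeasurableSet Q →
        MeasurableSet Q' → M.μ Q ≠ ∞ → M.μ Q' ≤ ENNReal.ofReal CQ * M.μ Q →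
        (∀ n ∈ Q, M.len (M.emb n) ≤ C2 * N) →
        (∀ w ∈ 𝒲, ∀ a ∈ M.V, ∀ q ∈ Q, q * (M.cj (𝓛.pos N τ w) a)⁻¹ ∈ Q') →
        (∀ w ∈ 𝒲, ∀ e : R.Eb, ∀ a ≤ A,
          M.μ {n | n ∈ Q ∧ a * 𝓛.p N τ e * ‖M.hgt (𝓛.b e)‖ / N + δ <
            ‖FF M 𝓛 N τ Ψ x n (w ++ replicate a e) - FF M 𝓛 N τ Ψ x n w‖} ≤
              ENNReal.ofReal δ * M.μ Q) →
        M.μ {n | n ∈ Q ∧ ¬ ∃ (σ : Equiv.Perm R.Eb) (L : E →ₗ[ℝ] E), (∀ e : R.Eb, L e = σ e) ∧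
          ∀ w : List (R.Eb × ℝ), w.length ≤ kw → (∀ p ∈ w, 0 ≤ p.2 ∧ p.2 ≤ tW) →
            (∀ w', w' <+: w → tsum w' ∈ Ω) →
            ‖GF M N Ψ x n (𝓛.tpos N w) - GF M N Ψ x n 1 - L (tsum w)‖ ≤ η} ≤
          ENNReal.ofReal η * M.μ Q := by
  classical
  have hC0 := M.C0_pos
  obtain ⟨c0, hc0, hrel⟩ := R.exists_rel
  obtain ⟨cE, hcE⟩ : ∃ cE : ℝ, cE = ((R.Eb.card : ℕ) : ℝ) := ⟨_, rfl⟩
  have hcE0 : 0 ≤ cE := by rw [hcE]; exact Nat.cast_nonneg _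
  have hkw0 : (0 : ℝ) ≤ kw := Nat.cast_nonneg _
  obtain ⟨sep, κ, hsep, hκ, Rels, hRels, haff⟩ :=
    word_affine R.Eb R.unit R.span_Eb hc0 hrel (r := ρ0 / 4) (by positivity)
  obtain ⟨j, hj, τp, hτp, epsp, hepsp, hpow⟩ :=
    pow_FF M hK R hT Cb hP (r := ρ0 / 4) (by positivity) hκ
  obtain ⟨s0, hs0, τt, hτt, htimed⟩ :=
    timed_FF M hK R hT Cb hS kw htW (δ := η / 8) (by positivity)
  -- the contraction
  obtain ⟨s, hsp, hss0, hs12, hsη⟩ : ∃ s : ℝ, 0 < s ∧ s ≤ s0 ∧ s ≤ 1 / 2 ∧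
      s * (kw * tW) ≤ η / 8 := by
    obtain ⟨t, ht, ht'⟩ := ex_mul_le (c := kw * tW) (by positivity) (d := η / 8) (by positivity)
    exact ⟨min s0 (min (1 / 2) t), lt_min hs0 (lt_min (by norm_num) ht), min_le_left _ _,
      (min_le_right _ _).trans (min_le_left _ _),
      ht' _ ((min_le_right _ _).trans (min_le_right _ _))⟩
  obtain ⟨r1, hr1⟩ : ∃ r1 : ℝ, r1 = s * ρ0 / 8 := ⟨_, rfl⟩
  have hr1p : 0 < r1 := by rw [hr1]; positivity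
  have hr1ρ : r1 ≤ ρ0 / 16 := by
    rw [hr1]
    have := mul_le_mul_of_nonneg_right hs12 hρ0.le
    linarith only [this]
  obtain ⟨kW, hkW⟩ : ∃ kW : ℝ, kW = kw * (tW / r1 + 1) := ⟨_, rfl⟩
  have hkW0 : 0 ≤ kW := by rw [hkW]; positivity
  obtain ⟨Cd, hCd⟩ : ∃ Cd : ℝ, Cd = cE * (ρ0 / 4 / r1 + 1) := ⟨_, rfl⟩
  have hCd0 : 0 ≤ Cd := by rw [hCd]; positivity
  obtain ⟨bκ, hbκ, hbκ'⟩ := ex_mul_le hCd0 (d := κ / 2) (by positivity)
  obtain ⟨bη, hbη, hbη'⟩ := ex_mul_le hkW0 (d := η / 8) (by positivity)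
  obtain ⟨δn, hδn, hnum⟩ := exists_num hr1p (b1 := r1 * sep / 8)
    (b3 := min bκ bη) (by positivity) (lt_min hbκ hbη)
  obtain ⟨δs, hδs, hδsn, hδsr⟩ : ∃ δs : ℝ, 0 < δs ∧ δs ≤ δn ∧ δs ≤ r1 * sep / 8 :=
    ⟨min δn (r1 * sep / 8), lt_min hδn (by positivity), min_le_left _ _, min_le_right _ _⟩
  obtain ⟨δ1, δ3, hδ1, hδ3, hn1, hn2, hn3, hn4⟩ := hnum δs hδs.le hδsn
  have hn5 : δ3 * Cd ≤ κ / 2 := hbκ' _ (hn4.trans (min_le_left _ _))
  have hn6 : δ3 * kW ≤ η / 8 := hbη' _ (hn4.trans (min_le_right _ _))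
  obtain ⟨τs, hτs, hslow⟩ := slow_FF M hK R hT Cb hS r1 (ρ := r1 * sep / 8) (by positivity)
  obtain ⟨mm, MM, hmm, hMM, hm1, hM1⟩ := R.exists_bounds
  have hLip := R.Lip_nonneg
  obtain ⟨L, hcap⟩ := exists_capAt M hR hE hK R hRS hT Cb
  obtain ⟨Cc, hCc, hcap⟩ := hcap L le_rfl
  -- the slack of WLip
  obtain ⟨δw, hδw, hδws, hδwm⟩ : ∃ δw : ℝ, 0 < δw ∧ δw ≤ δs ∧
      2 * δw * MM * R.Lip ≤ δs * mm / 8 := by
    obtain ⟨t, ht, ht'⟩ := ex_mul_le (c := 2 * (MM * R.Lip)) (by positivity)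
      (d := δs * mm / 8) (by positivity)
    refine ⟨min δs t, lt_min hδs ht, min_le_left _ _, ?_⟩
    have := ht' _ (min_le_right δs t)
    linarith only [this]
  -- the unit
  obtain ⟨A, hAall⟩ := ((((((((((ev_A 1 r1 hτp).and (ev_A 1 r1 hτt)).and (ev_A 1 r1 hτs)).and
    (ev_A 1 r1 one_pos)).and (ev_A (j * cE) r1 (d := ρ0 / 4) (by positivity))).and
    (ev_A kw r1 (d := s * ρ0 / 8) (by positivity))).and
    (ev_A 1 r1 (d := r1 * sep / 8) (by positivity))).and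
    (ev_A cE r1 (d := κ / 2) (by positivity))).and
    (ev_A Cc r1 (d := δs * mm / 8) (by positivity))).and
    ((ev_A kw r1 (d := η / 8) (by positivity)).and (Filter.eventually_ge_atTop 1))).exists
  obtain ⟨⟨⟨⟨⟨⟨⟨⟨⟨hA1, hA2⟩, hA3⟩, hA4⟩, hA5⟩, hA6⟩, hA7⟩, hA8⟩, hA9⟩, hA10, hA11⟩ := hAall
  have hA0 : (0 : ℝ) < A := by exact_mod_cast hA11
  obtain ⟨τ, hτdef⟩ : ∃ τ : ℝ, τ = r1 / A := ⟨_, rfl⟩
  have hτ : 0 < τ := by rw [hτdef]; positivity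
  have hAτ : (A : ℝ) * τ = r1 := by rw [hτdef]; field_simp
  rw [← hτdef] at hA1 hA2 hA3 hA4 hA5 hA6 hA7 hA8 hA9 hA10
  rw [one_mul] at hA1 hA2 hA3 hA4 hA7
  -- the accuracy of the legs
  obtain ⟨eps1, heps1, he1, he2, he3, he4⟩ : ∃ eps1 : ℝ, 0 < eps1 ∧ eps1 ≤ epsp ∧ eps1 ≤ 1 ∧
      Cc * (r1 * eps1) ≤ δs * mm / 8 ∧ r1 * eps1 ≤ δw / 2 := by
    obtain ⟨t, ht, ht'⟩ := ex_mul_le (c := Cc * r1) (by positivity)
      (d := δs * mm / 8) (by positivity)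
    obtain ⟨t2, ht2, ht2'⟩ := ex_mul_le hr1p.le (d := δw / 2) (by positivity)
    refine ⟨min (min epsp 1) (min t t2), lt_min (lt_min hepsp one_pos) (lt_min ht ht2),
      (min_le_left _ _).trans (min_le_left _ _), (min_le_left _ _).trans (min_le_right _ _), ?_, ?_⟩
    · have := ht' (min (min epsp 1) (min t t2)) ((min_le_right _ _).trans (min_le_left _ _))
      linarith only [this]
    · have := ht2' (min (min epsp 1) (min t t2)) ((min_le_right _ _).trans (min_le_right _ _))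
      linarith only [this]
  refine ⟨eps1, heps1, ?_⟩
  intro eps heps hepsle 𝓛
  obtain ⟨N1, hpowN⟩ := hpow τ hτ hA1 eps heps (hepsle.trans he1) 𝓛
  obtain ⟨N2, htimedN⟩ := htimed s hsp.le hss0 (by linarith) τ hτ hA2 eps 𝓛
  obtain ⟨N3, hslowN⟩ := hslow τ A hτ hA3 hAτ.le eps 𝓛
  -- the words
  obtain ⟨Λ, hΛ⟩ : ∃ Λ : ℕ, Λ = ⌈(kw : ℝ) * (tW / τ)⌉₊ + ⌈(j : ℝ) * (ρ0 / 4 / τ)⌉₊ := ⟨_, rfl⟩
  have hΛ1 : (kw : ℝ) * (tW / τ) ≤ Λ := by
    rw [hΛ]; push_cast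
    have h1 := Nat.le_ceil ((kw : ℝ) * (tW / τ))
    have h2 : (0 : ℝ) ≤ (⌈(j : ℝ) * (ρ0 / 4 / τ)⌉₊ : ℝ) := Nat.cast_nonneg _
    linarith
  have hΛ2 : (j : ℝ) * (ρ0 / 4 / τ) ≤ Λ := by
    rw [hΛ]; push_cast
    have h1 := Nat.le_ceil ((j : ℝ) * (ρ0 / 4 / τ))
    have h2 : (0 : ℝ) ≤ (⌈(kw : ℝ) * (tW / τ)⌉₊ : ℝ) := Nat.cast_nonneg _
    linarith
  obtain ⟨P, hPdef⟩ : ∃ P : List R.Eb → Prop, P = PP Ω τ (3 * r1) Λ := ⟨_, rfl⟩
  obtain ⟨Pf, hPfmem⟩ : ∃ Pf : Finset (List R.Eb), ∀ w, w ∈ Pf ↔ P w :=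
    ⟨(finite_PP Ω τ (3 * r1) Λ).toFinset, fun w => by rw [Set.Finite.mem_toFinset, hPdef]; rfl⟩
  obtain ⟨𝒲, h𝒲1, h𝒲2, h𝒲3⟩ := exists_words (Ω := Ω) (r1 := r1) R.unit hτ.le hAτ.le Pf
    (fun w hw => by
      have := (hPfmem w).1 hw
      rw [hPdef] at this
      have h2 := this.2 w (prefix_refl _)
      exact (Metric.ball_subset_ball (by linarith)).trans h2)
  obtain ⟨nW, hnW⟩ : ∃ nW : ℝ, nW = 𝒲.card * (cE * (A + 1)) := ⟨_, rfl⟩
  have hnW0 : 0 ≤ nW := by rw [hnW]; positivity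
  obtain ⟨δ, hδ, hδ1', hδ2'⟩ : ∃ δ : ℝ, 0 < δ ∧ δ ≤ δw / 2 ∧ nW * δ ≤ η / 2 := by
    obtain ⟨t, ht, ht'⟩ := ex_mul_le hnW0 (d := η / 2) (by positivity)
    refine ⟨min (δw / 2) t, lt_min (by positivity) ht, min_le_left _ _, ?_⟩
    have := ht' _ (min_le_right (δw / 2) t)
    linarith only [this]
  -- the cells
  obtain ⟨Crad, hCrad⟩ : ∃ Crad : ℝ,
    Crad = M.C0 * (K * (|C2| + M.C0 * (r0 * (|Cb| * (Λ * τ)))) + K) := ⟨_, rfl⟩
  obtain ⟨Mc, hMc⟩ := exists_cells (E := E) Crad hδw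
  -- the small constant
  obtain ⟨nP, hnP⟩ : ∃ nP : ℝ, nP = Pf.card * (cE * (Mc * (L * Fintype.card (Option R.Eb)))) :=
    ⟨_, rfl⟩
  have hnP0 : 0 ≤ nP := by rw [hnP]; positivity
  obtain ⟨c', hc', hc'1⟩ : ∃ c' : ℝ, 0 < c' ∧ nP * (c' * |CQ|) ≤ η / 2 := by
    obtain ⟨t, ht, ht'⟩ := ex_mul_le (c := nP * |CQ|) (by positivity) (d := η / 2)
      (by positivity)
    refine ⟨t, ht, ?_⟩
    have := ht' t le_rfl
    linarith only [this]
  obtain ⟨N4, hcapN⟩ := hcap τ A eps hτ hA4 heps (hepsle.trans he2) 𝓛 (c' ^ L) (δs * mm / 8)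
    (by positivity) (by positivity)
  refine ⟨τ, δ, r1, A, 𝒲, max (max N1 N2) (max (max N3 N4) 1), hτ, hδ, hr1p, hA11,
    le_max_of_le_right (le_max_right _ _), ?_, ?_⟩
  · intro w hw e a ha
    exact ball_leg R.unit hτ.le (h𝒲3 w hw) e ha hAτ.le
  intro N hN Ψ hΨ x Q Q' hQ hQ' hQfin hQQ' hlen hQV hlip
  have hN1 : N1 ≤ N := (le_max_left _ _).trans ((le_max_left _ _).trans hN)
  have hN2 : N2 ≤ N := (le_max_right _ _).trans ((le_max_left _ _).trans hN)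
  have hN3 : N3 ≤ N := (le_max_left _ _).trans ((le_max_left _ _).trans ((le_max_right _ _).trans hN))
  have hN4 : N4 ≤ N := (le_max_right _ _).trans ((le_max_left _ _).trans ((le_max_right _ _).trans hN))
  have hN5 : 1 ≤ N := (le_max_right _ _).trans ((le_max_right _ _).trans hN)
  -- the exceptional sets
  have hBLm := union3 (μ := M.μ) (Q := Q) (A := A) 𝒲 (fun n w (e : R.Eb) a =>
    a * 𝓛.p N τ e * ‖M.hgt (𝓛.b e)‖ / N + δ <
      ‖FF M 𝓛 N τ Ψ x n (w ++ replicate a e) - FF M 𝓛 N τ Ψ x n w‖)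
    (δ := δ) (c := η / 2) hlip (by rw [← hcE]; rw [hnW] at hδ2'; exact hδ2')
  have hBSm : M.μ {n | n ∈ Q ∧ (∀ w0 ∈ Pf, WLip R.Eb (FF M 𝓛 N τ Ψ x n) A τ δw w0) ∧
      ¬ ∀ w0 ∈ Pf, WStar R.Eb (FF M 𝓛 N τ Ψ x n) A τ δs w0} ≤
      ENNReal.ofReal (η / 2) * M.μ Q := by
    have : IsProbabilityMeasure M.ν := inferInstance
    have : M.μ.IsMulRightInvariant := ⟨fun n => M.mul_right n⟩
    have : SigmaFinite M.μ := M.sfin
    have : ProperSpace E := FiniteDimensional.proper ℝ E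
    have h1 := star_bad_small (ν := M.ν) (μ := M.μ) R hm1 hM1
      (fun w => measurable_FF 𝓛 hΨ N τ x w) (φ := Fφ M 𝓛 N τ) (fun w => M.cj_meas _)
      (A := A) hτ.le (L := L) (es := es R) (η := c' ^ L) (δ := δw) (δs := δs)
      (δ' := Cc * (τ + A * τ * eps) + δs * mm / 8) hδw.le hδs.le Pf
      (fun w0 _ => hcapN N hN4 Ψ hΨ x w0) (c := ENNReal.ofReal c')
      (by rw [ENNReal.ofReal_pow hc'.le]) hQ hQ' (by
        intro w0 hw0 o
        filter_upwards [M.ae_mem_V] with a ha q hq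
        cases o with
        | none => rw [legw_none]; exact hQV w0 (h𝒲1 w0 hw0) a ha q hq
        | some e => rw [legw_some]; exact hQV _ (h𝒲2 w0 hw0 e A le_rfl) a ha q hq) hQfin
      (Mc := Mc) (by
        intro w0 hw0
        obtain ⟨Tc, hT1, hT2, hT3⟩ := hMc ((N : ℝ)⁻¹ • M.hgt (Ψ x))
        refine ⟨Tc, hT1, hT2, fun n hn => hT3 _ ?_⟩
        rw [hCrad]
        have hw0' := (hPfmem w0).1 hw0
        rw [hPdef] at hw0'
        exact FF_bound 𝓛 hT hΨ hN5 hτ.le x (hlen n hn) hw0'.1) (by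
        have h2 : Cc * (τ + A * τ * eps) ≤ δs * mm / 8 + δs * mm / 8 := by
          rw [hAτ, mul_add]
          have : Cc * (r1 * eps) ≤ Cc * (r1 * eps1) := by gcongr
          linarith
        have h3 : 0 < δs * mm := by positivity
        linarith)
    refine h1.trans (count_le hQQ' hc'.le ?_)
    rw [← hcE, ← hnP]
    exact hc'1
  have hsub : {n | n ∈ Q ∧ ¬ ∃ (σ : Equiv.Perm R.Eb) (L : E →ₗ[ℝ] E), (∀ e : R.Eb, L e = σ e) ∧
          ∀ w : List (R.Eb × ℝ), w.length ≤ kw → (∀ p ∈ w, 0 ≤ p.2 ∧ p.2 ≤ tW) →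
            (∀ w', w' <+: w → tsum w' ∈ Ω) →
            ‖GF M N Ψ x n (𝓛.tpos N w) - GF M N Ψ x n 1 - L (tsum w)‖ ≤ η} ⊆
      {n | n ∈ Q ∧ ∃ w ∈ 𝒲, ∃ e : R.Eb, ∃ a ≤ A, a * 𝓛.p N τ e * ‖M.hgt (𝓛.b e)‖ / N + δ <
        ‖FF M 𝓛 N τ Ψ x n (w ++ replicate a e) - FF M 𝓛 N τ Ψ x n w‖} ∪
      {n | n ∈ Q ∧ (∀ w0 ∈ Pf, WLip R.Eb (FF M 𝓛 N τ Ψ x n) A τ δw w0) ∧
      ¬ ∀ w0 ∈ Pf, WStar R.Eb (FF M 𝓛 N τ Ψ x n) A τ δs w0} := by
    rintro n ⟨hn, hno⟩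
    by_contra hcon
    rw [Set.mem_union, not_or] at hcon
    obtain ⟨hnL, hnS⟩ := hcon
    apply hno
    obtain ⟨F, hF⟩ : ∃ F, F = FF M 𝓛 N τ Ψ x n := ⟨_, rfl⟩
    rw [Set.mem_ofPred_eq, ← hF] at hnS
    have hl0 : ∀ w ∈ 𝒲, WLip R.Eb F A τ δw w := by
      intro w hw e a ha
      by_contra h
      push Not at h
      apply hnL
      refine ⟨hn, w, hw, e, a, ha, ?_⟩
      rw [← hF]
      have h1 := leg_le 𝓛 heps hN5 hτ.le e ha hAτ.le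
      have h2 : r1 * eps ≤ r1 * eps1 := by gcongr
      linarith
    have hl1 : ∀ w ∈ 𝒲, WLip R.Eb F A τ δs w := fun w hw e a ha =>
      (hl0 w hw e a ha).trans (by linarith)
    have hst : ∀ w0 ∈ Pf, WStar R.Eb F A τ δs w0 := by
      by_contra h
      exact hnS ⟨hn, fun w0 hw0 => hl0 w0 (h𝒲1 w0 hw0), h⟩
    obtain ⟨σ, Lm, hL, _, hruns⟩ := haff F A hA11 τ δs δ1 δ3 (r1 * sep / 8) hτ hδs.le hδ1 hδ3
      (by rw [hAτ]; exact hn1) (by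
        rw [hAτ]
        have : 0 < r1 * sep := by positivity
        linarith only [this, hn2]) (by rw [hAτ]; exact hn3)
      (by
        rw [hAτ]
        have : 0 < r1 * sep := by positivity
        linarith only [this, hn2, hA7, hδsr]) (by
        rw [hAτ, ← hcE]
        rw [← hCd]
        linarith only [hn5, hA8]) P (by
        rw [hPdef]
        refine ⟨Nat.zero_le _, fun u' hu' => ?_⟩
        have : u' = [] := by simpa using hu'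
        subst this
        rw [lsum_nil, smul_zero]
        exact (Metric.ball_subset_ball (by linarith)).trans hball)
      (fun w e h => by rw [hPdef] at h ⊢; exact h.init)
      (fun w hw => hl1 w (h𝒲1 w ((hPfmem w).2 hw)))
      (fun w hw e a ha => hl1 _ (h𝒲2 w ((hPfmem w).2 hw) e a ha))
      (fun w hw => hst w ((hPfmem w).2 hw))
      (fun w e e' _ => by rw [hF]; exact hslowN N hN3 Ψ hΨ x n w e e') (by
        intro c hc
        obtain ⟨g1, g2, g3⟩ := hRels c hc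
        refine ⟨j, hj, ?_, by rw [hF]; exact hpowN N hN1 Ψ hΨ x n c g1 g2 g3⟩
        rw [hPdef]
        refine PP_rel R.unit hball hτ ?_ hΛ2 g1 g2 g3
        have : (j : ℝ) * (R.Eb.card * τ) = j * cE * τ := by rw [hcE]; ring
        linarith)
    refine ⟨σ, Lm, hL, fun w hwl hw hpre => ?_⟩
    have hPu : P (uw s τ w) := by
      rw [hPdef]
      refine PP_uw hΩ R.unit hball hsp (by linarith) hτ ?_ hΛ1 htW w hwl hw hpre
      have : (3 : ℝ) * r1 = 3 * (s * ρ0 / 8) := by rw [hr1]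
      have : 0 < s * ρ0 := by positivity
      linarith
    have h1 := timed_of_words R.unit hL hA11 hτ hδ3 hsp.le (by linarith) htW hruns w hwl hw hPu
    rw [hAτ] at h1
    have h2 := htimedN N hN2 Ψ hΨ x n w hwl hw
    rw [← hkW] at h1
    have h4 : GF M N Ψ x n 1 = F [] := by rw [hF, FF_eq, 𝓛.pos_nil]
    rw [← hF] at h2
    rw [h4]
    have h5 : GF M N Ψ x n (𝓛.tpos N w) - F [] - Lm (tsum w) =
        (GF M N Ψ x n (𝓛.tpos N w) - F (uw s τ w)) + (F (uw s τ w) - F [] - Lm (tsum w)) := by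
      abel
    rw [h5]
    refine (norm_add_le _ _).trans ?_
    linarith
  refine (measure_mono hsub).trans ((measure_union_le _ _).trans ((add_le_add hBLm hBSm).trans ?_))
  rw [← add_mul, ← ENNReal.ofReal_add (by positivity) (by positivity), add_halves]

end Main

end Crest.Agent.R182.Star
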