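/-
R182, module STAR (helper710, after helper554's StarThm2): the law per point with all the data which do
not depend on the legs in front of the legs.
-/
import Crest.Agent.R182.StarThm2

set_option autoImplicit false
set_option linter.unusedSectionVars false

open MeasureTheory ENNReal List

namespace Crest.Agent.R182.Star

open Crest.Agent.R182.Conv Crest.Agent.R182.Cap

section Main3

variable {G H ι E : Type*} [Group G] [Group H] [MeasurableSpace H] [MeasurableMul₂ H]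
    [MeasurableInv H] [Fintype ι] [NormedAddCommGroup E] [InnerProductSpace ℝ E]

set_option maxHeartbeats 4000000 in
/-- **THE LAW PER POINT**, with `τ, δ, ρ1, A, 𝒲` and the accuracy `eps1` before the legs; only `N0`
depends on the legs. -/
theorem star_law' [FiniteDimensional ℝ E] [MeasurableSpace E] [BorelSpace E]
    (M : CapModel G H ι E) (hR : M.Reach) (hE : M.Ent) {K : ℝ} (hK : 1 ≤ K)
    (R : RSys ι E) (hRS : M.S = R.toGenSys) {T : Set G} {r0 : ℕ} (hT : ∀ s ∈ T, s ∈ M.Cl r0)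
    (Cb : ℝ) (hS : Slow T) (hP : Pow T M.hgt) {Ω : Set E} (hΩ : Convex ℝ Ω) {ρ0 : ℝ}
    (hρ0 : 0 < ρ0) (hball : Metric.ball 0 ρ0 ⊆ Ω) (C2 CQ : ℝ) {η : ℝ} (hη : 0 < η) (kw : ℕ)
    {tW : ℝ} (htW : 0 ≤ tW) :
    ∃ (τ δ ρ1 : ℝ) (A : ℕ) (𝒲 : Finset (List R.Eb)) (eps1 : ℝ), 0 < τ ∧ 0 < δ ∧ 0 < ρ1 ∧ 1 ≤ A ∧
      0 < eps1 ∧
      (∀ w ∈ 𝒲, ∀ e : R.Eb, ∀ a ≤ A, Metric.ball (τ • lsum (w ++ replicate a e)) ρ1 ⊆ Ω) ∧
      ∀ eps : ℝ, 0 ≤ eps → eps ≤ eps1 → ∀ 𝓛 : Legs M R T Cb eps, ∃ N0 : ℕ, 1 ≤ N0 ∧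
      ∀ N ≥ N0, ∀ Ψ : G → G, QI M K Ψ → ∀ x : G, ∀ Q Q' : Set H, MeasurableSet Q →
        MeasurableSet Q' → M.μ Q ≠ ∞ → M.μ Q' ≤ ENNReal.ofReal CQ * M.μ Q →
        (∀ n ∈ Q, M.len (M.emb n) ≤ C2 * N) →
        (∀ w ∈ 𝒲, ∀ a ∈ M.V, ∀ q ∈ Q, q * (M.cj (𝓛.pos N τ w) a)⁻¹ ∈ Q') →
        (∀ w ∈ 𝒲, ∀ e : R.Eb, ∀ a ≤ A,
          M.μ {n | n ∈ Q ∧ a * 𝓛.p N τ e * ‖M.hgt (𝓛.b e)‖ / N + δ <
            ‖FF M 𝓛 N τ Ψ x n (w ++ replicate a e) - FF M 𝓛 N τ Ψ x n w‖} ≤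
              ENNReal.ofReal δ * M.μ Q) →
        M.μ {n | n ∈ Q ∧ ¬ ∃ (σ : Equiv.Perm R.Eb) (L : E →ₗ[ℝ] E), (∀ e : R.Eb, L e = σ e) ∧
          ∀ w : List (R.Eb × ℝ), w.length ≤ kw → (∀ p ∈ w, 0 ≤ p.2 ∧ p.2 ≤ tW) →
            (∀ w', w' <+: w → tsum w' ∈ Ω) →
            ‖GF M N Ψ x n (𝓛.tpos N w) - GF M N Ψ x n 1 - L (tsum w)‖ ≤ η} ≤
          ENNReal.ofReal η * M.μ Q := by
  classical
  have hC0 := M.C0_pos
  obtain ⟨c0, hc0, hrel⟩ := R.exists_rel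
  obtain ⟨cE, hcE⟩ : ∃ cE : ℝ, cE = ((R.Eb.card : ℕ) : ℝ) := ⟨_, rfl⟩
  have hcE0 : 0 ≤ cE := by rw [hcE]; exact Nat.cast_nonneg _
  have hkw0 : (0 : ℝ) ≤ kw := Nat.cast_nonneg _
  obtain ⟨sep, κ, hsep, hκ, Rels, hRels, haff⟩ :=
    word_affine R.Eb R.unit R.span_Eb hc0 hrel (r := ρ0 / 4) (by positivity)
  obtain ⟨j, hj, τp, hτp, epsp, hepsp, hpow⟩ :=
    pow_FF M hK R hT Cb hP (r := ρ0 / 4) (by positivity) hκ
  obtain ⟨s0, hs0, τt, hτt, htimed⟩ :=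
    timed_FF M hK R hT Cb hS kw htW (δ := η / 8) (by positivity)
  -- the contraction
  obtain ⟨s, hsp, hss0, hs12, hsη⟩ : ∃ s : ℝ, 0 < s ∧ s ≤ s0 ∧ s ≤ 1 / 2 ∧
      s * (kw * tW) ≤ η / 8 := by
    obtain ⟨t, ht, ht'⟩ := ex_mul_le (c := kw * tW) (by positivity) (d := η / 8) (by positivity)
    exact ⟨min s0 (min (1 / 2) t), lt_min hs0 (lt_min (by norm_num) ht), min_le_left _ _,
      (min_le_right _ _).trans (min_le_left _ _),
      ht' _ ((min_le_right _ _).trans (min_le_right _ _))⟩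
  obtain ⟨r1, hr1⟩ : ∃ r1 : ℝ, r1 = s * ρ0 / 8 := ⟨_, rfl⟩
  have hr1p : 0 < r1 := by rw [hr1]; positivity
  have hr1ρ : r1 ≤ ρ0 / 16 := by
    rw [hr1]
    have := mul_le_mul_of_nonneg_right hs12 hρ0.le
    linarith only [this]
  obtain ⟨kW, hkW⟩ : ∃ kW : ℝ, kW = kw * (tW / r1 + 1) := ⟨_, rfl⟩
  have hkW0 : 0 ≤ kW := by rw [hkW]; positivity
  obtain ⟨Cd, hCd⟩ : ∃ Cd : ℝ, Cd = cE * (ρ0 / 4 / r1 + 1) := ⟨_, rfl⟩
  have hCd0 : 0 ≤ Cd := by rw [hCd]; positivity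
  obtain ⟨bκ, hbκ, hbκ'⟩ := ex_mul_le hCd0 (d := κ / 2) (by positivity)
  obtain ⟨bη, hbη, hbη'⟩ := ex_mul_le hkW0 (d := η / 8) (by positivity)
  obtain ⟨δn, hδn, hnum⟩ := exists_num hr1p (b1 := r1 * sep / 8)
    (b3 := min bκ bη) (by positivity) (lt_min hbκ hbη)
  obtain ⟨δs, hδs, hδsn, hδsr⟩ : ∃ δs : ℝ, 0 < δs ∧ δs ≤ δn ∧ δs ≤ r1 * sep / 8 :=
    ⟨min δn (r1 * sep / 8), lt_min hδn (by positivity), min_le_left _ _, min_le_right _ _⟩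
  obtain ⟨δ1, δ3, hδ1, hδ3, hn1, hn2, hn3, hn4⟩ := hnum δs hδs.le hδsn
  have hn5 : δ3 * Cd ≤ κ / 2 := hbκ' _ (hn4.trans (min_le_left _ _))
  have hn6 : δ3 * kW ≤ η / 8 := hbη' _ (hn4.trans (min_le_right _ _))
  obtain ⟨τs, hτs, hslow⟩ := slow_FF M hK R hT Cb hS r1 (ρ := r1 * sep / 8) (by positivity)
  obtain ⟨mm, MM, hmm, hMM, hm1, hM1⟩ := R.exists_bounds
  have hLip := R.Lip_nonneg
  obtain ⟨L, hcap⟩ := exists_capAt M hR hE hK R hRS hT Cb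
  obtain ⟨Cc, hCc, hcap⟩ := hcap L le_rfl
  -- the slack of WLip
  obtain ⟨δw, hδw, hδws, hδwm⟩ : ∃ δw : ℝ, 0 < δw ∧ δw ≤ δs ∧
      2 * δw * MM * R.Lip ≤ δs * mm / 8 := by
    obtain ⟨t, ht, ht'⟩ := ex_mul_le (c := 2 * (MM * R.Lip)) (by positivity)
      (d := δs * mm / 8) (by positivity)
    refine ⟨min δs t, lt_min hδs ht, min_le_left _ _, ?_⟩
    have := ht' _ (min_le_right δs t)
    linarith only [this]
  -- the unit
  obtain ⟨A, hAall⟩ := ((((((((((ev_A 1 r1 hτp).and (ev_A 1 r1 hτt)).and (ev_A 1 r1 hτs)).and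
    (ev_A 1 r1 one_pos)).and (ev_A (j * cE) r1 (d := ρ0 / 4) (by positivity))).and
    (ev_A kw r1 (d := s * ρ0 / 8) (by positivity))).and
    (ev_A 1 r1 (d := r1 * sep / 8) (by positivity))).and
    (ev_A cE r1 (d := κ / 2) (by positivity))).and
    (ev_A Cc r1 (d := δs * mm / 8) (by positivity))).and
    ((ev_A kw r1 (d := η / 8) (by positivity)).and (Filter.eventually_ge_atTop 1))).exists
  obtain ⟨⟨⟨⟨⟨⟨⟨⟨⟨hA1, hA2⟩, hA3⟩, hA4⟩, hA5⟩, hA6⟩, hA7⟩, hA8⟩, hA9⟩, hA10, hA11⟩ := hAall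
  have hA0 : (0 : ℝ) < A := by exact_mod_cast hA11
  obtain ⟨τ, hτdef⟩ : ∃ τ : ℝ, τ = r1 / A := ⟨_, rfl⟩
  have hτ : 0 < τ := by rw [hτdef]; positivity
  have hAτ : (A : ℝ) * τ = r1 := by rw [hτdef]; field_simp
  rw [← hτdef] at hA1 hA2 hA3 hA4 hA5 hA6 hA7 hA8 hA9 hA10
  rw [one_mul] at hA1 hA2 hA3 hA4 hA7
  -- the accuracy of the legs
  obtain ⟨eps1, heps1, he1, he2, he3, he4⟩ : ∃ eps1 : ℝ, 0 < eps1 ∧ eps1 ≤ epsp ∧ eps1 ≤ 1 ∧
      Cc * (r1 * eps1) ≤ δs * mm / 8 ∧ r1 * eps1 ≤ δw / 2 := by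
    obtain ⟨t, ht, ht'⟩ := ex_mul_le (c := Cc * r1) (by positivity)
      (d := δs * mm / 8) (by positivity)
    obtain ⟨t2, ht2, ht2'⟩ := ex_mul_le hr1p.le (d := δw / 2) (by positivity)
    refine ⟨min (min epsp 1) (min t t2), lt_min (lt_min hepsp one_pos) (lt_min ht ht2),
      (min_le_left _ _).trans (min_le_left _ _), (min_le_left _ _).trans (min_le_right _ _), ?_, ?_⟩
    · have := ht' (min (min epsp 1) (min t t2)) ((min_le_right _ _).trans (min_le_left _ _))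
      linarith only [this]
    · have := ht2' (min (min epsp 1) (min t t2)) ((min_le_right _ _).trans (min_le_right _ _))
      linarith only [this]
  -- the words
  obtain ⟨Λ, hΛ⟩ : ∃ Λ : ℕ, Λ = ⌈(kw : ℝ) * (tW / τ)⌉₊ + ⌈(j : ℝ) * (ρ0 / 4 / τ)⌉₊ := ⟨_, rfl⟩
  have hΛ1 : (kw : ℝ) * (tW / τ) ≤ Λ := by
    rw [hΛ]; push_cast
    have h1 := Nat.le_ceil ((kw : ℝ) * (tW / τ))
    have h2 : (0 : ℝ) ≤ (⌈(j : ℝ) * (ρ0 / 4 / τ)⌉₊ : ℝ) := Nat.cast_nonneg _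
    linarith
  have hΛ2 : (j : ℝ) * (ρ0 / 4 / τ) ≤ Λ := by
    rw [hΛ]; push_cast
    have h1 := Nat.le_ceil ((j : ℝ) * (ρ0 / 4 / τ))
    have h2 : (0 : ℝ) ≤ (⌈(kw : ℝ) * (tW / τ)⌉₊ : ℝ) := Nat.cast_nonneg _
    linarith
  obtain ⟨P, hPdef⟩ : ∃ P : List R.Eb → Prop, P = PP Ω τ (3 * r1) Λ := ⟨_, rfl⟩
  obtain ⟨Pf, hPfmem⟩ : ∃ Pf : Finset (List R.Eb), ∀ w, w ∈ Pf ↔ P w :=
    ⟨(finite_PP Ω τ (3 * r1) Λ).toFinset, fun w => by rw [Set.Finite.mem_toFinset, hPdef]; rfl⟩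
  obtain ⟨𝒲, h𝒲1, h𝒲2, h𝒲3⟩ := exists_words (Ω := Ω) (r1 := r1) R.unit hτ.le hAτ.le Pf
    (fun w hw => by
      have := (hPfmem w).1 hw
      rw [hPdef] at this
      have h2 := this.2 w (prefix_refl _)
      exact (Metric.ball_subset_ball (by linarith)).trans h2)
  obtain ⟨nW, hnW⟩ : ∃ nW : ℝ, nW = 𝒲.card * (cE * (A + 1)) := ⟨_, rfl⟩
  have hnW0 : 0 ≤ nW := by rw [hnW]; positivity
  obtain ⟨δ, hδ, hδ1', hδ2'⟩ : ∃ δ : ℝ, 0 < δ ∧ δ ≤ δw / 2 ∧ nW * δ ≤ η / 2 := by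
    obtain ⟨t, ht, ht'⟩ := ex_mul_le hnW0 (d := η / 2) (by positivity)
    refine ⟨min (δw / 2) t, lt_min (by positivity) ht, min_le_left _ _, ?_⟩
    have := ht' _ (min_le_right (δw / 2) t)
    linarith only [this]
  -- the cells
  obtain ⟨Crad, hCrad⟩ : ∃ Crad : ℝ,
    Crad = M.C0 * (K * (|C2| + M.C0 * (r0 * (|Cb| * (Λ * τ)))) + K) := ⟨_, rfl⟩
  obtain ⟨Mc, hMc⟩ := exists_cells (E := E) Crad hδw
  -- the small constant
  obtain ⟨nP, hnP⟩ : ∃ nP : ℝ, nP = Pf.card * (cE * (Mc * (L * Fintype.card (Option R.Eb)))) :=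
    ⟨_, rfl⟩
  have hnP0 : 0 ≤ nP := by rw [hnP]; positivity
  obtain ⟨c', hc', hc'1⟩ : ∃ c' : ℝ, 0 < c' ∧ nP * (c' * |CQ|) ≤ η / 2 := by
    obtain ⟨t, ht, ht'⟩ := ex_mul_le (c := nP * |CQ|) (by positivity) (d := η / 2)
      (by positivity)
    refine ⟨t, ht, ?_⟩
    have := ht' t le_rfl
    linarith only [this]
  refine ⟨τ, δ, r1, A, 𝒲, eps1, hτ, hδ, hr1p, hA11, heps1, ?_, ?_⟩
  · intro w hw e a ha
    exact ball_leg R.unit hτ.le (h𝒲3 w hw) e ha hAτ.le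
  intro eps heps hepsle 𝓛
  obtain ⟨N1, hpowN⟩ := hpow τ hτ hA1 eps heps (hepsle.trans he1) 𝓛
  obtain ⟨N2, htimedN⟩ := htimed s hsp.le hss0 (by linarith) τ hτ hA2 eps 𝓛
  obtain ⟨N3, hslowN⟩ := hslow τ A hτ hA3 hAτ.le eps 𝓛
  obtain ⟨N4, hcapN⟩ := hcap τ A eps hτ hA4 heps (hepsle.trans he2) 𝓛 (c' ^ L) (δs * mm / 8)
    (by positivity) (by positivity)
  refine ⟨max (max N1 N2) (max (max N3 N4) 1), le_max_of_le_right (le_max_right _ _), ?_⟩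
  intro N hN Ψ hΨ x Q Q' hQ hQ' hQfin hQQ' hlen hQV hlip
  have hN1 : N1 ≤ N := (le_max_left _ _).trans ((le_max_left _ _).trans hN)
  have hN2 : N2 ≤ N := (le_max_right _ _).trans ((le_max_left _ _).trans hN)
  have hN3 : N3 ≤ N := (le_max_left _ _).trans ((le_max_left _ _).trans ((le_max_right _ _).trans hN))
  have hN4 : N4 ≤ N := (le_max_right _ _).trans ((le_max_left _ _).trans ((le_max_right _ _).trans hN))
  have hN5 : 1 ≤ N := (le_max_right _ _).trans ((le_max_right _ _).trans hN)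
  -- the exceptional sets
  have hBLm := union3 (μ := M.μ) (Q := Q) (A := A) 𝒲 (fun n w (e : R.Eb) a =>
    a * 𝓛.p N τ e * ‖M.hgt (𝓛.b e)‖ / N + δ <
      ‖FF M 𝓛 N τ Ψ x n (w ++ replicate a e) - FF M 𝓛 N τ Ψ x n w‖)
    (δ := δ) (c := η / 2) hlip (by rw [← hcE]; rw [hnW] at hδ2'; exact hδ2')
  have hBSm : M.μ {n | n ∈ Q ∧ (∀ w0 ∈ Pf, WLip R.Eb (FF M 𝓛 N τ Ψ x n) A τ δw w0) ∧
      ¬ ∀ w0 ∈ Pf, WStar R.Eb (FF M 𝓛 N τ Ψ x n) A τ δs w0} ≤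
      ENNReal.ofReal (η / 2) * M.μ Q := by
    have : IsProbabilityMeasure M.ν := inferInstance
    have : M.μ.IsMulRightInvariant := ⟨fun n => M.mul_right n⟩
    have : SigmaFinite M.μ := M.sfin
    have : ProperSpace E := FiniteDimensional.proper ℝ E
    have h1 := star_bad_small (ν := M.ν) (μ := M.μ) R hm1 hM1
      (fun w => measurable_FF 𝓛 hΨ N τ x w) (φ := Fφ M 𝓛 N τ) (fun w => M.cj_meas _)
      (A := A) hτ.le (L := L) (es := es R) (η := c' ^ L) (δ := δw) (δs := δs)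
      (δ' := Cc * (τ + A * τ * eps) + δs * mm / 8) hδw.le hδs.le Pf
      (fun w0 _ => hcapN N hN4 Ψ hΨ x w0) (c := ENNReal.ofReal c')
      (by rw [ENNReal.ofReal_pow hc'.le]) hQ hQ' (by
        intro w0 hw0 o
        filter_upwards [M.ae_mem_V] with a ha q hq
        cases o with
        | none => rw [legw_none]; exact hQV w0 (h𝒲1 w0 hw0) a ha q hq
        | some e => rw [legw_some]; exact hQV _ (h𝒲2 w0 hw0 e A le_rfl) a ha q hq) hQfin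
      (Mc := Mc) (by
        intro w0 hw0
        obtain ⟨Tc, hT1, hT2, hT3⟩ := hMc ((N : ℝ)⁻¹ • M.hgt (Ψ x))
        refine ⟨Tc, hT1, hT2, fun n hn => hT3 _ ?_⟩
        rw [hCrad]
        have hw0' := (hPfmem w0).1 hw0
        rw [hPdef] at hw0'
        exact FF_bound 𝓛 hT hΨ hN5 hτ.le x (hlen n hn) hw0'.1) (by
        have h2 : Cc * (τ + A * τ * eps) ≤ δs * mm / 8 + δs * mm / 8 := by
          rw [hAτ, mul_add]
          have : Cc * (r1 * eps) ≤ Cc * (r1 * eps1) := by gcongr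
          linarith
        have h3 : 0 < δs * mm := by positivity
        linarith)
    refine h1.trans (count_le hQQ' hc'.le ?_)
    rw [← hcE, ← hnP]
    exact hc'1
  have hsub : {n | n ∈ Q ∧ ¬ ∃ (σ : Equiv.Perm R.Eb) (L : E →ₗ[ℝ] E), (∀ e : R.Eb, L e = σ e) ∧
          ∀ w : List (R.Eb × ℝ), w.length ≤ kw → (∀ p ∈ w, 0 ≤ p.2 ∧ p.2 ≤ tW) →
            (∀ w', w' <+: w → tsum w' ∈ Ω) →
            ‖GF M N Ψ x n (𝓛.tpos N w) - GF M N Ψ x n 1 - L (tsum w)‖ ≤ η} ⊆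
      {n | n ∈ Q ∧ ∃ w ∈ 𝒲, ∃ e : R.Eb, ∃ a ≤ A, a * 𝓛.p N τ e * ‖M.hgt (𝓛.b e)‖ / N + δ <
        ‖FF M 𝓛 N τ Ψ x n (w ++ replicate a e) - FF M 𝓛 N τ Ψ x n w‖} ∪
      {n | n ∈ Q ∧ (∀ w0 ∈ Pf, WLip R.Eb (FF M 𝓛 N τ Ψ x n) A τ δw w0) ∧
      ¬ ∀ w0 ∈ Pf, WStar R.Eb (FF M 𝓛 N τ Ψ x n) A τ δs w0} := by
    rintro n ⟨hn, hno⟩
    by_contra hcon
    rw [Set.mem_union, not_or] at hcon
    obtain ⟨hnL, hnS⟩ := hcon
    apply hno
    obtain ⟨F, hF⟩ : ∃ F, F = FF M 𝓛 N τ Ψ x n := ⟨_, rfl⟩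
    rw [Set.mem_ofPred_eq, ← hF] at hnS
    have hl0 : ∀ w ∈ 𝒲, WLip R.Eb F A τ δw w := by
      intro w hw e a ha
      by_contra h
      push Not at h
      apply hnL
      refine ⟨hn, w, hw, e, a, ha, ?_⟩
      rw [← hF]
      have h1 := leg_le 𝓛 heps hN5 hτ.le e ha hAτ.le
      have h2 : r1 * eps ≤ r1 * eps1 := by gcongr
      linarith
    have hl1 : ∀ w ∈ 𝒲, WLip R.Eb F A τ δs w := fun w hw e a ha =>
      (hl0 w hw e a ha).trans (by linarith)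
    have hst : ∀ w0 ∈ Pf, WStar R.Eb F A τ δs w0 := by
      by_contra h
      exact hnS ⟨hn, fun w0 hw0 => hl0 w0 (h𝒲1 w0 hw0), h⟩
    obtain ⟨σ, Lm, hL, _, hruns⟩ := haff F A hA11 τ δs δ1 δ3 (r1 * sep / 8) hτ hδs.le hδ1 hδ3
      (by rw [hAτ]; exact hn1) (by
        rw [hAτ]
        have : 0 < r1 * sep := by positivity
        linarith only [this, hn2]) (by rw [hAτ]; exact hn3)
      (by
        rw [hAτ]
        have : 0 < r1 * sep := by positivity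
        linarith only [this, hn2, hA7, hδsr]) (by
        rw [hAτ, ← hcE]
        rw [← hCd]
        linarith only [hn5, hA8]) P (by
        rw [hPdef]
        refine ⟨Nat.zero_le _, fun u' hu' => ?_⟩
        have : u' = [] := by simpa using hu'
        subst this
        rw [lsum_nil, smul_zero]
        exact (Metric.ball_subset_ball (by linarith)).trans hball)
      (fun w e h => by rw [hPdef] at h ⊢; exact h.init)
      (fun w hw => hl1 w (h𝒲1 w ((hPfmem w).2 hw)))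
      (fun w hw e a ha => hl1 _ (h𝒲2 w ((hPfmem w).2 hw) e a ha))
      (fun w hw => hst w ((hPfmem w).2 hw))
      (fun w e e' _ => by rw [hF]; exact hslowN N hN3 Ψ hΨ x n w e e') (by
        intro c hc
        obtain ⟨g1, g2, g3⟩ := hRels c hc
        refine ⟨j, hj, ?_, by rw [hF]; exact hpowN N hN1 Ψ hΨ x n c g1 g2 g3⟩
        rw [hPdef]
        refine PP_rel R.unit hball hτ ?_ hΛ2 g1 g2 g3
        have : (j : ℝ) * (R.Eb.card * τ) = j * cE * τ := by rw [hcE]; ring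
        linarith)
    refine ⟨σ, Lm, hL, fun w hwl hw hpre => ?_⟩
    have hPu : P (uw s τ w) := by
      rw [hPdef]
      refine PP_uw hΩ R.unit hball hsp (by linarith) hτ ?_ hΛ1 htW w hwl hw hpre
      have : (3 : ℝ) * r1 = 3 * (s * ρ0 / 8) := by rw [hr1]
      have : 0 < s * ρ0 := by positivity
      linarith
    have h1 := timed_of_words R.unit hL hA11 hτ hδ3 hsp.le (by linarith) htW hruns w hwl hw hPu
    rw [hAτ] at h1
    have h2 := htimedN N hN2 Ψ hΨ x n w hwl hw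
    rw [← hkW] at h1
    have h4 : GF M N Ψ x n 1 = F [] := by rw [hF, FF_eq, 𝓛.pos_nil]
    rw [← hF] at h2
    rw [h4]
    have h5 : GF M N Ψ x n (𝓛.tpos N w) - F [] - Lm (tsum w) =
        (GF M N Ψ x n (𝓛.tpos N w) - F (uw s τ w)) + (F (uw s τ w) - F [] - Lm (tsum w)) := by
      abel
    rw [h5]
    refine (norm_add_le _ _).trans ?_
    linarith
  refine (measure_mono hsub).trans ((measure_union_le _ _).trans ((add_le_add hBLm hBSm).trans ?_))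
  rw [← add_mul, ← ENNReal.ofReal_add (by positivity) (by positivity), add_halves]

end Main3

end Crest.Agent.R182.Star
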