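/-
R182, module STAR (helper554): `star_law` for the capacity model of a `BModel`.
-/
import Mathlib
import Crest.Agent.R182.StarThm3
import Crest.Agent.R182.GenLip
import Crest.Agent.R182.LegsEx
import Crest.Agent.R182.SlowApp
import Crest.Agent.R182.NbAdM

set_option autoImplicit false
set_option linter.unusedSectionVars false

open MeasureTheory List

namespace Crest.Agent.R182.Star

open Crest.GroupTheory Crest.Geometry Crest.Agent.R182.QI Crest.Agent.R182.FinPath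
  Crest.Agent.R182.FinRed Crest.Agent.R182.Bnd Crest.Agent.R182.Core Crest.Agent.R182.Erg
  Crest.Agent.R182.OneScale Crest.Agent.R189.MeanF Crest.Agent.R182.Nb Crest.Agent.R182.Lip
  Crest.Agent.R182.Conv

variable {Γ : Type*} [Group Γ] {k : ℕ} {π : Γ →* Multiplicative (Fin k → ℤ)} {S : Finset Γ}

/-- the vertical letters -/
def vts (M : BModel (S : Set Γ) π) : Set M.G := Set.range fun i : Fin k => M.t (Pi.single i 1)

section Verts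

variable (M : BModel (S : Set Γ) π)

theorem t_mem_CN (v : Fin k → ℤ) : M.t v ∈ M.CN := by
  obtain ⟨l, hl, _, h⟩ := M.t_list v
  rw [hl]
  exact Subgroup.list_prod_mem _ fun s hs => (h s hs).1

theorem vts_finite : (vts M).Finite := Set.finite_range _

theorem vts_CN : vts M ⊆ M.CN := by
  rintro _ ⟨i, rfl⟩
  exact t_mem_CN M _

theorem slow_vts : Slow (vts M) :=
  Slow.slow_of_nilpotent M.CN M.CN_nil (vts_finite M) (vts_CN M)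

variable {E : Type*} [NormedAddCommGroup E] [InnerProductSpace ℝ E]

theorem T_h_t (T : (Fin k → ℝ) ≃ₗ[ℝ] E) (i : Fin k) :
    T (M.h (M.t (Pi.single i 1))) = ((Pi.basisFun ℝ (Fin k)).map T) i := by
  rw [Module.Basis.map_apply, Pi.basisFun_apply]
  congr 1
  funext j
  rw [M.h_t, Pi.single_apply, Pi.single_apply]
  split_ifs <;> simp

theorem linearIndependent_vts (T : (Fin k → ℝ) ≃ₗ[ℝ] E) :
    LinearIndependent ℝ fun i : Fin k => T (M.h (M.t (Pi.single i 1))) := by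
  have h : (fun i : Fin k => T (M.h (M.t (Pi.single i 1)))) =
      ⇑((Pi.basisFun ℝ (Fin k)).map T) := funext fun i => T_h_t M T i
  rw [h]
  exact Module.Basis.linearIndependent _

theorem span_vts (T : (Fin k → ℝ) ≃ₗ[ℝ] E) :
    Submodule.span ℝ (Set.range fun i : Fin k => T (M.h (M.t (Pi.single i 1)))) = ⊤ := by
  have h : (fun i : Fin k => T (M.h (M.t (Pi.single i 1)))) =
      ⇑((Pi.basisFun ℝ (Fin k)).map T) := funext fun i => T_h_t M T i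
  rw [h]
  exact Module.Basis.span_eq _

theorem pow_vts (T : (Fin k → ℝ) ≃ₗ[ℝ] E) : Pow (vts M) fun g => T (M.h g) :=
  Slow.pow_of_nilpotent M.CN M.CN_nil (fun i : Fin k => M.t (Pi.single i 1))
    (fun i => t_mem_CN M _) (fun g => T (M.h g)) (fun g g' => by rw [M.h_mul, map_add])
    (linearIndependent_vts M T)

end Verts

section Main

variable {M : BModel (S : Set Γ) π} [Countable Γ] {E : Type*} [NormedAddCommGroup E]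
  [InnerProductSpace ℝ E] {T : (Fin k → ℝ) ≃ₗ[ℝ] E} {V : Set M.NN} {RC : ℝ}
  {P : BModel.CapPar M T V RC} {RS : RSys (GI M) E} {Cb eps : ℝ}

theorem vts_Cl (P : BModel.CapPar M T V RC) (hRC : M.a ≤ RC) :
    ∃ r0 : ℕ, ∀ s ∈ vts M, s ∈ (M.toCap P).Cl r0 := by
  refine ⟨∑ i : Fin k, n1 (Pi.single i 1 : Fin k → ℤ), ?_⟩
  rintro _ ⟨i, rfl⟩
  obtain ⟨l, hl, hlen, h⟩ := M.t_list (Pi.single i 1)
  refine ⟨l, hlen.trans ?_, fun s hs => ⟨M.CN_le (h s hs).1, (h s hs).2.trans hRC⟩, hl⟩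
  exact Finset.single_le_sum (f := fun i : Fin k => n1 (Pi.single i 1 : Fin k → ℤ))
    (fun _ _ => Nat.zero_le _) (Finset.mem_univ i)

/-- legs exist, with any accuracy -/
theorem exists_legs_bm (P : BModel.CapPar M T V RC) (RS : RSys (GI M) E) :
    ∃ Cb : ℝ, 0 ≤ Cb ∧ ∀ eps : ℝ, 0 < eps → ∃ 𝓛 : Legs (M.toCap P) RS (vts M) Cb eps,
      ∀ e, 𝓛.b e ∈ M.CN := by
  obtain ⟨Cb, hCb, h⟩ := exists_legs (M.toCap P) RS (fun i : Fin k => M.t (Pi.single i 1))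
    (span_vts M T) (T := vts M) (fun i => ⟨i, rfl⟩)
  refine ⟨Cb, hCb, fun eps heps => ?_⟩
  obtain ⟨𝓛, h𝓛⟩ := h eps heps
  refine ⟨𝓛, fun e => ?_⟩
  obtain ⟨v, hv⟩ := h𝓛 e
  rw [hv]
  refine Subgroup.list_prod_mem _ fun s hs => ?_
  obtain ⟨i, rfl⟩ := List.mem_ofFn.1 hs
  exact Subgroup.zpow_mem _ (t_mem_CN M _) _

/-- **THE LAW PER POINT over a `BModel`**, at every scale where (LIP) holds. -/
theorem star_law_bm [FiniteDimensional ℝ E] [MeasurableSpace E] [BorelSpace E]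
    (P : BModel.CapPar M T V RC) (hRC : M.a ≤ RC) {ρV : ℝ} (hρV : ∀ n ∈ V, ‖n‖ ≤ ρV)
    (hRS : (M.toCap P).S = RS.toGenSys) (Cb : ℝ) (K : ℕ) {Ω : Set E} (hΩ : Convex ℝ Ω) {ρ0 : ℝ}
    (hρ0 : 0 < ρ0) (hball : Metric.ball 0 ρ0 ⊆ Ω) (C2 CQ : ℝ) {η : ℝ} (hη : 0 < η) (kw : ℕ)
    {tW : ℝ} (htW : 0 ≤ tW) :
    ∃ (τ δ ρ1 : ℝ) (A : ℕ) (𝒲 : Finset (List RS.Eb)) (eps1 : ℝ), 0 < τ ∧ 0 < δ ∧ 0 < ρ1 ∧
      1 ≤ A ∧ 0 < eps1 ∧
      (∀ w ∈ 𝒲, ∀ e : RS.Eb, ∀ a ≤ A, Metric.ball (τ • lsum (w ++ replicate a e)) ρ1 ⊆ Ω) ∧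
      ∀ eps : ℝ, 0 ≤ eps → eps ≤ eps1 → ∀ 𝓛 : Legs (M.toCap P) RS (vts M) Cb eps,
      ∃ N0 : ℕ, 1 ≤ N0 ∧
      ∀ (B : Finset M.G) (Tm : ℕ) (δ₀ R₀ μ₀ R1 τ₁ : ℝ), (∀ e, 𝓛.b e ∈ B) → δ₀ ≤ δ →
      A * ∑ e : RS.Eb, ⌈τ / 𝓛.mE e⌉₊ ≤ Tm →
      ∀ N ≥ N0, LipAt M (nrmT T) B K Tm μ₀ δ₀ R₀ R1 τ₁ N →
      ∀ Ψ : Γ → Γ, QIMap (S : Set Γ) (S : Set Γ) Ψ K → ∀ x : M.G, ∀ Q Q' : Set M.NN,
        MeasurableSet Q → MeasurableSet Q' → (volume : Measure M.NN) Q ≠ 0 →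
        (volume : Measure M.NN) Q ≠ ⊤ → volume Q' ≤ ENNReal.ofReal CQ * volume Q →
        (∀ n ∈ Q, P.s * M.len (M.toG n) ≤ C2 * N) →
        (∀ w ∈ 𝒲, ∀ a ∈ V, ∀ q ∈ Q, q * (M.conjN (𝓛.pos N τ w) a)⁻¹ ∈ Q') →
        (∀ w ∈ 𝒲, ∀ e : RS.Eb, ∀ a ≤ A,
          ∀ l : List M.G, (l.length : ℝ) ≤ μ₀ * N → (∀ s ∈ l, s ∈ M.C ∧ M.len s ≤ R₀) →
          ∀ i ≤ a * 𝓛.p N τ e, ∀ u : M.NN, ‖u‖ ≤ R1 → (volume : Measure M.NN)
            {m | m ∈ Q ∧ m * M.conjN (𝓛.pos N τ w * l.prod * 𝓛.b e ^ i) u ∉ Q} ≤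
              ENNReal.ofReal τ₁ * volume Q) →
        (volume : Measure M.NN) {n | n ∈ Q ∧ ¬ ∃ (σ : Equiv.Perm RS.Eb) (L : E →ₗ[ℝ] E),
          (∀ e : RS.Eb, L e = σ e) ∧
          ∀ w : List (RS.Eb × ℝ), w.length ≤ kw → (∀ p ∈ w, 0 ≤ p.2 ∧ p.2 ≤ tW) →
            (∀ w', w' <+: w → tsum w' ∈ Ω) →
            ‖GF (M.toCap P) N (M.ext Ψ) x n (𝓛.tpos N w) - GF (M.toCap P) N (M.ext Ψ) x n 1 -
              L (tsum w)‖ ≤ η} ≤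
          ENNReal.ofReal η * volume Q := by
  classical
  obtain ⟨r0, hT⟩ := vts_Cl P hRC
  have hK : 1 ≤ P.s * M.KQ K := by
    have h1 : 1 ≤ M.KQ K := by
      unfold BModel.KQ
      have h1 : 1 ≤ M.a ^ 3 := one_le_pow₀ M.one_le_a
      have h2 : (0:ℝ) ≤ K := Nat.cast_nonneg _
      nlinarith
    nlinarith [P.one_le_s]
  obtain ⟨τ, δ, ρ1, A, 𝒲, eps1, hτ, hδ, hρ1, hA, heps1, hW, hmain⟩ := star_law' (M.toCap P)
    (M.toCap_reach P M.C_growth) (M.toCap_ent P (AdS.of_bch1 M.nilC M.star_cj) hρV) hK RS hRS hT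
    Cb (slow_vts M) (pow_vts M T) hΩ hρ0 hball C2 CQ hη kw htW
  refine ⟨τ, δ, ρ1, A, 𝒲, eps1, hτ, hδ, hρ1, hA, heps1, hW, fun eps heps hle 𝓛 => ?_⟩
  obtain ⟨N0, hN0, hstar⟩ := hmain eps heps hle 𝓛
  refine ⟨N0, hN0, ?_⟩
  intro B Tm δ₀ R₀ μ₀ R1 τ₁ hB hδ₀ hTm N hN hlip Ψ hΨ x Q Q' hQ hQ' hQ0 hQt hCQ hlen hQV habs
  refine hstar N hN (M.ext Ψ) (M.toCap_qi P hΨ) x Q Q' hQ hQ' hQt hCQ hlen hQV ?_
  intro w hw e a ha
  exact hlip.star hB (hN0.trans hN) hΨ x hQ hQ0 hQt hτ.le hδ₀ hTm w e ha (habs w hw e a ha)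

end Main

end Crest.Agent.R182.Star
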