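/-
R182 (helper278): the law per point on boxes of near tuples (glue of `star_law_bm`, `absorb_star`).
-/
import Mathlib
import Crest.Agent.R182.GenStar
import Crest.Agent.R182.StarBM

set_option autoImplicit false
set_option linter.unusedSectionVars false

open MeasureTheory List

namespace Crest.Agent.R182.Gen

open Crest.Agent.R182.Nb Crest.Agent.R182.Core Crest.Agent.R182.Cap Crest.Agent.R182.Star
  Crest.Agent.R182.QI Crest.Agent.R182.Erg Crest.Agent.R182.OneScale Crest.Agent.R182.Conv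
  Crest.Agent.R182.Facet

variable {Γ : Type*} [Group Γ] {k : ℕ} {π : Γ →* Multiplicative (Fin k → ℤ)} {S : Finset Γ}
  {M : BModel (S : Set Γ) π} [Countable Γ] {E : Type} [NormedAddCommGroup E]
  [InnerProductSpace ℝ E] {T : (Fin k → ℝ) ≃ₗ[ℝ] E} {V : Set M.NN} {RC : ℝ}
  {P : BModel.CapPar M T V RC} {R : RSys (GI M) E}

/-- **the law per point on boxes of near tuples** -/
theorem sgood_box [FiniteDimensional ℝ E] [MeasurableSpace E] [BorelSpace E]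
    (hRC : M.a ≤ RC) {ρV : ℝ} (hρV : ∀ n ∈ V, ‖n‖ ≤ ρV)
    (hRS : (M.toCap P).S = R.toGenSys) {m1 : ℝ} (hm1 : 0 < m1) (hm11 : m1 ≤ 1)
    (hm1le : ∀ e ∈ R.Eb, ∀ e' ∈ R.Eb, e ≠ e' → inner ℝ e e' ≤ 1 - m1) (Cb : ℝ) (K : ℕ)
    {X : R.Eb → ℝ} (hX : ∀ e, |X e - 1| ≤ m1 / 10) (C2 CQ D1 : ℝ) {η : ℝ} (hη : 0 < η)
    (hD1 : 1 ≤ D1) (kw : ℕ) {tW : ℝ} (htW : 0 ≤ tW) :
    ∃ eps1 μ1 : ℝ, 0 < eps1 ∧ 0 < μ1 ∧ ∀ eps : ℝ, 0 ≤ eps → eps ≤ eps1 →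
    ∀ 𝓛 : Legs (M.toCap P) R (vts M) Cb eps, ∀ R₀ : ℝ, ∃ (Tm : ℕ) (δ₀ μ₀ : ℝ), 0 < δ₀ ∧ 0 < μ₀ ∧
    ∀ Rl Cg R1 τ₁ : ℝ, 0 < τ₁ → ∃ N0 : ℕ, 1 ≤ N0 ∧ ∀ N ≥ N0, ∀ B : Finset M.G,
      (∀ e, 𝓛.b e ∈ B) → ∀ (Tm' : ℕ) (δ' μ' : ℝ), Tm ≤ Tm' → δ' ≤ δ₀ → μ' ≤ μ₀ →
      LipAt M (nrmT T) B K Tm' μ' δ' R₀ R1 τ₁ N →
      ∀ g : R.Eb → M.G, NearTup M T R Rl Cg μ1 N X g →
      ∀ Ψ : Γ → Γ, QIMap (S : Set Γ) (S : Set Γ) Ψ K → ∀ x : M.G, ∀ Q' : Set M.NN,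
        MeasurableSet Q' →
        volume Q' ≤ ENNReal.ofReal CQ *
          volume (box M (fun i => D1 • fam M (rayE hRS) g i) 1) →
        (∀ n ∈ box M (fun i => D1 • fam M (rayE hRS) g i) 1, P.s * M.len (M.toG n) ≤ C2 * N) →
        (∀ g', Sm M (fam M (rayE hRS) g) 1 g' → ∀ a ∈ V,
          ∀ q ∈ box M (fun i => D1 • fam M (rayE hRS) g i) 1, q * (M.conjN g' a)⁻¹ ∈ Q') →
        volume {n : M.NN | n ∈ box M (fun i => D1 • fam M (rayE hRS) g i) 1 ∧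
          ¬ SGood 𝓛 N X kw tW η (M.ext Ψ) x n} ≤
        ENNReal.ofReal η * volume (box M (fun i => D1 • fam M (rayE hRS) g i) 1) := by
  classical
  obtain ⟨r0, hT⟩ := vts_Cl P hRC
  have hX2 : ∀ e, |X e - 1| ≤ 1 / 2 := fun e => (hX e).trans (by linarith)
  obtain ⟨τ, δ, ρ1, A, 𝒲, eps1, hτ, hδ, hρ1, hA, heps1, hW, hstar⟩ := star_law_bm P hRC hρV hRS
    Cb K (convex_Om (R := R) (X := X)) (ρ0 := 1 / 2) (by norm_num) (ball_Om hX2) C2 CQ hη kw htW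
  obtain ⟨eps2, μ1, heps2, hμ1, habs⟩ := absorb_star hRS hm1 hm11 hm1le hT Cb hX hτ hρ1 hW
  refine ⟨min eps1 eps2, μ1, lt_min heps1 heps2, hμ1, fun eps heps hle 𝓛 R₀ => ?_⟩
  obtain ⟨N1, hN1, hs⟩ := hstar eps heps (hle.trans (min_le_left _ _)) 𝓛
  obtain ⟨μ₀, hμ₀, ha⟩ := habs eps heps (hle.trans (min_le_right _ _)) 𝓛 R₀
  refine ⟨A * ∑ e : R.Eb, ⌈τ / 𝓛.mE e⌉₊, δ, μ₀, hδ, hμ₀, fun Rl Cg R1 τ₁ hτ₁ => ?_⟩
  obtain ⟨N2, hN2⟩ := ha Rl Cg R1 τ₁ hτ₁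
  refine ⟨max N1 N2, le_max_of_le_left hN1, ?_⟩
  intro N hN B hB Tm' δ' μ' hTm hδ' hμ' hlip g hg Ψ hΨ x Q' hQ' hCQ hlen hmove
  obtain ⟨-, hsm, hab⟩ := hN2 N (le_of_max_le_right hN) g hg
  set Q : Set M.NN := box M (fun i => D1 • fam M (rayE hRS) g i) 1 with hQ
  have hQm : MeasurableSet Q := measurableSet_box M zero_le_one
  have hQt : volume Q ≠ ⊤ := (volume_box_lt_top M zero_le_one).ne
  by_cases hQ0 : volume Q = 0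
  · refine le_trans (measure_mono (t := Q) fun n hn => hn.1) ?_
    rw [hQ0]
    exact zero_le
  exact hs B Tm' δ' R₀ μ' R1 τ₁ hB hδ' hTm N (le_of_max_le_left hN) hlip Ψ hΨ x Q Q' hQm hQ' hQ0
    hQt hCQ hlen (fun w hw a ha' q hq => hmove _ (hsm w hw) a ha' q hq)
    fun w hw e a haA l hl hlC i hi u hu =>
      hab D1 hD1 w hw e a haA l (hl.trans (by gcongr)) hlC i hi u hu

end Crest.Agent.R182.Gen
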