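/-
R182, block BOX (helper710): words in powers of the unit legs.
-/
import Crest.Agent.R182.StarLaw

set_option autoImplicit false
set_option linter.unusedSectionVars false

open MeasureTheory List

namespace Crest.Agent.R182.Star

open Crest.Agent.R182.Conv Crest.Agent.R182.Cap

variable {G H ι E : Type*} [Group G] [Group H] [MeasurableSpace H] [MeasurableMul₂ H]
    [MeasurableInv H] [Fintype ι] [NormedAddCommGroup E] [InnerProductSpace ℝ E]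

/-- position of a word in powers of the unit legs -/
noncomputable def Legs.upos {M : CapModel G H ι E} {R : RSys ι E} {T : Set G} {Cb eps : ℝ}
    (𝓛 : Legs M R T Cb eps) (N : ℕ) (τ : ℝ) (w : List (R.Eb × ℕ)) : G :=
  (w.map fun p => 𝓛.u N τ p.1 ^ p.2).prod

/-- the timed word of a word in powers of the unit legs -/
noncomputable def tw {Eb : Finset E} (τ : ℝ) (w : List (Eb × ℕ)) : List (Eb × ℝ) :=
  w.map fun p => (p.1, p.2 * τ)

theorem length_tw {Eb : Finset E} (τ : ℝ) (w : List (Eb × ℕ)) : (tw τ w).length = w.length := by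
  simp [tw]

theorem mem_tw {Eb : Finset E} {τ : ℝ} {w : List (Eb × ℕ)} {p : Eb × ℝ} (h : p ∈ tw τ w) :
    ∃ q ∈ w, p = (q.1, q.2 * τ) := by
  obtain ⟨q, hq, rfl⟩ := mem_map.1 h
  exact ⟨q, hq, rfl⟩

theorem tsum_tw {Eb : Finset E} (τ : ℝ) (w : List (Eb × ℕ)) :
    tsum (tw τ w) = (w.map fun p => (p.2 * τ) • (p.1 : E)).sum := by
  simp only [tsum, tw, map_map]
  rfl

theorem tw_take {Eb : Finset E} (τ : ℝ) (w : List (Eb × ℕ)) (k : ℕ) :
    tw τ (w.take k) = (tw τ w).take k := by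
  simp [tw, map_take]

/-- the prefixes of the timed word -/
theorem prefix_tw {Eb : Finset E} {τ : ℝ} {w : List (Eb × ℕ)} {v : List (Eb × ℝ)}
    (h : v <+: tw τ w) : ∃ w', w' <+: w ∧ v = tw τ w' := by
  refine ⟨w.take v.length, take_prefix _ _, ?_⟩
  rw [tw_take]
  exact (prefix_iff_eq_take.1 h)

/-- a power of a unit leg is a timed leg, up to a bounded power of the generator -/
theorem Legs.u_mul {M : CapModel G H ι E} {R : RSys ι E} {T : Set G} {Cb eps : ℝ}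
    (𝓛 : Legs M R T Cb eps) {N : ℕ} {τ : ℝ} (hτ : 0 ≤ τ) (e : R.Eb) (j : ℕ) :
    ∃ i ≤ j, 𝓛.u N (j * τ) e = 𝓛.u N τ e ^ j * 𝓛.b e ^ i := by
  have hmE := 𝓛.mE_pos e
  have hx : 0 ≤ τ * N / 𝓛.mE e := div_nonneg (mul_nonneg hτ (Nat.cast_nonneg N)) hmE.le
  have e1 : (j : ℝ) * τ * N / 𝓛.mE e = j * (τ * N / 𝓛.mE e) := by ring
  have h1 : j * 𝓛.p N τ e ≤ 𝓛.p N (j * τ) e := by
    unfold Legs.p
    apply Nat.le_floor
    rw [e1]
    push_cast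
    gcongr
    exact Nat.floor_le hx
  have h2 : 𝓛.p N (j * τ) e ≤ j * 𝓛.p N τ e + j := by
    have h3 := Nat.lt_floor_add_one (τ * N / 𝓛.mE e)
    have h4 := Nat.floor_le (mul_nonneg (Nat.cast_nonneg j) hx : (0 : ℝ) ≤ j * (τ * N / 𝓛.mE e))
    have h5 : ((𝓛.p N (j * τ) e : ℕ) : ℝ) ≤ ((j * 𝓛.p N τ e + j : ℕ) : ℝ) := by
      unfold Legs.p
      rw [e1]
      push_cast
      refine h4.trans ?_
      have h6 : (j : ℝ) * (τ * N / 𝓛.mE e) ≤ j * ((⌊τ * N / 𝓛.mE e⌋₊ : ℝ) + 1) := by gcongr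
      linarith
    exact_mod_cast h5
  refine ⟨𝓛.p N (j * τ) e - j * 𝓛.p N τ e, by omega, ?_⟩
  unfold Legs.u
  rw [← pow_mul, ← pow_add]
  congr 1
  rw [mul_comm (𝓛.p N τ e) j]
  omega

/-- the power of the unit leg is close to the timed leg -/
theorem Legs.u_mul_mem {M : CapModel G H ι E} {R : RSys ι E} {T : Set G} {Cb eps : ℝ}
    (𝓛 : Legs M R T Cb eps) {N : ℕ} {τ : ℝ} (hτ : 0 ≤ τ) (e : R.Eb) (j : ℕ) :
    (𝓛.u N (j * τ) e)⁻¹ * 𝓛.u N τ e ^ j ∈ Bl T (j * 𝓛.rb e) := by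
  obtain ⟨i, hi, h⟩ := 𝓛.u_mul (N := N) hτ e j
  have h1 : (𝓛.u N (j * τ) e)⁻¹ * 𝓛.u N τ e ^ j = (𝓛.b e ^ i)⁻¹ := by
    rw [h]; group
  rw [h1]
  exact Bl_mono (Nat.mul_le_mul_right _ hi) (Bl_inv (Bl_pow (𝓛.b_mem e) i))

/-- a bound for all `rb` -/
noncomputable def Legs.rX {M : CapModel G H ι E} {R : RSys ι E} {T : Set G} {Cb eps : ℝ}
    (𝓛 : Legs M R T Cb eps) : ℕ := ∑ e : R.Eb, 𝓛.rb e

theorem Legs.rb_le' {M : CapModel G H ι E} {R : RSys ι E} {T : Set G} {Cb eps : ℝ}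
    (𝓛 : Legs M R T Cb eps) (e : R.Eb) : 𝓛.rb e ≤ 𝓛.rX :=
  Finset.single_le_sum (fun _ _ => Nat.zero_le _) (Finset.mem_univ e)

/-- **words in powers of unit legs are close to timed words**, with an error `O(1/N)`. -/
theorem unit_GF (M : CapModel G H ι E) {K : ℝ} (hK : 1 ≤ K)
    (R : RSys ι E) {T : Set G} {r0 : ℕ} (hT : ∀ s ∈ T, s ∈ M.Cl r0)
    {Cb : ℝ} (hS : Slow T) (kw : ℕ) {tW : ℝ} (htW : 0 ≤ tW) {δ : ℝ} (hδ : 0 < δ) {eps : ℝ}
    (𝓛 : Legs M R T Cb eps) {τ : ℝ} (hτ : 0 < τ) :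
    ∃ N0 : ℕ, 1 ≤ N0 ∧ ∀ N ≥ N0, ∀ Ψ : G → G, QI M K Ψ →
      ∀ (x : G) (n : H) (g0 : G) (w : List (R.Eb × ℕ)), w.length ≤ kw →
      (∀ p ∈ w, (p.2 : ℝ) * τ ≤ tW) →
      ‖GF M N Ψ x n (g0 * 𝓛.tpos N (tw τ w)) - GF M N Ψ x n (g0 * 𝓛.upos N τ w)‖ ≤ δ := by
  have hC0 := M.C0_pos
  set cK : ℝ := M.C0 * K * (M.C0 * r0) with hcK
  have hcKp : 0 ≤ cK := by positivity
  obtain ⟨δ', hδ', N1, hN1⟩ := hS.iter (|Cb| * tW) kw (δ / (2 * (cK + 1))) (by positivity)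
  obtain ⟨N2, hN21, hN2⟩ := exists_N_inv (C := M.C0 * K) (δ := δ / 2) (by positivity)
  obtain ⟨N3, hN31, hN3⟩ := exists_N_inv (C := tW / τ * 𝓛.rX) (δ := δ') hδ'
  refine ⟨max N1 (max N2 N3), hN21.trans ((le_max_left _ _).trans (le_max_right _ _)),
    fun N hN Ψ hΨ x n g0 w hlen hw => ?_⟩
  have hN1' : N1 ≤ N := le_of_max_le_left hN
  have hN2' : N2 ≤ N := le_of_max_le_left (le_of_max_le_right hN)
  have hN3' : N3 ≤ N := le_of_max_le_right (le_of_max_le_right hN)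
  have hNp : (1 : ℝ) ≤ N := by exact_mod_cast hN21.trans hN2'
  have hNn : (0 : ℝ) < N := by linarith
  -- the letters
  set l : List (G × G) := w.map fun p => (𝓛.u N τ p.1 ^ p.2,
    (𝓛.u N τ p.1 ^ p.2)⁻¹ * 𝓛.u N (p.2 * τ) p.1) with hl
  have hfst : (l.map Prod.fst).prod = 𝓛.upos N τ w := by
    rw [hl, map_map]; rfl
  have hprod : (l.map fun p => p.1 * p.2).prod = 𝓛.tpos N (tw τ w) := by
    rw [hl, map_map]
    unfold Legs.tpos tw
    rw [map_map]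
    congr 2
    funext p
    simp
  obtain ⟨m, hm, hmem⟩ := hN1 N hN1' l (by rw [hl, length_map]; exact hlen) (by
    intro q hq
    rw [hl, mem_map] at hq
    obtain ⟨p, hp, rfl⟩ := hq
    have hp1 := hw p hp
    constructor
    · obtain ⟨m, hm, h⟩ := 𝓛.u_pow_mem (N := N) hτ.le p.1 p.2
      refine ⟨m, hm.trans ?_, h⟩
      gcongr
    · refine ⟨p.2 * 𝓛.rb p.1, ?_, ?_⟩
      · have h1 := hN3 N hN3'
        rw [div_le_iff₀ hNn] at h1
        have h2 : (p.2 : ℝ) ≤ tW / τ := by rwa [le_div_iff₀ hτ]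
        have h3 : ((𝓛.rb p.1 : ℕ) : ℝ) ≤ (𝓛.rX : ℝ) := by exact_mod_cast 𝓛.rb_le' p.1
        push_cast
        calc (p.2 : ℝ) * 𝓛.rb p.1 ≤ tW / τ * 𝓛.rX := by gcongr
          _ ≤ δ' * N := h1
      · have h := Bl_inv (𝓛.u_mul_mem (N := N) hτ.le p.1 p.2)
        convert h using 1
        group)
  rw [hfst, hprod] at hmem
  rw [← norm_neg, neg_sub]
  refine (GF_close hT hΨ (hN21.trans hN2') x n (g0 * 𝓛.upos N τ w) (g0 * 𝓛.tpos N (tw τ w)) hm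
    (by rw [mul_inv_rev, mul_assoc, inv_mul_cancel_left]; exact hmem)).trans ?_
  have h4 := hN2 N hN2'
  have h5 : cK * (δ / (2 * (cK + 1))) ≤ δ / 2 := by
    rw [mul_div_assoc', div_le_div_iff₀ (by positivity) (by positivity)]
    nlinarith
  linarith

end Crest.Agent.R182.Star
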