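/-
R182, module HOLE / EL_K (helper656): Euclidean geometry of a frame of unit directions.
-/
import Mathlib
import Crest.Agent.R182.ElDefs

set_option autoImplicit false

open Set
open scoped RealInnerProductSpace

namespace Crest.Agent.R182.El

variable {R E : Type*} [Fintype R] [NormedAddCommGroup E] [InnerProductSpace ℝ E]

namespace Frame

variable (F : Frame R E)

theorem inner_self (r : R) : ⟪F.e r, F.e r⟫ = 1 := by
  rw [real_inner_self_eq_norm_sq, F.norm_e]; norm_num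

theorem inner_lt {r w : R} (h : r ≠ w) : ⟪F.e r, F.e w⟫ < 1 :=
  (inner_lt_one_iff_real_of_norm_eq_one (F.norm_e r) (F.norm_e w)).2 fun h' => h (F.inj h')

theorem inner_le_norm (r : R) (v : E) : ⟪F.e r, v⟫ ≤ ‖v‖ := by
  have := real_inner_le_norm (F.e r) v
  rwa [F.norm_e, one_mul] at this

theorem abs_inner_le (r : R) (v : E) : |⟪F.e r, v⟫| ≤ ‖v‖ := by
  have := abs_real_inner_le_norm (F.e r) v
  rwa [F.norm_e, one_mul] at this

/-- different directions are uniformly separated -/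
theorem exists_sep : ∃ m : ℝ, 0 < m ∧ m ≤ 1 ∧ ∀ r w, r ≠ w → ⟪F.e r, F.e w⟫ ≤ 1 - m := by
  classical
  let s : Finset ℝ := ((Finset.univ : Finset (R × R)).filter fun x => x.1 ≠ x.2).image
    fun x => 1 - ⟪F.e x.1, F.e x.2⟫
  obtain ⟨m, hm, hs⟩ : ∃ m : ℝ, 0 < m ∧ ∀ x ∈ s, m ≤ x := by
    rcases s.eq_empty_or_nonempty with h | h
    · exact ⟨1, one_pos, by simp [h]⟩
    · refine ⟨s.min' h, ?_, fun x hx => s.min'_le x hx⟩
      have := s.min'_mem h
      obtain ⟨x, hx, hx'⟩ := Finset.mem_image.1 this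
      rw [← hx']
      have := F.inner_lt (Finset.mem_filter.1 hx).2
      linarith
  refine ⟨min m 1, lt_min hm one_pos, min_le_right _ _, fun r w h => ?_⟩
  have := hs (1 - ⟪F.e r, F.e w⟫) (Finset.mem_image.2 ⟨(r, w), by simp [h], rfl⟩)
  linarith [min_le_left m 1]

theorem sum_inner_eq (v : E) : ∑ r, F.c r * ⟪F.e r, v⟫ = 0 := by
  have : ⟪∑ r, F.c r • F.e r, v⟫ = 0 := by rw [F.sum_e, inner_zero_left]
  rw [_root_.sum_inner] at this
  simpa [real_inner_smul_left] using this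

theorem exists_neg : ∃ m : ℝ, 0 < m ∧ ∀ w, ∃ r, ⟪F.e r, F.e w⟫ ≤ -m := by
  classical
  have h : ∀ w, ∃ r, ⟪F.e r, F.e w⟫ < 0 := by
    intro w
    by_contra hcon
    push Not at hcon
    have h1 := F.sum_inner_eq (F.e w)
    have h2 : F.c w * ⟪F.e w, F.e w⟫ ≤ ∑ r, F.c r * ⟪F.e r, F.e w⟫ :=
      Finset.single_le_sum (f := fun r => F.c r * ⟪F.e r, F.e w⟫)
        (fun r _ => mul_nonneg (F.c_pos r).le (hcon r)) (Finset.mem_univ w)
    rw [F.inner_self, h1, mul_one] at h2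
    exact absurd (F.c_pos w) (not_lt.2 h2)
  choose ρ hρ using h
  rcases isEmpty_or_nonempty R with hR | hR
  · exact ⟨1, one_pos, fun w => (hR.false w).elim⟩
  · obtain ⟨w0, -, hw0⟩ := Finset.exists_max_image Finset.univ
      (fun w => ⟪F.e (ρ w), F.e w⟫) Finset.univ_nonempty
    exact ⟨-⟪F.e (ρ w0), F.e w0⟫, by linarith [hρ w0],
      fun w => ⟨ρ w, by simpa using hw0 w (Finset.mem_univ _)⟩⟩

/-- the sum rule bounds one coordinate from above by the others from below -/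
theorem exists_sum_bound : ∃ B : ℝ, 1 ≤ B ∧ ∀ (w : R) (θ : E) (t : ℝ), 0 ≤ t →
    (∀ r, r ≠ w → -t ≤ ⟪F.e r, θ⟫) → ⟪F.e w, θ⟫ ≤ B * t := by
  classical
  rcases isEmpty_or_nonempty R with hR | hR
  · exact ⟨1, le_rfl, fun w => (hR.false w).elim⟩
  obtain ⟨w0, -, hw0⟩ := Finset.exists_min_image Finset.univ F.c Finset.univ_nonempty
  set Sc := ∑ r, F.c r with hSc
  have hS0 : 0 < Sc := Finset.sum_pos (fun r _ => F.c_pos r) Finset.univ_nonempty
  have hw0' : F.c w0 ≤ Sc := Finset.single_le_sum (fun r _ => (F.c_pos r).le) (Finset.mem_univ _)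
  refine ⟨Sc / F.c w0, (one_le_div (F.c_pos w0)).2 hw0', fun w θ t ht h => ?_⟩
  have h1 := F.sum_inner_eq θ
  rw [← Finset.add_sum_erase _ _ (Finset.mem_univ w)] at h1
  have h2 : ∑ r ∈ Finset.univ.erase w, F.c r * (-t) ≤
      ∑ r ∈ Finset.univ.erase w, F.c r * ⟪F.e r, θ⟫ :=
    Finset.sum_le_sum fun r hr => mul_le_mul_of_nonneg_left (h r (Finset.ne_of_mem_erase hr))
      (F.c_pos r).le
  rw [← Finset.sum_mul] at h2
  have h3 : ∑ r ∈ Finset.univ.erase w, F.c r ≤ Sc :=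
    Finset.sum_le_sum_of_subset_of_nonneg (Finset.erase_subset _ _) fun r _ _ => (F.c_pos r).le
  have h4 : F.c w * ⟪F.e w, θ⟫ ≤ Sc * t := by nlinarith
  have h5 : 0 < F.c w := F.c_pos w
  have h6 : ⟪F.e w, θ⟫ ≤ Sc * t / F.c w := by rw [le_div_iff₀ h5]; linarith
  refine h6.trans ?_
  rw [div_mul_eq_mul_div]
  exact div_le_div_of_nonneg_left (by positivity) (F.c_pos w0) (hw0 w (Finset.mem_univ _))

include F in
theorem finiteDimensional : FiniteDimensional ℝ E := by
  refine ⟨⟨(Set.finite_range F.e).toFinset, ?_⟩⟩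
  rw [Set.Finite.coe_toFinset, F.span]

theorem exists_norm_bound : ∃ B : ℝ, 0 ≤ B ∧ ∀ (θ : E) (t : ℝ), 0 ≤ t →
    (∀ r, |⟪F.e r, θ⟫| ≤ t) → ‖θ‖ ≤ B * t := by
  classical
  have := F.finiteDimensional
  let T : E →ₗ[ℝ] (R → ℝ) :=
    { toFun := fun v r => ⟪F.e r, v⟫
      map_add' := fun x y => by ext r; simp [inner_add_right]
      map_smul' := fun a x => by ext r; simp [inner_smul_right] }
  have hT : LinearMap.ker T = ⊥ := by
    rw [LinearMap.ker_eq_bot']
    intro v hv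
    have h1 : ∀ x ∈ Submodule.span ℝ (Set.range F.e), ⟪x, v⟫ = 0 := by
      intro x hx
      induction hx using Submodule.span_induction with
      | mem x hx => obtain ⟨r, rfl⟩ := hx; exact congrFun hv r
      | zero => exact inner_zero_left _
      | add x y _ _ hx hy => rw [inner_add_left, hx, hy, add_zero]
      | smul a x _ hx => rw [real_inner_smul_left, hx, mul_zero]
    have h2 := h1 v (by rw [F.span]; trivial)
    exact inner_self_eq_zero.1 h2
  obtain ⟨K, _, hK⟩ := T.exists_antilipschitzWith hT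
  refine ⟨K, K.coe_nonneg, fun θ t ht h => ?_⟩
  have h1 := hK.le_mul_dist θ 0
  rw [dist_zero_right, map_zero, dist_zero_right] at h1
  refine h1.trans (mul_le_mul_of_nonneg_left ?_ K.coe_nonneg)
  exact (pi_norm_le_iff_of_nonneg ht).2 h

theorem exists_norm_bound' : ∃ B : ℝ, 0 ≤ B ∧ ∀ (θ : E) (t : ℝ), 0 ≤ t →
    (∀ r, ⟪F.e r, θ⟫ ≤ t) → ‖θ‖ ≤ B * t := by
  obtain ⟨B1, hB1, h1⟩ := F.exists_sum_bound
  obtain ⟨B2, hB2, h2⟩ := F.exists_norm_bound
  refine ⟨B2 * B1, by positivity, fun θ t ht h => ?_⟩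
  rw [mul_assoc]
  refine h2 θ (B1 * t) (by positivity) fun r => abs_le.2 ⟨?_, ?_⟩
  · have := h1 r (-θ) t ht (fun r' _ => by rw [inner_neg_right]; linarith [h r'])
    rw [inner_neg_right] at this
    linarith
  · have := h r
    nlinarith

/-- the isometries permuting the directions -/
def LL : Set (E ≃ₗᵢ[ℝ] E) := {L | ∀ r, L (F.e r) ∈ Set.range F.e}

theorem eq_of_apply {L L' : E ≃ₗᵢ[ℝ] E} (h : ∀ r, L (F.e r) = L' (F.e r)) : L = L' := by
  have h1 : ∀ x ∈ Submodule.span ℝ (Set.range F.e), L x = L' x := by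
    intro x hx
    induction hx using Submodule.span_induction with
    | mem x hx => obtain ⟨r, rfl⟩ := hx; exact h r
    | zero => simp
    | add x y _ _ hx hy => rw [map_add, map_add, hx, hy]
    | smul a x _ hx => rw [map_smul, map_smul, hx]
  ext x
  exact h1 x (by rw [F.span]; trivial)

theorem finite_LL : F.LL.Finite := by
  classical
  have h : (Set.pi Set.univ fun _ : R => Set.range F.e).Finite :=
    Set.Finite.pi fun _ => Set.finite_range _
  refine Set.Finite.of_injOn (f := fun L r => L (F.e r)) (fun L hL => ?_) (fun L _ L' _ h => ?_) h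
  · rw [Set.mem_univ_pi]; exact hL
  · exact F.eq_of_apply fun r => congrFun h r

/-- two members of `LL` which are close on a ball of a subspace agree on it -/
theorem exists_sep_LL (W : Submodule ℝ E) (m : ℝ) (hm : 0 < m) : ∃ s : ℝ, 0 < s ∧
    ∀ L ∈ F.LL, ∀ L' ∈ F.LL, (∀ u ∈ W, ‖u‖ ≤ m → ‖L u - L' u‖ ≤ s) → ∀ u ∈ W, L u = L' u := by
  classical
  have h : ∀ x : (E ≃ₗᵢ[ℝ] E) × (E ≃ₗᵢ[ℝ] E), ∃ s : ℝ, 0 < s ∧
      ((∀ u ∈ W, ‖u‖ ≤ m → ‖x.1 u - x.2 u‖ ≤ s) → ∀ u ∈ W, x.1 u = x.2 u) := by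
    intro x
    by_cases hx : ∀ u ∈ W, x.1 u = x.2 u
    · exact ⟨1, one_pos, fun _ => hx⟩
    · push Not at hx
      obtain ⟨u, hu, hux⟩ := hx
      have hu0 : u ≠ 0 := by rintro rfl; simp at hux
      have hn : 0 < ‖u‖ := norm_pos_iff.2 hu0
      set v := (m / ‖u‖) • u with hv
      have hvn : ‖v‖ = m := by
        rw [hv, norm_smul, Real.norm_of_nonneg (by positivity)]; field_simp
      have hd : 0 < ‖x.1 v - x.2 v‖ := by
        rw [norm_pos_iff, hv, map_smul, map_smul, ← smul_sub]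
        exact smul_ne_zero (by positivity) (sub_ne_zero.2 hux)
      refine ⟨‖x.1 v - x.2 v‖ / 2, by positivity, fun h => ?_⟩
      have := h v (W.smul_mem _ hu) hvn.le
      linarith
  choose s hs hs' using h
  have hfin := (F.finite_LL.prod F.finite_LL)
  rcases hfin.toFinset.eq_empty_or_nonempty with he | hne
  · refine ⟨1, one_pos, fun L hL L' hL' => ?_⟩
    have : (L, L') ∈ hfin.toFinset := by rw [Set.Finite.mem_toFinset]; exact ⟨hL, hL'⟩
    rw [he] at this; simp at this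
  · obtain ⟨x0, hx0, hmin⟩ := Finset.exists_min_image hfin.toFinset s hne
    refine ⟨s x0, hs x0, fun L hL L' hL' h => hs' (L, L') fun u hu hum => ?_⟩
    exact (h u hu hum).trans (hmin (L, L') (by rw [Set.Finite.mem_toFinset]; exact ⟨hL, hL'⟩))

end Frame

/-- two isometries which agree on a hyperplane are equal or differ by the reflection -/
theorem eq_or_reflection {L L' : E ≃ₗᵢ[ℝ] E} {x : E} (hx : ‖x‖ = 1)
    (h : ∀ u, ⟪x, u⟫ = 0 → L u = L' u) :
    (∀ v, L' v = L v) ∨ (∀ v, L' v = L v - (2 * ⟪x, v⟫) • L x) := by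
  have hxx : ⟪x, x⟫ = 1 := by rw [real_inner_self_eq_norm_sq, hx]; norm_num
  set y := L.symm (L' x) with hy
  have hLy : L y = L' x := by rw [hy]; simp
  set c := ⟪x, y⟫ with hc
  have h0 : ⟪x, y - c • x⟫ = 0 := by
    rw [inner_sub_right, inner_smul_right, hxx]; ring
  have h1 : ⟪y, y - c • x⟫ = 0 := by
    have h2 := h _ h0
    have h3 : ⟪L y, L (y - c • x)⟫ = ⟪y, y - c • x⟫ := L.inner_map_map _ _
    rw [← h3, h2, hLy, L'.inner_map_map, h0]
  have h2 : y - c • x = 0 := by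
    have h3 : ⟪y - c • x, y - c • x⟫ = 0 := by
      conv_lhs => rw [inner_sub_left]
      rw [h1, real_inner_smul_left, h0]; ring
    exact inner_self_eq_zero.1 h3
  have hyc : y = c • x := sub_eq_zero.1 h2
  have hyn : ‖y‖ = 1 := by
    have : ‖L y‖ = ‖L' x‖ := by rw [hLy]
    rwa [L.norm_map, L'.norm_map, hx] at this
  have hcn : |c| = 1 := by
    rw [hyc, norm_smul, hx, mul_one, Real.norm_eq_abs] at hyn
    exact hyn
  have hdec : ∀ v, L' v = L v + ((c - 1) * ⟪x, v⟫) • L x := by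
    intro v
    have h3 : ⟪x, v - ⟪x, v⟫ • x⟫ = 0 := by
      rw [inner_sub_right, inner_smul_right, hxx]; ring
    have h4 := h _ h3
    rw [map_sub, map_sub, map_smul, map_smul] at h4
    have h5 : L' x = c • L x := by rw [← hLy, hyc, map_smul]
    rw [h5] at h4
    have h6 : L' v = L v - ⟪x, v⟫ • L x + ⟪x, v⟫ • c • L x := by rw [h4]; abel
    rw [h6, smul_smul]
    module
  rcases (abs_eq one_pos.le).1 hcn with h3 | h3
  · left; intro v; rw [hdec, h3]; simp
  · right; intro v; rw [hdec, h3]; module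

end Crest.Agent.R182.El
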