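/-
R182, module ELINST (helper468): tuples of legs touch; letters with a margin are small in the box of
an admissible shape.
-/
import Mathlib
import Crest.Agent.R182.ElBase
import Crest.Agent.R182.GenAbs
import Crest.Agent.R182.BoxFacts

set_option autoImplicit false
set_option linter.unusedSectionVars false

open MeasureTheory Set
open scoped Pointwise RealInnerProductSpace ENNReal

namespace Crest.Agent.R182.ElI

open Crest.Agent.R182.Core Crest.Agent.R182.Nb Crest.Agent.R182.Gen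

variable {Γ : Type*} [Group Γ] {k : ℕ} {S : Set Γ} {π : Γ →* Multiplicative (Fin k → ℤ)}
variable {M : BModel S π}

section rays

variable {E : Type*} [NormedAddCommGroup E] [InnerProductSpace ℝ E]

theorem sum_wg_ray (G : Geo M E) (e : G.R) (κ : List (GI M)) (h : ∀ j ∈ κ, G.ray j = e)
    (v : Fin k → ℝ) :
    (κ.map (wg M)).sum v = (κ.map G.RS.lam).sum * ⟪(e : E), G.T v⟫ := by
  induction κ with
  | nil => simp
  | cons j κ ih =>
    have h1 := ih fun i hi => h i (List.mem_cons_of_mem _ hi)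
    rw [List.map_cons, List.sum_cons, LinearMap.add_apply, h1, List.map_cons, List.sum_cons,
      G.wg_ray, h j List.mem_cons_self]
    ring

theorem rays_ray (G : Geo M E) : Rays M G.ray := by
  intro κ i e hκ hne hsum
  have hpos : 0 < (κ.map G.RS.lam).sum := by
    refine List.sum_pos _ ?_ (by simpa using hne)
    intro x hx
    obtain ⟨j, _, rfl⟩ := List.mem_map.1 hx
    exact G.lam_pos j
  have hi := G.lam_pos i
  have key : ∀ x : E, (κ.map G.RS.lam).sum * ⟪(e : E), x⟫ = G.RS.lam i * ⟪(G.ray i : E), x⟫ := by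
    intro x
    have h1 := sum_wg_ray G e κ hκ (G.T.symm x)
    rw [hsum, G.wg_ray, LinearEquiv.apply_symm_apply] at h1
    exact h1.symm
  set a := (κ.map G.RS.lam).sum with ha
  have h1 : a • (e : E) = G.RS.lam i • (G.ray i : E) := by
    refine ext_inner_right ℝ fun x => ?_
    rw [inner_smul_left, inner_smul_left]
    exact key x
  have h2 : a = G.RS.lam i := by
    have := congrArg norm h1
    rwa [norm_smul, norm_smul, G.norm_ray, G.norm_ray, mul_one, mul_one,
      Real.norm_of_nonneg hpos.le, Real.norm_of_nonneg hi.le] at this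
  apply Subtype.ext
  rw [h2] at h1
  exact (smul_right_injective E hi.ne' h1).symm

/-- change of the exponents of a scaled basis -/
theorem Bx_gZ_le (Y Y' : GI M → ℝ) (m : ℝ) (hm : 0 ≤ m) (h : ∀ i, Y i ≤ Y' i + m) {t : ℝ}
    {x : M.L} (hx : x ∈ Bx M.c (gZ (eg M) Y) t) :
    x ∈ Bx M.c (gZ (eg M) Y') (t * Real.exp (M.c * m)) := by
  classical
  obtain ⟨a, ha, rfl⟩ := hx
  refine ⟨fun κ => if κ.length ≤ M.c then a κ * Real.exp ((κ.map Y).sum - (κ.map Y').sum) else 0,
    fun κ => ?_, ?_⟩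
  · beta_reduce
    split_ifs with hκ
    · rw [abs_mul, abs_of_pos (Real.exp_pos _)]
      have h1 : (κ.map Y).sum - (κ.map Y').sum ≤ M.c * m := by
        have h2 : (κ.map Y).sum - (κ.map Y').sum ≤ κ.length * m := by
          clear hκ
          induction κ with
          | nil => simp
          | cons i κ ih =>
            rw [List.map_cons, List.sum_cons, List.map_cons, List.sum_cons, List.length_cons]
            push_cast
            linarith [h i]
        refine h2.trans ?_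
        gcongr
      have h3 : (0:ℝ) ≤ t := (abs_nonneg _).trans (ha κ)
      exact mul_le_mul (ha κ) (Real.exp_le_exp.2 h1) (Real.exp_pos _).le h3
    · rw [abs_zero]
      have h3 : (0:ℝ) ≤ t := (abs_nonneg _).trans (ha κ)
      positivity
  · refine Finset.sum_congr rfl fun κ hκ => ?_
    rw [mem_KL] at hκ
    beta_reduce
    rw [if_pos hκ, mon_gZ, mon_gZ, smul_smul, smul_smul, mul_assoc, ← Real.exp_add,
      sub_add_cancel]

/-- if the letters lie in the box of `fam`, the monomials of `fam` span -/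
theorem span_of_mem {fam : GI M → M.L} {T : ℝ} (h : ∀ i, eg M i ∈ Bx M.c fam T) (x : M.L) :
    x ∈ Submodule.span ℝ (Set.range fun κ : List (GI M) => mon fam κ) := by
  obtain ⟨t, ht, hx⟩ := exists_mem_Bx (spans M) (M.nilC.nil _) x
  obtain ⟨A, -, hA⟩ := exists_Bx_comp M.c (GI M) (GI M) (max T 1) (le_max_right _ _)
  have h1 := hA fam (eg M) (M.nilC.nil _) (fun i => Bx_mono (le_max_left _ _) (h i)) t ht hx
  obtain ⟨a, -, rfl⟩ := h1
  exact Submodule.sum_mem _ fun κ _ => Submodule.smul_mem _ _ (Submodule.subset_span ⟨κ, rfl⟩)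

end rays

/-- the sides of a shape -/
noncomputable def sd {E : Type*} [NormedAddCommGroup E] [InnerProductSpace ℝ E] (G : Geo M E)
    (Sc : ℝ) (Z : G.R → ℝ) : GI M → ℝ := fun i => Sc * (G.RS.lam i * Z (G.ray i))

variable {E : Type} [NormedAddCommGroup E] [InnerProductSpace ℝ E]

set_option maxHeartbeats 1600000 in
/-- **geometry of the tuples of legs.** -/
theorem ev_geo (G : Geo M E) {γ : ℝ} (hγ : Gap G γ) {δ : ℝ} (hδ : 0 < δ) (C RC Cb : ℝ) :
    Ev G RC Cb fun Sc τ u => ∀ ω, ω ≤ γ / 16 → ∀ Z, adm τ ω Z →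
      Touch M G.ray (legs u τ Z) 1 ∧
      (∀ i, gZ (eg M) (sd G Sc Z) i ∈ Bx M.c (fm G u τ Z) (Real.exp (δ * Sc))) ∧
      (∀ i, fm G u τ Z i ∈ Bx M.c (gZ (eg M) (sd G Sc Z)) (Real.exp (δ * Sc))) ∧
      (∀ g', CW M RC (2 + |C| * Sc) g' → ∀ μ, 0 ≤ μ →
        (∀ i, wg M i (M.h g') + μ + δ * Sc ≤ sd G Sc Z i) → Sm M (fm G u τ Z) (Real.exp (-μ)) g') ∧
      (∀ r : G.R, ∀ m : ℕ, m * τ ≤ 2 → ∀ μ, 0 ≤ μ →
        (∀ i, Sc * (G.RS.lam i * (⟪(G.ray i : E), (r : E)⟫ * (m * τ))) + μ + δ * Sc ≤ sd G Sc Z i) →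
          Sm M (fm G u τ Z) (Real.exp (-μ)) (leg u τ r (m * τ))) := by
  obtain ⟨hγ0, hγ1, hgap⟩ := hγ
  obtain ⟨l0, l1, hl0, hl01, hl1, hl⟩ := exists_lam G
  obtain ⟨B, hB⟩ := exists_touch M RC
  obtain ⟨B', hB'⟩ := exists_tiny M RC
  refine ⟨1, one_pos, fun τ hτ hτ1 => ?_⟩
  set c : ℝ := (M.c : ℝ) with hc
  have hc0 : 0 ≤ c := Nat.cast_nonneg _
  set e0 : ℝ := min (γ / 16) (δ / (8 * l1 * (1 + c))) with he0
  have he00 : 0 < e0 := lt_min (by positivity) (by positivity)
  have he0γ : e0 ≤ γ / 16 := min_le_left _ _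
  have he0δ : l1 * (1 + c) * (8 * e0) ≤ δ := by
    have h1 : e0 ≤ δ / (8 * l1 * (1 + c)) := min_le_right _ _
    rw [le_div_iff₀ (by positivity)] at h1
    linarith
  set C' : ℝ := |C| + 2 * |Cb| + 4 with hC'
  have hC'0 : 0 ≤ C' := by positivity
  obtain ⟨S1, hS1, h1⟩ := exists_poly_le (2 ^ B) (C' / 2) B (δ := l0 * (γ / 4)) (by positivity)
  obtain ⟨S2, hS2, h2⟩ := exists_poly_le (2 ^ B) (C' / 2) B (δ := δ / 4) (by positivity)
  obtain ⟨S3, hS3, h3⟩ := exists_poly_le (2 ^ B') (C' / 2) B' (δ := δ / 4) (by positivity)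
  refine ⟨e0, he00, max S1 (max S2 S3), fun Sc hSc un ω hω Z hZ => ?_⟩
  have hSc1 : 1 ≤ Sc := hS1.trans ((le_max_left _ _).trans hSc)
  have hSc0 : 0 < Sc := by linarith
  have p1 := h1 Sc ((le_max_left _ _).trans hSc)
  have p2 := h2 Sc ((le_max_left _ _).trans ((le_max_right _ _).trans hSc))
  have p3 := h3 Sc ((le_max_right _ _).trans ((le_max_right _ _).trans hSc))
  set P : ℝ := 2 + C' * Sc with hP
  have hP2 : 2 ≤ P := by nlinarith [mul_nonneg hC'0 hSc0.le]
  have ePB : ∀ n : ℕ, 2 ^ n * (1 + C' / 2 * Sc) ^ n = P ^ n := fun n => by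
    rw [← mul_pow, hP]; congr 1; ring
  rw [ePB] at p1 p2 p3
  have hω1 : ω ≤ 1 / 16 := by linarith
  have hbd := fun r => hZ.bd hω1 r
  obtain ⟨⟨m, hm⟩, hNR⟩ := hZ
  have hZr : ∀ r, |Z r - 1| ≤ ω := hNR
  have hZ' : ∀ r, 1 - ω ≤ Z r ∧ Z r ≤ 1 + ω := fun r => by
    have := abs_le.1 (hZr r)
    constructor <;> linarith [this.1, this.2]
  -- words of the legs
  have hcw : ∀ r, CW M RC P (legs un.u τ Z r) := by
    intro r
    have h := un.cw_leg r hτ hSc0 (s := Z r) (by linarith [(hbd r).1])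
    obtain ⟨l, e1, e2, e3⟩ := h
    refine ⟨l, e1, e2, e3.trans ?_⟩
    have h4 : Cb * Z r * Sc ≤ 2 * |Cb| * Sc := by
      have h5 : Cb * Z r ≤ |Cb| * 2 := by
        calc Cb * Z r ≤ |Cb| * Z r := by
              gcongr
              · linarith [(hbd r).1]
              · exact le_abs_self _
          _ ≤ |Cb| * 2 := by gcongr; linarith [(hbd r).2]
      nlinarith
    have h6 : 0 ≤ |C| * Sc := by positivity
    rw [hP, hC']
    nlinarith
  -- heights of legs
  have hht : ∀ i : GI M, ∀ r, ∀ n : ℕ, (n * τ) ≤ 2 →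
      |wg M i (M.h (leg un.u τ r (n * τ))) - Sc * (G.RS.lam i * (⟪(G.ray i : E), (r : E)⟫ *
        (n * τ)))| ≤ G.RS.lam i * (2 * e0) * Sc := by
    intro i r n hn
    rw [G.wg_ray]
    have e1 : G.RS.lam i * ⟪(G.ray i : E), G.T (M.h (leg un.u τ r (n * τ)))⟫ -
        Sc * (G.RS.lam i * (⟪(G.ray i : E), (r : E)⟫ * (n * τ))) = G.RS.lam i *
        ⟪(G.ray i : E), G.T (M.h (leg un.u τ r (n * τ))) - ((n * τ) * Sc) • (r : E)⟫ := by
      rw [inner_sub_right, inner_smul_right]; ring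
    rw [e1, abs_mul, abs_of_pos (G.lam_pos i), mul_assoc (G.RS.lam i) (2 * e0) Sc]
    refine mul_le_mul_of_nonneg_left ?_ (G.lam_pos i).le
    refine (abs_real_inner_le_norm _ _).trans ?_
    rw [G.norm_ray, one_mul]
    refine (un.height_leg' r hτ n).trans ?_
    have : e0 * (n * τ) ≤ e0 * 2 := mul_le_mul_of_nonneg_left hn he00.le
    calc e0 * (n * τ) * Sc ≤ e0 * 2 * Sc := mul_le_mul_of_nonneg_right this hSc0.le
      _ = 2 * e0 * Sc := by ring
  have hside : ∀ i : GI M, |sides M G.ray (legs un.u τ Z) i - sd G Sc Z i| ≤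
      G.RS.lam i * (2 * e0) * Sc := by
    intro i
    have h := hht i (G.ray i) (m (G.ray i)) (by rw [← hm]; linarith [(hbd (G.ray i)).2])
    rw [← hm, real_inner_self_eq_norm_sq, G.norm_ray, one_pow, one_mul] at h
    exact h
  have hlam2 : ∀ i : GI M, G.RS.lam i * (2 * e0) * Sc ≤ l1 * (2 * e0) * Sc := fun i => by
    gcongr
    exact (hl i).2
  have hsmall : l1 * (2 * e0) * Sc ≤ δ / 4 * Sc := by
    have : l1 * (2 * e0) ≤ δ / 4 := by nlinarith [mul_nonneg (by linarith : (0:ℝ) ≤ l1) (mul_nonneg hc0 he00.le)]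
    gcongr
  have hsmallc : c * (l1 * (2 * e0) * Sc) ≤ δ / 4 * Sc := by
    have : c * (l1 * (2 * e0)) ≤ δ / 4 := by nlinarith [mul_nonneg (by linarith : (0:ℝ) ≤ l1) (mul_nonneg hc0 he00.le)]
    nlinarith
  -- margin at the other rays
  have hmar : ∀ r, ∀ j : GI M, G.ray j ≠ r →
      wg M j (M.h (legs un.u τ Z r)) ≤ sides M G.ray (legs un.u τ Z) j - l0 * (γ / 4) * Sc := by
    intro r j hjr
    have h4 := hht j r (m r) (by rw [← hm]; linarith [(hbd r).2])
    rw [← hm] at h4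
    have h5 := (abs_le.1 h4).2
    have h6 := (abs_le.1 (hside j)).1
    have h7 := hgap (G.ray j) r hjr
    have h8 : ⟪(G.ray j : E), (r : E)⟫ * Z r ≤ (1 - γ) * (1 + ω) := by
      calc ⟪(G.ray j : E), (r : E)⟫ * Z r ≤ (1 - γ) * Z r := by
            gcongr
            linarith [(hbd r).1]
        _ ≤ (1 - γ) * (1 + ω) := by
            have : 0 ≤ 1 - γ := by linarith
            gcongr
            exact (hZ' r).2
    have h9 : (1 - γ) * (1 + ω) + 4 * e0 + γ / 4 ≤ Z (G.ray j) := by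
      have h10 := (hZ' (G.ray j)).1
      have hω0 : 0 ≤ ω := (abs_nonneg _).trans (hZr r)
      have h11 := mul_nonneg hγ0.le hω0
      have h12 : (1 - γ) * (1 + ω) = 1 + ω - γ - γ * ω := by ring
      linarith
    have h10 : G.RS.lam j * (⟪(G.ray j : E), (r : E)⟫ * Z r) + G.RS.lam j * (4 * e0) +
        l0 * (γ / 4) ≤ G.RS.lam j * Z (G.ray j) := by
      have hlj := G.lam_pos j
      have h11 : l0 * (γ / 4) ≤ G.RS.lam j * (γ / 4) := by
        gcongr
        exact (hl j).1
      have h12 : G.RS.lam j * (⟪(G.ray j : E), (r : E)⟫ * Z r + 4 * e0 + γ / 4) ≤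
          G.RS.lam j * Z (G.ray j) := mul_le_mul_of_nonneg_left (by linarith) hlj.le
      have h13 : G.RS.lam j * (⟪(G.ray j : E), (r : E)⟫ * Z r + 4 * e0 + γ / 4) =
          G.RS.lam j * (⟪(G.ray j : E), (r : E)⟫ * Z r) + G.RS.lam j * (4 * e0) +
          G.RS.lam j * (γ / 4) := by ring
      linarith
    have h12 := mul_le_mul_of_nonneg_left h10 hSc0.le
    have h13 : Sc * (G.RS.lam j * (⟪(G.ray j : E), (r : E)⟫ * Z r) + G.RS.lam j * (4 * e0) +
        l0 * (γ / 4)) = Sc * (G.RS.lam j * (⟪(G.ray j : E), (r : E)⟫ * Z r)) +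
        G.RS.lam j * (2 * e0) * Sc + G.RS.lam j * (2 * e0) * Sc + l0 * (γ / 4) * Sc := by ring
    rw [h13] at h12
    change wg M j (M.h (leg un.u τ r (Z r))) ≤ _
    have h14 : sd G Sc Z j = Sc * (G.RS.lam j * Z (G.ray j)) := rfl
    linarith
  have hmargin0 : 0 ≤ l0 * (γ / 4) * Sc := by positivity
  obtain ⟨t1, -, t3, t4⟩ := hB P hP2 G.ray (legs un.u τ Z) (l0 * (γ / 4) * Sc) (rays_ray G) hcw
    hmargin0 p1 hmar
  have hPB0 : (0:ℝ) ≤ P ^ B := by positivity
  have htouch : ∀ r, ∀ j : GI M, wg M j (M.h (legs un.u τ Z r)) ≤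
      sides M G.ray (legs un.u τ Z) j := by
    intro r j
    by_cases hjr : G.ray j = r
    · subst hjr; exact le_rfl
    · exact (hmar r j hjr).trans (by linarith)
  have hSm : ∀ g', CW M RC P g' → ∀ μ, 0 ≤ μ →
      (∀ i, wg M i (M.h g') + μ + δ / 2 * Sc ≤ sd G Sc Z i) →
      Sm M (fm G un.u τ Z) (Real.exp (-μ)) g' := by
    intro g' hg' μ hμ h
    have h5 := hB' P hP2 G.ray (legs un.u τ Z) (rays_ray G) hcw htouch (μ + δ / 4 * Sc)
      (by positivity) g' hg' (fun j => by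
        have h6 := (abs_le.1 (hside j)).1
        have h7 := h j
        have h8 := hlam2 j
        linarith)
    intro i
    refine Bx_mono ?_ (h5 i)
    calc P ^ B' * Real.exp (-(μ + δ / 4 * Sc)) ≤ Real.exp (δ / 4 * Sc) *
          Real.exp (-(μ + δ / 4 * Sc)) := by gcongr
      _ = Real.exp (-μ) := by rw [← Real.exp_add]; congr 1; ring
  refine ⟨t1, fun i => ?_, fun i => ?_, fun g' hg' μ hμ h => ?_, fun r n hn μ hμ h => ?_⟩
  · -- the scaled basis in the box
    have h5 := Bx_smul (t4 i) (Real.exp (sd G Sc Z i - sides M G.ray (legs un.u τ Z) i))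
    have e1 : Real.exp (sd G Sc Z i - sides M G.ray (legs un.u τ Z) i) •
        gZ (eg M) (sides M G.ray (legs un.u τ Z)) i = gZ (eg M) (sd G Sc Z) i := by
      change Real.exp _ • Real.exp _ • eg M i = Real.exp _ • eg M i
      rw [smul_smul, ← Real.exp_add, sub_add_cancel]
    rw [e1, abs_of_pos (Real.exp_pos _)] at h5
    refine Bx_mono ?_ h5
    have h6 := (abs_le.1 (hside i)).1
    have h8 := hlam2 i
    calc Real.exp (sd G Sc Z i - sides M G.ray (legs un.u τ Z) i) * P ^ B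
        ≤ Real.exp (δ / 4 * Sc) * Real.exp (δ / 4 * Sc) := by
          gcongr
          linarith
      _ = Real.exp (δ / 2 * Sc) := by rw [← Real.exp_add]; congr 1; ring
      _ ≤ _ := by
          apply Real.exp_le_exp.2
          nlinarith
  · have h5 := Bx_gZ_le (sides M G.ray (legs un.u τ Z)) (sd G Sc Z) (l1 * (2 * e0) * Sc)
      (by positivity) (fun j => by
        have h6 := (abs_le.1 (hside j)).2
        have h8 := hlam2 j
        linarith) (t3 i)
    refine Bx_mono ?_ h5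
    calc P ^ B * Real.exp (M.c * (l1 * (2 * e0) * Sc))
        ≤ Real.exp (δ / 4 * Sc) * Real.exp (δ / 4 * Sc) := by
          gcongr
      _ = Real.exp (δ / 2 * Sc) := by rw [← Real.exp_add]; congr 1; ring
      _ ≤ _ := by
          apply Real.exp_le_exp.2
          nlinarith
  · refine hSm g' ?_ μ hμ fun i => ?_
    · obtain ⟨l, e1, e2, e3⟩ := hg'
      refine ⟨l, e1, e2, e3.trans ?_⟩
      rw [hP, hC']
      have : 0 ≤ 2 * |Cb| * Sc := by positivity
      nlinarith
    · have := h i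
      have h9 : 0 ≤ δ / 2 * Sc := by positivity
      linarith
  · refine hSm _ ?_ μ hμ fun i => ?_
    · have hcw' := un.cw_leg r hτ hSc0 (s := n * τ) (by positivity)
      obtain ⟨l, e1, e2, e3⟩ := hcw'
      refine ⟨l, e1, e2, e3.trans ?_⟩
      have h4 : Cb * (n * τ) * Sc ≤ 2 * |Cb| * Sc := by
        have h5 : Cb * (n * τ) ≤ |Cb| * 2 := by
          calc Cb * (n * τ) ≤ |Cb| * (n * τ) := by
                gcongr
                exact le_abs_self _
            _ ≤ |Cb| * 2 := by gcongr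
        nlinarith
      have h6 : 0 ≤ |C| * Sc := by positivity
      rw [hP, hC']
      nlinarith
    · have h4 := (abs_le.1 (hht i r n hn)).2
      have h5 := h i
      have h8 := hlam2 i
      have h9 : 0 ≤ δ * Sc := by positivity
      linarith

end Crest.Agent.R182.ElI
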