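/-
R182, module HOLE (helper860): the geometry of three shapes `m₁ < m₂ < m₃` used in `end_scale`.
-/
import Mathlib
import Crest.Agent.R182.HoleGeo

set_option autoImplicit false
set_option linter.unusedSectionVars false

open MeasureTheory Set
open scoped ENNReal

namespace Crest.Agent.R182.HoleOne

open Crest.Agent.R182.Core Crest.Agent.R182.Core.BModel Crest.Agent.R182.Nb
  Crest.Agent.R182.HoleNil Crest.Agent.R182.HoleGeo

variable {Γ : Type*} [Group Γ] {k : ℕ} {S : Set Γ} {π : Γ →* Multiplicative (Fin k → ℤ)}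

/-- the elements of a box have bounded length -/
theorem exists_len_NB (M : BModel S π) {σ : Type*} [Fintype σ] (F : σ → M.L) (s : ℝ) :
    ∃ D₀ : ℝ, ∀ n ∈ M.NB F s, M.len (M.toG n) ≤ D₀ := by
  obtain ⟨C, hC⟩ := (isCompact_NB M F s).isBounded.exists_norm_le
  have ha : 0 ≤ M.a := zero_le_one.trans M.one_le_a
  refine ⟨M.a * Real.log (2 + max C 0), fun n hn => (M.len_toG_le n).trans ?_⟩
  refine mul_le_mul_of_nonneg_left (Real.log_le_log ?_ ?_) ha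
  · have := norm_nonneg n
    linarith
  · have := (hC n hn).trans (le_max_left C 0)
    linarith

/-- the weights of an element of `C` of length `≤ R` are bounded -/
theorem exists_wt_le (M : BModel S π) (R' : ℝ) : ∃ w₀ : ℝ, 0 ≤ w₀ ∧ ∀ c : M.G, M.len c ≤ R' →
    ∀ i, |M.wt i (M.h c)| ≤ w₀ := by
  have ha : 0 ≤ M.a := zero_le_one.trans M.one_le_a
  refine ⟨∑ i, (∑ j, |M.wt i (Pi.single j 1)|) * (M.a * |R'|), by positivity,
    fun c hc i => ?_⟩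
  have hsum : M.wt i (M.h c) = ∑ j, M.h c j * M.wt i (Pi.single j 1) := by
    have h1 : M.h c = ∑ j, M.h c j • (Pi.single j 1 : Fin k → ℝ) := by
      ext l
      simp [Finset.sum_apply, Pi.single_apply]
    conv_lhs => rw [h1]
    rw [map_sum]
    exact Finset.sum_congr rfl fun j _ => by rw [map_smul, smul_eq_mul]
  have h2 : |M.wt i (M.h c)| ≤ (∑ j, |M.wt i (Pi.single j 1)|) * (M.a * |R'|) := by
    rw [hsum, Finset.sum_mul]
    refine (Finset.abs_sum_le_sum_abs _ _).trans (Finset.sum_le_sum fun j _ => ?_)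
    rw [abs_mul, mul_comm]
    refine mul_le_mul_of_nonneg_left ?_ (abs_nonneg _)
    refine (M.h_le c j).trans (mul_le_mul_of_nonneg_left ?_ ha)
    exact hc.trans (le_abs_self _)
  refine h2.trans ?_
  exact Finset.single_le_sum (f := fun i => (∑ j, |M.wt i (Pi.single j 1)|) * (M.a * |R'|))
    (fun i _ => by positivity) (Finset.mem_univ i)

theorem exists_end_geo {M : BModel S π} (κ : GC) (hκ : κ.Ok M M.gen) (hs : Gen.Spans M)
    (R R' T : ℝ) (hR : R' ≤ R) (hT : 0 ≤ T) : ∃ (P₀ : ℝ) (D₀ : ℕ), 1 ≤ P₀ ∧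
    ∀ {ρ : Type} (ray : M.gen → ρ) (x : ρ → M.G) (N : ℕ) (μ₁ μ₂ : ℝ), 1 ≤ N →
    LegB ray x N R μ₁ μ₂ → ∀ (Q : ℕ) (m₁ m₂ m₃ : ρ → ℕ) (J : ℕ) (t : ℝ), 0 ≤ t → 1 ≤ Q → J ≤ Q →
    (∀ r, m₁ r ≤ Q) → (∀ r, m₂ r ≤ Q) → (∀ r, m₃ r ≤ Q) →
    (∀ r, J * μ₂ + t ≤ ((m₂ r : ℝ) - m₁ r) * μ₁) →
    (∀ r, J * μ₂ + t ≤ ((m₃ r : ℝ) - m₂ r) * μ₁) →
    (∀ r, t ≤ (m₃ r : ℝ) * μ₁) → (∀ r, m₁ r ≤ m₂ r) → (∀ r, m₂ r ≤ m₃ r) →
    Tch ray x T m₂ → Tch ray x T m₃ →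
    P₀ * (1 + (Q * N : ℕ)) ^ D₀ * Real.exp (-t) ≤ 1 →
    (∀ c, ((∃ e, ∃ j ≤ J, c = x e ^ j) ∨ (c ∈ M.C ∧ M.len c ≤ R')) →
      (∀ q ∈ M.NB (F ray x m₂) κ.c1, ∀ g ∈ M.NB (F ray x m₁) κ.c1,
        M.conjN c q * g ∈ M.conjN c '' M.NB (F ray x m₂) 1) ∧
      (∀ q ∈ M.NB (F ray x m₂) κ.c1, ∀ g ∈ M.NB (F ray x m₃) κ.c1,
        M.conjN c q * g ∈ M.NB (F ray x m₃) 1)) ∧
    (∀ n : M.NN, ‖n‖ ≤ R' → ∀ g ∈ M.NB (F ray x m₃) κ.c1, n * g ∈ M.NB (F ray x m₃) 1) := by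
  classical
  obtain ⟨A, hA, hcmp⟩ := exists_cmp M R T hT
  obtain ⟨As, hAs, hsmall⟩ := Nb.exists_comp_small M.c M.gen M.gen
  obtain ⟨w₀, hw₀, hwt⟩ := exists_wt_le M R'
  have h1 : ∀ l : Fin M.r, ∃ t : ℝ, 0 ≤ t ∧ M.bas l ∈ Bx M.c (fun i : M.gen => M.bas i) t := by
    intro l
    obtain ⟨t, ht, h⟩ := Nb.exists_mem_Bx (c := M.c) hs (M.nilC.nil _) (M.bas l)
    exact ⟨t, ht, h⟩
  choose tb htb hmem using h1
  set B := ∑ l, tb l with hB
  have hB0 : 0 ≤ B := Finset.sum_nonneg fun l _ => htb l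
  have hc1 := hκ.c1_pos
  have hc1' := hκ.c1_le
  set X : ℝ := 1 + As + As * (|R'| * B) with hX
  have hX1 : 1 ≤ X := by
    have : 0 ≤ As * (|R'| * B) := by positivity
    linarith
  refine ⟨A * Real.exp w₀ * X / κ.c1, M.d, ?_, ?_⟩
  · rw [le_div_iff₀ hc1, one_mul]
    have h2 : 1 ≤ Real.exp w₀ := Real.one_le_exp hw₀
    have h3 : 1 ≤ A * Real.exp w₀ := by nlinarith
    nlinarith
  intro ρ ray x N μ₁ μ₂ hN hL Q m₁ m₂ m₃ J t ht hQ hJQ hm₁ hm₂ hm₃ hd1 hd2 hd3 h12 h23 T2 T3 hP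
  have hμ := hL.pos
  have hμ2 : 0 < μ₂ := hμ.trans_le hL.le
  set V : ℝ := (1 + (Q * N : ℕ)) ^ M.d with hV
  have hV1 : 1 ≤ V := one_le_pow₀ (le_add_of_nonneg_right (Nat.cast_nonneg _))
  have hexp0 : 1 ≤ Real.exp w₀ := Real.one_le_exp hw₀
  -- the factor of the comparison
  set f : ℝ := A * V * Real.exp w₀ * Real.exp (-t) with hf
  have hf0 : 0 ≤ f := by positivity
  have hkey : f * X ≤ κ.c1 := by
    have h2 : A * Real.exp w₀ * X / κ.c1 * V * Real.exp (-t) * κ.c1 = f * X := by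
      rw [hf]; field_simp
    rw [← h2]
    calc A * Real.exp w₀ * X / κ.c1 * V * Real.exp (-t) * κ.c1 ≤ 1 * κ.c1 :=
          mul_le_mul_of_nonneg_right hP hc1.le
      _ = κ.c1 := one_mul _
  have hf1 : f ≤ 1 := by nlinarith
  have hAsf : As * f ≤ κ.c1 := by
    have h3 : 0 ≤ As * (|R'| * B) := by positivity
    have h2 : f * As ≤ f * X := mul_le_mul_of_nonneg_left (by linarith) hf0
    linarith [mul_comm As f]
  -- admissible words
  have adm : ∀ c, ((∃ e, ∃ j ≤ J, c = x e ^ j) ∨ (c ∈ M.C ∧ M.len c ≤ R')) →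
      c ∈ Clr M R (Q * N) ∧ ∀ i : M.gen, |M.wt i (M.h c)| ≤ J * μ₂ + w₀ := by
    rintro c (⟨e, j, hj, rfl⟩ | ⟨hcC, hcl⟩)
    · refine ⟨Clr_mono (Clr_pow (hL.one e) j) (Nat.mul_le_mul_right _ (hj.trans hJQ)),
        fun i => ?_⟩
      rw [HoleGeo.h_pow, map_smul, smul_eq_mul, abs_mul, abs_of_nonneg (Nat.cast_nonneg j)]
      have h2 := hL.upper i e
      have h3 : (j : ℝ) ≤ J := by exact_mod_cast hj
      have h4 : (j : ℝ) * |M.wt i (M.h (x e))| ≤ J * μ₂ :=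
        mul_le_mul h3 h2 (abs_nonneg _) (Nat.cast_nonneg _)
      linarith
    · refine ⟨⟨[c], ?_, by simp, ?_⟩, fun i => ?_⟩
      · simp only [List.length_singleton]
        exact Nat.one_le_iff_ne_zero.2 (by positivity)
      · intro s hs'
        rw [List.mem_singleton.1 hs']
        exact ⟨hcC, hcl.trans hR⟩
      · have h2 := hwt c hcl i
        have h3 : (0:ℝ) ≤ J * μ₂ := by positivity
        linarith
  have cmp : ∀ (m m' : ρ → ℕ), (∀ r, m r ≤ Q) → (∀ r, m' r ≤ Q) → (∀ r, m r ≤ m' r) →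
      Tch ray x T m' → (∀ r, J * μ₂ + t ≤ ((m' r : ℝ) - m r) * μ₁) → ∀ c ∈ Clr M R (Q * N),
      (∀ i : M.gen, |M.wt i (M.h c)| ≤ J * μ₂ + w₀) → ∀ i : M.gen,
      M.Ad c (F ray x m i) ∈ Bx M.c (F ray x m') f := by
    intro m m' hm hm' hmm htt hd c hc hcw i
    refine Bx_mono ?_ (hcmp ray x N μ₁ μ₂ hL Q m m' hm hm' htt c hc i)
    have h2 : M.wt i (M.h c) + ((m (ray i) : ℝ) - m' (ray i)) * M.wt i (M.h (x (ray i))) ≤
        w₀ + -t := by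
      have h3 := (le_abs_self _).trans (hcw i)
      have h4 := hd (ray i)
      have h5 := hL.lower i
      have h6 : (0:ℝ) ≤ (m' (ray i) : ℝ) - m (ray i) := by
        have := hmm (ray i)
        have h7 : (m (ray i) : ℝ) ≤ m' (ray i) := by exact_mod_cast this
        linarith
      have h7 := mul_le_mul_of_nonneg_left h5 h6
      have h8 : ((m (ray i) : ℝ) - m' (ray i)) * M.wt i (M.h (x (ray i))) =
          -(((m' (ray i) : ℝ) - m (ray i)) * M.wt i (M.h (x (ray i)))) := by ring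
      rw [h8]
      linarith
    calc A * (1 + ((Q * N : ℕ) : ℝ)) ^ M.d * Real.exp (M.wt i (M.h c) +
          ((m (ray i) : ℝ) - m' (ray i)) * M.wt i (M.h (x (ray i))))
        ≤ A * (1 + ((Q * N : ℕ) : ℝ)) ^ M.d * Real.exp (w₀ + -t) := by gcongr
      _ = f := by rw [hf, hV, Real.exp_add]; ring
  have sub : ∀ (m m' : ρ → ℕ), (∀ r, m r ≤ Q) → (∀ r, m' r ≤ Q) → (∀ r, m r ≤ m' r) →
      Tch ray x T m' → (∀ r, J * μ₂ + t ≤ ((m' r : ℝ) - m r) * μ₁) → ∀ c ∈ Clr M R (Q * N),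
      (∀ i : M.gen, |M.wt i (M.h c)| ≤ J * μ₂ + w₀) → ∀ q ∈ M.NB (F ray x m) κ.c1,
      M.conjN c q ∈ M.NB (F ray x m') κ.c1 := by
    intro m m' hm hm' hmm htt hd c hc hcw q hq
    rw [mem_NB, conjN_apply, LinearEquiv.apply_symm_apply]
    have h2 : M.Ad c (M.E q) ∈ Bx M.c (fun i => M.Ad c (F ray x m i)) κ.c1 :=
      (mem_Bx_Ad c _).2 hq
    refine Bx_mono ?_ (hsmall (F ray x m') (fun i => M.Ad c (F ray x m i)) (M.nilC.nil _) f hf0
      hf1 (cmp m m' hm hm' hmm htt hd c hc hcw) κ.c1 hc1.le h2)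
    calc As * (f * κ.c1) = (As * f) * κ.c1 := by ring
      _ ≤ κ.c1 * κ.c1 := mul_le_mul_of_nonneg_right hAsf hc1.le
      _ ≤ κ.c1 * 1 := mul_le_mul_of_nonneg_left hc1' hc1.le
      _ = κ.c1 := mul_one _
  refine ⟨fun c hc => ⟨?_, ?_⟩, ?_⟩
  · intro q hq g hg
    obtain ⟨a1, a2⟩ := adm c hc
    have hc' : c⁻¹ ∈ Clr M R (Q * N) := Clr_inv M a1
    have hw' : ∀ i : M.gen, |M.wt i (M.h c⁻¹)| ≤ J * μ₂ + w₀ := by
      intro i
      rw [M.h_inv, map_neg, abs_neg]; exact a2 i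
    have h2 := sub m₁ m₂ hm₁ hm₂ h12 T2 hd1 c⁻¹ hc' hw' g hg
    refine ⟨q * M.conjN c⁻¹ g, hκ.mul _ _ hq _ h2, ?_⟩
    rw [map_mul, ← conjN_mul, mul_inv_cancel, conjN_one]
  · intro q hq g hg
    obtain ⟨a1, a2⟩ := adm c hc
    exact hκ.mul _ _ (sub m₂ m₃ hm₂ hm₃ h23 T3 hd2 c a1 a2 q hq) _ hg
  · intro n hn g hg
    refine hκ.mul _ _ ?_ _ hg
    rw [mem_NB]
    have h2 : M.E n ∈ Bx M.c (fun i : M.gen => M.bas i) (|R'| * B) := by
      rw [E_eq_sum, hB, Finset.mul_sum]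
      refine Bx_sum _ _ _ fun l _ => Bx_mono ?_ (Bx_smul (hmem l) (n l))
      refine mul_le_mul_of_nonneg_right ?_ (htb l)
      have h3 : ‖n l‖ ≤ ‖n‖ := norm_le_pi_norm (f := (n : Fin M.r → ℝ)) l
      rw [Real.norm_eq_abs] at h3
      exact h3.trans (hn.trans (le_abs_self _))
    have h3 : ∀ i : M.gen, M.bas i ∈ Bx M.c (F ray x m₃) f := by
      intro i
      have h4 := hcmp ray x N μ₁ μ₂ hL Q (fun _ => 0) m₃ (fun _ => Nat.zero_le _) hm₃ T3 1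
        (Clr_mono (Clr_one R) (Nat.zero_le _)) i
      have h5 : M.Ad 1 (F ray x (fun _ => 0) i) = M.bas i := by
        change M.Ad 1 (M.Ad (x (ray i) ^ 0) (M.bas i)) = M.bas i
        rw [pow_zero, map_one]; rfl
      rw [h5] at h4
      refine Bx_mono ?_ h4
      rw [M.h_one, map_zero, zero_add]
      have h6 : ((0 : ℕ) : ℝ) - m₃ (ray i) = -(m₃ (ray i) : ℝ) := by push_cast; ring
      rw [h6]
      have h7 : -(m₃ (ray i) : ℝ) * M.wt i (M.h (x (ray i))) ≤ w₀ + -t := by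
        have h8 := hL.lower i
        have h9 := hd3 (ray i)
        have h10 : (0:ℝ) ≤ m₃ (ray i) := Nat.cast_nonneg _
        have h11 := mul_le_mul_of_nonneg_left h8 h10
        linarith
      calc A * (1 + ((Q * N : ℕ) : ℝ)) ^ M.d *
            Real.exp (-(m₃ (ray i) : ℝ) * M.wt i (M.h (x (ray i))))
          ≤ A * (1 + ((Q * N : ℕ) : ℝ)) ^ M.d * Real.exp (w₀ + -t) := by gcongr
        _ = f := by rw [hf, hV, Real.exp_add]; ring
    refine Bx_mono ?_ (hsmall (F ray x m₃) (fun i : M.gen => M.bas i) (M.nilC.nil _) f hf0 hf1 h3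
      (|R'| * B) (by positivity) h2)
    calc As * (f * (|R'| * B)) = f * (As * (|R'| * B)) := by ring
      _ ≤ f * X := mul_le_mul_of_nonneg_left (by linarith) hf0
      _ ≤ κ.c1 := hkey

end Crest.Agent.R182.HoleOne
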