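/-
R182, module HOLE (helper860): dictionary between the unit legs / shapes of ELINST and the tuples
of HoleGeo.
-/
import Mathlib
import Crest.Agent.R182.HoleSets
import Crest.Agent.R182.HoleLL
import Crest.Agent.R182.ElTouch
import Crest.Agent.R182.GenInst

set_option autoImplicit false
set_option linter.unusedSectionVars false

open MeasureTheory Set
open scoped ENNReal Pointwise RealInnerProductSpace

namespace Crest.Agent.R182.HoleOne

open Crest.Agent.R182.Core Crest.Agent.R182.Core.BModel Crest.Agent.R182.Nb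
  Crest.Agent.R182.HoleNil Crest.Agent.R182.HoleGeo Crest.Agent.R182.ElI

variable {Γ : Type*} [Group Γ] {k : ℕ} {S : Set Γ} {π : Γ →* Multiplicative (Fin k → ℤ)}
  {M : BModel S π}

section

variable {E : Type*} [NormedAddCommGroup E] [InnerProductSpace ℝ E]

/-- the families of the shapes in the two notations -/
theorem fm_eq (G : Geo M E) (u : G.R → M.G) {τ : ℝ} (hτ : 0 < τ) (m : G.R → ℕ) :
    fm G u τ (fun r => m r * τ) = Gen.fam M G.ray fun r => u r ^ m r := by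
  unfold fm legs leg
  congr 1
  funext r
  rw [num_mul hτ]

/-- the bounds of unit legs -/
theorem wt_unit (G : Geo M E) {RC Cb ε₁ τ Sc : ℝ} (un : ElI.Unit G RC Cb ε₁ τ Sc) (i : M.gen)
    (r : G.R) : |M.wt i (M.h (un.u r)) - G.RS.lam i * (⟪(G.ray i : E), (r : E)⟫ * (τ * Sc))| ≤
      G.RS.lam i * (ε₁ * (τ * Sc)) := by
  change |wg M i (M.h (un.u r)) - _| ≤ _
  rw [G.wg_ray]
  have e1 : G.RS.lam i * ⟪(G.ray i : E), G.T (M.h (un.u r))⟫ -
      G.RS.lam i * (⟪(G.ray i : E), (r : E)⟫ * (τ * Sc)) =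
      G.RS.lam i * ⟪(G.ray i : E), G.T (M.h (un.u r)) - (τ * Sc) • (r : E)⟫ := by
    rw [inner_sub_right, inner_smul_right]; ring
  rw [e1, abs_mul, abs_of_pos (G.lam_pos i)]
  refine mul_le_mul_of_nonneg_left ?_ (G.lam_pos i).le
  refine (abs_real_inner_le_norm _ _).trans ?_
  rw [G.norm_ray, one_mul]
  exact un.acc r

end

section

variable {E : Type} [NormedAddCommGroup E] [InnerProductSpace ℝ E]

/-- unit legs satisfy `LegB` -/
theorem legB_of_unit (G : Geo M E) {l0 l1 : ℝ} (hl0 : 0 < l0)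
    (hl : ∀ i, l0 ≤ G.RS.lam i ∧ G.RS.lam i ≤ l1) (hl1 : l0 ≤ l1)
    {RC Cb ε₁ τ Sc : ℝ} (un : ElI.Unit G RC Cb ε₁ τ Sc) (hε0 : 0 ≤ ε₁) (hε : ε₁ ≤ 1 / 2)
    (hτ : 0 < τ * Sc) {N : ℕ} (hN : Cb * (τ * Sc) ≤ N) :
    LegB G.ray un.u N RC (l0 * ((1 - ε₁) * (τ * Sc))) (l1 * (2 * (τ * Sc))) := by
  refine ⟨?_, ?_, ?_, ?_, ?_⟩
  · have : 0 < 1 - ε₁ := by linarith
    positivity
  · have h1 : 0 < l1 := hl0.trans_le hl1
    calc l0 * ((1 - ε₁) * (τ * Sc)) ≤ l1 * ((1 - ε₁) * (τ * Sc)) := by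
          refine mul_le_mul_of_nonneg_right hl1 ?_
          have : 0 < 1 - ε₁ := by linarith
          positivity
      _ ≤ l1 * (2 * (τ * Sc)) := by
          refine mul_le_mul_of_nonneg_left ?_ h1.le
          exact mul_le_mul_of_nonneg_right (by linarith) hτ.le
  · intro i
    have h1 := abs_le.1 (wt_unit G un i (G.ray i))
    rw [real_inner_self_eq_norm_sq, G.norm_ray, one_pow, one_mul] at h1
    have h2 : G.RS.lam i * ((1 - ε₁) * (τ * Sc)) ≤ M.wt i (M.h (un.u (G.ray i))) := by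
      linarith [h1.1]
    refine le_trans (mul_le_mul_of_nonneg_right (hl i).1 ?_) h2
    have : 0 < 1 - ε₁ := by linarith
    positivity
  · intro i r
    have h1 := wt_unit G un i r
    have h2 : |G.RS.lam i * (⟪(G.ray i : E), (r : E)⟫ * (τ * Sc))| ≤ G.RS.lam i * (τ * Sc) := by
      rw [abs_mul, abs_of_pos (G.lam_pos i), abs_mul, abs_of_pos hτ]
      refine mul_le_mul_of_nonneg_left ?_ (G.lam_pos i).le
      have h3 := abs_real_inner_le_norm (G.ray i : E) (r : E)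
      rw [G.norm_ray, G.norm_ray, one_mul] at h3
      nlinarith
    have h3 : |M.wt i (M.h (un.u r))| ≤ G.RS.lam i * (ε₁ * (τ * Sc)) + G.RS.lam i * (τ * Sc) := by
      have h4 := abs_sub_abs_le_abs_sub (M.wt i (M.h (un.u r)))
        (G.RS.lam i * (⟪(G.ray i : E), (r : E)⟫ * (τ * Sc)))
      linarith
    refine h3.trans ?_
    have h4 : G.RS.lam i * (ε₁ * (τ * Sc)) + G.RS.lam i * (τ * Sc) ≤
        G.RS.lam i * (2 * (τ * Sc)) := by
      have := (G.lam_pos i).le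
      have h5 : ε₁ * (τ * Sc) + τ * Sc ≤ 2 * (τ * Sc) := by nlinarith
      nlinarith
    exact h4.trans (mul_le_mul_of_nonneg_right (hl i).2 (by positivity))
  · intro r
    refine ⟨un.w r, ?_, un.w_prod r, un.w_mem r⟩
    exact_mod_cast (un.w_len r).trans hN

/-- touching of all near-round shapes -/
theorem exists_tch (G : Geo M E) {γ : ℝ} (hγ : Gap G γ) (RC Cb : ℝ) : ∃ T : ℝ, 0 ≤ T ∧
    Ev G RC Cb fun _ τ u => ∀ ω, ω ≤ γ / 16 → ∀ m : G.R → ℕ, El.NR ω (fun r => m r * τ) →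
      Tch G.ray u T m := by
  obtain ⟨T, hT, h⟩ := exists_touchAll (Gen.spans M) 1 zero_le_one
  refine ⟨T, hT, (Ev.and (ev_geo G hγ one_pos 0 RC Cb) (Ev.tau one_pos)).mono ?_⟩
  intro Sc τ u hτ hSc hP ω hω m hm
  obtain ⟨h1, -⟩ := hP.1 ω hω (fun r => m r * τ) ⟨⟨m, fun _ => rfl⟩, hm⟩
  have h2 := h G.ray _ h1
  have h3 : legs u τ (fun r => (m r : ℝ) * τ) = fun r => u r ^ m r := by
    funext r
    unfold legs leg
    rw [num_mul hτ]
  rw [h3] at h2
  exact h2

end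

end Crest.Agent.R182.HoleOne
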