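/-
R182 (helper278): pieces of the box theorem in powers of unit legs.
-/
import Mathlib
import Crest.Agent.R182.BoxStar
import Crest.Agent.R182.BoxRaw
import Crest.Agent.R182.BoxUnit
import Crest.Agent.R182.HoleDict
import Crest.Agent.R182.ElGeo

set_option autoImplicit false
set_option linter.unusedSectionVars false

open MeasureTheory List
open scoped RealInnerProductSpace

namespace Crest.Agent.R182.Gen

open Crest.Agent.R182.Nb Crest.Agent.R182.Core Crest.Agent.R182.Cap Crest.Agent.R182.Star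
  Crest.Agent.R182.QI Crest.Agent.R182.Erg Crest.Agent.R182.OneScale Crest.Agent.R182.Conv
  Crest.Agent.R182.Facet

section A

variable {Γ : Type*} [Group Γ] [Countable Γ] {k : ℕ} {S : Set Γ}
  {π : Γ →* Multiplicative (Fin k → ℤ)}
  {M : BModel S π} {E : Type} [NormedAddCommGroup E] [InnerProductSpace ℝ E]
  {T : (Fin k → ℝ) ≃ₗ[ℝ] E} {V : Set M.NN} {RC : ℝ} {P : BModel.CapPar M T V RC}
  {R : RSys (GI M) E} {Tt : Set M.G} {r0 : ℕ} {Cb eps : ℝ}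

/-- tuples of powers of unit legs are near tuples -/
theorem nearTup_legs (hT : ∀ s ∈ Tt, s ∈ (M.toCap P).Cl r0) (𝓛 : Legs (M.toCap P) R Tt Cb eps)
    (heps : 0 ≤ eps) {N : ℕ} {τ : ℝ} (hτ : 0 ≤ τ) {m : R.Eb → ℕ} {a q μ Cg : ℝ}
    (ha : ∀ e, m e * τ ≤ a) (hq : ∀ e, (m e : ℝ) ≤ q) (hCg : r0 * (|Cb| * a) ≤ Cg)
    (hμ : a * eps * N + q * 𝓛.mX ≤ μ * N) :
    NearTup M T R RC Cg μ N (fun e => m e * τ) (fun e => 𝓛.u N τ e ^ m e) where
  word e := by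
    obtain ⟨j, hj, hmem⟩ := 𝓛.u_pow_mem (N := N) hτ e (m e)
    refine CW_of_ClSet (Bl_subset_Cl _ hT hmem) le_rfl ?_
    have h1 : (j : ℝ) ≤ |Cb| * a * N := hj.trans (by
      gcongr
      exact ha e)
    have h2 : (j : ℝ) * r0 ≤ |Cb| * a * N * r0 := by gcongr
    have h3 : r0 * (|Cb| * a) * N ≤ Cg * N := by gcongr
    push_cast
    linarith
  near e := by
    have h1 := 𝓛.hgt_u (N := N) hτ heps e (m e) (R.unit _ e.2)
    have h2 : T (M.h (𝓛.u N τ e ^ m e)) = (M.toCap P).hgt (𝓛.u N τ e ^ m e) := rfl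
    have e1 : (m e : ℝ) * τ * N = m e * (τ * N) := by ring
    rw [h2, e1]
    refine h1.trans ?_
    have h3 := 𝓛.mE_le e
    have h4 := 𝓛.mX_nonneg
    have h5 := ha e
    have h6 := hq e
    calc (m e : ℝ) * (eps * (τ * N) + 𝓛.mE e) = (m e * τ) * (eps * N) + m e * 𝓛.mE e := by ring
      _ ≤ a * (eps * N) + q * 𝓛.mX := by
        have h7 : 0 ≤ eps * N := by positivity
        have h8 : (m e : ℝ) * 𝓛.mE e ≤ q * 𝓛.mX :=
          mul_le_mul h6 h3 (𝓛.mE_pos e).le ((Nat.cast_nonneg _).trans h6)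
        have h9 := mul_le_mul_of_nonneg_right h5 h7
        linarith
      _ ≤ μ * N := by linarith

end A

end Crest.Agent.R182.Gen

namespace Crest.Agent.R182.HoleOne

open Crest.GroupTheory Crest.Geometry Crest.Agent.R182.QI Crest.Agent.R182.Core
  Crest.Agent.R182.Core.BModel Crest.Agent.R182.Nb Crest.Agent.R182.HoleNil
  Crest.Agent.R182.OneScale Crest.Agent.R182.ElI Crest.Agent.R182.Star Crest.Agent.R182.Cap
  Crest.Agent.R182.Gen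

section B

variable {Γ : Type*} [Group Γ] [Countable Γ] {k : ℕ} {S : Set Γ}
  {π : Γ →* Multiplicative (Fin k → ℤ)}
  {M : BModel S π} {E : Type} [NormedAddCommGroup E] [InnerProductSpace ℝ E]

theorem hRS_of (G : Geo M E) {V : Set M.NN} {RC : ℝ} (P : BModel.CapPar M G.T V RC) :
    (M.toCap P).S = G.RS.toGenSys := G.hRS.symm

theorem rayE_eq (G : Geo M E) {V : Set M.NN} {RC : ℝ} (P : BModel.CapPar M G.T V RC) :
    rayE (hRS_of G P) = G.ray := rfl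

/-- the unit legs as a `Unit` -/
theorem exists_unit_legs (G : Geo M E) {V : Set M.NN} {RC : ℝ} {P : BModel.CapPar M G.T V RC}
    {Tt : Set M.G} {r0 : ℕ} {Cb eps : ℝ} (hT : ∀ s ∈ Tt, s ∈ (M.toCap P).Cl r0)
    (𝓛 : Legs (M.toCap P) G.RS Tt Cb eps) (heps : 0 ≤ eps) {N : ℕ} {τ e0 : ℝ} (hτ : 0 ≤ τ)
    (he : eps * (τ * N) + 𝓛.mX ≤ e0 * (τ * N)) :
    ∃ un : ElI.Unit G RC (r0 * Cb) e0 τ N, ∀ e, un.u e = 𝓛.u N τ e := by
  have h : ∀ e : G.R, ∃ l : List M.G, l.prod = 𝓛.u N τ e ∧ (∀ s ∈ l, s ∈ M.C ∧ M.len s ≤ RC) ∧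
      (l.length : ℝ) ≤ r0 * Cb * (τ * N) := by
    intro e
    obtain ⟨l, h1, h2, h3⟩ := Bl_subset_Cl _ hT (𝓛.u_mem N τ e)
    refine ⟨l, h3.symm, h2, ?_⟩
    have h4 := 𝓛.p_rb_le (N := N) hτ e
    have h5 : (l.length : ℝ) ≤ ((𝓛.p N τ e * 𝓛.rb e : ℕ) : ℝ) * r0 := by exact_mod_cast h1
    calc (l.length : ℝ) ≤ ((𝓛.p N τ e * 𝓛.rb e : ℕ) : ℝ) * r0 := h5
      _ ≤ Cb * (τ * N) * r0 := by gcongr
      _ = _ := by ring
  choose l hl1 hl2 hl3 using h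
  refine ⟨⟨fun e => 𝓛.u N τ e, l, hl1, hl2, hl3, fun e => ?_⟩, fun _ => rfl⟩
  have h1 := 𝓛.hgt_u (N := N) hτ heps e 1 (G.RS.unit _ e.2)
  rw [pow_one, Nat.cast_one, one_mul, one_mul] at h1
  have h2 := 𝓛.mE_le e
  exact h1.trans (by linarith)

/-- the shapes are bounded -/
theorem exists_bound_Om [FiniteDimensional ℝ E] (G : Geo M E) : ∃ D : ℝ, 0 ≤ D ∧
    ∀ X : G.R → ℝ, (∀ e, |X e - 1| ≤ 1 / 2) → ∀ v ∈ Om G.RS X, ‖v‖ ≤ D := by
  obtain ⟨F, hF⟩ := exists_frame G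
  obtain ⟨B, hB, h⟩ := F.exists_norm_bound'
  refine ⟨B * 2, by positivity, fun X hX v hv => h v 2 (by norm_num) fun r => ?_⟩
  rw [hF]
  have h1 := hv r
  have h2 := (abs_le.1 (hX r)).2
  linarith

theorem hw_append (G : Geo M E) (τ : ℝ) (w w' : List (G.R × ℕ)) :
    hw G τ (w ++ w') = hw G τ w + hw G τ w' := by
  simp [hw]

/-- the times of a word with prefixes in a bounded set are bounded -/
theorem time_le (G : Geo M E) {τ D : ℝ} (hτ : 0 ≤ τ) (w : List (G.R × ℕ))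
    (h : ∀ w', w' <+: w → ‖hw G τ w'‖ ≤ D) : ∀ p ∈ w, (p.2 : ℝ) * τ ≤ 2 * D := by
  intro p hp
  obtain ⟨w1, w2, rfl⟩ := List.append_of_mem hp
  have h1 := h w1 (List.prefix_append _ _)
  have h2 := h (w1 ++ [p]) (by
    rw [show w1 ++ p :: w2 = (w1 ++ [p]) ++ w2 by simp]
    exact List.prefix_append _ _)
  rw [hw_append, hw_cons, hw_nil, add_zero] at h2
  have h3 : ‖((p.2 : ℝ) * τ) • (p.1 : E)‖ = p.2 * τ := by
    rw [norm_smul, G.norm_ray, mul_one, Real.norm_of_nonneg (by positivity)]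
  have h4 : ((p.2 : ℝ) * τ) • (p.1 : E) = (hw G τ w1 + ((p.2 : ℝ) * τ) • (p.1 : E)) - hw G τ w1 := by
    abel
  have h5 := norm_sub_le (hw G τ w1 + ((p.2 : ℝ) * τ) • (p.1 : E)) (hw G τ w1)
  rw [← h4, h3] at h5
  linarith

theorem hw_eq_tsum (G : Geo M E) (τ : ℝ) (w : List (G.R × ℕ)) :
    hw G τ w = tsum (tw τ w) := (tsum_tw τ w).symm

/-- from the law for timed words to the law in powers of unit legs -/
theorem rawLaw_of_timed (G : Geo M E) {V : Set M.NN} {RC : ℝ} {P : BModel.CapPar M G.T V RC}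
    {Tt : Set M.G} {Cb eps : ℝ} (𝓛 : Legs (M.toCap P) G.RS Tt Cb eps)
    {N : ℕ} {τ : ℝ} (hτ : 0 < τ) {D tW η η' δ : ℝ} {kw : ℕ} (hkw : 2 ≤ kw) (htW : 2 * D ≤ tW)
    (hη' : η' + δ ≤ η) (hδ : 0 ≤ δ) {Ψ : Γ → Γ} {y : M.G}
    (hunit : ∀ (n : M.NN) (w : List (G.R × ℕ)), w.length ≤ 2 → (∀ p ∈ w, (p.2 : ℝ) * τ ≤ tW) →
      ‖GF (M.toCap P) N (M.ext Ψ) y n (𝓛.tpos N (tw τ w)) -
        GF (M.toCap P) N (M.ext Ψ) y n (𝓛.upos N τ w)‖ ≤ δ)
    {m : G.R → ℕ} (hD : ∀ v ∈ Om G.RS (fun e : G.R => (m e : ℝ) * τ), ‖v‖ ≤ D)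
    {L : E →ₗ[ℝ] E} {θ : E}
    (hlaw : volume {n : M.NN | n ∈ box M (fam M G.ray fun e => 𝓛.u N τ e ^ m e) 1 ∧
      ¬ ∀ w : List (G.R × ℝ), w.length ≤ kw → (∀ p ∈ w, 0 ≤ p.2 ∧ p.2 ≤ tW) →
        (∀ w', w' <+: w → tsum w' ∈ Om G.RS (fun e : G.R => (m e : ℝ) * τ)) →
        ‖GF (M.toCap P) N (M.ext Ψ) y n (𝓛.tpos N w) - θ - L (tsum w)‖ ≤ η'} ≤
      ENNReal.ofReal η' * volume (box M (fam M G.ray fun e => 𝓛.u N τ e ^ m e) 1))
    {u : G.R → M.G} (hu : ∀ e, u e = 𝓛.u N τ e) :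
    RawLaw G Ψ N τ u η (fun e => m e * τ) y L θ := by
  have hu' : u = fun e => 𝓛.u N τ e := funext hu
  subst hu'
  unfold RawLaw
  rw [fm_eq G _ hτ m]
  refine (measure_mono ?_).trans (hlaw.trans (mul_le_mul'
    (ENNReal.ofReal_le_ofReal (by linarith)) le_rfl))
  rintro n ⟨hn, hbad⟩
  refine ⟨hn, fun hall => hbad fun w hwl hpre => ?_⟩
  have hin : ∀ w', w' <+: w → hw G τ w' ∈ Om G.RS (fun e : G.R => (m e : ℝ) * τ) :=
    fun w' hw' e => hpre w' hw' e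
  have htime : ∀ p ∈ w, (p.2 : ℝ) * τ ≤ tW := fun p hp =>
    (time_le G hτ.le w (fun w' hw' => hD _ (hin w' hw')) p hp).trans htW
  have h1 := hall (tw τ w) (by rw [length_tw]; omega) (by
    intro p hp
    obtain ⟨q, hq, rfl⟩ := mem_tw hp
    exact ⟨by positivity, htime q hq⟩) (by
    intro w' hw'
    obtain ⟨w'', hw'', rfl⟩ := prefix_tw hw'
    rw [← hw_eq_tsum]
    exact hin w'' hw'')
  have h2 := hunit n w hwl htime
  rw [norm_sub_rev] at h2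
  have h3 : (N : ℝ)⁻¹ • G.T (fh M Ψ (y * M.toG n * uw (fun e => 𝓛.u N τ e) w)) =
      GF (M.toCap P) N (M.ext Ψ) y n (𝓛.upos N τ w) := rfl
  rw [h3, hw_eq_tsum]
  have h4 : GF (M.toCap P) N (M.ext Ψ) y n (𝓛.upos N τ w) - θ - L (tsum (tw τ w)) =
      (GF (M.toCap P) N (M.ext Ψ) y n (𝓛.upos N τ w) -
        GF (M.toCap P) N (M.ext Ψ) y n (𝓛.tpos N (tw τ w))) +
      (GF (M.toCap P) N (M.ext Ψ) y n (𝓛.tpos N (tw τ w)) - θ - L (tsum (tw τ w))) := by abel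
  rw [h4]
  refine (norm_add_le _ _).trans ?_
  linarith

end B

end Crest.Agent.R182.HoleOne
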