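/-
R182, block BOX (helper480): from the law at most points to one law on the box.
-/
import Mathlib
import Crest.Agent.R182.BoxOne

set_option autoImplicit false
set_option linter.unusedSectionVars false

open MeasureTheory Set
open scoped ENNReal Pointwise Topology

namespace Crest.Agent.R182.Gen

open Crest.Agent.R182.Nb Crest.Agent.R182.Core Crest.Agent.R182.Cap Crest.Agent.R182.Star
  Crest.Agent.R182.Facet

theorem exists_pos_le {α : Type*} (s : Finset α) (f : α → ℝ) (h : ∀ x ∈ s, 0 < f x) :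
    ∃ δ : ℝ, 0 < δ ∧ ∀ x ∈ s, δ ≤ f x := by
  classical
  induction s using Finset.induction_on with
  | empty => exact ⟨1, one_pos, by simp⟩
  | insert a s ha ih =>
    obtain ⟨δ, hδ, h1⟩ := ih fun x hx => h x (Finset.mem_insert_of_mem hx)
    refine ⟨min δ (f a), lt_min hδ (h a (Finset.mem_insert_self _ _)), fun x hx => ?_⟩
    rcases Finset.mem_insert.1 hx with rfl | hx
    · exact min_le_right _ _
    · exact (min_le_left _ _).trans (h1 x hx)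

section boxes

variable {Γ : Type*} [Group Γ] {k : ℕ} {S : Set Γ} {π : Γ →* Multiplicative (Fin k → ℤ)}
  (M : BModel S π)

theorem box_smul_mono {v : M.gen → M.L} {a b : ℝ} (ha : 0 < a) (hab : a ≤ b) :
    box M (fun i => a • v i) 1 ⊆ box M (fun i => b • v i) 1 := by
  intro n hn
  have h1 : 1 ≤ b / a := by rwa [one_le_div ha]
  have h2 := Bx_le_smul h1 zero_le_one hn
  simp only [smul_smul, div_mul_cancel₀ _ ha.ne'] at h2
  exact h2

theorem volume_box_ratio {v : M.gen → M.L} {a b : ℝ} (ha : 0 < a) (hab : a ≤ b) :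
    volume (box M (fun i => b • v i) 1) ≤
      ENNReal.ofReal (((b / a) ^ M.c) ^ M.r) * volume (box M (fun i => a • v i) 1) := by
  have h1 : 1 ≤ b / a := by rwa [one_le_div ha]
  have h2 := volume_box_smul_le M (v := fun i => a • v i) (t := 1) h1
  simp only [smul_smul, div_mul_cancel₀ _ ha.ne'] at h2
  exact h2

end boxes

section near

variable {Γ : Type*} [Group Γ] [Countable Γ] {k : ℕ} {S : Set Γ}
  {π : Γ →* Multiplicative (Fin k → ℤ)}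
  {M : BModel S π} {E : Type} [NormedAddCommGroup E] [InnerProductSpace ℝ E]
  {T : (Fin k → ℝ) ≃ₗ[ℝ] E} {V : Set M.NN} {RC : ℝ} {P : BModel.CapPar M T V RC}
  {R : RSys (GI M) E} {Tt : Set M.G} {r0 : ℕ}

theorem cw_of_Bl (hT : ∀ s ∈ Tt, s ∈ (M.toCap P).Cl r0) {m : ℕ} {g : M.G} (hg : g ∈ Bl Tt m)
    {Rl Pn : ℝ} (hRl : RC ≤ Rl) (h : (m : ℝ) * r0 + 1 ≤ Pn) : CW M Rl Pn g := by
  obtain ⟨l, hl, hlC, rfl⟩ := Bl_subset_Cl (M.toCap P) hT hg
  refine ⟨l, rfl, fun s hs => ⟨(hlC s hs).1, (hlC s hs).2.trans hRl⟩, ?_⟩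
  have h1 : (l.length : ℝ) ≤ m * r0 := by exact_mod_cast hl
  linarith

/-- tuples close to the legs are near tuples -/
theorem exists_nearTup (hT : ∀ s ∈ Tt, s ∈ (M.toCap P).Cl r0) (Cb : ℝ) {μ : ℝ} (hμ : 0 < μ) :
    ∃ κ0 : ℝ, 0 < κ0 ∧ ∀ κ : ℝ, 0 ≤ κ → κ ≤ κ0 → κ ≤ 1 → ∀ eps : ℝ, 0 ≤ eps → eps ≤ μ / 8 →
      ∀ 𝓛 : Legs (M.toCap P) R Tt Cb eps, ∃ N0 : ℕ, 1 ≤ N0 ∧ ∀ N ≥ N0, ∀ X : R.Eb → ℝ,
      (∀ e, |X e - 1| ≤ 1 / 2) → ∀ g : R.Eb → M.G,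
      (∀ e, ∃ m : ℕ, (m : ℝ) ≤ κ * N ∧ (𝓛.u N (X e) e)⁻¹ * g e ∈ Bl Tt m) →
      ∀ Rl : ℝ, RC ≤ Rl → ∀ Cg : ℝ, (2 * |Cb| + 1) * r0 ≤ Cg → NearTup M T R Rl Cg μ N X g := by
  have hC0 := (M.toCap P).C0_pos
  set c : ℝ := (M.toCap P).C0 * ((M.toCap P).C0 * r0) with hc
  have hc0 : 0 ≤ c := by positivity
  refine ⟨μ / (4 * (c + 1)), by positivity, fun κ hκ hκ0 hκ1 eps heps hepsμ 𝓛 => ?_⟩
  obtain ⟨N0, hN01, hN0⟩ := exists_N_inv (C := 𝓛.mX) (δ := μ / 4) (by positivity)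
  refine ⟨N0, hN01, fun N hN X hX g hg Rl hRl Cg hCg => ?_⟩
  have hN1 : (1 : ℝ) ≤ N := by exact_mod_cast hN01.trans hN
  have hNp : (0 : ℝ) < N := by linarith
  have hX0 : ∀ e, 0 ≤ X e := fun e => by have := (abs_le.1 (hX e)).1; linarith
  have hX2 : ∀ e, X e ≤ 2 := fun e => by have := (abs_le.1 (hX e)).2; linarith
  refine ⟨fun e => ?_, fun e => ?_⟩
  · obtain ⟨m, hm, hz⟩ := hg e
    obtain ⟨m', hm', hu⟩ := 𝓛.u_pow_mem (N := N) (hX0 e) e 1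
    rw [pow_one] at hu
    have hge : g e = 𝓛.u N (X e) e * ((𝓛.u N (X e) e)⁻¹ * g e) := by group
    rw [hge]
    refine cw_of_Bl hT (Bl_mul hu hz) hRl ?_
    have h1 : (m' : ℝ) ≤ |Cb| * 2 * N := by
      refine hm'.trans ?_
      have := hX2 e
      have h3 : (1 : ℕ) * X e ≤ 2 := by push_cast; linarith
      gcongr
    have h2 : (m : ℝ) ≤ 1 * N := hm.trans (by gcongr)
    push_cast
    have h4 : ((m' : ℝ) + m) * r0 ≤ ((2 * |Cb| + 1) * r0) * N := by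
      calc ((m' : ℝ) + m) * r0 ≤ (|Cb| * 2 * N + 1 * N) * r0 := by gcongr
        _ = _ := by ring
    have h5 : ((2 * |Cb| + 1) * r0) * N ≤ Cg * N := by gcongr
    linarith
  · obtain ⟨m, hm, hz⟩ := hg e
    have h1 := 𝓛.hgt_u (N := N) (hX0 e) heps e 1 (R.unit e e.2)
    rw [pow_one, Nat.cast_one, one_mul, one_mul] at h1
    have hge : g e = 𝓛.u N (X e) e * ((𝓛.u N (X e) e)⁻¹ * g e) := by group
    have h2 : T (M.h (g e)) = (M.toCap P).hgt (𝓛.u N (X e) e) +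
        (M.toCap P).hgt ((𝓛.u N (X e) e)⁻¹ * g e) := by
      rw [← (M.toCap P).hgt_mul, ← hge]; rfl
    have h3 : ‖(M.toCap P).hgt ((𝓛.u N (X e) e)⁻¹ * g e)‖ ≤ c * (κ * N) := by
      refine ((M.toCap P).hgt_le _).trans ?_
      have h4 := len_Bl (M.toCap P) hT hz
      calc (M.toCap P).C0 * (M.toCap P).len ((𝓛.u N (X e) e)⁻¹ * g e)
          ≤ (M.toCap P).C0 * ((M.toCap P).C0 * (r0 * m)) := by gcongr
        _ ≤ (M.toCap P).C0 * ((M.toCap P).C0 * (r0 * (κ * N))) := by gcongr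
        _ = _ := by rw [hc]; ring
    have h5 := 𝓛.mE_le e
    have h6 := hN0 N hN
    rw [div_le_iff₀ hNp] at h6
    have h7 : c * κ ≤ μ / 4 := by
      have : c * κ ≤ c * (μ / (4 * (c + 1))) := by gcongr
      refine this.trans ?_
      rw [mul_div_assoc', div_le_div_iff₀ (by positivity) (by positivity)]
      nlinarith
    rw [h2]
    have h8 : (M.toCap P).hgt (𝓛.u N (X e) e) + (M.toCap P).hgt ((𝓛.u N (X e) e)⁻¹ * g e) -
        (X e * N) • (e : E) = ((M.toCap P).hgt (𝓛.u N (X e) e) - (X e * N) • (e : E)) +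
        (M.toCap P).hgt ((𝓛.u N (X e) e)⁻¹ * g e) := by abel
    rw [h8]
    refine (norm_add_le _ _).trans ?_
    have h9 : eps * (X e * N) ≤ μ / 4 * N := by
      calc eps * (X e * N) ≤ μ / 8 * (2 * N) := by
            have := hX2 e
            have := hX0 e
            gcongr
        _ = μ / 4 * N := by ring
    have h10 : c * (κ * N) ≤ μ / 4 * N := by
      have := mul_le_mul_of_nonneg_right h7 hNp.le
      linarith
    have h11 : 0 ≤ μ * N := by positivity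
    linarith

/-- two good points with close test heights have the same law -/
theorem transfer [FiniteDimensional ℝ E] {Cb eps : ℝ} {𝓛 : Legs (M.toCap P) R Tt Cb eps} {N : ℕ} {X : R.Eb → ℝ}
    (hX : ∀ e, |X e - 1| ≤ 1 / 2) {kw : ℕ} (hkw : 1 ≤ kw) {tW : ℝ} (htW : 2 ≤ tW) {η d sep : ℝ}
    (hsep : ∀ e ∈ R.Eb, ∀ e' ∈ R.Eb, e ≠ e' → sep ≤ ‖e - e'‖) (hnum : 4 * d + 4 * η < sep)
    {Ψ : M.G → M.G} {x : M.G} {q0 q : M.NN} {σ0 : Equiv.Perm R.Eb} {L0 : E →ₗ[ℝ] E}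
    (hL0 : ∀ e : R.Eb, L0 e = σ0 e)
    (h0 : ∀ w : List (R.Eb × ℝ), w.length ≤ kw → (∀ p ∈ w, 0 ≤ p.2 ∧ p.2 ≤ tW) →
      (∀ w', w' <+: w → tsum w' ∈ Om R X) →
      ‖GF (M.toCap P) N Ψ x q0 (𝓛.tpos N w) - GF (M.toCap P) N Ψ x q0 1 - L0 (tsum w)‖ ≤ η)
    (hq : SGood 𝓛 N X kw tW η Ψ x q)
    (hd : ∀ o, ‖GF (M.toCap P) N Ψ x q0 (tg 𝓛 N o) - GF (M.toCap P) N Ψ x q (tg 𝓛 N o)‖ ≤ d) :
    ∀ w : List (R.Eb × ℝ), w.length ≤ kw → (∀ p ∈ w, 0 ≤ p.2 ∧ p.2 ≤ tW) →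
      (∀ w', w' <+: w → tsum w' ∈ Om R X) →
      ‖GF (M.toCap P) N Ψ x q (𝓛.tpos N w) - GF (M.toCap P) N Ψ x q0 1 - L0 (tsum w)‖ ≤ η + d := by
  obtain ⟨σ, L, hL, hlaw⟩ := hq
  have hword : ∀ e : R.Eb, (∀ p ∈ [(e, (1 / 2 : ℝ))], 0 ≤ p.2 ∧ p.2 ≤ tW) ∧
      (∀ w' : List (R.Eb × ℝ), w' <+: [(e, (1 / 2 : ℝ))] → tsum w' ∈ Om R X) ∧
      𝓛.tpos N [(e, (1 / 2 : ℝ))] = tg 𝓛 N (some e) ∧
      tsum [(e, (1 / 2 : ℝ))] = (1 / 2 : ℝ) • (e : E) := by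
    intro e
    have e2 : tsum [(e, (1 / 2 : ℝ))] = (1 / 2 : ℝ) • (e : E) := by simp [Star.tsum]
    refine ⟨?_, ?_, by simp [Legs.tpos, tg], e2⟩
    · intro p hp
      have : p = (e, 1 / 2) := by simpa using hp
      subst this
      constructor
      · norm_num
      · change (1 / 2 : ℝ) ≤ tW; linarith
    · intro w' hw'
      rcases List.prefix_cons_iff.1 hw' with rfl | ⟨t, rfl, ht⟩
      · simpa [Star.tsum] using zero_mem_Om (R := R) hX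
      · have ht' : t = [] := by simpa using ht
        subst ht'
        refine mem_Om_of_norm ?_ hX
        rw [e2, norm_smul, R.unit e e.2]
        norm_num
  have hLL : L = L0 := by
    refine LinearMap.ext_on R.span_Eb fun e he => ?_
    obtain ⟨w1, w2, w3, w4⟩ := hword ⟨e, he⟩
    have a1 := hlaw _ (by simpa using hkw) w1 w2
    have a2 := h0 _ (by simpa using hkw) w1 w2
    rw [w3, w4] at a1 a2
    have a3 := hd (some ⟨e, he⟩)
    have a4 := hd none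
    have a5 : tg 𝓛 N none = (1 : M.G) := rfl
    rw [a5] at a4
    have a6 : ‖(1 / 2 : ℝ) • (L e - L0 e)‖ ≤ 2 * d + 2 * η := by
      have a7 : (1 / 2 : ℝ) • (L e - L0 e) =
          -(GF (M.toCap P) N Ψ x q (tg 𝓛 N (some ⟨e, he⟩)) - GF (M.toCap P) N Ψ x q 1 -
            L ((1 / 2 : ℝ) • e)) +
          (GF (M.toCap P) N Ψ x q0 (tg 𝓛 N (some ⟨e, he⟩)) - GF (M.toCap P) N Ψ x q0 1 -
            L0 ((1 / 2 : ℝ) • e)) -
          (GF (M.toCap P) N Ψ x q0 (tg 𝓛 N (some ⟨e, he⟩)) -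
            GF (M.toCap P) N Ψ x q (tg 𝓛 N (some ⟨e, he⟩))) +
          (GF (M.toCap P) N Ψ x q0 1 - GF (M.toCap P) N Ψ x q 1) := by
        rw [map_smul, map_smul, smul_sub]; abel
      rw [a7]
      refine (norm_add_le _ _).trans ?_
      refine (add_le_add (norm_sub_le _ _) le_rfl).trans ?_
      refine (add_le_add (add_le_add (norm_add_le _ _) le_rfl) le_rfl).trans ?_
      rw [norm_neg]
      linarith
    have a8 : L e = (σ ⟨e, he⟩ : E) := hL ⟨e, he⟩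
    have a9 : L0 e = (σ0 ⟨e, he⟩ : E) := hL0 ⟨e, he⟩
    by_contra hne
    have hne' : ((σ ⟨e, he⟩ : R.Eb) : E) ≠ (σ0 ⟨e, he⟩ : E) := by rw [← a8, ← a9]; exact hne
    have b1 := hsep _ (σ ⟨e, he⟩).2 _ (σ0 ⟨e, he⟩).2 hne'
    rw [norm_smul, a8, a9, Real.norm_of_nonneg (by norm_num)] at a6
    linarith
  subst hLL
  intro w hw1 hw2 hw3
  have b1 := hlaw w hw1 hw2 hw3
  have b2 := hd none
  have a5 : tg 𝓛 N none = (1 : M.G) := rfl
  rw [a5, norm_sub_rev] at b2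
  have b3 : GF (M.toCap P) N Ψ x q (𝓛.tpos N w) - GF (M.toCap P) N Ψ x q0 1 - L (tsum w) =
      (GF (M.toCap P) N Ψ x q (𝓛.tpos N w) - GF (M.toCap P) N Ψ x q 1 - L (tsum w)) +
      (GF (M.toCap P) N Ψ x q 1 - GF (M.toCap P) N Ψ x q0 1) := by abel
  rw [b3]
  refine (norm_add_le _ _).trans ?_
  linarith

/-- measurability of the heights -/
theorem measurable_GF [MeasurableSpace E] {K : ℝ} {Ψ : M.G → M.G} (hΨ : QI (M.toCap P) K Ψ)
    (N : ℕ) (x g : M.G) : Measurable fun n : M.NN => GF (M.toCap P) N Ψ x n g := by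
  intro s _
  exact hΨ.meas x g ((fun y => (N : ℝ)⁻¹ • (M.toCap P).hgt y) ⁻¹' s)

end near

end Crest.Agent.R182.Gen
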