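/-
R182, block BOX (helper480): from the law at most points to one law on the box, part 2.
-/
import Mathlib
import Crest.Agent.R182.BoxMain
import Crest.Agent.R182.StarThm2

set_option autoImplicit false
set_option linter.unusedSectionVars false

open MeasureTheory Set
open scoped ENNReal Pointwise Topology

namespace Crest.Agent.R182.Gen

open Crest.Agent.R182.Nb Crest.Agent.R182.Core Crest.Agent.R182.Cap Crest.Agent.R182.Star
  Crest.Agent.R182.Facet

theorem measure_step {α : Type*} [MeasurableSpace α] (μ : Measure α) {B A D : Set α} {a b : ℝ}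
    (hcompl : μ (B \ A) ≤ ENNReal.ofReal a * μ B) (ha : a ≤ 1 / 2)
    (hB : μ B ≠ ∞) (hAB : A ⊆ B) (hB0 : μ B ≠ 0) : μ A ≠ 0 ∧
    (μ D * μ A ≤ ENNReal.ofReal b * μ B * μ B → μ D ≤ ENNReal.ofReal (2 * b) * μ B) := by
  have h1 : μ B ≤ 2 * μ A := by
    have h2 : μ B ≤ μ A + ENNReal.ofReal (1 / 2) * μ B := by
      calc μ B ≤ μ (A ∪ (B \ A)) :=
            measure_mono (by rw [Set.union_sdiff_self]; exact Set.subset_union_right)
        _ ≤ μ A + μ (B \ A) := measure_union_le _ _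
        _ ≤ _ := by
          gcongr
          exact hcompl.trans (by gcongr)
    have h3 : μ B = ENNReal.ofReal (1 / 2) * μ B + ENNReal.ofReal (1 / 2) * μ B := by
      rw [← add_mul, ← ENNReal.ofReal_add (by norm_num) (by norm_num)]
      norm_num
    have h4 : ENNReal.ofReal (1 / 2) * μ B ≠ ∞ := ENNReal.mul_ne_top ENNReal.ofReal_ne_top hB
    have h5 : ENNReal.ofReal (1 / 2) * μ B ≤ μ A := by
      have h6 : ENNReal.ofReal (1 / 2) * μ B + ENNReal.ofReal (1 / 2) * μ B ≤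
          μ A + ENNReal.ofReal (1 / 2) * μ B := by rw [← h3]; exact h2
      exact (ENNReal.add_le_add_iff_right h4).1 h6
    rw [two_mul, h3]
    gcongr
  have hA0 : μ A ≠ 0 := by
    intro h
    rw [h, mul_zero] at h1
    exact hB0 (le_antisymm h1 (zero_le))
  have hAt : μ A ≠ ∞ := ne_top_of_le_ne_top hB (measure_mono hAB)
  refine ⟨hA0, fun h => ?_⟩
  have h2 : μ D * μ A ≤ (ENNReal.ofReal b * μ B * 2) * μ A := by
    refine h.trans ?_
    calc ENNReal.ofReal b * μ B * μ B ≤ ENNReal.ofReal b * μ B * (2 * μ A) := by gcongr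
      _ = _ := by ring
  have h3 := (ENNReal.mul_le_mul_iff_left hA0 hAt).1 h2
  refine h3.trans (le_of_eq ?_)
  rw [mul_comm 2 b, ENNReal.ofReal_mul' (by norm_num)]
  norm_num
  ring

section main

variable {Γ : Type*} [Group Γ] [Countable Γ] {k : ℕ} {S : Set Γ}
  {π : Γ →* Multiplicative (Fin k → ℤ)}
  {M : BModel S π} {E : Type} [NormedAddCommGroup E] [InnerProductSpace ℝ E]
  [FiniteDimensional ℝ E] [MeasurableSpace E] [BorelSpace E]
  {T : (Fin k → ℝ) ≃ₗ[ℝ] E} {V : Set M.NN} {RC : ℝ} {P : BModel.CapPar M T V RC}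
  {R : RSys (GI M) E} {Tt : Set M.G} {r0 : ℕ}

/-- **BOX at one scale.** -/
theorem box_one (hRe : (M.toCap P).Reach) (hEn : (M.toCap P).Ent)
    (hRS : (M.toCap P).S = R.toGenSys) (hVb : ∃ ρ : ℝ, ∀ n ∈ V, ‖n‖ ≤ ρ)
    (hV1 : V ∈ 𝓝 (1 : M.NN)) (hT : ∀ s ∈ Tt, s ∈ (M.toCap P).Cl r0) (hS : Slow Tt) (Cb : ℝ)
    {K : ℝ} (hK : 1 ≤ K) {m1 : ℝ} (hm1 : 0 < m1) (hm11 : m1 ≤ 1)
    (hm1le : ∀ e ∈ R.Eb, ∀ e' ∈ R.Eb, e ≠ e' → inner ℝ e e' ≤ 1 - m1) {R0 : ℝ} (hR0 : 1 ≤ R0) :
    ∃ D1 D2 CQ C2 : ℝ, 1 ≤ D1 ∧ 1 ≤ D2 ∧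
      (∀ (v : M.gen → M.L) (g' : M.G), Sm M v 1 g' → ∀ a ∈ V,
        ∀ q ∈ box M (fun i => D1 • v i) 1, q * (M.conjN g' a)⁻¹ ∈ box M (fun i => D2 • v i) 1) ∧
      (∀ v : M.gen → M.L, volume (box M (fun i => D2 • v i) 1) ≤
        ENNReal.ofReal CQ * volume (box M (fun i => D1 • v i) 1)) ∧
      (∀ {ρ : Type} (ray : M.gen → ρ) (g : ρ → M.G) (N : ℕ), 1 ≤ N →
        (∀ r, CW M (max RC 0) (2 + ((2 * |Cb| + 1) * r0) * N) (g r)) →
        ∀ n ∈ box M (fun i => D1 • fam M ray g i) 1,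
          (M.toCap P).len ((M.toCap P).emb n) ≤ C2 * N) ∧
    ∀ η : ℝ, 0 < η → ∀ (kw : ℕ) (tW : ℝ), ∃ (eps2 η1 : ℝ) (kw1 : ℕ) (tW1 : ℝ), 0 < eps2 ∧
      0 < η1 ∧ 0 ≤ tW1 ∧ ∀ eps : ℝ, 0 ≤ eps → eps ≤ eps2 →
      ∀ 𝓛 : Legs (M.toCap P) R Tt Cb eps, ∃ κ : ℝ, 0 < κ ∧ κ ≤ 1 ∧ ∃ N0 : ℕ, 1 ≤ N0 ∧ ∀ N ≥ N0,
      ∀ X : R.Eb → ℝ, (∀ e, |X e - 1| ≤ m1 / 10) → ∀ g : R.Eb → M.G,
      (∀ e, ∃ m : ℕ, (m : ℝ) ≤ κ * N ∧ (𝓛.u N (X e) e)⁻¹ * g e ∈ Bl Tt m) →
      ∀ Ψ : M.G → M.G, QI (M.toCap P) K Ψ → ∀ x : M.G,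
      volume {n : M.NN | n ∈ box M (fun i => D1 • fam M (rayE hRS) g i) 1 ∧
        ¬ SGood 𝓛 N X kw1 tW1 η1 Ψ x n} ≤
          ENNReal.ofReal η1 * volume (box M (fun i => D1 • fam M (rayE hRS) g i) 1) →
      ∃ (σ : Equiv.Perm R.Eb) (L : E →ₗ[ℝ] E) (θ : E), (∀ e : R.Eb, L e = σ e) ∧
        volume {n : M.NN | n ∈ box M (fun i => R0 • fam M (rayE hRS) g i) 1 ∧
          ¬ ∀ w : List (R.Eb × ℝ), w.length ≤ kw → (∀ p ∈ w, 0 ≤ p.2 ∧ p.2 ≤ tW) →
            (∀ w', w' <+: w → tsum w' ∈ Om R X) →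
            ‖GF (M.toCap P) N Ψ x n (𝓛.tpos N w) - θ - L (tsum w)‖ ≤ η} ≤
          ENNReal.ofReal η * volume (box M (fun i => R0 • fam M (rayE hRS) g i) 1) := by
  classical
  have hVm : MeasurableSet V := P.V_meas
  have hR00 : 0 < R0 := by linarith
  obtain ⟨ρV, hρV⟩ := hVb
  obtain ⟨ρ3, hρ3⟩ := exists_bound M ρV
  set ρ4 := max (max ρ3 ρV) 0 with hρ4
  obtain ⟨J, R1, C, hR1, hC, hbox⟩ := box_law' M (spans M) (bgen M) 1 hVm ⟨ρV, hρV⟩ hV1 hR0
  obtain ⟨D, hD, hmove⟩ := exists_move' M (spans M) 1 ρ4 (le_max_right _ _)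
  have hR11 : 1 ≤ R1 := hR0.trans hR1
  have hDR1 : 1 ≤ D * R1 := one_le_mul_of_one_le_of_one_le hD hR11
  have hDDR1 : 1 ≤ D * (D * R1) := one_le_mul_of_one_le_of_one_le hD hDR1
  obtain ⟨c2, hc2, hlen⟩ := exists_len_box M (max RC 0) ((2 * |Cb| + 1) * r0) (D * R1)
    (le_max_right _ _) (by positivity) hDR1
  have hs : 0 ≤ P.s := by linarith [P.one_le_s]
  set CQ : ℝ := ((D * (D * R1) / (D * R1)) ^ M.c) ^ M.r with hCQ
  set CB : ℝ := ((D * R1 / R0) ^ M.c) ^ M.r with hCB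
  have hD0 : 0 < D := by linarith
  have hR10 : 0 < R1 := by linarith
  have hCQ0 : 0 ≤ CQ := by positivity
  have hCB0 : 0 ≤ CB := by positivity
  refine ⟨D * R1, D * (D * R1), CQ, P.s * c2, hDR1, hDDR1, ?_, ?_, ?_, ?_⟩
  · intro v g' hg' a ha q hq
    rw [← map_inv]
    refine hmove v g' hg' (D * R1) hDR1 q hq a⁻¹ ?_
    rw [M.inv_def, norm_neg]
    exact (hρV a ha).trans ((le_max_right _ _).trans (le_max_left _ _))
  · intro v
    exact volume_box_ratio M (by linarith) (le_mul_of_one_le_left (by linarith) hD)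
  · intro ρ ray g N hN hg n hn
    have h1 := hlen ray g N hN hg n hn
    change P.s * M.len (M.toG n) ≤ P.s * c2 * N
    rw [mul_assoc]
    exact mul_le_mul_of_nonneg_left h1 hs
  intro η hη kw tW
  obtain ⟨sep, hsep, hsepE⟩ := exists_sep R.Eb
  set vV : ℝ := (volume V).toReal with hvV
  have hvV0 : 0 ≤ vV := ENNReal.toReal_nonneg
  have hVfin : volume V ≠ ∞ := P.V_fin
  have hC0 := (M.toCap P).C0_pos
  -- the proportion for the facets
  obtain ⟨ηf, hηf, hηf'⟩ : ∃ ηf : ℝ, 0 < ηf ∧ ηf * (2 * C * CQ * CB * vV ^ 2) ≤ η / 4 := by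
    obtain ⟨t, ht, ht'⟩ := ex_mul_le (c := 2 * C * CQ * CB * vV ^ 2) (by positivity)
      (d := η / 4) (by positivity)
    exact ⟨t, ht, ht' t le_rfl⟩
  have hfac := fun er : R.Eb => facet_bad hRe hEn hK R hRS er.2
    (Cs := (M.toCap P).C0 * (r0 * |Cb|)) (by positivity) (ρ := m1 / 2) (η := ηf) (by positivity)
    hηf
  choose e1 W he1 hW hfac using hfac
  choose N6 hfac using fun er => hfac er (r0 * |Cb|)
  obtain ⟨e1m, he1m, he1m'⟩ := exists_pos_le Finset.univ e1 fun er _ => he1 er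
  -- the length of the test words
  obtain ⟨kW, hkW⟩ : ∃ kW : ℕ, ∀ er, ∀ w ∈ W er, w.length ≤ kW := by
    refine ⟨(Finset.univ.biUnion W).sup List.length, fun er w hw => ?_⟩
    exact Finset.le_sup (f := List.length)
      (Finset.mem_biUnion.2 ⟨er, Finset.mem_univ _, hw⟩)
  -- their margin
  obtain ⟨δW, hδW, hδW'⟩ : ∃ δW : ℝ, 0 < δW ∧ ∀ er, ∀ w ∈ W er,
      inner ℝ (er : E) (tsum w) ≤ -δW := by
    obtain ⟨δ, hδ, h⟩ := exists_pos_le (Finset.univ.sigma W)
      (fun p => -inner ℝ (p.1 : E) (tsum p.2)) (by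
        intro p hp
        have h1 := (Finset.mem_sigma.1 hp).2
        have h2 := (hW p.1 p.2 h1).2.1
        linarith)
    refine ⟨δ, hδ, fun er w hw => ?_⟩
    have := h ⟨er, w⟩ (Finset.mem_sigma.2 ⟨Finset.mem_univ _, hw⟩)
    linarith
  -- the error
  obtain ⟨e, he, hee1, hesep, heη⟩ : ∃ e : ℝ, 0 < e ∧ e ≤ e1m ∧ e * (40 * J + 4) ≤ sep ∧
      e * (10 * J + 1) ≤ η := by
    obtain ⟨t, ht, ht'⟩ := ex_mul_le (c := 40 * (J : ℝ) + 4) (by positivity) (d := sep) hsep
    obtain ⟨t2, ht2, ht2'⟩ := ex_mul_le (c := 10 * (J : ℝ) + 1) (by positivity) (d := η) hη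
    exact ⟨min e1m (min t t2), lt_min he1m (lt_min ht ht2), min_le_left _ _,
      ht' _ ((min_le_right _ _).trans (min_le_left _ _)),
      ht2' _ ((min_le_right _ _).trans (min_le_right _ _))⟩
  obtain ⟨η1, hη1, hn1, hn2, hn3, hn4⟩ : ∃ η1 : ℝ, 0 < η1 ∧ η1 ≤ e / 2 ∧ η1 * CB ≤ 1 / 2 ∧
      η1 * CB ≤ η / 2 ∧ η1 * (4 * C * CB * vV ^ 2) ≤ η / 4 := by
    obtain ⟨t, ht, ht'⟩ := ex_mul_le hCB0 (d := 1 / 2) (by norm_num)
    obtain ⟨t2, ht2, ht2'⟩ := ex_mul_le hCB0 (d := η / 2) (by positivity)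
    obtain ⟨t3, ht3, ht3'⟩ := ex_mul_le (c := 4 * C * CB * vV ^ 2) (by positivity) (d := η / 4)
      (by positivity)
    exact ⟨min (e / 2) (min t (min t2 t3)), lt_min (by positivity) (lt_min ht (lt_min ht2 ht3)),
      min_le_left _ _, ht' _ ((min_le_right _ _).trans (min_le_left _ _)),
      ht2' _ ((min_le_right _ _).trans ((min_le_right _ _).trans (min_le_left _ _))),
      ht3' _ ((min_le_right _ _).trans ((min_le_right _ _).trans (min_le_right _ _)))⟩
  set kw1 : ℕ := max kw (kW + 1) with hkw1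
  set tW1 : ℝ := max tW 2 with htW1
  -- geometry of the words at the touching points
  set Cw : ℝ := (2 * |Cb| + 1 + |Cb| * kW) * r0 with hCw
  have hCw0 : 0 ≤ Cw := by positivity
  set δg : ℝ := min δW (3 * m1 / 10) / 2 with hδg
  have hδg0 : 0 < δg := by positivity
  obtain ⟨μ0, cc, hμ0, hcc, N1, hgeo⟩ := exists_geom2 hRS hm1 hm11 hm1le (max RC 0) Cw hCw0 hδg0
  set μ : ℝ := min μ0 (δg / 4) with hμ
  have hμp : 0 < μ := by positivity
  obtain ⟨κ0, hκ0, hnear⟩ := exists_nearTup (R := R) hT Cb hμp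
  obtain ⟨κ1, hκ1, N2, hN21, hclose⟩ := exists_close (M.toCap P) hT hS (by linarith : 0 ≤ K)
    (|Cb| * (kw1 * 1)) (δ := e / 2) (by positivity)
  refine ⟨min (μ / 8) (min (e / 2) (δg / (4 * (kW + 1)))), η1, kw1, tW1, by positivity, hη1,
    by positivity, fun eps heps hepsle 𝓛 => ?_⟩
  have heps1 : eps ≤ μ / 8 := hepsle.trans (min_le_left _ _)
  have heps2 : eps ≤ e / 2 := hepsle.trans ((min_le_right _ _).trans (min_le_left _ _))
  have heps3 : eps ≤ δg / (4 * (kW + 1)) :=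
    hepsle.trans ((min_le_right _ _).trans (min_le_right _ _))
  set κ : ℝ := min (min κ0 κ1) 1 with hκ
  have hκp : 0 < κ := by positivity
  have hκκ0 : κ ≤ κ0 := (min_le_left _ _).trans (min_le_left _ _)
  have hκκ1 : κ ≤ κ1 := (min_le_left _ _).trans (min_le_right _ _)
  obtain ⟨N3, hN31, hnear⟩ := hnear κ hκp.le hκκ0 (min_le_right _ _) eps heps heps1 𝓛
  obtain ⟨N4, hN41, hlegs⟩ := exists_legsAt (M.toCap P) R hT Cb heps he heps2 𝓛
  obtain ⟨N5, hN51, hN5⟩ := exists_N_inv (C := kW * 𝓛.mX) (δ := δg / 4) (by positivity)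
  obtain ⟨N7, hN71, hN7⟩ := exists_N_inv
    (C := (M.toCap P).C0 * (K * (2 * (M.toCap P).C0) + K)) (δ := e) he
  obtain ⟨N8, hN8⟩ : ∃ N8 : ℕ, ∀ er, N6 er ≤ N8 :=
    ⟨Finset.univ.sup N6, fun er => Finset.le_sup (Finset.mem_univ er)⟩
  refine ⟨κ, hκp, min_le_right _ _, max (max N1 N2) (max (max N3 N4) (max N5 (max N7 N8))),
    ?_, ?_⟩
  · exact le_max_of_le_left (le_max_of_le_right hN21)
  intro N hN X hX g hg Ψ hΨ x hstar
  have hNN1 : N1 ≤ N := (le_max_left _ _).trans ((le_max_left _ _).trans hN)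
  have hNN2 : N2 ≤ N := (le_max_right _ _).trans ((le_max_left _ _).trans hN)
  have hNr := (le_max_right (max N1 N2) (max (max N3 N4) (max N5 (max N7 N8)))).trans hN
  have hNN3 : N3 ≤ N := (le_max_left _ _).trans ((le_max_left _ _).trans hNr)
  have hNN4 : N4 ≤ N := (le_max_right _ _).trans ((le_max_left _ _).trans hNr)
  have hNN5 : N5 ≤ N := (le_max_left _ _).trans ((le_max_right _ _).trans hNr)
  have hNN7 : N7 ≤ N :=
    (le_max_left _ _).trans ((le_max_right _ _).trans ((le_max_right _ _).trans hNr))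
  have hNN8 : N8 ≤ N :=
    (le_max_right _ _).trans ((le_max_right _ _).trans ((le_max_right _ _).trans hNr))
  have hNp : (1 : ℝ) ≤ N := by exact_mod_cast hN21.trans hNN2
  have hNpos : (0 : ℝ) < N := by linarith
  have hX2 : ∀ e, |X e - 1| ≤ 1 / 2 := fun e => (hX e).trans (by linarith)
  -- the near tuple
  have hnt : NearTup M T R (max RC 0) Cw μ N X g :=
    hnear N hNN3 X hX2 g hg (max RC 0) (le_max_left _ _) Cw (by
      rw [hCw]
      have : 0 ≤ |Cb| * (kW : ℝ) := by positivity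
      exact mul_le_mul_of_nonneg_right (by linarith) (Nat.cast_nonneg _))
  have hnt0 : NearTup M T R (max RC 0) Cw μ0 N X g :=
    ⟨hnt.word, fun e => (hnt.near e).trans (by gcongr; exact min_le_left _ _)⟩
  obtain ⟨htouch, hsm⟩ := hgeo N hNN1 X hX g hnt0
  set F := fam M (rayE hRS) g with hF
  set B0 := box M (fun i => R0 • F i) 1 with hB0
  set Q0 := box M (fun i => R1 • F i) 1 with hQ0
  set Q := box M (fun i => (D * R1) • F i) 1 with hQ
  set Q' := box M (fun i => (D * (D * R1)) • F i) 1 with hQ'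
  have hRD : R0 ≤ D * R1 := hR1.trans (le_mul_of_one_le_left hR10.le hD)
  have hB0Q : B0 ⊆ Q := box_smul_mono M hR00 hRD
  have hQ0Q : Q0 ⊆ Q := box_smul_mono M hR10 (le_mul_of_one_le_left hR10.le hD)
  have hQQ' : Q ⊆ Q' :=
    box_smul_mono M (by linarith) (le_mul_of_one_le_left (by linarith) hD)
  have hQm : MeasurableSet Q := measurableSet_box M zero_le_one
  have hQ'm : MeasurableSet Q' := measurableSet_box M zero_le_one
  have hQ'fin : volume Q' ≠ ∞ := (volume_box_lt_top M zero_le_one).ne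
  have hB0fin : volume B0 ≠ ∞ := (volume_box_lt_top M zero_le_one).ne
  by_cases hB00 : volume B0 = 0
  · refine ⟨1, LinearMap.id, 0, fun e => rfl, ?_⟩
    refine le_trans (measure_mono (t := B0) fun n hn => hn.1) ?_
    rw [hB00]; exact zero_le
  have hQ'0 : volume Q' ≠ 0 := fun h => hB00 (measure_mono_null (hB0Q.trans hQQ') h)
  have hQvol : volume Q ≤ ENNReal.ofReal CB * volume B0 := volume_box_ratio M hR00 hRD
  have hQ'vol : volume Q' ≤ ENNReal.ofReal CQ * volume Q :=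
    volume_box_ratio M (by linarith) (le_mul_of_one_le_left (by linarith) hD)
  -- moves
  have hmv : ∀ g' : M.G, Sm M F 1 g' → ∀ a ∈ V, ∀ q ∈ Q, q * (M.conjN g' a)⁻¹ ∈ Q' := by
    intro g' hg' a ha q hq
    rw [← map_inv]
    refine hmove F g' hg' (D * R1) hDR1 q hq a⁻¹ ?_
    rw [M.inv_def, norm_neg]
    exact (hρV a ha).trans ((le_max_right _ _).trans (le_max_left _ _))
  have hmv0 : ∀ g' : M.G, Sm M F 1 g' → ∀ a ∈ V, ∀ b ∈ V, ∀ q ∈ Q0,
      q * M.conjN g' (a⁻¹ * b) ∈ Q := by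
    intro g' hg' a ha b hb q hq
    refine hmove F g' hg' R1 hR11 q hq _ ?_
    exact (hρ3 a b (hρV a ha) (hρV b hb)).trans ((le_max_left _ _).trans (le_max_left _ _))
  -- words at the touching points
  have hword : ∀ er : R.Eb, ∀ w ∈ W er, Sm M F 1 (g er * 𝓛.tpos N w) := by
    intro er w hw
    obtain ⟨hw1, hw2, hw3⟩ := hW er w hw
    have hwl : (w.length : ℝ) ≤ kW := by exact_mod_cast hkW er w hw
    have h1 := hsm (g er * 𝓛.tpos N w) ?_ ?_
    · refine fun i => Bx_mono ?_ (h1 i)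
      exact Real.exp_le_one_iff.2 (by
        have : 0 ≤ cc * (N : ℝ) := by positivity
        linarith)
    · obtain ⟨m, hm, hz⟩ := hg er
      have hX0 : 0 ≤ X er := by have := (abs_le.1 (hX2 er)).1; linarith
      have hX3 : X er ≤ 2 := by have := (abs_le.1 (hX2 er)).2; linarith
      obtain ⟨m', hm', hu⟩ := 𝓛.u_pow_mem (N := N) hX0 er 1
      rw [pow_one] at hu
      obtain ⟨m'', hm'', hw'⟩ := tpos_mem 𝓛 (N := N) (tW := 1) w hw1
      have hge : g er * 𝓛.tpos N w = 𝓛.u N (X er) er * ((𝓛.u N (X er) er)⁻¹ * g er) *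
          𝓛.tpos N w := by group
      rw [hge]
      refine cw_of_Bl hT (Bl_mul (Bl_mul hu hz) hw') (le_max_left _ _) ?_
      have a1 : (m' : ℝ) ≤ |Cb| * 2 * N := by
        refine hm'.trans ?_
        have h3 : (1 : ℕ) * X er ≤ 2 := by push_cast; linarith
        gcongr
      have a2 : (m : ℝ) ≤ 1 * N := hm.trans (by gcongr; exact min_le_right _ _)
      have a3 : (m'' : ℝ) ≤ |Cb| * kW * N := by
        refine hm''.trans ?_
        rw [mul_one]
        gcongr
      push_cast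
      have a4 : ((m' : ℝ) + m + m'') * r0 ≤ Cw * N := by
        calc ((m' : ℝ) + m + m'') * r0 ≤ (|Cb| * 2 * N + 1 * N + |Cb| * kW * N) * r0 := by gcongr
          _ = _ := by rw [hCw]; ring
      linarith
    · intro e'
      have a0 : T (M.h (g er * 𝓛.tpos N w)) = T (M.h (g er)) +
          (M.toCap P).hgt (𝓛.tpos N w) := (M.toCap P).hgt_mul _ _
      have a1 := (abs_le.1 (hnt.inner er (e' : E) (R.unit e' e'.2))).2
      have a2 := hgt_tpos 𝓛 (N := N) (tW := 1) heps w hw1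
      have a3 : inner ℝ (e' : E) ((M.toCap P).hgt (𝓛.tpos N w)) ≤
          N * inner ℝ (e' : E) (tsum w) + δg / 2 * N := by
        have b1 := real_inner_le_norm (e' : E) ((M.toCap P).hgt (𝓛.tpos N w) - (N : ℝ) • tsum w)
        rw [R.unit e' e'.2, one_mul, inner_sub_right, inner_smul_right] at b1
        have b2 : (w.length : ℝ) * (eps * (1 * N) + 𝓛.mX) ≤ δg / 2 * N := by
          have c1 : (w.length : ℝ) * eps ≤ δg / 4 := by
            have : (w.length : ℝ) * eps ≤ kW * (δg / (4 * (kW + 1))) := by gcongr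
            refine this.trans ?_
            rw [mul_div_assoc', div_le_div_iff₀ (by positivity) (by positivity)]
            linarith only [hδg0]
          have c2 := hN5 N hNN5
          rw [div_le_iff₀ hNpos] at c2
          have hmX := 𝓛.mX_nonneg
          have c3 : (w.length : ℝ) * 𝓛.mX ≤ kW * 𝓛.mX := by gcongr
          have c4 := mul_le_mul_of_nonneg_right c1 hNpos.le
          linarith only [c2, c3, c4]
        linarith
      rw [a0, inner_add_right]
      have hμ2 : μ ≤ δg / 4 := min_le_right _ _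
      have a4 := mul_le_mul_of_nonneg_right hμ2 hNpos.le
      have hδ1 : 2 * δg ≤ δW := by
        rw [hδg]; have := min_le_left δW (3 * m1 / 10); linarith
      have hδ2 : 2 * δg ≤ 3 * m1 / 10 := by
        rw [hδg]; have := min_le_right δW (3 * m1 / 10); linarith
      have key : X er * inner ℝ (e' : E) (er : E) + inner ℝ (e' : E) (tsum w) + 3 / 4 * δg ≤
          X e' - δg := by
        by_cases h : e' = er
        · subst h
          have b1 := hδW' e' w hw
          rw [real_inner_self_eq_norm_sq, R.unit e' e'.2]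
          linarith
        · have b1 := hm1le e' e'.2 er er.2 fun h' => h (Subtype.ext h')
          have b2 := real_inner_le_norm (e' : E) (tsum w)
          rw [R.unit e' e'.2, one_mul] at b2
          have b3 := (hw3 w (List.prefix_refl _)).2
          have b4 := (abs_le.1 (hX er)).2
          have b5 := (abs_le.1 (hX e')).1
          have b6 := (abs_le.1 (hX er)).1
          have b7 : X er * inner ℝ (e' : E) (er : E) ≤ X er * (1 - m1) :=
            mul_le_mul_of_nonneg_left b1 (by linarith)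
          have b8 : X er * (1 - m1) ≤ (1 + m1 / 10) * (1 - m1) :=
            mul_le_mul_of_nonneg_right (by linarith) (by linarith)
          have b9 : 0 ≤ m1 * m1 := mul_self_nonneg m1
          linarith only [b2, b3, b5, b7, b8, b9, hδ2, hm1]
      have a5 := mul_le_mul_of_nonneg_right key hNpos.le
      linarith
  -- the bad moves
  set Φ : M.NN → Option R.Eb → E := fun n o => GF (M.toCap P) N Ψ x n (tg 𝓛 N o) with hΦ
  have hΦm : Measurable Φ := measurable_pi_lambda _ fun o => measurable_GF hΨ N x _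
  set ε : ℝ≥0∞ := (ENNReal.ofReal ηf * volume Q' + 2 * (ENNReal.ofReal η1 * volume Q)) *
    volume V ^ 2 with hε
  have hbad : ∀ er : R.Eb, badInt volume Φ (5 * e) (M.conjN (g er)) Q0 V ≤ ε := by
    intro er
    have h1 := hfac er N ((hN8 er).trans hNN8) e he.le (hee1.trans (he1m' er (Finset.mem_univ _)))
      (fun p => 𝓛.u N p.2 p.1) (hlegs N hNN4) Ψ hΨ x (g er) Q0 Q Q' hQm hQ'm hQ'fin hQ'0
      (measure_mono hQQ') (fun b hb n hn => hmv (g er) (htouch.sm M er) b hb n hn)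
      (fun w hw b hb n hn => hmv _ (hword er w hw) b hb n hn) hQ0Q
      (fun a ha b hb n hn => hmv0 (g er) (htouch.sm M er) a ha b hb n hn)
      (tg 𝓛 N) (ty R) (X er • (er : E)) (5 * e) (by
        have := hN7 N hNN7
        linarith)
    refine h1.trans ?_
    refine mul_le_mul' (add_le_add le_rfl (mul_le_mul' le_rfl ?_)) le_rfl
    refine le_trans (measure_mono (μ := volume) ?_) hstar
    rintro n ⟨hn, hn2⟩
    refine ⟨hn, fun hgood => hn2 ?_⟩
    have h2 := hgood.goodAt hm1 hm11 hm1le hX (le_max_right _ _) er (W := W er) (e' := e / 2)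
      (fun w hw => ⟨(hW er w hw).1, by
        have := hkW er w hw
        rw [hkw1]
        exact le_max_of_le_right (by omega), (hW er w hw).2.2⟩)
      (by rw [hkw1]; exact le_max_of_le_right (by omega)) (g0 := g er) (by linarith)
      (fun w hwl hw => hclose N hNN2 Ψ hΨ x n _ _ _ (by
        obtain ⟨m, hm, hz⟩ := hg er
        exact ⟨m, hm.trans (by gcongr), hz⟩) (by
        obtain ⟨m, hm, hz⟩ := tpos_mem 𝓛 (N := N) (tW := 1) w hw
        refine ⟨m, hm.trans ?_, hz⟩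
        gcongr))
    rw [add_halves] at h2
    exact h2
  -- the good points
  set A : Set M.NN := {n | n ∈ B0 ∧ SGood 𝓛 N X kw1 tW1 η1 Ψ x n} with hA
  have hAB : A ⊆ B0 := fun n hn => hn.1
  have hcompl : volume (B0 \ A) ≤ ENNReal.ofReal (η1 * CB) * volume B0 := by
    refine le_trans (measure_mono (t := {n | n ∈ Q ∧ ¬ SGood 𝓛 N X kw1 tW1 η1 Ψ x n}) ?_) ?_
    · rintro n ⟨hn, hn2⟩
      exact ⟨hB0Q hn, fun h => hn2 ⟨hn, h⟩⟩
    · refine hstar.trans ?_
      rw [ENNReal.ofReal_mul hη1.le, mul_assoc]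
      gcongr
  have hεle : ε ≤ ENNReal.ofReal ((ηf * CQ * CB + 2 * (η1 * CB)) * vV ^ 2) * volume B0 := by
    have hvol : volume V = ENNReal.ofReal vV := (ENNReal.ofReal_toReal hVfin).symm
    rw [hε, ENNReal.ofReal_mul (by positivity), ENNReal.ofReal_add (by positivity) (by positivity),
      ENNReal.ofReal_mul (by positivity), ENNReal.ofReal_mul hηf.le,
      ENNReal.ofReal_mul (by norm_num : (0:ℝ) ≤ 2), ENNReal.ofReal_mul hη1.le,
      ENNReal.ofReal_pow hvV0, ← hvol]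
    have h2 : ENNReal.ofReal 2 = 2 := by norm_num
    rw [h2]
    calc (ENNReal.ofReal ηf * volume Q' + 2 * (ENNReal.ofReal η1 * volume Q)) * volume V ^ 2
        ≤ (ENNReal.ofReal ηf * (ENNReal.ofReal CQ * (ENNReal.ofReal CB * volume B0)) +
            2 * (ENNReal.ofReal η1 * (ENNReal.ofReal CB * volume B0))) * volume V ^ 2 := by
          gcongr
          exact hQ'vol.trans (by gcongr)
      _ = _ := by ring
  obtain ⟨hA0, hstep⟩ := measure_step volume (D := ∅) (b := 0) hcompl hn2 hB0fin hAB hB00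
  obtain ⟨q0, hq0, hq⟩ := hbox (rayE hRS) g htouch Φ hΦm (5 * e) (by positivity) ε hbad A hAB hA0
  obtain ⟨σ, L, hL, hlaw⟩ := hq0.2
  refine ⟨σ, L, GF (M.toCap P) N Ψ x q0 1, hL, ?_⟩
  set Dst : Set M.NN := {q | q ∈ B0 ∧ 2 * (5 * e) * J < dist (Φ q0) (Φ q)} with hDst
  have hDvol : volume Dst ≤ ENNReal.ofReal (η / 2) * volume B0 := by
    have h1 : volume Dst * volume A ≤
        ENNReal.ofReal (C * ((ηf * CQ * CB + 2 * (η1 * CB)) * vV ^ 2)) * volume B0 *
          volume B0 := by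
      refine hq.trans ?_
      rw [ENNReal.ofReal_mul hC.le]
      calc ENNReal.ofReal C * ε * volume B0 ≤ ENNReal.ofReal C *
            (ENNReal.ofReal ((ηf * CQ * CB + 2 * (η1 * CB)) * vV ^ 2) * volume B0) *
              volume B0 := by gcongr
        _ = _ := by ring
    refine ((measure_step volume hcompl hn2 hB0fin hAB hB00).2 h1).trans ?_
    gcongr
    linarith only [hηf', hn4]
  refine le_trans (measure_mono (t := Dst ∪ (B0 \ A)) ?_) ?_
  · rintro n ⟨hn, hn2⟩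
    by_cases h1 : n ∈ Dst
    · exact Or.inl h1
    refine Or.inr ⟨hn, fun h2 => hn2 ?_⟩
    have h3 : dist (Φ q0) (Φ n) ≤ 2 * (5 * e) * J := by
      by_contra hcon
      exact h1 ⟨hn, not_le.1 hcon⟩
    intro w hw1 hw2 hw3
    have h4 := transfer hX2 (kw := kw1) (by rw [hkw1]; exact le_max_of_le_right (by omega))
      (tW := tW1) (le_max_right _ _) (d := 2 * (5 * e) * J) hsepE (by
        linarith only [hesep, hn1, he]) hL hlaw h2.2 (fun o => by
        rw [← dist_eq_norm]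
        exact (dist_le_pi_dist (Φ q0) (Φ n) o).trans h3) w (hw1.trans (le_max_left _ _))
      (fun p hp => ⟨(hw2 p hp).1, (hw2 p hp).2.trans (le_max_left _ _)⟩) hw3
    refine h4.trans ?_
    linarith only [heη, hn1, he]
  · refine (measure_union_le _ _).trans ?_
    calc volume Dst + volume (B0 \ A)
        ≤ ENNReal.ofReal (η / 2) * volume B0 + ENNReal.ofReal (η / 2) * volume B0 := by
          gcongr
          exact hcompl.trans (by gcongr)
      _ = ENNReal.ofReal η * volume B0 := by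
          rw [← add_mul, ← ENNReal.ofReal_add (by positivity) (by positivity), add_halves]

end main

end Crest.Agent.R182.Gen
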