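/-
R182, module ELINST (helper468): the fields `A_*`, `Ah_le`, `gen` of `El.Facts` for the data of a
`BModel` ([I1]).
-/
import Mathlib
import Crest.Agent.R182.ElTouch

set_option autoImplicit false
set_option linter.unusedSectionVars false

open MeasureTheory Set
open scoped Pointwise RealInnerProductSpace ENNReal

namespace Crest.Agent.R182.ElI

open Crest.GroupTheory Crest.Geometry Crest.Agent.R182.QI Crest.Agent.R182.Core
  Crest.Agent.R182.Nb Crest.Agent.R182.Gen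

variable {Γ : Type*} [Group Γ] {k : ℕ} {S : Set Γ} {π : Γ →* Multiplicative (Fin k → ℤ)}
variable {M : BModel S π}

/-- `c1` is a good size of the small boxes, with `J` hops of bounded generation -/
def C1ok (M : BModel S π) (J : ℕ) (c1 : ℝ) : Prop :=
  0 < c1 ∧ 2 * c1 ≤ 1 ∧ ∀ fam : GI M → M.L,
      (∀ n ≤ 10, (M.NB fam (2 * c1)) ^ n ⊆ M.NB fam 1) ∧
      ∀ u ∈ (M.NB fam (2 * c1)) ^ 10, ∃ l : List (ℝ × GI M), l.length ≤ J ∧ (∀ p ∈ l, |p.1| ≤ 1) ∧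
        (l.map fun p => M.E.symm (p.1 • fam p.2)).prod = u ∧
        ∀ l', l' <+: l → ∀ s ∈ (M.NB fam (2 * c1)) ^ 5,
          s * (l'.map fun p => M.E.symm (p.1 • fam p.2)).prod ∈ M.NB fam 1

theorem exists_C1ok (M : BModel S π) : ∃ (J : ℕ) (c1 : ℝ), C1ok M J c1 := by
  obtain ⟨J, c, h0, h1, h⟩ := M.exists_NB_gen (GI M)
  refine ⟨J, c / 2, by positivity, by linarith, ?_⟩
  have e : 2 * (c / 2) = c := by ring
  rw [e]
  exact h

section rho

variable {E : Type*} [NormedAddCommGroup E] [InnerProductSpace ℝ E]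

theorem one_le_rho (G : Geo M E) {Z : G.R → ℝ} (h : ∀ r, 0 ≤ Z r) : 1 ≤ rho G Z := by
  unfold rho
  have : 0 ≤ (∑ r, Z r) / (4 * (1 + Fintype.card G.R)) :=
    div_nonneg (Finset.sum_nonneg fun r _ => h r) (by positivity)
  linarith

theorem rho_le (G : Geo M E) {Z : G.R → ℝ} (h : ∀ r, Z r ≤ 2) : rho G Z ≤ 2 := by
  unfold rho
  have h1 : (∑ r, Z r) / (4 * (1 + Fintype.card G.R)) ≤ 1 := by
    rw [div_le_one (by positivity)]
    have h2 : ∑ r, Z r ≤ Fintype.card G.R * 2 := by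
      have := Finset.sum_le_card_nsmul Finset.univ Z 2 fun r _ => h r
      rw [Finset.card_univ, nsmul_eq_mul] at this
      exact this
    have h3 : (0:ℝ) ≤ Fintype.card G.R := Nat.cast_nonneg _
    linarith
  linarith

theorem rho_add_le (G : Geo M E) {Z Z' : G.R → ℝ} (h : ∀ r, Z r ≤ Z' r) {r₀ : G.R} {ε : ℝ}
    (h₀ : Z r₀ + ε ≤ Z' r₀) :
    rho G Z + ε / (4 * (1 + Fintype.card G.R)) ≤ rho G Z' := by
  classical
  unfold rho
  have h1 : ∑ r, Z r + ε ≤ ∑ r, Z' r := by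
    rw [← Finset.add_sum_erase _ _ (Finset.mem_univ r₀), ← Finset.add_sum_erase _ Z' (Finset.mem_univ r₀)]
    have := Finset.sum_le_sum (s := Finset.univ.erase r₀) fun r _ => h r
    linarith
  have h2 : (∑ r, Z r + ε) / (4 * (1 + Fintype.card G.R)) ≤
      (∑ r, Z' r) / (4 * (1 + Fintype.card G.R)) := by gcongr
  rw [add_div] at h2
  linarith

theorem adm.nonneg {R : Type*} {τ ω : ℝ} {Z : R → ℝ} (h : adm τ ω Z) (hω : ω ≤ 1 / 16) (r : R) :
    0 ≤ Z r := by linarith [(h.bd hω r).1]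

theorem adm.le_two {R : Type*} {τ ω : ℝ} {Z : R → ℝ} (h : adm τ ω Z) (hω : ω ≤ 1 / 16) (r : R) :
    Z r ≤ 2 := by linarith [(h.bd hω r).2]

/-- the small box of an admissible shape is contained in the box of size `2 c1` -/
theorem A_sub (G : Geo M E) {J : ℕ} {c1 : ℝ} (hc : C1ok M J c1) (u : G.R → M.G) {τ ω : ℝ}
    (hω : ω ≤ 1 / 16) {Z : G.R → ℝ} (hZ : adm τ ω Z) :
    M.NB (fm G u τ Z) (c1 * rho G Z) ⊆ M.NB (fm G u τ Z) (2 * c1) := by
  refine BModel.NB_mono ?_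
  have := rho_le G (hZ.le_two hω)
  nlinarith [hc.1]

end rho

section fields

variable {E : Type*} [NormedAddCommGroup E] [InnerProductSpace ℝ E]
variable (G : Geo M E) (cs : Cst G) (Ψ : Γ → Γ) (x : M.G) (Sc τ : ℝ) (u : G.R → M.G)

theorem A_meas (Z : G.R → ℝ) (n : ℕ) : MeasurableSet (((data G cs Ψ x Sc τ u).A Z) ^ n) :=
  BModel.pow_meas (BModel.isCompact_NB M _ _) n

theorem A_one (hc1 : 0 < cs.c1) {Z : G.R → ℝ} (hZ : ∀ r, 0 ≤ Z r) :
    (1 : M.NN) ∈ (data G cs Ψ x Sc τ u).A Z :=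
  BModel.NB_one_mem (mul_nonneg hc1.le (zero_le_one.trans (one_le_rho G hZ)))

theorem A_inv (Z : G.R → ℝ) : ∀ n ∈ (data G cs Ψ x Sc τ u).A Z,
    n⁻¹ ∈ (data G cs Ψ x Sc τ u).A Z := fun _ hn => BModel.NB_inv hn

theorem A_pow {J : ℕ} (hc : C1ok M J cs.c1) {ω : ℝ} (hω : ω ≤ 1 / 16) {Z : G.R → ℝ}
    (hZ : adm τ ω Z) : ((data G cs Ψ x Sc τ u).A Z) ^ 10 ⊆ (data G cs Ψ x Sc τ u).Ah Z :=
  (Set.pow_subset_pow_left (A_sub G hc u hω hZ)).trans ((hc.2.2 _).1 10 le_rfl)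

theorem A_fin (Z : G.R → ℝ) : (data G cs Ψ x Sc τ u).μ ((data G cs Ψ x Sc τ u).A Z) ≠ ⊤ :=
  (BModel.volume_NB_lt_top M _ _).ne

/-- the doubling constant of the boxes -/
noncomputable def CA (M : BModel S π) (c1 : ℝ) : ℝ := (1 / c1) ^ M.r

theorem Ah_le (hc1 : 0 < cs.c1) {Z : G.R → ℝ} (hZ : ∀ r, 0 ≤ Z r) {C : ℝ} (hC : CA M cs.c1 ≤ C) :
    (data G cs Ψ x Sc τ u).μ ((data G cs Ψ x Sc τ u).Ah Z) ≤
      ENNReal.ofReal C * (data G cs Ψ x Sc τ u).μ ((data G cs Ψ x Sc τ u).A Z) := by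
  change volume (M.NB (fm G u τ Z) 1) ≤
    ENNReal.ofReal C * volume (M.NB (fm G u τ Z) (cs.c1 * rho G Z))
  have h1 : (1:ℝ) = (1 / cs.c1) * cs.c1 := by field_simp
  calc volume (M.NB (fm G u τ Z) 1) = volume (M.NB (fm G u τ Z) ((1 / cs.c1) * cs.c1)) := by
        rw [← h1]
    _ = ENNReal.ofReal ((1 / cs.c1) ^ M.r) * volume (M.NB (fm G u τ Z) cs.c1) :=
        BModel.volume_NB_smul (by positivity)
    _ ≤ ENNReal.ofReal C * volume (M.NB (fm G u τ Z) (cs.c1 * rho G Z)) := by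
        gcongr
        · exact hC
        · refine BModel.NB_mono ?_
          have := one_le_rho G hZ
          nlinarith

/-- **`gen`** from `hop` -/
theorem gen_of_hop [FiniteDimensional ℝ E] {J : ℕ} (hc : C1ok M J cs.c1) (hTU : 1 ≤ cs.TU)
    {κ C c0 : ℝ} {J' : ℕ} (hJ : J ≤ J')
    (hκ : 1 ≤ κ) (hκ' : G.RS.Gt G.RS.lam ≤ κ) (hC : 1 ≤ C) (hc0 : 0 < c0) {ε ω κ₁ : ℝ}
    (hω : ω ≤ 1 / 16)
    (hop : ∀ n ∈ (data G cs Ψ x Sc τ u).Dom, ∀ (w : G.R) (t s : ℝ), 0 ≤ s → s ≤ t → t ≤ 2 →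
      ∀ v ∈ (data G cs Ψ x Sc τ u).U w t, ∀ (z : ℝ) (X : G.R → ℝ),
          (∀ r : G.R, ⟪(r : E), (data G cs Ψ x Sc τ u).f n w s⟫ + κ₁ * (t - s) + ε ≤ X r) →
          ((data G cs Ψ x Sc τ u).g n w s)⁻¹ * (data G cs Ψ x Sc τ u).g (n * v) w s ∈
            (data G cs Ψ x Sc τ u).Bx z X) {Z : G.R → ℝ} (hZ : adm τ ω Z) :
    ∀ v ∈ ((data G cs Ψ x Sc τ u).A Z) ^ 10, ∃ l : List (G.R × M.NN), l.length ≤ J' ∧
      (∀ x' ∈ l, El.Cheap (mdl cs κ C c0 J' hκ hκ' hC hc0) (data G cs Ψ x Sc τ u) ε x'.1 (Z x'.1)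
        x'.2) ∧ (l.map Prod.snd).prod = v ∧
      ∀ l', l' <+: l → ∀ s ∈ ((data G cs Ψ x Sc τ u).A Z) ^ 5,
        s * (l'.map Prod.snd).prod ∈ (data G cs Ψ x Sc τ u).Ah Z := by
  intro v hv
  obtain ⟨l, h1, h2, h3, h4⟩ := (hc.2.2 (fm G u τ Z)).2 v
    (Set.pow_subset_pow_left (A_sub G hc u hω hZ) hv)
  set f : ℝ × GI M → G.R × M.NN := fun p => (G.ray p.2, M.E.symm (p.1 • fm G u τ Z p.2)) with hf
  have e : ∀ l : List (ℝ × GI M), (l.map f).map Prod.snd =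
      l.map fun p => M.E.symm (p.1 • fm G u τ Z p.2) := by
    intro l
    rw [List.map_map]; rfl
  refine ⟨l.map f, by rw [List.length_map]; exact h1.trans hJ, ?_, by rw [e]; exact h3, ?_⟩
  · intro y hy
    obtain ⟨p, hp, rfl⟩ := List.mem_map.1 hy
    intro n hn _ z _ X hX
    have hbd := hZ.bd hω (G.ray p.2)
    refine hop n hn (G.ray p.2) (Z (G.ray p.2)) (Z (G.ray p.2)) (by linarith [hbd.1]) le_rfl
      (by linarith [hbd.2]) _ ?_ z X fun r => ?_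
    · -- the piece is a move of the ray
      classical
      change M.E.symm (p.1 • fm G u τ Z p.2) ∈ M.NB (fw G u τ (G.ray p.2) (Z (G.ray p.2))) cs.TU
      have hOn : OnRay G (G.ray p.2) (p.2 : Fin M.r) :=
        ⟨G.RS.lam p.2, G.lam_pos p.2, fun v => G.wg_ray p.2 v⟩
      have h5 := BModel.E_symm_mem_rst (M := M)
        (fam := fun i => M.Ad (leg u τ (G.ray p.2) (Z (G.ray p.2))) (M.bas i))
        (w := OnRay G (G.ray p.2)) (i := (p.2 : Fin M.r)) hOn (h2 p hp)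
      refine BModel.NB_mono hTU ?_
      have e1 : fw G u τ (G.ray p.2) (Z (G.ray p.2)) =
          rst (fun i => M.Ad (leg u τ (G.ray p.2) (Z (G.ray p.2))) (M.bas i))
            (OnRay G (G.ray p.2)) := by
        unfold fw
        rfl
      rw [e1]
      exact h5
    · have := hX r
      change ⟪(r : E), _⟫ + ε ≤ X r at this
      linarith
  · intro l' hl' s hs
    obtain ⟨l'', hl'', rfl⟩ := List.prefix_map_iff.1 hl'
    rw [e]
    exact h4 l'' hl'' s (Set.pow_subset_pow_left (A_sub G hc u hω hZ) hs)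

end fields

variable {E : Type} [NormedAddCommGroup E] [InnerProductSpace ℝ E]

theorem fm_span {G : Geo M E} {u : G.R → M.G} {τ Sc : ℝ} {Z : G.R → ℝ} {T : ℝ}
    (h : ∀ i, gZ (eg M) (sd G Sc Z) i ∈ Bx M.c (fm G u τ Z) T) (x : M.L) :
    x ∈ Submodule.span ℝ (Set.range fun κ : List (GI M) => mon (fm G u τ Z) κ) := by
  obtain ⟨T', hT'⟩ := exists_ge fun i => Real.exp (-(sd G Sc Z i)) * T
  refine span_of_mem (T := T') (fun i => ?_) x
  have h1 := Bx_smul (h i) (Real.exp (-(sd G Sc Z i)))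
  have e1 : Real.exp (-(sd G Sc Z i)) • gZ (eg M) (sd G Sc Z) i = eg M i := by
    change Real.exp _ • Real.exp _ • eg M i = eg M i
    rw [smul_smul, ← Real.exp_add, neg_add_cancel, Real.exp_zero, one_smul]
  rw [e1, abs_of_pos (Real.exp_pos _)] at h1
  exact Bx_mono (hT'.2 i) h1

theorem ev_A_ne (G : Geo M E) (cs : Cst G) (hc1 : 0 < cs.c1) {ω : ℝ} (hω : ω ≤ 1 / 16) {γ : ℝ}
    (hγ : Gap G γ) (hωγ : ω ≤ γ / 16) (RC Cb : ℝ) :
    Ev G RC Cb fun Sc τ u => ∀ (Ψ : Γ → Γ) (x : M.G) (Z : G.R → ℝ), adm τ ω Z →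
      (data G cs Ψ x Sc τ u).μ ((data G cs Ψ x Sc τ u).A Z) ≠ 0 ∧
      Subgroup.closure ((data G cs Ψ x Sc τ u).A Z) = ⊤ := by
  refine (ev_geo G hγ one_pos 0 RC Cb).mono ?_
  intro Sc τ u _ _ h Ψ x Z hZ
  obtain ⟨-, h1, -⟩ := h ω hωγ Z hZ
  have hs : 0 < cs.c1 * rho G Z := by
    have := one_le_rho G (hZ.nonneg hω)
    positivity
  have hspan := fm_span h1
  exact ⟨(BModel.volume_NB_pos (M.nilC.nil _) hspan hs).ne',
    BModel.closure_eq_top_of_mem_nhds (BModel.NB_mem_nhds hspan hs)⟩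

/-- **comparison of the letters of two shapes**: the letters of longer rays are small. -/
theorem ev_fm_small (G : Geo M E) {γ : ℝ} (hγ : Gap G γ) {l0 : ℝ} (hl0 : 0 < l0)
    (hl : ∀ i, l0 ≤ G.RS.lam i) {ε : ℝ} (hε : 0 < ε) (RC Cb : ℝ) :
    ∃ θ : ℝ, 0 < θ ∧ Ev G RC Cb fun Sc τ u => ∀ ω, ω ≤ γ / 16 → ∀ Z Z' : G.R → ℝ, adm τ ω Z →
      adm τ ω Z' → ∀ r, Z r + ε ≤ Z' r → ∀ i, G.ray i = r →
        fm G u τ Z i ∈ Bx M.c (fm G u τ Z') (Real.exp (-(θ * Sc))) := by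
  set m : ℝ := l0 * min ε (γ / 2) with hm
  have hγ0 := hγ.1
  have hm0 : 0 < m := by positivity
  refine ⟨m / 2, by positivity, ?_⟩
  refine (ev_geo G hγ (by positivity : 0 < m / 2) 0 RC Cb).mono ?_
  intro Sc τ u hτ hSc h ω hω Z Z' hZ hZ' r hr i hi
  obtain ⟨-, -, -, -, h5⟩ := h ω hω Z' hZ'
  obtain ⟨⟨n, hn⟩, hNR⟩ := hZ
  have hω1 : ω ≤ 1 / 16 := by linarith [hγ.2.1]
  have hZb : ∀ r, 1 - ω ≤ Z r ∧ Z r ≤ 1 + ω := fun r => by
    have := abs_le.1 (hNR r)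
    constructor <;> linarith [this.1, this.2]
  have hZb' : ∀ r, 1 - ω ≤ Z' r ∧ Z' r ≤ 1 + ω := fun r => by
    have := abs_le.1 (hZ'.2 r)
    constructor <;> linarith [this.1, this.2]
  have hω0 : 0 ≤ ω := (abs_nonneg _).trans (hNR r)
  have h6 := h5 r (n r) (by rw [← hn]; linarith [(hZb r).2]) (m / 2 * Sc) (by positivity) ?_ i
  · rw [← hn] at h6
    have e1 : fm G u τ Z i = M.Ad (leg u τ r (Z r)) (M.bas i) := by
      rw [← hi]; rfl
    rw [e1]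
    exact h6
  · intro j
    rw [← hn]
    have hlj := G.lam_pos j
    have key : G.RS.lam j * (⟪(G.ray j : E), (r : E)⟫ * Z r) + m ≤
        G.RS.lam j * Z' (G.ray j) := by
      by_cases hj : G.ray j = r
      · rw [hj, real_inner_self_eq_norm_sq, G.norm_ray, one_pow, one_mul]
        have h7 : m ≤ G.RS.lam j * ε := by
          rw [hm]
          exact mul_le_mul (hl j) (min_le_left _ _) (by positivity) hlj.le
        have h8 := mul_le_mul_of_nonneg_left hr hlj.le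
        rw [mul_add] at h8
        linarith
      · have h7 := hγ.2.2 (G.ray j) r hj
        have h8 : ⟪(G.ray j : E), (r : E)⟫ * Z r ≤ (1 - γ) * (1 + ω) := by
          calc ⟪(G.ray j : E), (r : E)⟫ * Z r ≤ (1 - γ) * Z r := by
                gcongr
                linarith [(hZb r).1]
            _ ≤ (1 - γ) * (1 + ω) := by
                have : 0 ≤ 1 - γ := by linarith [hγ.2.1]
                gcongr
                exact (hZb r).2
        have h9 : (1 - γ) * (1 + ω) + γ / 2 ≤ Z' (G.ray j) := by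
          have h10 := (hZb' (G.ray j)).1
          have h11 := mul_nonneg hγ0.le hω0
          have h12 : (1 - γ) * (1 + ω) = 1 + ω - γ - γ * ω := by ring
          linarith
        have h10 : m ≤ G.RS.lam j * (γ / 2) := by
          rw [hm]
          exact mul_le_mul (hl j) (min_le_right _ _) (by positivity) hlj.le
        have h11 := mul_le_mul_of_nonneg_left (show ⟪(G.ray j : E), (r : E)⟫ * Z r + γ / 2 ≤
          Z' (G.ray j) by linarith) hlj.le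
        rw [mul_add] at h11
        linarith
    have h12 := mul_le_mul_of_nonneg_left key hSc.le
    unfold sd
    have h13 : Sc * (G.RS.lam j * (⟪(G.ray j : E), (r : E)⟫ * Z r) + m) =
        Sc * (G.RS.lam j * (⟪(G.ray j : E), (r : E)⟫ * Z r)) + m / 2 * Sc + m / 2 * Sc := by ring
    linarith

/-- **`A_mono`** -/
theorem ev_A_mono (G : Geo M E) (cs : Cst G) (hc1 : 0 < cs.c1) {ω : ℝ} (hω : ω ≤ 1 / 16) {γ : ℝ}
    (hγ : Gap G γ) (hωγ : ω ≤ γ / 16) {ε : ℝ} (hε : 0 < ε) (RC Cb : ℝ) :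
    Ev G RC Cb fun Sc τ u => ∀ (Ψ : Γ → Γ) (x : M.G) (Z Z' : G.R → ℝ), adm τ ω Z → adm τ ω Z' →
      (∀ r, Z r = Z' r ∨ Z r + ε ≤ Z' r) →
      (data G cs Ψ x Sc τ u).A Z ⊆ (data G cs Ψ x Sc τ u).A Z' := by
  classical
  obtain ⟨l0, l1, hl0, hl01, hl1, hl⟩ := exists_lam G
  obtain ⟨θ, hθ, h1⟩ := ev_fm_small G hγ hl0 (fun i => (hl i).1) hε RC Cb
  obtain ⟨A, hA, h2⟩ := M.exists_NB_mono' (GI M)
  obtain ⟨S0, hS0, h3⟩ := exists_poly_le (A * 2 * (4 * (1 + Fintype.card G.R)) / ε) 0 0 hθ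
  refine (h1.and (Ev.scale S0)).mono ?_
  rintro Sc τ u hτ hSc ⟨h4, h5⟩ Ψ x Z Z' hZ hZ' hle
  change M.NB (fm G u τ Z) (cs.c1 * rho G Z) ⊆ M.NB (fm G u τ Z') (cs.c1 * rho G Z')
  by_cases heq : ∀ r, Z r = Z' r
  · have : Z = Z' := funext heq
    rw [this]
  push Not at heq
  obtain ⟨r₀, hr₀⟩ := heq
  have hr₀' : Z r₀ + ε ≤ Z' r₀ := (hle r₀).resolve_left hr₀
  have hle' : ∀ r, Z r ≤ Z' r := fun r => (hle r).elim (fun h => h.le) fun h => by linarith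
  have h6 := rho_add_le G hle' hr₀'
  set e : ℝ := Real.exp (-(θ * Sc)) with he
  have he0 : 0 ≤ e := (Real.exp_pos _).le
  have he1 : e ≤ 1 := Real.exp_le_one_iff.2 (by
    have : 0 ≤ θ * Sc := by positivity
    linarith)
  have hs0 : 0 ≤ cs.c1 * rho G Z := by
    have := one_le_rho G (hZ.nonneg hω)
    positivity
  have h7 := h2 (fm G u τ Z') (fm G u τ Z) (fun i => Z (G.ray i) = Z' (G.ray i)) e he0 he1
    (fun i hi => by
      have hi' : Z (G.ray i) = Z' (G.ray i) := hi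
      change M.Ad (leg u τ (G.ray i) (Z (G.ray i))) (M.bas i) =
        M.Ad (leg u τ (G.ray i) (Z' (G.ray i))) (M.bas i)
      rw [hi'])
    (fun i hi => h4 ω hωγ Z Z' hZ hZ' (G.ray i) ((hle (G.ray i)).resolve_left hi) i rfl)
    (cs.c1 * rho G Z) hs0
  refine h7.trans (BModel.NB_mono ?_)
  have h8 := h3 Sc h5
  rw [pow_zero, mul_one, div_le_iff₀ hε] at h8
  have h9 : A * e * (cs.c1 * rho G Z) ≤ cs.c1 * (ε / (4 * (1 + Fintype.card G.R))) := by
    have h10 : A * 2 * (4 * (1 + Fintype.card G.R)) * e ≤ ε := by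
      calc A * 2 * (4 * (1 + Fintype.card G.R)) * e ≤ Real.exp (θ * Sc) * ε * e := by gcongr
        _ = ε * (Real.exp (θ * Sc) * Real.exp (-(θ * Sc))) := by rw [he]; ring
        _ = ε := by rw [← Real.exp_add, add_neg_cancel, Real.exp_zero, mul_one]
    have h11 : A * 2 * e ≤ ε / (4 * (1 + Fintype.card G.R)) := by
      rw [le_div_iff₀ (by positivity)]
      calc A * 2 * e * (4 * (1 + Fintype.card G.R)) = A * 2 * (4 * (1 + Fintype.card G.R)) * e := by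
            ring
        _ ≤ ε := h10
    have h12 := rho_le G (hZ.le_two hω)
    calc A * e * (cs.c1 * rho G Z) ≤ A * e * (cs.c1 * 2) := by gcongr
      _ = cs.c1 * (A * 2 * e) := by ring
      _ ≤ _ := by gcongr
  calc cs.c1 * rho G Z + A * e * (cs.c1 * rho G Z)
      ≤ cs.c1 * rho G Z + cs.c1 * (ε / (4 * (1 + Fintype.card G.R))) := by gcongr
    _ = cs.c1 * (rho G Z + ε / (4 * (1 + Fintype.card G.R))) := by ring
    _ ≤ _ := by gcongr

end Crest.Agent.R182.ElI
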