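/-
R182, module ELINST (helper89): lower bound for the volume of the boxes (field `A_vol`).
-/
import Mathlib
import Crest.Agent.R182.ElBase
import Crest.Agent.R182.NbEntF

set_option autoImplicit false
set_option linter.unusedSectionVars false

open MeasureTheory Set
open scoped Pointwise RealInnerProductSpace ENNReal

namespace Crest.Agent.R182.ElI

open Crest.GroupTheory Crest.Geometry Crest.Agent.R182.QI Crest.Agent.R182.Core
  Crest.Agent.R182.Nb Crest.Agent.R182.Gen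

/-- a box contains a parallelepiped of maximal volume -/
theorem le_vb_Bx {L : Type*} [LieRing L] [LieAlgebra ℝ L] {d : ℕ} {b : Module.Basis (Fin d) ℝ L}
    {σ : Type*} [Fintype σ] {c : ℕ} {g : σ → L} (hpos : 0 < MD b c g) {t : ℝ} (ht : 0 ≤ t) :
    ENNReal.ofReal ((2 * t) ^ d * MD b c g) ≤ vb b (Bx c g (d * t)) := by
  classical
  obtain ⟨κ, hκ⟩ := exists_MD (b := b) (c := c) (g := g)
  have hdt : |dt b g κ| ≠ 0 := by rw [← hκ]; exact hpos.ne'
  have hm : b.det (fun k => mon g (κ k : List σ)) ≠ 0 := abs_ne_zero.mp hdt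
  rw [vb_eq b hm]
  have h1 : ENNReal.ofReal ((2 * t) ^ d) ≤
      volume {y : Fin d → ℝ | ∑ k, y k • mon g (κ k : List σ) ∈ Bx c g (d * t)} := by
    have h2 := Real.volume_pi_closedBall (0 : Fin d → ℝ) (r := t) ht
    rw [Fintype.card_fin] at h2
    rw [← h2]
    refine measure_mono fun y hy => ?_
    rw [mem_closedBall_zero_iff, pi_norm_le_iff_of_nonneg ht] at hy
    refine ⟨fun κ' => ∑ k, if (κ k : List σ) = κ' then y k else 0, fun κ' => ?_, ?_⟩
    · refine (Finset.abs_sum_le_sum_abs _ _).trans ?_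
      calc ∑ k, |if (κ k : List σ) = κ' then y k else 0| ≤ ∑ _k : Fin d, t := by
            refine Finset.sum_le_sum fun k _ => ?_
            split_ifs
            · exact hy k
            · simpa using ht
        _ = d * t := by simp
    · simp only [Finset.sum_smul]
      rw [Finset.sum_comm]
      refine Finset.sum_congr rfl fun k _ => ?_
      rw [Finset.sum_eq_single (κ k : List σ)]
      · rw [if_pos rfl]
      · intro κ' _ hne
        rw [if_neg (fun h => hne h.symm), zero_smul]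
      · intro h
        exact absurd (κ k).2 h
  refine le_trans ?_ (mul_le_mul_right h1 _)
  rw [← ENNReal.ofReal_mul (abs_nonneg _)]
  refine ENNReal.ofReal_le_ofReal ?_
  change _ ≤ |dt b g κ| * _
  rw [← hκ, mul_comm]

variable {Γ : Type*} [Group Γ] {k : ℕ} {S : Set Γ} {π : Γ →* Multiplicative (Fin k → ℤ)}
variable {M : BModel S π} {E : Type*} [NormedAddCommGroup E] [InnerProductSpace ℝ E]

theorem vol_NB (A : Set M.L) : (volume : Measure M.NN) {n | M.E n ∈ A} = vb M.bas A := rfl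

theorem Bx_le_Pm {σ : Type*} [Fintype σ] {v : σ → M.L} {t : ℝ} {x : M.L} (hx : x ∈ Bx M.c v t) :
    x ∈ Pm v := by
  obtain ⟨s, _, rfl⟩ := hx
  exact Submodule.sum_mem _ fun κ _ => Submodule.smul_mem _ _ (Submodule.subset_span ⟨κ, rfl⟩)

/-- a family whose boxes contain scaled generators has positive volume -/
theorem MD_pos_of_mem {v : GI M → M.L} {Z : GI M → ℝ} {P : ℝ}
    (h : ∀ i, gZ (eg M) Z i ∈ Bx M.c v P) : 0 < MD M.bas M.c v := by
  have h1 : Pm v = ⊤ := by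
    refine top_le_iff.mp ?_
    rw [← span_mon M]
    refine Submodule.span_le.mpr ?_
    rintro _ ⟨κ, rfl⟩
    have h2 : ∀ κ : List (GI M), mon (gZ (eg M) Z) κ ∈ Pm v := by
      intro κ
      induction κ with
      | nil => simp
      | cons i κ ih =>
        by_cases hκ : κ = []
        · subst hκ
          exact Bx_le_Pm (h i)
        · rw [mon_cons _ i hκ]
          exact lie_mem_Pm v (Bx_le_Pm (h i)) ih
    have h3 := h2 κ
    rw [mon_gZ] at h3
    have h4 := Submodule.smul_mem _ (Real.exp (κ.map Z).sum)⁻¹ h3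
    rwa [smul_smul, inv_mul_cancel₀ (Real.exp_pos _).ne', one_smul] at h4
  obtain ⟨κ, hκ⟩ := exists_tup M.nilC M.bas v h1
  exact MD_pos_of hκ

/-- lower bound for the volume of a box -/
theorem exists_le_volume (M : BModel S π) : ∃ C : ℝ, 0 < C ∧ ∀ (v : GI M → M.L) (Z : GI M → ℝ)
    (P t : ℝ), 1 ≤ P → 0 ≤ t → (∀ i, gZ (eg M) Z i ∈ Bx M.c v P) →
    ENNReal.ofReal (C * t ^ M.r * (P ^ (M.c * M.r))⁻¹ * Real.exp ((gsys M).Gt Z)) ≤
      volume (M.NB v t) := by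
  obtain ⟨C₁, hC₁, h1⟩ := exists_MD_le (b := M.bas) M.nilC (GI M) (GI M)
  obtain ⟨C₂, hC₂, h2⟩ := le_MD_scaled M
  -- if `M.r = 0` the division by `M.r` is harmless
  set q : ℝ := (M.r : ℝ) + 1 with hq
  have hq0 : 0 < q := by positivity
  refine ⟨(2 / q) ^ M.r * C₁⁻¹ * C₂, by positivity, fun v Z P t hP ht h => ?_⟩
  have hpos := MD_pos_of_mem h
  have h3 := h1 v (gZ (eg M) Z) P hP hpos h
  have h4 := h2 Z
  have h5 : C₂ * Real.exp ((gsys M).Gt Z) ≤ C₁ * P ^ (M.c * M.r) * MD M.bas M.c v := h4.trans h3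
  have hP0 : 0 < P ^ (M.c * M.r) := by positivity
  have h6 : C₁⁻¹ * (P ^ (M.c * M.r))⁻¹ * (C₂ * Real.exp ((gsys M).Gt Z)) ≤ MD M.bas M.c v := by
    calc _ ≤ C₁⁻¹ * (P ^ (M.c * M.r))⁻¹ * (C₁ * P ^ (M.c * M.r) * MD M.bas M.c v) := by gcongr
      _ = MD M.bas M.c v := by field_simp
  have h7 := le_vb_Bx hpos (t := t / q) (by positivity)
  have h8 : M.NB v (M.r * (t / q)) ⊆ M.NB v t := BModel.NB_mono (by
    rw [← mul_div_assoc, div_le_iff₀ hq0, hq]
    nlinarith)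
  refine le_trans ?_ (measure_mono h8)
  refine le_trans (ENNReal.ofReal_le_ofReal ?_) h7
  calc (2 / q) ^ M.r * C₁⁻¹ * C₂ * t ^ M.r * (P ^ (M.c * M.r))⁻¹ * Real.exp ((gsys M).Gt Z)
      = (2 * (t / q)) ^ M.r * (C₁⁻¹ * (P ^ (M.c * M.r))⁻¹ * (C₂ * Real.exp ((gsys M).Gt Z))) := by
        rw [show 2 * (t / q) = 2 / q * t by ring, mul_pow]; ring
    _ ≤ _ := by gcongr

theorem GG_eq (G : Geo M E) {Sc : ℝ} (hSc : 0 ≤ Sc) (Z : G.R → ℝ) :
    (gsys M).Gt (fun i => Sc * (G.RS.lam i * Z (G.ray i))) = Sc * GG G Z := by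
  have h1 : (gsys M).Gt (fun i => Sc * (G.RS.lam i * Z (G.ray i))) =
      Sc * (gsys M).Gt (fun i => G.RS.lam i * Z (G.ray i)) := (gsys M).Gt_smul hSc _
  rw [h1]
  congr 1
  unfold GG
  have e : G.RS.Gt = (M.gsysT G.T).Gt := by rw [← G.hRS]
  rw [e]
  rfl

/-- `A_vol` from the comparison of the family of the legs with the scaled family -/
theorem exists_A_vol (G : Geo M E) (cs : Cst G) (hc1 : 0 < cs.c1) {ε : ℝ} (hε : 0 < ε) :
    ∃ δ : ℝ, 0 < δ ∧ ∃ S0 : ℝ, ∀ Sc, S0 ≤ Sc → ∀ (u : G.R → M.G) (τ : ℝ) (Z : G.R → ℝ),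
      (∀ r, 0 ≤ Z r) →
      (∀ i, gZ (eg M) (fun i => Sc * (G.RS.lam i * Z (G.ray i))) i ∈
        Bx M.c (fm G u τ Z) (Real.exp (δ * Sc))) →
      ENNReal.ofReal (Real.exp (Sc * (GG G Z - ε))) ≤
        volume (M.NB (fm G u τ Z) (cs.c1 * rho G Z)) := by
  obtain ⟨C, hC, h⟩ := exists_le_volume M
  set q : ℝ := (M.c * M.r : ℕ) + 1 with hq
  have hq0 : 0 < q := by positivity
  obtain ⟨S0, hS0, h0⟩ := exists_poly_le ((C * cs.c1 ^ M.r)⁻¹) 0 0 (δ := ε / 2) (by positivity)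
  refine ⟨ε / (2 * q), by positivity, S0, fun Sc hSc u τ Z hZ hmem => ?_⟩
  have hSc0 : 0 < Sc := by linarith
  have h1 := h (fm G u τ Z) _ (Real.exp (ε / (2 * q) * Sc)) cs.c1
    (Real.one_le_exp (by positivity)) hc1.le hmem
  have hρ : 1 ≤ rho G Z := by
    unfold rho
    have : 0 ≤ ∑ r, Z r := Finset.sum_nonneg fun r _ => hZ r
    have : 0 ≤ (∑ r, Z r) / (4 * (1 + Fintype.card G.R)) := by positivity
    linarith
  refine le_trans ?_ (h1.trans (measure_mono (BModel.NB_mono (le_mul_of_one_le_right hc1.le hρ))))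
  refine ENNReal.ofReal_le_ofReal ?_
  rw [GG_eq G hSc0.le, ← Real.exp_nat_mul, ← Real.exp_neg]
  have h2 := h0 Sc hSc
  rw [pow_zero, mul_one, inv_le_iff_one_le_mul₀ (by positivity)] at h2
  have h3 : ((M.c * M.r : ℕ) : ℝ) * (ε / (2 * q) * Sc) ≤ ε / 2 * Sc := by
    have : ((M.c * M.r : ℕ) : ℝ) ≤ q := by rw [hq]; linarith
    calc ((M.c * M.r : ℕ) : ℝ) * (ε / (2 * q) * Sc) ≤ q * (ε / (2 * q) * Sc) := by gcongr
      _ = ε / 2 * Sc := by field_simp
  calc Real.exp (Sc * (GG G Z - ε)) = 1 * (Real.exp (-(ε / 2 * Sc)) * Real.exp (-(ε / 2 * Sc)) *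
        Real.exp (Sc * GG G Z)) := by rw [one_mul, ← Real.exp_add, ← Real.exp_add]; congr 1; ring
    _ ≤ (Real.exp (ε / 2 * Sc) * (C * cs.c1 ^ M.r)) * (Real.exp (-(ε / 2 * Sc)) *
        Real.exp (-(((M.c * M.r : ℕ) : ℝ) * (ε / (2 * q) * Sc))) * Real.exp (Sc * GG G Z)) := by
        gcongr
    _ = (Real.exp (ε / 2 * Sc) * Real.exp (-(ε / 2 * Sc))) * (C * cs.c1 ^ M.r *
        Real.exp (-(((M.c * M.r : ℕ) : ℝ) * (ε / (2 * q) * Sc))) * Real.exp (Sc * GG G Z)) := by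
        ring
    _ = _ := by rw [← Real.exp_add, add_neg_cancel, Real.exp_zero, one_mul]

end Crest.Agent.R182.ElI
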