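/-
R182, module ELINST (helper329): comparison of the unipotent parts of two points connected by a path
with controlled heights.
-/
import Mathlib
import Crest.Agent.R182.ElBase

set_option autoImplicit false
set_option linter.unusedSectionVars false

open MeasureTheory Set
open scoped Pointwise RealInnerProductSpace ENNReal

namespace Crest.Agent.R182.ElI

open Crest.GroupTheory Crest.Geometry Crest.Agent.R182.QI Crest.Agent.R182.Core
  Crest.Agent.R182.Nb Crest.Agent.R182.Gen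

variable {Γ : Type*} [Group Γ] {k : ℕ} {S : Set Γ} {π : Γ →* Multiplicative (Fin k → ℤ)}
variable {M : BModel S π} {E : Type*} [NormedAddCommGroup E] [InnerProductSpace ℝ E]

/-- zero-weight elements of polynomial size lie in all boxes -/
theorem exists_zero_mem (M : BModel S π) : ∃ A : ℝ, 1 ≤ A ∧ ∀ (x : M.L) (B : ℝ), 0 ≤ B →
    ‖M.bas.equivFun x‖ ≤ B → (∀ i, M.wt i ≠ 0 → M.bas.repr x i = 0) →
    ∀ (Z : GI M → ℝ) (u : Fin k → ℝ), (∀ j : GI M, wg M j u ≤ Z j) →
      x ∈ Bx M.c (gZ (eg M) Z) (A * B) := by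
  obtain ⟨A₀, hA₀, h0⟩ := M.bas_mem
  refine ⟨(M.r : ℝ) * A₀ + 1, by
    have : 0 ≤ (M.r : ℝ) * A₀ := by positivity
    linarith, fun x B hB hx hz Z u hZ => ?_⟩
  have hx1 : x = ∑ i, M.bas.repr x i • M.bas i := (M.bas.sum_repr x).symm
  have h1 : ∀ i ∈ (Finset.univ : Finset (Fin M.r)),
      M.bas.repr x i • M.bas i ∈ Bx M.c (gZ (eg M) Z) (B * A₀) := by
    intro i _
    by_cases hi : M.wt i = 0
    · have h2 := h0 i Z u hZ
      rw [hi, LinearMap.zero_apply, Real.exp_zero, one_smul] at h2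
      refine Bx_mono ?_ (Bx_smul h2 _)
      have h3 : |M.bas.repr x i| ≤ B := by
        have := norm_le_pi_norm (M.bas.equivFun x) i
        rw [Real.norm_eq_abs] at this
        exact this.trans hx
      gcongr
    · rw [hz i hi, zero_smul]
      exact Bx_zero_mem (by positivity)
  rw [hx1]
  refine Bx_mono ?_ (Bx_sum _ _ _ h1)
  rw [Finset.sum_const, Finset.card_univ, Fintype.card_fin, nsmul_eq_mul]
  nlinarith

/-- **comparison of the unipotent parts along a path** -/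
theorem exists_cmp (hD : CDist M) (R : ℝ) (hR : 0 ≤ R) : ∃ (A : ℝ) (D : ℕ), 1 ≤ A ∧
    ∀ (Z : GI M → ℝ) (p : ℕ → M.G) (m : ℕ) (L : ℝ), 1 ≤ L → M.len (p 0) ≤ L → (m : ℝ) ≤ L →
      (∀ j < m, M.len ((p j)⁻¹ * p (j + 1)) ≤ R) →
      (∀ j ≤ m, ∀ i : GI M, wg M i (M.h (p j)) ≤ Z i) →
      (up M (p 0))⁻¹ * up M (p m) ∈ M.NB (gZ (eg M) Z) (A * L ^ D) := by
  obtain ⟨A₁, D₁, hA₁, h1⟩ := M.reach_mem R (RU M)
  obtain ⟨A₂, h2⟩ := hD (max (RU M) A₁)
  obtain ⟨A₃, hA₃, h3⟩ := exists_zero_mem M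
  obtain ⟨A₄, hA₄, h4⟩ := M.star.exists_prod_poly (GI M) M.c M.nilC
  -- a common bound for the two factors
  set B : ℝ := A₁ * 4 ^ D₁ + A₃ * (A₂ * (6 + R) ^ A₂) with hB
  have hB1 : 1 ≤ B := by
    have e1 : (1:ℝ) ≤ 4 ^ D₁ := one_le_pow₀ (by norm_num)
    have e2 : 0 ≤ A₃ * (A₂ * (6 + R) ^ A₂) := by positivity
    nlinarith
  refine ⟨A₄ * (3 * B) ^ M.c, (D₁ + A₂) * M.c, ?_, ?_⟩
  · have e1 : 1 ≤ (3 * B) ^ M.c := one_le_pow₀ (by linarith)
    nlinarith
  intro Z p m L hL hp0 hm hstep hhgt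
  obtain ⟨l₀, hl₀, hl₀C, hl₀len⟩ := up_spec M (p 0)
  obtain ⟨l', hl', hl'C, hl'len⟩ := up_spec M (p m)
  obtain ⟨y, l, hlm, hlC, hpm, hy⟩ := h1 Z p m (M.E (up M (p 0))) l₀ hl₀C
    (by rw [hl₀, ← hl₀]; exact hl₀) hstep hhgt
  -- length of the end point
  have hlenm : ∀ j ≤ m, M.len (p j) ≤ M.len (p 0) + R * j := by
    intro j
    induction j with
    | zero => intro _; simp
    | succ j ih =>
      intro hj
      have e1 : p (j + 1) = p j * ((p j)⁻¹ * p (j + 1)) := by group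
      rw [e1]
      have e2 := M.isLen.mul (p j) ((p j)⁻¹ * p (j + 1))
      have e3 := ih (by omega)
      have e4 := hstep j (by omega)
      push_cast
      linarith
  have hl₀2 : (l₀.length : ℝ) ≤ 2 * L := by linarith
  have hl'2 : (l'.length : ℝ) ≤ (2 + R) * L := by
    have e1 := hlenm m le_rfl
    have e2 : R * m ≤ R * L := mul_le_mul_of_nonneg_left hm hR
    nlinarith
  -- the ambiguity
  set z : M.L := M.star.op (-y) (M.E ((up M (p 0))⁻¹ * up M (p m))) with hz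
  have hzex : M.ex z = (l₀ ++ l ++ (l'.reverse.map (·⁻¹))).prod := by
    rw [hz, M.ex_op]
    have e1 : M.ex (-y) = (M.ex y)⁻¹ := by
      have h := M.ex_op (-y) y
      rw [M.op_neg', M.ex_zero] at h
      exact eq_inv_of_mul_eq_one_left h.symm
    have e2 : M.ex (M.E ((up M (p 0))⁻¹ * up M (p m))) =
        (M.toG (up M (p 0)))⁻¹ * M.toG (up M (p m)) := by
      rw [← M.toG_apply, map_mul, map_inv]
    have e3 : M.toG (up M (p 0)) * M.ex y * (l₀.prod * l.prod) =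
        M.toG (up M (p m)) * l'.prod := by
      rw [M.toG_apply, ← M.ex_op, ← hpm]
      exact hl'
    rw [e1, e2, List.prod_append, List.prod_append, BModel.prod_word_inv]
    have e4 : M.toG (up M (p m)) =
        M.toG (up M (p 0)) * M.ex y * (l₀.prod * l.prod) * (l'.prod)⁻¹ := by
      rw [e3]; group
    rw [e4]; group
  have hzlet : ∀ s ∈ l₀ ++ l ++ (l'.reverse.map (·⁻¹)), s ∈ M.C ∧ M.len s ≤ max (RU M) A₁ := by
    intro s hs
    rcases List.mem_append.1 hs with hs | hs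
    · rcases List.mem_append.1 hs with hs | hs
      · exact ⟨(hl₀C s hs).1, (hl₀C s hs).2.trans (le_max_left _ _)⟩
      · exact ⟨(hlC s hs).1, (hlC s hs).2.trans (le_max_right _ _)⟩
    · have := M.word_inv hl'C s hs
      exact ⟨this.1, this.2.trans (le_max_left _ _)⟩
  have hzlen : (1:ℝ) + ((l₀ ++ l ++ (l'.reverse.map (·⁻¹))).length : ℝ) ≤ (6 + R) * L := by
    rw [List.length_append, List.length_append, List.length_map, List.length_reverse, hlm]
    push_cast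
    nlinarith
  have hznorm := h2 _ hzlet z hzex
  have hzB : ‖M.bas.equivFun z‖ ≤ A₂ * ((6 + R) * L) ^ A₂ := by
    refine hznorm.trans ?_
    gcongr
  have hzC : M.ex z ∈ M.C := by
    rw [hzex]
    exact Subgroup.list_prod_mem _ fun s hs => (hzlet s hs).1
  have hzbox := h3 z _ (by positivity) hzB ((M.ex_mem_C z).1 hzC) Z (M.h (p 0))
    (hhgt 0 (Nat.zero_le _))
  -- the two factors in a common box
  have hpow : ∀ a b : ℕ, L ^ a ≤ L ^ (a + b) := fun a b => pow_le_pow_right₀ hL (by omega)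
  have hT : 1 ≤ B * L ^ (D₁ + A₂) := by
    have := one_le_pow₀ (n := D₁ + A₂) hL
    nlinarith
  have hA₃0 : 0 ≤ A₃ := by linarith
  have hy' : y ∈ Bx M.c (gZ (eg M) Z) (B * L ^ (D₁ + A₂)) := by
    refine Bx_mono ?_ hy
    have e1 : (1:ℝ) + l₀.length + m ≤ 4 * L := by linarith
    have e2 : (0:ℝ) ≤ 1 + l₀.length + m := by positivity
    calc A₁ * (1 + (l₀.length : ℝ) + m) ^ D₁ ≤ A₁ * (4 * L) ^ D₁ := by gcongr
      _ = (A₁ * 4 ^ D₁) * L ^ D₁ := by rw [mul_pow]; ring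
      _ ≤ B * L ^ (D₁ + A₂) := by
          have e3 : A₁ * 4 ^ D₁ ≤ B := by
            rw [hB]
            have : 0 ≤ A₃ * (A₂ * (6 + R) ^ A₂) := by positivity
            linarith
          have e4 := hpow D₁ A₂
          gcongr
  have hz' : z ∈ Bx M.c (gZ (eg M) Z) (B * L ^ (D₁ + A₂)) := by
    refine Bx_mono ?_ hzbox
    calc A₃ * (A₂ * ((6 + R) * L) ^ A₂) = (A₃ * (A₂ * (6 + R) ^ A₂)) * L ^ A₂ := by
          rw [mul_pow]; ring
      _ ≤ B * L ^ (D₁ + A₂) := by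
          have e3 : A₃ * (A₂ * (6 + R) ^ A₂) ≤ B := by
            rw [hB]
            have : 0 ≤ A₁ * 4 ^ D₁ := by positivity
            linarith
          have e4 := hpow A₂ D₁
          rw [add_comm A₂ D₁] at e4
          gcongr
  have hfin : M.E ((up M (p 0))⁻¹ * up M (p m)) = M.star.prod [y, z] := by
    rw [Nb.Star.prod_cons, Nb.Star.prod_cons, Nb.Star.prod_nil, M.star.op_zero, hz,
      ← M.star.assoc]
    have e1 : M.star.op y (-y) = 0 := by
      have := M.op_neg' (-y)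
      rwa [neg_neg] at this
    rw [e1, M.star.zero_op]
  rw [BModel.mem_NB, hfin]
  refine Bx_mono ?_ (h4 _ _ hT [y, z] ?_)
  · have e1 : (1 + (([y, z] : List M.L).length : ℝ)) = 3 := by
      simp; norm_num
    rw [e1, pow_mul, ← mul_assoc, mul_pow (3 * B), mul_assoc A₄]
  · intro w hw
    simp only [List.mem_cons, List.not_mem_nil, or_false] at hw
    rcases hw with rfl | rfl
    · exact hy'
    · exact hz'

/-- heights are Lipschitz -/
theorem exists_T_le (G : Geo M E) : ∃ C : ℝ, 1 ≤ C ∧ ∀ g : M.G, ‖G.T (M.h g)‖ ≤ C * M.len g := by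
  have hfd : FiniteDimensional ℝ E := G.T.finiteDimensional
  set t1 : ℝ := ‖LinearMap.toContinuousLinearMap (G.T : (Fin k → ℝ) →ₗ[ℝ] E)‖ with ht1
  have ht10 : 0 ≤ t1 := norm_nonneg _
  have ha := M.a0
  refine ⟨t1 * M.a + 1, by nlinarith, fun g => ?_⟩
  have h1 : ‖G.T (M.h g)‖ ≤ t1 * ‖M.h g‖ :=
    (LinearMap.toContinuousLinearMap (G.T : (Fin k → ℝ) →ₗ[ℝ] E)).le_opNorm _
  have h2 : ‖M.h g‖ ≤ M.a * M.len g := by
    refine (pi_norm_le_iff_of_nonneg (mul_nonneg ha (M.len_nonneg g))).2 fun i => ?_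
    rw [Real.norm_eq_abs]
    exact M.h_le g i
  have h3 := M.len_nonneg g
  calc ‖G.T (M.h g)‖ ≤ t1 * (M.a * M.len g) := h1.trans (by gcongr)
    _ ≤ (t1 * M.a + 1) * M.len g := by nlinarith

/-- difference of the heights of two points -/
theorem T_h_sub (G : Geo M E) (g g' : M.G) :
    G.T (M.h g') - G.T (M.h g) = G.T (M.h (g⁻¹ * g')) := by
  rw [M.h_mul, M.h_inv, ← map_sub]; congr 1; abel

theorem wg_le (G : Geo M E) (i : GI M) (v : Fin k → ℝ) :
    |wg M i v| ≤ G.RS.lam i * ‖G.T v‖ := by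
  rw [G.wg_ray, abs_mul, abs_of_pos (G.lam_pos i)]
  refine mul_le_mul_of_nonneg_left ?_ (G.lam_pos i).le
  refine (abs_real_inner_le_norm _ _).trans ?_
  rw [G.norm_ray, one_mul]

end Crest.Agent.R182.ElI
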