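/-
R182, module ELINST (helper329): hops, lines, cheap hops and the Lipschitz estimate for the data of
a `BModel`.
-/
import Mathlib
import Crest.Agent.R182.ElCmp

set_option autoImplicit false
set_option linter.unusedSectionVars false

open MeasureTheory Set
open scoped Pointwise RealInnerProductSpace ENNReal

namespace Crest.Agent.R182.ElI

open Crest.GroupTheory Crest.Geometry Crest.Agent.R182.QI Crest.Agent.R182.Core
  Crest.Agent.R182.Nb Crest.Agent.R182.Gen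

/-- enlarging the logarithmic sizes absorbs constants -/
theorem gZ_absorb {L σ : Type*} [LieRing L] [LieAlgebra ℝ L] [Fintype σ] {c : ℕ} {g : σ → L}
    {Z Z' : σ → ℝ} {a t : ℝ} (ha : 0 ≤ a) (ht : 0 ≤ t) (h : ∀ i, Z i + a ≤ Z' i) {x : L}
    (hx : x ∈ Bx c (gZ g Z) t) : x ∈ Bx c (gZ g Z') (Real.exp (-a) * t) := by
  classical
  obtain ⟨b, hb, rfl⟩ := hx
  have hsum : ∀ κ : List σ, κ ≠ [] → (κ.map Z).sum + a ≤ (κ.map Z').sum := by
    intro κ hκ
    induction κ with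
    | nil => exact absurd rfl hκ
    | cons i κ ih =>
      rw [List.map_cons, List.map_cons, List.sum_cons, List.sum_cons]
      by_cases h0 : κ = []
      · subst h0; simpa using h i
      · have := ih h0
        linarith [h i]
  refine ⟨fun κ => if κ = [] then 0 else b κ * Real.exp ((κ.map Z).sum - (κ.map Z').sum),
    fun κ => ?_, ?_⟩
  · beta_reduce
    split_ifs with h0
    · rw [abs_zero]; positivity
    · rw [abs_mul, abs_of_pos (Real.exp_pos _), mul_comm]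
      have h1 := hsum κ h0
      have h2 := hb κ
      gcongr
      linarith
  · refine Finset.sum_congr rfl fun κ _ => ?_
    beta_reduce
    split_ifs with h0
    · subst h0; simp
    · rw [mon_gZ, mon_gZ, smul_smul, smul_smul, mul_assoc, ← Real.exp_add]
      congr 3
      ring

variable {Γ : Type*} [Group Γ] {k : ℕ} {S : Set Γ} {π : Γ →* Multiplicative (Fin k → ℤ)}
variable {M : BModel S π} {E : Type*} [NormedAddCommGroup E] [InnerProductSpace ℝ E]

/-- polynomial factors are absorbed by the target boxes -/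
theorem exists_absorb_tBx (G : Geo M E) (A B : ℝ) (D : ℕ) {ε : ℝ} (hε : 0 < ε) :
    ∃ S0 : ℝ, 1 ≤ S0 ∧ ∀ Sc, S0 ≤ Sc → ∀ (X : G.R → ℝ) (Z : GI M → ℝ),
      (∀ i, Z i + Sc * (G.RS.lam i * ε) ≤ Sc * (G.RS.lam i * X (G.ray i))) →
      M.NB (gZ (eg M) Z) (A * (1 + B * Sc) ^ D) ⊆ tBx G Sc X := by
  obtain ⟨l0, l1, hl0, -, -, hl⟩ := exists_lam G
  obtain ⟨S0, h1, h2⟩ := exists_poly_le |A| |B| D (δ := l0 * ε) (by positivity)
  refine ⟨S0, h1, fun Sc hSc X Z hZ n hn => ?_⟩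
  have hSc0 : 0 ≤ Sc := by linarith
  rw [BModel.mem_NB] at hn
  have h3 : M.E n ∈ Bx M.c (gZ (eg M) Z) (|A| * (1 + |B| * Sc) ^ D) := by
    refine Bx_mono ?_ hn
    refine (le_abs_self _).trans ?_
    rw [abs_mul, abs_pow]
    have : |1 + B * Sc| ≤ 1 + |B| * Sc := by
      refine (abs_add_le _ _).trans ?_
      rw [abs_one, abs_mul, abs_of_nonneg hSc0]
    gcongr
  have h4 := gZ_absorb (a := Sc * (l0 * ε)) (by positivity) (by positivity)
    (Z' := fun i => Sc * (G.RS.lam i * X (G.ray i))) (fun i => by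
      refine le_trans ?_ (hZ i)
      have := (hl i).1
      gcongr) h3
  rw [tBx, BModel.mem_NB]
  refine Bx_mono ?_ h4
  have h5 := h2 Sc hSc
  calc Real.exp (-(Sc * (l0 * ε))) * (|A| * (1 + |B| * Sc) ^ D)
      ≤ Real.exp (-(Sc * (l0 * ε))) * Real.exp (l0 * ε * Sc) := by gcongr
    _ = 1 := by rw [← Real.exp_add, mul_comm Sc]; simp

/-- the unipotent parts of the images of two points at distance `len b` -/
theorem exists_move (hD : CDist M) (K : ℕ) : ∃ (A : ℝ) (D : ℕ), 1 ≤ A ∧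
    ∀ Ψ : Γ → Γ, QIMap S S Ψ K → ∀ (x a b : M.G) (Z : GI M → ℝ) (L : ℝ), 1 ≤ L →
      M.len ((M.ext Ψ x)⁻¹ * M.ext Ψ a) ≤ L → M.len b + 1 ≤ L →
      (∀ i, wg M i (M.h ((M.ext Ψ x)⁻¹ * M.ext Ψ a)) + A * (1 + M.len b) ≤ Z i) →
      (up M ((M.ext Ψ x)⁻¹ * M.ext Ψ a))⁻¹ * up M ((M.ext Ψ x)⁻¹ * M.ext Ψ (a * b)) ∈
        M.NB (gZ (eg M) Z) (A * L ^ D) := by
  obtain ⟨Cw, hCw, hwt⟩ := BModel.exists_wt_le M
  have ha := M.one_le_a
  have hKQ : 0 ≤ M.KQ K := by unfold BModel.KQ; positivity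
  obtain ⟨A₁, D₁, hA₁, h1⟩ := exists_cmp hD (M.KQ K * M.a + M.KQ K) (by positivity)
  set C₂ : ℝ := Cw * (M.a * (M.KQ K * M.a + M.KQ K)) with hC₂
  have hC₂0 : 0 ≤ C₂ := by positivity
  refine ⟨A₁ + C₂, D₁, by linarith, ?_⟩
  intro Ψ hΨ x a b Z L hL hlen hb hZ
  obtain ⟨l, hl, hllen, hla⟩ := M.letters b
  have hlb : M.len b ≥ 0 := M.len_nonneg b
  set p : ℕ → M.G := fun j => (M.ext Ψ x)⁻¹ * M.ext Ψ (a * (l.take j).prod) with hp
  have hp0 : p 0 = (M.ext Ψ x)⁻¹ * M.ext Ψ a := by rw [hp]; simp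
  have hpm : p l.length = (M.ext Ψ x)⁻¹ * M.ext Ψ (a * b) := by
    rw [hp]; beta_reduce; rw [List.take_length, ← hl]
  have h2 := h1 Z p l.length L hL (by rw [hp0]; exact hlen) (by linarith) ?_ ?_
  · rw [hp0, hpm] at h2
    refine BModel.NB_mono ?_ h2
    have : (1:ℝ) ≤ L ^ D₁ := one_le_pow₀ hL
    gcongr
    linarith
  · intro j hj
    have e1 : (p j)⁻¹ * p (j + 1) = (M.ext Ψ (a * (l.take j).prod))⁻¹ *
        M.ext Ψ (a * (l.take j).prod * l[j]) := by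
      rw [hp]; beta_reduce
      rw [List.prod_take_succ l j hj, mul_assoc a]; group
    rw [e1]
    refine (M.ext_lip hΨ _ _).trans ?_
    have := hla _ (List.getElem_mem hj)
    gcongr
  · intro j hj i
    have e1 : (p 0)⁻¹ * p j = (M.ext Ψ a)⁻¹ * M.ext Ψ (a * (l.take j).prod) := by
      rw [hp0, hp]; beta_reduce; group
    have e2 : M.h (p j) = M.h (p 0) + M.h ((p 0)⁻¹ * p j) := by
      rw [← M.h_mul]; congr 1; group
    have e3 : M.len ((p 0)⁻¹ * p j) ≤ (M.KQ K * M.a + M.KQ K) * (1 + M.len b) := by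
      rw [e1]
      refine (M.ext_lip hΨ _ _).trans ?_
      have h3 := M.len_list_le (l.take j) (R := M.a) fun s hs => hla s (List.mem_of_mem_take hs)
      have h4 : ((l.take j).length : ℝ) ≤ M.len b + 1 := by
        refine le_trans ?_ hllen
        exact_mod_cast (List.length_take_le j l).trans le_rfl |>.trans (by simpa using hj)
      have h5 : M.len (l.take j).prod ≤ (M.len b + 1) * M.a := h3.trans (by gcongr)
      calc M.KQ K * M.len (l.take j).prod + M.KQ K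
          ≤ M.KQ K * ((M.len b + 1) * M.a) + M.KQ K := by gcongr
        _ ≤ (M.KQ K * M.a + M.KQ K) * (1 + M.len b) := by nlinarith [mul_nonneg hKQ hlb]
    have e4 : |wg M i (M.h ((p 0)⁻¹ * p j))| ≤ C₂ * (1 + M.len b) := by
      refine (hwt i _).trans ?_
      have h6 : ‖M.h ((p 0)⁻¹ * p j)‖ ≤ M.a * M.len ((p 0)⁻¹ * p j) := by
        refine (pi_norm_le_iff_of_nonneg (mul_nonneg M.a0 (M.len_nonneg _))).2 fun i => ?_
        rw [Real.norm_eq_abs]
        exact M.h_le _ i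
      calc Cw * ‖M.h ((p 0)⁻¹ * p j)‖
          ≤ Cw * (M.a * ((M.KQ K * M.a + M.KQ K) * (1 + M.len b))) := by
            have := M.a0
            gcongr
            exact h6.trans (by gcongr)
        _ = C₂ * (1 + M.len b) := by rw [hC₂]; ring
    rw [e2, map_add]
    have h7 := hZ i
    rw [← hp0] at h7
    have h8 := le_abs_self (wg M i (M.h ((p 0)⁻¹ * p j)))
    nlinarith

/-- length of the moves of `U`, seen from a shorter leg -/
theorem exists_len_U (G : Geo M E) (RC Cb TU : ℝ) (hTU : 0 ≤ TU) : ∃ κ1 : ℝ, 1 ≤ κ1 ∧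
    ∀ ε : ℝ, 0 < ε → Ev G RC Cb fun Sc τ u => ∀ (w : G.R) (s t : ℝ), 0 ≤ s → s ≤ t → t ≤ 2 →
      ∀ v ∈ M.NB (fw G u τ w t) TU,
        M.len ((leg u τ w s)⁻¹ * M.toG v * leg u τ w s) ≤ (κ1 * (t - s) + ε) * Sc := by
  classical
  obtain ⟨A, hA, h1⟩ := M.exists_len_conj RC TU hTU
  obtain ⟨cm, hcm, hc⟩ := exists_ge fun p : G.R × Fin M.r =>
    if h : OnRay G p.1 p.2 then h.choose else 0
  refine ⟨A * cm, by nlinarith, fun ε hε => ?_⟩
  have hAc : 0 < A * cm := by positivity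
  set e0 : ℝ := ε / (16 * (A * cm)) with he0
  have he0' : 0 < e0 := by positivity
  refine ⟨ε / (8 * (A * cm)), by positivity, fun τ hτ hτ0 => ⟨e0, he0', ?_⟩⟩
  obtain ⟨S1, hS1, h2⟩ := exists_log_le A (4 * Cb) (δ := ε / 4) (by positivity)
  refine ⟨S1, fun Sc hSc un w s t hs hst ht v hv => ?_⟩
  have hSc0 : 0 < Sc := by linarith
  have hCb : 0 ≤ Cb := un.Cb_nonneg w (mul_pos hτ hSc0)
  have ht0 : 0 ≤ t := hs.trans hst
  set Zc : ℝ := cm * (((t - s) + 4 * e0 + 2 * τ) * Sc) with hZc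
  have hZ0 : 0 ≤ Zc := by
    have : 0 ≤ t - s := by linarith
    positivity
  have hcond : ∀ i, OnRay G w i →
      M.wt i (M.h (un.wl w (num τ t)).prod) ≤ M.wt i (M.h (un.wl w (num τ s)).prod) + Zc := by
    intro i hi
    have hc' := hc (w, i)
    beta_reduce at hc'
    rw [dif_pos hi] at hc'
    obtain ⟨hc0, hci⟩ := hi.choose_spec
    rw [un.wl_prod_leg, un.wl_prod_leg, hci, hci]
    have h3 := un.height_leg w hτ hSc0 he0'.le ht0
    have h4 := un.height_leg w hτ hSc0 he0'.le hs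
    have h5 : ⟪(w : E), G.T (M.h (leg un.u τ w t))⟫ - ⟪(w : E), G.T (M.h (leg un.u τ w s))⟫ ≤
        ((t - s) + 4 * e0 + 2 * τ) * Sc := by
      have e1 : ⟪(w : E), G.T (M.h (leg un.u τ w t))⟫ - ⟪(w : E), G.T (M.h (leg un.u τ w s))⟫ =
          ⟪(w : E), G.T (M.h (leg un.u τ w t)) - (t * Sc) • (w : E)⟫ -
          ⟪(w : E), G.T (M.h (leg un.u τ w s)) - (s * Sc) • (w : E)⟫ + (t - s) * Sc := by
        rw [inner_sub_right, inner_sub_right, inner_smul_right, inner_smul_right,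
          real_inner_self_eq_norm_sq, G.norm_ray]
        ring
      rw [e1]
      have e2 := (abs_le.1 ((abs_real_inner_le_norm (w : E)
        (G.T (M.h (leg un.u τ w t)) - (t * Sc) • (w : E))))).2
      have e3 := (abs_le.1 ((abs_real_inner_le_norm (w : E)
        (G.T (M.h (leg un.u τ w s)) - (s * Sc) • (w : E))))).1
      rw [G.norm_ray, one_mul] at e2 e3
      have e4 : (e0 * t + τ) * Sc ≤ (2 * e0 + τ) * Sc := by
        have : e0 * t ≤ 2 * e0 := by nlinarith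
        gcongr
      have e5 : (e0 * s + τ) * Sc ≤ (2 * e0 + τ) * Sc := by
        have : e0 * s ≤ 2 * e0 := by nlinarith
        gcongr
      nlinarith
    have h6 : 0 ≤ ((t - s) + 4 * e0 + 2 * τ) * Sc := by
      have : 0 ≤ t - s := by linarith
      positivity
    have h7 : hi.choose * (⟪(w : E), G.T (M.h (leg un.u τ w t))⟫ -
        ⟪(w : E), G.T (M.h (leg un.u τ w s))⟫) ≤ cm * (((t - s) + 4 * e0 + 2 * τ) * Sc) :=
      (mul_le_mul_of_nonneg_left h5 hc0.le).trans (mul_le_mul_of_nonneg_right hc' h6)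
    rw [hZc]
    nlinarith
  have h3 := h1 (un.wl w (num τ t)) (un.wl w (num τ s)) (un.wl_mem w _) (un.wl_mem w _)
    (OnRay G w) Zc hZ0 hcond (M.E v) (by
      rw [BModel.mem_NB] at hv
      unfold fw at hv
      rw [un.wl_prod_leg]
      convert hv)
  rw [un.wl_prod_leg, ← M.toG_apply] at h3
  refine h3.trans ?_
  have hl1 := un.wl_len_leg w hτ hSc0 ht0
  have hl2 := un.wl_len_leg w hτ hSc0 hs
  have h4 := h2 Sc hSc (1 + ((un.wl w (num τ t)).length : ℝ) + ((un.wl w (num τ s)).length : ℝ))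
    (by positivity) (by
      rw [abs_of_nonneg (by positivity : 0 ≤ 4 * Cb)]
      have e1 : Cb * t * Sc ≤ Cb * 2 * Sc := by gcongr
      have e2 : Cb * s * Sc ≤ Cb * 2 * Sc := by
        have : s ≤ 2 := hst.trans ht
        gcongr
      nlinarith)
  rw [abs_of_nonneg (by linarith : 0 ≤ A)] at h4
  have h5 : A * Zc ≤ (A * cm * (t - s) + ε / 2) * Sc := by
    have e1 : A * Zc = (A * cm * (t - s) + (A * cm * (4 * e0) + A * cm * (2 * τ))) * Sc := by
      rw [hZc]; ring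
    rw [e1]
    have e2 : A * cm * (4 * e0) = ε / 4 := by
      rw [he0]
      have : A * cm ≠ 0 := hAc.ne'
      field_simp
      norm_num
    have e3 : A * cm * (2 * τ) ≤ ε / 4 := by
      have := mul_le_mul_of_nonneg_left hτ0 hAc.le
      have e4 : A * cm * (ε / (8 * (A * cm))) = ε / 8 := by field_simp
      nlinarith
    gcongr
    linarith
  have e6 : A * (1 + Zc + Real.log (1 + ((un.wl w (num τ t)).length : ℝ) +
      ((un.wl w (num τ s)).length : ℝ))) = A * Zc + A * (1 + Real.log (1 +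
      ((un.wl w (num τ t)).length : ℝ) + ((un.wl w (num τ s)).length : ℝ))) := by ring
  rw [e6]
  have e7 : (A * cm * (t - s) + ε) * Sc = (A * cm * (t - s) + ε / 2) * Sc + ε / 2 * Sc := by ring
  rw [e7]
  have e8 : ε / 4 * Sc ≤ ε / 2 * Sc := by nlinarith
  linarith

/-- the point `x n v leg = (x n leg) (leg⁻¹ v leg)` -/
theorem pnt_mul {G : Geo M E} (Ψ : Γ → Γ) (x : M.G) (u : G.R → M.G) (τ : ℝ) (n v : M.NN) (r : G.R)
    (s : ℝ) : pnt Ψ x u τ (n * v) r s = (M.ext Ψ x)⁻¹ * M.ext Ψ (x * M.toG n * leg u τ r s *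
      ((leg u τ r s)⁻¹ * M.toG v * leg u τ r s)) := by
  unfold pnt
  rw [map_mul]
  congr 2
  group

/-- heights of the image of a move -/
theorem exists_lip_aux (G : Geo M E) (K : ℕ) : ∃ C : ℝ, 1 ≤ C ∧ ∀ Ψ : Γ → Γ, QIMap S S Ψ K →
    ∀ (x : M.G) (u : G.R → M.G) (τ : ℝ) (n v : M.NN) (r : G.R) (s : ℝ),
      ‖G.T (M.h (pnt Ψ x u τ (n * v) r s)) - G.T (M.h (pnt Ψ x u τ n r s))‖ ≤
        C * (M.len ((leg u τ r s)⁻¹ * M.toG v * leg u τ r s) + 1) := by
  obtain ⟨CT, hCT, h1⟩ := exists_T_le G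
  have hKQ : 0 ≤ M.KQ K := by unfold BModel.KQ; have := M.a0; positivity
  refine ⟨CT * M.KQ K + 1, by nlinarith, fun Ψ hΨ x u τ n v r s => ?_⟩
  rw [T_h_sub]
  refine (h1 _).trans ?_
  have e1 : (pnt Ψ x u τ n r s)⁻¹ * pnt Ψ x u τ (n * v) r s =
      (M.ext Ψ (x * M.toG n * leg u τ r s))⁻¹ * M.ext Ψ (x * M.toG n * leg u τ r s *
      ((leg u τ r s)⁻¹ * M.toG v * leg u τ r s)) := by
    rw [pnt_mul]; unfold pnt; group
  rw [e1]
  have h2 := M.ext_lip hΨ (x * M.toG n * leg u τ r s) ((leg u τ r s)⁻¹ * M.toG v * leg u τ r s)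
  have h3 := M.len_nonneg ((leg u τ r s)⁻¹ * M.toG v * leg u τ r s)
  calc CT * M.len _ ≤ CT * (M.KQ K * M.len ((leg u τ r s)⁻¹ * M.toG v * leg u τ r s) + M.KQ K) := by
        gcongr
    _ = CT * M.KQ K * (M.len ((leg u τ r s)⁻¹ * M.toG v * leg u τ r s) + 1) := by ring
    _ ≤ _ := by
        gcongr
        linarith

/-- **field `lip`** -/
theorem exists_lip (G : Geo M E) (cs : Cst G) (hTU : 0 ≤ cs.TU) (K : ℕ) (RC Cb : ℝ) :
    ∃ κ1 : ℝ, 1 ≤ κ1 ∧ ∀ κ, κ1 ≤ κ → ∀ ε : ℝ, 0 < ε → Ev G RC Cb fun Sc τ u =>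
      ∀ Ψ : Γ → Γ, QIMap S S Ψ K → ∀ x : M.G, ∀ (n : M.NN) (w : G.R) (t s : ℝ), 0 ≤ s → s ≤ t →
        t ≤ 2 → ∀ v ∈ (data G cs Ψ x Sc τ u).U w t,
          ‖(data G cs Ψ x Sc τ u).f (n * v) w s - (data G cs Ψ x Sc τ u).f n w s‖ ≤
            κ * (t - s) + ε := by
  obtain ⟨κ1, hκ1, h1⟩ := exists_len_U G RC Cb cs.TU hTU
  obtain ⟨C, hC, h2⟩ := exists_lip_aux G K
  refine ⟨C * κ1, by nlinarith, fun κ hκ ε hε => ?_⟩
  refine ((h1 (ε / (2 * C)) (by positivity)).and (Ev.scale (2 * C / ε))).mono ?_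
  rintro Sc τ u hτ hSc ⟨h3, h4⟩ Ψ hΨ x n w t s hs hst ht v hv
  have h5 := h3 w s t hs hst ht v hv
  have h6 := h2 Ψ hΨ x u τ n v w s
  change ‖Sc⁻¹ • G.T (M.h (pnt Ψ x u τ (n * v) w s)) - Sc⁻¹ • G.T (M.h (pnt Ψ x u τ n w s))‖ ≤ _
  rw [← smul_sub, norm_smul, norm_inv, Real.norm_of_nonneg hSc.le, inv_mul_le_iff₀ hSc]
  refine h6.trans ?_
  have h7 : C * 1 ≤ Sc * (ε / 2) := by
    rw [div_le_iff₀ hε] at h4
    linarith
  have hts : 0 ≤ t - s := by linarith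
  calc C * (M.len ((leg u τ w s)⁻¹ * M.toG v * leg u τ w s) + 1)
      ≤ C * ((κ1 * (t - s) + ε / (2 * C)) * Sc + 1) := by gcongr
    _ = Sc * (C * κ1 * (t - s) + C * (ε / (2 * C))) + C * 1 := by ring
    _ = Sc * (C * κ1 * (t - s) + ε / 2) + C * 1 := by
        congr 3
        field_simp
    _ ≤ Sc * (C * κ1 * (t - s) + ε / 2) + Sc * (ε / 2) := by gcongr
    _ = Sc * (C * κ1 * (t - s) + ε) := by ring
    _ ≤ Sc * (κ * (t - s) + ε) := by gcongr

end Crest.Agent.R182.ElI
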