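/-
R182, module ELINST (helper329): hops, cheap hops and lines for the data of a `BModel`.
-/
import Mathlib
import Crest.Agent.R182.ElLine

set_option autoImplicit false
set_option linter.unusedSectionVars false

open MeasureTheory Set
open scoped Pointwise RealInnerProductSpace ENNReal

namespace Crest.Agent.R182.ElI

open Crest.GroupTheory Crest.Geometry Crest.Agent.R182.QI Crest.Agent.R182.Core
  Crest.Agent.R182.Nb Crest.Agent.R182.Gen

variable {Γ : Type*} [Group Γ] {k : ℕ} {S : Set Γ} {π : Γ →* Multiplicative (Fin k → ℤ)}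
variable {M : BModel S π} {E : Type*} [NormedAddCommGroup E] [InnerProductSpace ℝ E]

/-- length of the image points over the domain -/
theorem exists_len_pnt (G : Geo M E) (K : ℕ) {κD : ℝ} (hκD : 0 ≤ κD) (RC Cb : ℝ) :
    ∃ B : ℝ, 1 ≤ B ∧ ∀ (Sc τ e0 : ℝ), 1 ≤ Sc → 0 < τ → ∀ un : Unit G RC Cb e0 τ Sc,
      ∀ Ψ : Γ → Γ, QIMap S S Ψ K → ∀ (x : M.G) (n : M.NN), ‖n‖ ≤ Real.exp (κD * Sc) →
        ∀ (r : G.R) (s : ℝ), 0 ≤ s → s ≤ 2 → M.len (pnt Ψ x un.u τ n r s) ≤ B * Sc := by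
  have ha := M.a0
  have hKQ : 0 ≤ M.KQ K := by unfold BModel.KQ; positivity
  have hlog3 : 0 ≤ Real.log 3 := Real.log_nonneg (by norm_num)
  refine ⟨M.KQ K * (M.a * (Real.log 3 + κD) + 2 * |Cb| * |RC|) + M.KQ K + 1, ?_, ?_⟩
  · have : 0 ≤ M.KQ K * (M.a * (Real.log 3 + κD) + 2 * |Cb| * |RC|) := by positivity
    linarith
  intro Sc τ e0 hSc hτ un Ψ hΨ x n hn r s hs hs2
  have hSc0 : 0 < Sc := by linarith
  have h1 := M.ext_lip hΨ x (M.toG n * leg un.u τ r s)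
  have e1 : pnt Ψ x un.u τ n r s = (M.ext Ψ x)⁻¹ * M.ext Ψ (x * (M.toG n * leg un.u τ r s)) := by
    unfold pnt; rw [mul_assoc]
  rw [e1]
  refine h1.trans ?_
  have h2 := M.isLen.mul (M.toG n) (leg un.u τ r s)
  have h3 : M.len (M.toG n) ≤ M.a * (Real.log 3 + κD * Sc) := by
    refine (M.len_toG_le n).trans ?_
    have h4 : 2 + ‖n‖ ≤ 3 * Real.exp (κD * Sc) := by
      have : 1 ≤ Real.exp (κD * Sc) := Real.one_le_exp (by positivity)
      linarith
    have h5 : Real.log (2 + ‖n‖) ≤ Real.log 3 + κD * Sc := by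
      refine (Real.log_le_log (by positivity) h4).trans (le_of_eq ?_)
      rw [Real.log_mul (by norm_num) (Real.exp_pos _).ne', Real.log_exp]
    gcongr
  have h4 : M.len (leg un.u τ r s) ≤ 2 * |Cb| * |RC| * Sc := by
    rw [← un.wl_prod_leg]
    have h5 := M.len_list_le (un.wl r (num τ s)) (R := |RC|) fun a ha =>
      ((un.wl_mem r _ a ha).2).trans (le_abs_self _)
    refine h5.trans ?_
    have h6 := un.wl_len_leg r hτ hSc0 hs
    have h7 : Cb * s * Sc ≤ |Cb| * 2 * Sc := by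
      have := le_abs_self Cb
      gcongr
    calc ((un.wl r (num τ s)).length : ℝ) * |RC| ≤ (|Cb| * 2 * Sc) * |RC| := by
          gcongr
          exact h6.trans h7
      _ = _ := by ring
  have h5 : M.len (M.toG n * leg un.u τ r s) ≤
      (M.a * (Real.log 3 + κD) + 2 * |Cb| * |RC|) * Sc := by
    have h6 : M.a * (Real.log 3 + κD * Sc) ≤ M.a * (Real.log 3 + κD) * Sc := by
      rw [mul_assoc]
      gcongr
      nlinarith
    calc _ ≤ _ := h2
      _ ≤ M.a * (Real.log 3 + κD) * Sc + 2 * |Cb| * |RC| * Sc := add_le_add (h3.trans h6) h4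
      _ = _ := by ring
  calc M.KQ K * M.len (M.toG n * leg un.u τ r s) + M.KQ K
      ≤ M.KQ K * ((M.a * (Real.log 3 + κD) + 2 * |Cb| * |RC|) * Sc) + M.KQ K * Sc := by
        gcongr
        nlinarith
    _ ≤ _ := by nlinarith

/-- moves at the end of a leg -/
theorem exists_move' (G : Geo M E) (cs : Cst G) (hκD : 0 ≤ cs.κD) (hD : CDist M) (K : ℕ)
    (RC Cb : ℝ) : ∃ A₀ : ℝ, 1 ≤ A₀ ∧ ∀ B₁ : ℝ, 0 ≤ B₁ → ∀ ε : ℝ, 0 < ε →
      Ev G RC Cb fun Sc τ u => ∀ Ψ : Γ → Γ, QIMap S S Ψ K → ∀ (x : M.G),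
        ∀ n ∈ (data G cs Ψ x Sc τ u).Dom, ∀ (r : G.R) (s : ℝ), 0 ≤ s → s ≤ 2 → ∀ v : M.NN,
          M.len ((leg u τ r s)⁻¹ * M.toG v * leg u τ r s) ≤ B₁ * Sc → ∀ (X : G.R → ℝ),
          (∀ r' : G.R, Sc * ⟪(r' : E), (data G cs Ψ x Sc τ u).f n r s⟫ +
            A₀ * M.len ((leg u τ r s)⁻¹ * M.toG v * leg u τ r s) + ε * Sc ≤ Sc * X r') →
          ((data G cs Ψ x Sc τ u).g n r s)⁻¹ * (data G cs Ψ x Sc τ u).g (n * v) r s ∈
            tBx G Sc X := by
  obtain ⟨l0, l1, hl0, hl01, -, hl⟩ := exists_lam G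
  obtain ⟨A, D, hA, h1⟩ := exists_move hD K
  obtain ⟨B, hB, h2⟩ := exists_len_pnt G K hκD RC Cb
  refine ⟨A / l0, by rw [le_div_iff₀ hl0]; linarith, fun B₁ hB₁ ε hε => ?_⟩
  obtain ⟨S1, hS1, h3⟩ := exists_absorb_tBx G A (B + B₁ + 1) D (ε := ε / 2) (by positivity)
  refine ⟨1, one_pos, fun τ hτ _ => ⟨1, one_pos, max S1 (2 * A / (l0 * ε)), ?_⟩⟩
  intro Sc hSc un Ψ hΨ x n hn r s hs hs2 v hv X hX
  have hScS : S1 ≤ Sc := (le_max_left _ _).trans hSc
  have hSc1 : 1 ≤ Sc := hS1.trans hScS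
  have hSc0 : 0 < Sc := by linarith
  have hScA : 2 * A ≤ l0 * ε * Sc := by
    have := (le_max_right _ _).trans hSc
    rw [div_le_iff₀ (by positivity)] at this
    linarith
  change ‖n‖ ≤ Real.exp (cs.κD * Sc) at hn
  set b : M.G := (leg un.u τ r s)⁻¹ * M.toG v * leg un.u τ r s with hb
  have hlb := M.len_nonneg b
  change (up M (pnt Ψ x un.u τ n r s))⁻¹ * up M (pnt Ψ x un.u τ (n * v) r s) ∈ _
  rw [pnt_mul, ← hb]
  have hlen := h2 Sc τ 1 hSc1 hτ un Ψ hΨ x n hn r s hs hs2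
  set Z : GI M → ℝ := fun i => Sc * (G.RS.lam i * (X (G.ray i) - ε / 2)) with hZ
  have hB0 : 0 ≤ B := by linarith
  have key := h1 Ψ hΨ x (x * M.toG n * leg un.u τ r s) b Z ((B + B₁ + 1) * Sc) (by nlinarith)
    (by
      refine le_trans hlen ?_
      nlinarith) (by nlinarith) (fun i => by
      have e1 := G.wg_ray i (M.h (pnt Ψ x un.u τ n r s))
      have e2 : ⟪(G.ray i : E), G.T (M.h (pnt Ψ x un.u τ n r s))⟫ =
          Sc * ⟪(G.ray i : E), (data G cs Ψ x Sc τ un.u).f n r s⟫ := by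
        change _ = Sc * ⟪(G.ray i : E), Sc⁻¹ • G.T (M.h (pnt Ψ x un.u τ n r s))⟫
        rw [inner_smul_right, ← mul_assoc, mul_inv_cancel₀ hSc0.ne', one_mul]
      change wg M i (M.h (pnt Ψ x un.u τ n r s)) + A * (1 + M.len b) ≤ Z i
      rw [e1, e2, hZ]
      beta_reduce
      have h4 := hX (G.ray i)
      have h5 := mul_le_mul_of_nonneg_left h4 (G.lam_pos i).le
      have h6 := (hl i).1
      have h7 : A * M.len b ≤ G.RS.lam i * (A / l0 * M.len b) := by
        have : l0 * (A / l0 * M.len b) = A * M.len b := by field_simp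
        rw [← this]
        have : 0 ≤ A / l0 * M.len b := by positivity
        gcongr
      have h8 : l0 * ε * Sc ≤ G.RS.lam i * (ε * Sc) := by
        rw [mul_assoc]
        gcongr
      nlinarith)
  refine h3 Sc hScS X Z (fun i => ?_) (BModel.NB_mono ?_ key)
  · rw [hZ]
    beta_reduce
    apply le_of_eq
    ring
  · have : (B + B₁ + 1) * Sc ≤ 1 + (B + B₁ + 1) * Sc := by linarith
    gcongr

/-- **field `hop`** -/
theorem exists_hop (G : Geo M E) (cs : Cst G) (hTU : 0 ≤ cs.TU) (hκD : 0 ≤ cs.κD)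
    (hD : CDist M) (K : ℕ) (RC Cb : ℝ) :
    ∃ κ1 : ℝ, 1 ≤ κ1 ∧ ∀ κ, κ1 ≤ κ → ∀ ε : ℝ, 0 < ε → Ev G RC Cb fun Sc τ u =>
      ∀ Ψ : Γ → Γ, QIMap S S Ψ K → ∀ x : M.G, ∀ n ∈ (data G cs Ψ x Sc τ u).Dom,
        ∀ (w : G.R) (t s : ℝ), 0 ≤ s → s ≤ t → t ≤ 2 → ∀ v ∈ (data G cs Ψ x Sc τ u).U w t,
          ∀ (z : ℝ) (X : G.R → ℝ),
          (∀ r : G.R, ⟪(r : E), (data G cs Ψ x Sc τ u).f n w s⟫ + κ * (t - s) + ε ≤ X r) →
          ((data G cs Ψ x Sc τ u).g n w s)⁻¹ * (data G cs Ψ x Sc τ u).g (n * v) w s ∈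
            (data G cs Ψ x Sc τ u).Bx z X := by
  obtain ⟨κ1, hκ1, h1⟩ := exists_len_U G RC Cb cs.TU hTU
  obtain ⟨A₀, hA₀, h2⟩ := exists_move' G cs hκD hD K RC Cb
  refine ⟨A₀ * κ1, by nlinarith, fun κ hκ ε hε => ?_⟩
  have hA₀0 : 0 < A₀ := by linarith
  refine ((h1 (ε / (2 * A₀)) (by positivity)).and
    (h2 (κ1 * 2 + ε / (2 * A₀)) (by positivity) (ε / 2) (by positivity))).mono ?_
  rintro Sc τ u hτ hSc ⟨h3, h4⟩ Ψ hΨ x n hn w t s hs hst ht v hv z X hX
  have h5 := h3 w s t hs hst ht v hv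
  have hts : 0 ≤ t - s := by linarith
  refine h4 Ψ hΨ x n hn w s hs (hst.trans ht) v (h5.trans ?_) X fun r' => ?_
  · have : κ1 * (t - s) ≤ κ1 * 2 := by
      have : t - s ≤ 2 := by linarith
      gcongr
    gcongr
  · have h6 := mul_le_mul_of_nonneg_left (hX r') hSc.le
    have h7 : A₀ * M.len ((leg u τ w s)⁻¹ * M.toG v * leg u τ w s) ≤
        (κ * (t - s) + ε / 2) * Sc := by
      calc _ ≤ A₀ * ((κ1 * (t - s) + ε / (2 * A₀)) * Sc) := by gcongr
        _ = (A₀ * κ1 * (t - s) + ε / 2) * Sc := by field_simp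
        _ ≤ _ := by gcongr
    nlinarith

/-- **cheap hops** -/
theorem exists_cheap (G : Geo M E) (cs : Cst G) (hκD : 0 ≤ cs.κD)
    (hD : CDist M) (K : ℕ) (RC Cb : ℝ) (B : ℝ) (hB : 0 ≤ B) (ε : ℝ) (hε : 0 < ε) :
    Ev G RC Cb fun Sc τ u =>
      ∀ Ψ : Γ → Γ, QIMap S S Ψ K → ∀ x : M.G, ∀ n ∈ (data G cs Ψ x Sc τ u).Dom,
        ∀ (r : G.R) (s : ℝ), 0 ≤ s → s ≤ 2 → ∀ v : M.NN,
          M.len ((leg u τ r s)⁻¹ * M.toG v * leg u τ r s) ≤ B →
          ∀ (z : ℝ) (X : G.R → ℝ),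
          (∀ r' : G.R, ⟪(r' : E), (data G cs Ψ x Sc τ u).f n r s⟫ + ε ≤ X r') →
          ((data G cs Ψ x Sc τ u).g n r s)⁻¹ * (data G cs Ψ x Sc τ u).g (n * v) r s ∈
            (data G cs Ψ x Sc τ u).Bx z X := by
  obtain ⟨A₀, hA₀, h2⟩ := exists_move' G cs hκD hD K RC Cb
  refine ((h2 B hB (ε / 2) (by positivity)).and
    (Ev.scale (max 1 (2 * A₀ * B / ε)))).mono ?_
  rintro Sc τ u hτ hSc ⟨h4, h3⟩ Ψ hΨ x n hn r s hs hs2 v hv z X hX
  have hSc1 : 1 ≤ Sc := (le_max_left _ _).trans h3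
  have hSc2 : 2 * A₀ * B ≤ ε * Sc := by
    have := (le_max_right _ _).trans h3
    rw [div_le_iff₀ hε] at this
    linarith
  refine h4 Ψ hΨ x n hn r s hs hs2 v (hv.trans ?_) X fun r' => ?_
  · nlinarith
  · have h6 := mul_le_mul_of_nonneg_left (hX r') hSc.le
    have h7 : A₀ * M.len ((leg u τ r s)⁻¹ * M.toG v * leg u τ r s) ≤ A₀ * B := by gcongr
    nlinarith

/-- prefixes of a power of a word -/
theorem take_flatten_replicate {α : Type*} (w : List α) : ∀ (m j : ℕ),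
    ∃ q ≤ m, ∃ j' : ℕ, ((List.replicate m w).flatten).take j =
      (List.replicate q w).flatten ++ w.take j' := by
  intro m
  induction m with
  | zero => intro j; exact ⟨0, le_rfl, 0, by simp⟩
  | succ m ih =>
    intro j
    rw [List.replicate_succ, List.flatten_cons]
    by_cases hj : j ≤ w.length
    · refine ⟨0, Nat.zero_le _, j, ?_⟩
      rw [List.take_append_of_le_length hj]
      simp
    · push Not at hj
      obtain ⟨q, hq, j', h⟩ := ih (j - w.length)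
      refine ⟨q + 1, by omega, j', ?_⟩
      rw [List.take_append, List.take_of_length_le hj.le, h, List.replicate_succ,
        List.flatten_cons, List.append_assoc]

/-- **field `line`** -/
theorem exists_line (G : Geo M E) (cs : Cst G) (hκD : 0 ≤ cs.κD)
    (hD : CDist M) (K : ℕ) (RC Cb : ℝ) (ε : ℝ) (hε : 0 < ε) :
    Ev G RC Cb fun Sc τ u =>
      ∀ Ψ : Γ → Γ, QIMap S S Ψ K → ∀ x : M.G, ∀ n ∈ (data G cs Ψ x Sc τ u).Dom,
        ∀ (r : G.R) (s : ℝ), 0 ≤ s → s ≤ 2 → ∀ (z : ℝ) (X : G.R → ℝ),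
          (∀ s', 0 ≤ s' → s' ≤ s → ∀ r' : G.R,
            ⟪(r' : E), (data G cs Ψ x Sc τ u).f n r s'⟫ + ε ≤ X r') →
          ((data G cs Ψ x Sc τ u).g n r 0)⁻¹ * (data G cs Ψ x Sc τ u).g n r s ∈
            (data G cs Ψ x Sc τ u).Bx z X := by
  have ha := M.a0
  have hKQ : 0 ≤ M.KQ K := by unfold BModel.KQ; positivity
  obtain ⟨CT, hCT, hT⟩ := exists_T_le G
  obtain ⟨A, D, hA, h1⟩ := exists_cmp hD (M.KQ K * |RC| + M.KQ K) (by positivity)
  obtain ⟨B, hB, h2⟩ := exists_len_pnt G K hκD RC Cb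
  set C₃ : ℝ := CT * (M.KQ K * (|Cb| * |RC|)) + 1 with hC₃
  have hC₃0 : 0 < C₃ := by positivity
  set C₄ : ℝ := CT * M.KQ K with hC₄
  have hC₄0 : 0 ≤ C₄ := by positivity
  obtain ⟨S1, hS1, h3⟩ := exists_absorb_tBx G A (B + 2 * |Cb| + 1) D (ε := ε / 2) (by positivity)
  refine ⟨ε / (8 * C₃), by positivity, fun τ hτ hτ0 => ⟨1, one_pos, max S1 (8 * C₄ / ε), ?_⟩⟩
  intro Sc hSc un Ψ hΨ x n hn r s hs hs2 z X hX
  have hScS : S1 ≤ Sc := (le_max_left _ _).trans hSc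
  have hSc1 : 1 ≤ Sc := hS1.trans hScS
  have hSc0 : 0 < Sc := by linarith
  have hScA : 8 * C₄ ≤ ε * Sc := by
    have := (le_max_right _ _).trans hSc
    rw [div_le_iff₀ hε] at this
    linarith
  change ‖n‖ ≤ Real.exp (cs.κD * Sc) at hn
  set l : List M.G := un.wl r (num τ s) with hl
  set p : ℕ → M.G := fun j => (M.ext Ψ x)⁻¹ * M.ext Ψ (x * M.toG n * (l.take j).prod) with hp
  have hp0 : p 0 = pnt Ψ x un.u τ n r 0 := by
    rw [hp]; unfold pnt; beta_reduce; rw [leg_zero, List.take_zero, List.prod_nil]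
  have hpm : p l.length = pnt Ψ x un.u τ n r s := by
    rw [hp]; unfold pnt; beta_reduce; rw [List.take_length, hl, un.wl_prod_leg]
  set Z : GI M → ℝ := fun i => Sc * (G.RS.lam i * (X (G.ray i) - ε / 2)) with hZ
  have hlen0 := h2 Sc τ 1 hSc1 hτ un Ψ hΨ x n hn r 0 le_rfl (by norm_num)
  have hB0 : 0 ≤ B := by linarith
  have hll : (l.length : ℝ) ≤ 2 * |Cb| * Sc := by
    have h6 := un.wl_len_leg r hτ hSc0 hs
    have h7 : Cb * s * Sc ≤ |Cb| * 2 * Sc := by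
      have := le_abs_self Cb
      gcongr
    rw [hl]
    linarith
  have key := h1 Z p l.length ((B + 2 * |Cb| + 1) * Sc) (by nlinarith [abs_nonneg Cb])
    (by rw [hp0]; refine hlen0.trans ?_; nlinarith [abs_nonneg Cb])
    (by nlinarith) ?_ ?_
  · change (up M (pnt Ψ x un.u τ n r 0))⁻¹ * up M (pnt Ψ x un.u τ n r s) ∈ tBx G Sc X
    rw [← hp0, ← hpm]
    refine h3 Sc hScS X Z (fun i => ?_) (BModel.NB_mono ?_ key)
    · rw [hZ]
      beta_reduce
      apply le_of_eq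
      ring
    · have : (B + 2 * |Cb| + 1) * Sc ≤ 1 + (B + 2 * |Cb| + 1) * Sc := by linarith
      gcongr
  · intro j hj
    have e1 : (p j)⁻¹ * p (j + 1) = (M.ext Ψ (x * M.toG n * (l.take j).prod))⁻¹ *
        M.ext Ψ (x * M.toG n * (l.take j).prod * l[j]) := by
      rw [hp]; beta_reduce
      rw [List.prod_take_succ l j hj, mul_assoc (x * M.toG n)]; group
    rw [e1]
    refine (M.ext_lip hΨ _ _).trans ?_
    have h4 := (un.wl_mem r _ _ (List.getElem_mem hj)).2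
    have h5 := h4.trans (le_abs_self RC)
    gcongr
  · intro j hj i
    obtain ⟨q, hq, j', hqj⟩ := take_flatten_replicate (un.w r) (num τ s) j
    have e0 : (l.take j).prod = leg un.u τ r (q * τ) * ((un.w r).take j').prod := by
      have e1 : l.take j = (List.replicate q (un.w r)).flatten ++ (un.w r).take j' := by
        rw [hl]; exact hqj
      have e2 : ((List.replicate q (un.w r)).flatten).prod = un.u r ^ q := un.wl_prod r q
      rw [e1, List.prod_append, e2]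
      unfold leg
      rw [num_mul hτ]
    have hqs : (q : ℝ) * τ ≤ s := by
      refine le_trans ?_ (num_le hτ hs)
      gcongr
    have h4 := hX (q * τ) (by positivity) hqs (G.ray i)
    have e2 : ⟪(G.ray i : E), (data G cs Ψ x Sc τ un.u).f n r (q * τ)⟫ =
        Sc⁻¹ * ⟪(G.ray i : E), G.T (M.h (pnt Ψ x un.u τ n r (q * τ)))⟫ := by
      change ⟪(G.ray i : E), Sc⁻¹ • G.T (M.h (pnt Ψ x un.u τ n r (q * τ)))⟫ = _
      rw [inner_smul_right]
    rw [e2] at h4
    -- the distance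
    have e3 : (pnt Ψ x un.u τ n r (q * τ))⁻¹ * p j =
        (M.ext Ψ (x * M.toG n * leg un.u τ r (q * τ)))⁻¹ *
          M.ext Ψ (x * M.toG n * leg un.u τ r (q * τ) * ((un.w r).take j').prod) := by
      rw [hp]; unfold pnt; beta_reduce
      rw [e0, mul_assoc (x * M.toG n)]; group
    have h5 : ‖G.T (M.h (p j)) - G.T (M.h (pnt Ψ x un.u τ n r (q * τ)))‖ ≤ ε / 4 * Sc := by
      rw [T_h_sub]
      refine (hT _).trans ?_
      rw [e3]
      have h6 := M.ext_lip hΨ (x * M.toG n * leg un.u τ r (q * τ)) ((un.w r).take j').prod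
      have h7 := M.len_list_le ((un.w r).take j') (R := |RC|) fun a ha =>
        ((un.w_mem r a (List.mem_of_mem_take ha)).2).trans (le_abs_self _)
      have h8 : (((un.w r).take j').length : ℝ) ≤ |Cb| * (τ * Sc) := by
        have e4 : ((un.w r).take j').length ≤ (un.w r).length := by
          rw [List.length_take]; exact min_le_right _ _
        have e5 : (((un.w r).take j').length : ℝ) ≤ ((un.w r).length : ℝ) := by exact_mod_cast e4
        refine e5.trans ((un.w_len r).trans ?_)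
        have := le_abs_self Cb
        gcongr
      have h9 : M.len ((un.w r).take j').prod ≤ |Cb| * (τ * Sc) * |RC| := h7.trans (by gcongr)
      calc CT * M.len _ ≤ CT * (M.KQ K * (|Cb| * (τ * Sc) * |RC|) + M.KQ K) := by
            gcongr
            exact h6.trans (by gcongr)
        _ = (CT * (M.KQ K * (|Cb| * |RC|))) * τ * Sc + C₄ := by rw [hC₄]; ring
        _ ≤ C₃ * τ * Sc + ε / 8 * Sc := by
            have : CT * (M.KQ K * (|Cb| * |RC|)) ≤ C₃ := by rw [hC₃]; linarith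
            gcongr
            linarith
        _ ≤ ε / 8 * Sc + ε / 8 * Sc := by
            have : C₃ * τ ≤ ε / 8 := by
              have := mul_le_mul_of_nonneg_left hτ0 hC₃0.le
              refine this.trans (le_of_eq ?_)
              field_simp
            gcongr
        _ = ε / 4 * Sc := by ring
    have h6 : ⟪(G.ray i : E), G.T (M.h (p j))⟫ ≤
        ⟪(G.ray i : E), G.T (M.h (pnt Ψ x un.u τ n r (q * τ)))⟫ + ε / 4 * Sc := by
      have e4 := real_inner_le_norm (G.ray i : E)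
        (G.T (M.h (p j)) - G.T (M.h (pnt Ψ x un.u τ n r (q * τ))))
      rw [G.norm_ray, one_mul, inner_sub_right] at e4
      linarith
    have h7 : ⟪(G.ray i : E), G.T (M.h (pnt Ψ x un.u τ n r (q * τ)))⟫ ≤
        Sc * (X (G.ray i) - ε) := by
      have h8 : Sc⁻¹ * ⟪(G.ray i : E), G.T (M.h (pnt Ψ x un.u τ n r (q * τ)))⟫ ≤
          X (G.ray i) - ε := by linarith
      rwa [inv_mul_le_iff₀ hSc0] at h8
    rw [G.wg_ray, hZ]
    beta_reduce
    have h8 : ⟪(G.ray i : E), G.T (M.h (p j))⟫ ≤ Sc * (X (G.ray i) - ε / 2) := by nlinarith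
    calc G.RS.lam i * ⟪(G.ray i : E), G.T (M.h (p j))⟫
        ≤ G.RS.lam i * (Sc * (X (G.ray i) - ε / 2)) :=
          mul_le_mul_of_nonneg_left h8 (G.lam_pos i).le
      _ = _ := by ring

end Crest.Agent.R182.ElI
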