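/-
R182, module ELINST (helper56): target boxes and slabs, measurability of the unipotent part.
-/
import Mathlib
import Crest.Agent.R182.ElBase
import Crest.Agent.R182.BoxReach

set_option autoImplicit false
set_option linter.unusedSectionVars false

open MeasureTheory Set
open scoped Pointwise RealInnerProductSpace ENNReal

namespace Crest.Agent.R182.ElI

open Crest.GroupTheory Crest.Geometry Crest.Agent.R182.QI Crest.Agent.R182.Core
  Crest.Agent.R182.Nb Crest.Agent.R182.Gen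

section gen

variable {L : Type*} [LieRing L] [LieAlgebra ℝ L] {σ : Type*} [Fintype σ] {c : ℕ}

theorem Bx_nonneg {v : σ → L} {t : ℝ} {x : L} (hx : x ∈ Bx c v t) : 0 ≤ t := by
  obtain ⟨a, ha, -⟩ := hx
  exact (abs_nonneg _).trans (ha [])

/-- monotonicity in the exponents -/
theorem Bx_gZ_mono {v : σ → L} {Z Z' : σ → ℝ} (h : ∀ i, Z i ≤ Z' i) {t : ℝ} :
    Bx c (gZ v Z) t ⊆ Bx c (gZ v Z') t := by
  rintro x ⟨a, ha, rfl⟩
  refine ⟨fun κ => a κ * Real.exp ((κ.map Z).sum - (κ.map Z').sum), fun κ => ?_, ?_⟩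
  · rw [abs_mul, abs_of_pos (Real.exp_pos _)]
    have h1 : (κ.map Z).sum ≤ (κ.map Z').sum := List.sum_le_sum fun i _ => h i
    have h2 : Real.exp ((κ.map Z).sum - (κ.map Z').sum) ≤ 1 :=
      Real.exp_le_one_iff.2 (by linarith)
    calc |a κ| * Real.exp ((κ.map Z).sum - (κ.map Z').sum) ≤ |a κ| * 1 := by gcongr
      _ ≤ t := by rw [mul_one]; exact ha κ
  · refine Finset.sum_congr rfl fun κ _ => ?_
    rw [mon_gZ, mon_gZ, smul_smul, smul_smul, mul_assoc, ← Real.exp_add, sub_add_cancel]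

/-- the size is absorbed by the exponents -/
theorem Bx_gZ_absorb {v : σ → L} {Z Z' : σ → ℝ} {t e : ℝ} (he : 0 ≤ e) (ht : t ≤ Real.exp e)
    (h : ∀ i, Z i + e ≤ Z' i) : Bx c (gZ v Z) t ⊆ Bx c (gZ v Z') 1 := by
  intro x hx
  have h1 := Bx_one_smul (Real.one_le_exp he) (Bx_nonneg hx) ht hx
  have h2 : (fun i => Real.exp e • gZ v Z i) = gZ v (fun i => Z i + e) := by
    funext i
    simp only [gZ, smul_smul]
    rw [← Real.exp_add, add_comm]
  rw [h2] at h1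
  exact Bx_gZ_mono h h1

end gen

variable {Γ : Type*} [Group Γ] {k : ℕ} {S : Set Γ} {π : Γ →* Multiplicative (Fin k → ℤ)}
variable {M : BModel S π}

/-- generating coordinates of the elements of a box -/
theorem repr_Bx_le {c : ℕ} {Z : GI M → ℝ} {t : ℝ} {x : M.L} (hx : x ∈ Bx c (gZ (eg M) Z) t)
    (i : GI M) : |M.bas.repr x i| ≤ t * Real.exp (Z i) := by
  classical
  have ht := Bx_nonneg hx
  obtain ⟨a, ha, rfl⟩ := hx
  rw [map_sum, Finsupp.finsetSum_apply]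
  have h1 : ∀ κ ∈ KL (GI M) c, κ ≠ [i] → M.bas.repr (a κ • mon (gZ (eg M) Z) κ) i = 0 := by
    intro κ _ hκ
    rw [map_smul, Finsupp.smul_apply, mon_gZ, map_smul, Finsupp.smul_apply]
    have : M.bas.repr (mon (eg M) κ) i = 0 := by
      by_contra h
      exact hκ (coord_mon M i κ h)
    rw [this, smul_zero, smul_zero]
  by_cases hi : [i] ∈ KL (GI M) c
  · rw [Finset.sum_eq_single_of_mem [i] hi h1, map_smul, Finsupp.smul_apply, mon_single, gZ,
      map_smul, Finsupp.smul_apply]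
    change |a [i] * (Real.exp (Z i) * M.bas.repr (M.bas i) i)| ≤ _
    rw [Module.Basis.repr_self, Finsupp.single_eq_same, mul_one, abs_mul,
      abs_of_pos (Real.exp_pos _)]
    gcongr
    exact ha _
  · rw [Finset.sum_eq_zero fun κ hκ => h1 κ hκ (fun h => hi (h ▸ hκ)), abs_zero]
    positivity

/-- the generating coordinates are additive -/
theorem repr_op (x y : M.L) (i : GI M) :
    M.bas.repr (M.star.op x y) i = M.bas.repr x i + M.bas.repr y i := by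
  classical
  obtain ⟨a, ha⟩ := LP.exists_sum M.star.lp
  have hz : ∀ (v : Bool → M.L) (b b' : Bool) (κ : List Bool),
      M.bas.repr (mon v (b :: b' :: κ)) i = 0 := fun v b b' κ => M.lie_gen _ _ i i.2
  have key : ∀ κ : List Bool, ∀ x y : M.L,
      M.bas.repr (mon (fun b : Bool => if b = false then x else y) κ) i =
      M.bas.repr (mon (fun b : Bool => if b = false then x else (0 : M.L)) κ) i +
      M.bas.repr (mon (fun b : Bool => if b = false then (0 : M.L) else y) κ) i := by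
    intro κ x y
    rcases κ with _ | ⟨b, κ⟩
    · simp
    · rcases κ with _ | ⟨b', κ⟩
      · cases b <;> simp
      · rw [hz, hz, hz, add_zero]
  have h1 := ha (fun b => if b = false then x else y)
  have h2 := ha (fun b => if b = false then x else 0)
  have h3 := ha (fun b => if b = false then 0 else y)
  beta_reduce at h1 h2 h3
  simp only [if_true, Bool.true_eq_false, if_false] at h1 h2 h3
  rw [M.star.op_zero] at h2
  rw [M.star.zero_op] at h3
  rw [h1]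
  conv_rhs => rw [h2, h3]
  rw [map_sum, map_sum, map_sum, Finsupp.finsetSum_apply, Finsupp.finsetSum_apply,
    Finsupp.finsetSum_apply, ← Finset.sum_add_distrib]
  refine Finset.sum_congr rfl fun κ _ => ?_
  rw [map_smul, map_smul, map_smul, Finsupp.smul_apply, Finsupp.smul_apply, Finsupp.smul_apply,
    key κ x y, smul_add]

theorem mul_apply_gen (x y : M.NN) (i : GI M) :
    (x * y : M.NN) (i : Fin M.r) = x (i : Fin M.r) + y (i : Fin M.r) := by
  have h := repr_op (M.E x) (M.E y) i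
  rwa [← M.E_mul, M.repr_E, M.repr_E, M.repr_E] at h

theorem inv_apply (x : M.NN) (i : Fin M.r) : (x⁻¹ : M.NN) i = - x i := by
  rw [M.inv_def]; rfl

variable {E : Type*} [NormedAddCommGroup E] [InnerProductSpace ℝ E]

theorem tBx_meas (G : Geo M E) (Sc : ℝ) (X : G.R → ℝ) : MeasurableSet (tBx G Sc X) :=
  M.measurableSet_NB _ _

theorem tBx_inv {G : Geo M E} {Sc : ℝ} {X : G.R → ℝ} {x : M.NN} (hx : x ∈ tBx G Sc X) :
    x⁻¹ ∈ tBx G Sc X := M.NB_inv hx

theorem tBx_one_mem {G : Geo M E} {Sc : ℝ} {X : G.R → ℝ} : (1 : M.NN) ∈ tBx G Sc X :=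
  M.NB_one_mem zero_le_one

theorem tBx_mono {G : Geo M E} {Sc : ℝ} (hSc : 0 ≤ Sc) {X X' : G.R → ℝ} (h : X ≤ X') :
    tBx G Sc X ⊆ tBx G Sc X' := by
  intro x hx
  exact Bx_gZ_mono (fun i => mul_le_mul_of_nonneg_left
    (mul_le_mul_of_nonneg_left (h _) (G.RS.lam_nonneg i)) hSc) hx

/-- boxes of size `t ≤ e^{l0 ε Sc}` are contained in boxes with larger sides -/
theorem NB_subset_tBx (G : Geo M E) {l0 : ℝ} (hl0 : 0 ≤ l0) (hl : ∀ i, l0 ≤ G.RS.lam i)
    {Sc ε : ℝ} (hSc : 0 ≤ Sc) (hε : 0 ≤ ε) {t : ℝ} (ht : t ≤ Real.exp (l0 * ε * Sc))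
    (X : G.R → ℝ) :
    M.NB (gZ (eg M) fun i => Sc * (G.RS.lam i * X (G.ray i))) t ⊆
      tBx G Sc (fun r => X r + ε) := by
  intro x hx
  refine Bx_gZ_absorb (by positivity) ht (fun i => ?_) hx
  have h1 : l0 * ε * Sc ≤ G.RS.lam i * ε * Sc := by
    have := hl i
    gcongr
  calc _ ≤ Sc * (G.RS.lam i * X (G.ray i)) + G.RS.lam i * ε * Sc := by linarith
    _ = _ := by ring

theorem exists_tBx_poly (G : Geo M E) (A B : ℝ) (D : ℕ) (ε : ℝ) (hε : 0 < ε) :
    ∃ S0 : ℝ, 1 ≤ S0 ∧ ∀ Sc, S0 ≤ Sc → ∀ X : G.R → ℝ,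
      M.NB (gZ (eg M) fun i => Sc * (G.RS.lam i * X (G.ray i))) (A * (1 + B * Sc) ^ D) ⊆
        tBx G Sc (fun r => X r + ε) := by
  obtain ⟨l0, l1, h0, -, -, hl⟩ := exists_lam G
  obtain ⟨S0, h1, h2⟩ := exists_poly_le A B D (δ := l0 * ε) (by positivity)
  refine ⟨S0, h1, fun Sc hSc X => ?_⟩
  exact NB_subset_tBx G h0.le (fun i => (hl i).1) (by linarith) hε.le (h2 Sc hSc) X

theorem exists_tBx_const (G : Geo M E) (A : ℝ) (ε : ℝ) (hε : 0 < ε) :
    ∃ S0 : ℝ, 1 ≤ S0 ∧ ∀ Sc, S0 ≤ Sc → ∀ X : G.R → ℝ,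
      M.NB (gZ (eg M) fun i => Sc * (G.RS.lam i * X (G.ray i))) A ⊆
        tBx G Sc (fun r => X r + ε) := by
  obtain ⟨S0, h1, h2⟩ := exists_tBx_poly G A 0 0 ε hε
  refine ⟨S0, h1, fun Sc hSc X => ?_⟩
  simpa using h2 Sc hSc X

theorem exists_tBx_prod (G : Geo M E) (q : ℕ) (ε : ℝ) (hε : 0 < ε) :
    ∃ S0 : ℝ, 1 ≤ S0 ∧ ∀ Sc, S0 ≤ Sc → ∀ (X : G.R → ℝ) (l : List M.NN), l.length ≤ q →
      (∀ x ∈ l, x ∈ tBx G Sc X) → l.prod ∈ tBx G Sc (fun r => X r + ε) := by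
  obtain ⟨A, hA, h⟩ := M.star.exists_prod_poly (GI M) M.c M.nilC
  obtain ⟨S0, h1, h2⟩ := exists_tBx_const G (A * (1 + q) ^ M.c) ε hε
  refine ⟨S0, h1, fun Sc hSc X l hl hx => ?_⟩
  refine h2 Sc hSc X ?_
  rw [BModel.mem_NB, M.E_prod]
  have h3 := h (gZ (eg M) fun i => Sc * (G.RS.lam i * X (G.ray i))) 1 le_rfl (l.map M.E)
    (fun x hx' => by
      obtain ⟨y, hy, rfl⟩ := List.mem_map.1 hx'
      exact hx y hy)
  refine Bx_mono ?_ h3
  rw [List.length_map, mul_one]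
  have h4 : (l.length : ℝ) ≤ q := by exact_mod_cast hl
  gcongr

theorem tDs_meas (G : Geo M E) (Sc : ℝ) (r : G.R) (t : ℝ) : MeasurableSet (tDs G Sc r t) := by
  have h1 : tDs G Sc r t = ⋂ i : GI M, {n : M.NN | G.ray i = r →
      |n (i : Fin M.r)| ≤ Real.exp (Sc * (G.RS.lam i * t))} := by
    ext n; simp [tDs]
  rw [h1]
  refine MeasurableSet.iInter fun i => ?_
  by_cases hi : G.ray i = r
  · simp only [hi, forall_const]
    have hc : Continuous fun n : M.NN => n (i : Fin M.r) := continuous_apply _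
    exact (isClosed_le hc.abs continuous_const).measurableSet
  · simp [hi]

theorem tDs_inv {G : Geo M E} {Sc : ℝ} {r : G.R} {t : ℝ} {x : M.NN} (hx : x ∈ tDs G Sc r t) :
    x⁻¹ ∈ tDs G Sc r t := by
  intro i hi
  rw [inv_apply, abs_neg]
  exact hx i hi

theorem tDs_mono {G : Geo M E} {Sc : ℝ} (hSc : 0 ≤ Sc) {r : G.R} {t t' : ℝ} (h : t ≤ t') :
    tDs G Sc r t ⊆ tDs G Sc r t' := by
  intro x hx i hi
  refine (hx i hi).trans (Real.exp_le_exp.2 ?_)
  exact mul_le_mul_of_nonneg_left (mul_le_mul_of_nonneg_left h (G.RS.lam_nonneg i)) hSc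

theorem exists_tDs_mul (G : Geo M E) (ε : ℝ) (hε : 0 < ε) :
    ∃ S0 : ℝ, 1 ≤ S0 ∧ ∀ Sc, S0 ≤ Sc → ∀ (r : G.R) (t : ℝ) (x y : M.NN), x ∈ tDs G Sc r t →
      y ∈ tDs G Sc r t → x * y ∈ tDs G Sc r (t + ε) := by
  obtain ⟨l0, l1, h0, -, -, hl⟩ := exists_lam G
  obtain ⟨S0, h1, h2⟩ := exists_poly_le 2 0 0 (δ := l0 * ε) (by positivity)
  refine ⟨S0, h1, fun Sc hSc r t x y hx hy i hi => ?_⟩
  have h3 := h2 Sc hSc
  rw [pow_zero, mul_one] at h3
  have h4 : Real.exp (l0 * ε * Sc) ≤ Real.exp (G.RS.lam i * ε * Sc) := by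
    refine Real.exp_le_exp.2 ?_
    have := (hl i).1
    have : 0 ≤ Sc := by linarith
    gcongr
  rw [mul_apply_gen]
  have e1 : Real.exp (Sc * (G.RS.lam i * (t + ε))) =
      Real.exp (Sc * (G.RS.lam i * t)) * Real.exp (G.RS.lam i * ε * Sc) := by
    rw [← Real.exp_add]; congr 1; ring
  rw [e1]
  have h5 := Real.exp_pos (Sc * (G.RS.lam i * t))
  calc |x (i : Fin M.r) + y (i : Fin M.r)| ≤ |x (i : Fin M.r)| + |y (i : Fin M.r)| :=
        abs_add_le _ _
    _ ≤ Real.exp (Sc * (G.RS.lam i * t)) + Real.exp (Sc * (G.RS.lam i * t)) :=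
        add_le_add (hx i hi) (hy i hi)
    _ = Real.exp (Sc * (G.RS.lam i * t)) * 2 := by ring
    _ ≤ _ := by
        refine mul_le_mul_of_nonneg_left (h3.trans h4) h5.le

theorem tBx_subset_tDs (G : Geo M E) (Sc : ℝ) (X : G.R → ℝ) (r : G.R) :
    tBx G Sc X ⊆ tDs G Sc r (X r) := by
  intro x hx i hi
  have h1 := repr_Bx_le hx i
  rw [M.repr_E, one_mul, hi] at h1
  exact h1

/-- coordinates of the elements of a box of any size -/
theorem NB_apply_le (G : Geo M E) {Sc t : ℝ} {X : G.R → ℝ} {x : M.NN}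
    (hx : x ∈ M.NB (gZ (eg M) fun i => Sc * (G.RS.lam i * X (G.ray i))) t) (i : GI M) :
    |x (i : Fin M.r)| ≤ t * Real.exp (Sc * (G.RS.lam i * X (G.ray i))) := by
  have h1 := repr_Bx_le hx i
  rwa [M.repr_E] at h1

theorem measurable_g [Countable Γ] {G : Geo M E} (Ψ : Γ → Γ) (x : M.G) (u : G.R → M.G) (τ : ℝ)
    (r : G.R) (s : ℝ) : Measurable fun n : M.NN => up M (pnt Ψ x u τ n r s) :=
  M.measurable_ext (fun g => up M ((M.ext Ψ x)⁻¹ * g)) Ψ x (leg u τ r s)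

theorem measurable_pnt [Countable Γ] {β : Type*} [MeasurableSpace β] {G : Geo M E} (f : M.G → β)
    (Ψ : Γ → Γ) (x : M.G) (u : G.R → M.G) (τ : ℝ)
    (r : G.R) (s : ℝ) : Measurable fun n : M.NN => f (pnt Ψ x u τ n r s) :=
  M.measurable_ext (fun g => f ((M.ext Ψ x)⁻¹ * g)) Ψ x (leg u τ r s)

theorem g_zero {G : Geo M E} (Ψ : Γ → Γ) (x : M.G) (u : G.R → M.G) (τ : ℝ) (n : M.NN)
    (r r' : G.R) : pnt Ψ x u τ n r 0 = pnt Ψ x u τ n r' 0 := by
  unfold pnt
  rw [leg_zero, leg_zero]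

end Crest.Agent.R182.ElI
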