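/-
R182, module ELINST (helper56): the target fields of `El.Facts` for `data G cs Ψ x Sc τ u`.
-/
import Mathlib
import Crest.Agent.R182.ElTgt

set_option autoImplicit false
set_option linter.unusedSectionVars false

open MeasureTheory Set
open scoped Pointwise RealInnerProductSpace ENNReal

namespace Crest.Agent.R182.ElI

open Crest.GroupTheory Crest.Geometry Crest.Agent.R182.QI Crest.Agent.R182.Core
  Crest.Agent.R182.Nb Crest.Agent.R182.Gen

/-- the fields of `El.Facts` which concern the target boxes and the measurability of `g`,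
literally. -/
structure TgtFields {R E N Q : Type*} [Fintype R] [NormedAddCommGroup E] [InnerProductSpace ℝ E]
    [Group N] [MeasurableSpace N] [Group Q] [MeasurableSpace Q] (d : El.Data R E N Q)
    (p : El.Par R) : Prop where
  Bx_meas : ∀ z X, MeasurableSet (d.Bx z X)
  Bx_inv : ∀ z X, ∀ x ∈ d.Bx z X, x⁻¹ ∈ d.Bx z X
  Bx_mono : ∀ z z' X X', z ≤ z' → X ≤ X' → d.Bx z X ⊆ d.Bx z' X'
  Bx_prod : ∀ z X, p.ε ≤ z → ∀ l : List Q, l.length ≤ p.q → (∀ x ∈ l, x ∈ d.Bx z X) →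
    l.prod ∈ d.Bx (z + p.ε) (fun r => X r + p.ε)
  Ds_meas : ∀ r t, MeasurableSet (d.Ds r t)
  Ds_inv : ∀ r t, ∀ x ∈ d.Ds r t, x⁻¹ ∈ d.Ds r t
  Ds_mono : ∀ r t t', t ≤ t' → d.Ds r t ⊆ d.Ds r t'
  Ds_mul : ∀ r t, ∀ x ∈ d.Ds r t, ∀ y ∈ d.Ds r t, x * y ∈ d.Ds r (t + p.ε)
  Bx_Ds : ∀ z X r, z ≤ 1 → d.Bx z X ⊆ d.Ds r (X r + p.ε)
  g_meas : ∀ r s, Measurable (fun n => d.g n r s)
  g_zero : ∀ n r r', d.g n r 0 = d.g n r' 0

variable {Γ : Type*} [Group Γ] {k : ℕ} {S : Set Γ} {π : Γ →* Multiplicative (Fin k → ℤ)}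
variable {M : BModel S π} {E : Type*} [NormedAddCommGroup E] [InnerProductSpace ℝ E]

/-- the target fields hold for all maps and all base points at all large scales (all `τ`, all
unit legs). -/
theorem exists_tgt [Countable Γ] (G : Geo M E) (cs : Cst G) (q : ℕ) {ε : ℝ} (hε : 0 < ε) :
    ∃ S0 : ℝ, 1 ≤ S0 ∧ ∀ Sc, S0 ≤ Sc → ∀ (Ψ : Γ → Γ) (x : M.G) (τ : ℝ) (u : G.R → M.G)
      (δ ω : ℝ), TgtFields (data G cs Ψ x Sc τ u) (par Sc ε δ ω q τ) := by
  obtain ⟨S1, h1, h2⟩ := exists_tBx_prod G q ε hε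
  obtain ⟨S2, h3, h4⟩ := exists_tDs_mul G ε hε
  refine ⟨max S1 S2, le_max_of_le_left h1, fun Sc hSc Ψ x τ u δ ω => ?_⟩
  have hS1 : S1 ≤ Sc := (le_max_left _ _).trans hSc
  have hS2 : S2 ≤ Sc := (le_max_right _ _).trans hSc
  have hSc0 : 0 ≤ Sc := by linarith
  exact
    { Bx_meas := fun z X => tBx_meas G Sc X
      Bx_inv := fun z X y hy => tBx_inv hy
      Bx_mono := fun z z' X X' _ h => tBx_mono hSc0 h
      Bx_prod := fun z X _ l hl hx => h2 Sc hS1 X l hl hx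
      Ds_meas := fun r t => tDs_meas G Sc r t
      Ds_inv := fun r t y hy => tDs_inv hy
      Ds_mono := fun r t t' h => tDs_mono hSc0 h
      Ds_mul := fun r t y hy z hz => h4 Sc hS2 r t y z hy hz
      Bx_Ds := fun z X r _ y hy => tDs_mono hSc0 (by change X r ≤ X r + ε; linarith)
        (tBx_subset_tDs G Sc X r hy)
      g_meas := fun r s => measurable_g Ψ x u τ r s
      g_zero := fun n r r' => by
        change up M (pnt Ψ x u τ n r 0) = up M (pnt Ψ x u τ n r' 0)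
        rw [g_zero Ψ x u τ n r r'] }

/-- the target fields, `Ev` form -/
theorem ev_tgt [Countable Γ] (G : Geo M E) (cs : Cst G) (q : ℕ) {ε : ℝ} (hε : 0 < ε) (δ ω : ℝ)
    (RC Cb : ℝ) : Ev G RC Cb fun Sc τ u => ∀ (Ψ : Γ → Γ) (x : M.G),
      TgtFields (data G cs Ψ x Sc τ u) (par Sc ε δ ω q τ) := by
  obtain ⟨S0, h1, h2⟩ := exists_tgt G cs q hε
  exact (Ev.scale S0).mono fun Sc τ u _ _ h Ψ x => h2 Sc h Ψ x τ u δ ω

end Crest.Agent.R182.ElI
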