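/-
R182, module BOXVOL (helper88), part 5: near-round shapes: the pure relations of a ray lie in the
box; final volume statements (`lam_vol`, `mul_V`, `stick`, slabs).
-/
import Mathlib
import Crest.Agent.R182.BoxRay

set_option autoImplicit false
set_option linter.unusedSectionVars false

open MeasureTheory Set
open scoped Pointwise ENNReal

namespace Crest.Agent.R182.BoxVol

open Crest.Agent.R182.Nb Crest.Agent.R182.Core

/-- a linear choice of coefficients -/
theorem exists_coeff {L : Type*} [AddCommGroup L] [Module ℝ L] {ι : Type*} [Fintype ι]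
    (v : ι → L) : ∃ a : L →ₗ[ℝ] (ι → ℝ), ∀ y ∈ Submodule.span ℝ (Set.range v),
      ∑ i, a y i • v i = y := by
  set A : (ι → ℝ) →ₗ[ℝ] L := Fintype.linearCombination ℝ v with hA
  obtain ⟨g, hg⟩ := A.rangeRestrict.exists_rightInverse_of_surjective
    (LinearMap.range_eq_top.2 A.surjective_rangeRestrict)
  obtain ⟨a, ha⟩ := LinearMap.exists_extend g
  refine ⟨a, fun y hy => ?_⟩
  have hy' : y ∈ LinearMap.range A := by
    rw [hA, Fintype.range_linearCombination]; exact hy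
  have h1 : a y = g ⟨y, hy'⟩ := by
    have := LinearMap.congr_fun ha ⟨y, hy'⟩
    simpa using this
  have h2 := LinearMap.congr_fun hg ⟨y, hy'⟩
  have h3 : A (g ⟨y, hy'⟩) = y := by
    have := congrArg Subtype.val h2
    simpa using this
  rw [h1, ← Fintype.linearCombination_apply ℝ v, ← hA]
  exact h3

variable {Γ : Type*} [Group Γ] {k : ℕ} {S : Set Γ} {π : Γ →* Multiplicative (Fin k → ℤ)}

/-- `T` preserves the weight spaces and stretches `L_ν` by at most `Λ e^{ν v}` -/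
def Grow (M : BModel S π) (T : M.L →ₗ[ℝ] M.L) (Λ : ℝ) (v : Fin k → ℝ) : Prop :=
  ∀ i j, |M.bas.repr (T (M.bas j)) i| ≤ Λ * Real.exp (M.wt i v) ∧
    (M.bas.repr (T (M.bas j)) i ≠ 0 → M.wt i = M.wt j)

theorem grow_dil (M : BModel S π) (v : Fin k → ℝ) : Grow M (dil M v) 1 v := by
  intro i j
  rw [dil_bas, map_smul, Finsupp.smul_apply, M.bas.repr_self, Finsupp.single_apply, smul_eq_mul]
  constructor
  · split_ifs with h
    · rw [h, mul_one, one_mul, abs_of_pos (Real.exp_pos _)]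
    · rw [mul_zero, abs_zero]; positivity
  · intro h
    have : j = i := by
      by_contra hne
      simp [hne] at h
    rw [this]

theorem exists_grow_Ad (M : BModel S π) (Rr : ℝ) : ∃ A : ℝ, 1 ≤ A ∧ ∀ l : List M.G,
    (∀ s ∈ l, s ∈ M.C ∧ M.len s ≤ Rr) →
      Grow M (M.Ad l.prod : M.L →ₗ[ℝ] M.L) (A * (1 + l.length) ^ M.d) (M.h l.prod) := by
  obtain ⟨A, h⟩ := M.Ad_C_le Rr
  refine ⟨|A| + 1, by linarith [abs_nonneg A], fun l hl i j => ⟨?_, fun h' => ?_⟩⟩
  · refine (h l hl i j).trans ?_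
    have : A ≤ |A| + 1 := by linarith [le_abs_self A]
    gcongr
  · exact M.Ad_C _ (M.C.list_prod_mem fun s hs => (hl s hs).1) i j h'

/-- growth on a weight vector -/
theorem Grow.le {M : BModel S π} {T : M.L →ₗ[ℝ] M.L} {Λ : ℝ} {v : Fin k → ℝ} (hT : Grow M T Λ v)
    (hΛ : 0 ≤ Λ) (ν : (Fin k → ℝ) →ₗ[ℝ] ℝ) (x : M.L) (hx : ∀ i, M.bas.repr x i ≠ 0 → M.wt i = ν)
    (i : Fin M.r) :
    |M.bas.repr (T x) i| ≤ (∑ j, |M.bas.repr x j|) * (Λ * Real.exp (ν v)) := by
  have e1 : M.bas.repr (T x) i = ∑ j, M.bas.repr x j * M.bas.repr (T (M.bas j)) i := by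
    conv_lhs => rw [← M.bas.sum_repr x]
    rw [map_sum, map_sum, Finsupp.finsetSum_apply]
    exact Finset.sum_congr rfl fun j _ => by rw [map_smul, map_smul]; rfl
  rw [e1, Finset.sum_mul]
  refine (Finset.abs_sum_le_sum_abs _ _).trans (Finset.sum_le_sum fun j _ => ?_)
  rw [abs_mul]
  by_cases h0 : M.bas.repr x j = 0
  · rw [h0, abs_zero, zero_mul, zero_mul]
  · by_cases h1 : M.bas.repr (T (M.bas j)) i = 0
    · rw [h1, abs_zero, mul_zero]; positivity
    · have h2 := (hT i j).1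
      rw [(hT i j).2 h1, hx j h0] at h2
      gcongr

variable {M : BModel S π} {w : GI M → Prop} [DecidablePred w]

theorem wpr_mem_Mw (ν : (Fin k → ℝ) →ₗ[ℝ] ℝ) {x : M.L} (hx : x ∈ Mw M w) :
    M.wpr ν x ∈ Submodule.span ℝ (Set.range fun κ : {κ : KL (GI M) M.c //
      (¬ ∀ i ∈ (κ : List (GI M)), w i) ∧ ((κ : List (GI M)).map (wg M)).sum = ν} =>
        mon (eg M) (κ : List (GI M))) := by
  unfold Mw at hx
  induction hx using Submodule.span_induction with
  | mem x hx =>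
    obtain ⟨κ, hκ, rfl⟩ := hx
    by_cases h1 : (κ.map (wg M)).sum = ν
    · rw [M.wpr_mon ν κ h1]
      by_cases h2 : κ.length ≤ M.c
      · exact Submodule.subset_span ⟨⟨⟨κ, mem_KL.2 h2⟩, hκ, h1⟩, rfl⟩
      · have : mon (eg M) κ = 0 := M.nilC.nil _ κ (by omega)
        rw [this]; exact Submodule.zero_mem _
    · rw [M.wpr_mon_ne ν κ h1]; exact Submodule.zero_mem _
  | zero => rw [map_zero]; exact Submodule.zero_mem _
  | add a b _ _ h h' => rw [map_add]; exact Submodule.add_mem _ h h'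
  | smul r a _ h => rw [map_smul]; exact Submodule.smul_mem _ _ h

theorem abs_apply_le {ι : Type*} (a : M.L →ₗ[ℝ] (ι → ℝ)) (x : M.L) {B : ℝ}
    (hB : ∀ i, |M.bas.repr x i| ≤ B) (j : ι) : |a x j| ≤ (∑ i, |a (M.bas i) j|) * B := by
  conv_lhs => rw [← M.bas.sum_repr x]
  rw [map_sum, Finset.sum_apply, Finset.sum_mul]
  refine (Finset.abs_sum_le_sum_abs _ _).trans (Finset.sum_le_sum fun i _ => ?_)
  rw [map_smul, Pi.smul_apply, smul_eq_mul, abs_mul, mul_comm]
  gcongr
  exact hB i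

theorem repr_mon_wt (κ : List (GI M)) (i : Fin M.r) (h : M.bas.repr (mon (eg M) κ) i ≠ 0) :
    M.wt i = (κ.map (wg M)).sum := mon_wt M (fun i : GI M => (i : Fin M.r)) κ i h

/-- the sides of the mixed monomials dominate those of the pure ones -/
def NearRound (M : BModel S π) (w : GI M → Prop) (Y : GI M → ℝ) (v : Fin k → ℝ) (m : ℝ) : Prop :=
  ∀ κ κ' : List (GI M), κ ≠ [] → (∀ i ∈ κ, w i) → κ.length ≤ M.c → κ'.length ≤ M.c →
    (¬ ∀ i ∈ κ', w i) → (κ.map (wg M)).sum = (κ'.map (wg M)).sum →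
      (κ.map (wg M)).sum v + m ≤ (κ'.map Y).sum

/-- **pure relations lie in the box** for near-round shapes. -/
theorem exists_nearRound (M : BModel S π) (w : GI M → Prop) [DecidablePred w] (A₁ : ℝ)
    (hA₁ : 0 ≤ A₁) :
    ∃ C : ℝ, 1 ≤ C ∧ ∀ (fam : GI M → M.L) (Y : GI M → ℝ) (Λ : ℝ), 1 ≤ Λ →
      (∀ i, Real.exp (Y i) • eg M i ∈ Bx M.c fam Λ) →
      ∀ (T : M.L →ₗ[ℝ] M.L) (Λ' : ℝ) (v : Fin k → ℝ), IsLie T → 1 ≤ Λ' → Grow M T Λ' v →
      NearRound M w Y v (Real.log (C * Λ ^ M.c * Λ')) →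
      ∀ x ∈ Mw M w, x ∈ Bx M.c (rst (fun i => T (eg M i)) w) A₁ → x ∈ Bx M.c fam 1 := by
  classical
  -- the weights of the pure monomials
  set K := KL (GI M) M.c with hK
  set Φ : Finset ((Fin k → ℝ) →ₗ[ℝ] ℝ) :=
    (K.filter fun κ => κ ≠ [] ∧ ∀ i ∈ κ, w i).image fun κ => (κ.map (wg M)).sum with hΦ
  let I := fun ν : (Fin k → ℝ) →ₗ[ℝ] ℝ => {κ : KL (GI M) M.c //
      (¬ ∀ i ∈ (κ : List (GI M)), w i) ∧ ((κ : List (GI M)).map (wg M)).sum = ν}
  have hex : ∀ ν, ∃ a : M.L →ₗ[ℝ] (I ν → ℝ), ∀ y ∈ Submodule.span ℝ (Set.range fun κ : I ν =>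
      mon (eg M) (κ : List (GI M))), ∑ i, a y i • mon (eg M) (i : List (GI M)) = y := fun ν =>
    exists_coeff _
  choose a ha using hex
  set B : ℝ := ∑ κ ∈ K, ∑ j, |M.bas.repr (mon (eg M) κ) j| with hB
  have hB0 : 0 ≤ B := by positivity
  set Q : ℝ := ∑ ν ∈ Φ, ∑ κ : I ν, ∑ i, |a ν (M.bas i) κ| with hQ
  have hQ0 : 0 ≤ Q := by positivity
  have hbr := brC_pos (GI M) M.c
  set b := brC (GI M) M.c ^ M.c with hb
  have hb0 : 0 ≤ b := by positivity
  refine ⟨Q * (A₁ * B) * b + 1, by nlinarith [mul_nonneg (mul_nonneg hQ0 (mul_nonneg hA₁ hB0)) hb0],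
    ?_⟩
  intro fam Y Λ hΛ hfam T Λ' v hT hΛ' hG hNR x hxM hx
  set C : ℝ := Q * (A₁ * B) * b + 1 with hC
  have hC0 : 0 < C := by
    nlinarith [mul_nonneg (mul_nonneg hQ0 (mul_nonneg hA₁ hB0)) hb0]
  have hNil : Nil M.c fam := M.nilC.nil fam
  obtain ⟨s, hs, hxs⟩ := hx
  -- rewrite `x` with pure monomials
  set K₁ := K.filter fun κ => κ ≠ [] ∧ ∀ i ∈ κ, w i with hK₁
  have hx1 : x = ∑ κ ∈ K₁, s κ • T (mon (eg M) κ) := by
    rw [hxs, hK₁, Finset.sum_filter]
    refine Finset.sum_congr rfl fun κ _ => ?_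
    by_cases hne : κ = []
    · subst hne; simp
    · by_cases h : ∀ i ∈ κ, w i
      · rw [if_pos ⟨hne, h⟩, mon_rst_of w h, hT.mon]
      · rw [if_neg fun hh => h hh.2, mon_rst_not w h, smul_zero]
  -- coordinates of `T (mon κ)`
  have hTm : ∀ κ i, M.bas.repr (T (mon (eg M) κ)) i ≠ 0 → M.wt i = (κ.map (wg M)).sum := by
    intro κ i h
    have e1 : M.bas.repr (T (mon (eg M) κ)) i =
        ∑ j, M.bas.repr (mon (eg M) κ) j * M.bas.repr (T (M.bas j)) i := by
      conv_lhs => rw [← M.bas.sum_repr (mon (eg M) κ)]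
      rw [map_sum, map_sum, Finsupp.finsetSum_apply]
      exact Finset.sum_congr rfl fun j _ => by rw [map_smul, map_smul]; rfl
    rw [e1] at h
    obtain ⟨j, _, hj⟩ := Finset.exists_ne_zero_of_sum_ne_zero h
    rw [(hG i j).2 (right_ne_zero_of_mul hj), repr_mon_wt κ j (left_ne_zero_of_mul hj)]
  have hwprT : ∀ ν κ, M.wpr ν (T (mon (eg M) κ)) =
      if (κ.map (wg M)).sum = ν then T (mon (eg M) κ) else 0 := by
    intro ν κ
    rw [M.wpr_apply]
    split_ifs with h
    · conv_rhs => rw [← M.bas.sum_repr (T (mon (eg M) κ))]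
      refine Finset.sum_congr rfl fun i _ => ?_
      by_cases h0 : M.bas.repr (T (mon (eg M) κ)) i = 0
      · rw [h0, zero_smul, zero_smul]
      · rw [if_pos ((hTm κ i h0).trans h)]
    · refine Finset.sum_eq_zero fun i _ => ?_
      by_cases h0 : M.bas.repr (T (mon (eg M) κ)) i = 0
      · rw [h0, zero_smul]
      · have : ¬ M.wt i = ν := fun h' => h ((hTm κ i h0).symm.trans h')
        rw [if_neg this, smul_zero]
  have hwprx : ∀ ν, M.wpr ν x =
      ∑ κ ∈ K₁.filter (fun κ => (κ.map (wg M)).sum = ν), s κ • T (mon (eg M) κ) := by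
    intro ν
    conv_lhs => rw [hx1]
    rw [map_sum]
    refine Eq.trans ?_ (Finset.sum_filter (s := K₁) (fun κ => (κ.map (wg M)).sum = ν)
      (fun κ => s κ • T (mon (eg M) κ))).symm
    refine Finset.sum_congr rfl fun κ _ => ?_
    rw [map_smul, hwprT]
    split_ifs
    · rfl
    · rw [smul_zero]
  have hxsum : x = ∑ ν ∈ Φ, M.wpr ν x := by
    conv_lhs => rw [hx1]
    rw [Finset.sum_congr rfl fun ν _ => hwprx ν]
    exact (Finset.sum_fiberwise_of_maps_to (s := K₁) (t := Φ)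
      (g := fun κ => (κ.map (wg M)).sum) (fun κ hκ => Finset.mem_image_of_mem _ hκ) _).symm
  -- each component
  have hcomp : ∀ ν ∈ Φ, M.wpr ν x ∈ Bx M.c fam
      ((∑ κ : I ν, ∑ i, |a ν (M.bas i) κ|) * ((A₁ * B) * b / C)) := by
    intro ν hν
    obtain ⟨κ₀, hκ₀, hκ₀ν⟩ := Finset.mem_image.1 hν
    rw [Finset.mem_filter] at hκ₀
    obtain ⟨hκ₀K, hκ₀ne, hκ₀w⟩ := hκ₀
    have hy := ha ν _ (wpr_mem_Mw (w := w) ν hxM)
    -- size of the component
    have hsize : ∀ i, |M.bas.repr (M.wpr ν x) i| ≤ (A₁ * B) * (Λ' * Real.exp (ν v)) := by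
      intro i
      rw [hwprx ν, map_sum, Finsupp.finsetSum_apply]
      refine (Finset.abs_sum_le_sum_abs _ _).trans ?_
      have h1 : ∀ κ ∈ K₁.filter (fun κ => (κ.map (wg M)).sum = ν),
          |M.bas.repr (s κ • T (mon (eg M) κ)) i| ≤
            A₁ * ((∑ j, |M.bas.repr (mon (eg M) κ) j|) * (Λ' * Real.exp (ν v))) := by
        intro κ hκ
        rw [Finset.mem_filter] at hκ
        rw [map_smul, Finsupp.smul_apply, smul_eq_mul, abs_mul]
        have h2 := hG.le (by linarith) ν (mon (eg M) κ)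
          (fun i hi => (repr_mon_wt κ i hi).trans hκ.2) i
        exact mul_le_mul (hs κ) h2 (abs_nonneg _) hA₁
      refine (Finset.sum_le_sum h1).trans ?_
      rw [← Finset.mul_sum, ← Finset.sum_mul, mul_assoc]
      refine mul_le_mul_of_nonneg_left ?_ hA₁
      refine mul_le_mul_of_nonneg_right ?_ (by positivity)
      refine Finset.sum_le_sum_of_subset_of_nonneg ?_ fun κ _ _ =>
        Finset.sum_nonneg fun j _ => abs_nonneg _
      exact (Finset.filter_subset _ _).trans (Finset.filter_subset _ _)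
    rw [← hy, Finset.sum_mul]
    refine Bx_sum _ _ _ fun κ _ => ?_
    obtain ⟨⟨κ, hκK⟩, hκw, hκν⟩ := κ
    rw [mem_KL] at hκK
    have h1 : |a ν (M.wpr ν x) ⟨⟨κ, mem_KL.2 hκK⟩, hκw, hκν⟩| ≤
        (∑ i, |a ν (M.bas i) ⟨⟨κ, mem_KL.2 hκK⟩, hκw, hκν⟩|) *
          ((A₁ * B) * (Λ' * Real.exp (ν v))) := abs_apply_le (a ν) _ hsize _
    have h2 : mon (eg M) κ = Real.exp (-(κ.map Y).sum) • mon (gZ (eg M) Y) κ := by
      rw [mon_gZ, smul_smul, ← Real.exp_add, neg_add_cancel, Real.exp_zero, one_smul]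
    have h3 : mon (gZ (eg M) Y) κ ∈ Bx M.c fam (b * Λ ^ M.c) := by
      refine Bx_mono ?_ (mon_comp_mem hNil (v := gZ (eg M) Y) (t := fun _ => Λ)
        (fun _ => by linarith) hfam κ)
      rw [List.map_const', List.prod_replicate]
      exact mul_le_mul (pow_le_pow_right₀ hbr hκK) (pow_le_pow_right₀ hΛ hκK) (by positivity) hb0
    have h4 := hNR κ₀ κ hκ₀ne hκ₀w (mem_KL.1 hκ₀K) hκK hκw (hκ₀ν.trans hκν.symm)
    rw [hκ₀ν] at h4
    have hCL : 0 < C * Λ ^ M.c * Λ' := by positivity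
    have h5 : Real.exp (ν v) * (C * Λ ^ M.c * Λ') ≤ Real.exp ((κ.map Y).sum) := by
      rw [← Real.exp_log hCL, ← Real.exp_add]
      exact Real.exp_le_exp.2 h4
    change a ν (M.wpr ν x) ⟨⟨κ, mem_KL.2 hκK⟩, hκw, hκν⟩ • mon (eg M) κ ∈ _
    rw [h2]
    refine Bx_mono ?_ (Bx_smul (Bx_smul h3 _) _)
    rw [abs_of_pos (Real.exp_pos _)]
    set q := ∑ i, |a ν (M.bas i) ⟨⟨κ, mem_KL.2 hκK⟩, hκw, hκν⟩| with hq
    have hq0 : 0 ≤ q := by positivity
    have hAB : 0 ≤ A₁ * B := by positivity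
    calc |a ν (M.wpr ν x) ⟨⟨κ, mem_KL.2 hκK⟩, hκw, hκν⟩| *
          (Real.exp (-(κ.map Y).sum) * (b * Λ ^ M.c))
        ≤ (q * ((A₁ * B) * (Λ' * Real.exp (ν v)))) *
          (Real.exp (-(κ.map Y).sum) * (b * Λ ^ M.c)) := by gcongr
      _ = q * ((A₁ * B) * b / C) *
          (Real.exp (ν v) * (C * Λ ^ M.c * Λ') * Real.exp (-(κ.map Y).sum)) := by
          field_simp
      _ ≤ q * ((A₁ * B) * b / C) * 1 := by
          refine mul_le_mul_of_nonneg_left ?_ (by positivity)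
          rw [Real.exp_neg, ← div_eq_mul_inv, div_le_one (Real.exp_pos _)]
          exact h5
      _ = q * ((A₁ * B) * b / C) := mul_one _
  rw [hxsum]
  refine Bx_mono ?_ (Bx_sum _ _ _ hcomp)
  rw [← Finset.sum_mul]
  have h6 : (∑ ν ∈ Φ, ∑ κ : I ν, ∑ i, |a ν (M.bas i) κ|) * (A₁ * B * b / C) =
      (Q * (A₁ * B) * b) / C := by rw [← hQ]; ring
  rw [h6, div_le_one hC0, hC]
  linarith

/-! ### The final volume statements -/

theorem prN_image_smul {J : Type} [Fintype J] (D : QData M.star J) {σ : Type*} [Fintype σ]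
    {g : σ → M.L} {a s : ℝ} (ha : 0 < a) {q : J → ℝ} (hq : (q : D.QN) ∈ prN D '' M.NB g (a * s)) :
    (a⁻¹ • q : J → ℝ) ∈ (prN D '' M.NB g s : Set (J → ℝ)) := by
  obtain ⟨n, hn, rfl⟩ := hq
  rw [BModel.NB_smul ha] at hn
  obtain ⟨n', hn', rfl⟩ := hn
  refine ⟨n', hn', ?_⟩
  change D.P (M.E n') = a⁻¹ • D.P (M.E (a • n'))
  rw [map_smul, map_smul, smul_smul, inv_mul_cancel₀ ha.ne', one_smul]

theorem volume_le_of_subset_smul {n : ℕ} {a : ℝ} (ha : 0 < a) {A B : Set (Fin n → ℝ)}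
    (h : A ⊆ a • B) : (volume : Measure (Fin n → ℝ)) A ≤
      ENNReal.ofReal (a ^ n) * (volume : Measure (Fin n → ℝ)) B := by
  refine (measure_mono h).trans (le_of_eq ?_)
  rw [Measure.addHaar_smul, abs_of_pos (pow_pos (by positivity) _)]
  simp

/-- **`mul_V`**: the sup of the `lamV`-measures of cosets times the volume of the product. -/
theorem exists_mulV (M : BModel S π) (w : GI M → Prop) [DecidablePred w] (R : RayQ M w) (A : ℝ)
    (hA : 1 ≤ A) :
    ∃ A₁ : ℝ, 1 ≤ A₁ ∧ ∀ B : ℝ, 1 ≤ B → ∃ C : ℝ, 0 < C ∧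
      ∀ (g : GI M → M.L) (T : M.L →ₗ[ℝ] M.L), IsLie T → R.D.Pres T → R.D.qdet T ≠ 0 →
        (∀ i, ¬ w i → R.D.P (g i) = 0) →
        (∀ i, w i → T (eg M i) ∈ Bx M.c (rst g w) A) →
        ∀ e : ℝ, 0 < e → e ≤ 1 →
        (∀ x, R.D.P x = 0 → x ∈ Bx M.c (rst g w) A₁ → x ∈ Bx M.c g (B * e)) →
        ∃ m : ℝ≥0∞, m ≠ 0 ∧ (∀ ρ, 0 ≤ ρ → ρ ≤ A → ∀ y : M.NN,
            lamV R.D ρ T {v | y * v⁻¹ ∈ M.NB g (A * e)} ≤ m) ∧
          m * volume (M.NB g (A * e) * M.NB (rst (fun i => T (eg M i)) w) A) ≤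
            ENNReal.ofReal C * volume (M.NB g e) := by
  obtain ⟨A₃, hA₃, h₃⟩ := exists_Bx_comp M.c (GI M) (GI M) A hA
  -- constants for the group law
  set T₁ : ℝ := A₃ * A + A with hT₁
  have hT₁1 : 1 ≤ T₁ := by nlinarith
  obtain ⟨A₂, H₂⟩ := M.star.exists_famConst M.c (GI M) T₁ hT₁1
  have hA₂ := H₂.one_le
  set a : ℝ := A₂ * T₁ with ha
  have ha1 : 1 ≤ a := by nlinarith
  have ha0 : 0 < a := by linarith
  set A₁ : ℝ := A₃ * a + a with hA₁
  refine ⟨A₁, by nlinarith, fun B hB => ?_⟩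
  set T₂ : ℝ := A + a + B with hT₂
  obtain ⟨A₅, H₅⟩ := M.star.exists_famConst M.c (GI M) T₂ (by linarith)
  have hA₅ := H₅.one_le
  set V₀ : ℝ := (vQ R.D w (eg M) a).toReal + 1 with hV₀
  have hV₀0 : 0 < V₀ := by positivity
  refine ⟨a ^ R.n * (V₀ * (A₅ * T₂) ^ M.r), by positivity, ?_⟩
  intro g T hT hP hdet hv h1 e he he1 h2
  have hNg : Nil M.c g := M.nilC.nil g
  set G : GI M → M.L := rst g w with hG
  have hNG : Nil M.c G := M.nilC.nil G
  set f : GI M → M.L := rst (fun i => T (eg M i)) w with hf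
  have hNf : Nil M.c f := M.nilC.nil f
  have hfG : ∀ i, f i ∈ Bx M.c G A := by
    intro i
    rw [hf]; unfold Nb.rst
    split_ifs with hi
    · exact h1 i hi
    · exact Bx_zero_mem (by linarith)
  have hfw : ∀ i, w i → f i = T (eg M i) := fun i hi => if_pos hi
  have hfv : ∀ i, ¬ w i → R.D.P (f i) = 0 := fun i hi => by
    have : f i = 0 := if_neg hi
    rw [this, map_zero]
  have hdet0 : 0 < R.D.qdet T := lt_of_le_of_ne (abs_nonneg _) (Ne.symm hdet)
  set Ps : Set R.D.QN := (prN R.D '' M.NB g e) ∩ (prN R.D '' M.NB f 1) with hPs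
  set Pb : Set R.D.QN := (prN R.D '' M.NB g (a * e)) ∩ (prN R.D '' M.NB f (a * 1)) with hPb
  have hPbs : (volume : Measure R.D.QN) Pb ≤
      ENNReal.ofReal (a ^ R.n) * (volume : Measure R.D.QN) Ps := by
    have hsub : (Pb : Set (Fin R.n → ℝ)) ⊆ a • (Ps : Set (Fin R.n → ℝ)) := by
      intro q hq
      rw [Set.mem_smul_set]
      refine ⟨(a⁻¹ • q : Fin R.n → ℝ), ⟨prN_image_smul R.D ha0 hq.1, prN_image_smul R.D ha0 hq.2⟩, ?_⟩
      rw [smul_smul, mul_inv_cancel₀ ha0.ne', one_smul]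
    exact volume_le_of_subset_smul ha0 hsub
  have hPsm : MeasurableSet Ps :=
    (((BModel.isCompact_NB M g e).image (continuous_prN R.D)).inter
      ((BModel.isCompact_NB M f 1).image (continuous_prN R.D))).measurableSet
  refine ⟨ENNReal.ofReal (R.D.qdet T)⁻¹ * (volume : Measure R.D.QN) Pb, ?_, ?_, ?_⟩
  · -- positivity
    have hsub : prN R.D '' M.NB f e ⊆ Pb := by
      refine subset_inter (image_mono fun n hn => ?_) (image_mono (BModel.NB_mono ?_))
      · have h4 : M.E n ∈ Bx M.c G (A₃ * e) := h₃ G f hNG hfG _ he.le hn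
        rw [BModel.mem_NB]
        refine Bx_mono ?_ (Bx_rst_subset g (A₃ * e) (by positivity) h4)
        have : A₃ ≤ a := by nlinarith
        gcongr
      · rw [mul_one]; exact he1.trans ha1
    have h5 : (volume : Measure R.D.QN) Pb ≠ 0 := by
      refine (lt_of_lt_of_le ?_ (measure_mono hsub)).ne'
      rw [volume_prN_NB R.D hT hP hfw hfv he.le]
      exact ENNReal.mul_pos (ENNReal.ofReal_pos.2 hdet0).ne' (R.vQ_pos he).ne'
    exact mul_ne_zero (ENNReal.ofReal_pos.2 (inv_pos.2 hdet0)).ne' h5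
  · -- cosets
    intro ρ hρ hρA y
    have hm : MeasurableSet {v : M.NN | y * v⁻¹ ∈ M.NB g (A * e)} := by
      have : Continuous fun v : M.NN => y * v⁻¹ := by fun_prop
      exact this.measurable (BModel.measurableSet_NB M g _)
    unfold lamV
    rw [Measure.map_apply (continuous_move R.D T).measurable hm,
      Measure.restrict_apply' (MeasurableSet.univ_pi fun _ => measurableSet_Icc)]
    set Z : Set (Fin R.n → ℝ) := (fun q : Fin R.n → ℝ => M.E.symm (T (R.D.s q))) ⁻¹'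
      {v | y * v⁻¹ ∈ M.NB g (A * e)} ∩ Set.pi univ fun _ => Icc (-ρ) ρ with hZ
    by_cases hZe : Z = ∅
    · rw [hZe, measure_empty]; exact zero_le
    obtain ⟨q₀, hq₀1, hq₀2⟩ := Set.nonempty_iff_ne_empty.2 hZe
    have hmv : ∀ q : Fin R.n → ℝ, q ∈ (Set.pi univ fun _ => Icc (-ρ) ρ : Set (Fin R.n → ℝ)) →
        M.E.symm (T (R.D.s q)) ∈ M.NB f A := by
      intro q hq
      refine BModel.NB_mono hρA (R.mvs_subset hT hρ ?_)
      exact ⟨q, fun j => abs_le.2 (hq j (mem_univ j)), LinearEquiv.apply_symm_apply _ _⟩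
    set u₀ : M.NN := M.E.symm (T (R.D.s q₀)) with hu₀
    have hsub : Z ⊆ R.D.down T ⁻¹' (Pb * {prN R.D u₀} : Set R.D.QN) := by
      rintro q ⟨hq1, hq2⟩
      set u : M.NN := M.E.symm (T (R.D.s q)) with hu
      have e1 : u * u₀⁻¹ ∈ M.NB g (a * e) := by
        have e2 : u * u₀⁻¹ = (y * u⁻¹)⁻¹ * (y * u₀⁻¹) := by group
        rw [e2, BModel.mem_NB, BModel.E_mul]
        have hAT : A ≤ T₁ := by nlinarith
        have h4 := H₂.op_mem g hNg (A * e) (A * e) (by positivity) (by nlinarith) (by positivity)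
          (by nlinarith) _ (BModel.NB_inv hq1) _ hq₀1
        rw [max_self] at h4
        refine Bx_mono ?_ h4
        rw [ha, ← mul_assoc]
        gcongr
      have e3 : u * u₀⁻¹ ∈ M.NB f (a * 1) := by
        rw [BModel.mem_NB, BModel.E_mul]
        have hAT : A ≤ T₁ := by nlinarith
        have h4 := H₂.op_mem f hNf A A (by positivity) hAT (by positivity) hAT _ (hmv q hq2) _
          (BModel.NB_inv (hmv q₀ hq₀2))
        rw [max_self] at h4
        refine Bx_mono ?_ h4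
        rw [ha, mul_one]
        gcongr
      refine ⟨prN R.D (u * u₀⁻¹), ⟨mem_image_of_mem _ e1, mem_image_of_mem _ e3⟩, _, rfl, ?_⟩
      change prN R.D (u * u₀⁻¹) * prN R.D u₀ = R.D.down T q
      rw [← map_mul, inv_mul_cancel_right]
      exact prN_move R.D q
    refine (measure_mono hsub).trans ?_
    have hdet' : LinearMap.det (R.D.down T) ≠ 0 := by
      intro h
      apply hdet
      unfold QData.qdet
      rw [h, abs_zero]
    have h4 := Measure.addHaar_preimage_linearMap (volume : Measure (Fin R.n → ℝ)) hdet'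
      (Pb * {prN R.D u₀} : Set R.D.QN)
    rw [h4, abs_inv]
    have h5 : (volume : Measure (Fin R.n → ℝ)) (Pb * {prN R.D u₀} : Set R.D.QN) =
        (volume : Measure R.D.QN) Pb :=
      measure_mul_singleton (volume : Measure R.D.QN) Pb (prN R.D u₀)
    rw [h5]
    exact le_rfl
  · -- the product
    set U : Set M.NN := M.NB f A with hU
    set N₂ : Set M.NN := M.NB g ((a + B) * e) with hN₂
    have hPU : Ps * prN R.D '' U ⊆ prN R.D '' M.NB f a := by
      rintro _ ⟨_, ⟨_, n, hn, rfl⟩, _, ⟨u, hu, rfl⟩, rfl⟩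
      refine ⟨n * u, ?_, map_mul _ _ _⟩
      rw [BModel.mem_NB, BModel.E_mul]
      have hAT : A ≤ T₁ := by nlinarith
      have h4 := H₂.op_mem f hNf 1 A zero_le_one hT₁1 (by positivity) hAT _ hn _ hu
      refine Bx_mono ?_ h4
      rw [ha, max_eq_right hA]
      gcongr
    have hPUv : (volume : Measure R.D.QN) (Ps * prN R.D '' U) ≤
        ENNReal.ofReal (R.D.qdet T) * ENNReal.ofReal V₀ := by
      refine (measure_mono hPU).trans ?_
      rw [volume_prN_NB R.D hT hP hfw hfv ha0.le]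
      gcongr
      rw [← ENNReal.ofReal_toReal (R.vQ_lt_top a).ne]
      exact ENNReal.ofReal_le_ofReal (by rw [hV₀]; linarith)
    have hmain : volume (M.NB g (A * e) * U) * (volume : Measure R.D.QN) Ps ≤
        (ENNReal.ofReal (R.D.qdet T) * ENNReal.ofReal V₀) *
          (ENNReal.ofReal ((A₅ * T₂) ^ M.r) * volume (M.NB g e)) := by
      by_cases hP0 : (volume : Measure R.D.QN) Ps = 0
      · rw [hP0, mul_zero]; exact zero_le
      have hfin : (volume : Measure R.D.QN) (Ps * prN R.D '' U) ≠ ∞ :=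
        (hPUv.trans_lt (ENNReal.mul_lt_top ENNReal.ofReal_lt_top ENNReal.ofReal_lt_top)).ne
      have key := measure_mul_upper (volume : Measure M.NN) (volume : Measure R.D.QN) (prN R.D)
        (N := M.NB g (A * e)) (U := U) (N₂ := N₂) hPsm hP0 hfin ?_
      · refine key.trans ?_
        have hNN : M.NB g (A * e) * N₂ ⊆ M.NB g ((A₅ * T₂) * e) := by
          rintro _ ⟨n, hn, n', hn', rfl⟩
          rw [BModel.mem_NB, BModel.E_mul]
          have h4 := H₅.op_mem g hNg (A * e) ((a + B) * e) (by positivity) (by nlinarith)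
            (by positivity) (by nlinarith) _ hn _ hn'
          refine Bx_mono ?_ h4
          have h5 : max (A * e) ((a + B) * e) ≤ T₂ * e := max_le (by gcongr; linarith)
            (by gcongr; linarith)
          calc A₅ * max (A * e) ((a + B) * e) ≤ A₅ * (T₂ * e) := by gcongr
            _ = (A₅ * T₂) * e := by ring
        calc (volume : Measure R.D.QN) (Ps * prN R.D '' U) * volume (M.NB g (A * e) * N₂)
            ≤ (ENNReal.ofReal (R.D.qdet T) * ENNReal.ofReal V₀) *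
              volume (M.NB g ((A₅ * T₂) * e)) := by gcongr
          _ = _ := by rw [BModel.volume_NB_smul (by positivity)]
      · intro u hu u' hu' x hx y hy hxy
        obtain ⟨⟨n, hn, rfl⟩, -⟩ := hx
        obtain ⟨⟨n', hn', rfl⟩, -⟩ := hy
        rw [← map_inv, ← map_mul] at hxy
        have h3 : M.E (n⁻¹ * n') ∈ Bx M.c g (a * e) := by
          rw [BModel.E_mul]
          have h4 := H₂.op_mem g hNg e e he.le (by linarith) he.le (by linarith) _
            (BModel.NB_inv hn) _ hn'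
          rw [max_self] at h4
          refine Bx_mono ?_ h4
          rw [ha]
          have : A₂ ≤ A₂ * T₁ := le_mul_of_one_le_right (by linarith) hT₁1
          gcongr
        have h4 : R.D.P (M.E (n⁻¹ * n')) ∈ R.D.P '' Bx M.c G (a * e) := by
          rw [← P_image_Bx R.D hv (by positivity)]
          exact mem_image_of_mem _ h3
        obtain ⟨z, hz, hz'⟩ := h4
        have h5 : M.E (u * u'⁻¹) ∈ Bx M.c f a := by
          rw [BModel.E_mul]
          have hAT : A ≤ T₁ := by nlinarith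
          have h6 := H₂.op_mem f hNf A A (by linarith) hAT (by linarith) hAT _ hu _
            (BModel.NB_inv hu')
          rw [max_self] at h6
          refine Bx_mono ?_ h6
          rw [ha]; gcongr
        have h6 : M.E (u * u'⁻¹) ∈ Bx M.c G (A₃ * a) := h₃ G f hNG hfG _ ha0.le h5
        have h7 : R.D.P (M.E (u * u'⁻¹) - z) = 0 := by
          rw [map_sub, hz', sub_eq_zero]; exact hxy
        have h8 : M.E (u * u'⁻¹) - z ∈ Bx M.c G A₁ := by
          rw [sub_eq_add_neg]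
          refine Bx_mono ?_ (Bx_add h6 (Bx_neg hz))
          rw [hA₁]
          have : a * e ≤ a := by nlinarith
          linarith
        have h9 := h2 _ h7 h8
        rw [hN₂, BModel.mem_NB]
        have h10 : M.E (u * u'⁻¹) = z + (M.E (u * u'⁻¹) - z) := by abel
        rw [h10]
        refine Bx_mono ?_ (Bx_add (Bx_rst_subset g (a * e) (by positivity) hz) h9)
        linarith
    calc ENNReal.ofReal (R.D.qdet T)⁻¹ * (volume : Measure R.D.QN) Pb * volume (M.NB g (A * e) * U)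
        ≤ ENNReal.ofReal (R.D.qdet T)⁻¹ * (ENNReal.ofReal (a ^ R.n) *
          (volume : Measure R.D.QN) Ps) * volume (M.NB g (A * e) * U) := by gcongr
      _ = ENNReal.ofReal (R.D.qdet T)⁻¹ * ENNReal.ofReal (a ^ R.n) *
          (volume (M.NB g (A * e) * U) * (volume : Measure R.D.QN) Ps) := by ring
      _ ≤ ENNReal.ofReal (R.D.qdet T)⁻¹ * ENNReal.ofReal (a ^ R.n) *
          ((ENNReal.ofReal (R.D.qdet T) * ENNReal.ofReal V₀) *
          (ENNReal.ofReal ((A₅ * T₂) ^ M.r) * volume (M.NB g e))) := by gcongr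
      _ = ENNReal.ofReal (a ^ R.n * (V₀ * (A₅ * T₂) ^ M.r)) * volume (M.NB g e) := by
          rw [ENNReal.ofReal_mul (by positivity), ENNReal.ofReal_mul (by positivity)]
          have : ENNReal.ofReal (R.D.qdet T)⁻¹ * ENNReal.ofReal (R.D.qdet T) = 1 := by
            rw [← ENNReal.ofReal_mul (by positivity), inv_mul_cancel₀ hdet, ENNReal.ofReal_one]
          calc _ = (ENNReal.ofReal (R.D.qdet T)⁻¹ * ENNReal.ofReal (R.D.qdet T)) *
                (ENNReal.ofReal (a ^ R.n) * (ENNReal.ofReal V₀ * ENNReal.ofReal ((A₅ * T₂) ^ M.r)) *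
                volume (M.NB g e)) := by ring
            _ = _ := by rw [this, one_mul]

end Crest.Agent.R182.BoxVol
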