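/-
R182, module BOXVOL (helper88), part 6: the volume of a box times a stick.
-/
import Mathlib
import Crest.Agent.R182.BoxNR

set_option autoImplicit false
set_option linter.unusedSectionVars false

open MeasureTheory Set
open scoped Pointwise ENNReal

namespace Crest.Agent.R182.BoxVol

open Crest.Agent.R182.Nb Crest.Agent.R182.Core

variable {Γ : Type*} [Group Γ] {k : ℕ} {S : Set Γ} {π : Γ →* Multiplicative (Fin k → ℤ)}

theorem NB_gZ (M : BModel S π) (Y : GI M → ℝ) (p : ℝ) (x : M.NN) :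
    x ∈ M.NB (gZ (eg M) Y) (Real.exp p) ↔ M.E x ∈ BZ M.c (eg M) Y p := Iff.rfl

theorem sum_map_le_mem {σ : Type*} {κ : List σ} {Y Y' : σ → ℝ} (h : ∀ i ∈ κ, Y i ≤ Y' i) :
    (κ.map Y).sum ≤ (κ.map Y').sum := by
  induction κ with
  | nil => simp
  | cons i κ ih =>
    simp only [List.map_cons, List.sum_cons]
    linarith [h i List.mem_cons_self, ih fun j hj => h j (List.mem_cons_of_mem _ hj)]

theorem sum_map_wg (M : BModel S π) (κ : List (GI M)) (v : Fin k → ℝ) :
    (κ.map fun i => wg M i v).sum = (κ.map (wg M)).sum v := (M.sum_wt_apply κ v).symm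

/-- **the volume of a box times a stick**, unit scale -/
theorem exists_stick (M : BModel S π) (w : GI M → Prop) [DecidablePred w] (R : RayQ M w) :
    ∃ C : ℝ, 1 ≤ C ∧ ∀ (Y Y' : GI M → ℝ) (v₀ v : Fin k → ℝ) (b : ℝ), 0 ≤ b →
      (∀ i, w i → Y i = wg M i v₀) → (∀ i, w i → 0 ≤ wg M i v) → (∀ i, w i → wg M i v ≤ b) →
      (∀ i, w i → Y' i ≤ wg M i (v₀ + v)) → (∀ i, ¬ w i → Y' i + M.c * b ≤ Y i) →
      NearRound M w Y (v₀ + v) C →
      volume (M.NB (gZ (eg M) Y) 1 * (M.NB (gZ (eg M) Y') 1 * M.NB (gZ (eg M) Y') 1)) ≤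
        ENNReal.ofReal (C * Real.exp (R.τ v)) * volume (M.NB (gZ (eg M) Y) 1) := by
  obtain ⟨a, H⟩ := M.star.exists_boxConst M.c (GI M)
  have ha := H.nonneg
  obtain ⟨A₁, H₁⟩ := M.star.exists_famConst M.c (GI M) 1 le_rfl
  have hA₁ := H₁.one_le
  set α : ℝ := Real.log A₁ with hα
  have hα0 : 0 ≤ α := Real.log_nonneg hA₁
  have hexpα : Real.exp α = A₁ := Real.exp_log (by linarith)
  set β : ℝ := a + M.c * α with hβ
  have hβ0 : 0 ≤ β := by positivity
  set T₂ : ℝ := Real.exp β with hT₂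
  have hT₂1 : 1 ≤ T₂ := Real.one_le_exp hβ0
  obtain ⟨A₂, H₂⟩ := M.star.exists_famConst M.c (GI M) T₂ hT₂1
  have hA₂ := H₂.one_le
  set A₃ : ℝ := A₂ * T₂ with hA₃
  have hA₃1 : 1 ≤ A₃ := by nlinarith
  obtain ⟨A₄, hA₄, h₄⟩ := exists_mul_upper M (GI M) A₃ hA₃1
  obtain ⟨C₄, hC₄, h₄⟩ := h₄ 1 le_rfl
  obtain ⟨C₅, hC₅, h₅⟩ := exists_nearRound M w A₄ (by linarith)
  set V₁ : ℝ := (vQ R.D w (eg M) A₄).toReal with hV₁
  set V₀ : ℝ := (vQ R.D w (eg M) 1).toReal with hV₀
  have hV₀0 : 0 < V₀ := ENNReal.toReal_pos (R.vQ_pos one_pos).ne' (R.vQ_lt_top 1).ne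
  have hV₁0 : 0 ≤ V₁ := ENNReal.toReal_nonneg
  set W : ℝ := V₁ * C₄ / V₀ with hW
  have hW0 : 0 ≤ W := by positivity
  have hlog : 0 ≤ Real.log C₅ := Real.log_nonneg hC₅
  refine ⟨W + Real.log C₅ + 1, by linarith, ?_⟩
  intro Y Y' v₀ v b hb hY hv0 hvb hY'w hY' hNR
  set g := gZ (eg M) Y with hg
  have hNg : Nil M.c g := M.nilC.nil g
  set T := dil M (v₀ + v) with hT
  set f : GI M → M.L := rst (fun i => T (eg M i)) w with hf
  have hNf : Nil M.c f := M.nilC.nil f
  -- the product of the two sticks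
  have hprod : ∀ x ∈ M.NB (gZ (eg M) Y') 1 * M.NB (gZ (eg M) Y') 1,
      ∃ kk ∈ M.NB g T₂, ∃ u ∈ M.NB f T₂, x = kk * u := by
    rintro _ ⟨x, hx, y, hy, rfl⟩
    have h1 : M.E (x * y) ∈ BZ M.c (eg M) Y' (0 + α) := by
      rw [BModel.E_mul]
      have h2 := H₁.op_mem (gZ (eg M) Y') (M.nilC.nil _) 1 1 zero_le_one le_rfl zero_le_one le_rfl
        _ hx _ hy
      rw [max_self, mul_one] at h2
      rw [zero_add]
      change _ ∈ Bx _ _ _
      rw [hexpα]; exact h2
    have h2 : M.E (x * y) ∈ BZ M.c (eg M) (fun i => Y' i + α) 0 :=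
      BZ_shift hα0 (fun i => le_rfl) h1
    set Z : GI M → ℝ := fun i => if w i then wg M i (v₀ + v) + α else Y i + α with hZ
    have hZw : ∀ i, w i → Z i = wg M i (v₀ + v) + α := fun i hi => if_pos hi
    have hZn : ∀ i, ¬ w i → Z i = Y i + α := fun i hi => if_neg hi
    have hle : ∀ i, Y' i + α ≤ Z i := by
      intro i
      by_cases hi : w i
      · rw [hZw i hi]; linarith [hY'w i hi]
      · rw [hZn i hi]
        have : (0:ℝ) ≤ M.c * b := by positivity
        linarith [hY' i hi]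
    have hq : -(M.c * b) ≤ 0 := by
      have : (0:ℝ) ≤ M.c * b := by positivity
      linarith
    obtain ⟨kk, hk, u, hu, hku⟩ := H.factor (w := w) (q := -(M.c * b)) (Z₁ := Z) (Z₂ := Z)
      (Z₃ := fun i => Y' i + α) (M.nilC.nil _) hq (fun i _ => hle i) (fun i _ => le_rfl)
      (fun κ _ _ _ h => by
        push Not at h
        obtain ⟨i, hi, hwi⟩ := h
        obtain ⟨κ₁, κ₂, rfl⟩ := List.append_of_mem hi
        rw [List.map_append, List.sum_append, List.map_cons, List.sum_cons, List.map_append,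
          List.sum_append, List.map_cons, List.sum_cons]
        have h3 : (κ₁.map fun i => Y' i + α).sum ≤ (κ₁.map Z).sum := sum_map_le hle
        have h4 : (κ₂.map fun i => Y' i + α).sum ≤ (κ₂.map Z).sum := sum_map_le hle
        have h5 := hZn i hwi
        have h6 := hY' i hwi
        linarith) h2
    refine ⟨M.E.symm kk, ?_, M.E.symm u, ?_, ?_⟩
    · rw [BModel.mem_NB, LinearEquiv.apply_symm_apply]
      refine BZ_le (fun κ hκ hκc _ => ?_) hk
      have h3 : (κ.map Z).sum ≤ (κ.map fun i => Y i + (b + α)).sum := by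
        refine sum_map_le fun i => ?_
        by_cases hi : w i
        · rw [hZw i hi, map_add, hY i hi]; linarith [hvb i hi]
        · rw [hZn i hi]; linarith
      rw [sum_map_add, sum_map_const] at h3
      have h4 : (κ.length : ℝ) ≤ M.c := by exact_mod_cast hκc
      have h5 : (κ.length : ℝ) * (b + α) ≤ M.c * (b + α) := by gcongr
      rw [hβ]; nlinarith
    · rw [BModel.mem_NB, LinearEquiv.apply_symm_apply]
      have h3 : f = gZ (rst (eg M) w) (fun i => wg M i (v₀ + v)) := by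
        funext i
        rw [hf, hT]
        unfold Nb.rst gZ
        beta_reduce
        by_cases hi : w i
        · simp only [if_pos hi]; exact dil_eg M _ i
        · simp only [if_neg hi, smul_zero]
      rw [h3]
      refine BZ_le (fun κ hκ hκc hne => ?_) hu
      have h4 : ∀ i ∈ κ, w i := by
        by_contra h5; exact hne (mon_rst_not w h5)
      have h5 : (κ.map Z).sum ≤ (κ.map fun i => wg M i (v₀ + v) + α).sum :=
        sum_map_le_mem fun i hi => (hZw i (h4 i hi)).le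
      rw [sum_map_add κ (fun i => wg M i (v₀ + v)), sum_map_const] at h5
      have h6 : (κ.length : ℝ) ≤ M.c := by exact_mod_cast hκc
      have h7 : (κ.length : ℝ) * α ≤ M.c * α := by gcongr
      rw [hβ]; linarith
    · rw [BModel.mul_def, LinearEquiv.apply_symm_apply, LinearEquiv.apply_symm_apply, ← hku,
        LinearEquiv.symm_apply_apply]
  -- the product
  have hsub : M.NB g 1 * (M.NB (gZ (eg M) Y') 1 * M.NB (gZ (eg M) Y') 1) ⊆
      M.NB g (A₃ * 1) * M.NB f A₃ := by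
    rintro _ ⟨n, hn, z, hz, rfl⟩
    obtain ⟨kk, hk, u, hu, rfl⟩ := hprod z hz
    refine ⟨n * kk, ?_, u, BModel.NB_mono (by nlinarith) hu, mul_assoc _ _ _⟩
    rw [BModel.mem_NB, BModel.E_mul]
    have h3 := H₂.op_mem g hNg 1 T₂ zero_le_one hT₂1 (by positivity) le_rfl _ hn _ hk
    rw [max_eq_right hT₂1] at h3
    refine Bx_mono ?_ h3
    rw [hA₃, mul_one]
  have key := h₄ R.D w (eg M) g (dil M v₀) T (isLie_dil M _) (isLie_dil M _) (R.pres_dil _)
    (R.pres_dil _) (fun i hi => by rw [dil_eg, ← hY i hi]; rfl)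
    (fun i hi => by rw [hg]; unfold gZ; rw [map_smul, R.P_eg hi, smul_zero])
    (fun i hi => by
      have h3 : g i = (Real.exp (Y i - wg M i (v₀ + v))) • f i := by
        rw [hg, hf, hT]
        unfold Nb.rst gZ
        rw [if_pos hi]
        beta_reduce
        rw [dil_eg, smul_smul, ← Real.exp_add, sub_add_cancel]
      rw [h3]
      have h5 : f i ∈ Bx M.c f 1 := gen_mem_Bx hNf i
      refine Bx_mono ?_ (Bx_smul h5 _)
      rw [abs_of_pos (Real.exp_pos _), mul_one]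
      refine le_trans ?_ hA₃1
      rw [Real.exp_le_one_iff, map_add, hY i hi]
      linarith [hv0 i hi]) 1 one_pos le_rfl
    (fun x hx hxB => by
      have h3 := h₅ g Y 1 le_rfl (fun i => gen_mem_Bx hNg i) T 1 (v₀ + v) (isLie_dil M _) le_rfl (grow_dil M _)
        (fun κ κ' h1 h2 h3 h4 h5 h6 => by
          have h7 := hNR κ κ' h1 h2 h3 h4 h5 h6
          rw [one_pow, mul_one, mul_one]
          linarith) x ((R.ker x).1 hx) hxB
      exact Bx_mono (by norm_num) h3)
    (M.NB f A₃) Subset.rfl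
  rw [R.qdet_dil, R.qdet_dil, map_add, Real.exp_add] at key
  have hV₀' : vQ R.D w (eg M) 1 = ENNReal.ofReal V₀ := by
    rw [hV₀, ENNReal.ofReal_toReal (R.vQ_lt_top 1).ne]
  have hV₁' : vQ R.D w (eg M) A₄ = ENNReal.ofReal V₁ := by
    rw [hV₁, ENNReal.ofReal_toReal (R.vQ_lt_top A₄).ne]
  rw [hV₀', hV₁'] at key
  set e₀ := Real.exp (R.τ v₀) with he₀
  set e₁ := Real.exp (R.τ v) with he₁
  have he₀0 : 0 < e₀ := Real.exp_pos _
  have he₁0 : 0 < e₁ := Real.exp_pos _
  have hx0 : ENNReal.ofReal e₀ * ENNReal.ofReal V₀ ≠ 0 :=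
    mul_ne_zero (ENNReal.ofReal_pos.2 he₀0).ne' (ENNReal.ofReal_pos.2 hV₀0).ne'
  have hx1 : ENNReal.ofReal e₀ * ENNReal.ofReal V₀ ≠ ⊤ :=
    ENNReal.mul_ne_top ENNReal.ofReal_ne_top ENNReal.ofReal_ne_top
  refine (measure_mono hsub).trans ?_
  rw [← ENNReal.mul_le_mul_iff_left hx0 hx1]
  refine key.trans ?_
  have h6 : ENNReal.ofReal (e₀ * e₁) * ENNReal.ofReal V₁ * (ENNReal.ofReal C₄ *
      volume (M.NB g 1)) = ENNReal.ofReal (W * e₁) * volume (M.NB g 1) *
      (ENNReal.ofReal e₀ * ENNReal.ofReal V₀) := by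
    have h7 : W * e₁ * (e₀ * V₀) = e₀ * e₁ * V₁ * C₄ := by
      rw [hW]; field_simp
    calc _ = (ENNReal.ofReal (e₀ * e₁) * ENNReal.ofReal V₁ * ENNReal.ofReal C₄) *
          volume (M.NB g 1) := by ring
      _ = ENNReal.ofReal (e₀ * e₁ * V₁ * C₄) * volume (M.NB g 1) := by
          rw [← ENNReal.ofReal_mul (by positivity), ← ENNReal.ofReal_mul (by positivity)]
      _ = ENNReal.ofReal (W * e₁ * (e₀ * V₀)) * volume (M.NB g 1) := by rw [h7]
      _ = _ := by
          rw [ENNReal.ofReal_mul (by positivity), ENNReal.ofReal_mul he₀0.le]; ring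
  rw [h6]
  gcongr
  linarith

/-- upper bound for the volume of a box -/
theorem exists_vol_le (M : BModel S π) : ∃ C : ℝ, 0 ≤ C ∧ ∀ (Y : GI M → ℝ) (a : ℝ), 0 ≤ a →
    volume (M.NB (gZ (eg M) Y) (Real.exp a)) ≤
      ENNReal.ofReal (Real.exp ((gsys M).Gt Y + C * a + C)) := by
  obtain ⟨C, hC, h⟩ := MD_scaled_le M
  obtain ⟨C', hC', h'⟩ := le_MD_scaled M
  set B : ℝ := (2 * (KL (GI M) M.c).card) ^ M.r * C with hB
  refine ⟨M.r + |Real.log B|, by positivity, fun Y a ha => ?_⟩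
  have h1 := h 1 Y le_rfl
  rw [one_pow, mul_one] at h1
  have e1 : (fun i => (1 * Real.exp (Y i)) • eg M i) = gZ (eg M) Y := by
    funext i; rw [one_mul]; rfl
  rw [e1] at h1
  have h2 : 0 < MD M.bas M.c (gZ (eg M) Y) :=
    lt_of_lt_of_le (by positivity) (h' Y)
  have h3 := vb_Bx_le (b := M.bas) (c := M.c) (g := gZ (eg M) Y) h2 (Real.exp_pos a).le
  refine h3.trans (ENNReal.ofReal_le_ofReal ?_)
  have hcard : (0:ℝ) < (KL (GI M) M.c).card := by
    have : (KL (GI M) M.c).Nonempty := ⟨[], mem_KL.mpr (Nat.zero_le _)⟩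
    exact_mod_cast this.card_pos
  have hB0 : 0 < B := by positivity
  have h4 : B ≤ Real.exp |Real.log B| := by
    conv_lhs => rw [← Real.exp_log hB0]
    exact Real.exp_le_exp.2 (le_abs_self _)
  calc (2 * ((KL (GI M) M.c).card : ℝ) * Real.exp a) ^ M.r * MD M.bas M.c (gZ (eg M) Y)
      ≤ (2 * ((KL (GI M) M.c).card : ℝ) * Real.exp a) ^ M.r *
        (C * Real.exp ((gsys M).Gt Y)) := by gcongr
    _ = B * (Real.exp (M.r * a) * Real.exp ((gsys M).Gt Y)) := by
        rw [mul_pow, ← Real.exp_nat_mul, hB]; ring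
    _ ≤ Real.exp |Real.log B| * (Real.exp (M.r * a) * Real.exp ((gsys M).Gt Y)) := by gcongr
    _ = Real.exp (|Real.log B| + (M.r * a + (gsys M).Gt Y)) := by
        rw [Real.exp_add, Real.exp_add]
    _ ≤ _ := by
        refine Real.exp_le_exp.2 ?_
        have h5 : 0 ≤ |Real.log B| * a := by positivity
        have h6 : (0:ℝ) ≤ M.r := Nat.cast_nonneg _
        nlinarith

end Crest.Agent.R182.BoxVol
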