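/-
R182, module ELINST (helper656): assembly of `El.Facts` for the data of a `BModel`.
-/
import Mathlib
import Crest.Agent.R182.ElA
import Crest.Agent.R182.ElAvol
import Crest.Agent.R182.ElHop
import Crest.Agent.R182.ElTgtEv
import Crest.Agent.R182.ElV

set_option autoImplicit false
set_option linter.unusedSectionVars false

open MeasureTheory Set
open scoped Pointwise RealInnerProductSpace ENNReal

namespace Crest.Agent.R182.ElI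

open Crest.GroupTheory Crest.Geometry Crest.Agent.R182.QI Crest.Agent.R182.Core
  Crest.Agent.R182.Nb Crest.Agent.R182.Gen

variable {Γ : Type*} [Group Γ] {k : ℕ} {S : Set Γ} {π : Γ →* Multiplicative (Fin k → ℤ)}
variable {M : BModel S π} {E : Type} [NormedAddCommGroup E] [InnerProductSpace ℝ E]

/-- good constants of the boxes -/
structure CstOk {G : Geo M E} (cs : Cst G) (J : ℕ) (CV : ℝ) : Prop where
  c1 : C1ok M J cs.c1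
  ρV : 0 < cs.ρV
  ρc : cs.ρV ≤ cs.c1
  ρ1 : CV * cs.ρV ≤ 1
  ρT : CV * cs.ρV ≤ cs.TU
  TU : 1 ≤ cs.TU
  κD : 0 ≤ cs.κD

/-- the field `slab` for the data of a model, `Ev` form -/
def SlabEv (G : Geo M E) (cs : Cst G) (K : ℕ) (RC Cb κ c0 ω ε : ℝ) : Prop :=
  Ev G RC Cb fun Sc τ u => ∀ Ψ : Γ → Γ, QIMap S S Ψ K → ∀ x : M.G,
    ∀ (r : G.R) (s : ℝ), 0 ≤ s → s ≤ 2 → ∀ z : ℝ, 0 ≤ z → z ≤ 1 →
    ∀ (X : G.R → ℝ) (y y' : M.NN) (θ : E) (r' : G.R) (t : ℝ),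
    (∀ r : G.R, |X r - ⟪(r : E), θ⟫ - 1| ≤ 2 * ω) → 0 ≤ t → t ≤ 1 →
    volume {n : M.NN | n ∈ (data G cs Ψ x Sc τ u).Dom ∧
        (data G cs Ψ x Sc τ u).g n r s ∈ y • (data G cs Ψ x Sc τ u).Bx z X ∧
        (data G cs Ψ x Sc τ u).g n r s ∈ y' • (data G cs Ψ x Sc τ u).Ds r' (X r' - t) ∧
        (∀ r' : G.R, ⟪(r' : E), (data G cs Ψ x Sc τ u).f n r s⟫ ≤ X r') ∧
        ⟪(r' : E), (data G cs Ψ x Sc τ u).f n r s⟫ + t ≤ X r'}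
      ≤ ENNReal.ofReal (Real.exp (Sc * (GG G X - c0 * t + κ * z + ε)))

/-- the field `stick` for the data of a model, `Ev` form -/
def StickEv (G : Geo M E) (cs : Cst G) (K : ℕ) (RC Cb κ ω ε : ℝ) : Prop :=
  Ev G RC Cb fun Sc τ u => ∀ Ψ : Γ → Γ, QIMap S S Ψ K → ∀ x : M.G,
    ∀ (r : G.R) (s : ℝ), 0 ≤ s → s ≤ 2 → ∀ z : ℝ, 0 ≤ z → z ≤ 1 →
    ∀ (X X' : G.R → ℝ) (y : M.NN) (θ : E) (w : G.R) (b : ℝ),
    (∀ r' : G.R, |X r' - ⟪(r' : E), θ⟫ - 1| ≤ 2 * ω) → 0 ≤ b → b ≤ ω →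
    (∀ r, r ≠ w → X' r + κ * b ≤ X r) → X' w ≤ X w + b →
    volume {n : M.NN | n ∈ (data G cs Ψ x Sc τ u).Dom ∧
        (data G cs Ψ x Sc τ u).g n r s ∈ y • ((data G cs Ψ x Sc τ u).Bx z X *
          (data G cs Ψ x Sc τ u).Bx z X') ∧
        (∀ r' : G.R, ⟪(r' : E), (data G cs Ψ x Sc τ u).f n r s⟫ ≤ X r') ∧
        (∀ r' : G.R, r' ≠ w → ⟪(r' : E), (data G cs Ψ x Sc τ u).f n r s⟫ + κ * b ≤ X r')}
      ≤ ENNReal.ofReal (Real.exp (Sc * (GG G X + Dw cs w * b + κ * z + ε)))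

/-- the law of the box of sides `Z` at the point `n₀` -/
def LawAt (G : Geo M E) (cs : Cst G) (Ψ : Γ → Γ) (x : M.G) (Sc τ : ℝ) (u : G.R → M.G)
    (ε δ : ℝ) (Z : G.R → ℝ) (n₀ : M.NN) (σ : Equiv.Perm G.R) (θ : E) : Prop :=
  volume {n : M.NN | n ∈ (data G cs Ψ x Sc τ u).Ah Z ∧
      ¬ (∀ (r : G.R) (s : ℝ), 0 ≤ s → s ≤ Z r →
        ‖(data G cs Ψ x Sc τ u).f (n₀ * n) r s - θ - s • (σ r : E)‖ ≤ ε)} ≤
      ENNReal.ofReal δ * volume ((data G cs Ψ x Sc τ u).A Z)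

/-- the field `box` for the data of a model, at one scale -/
def BoxAt (G : Geo M E) (cs : Cst G) (Ψ : Γ → Γ) (x : M.G) (Sc τ : ℝ) (u : G.R → M.G)
    (ω ε δ : ℝ) : Prop :=
  ∀ Z, adm τ ω Z → ∀ n₀ : M.NN, ∃ (σ : Equiv.Perm G.R) (θ : E),
    LawAt G cs Ψ x Sc τ u ε δ Z n₀ σ θ

/-- **all facts** -/
theorem exists_facts [Countable Γ] [FiniteDimensional ℝ E] (G : Geo M E) [DecidableEq G.R]
    (RQ : ∀ w : G.R, BoxVol.RayQ M (fun i => G.ray i = w)) (hD : CDist M) (K : ℕ) (RC Cb : ℝ) :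
    ∃ CV : ℝ, 1 ≤ CV ∧ ∀ (cs : Cst G) (J : ℕ), cs.RQ = RQ → CstOk cs J CV →
    ∃ κ1 : ℝ, 1 ≤ κ1 ∧ G.RS.Gt G.RS.lam ≤ κ1 ∧ ∀ (κ C c0 : ℝ) (J' : ℕ) (_hκ1 : κ1 ≤ κ) (hκ : 1 ≤ κ)
      (hκ' : G.RS.Gt G.RS.lam ≤ κ) (hC : 1 ≤ C) (_hC' : CA M cs.c1 ≤ C) (hc0 : 0 < c0)
      (_hJ : J ≤ J') (γ : ℝ), Gap G γ → ∀ ω : ℝ, 0 < ω → ω ≤ γ / 16 → ∀ ε : ℝ, 0 < ε → ∀ δ : ℝ,
      0 < δ → ∀ q : ℕ, SlabEv G cs K RC Cb κ c0 ω ε → StickEv G cs K RC Cb κ ω ε →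
      Ev G RC Cb fun Sc τ u => ∀ Ψ : Γ → Γ, QIMap S S Ψ K → ∀ x : M.G,
        BoxAt G cs Ψ x Sc τ u ω ε δ →
        El.Facts (mdl cs κ C c0 J' hκ hκ' hC hc0) (data G cs Ψ x Sc τ u) (par Sc ε δ ω q τ) := by
  obtain ⟨CV, hCV1, hV⟩ := exists_V_U G RQ
  refine ⟨CV, hCV1, fun cs J hRQ hcs => ?_⟩
  have hTU0 : 0 ≤ cs.TU := by linarith [hcs.TU]
  obtain ⟨κ1, hκ1, hlip⟩ := exists_lip G cs hTU0 K RC Cb
  obtain ⟨κ2, hκ2, hhop⟩ := exists_hop G cs hTU0 hcs.κD hD K RC Cb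
  refine ⟨max (max κ1 κ2) (max 1 (G.RS.Gt G.RS.lam)), le_max_of_le_right (le_max_left _ _),
    (le_max_right _ _).trans (le_max_right _ _), ?_⟩
  intro κ C c0 J' hκm hκ hκ' hC hC' hc0 hJ γ hγ ω hω hωγ ε hε δ hδ q hslab hstick
  have hκ1' : κ1 ≤ κ := ((le_max_left _ _).trans (le_max_left _ _)).trans hκm
  have hκ2' : κ2 ≤ κ := ((le_max_right _ _).trans (le_max_left _ _)).trans hκm
  have hω1 : ω ≤ 1 / 16 := by linarith [hγ.2.1]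
  have hc1 := hcs.c1.1
  obtain ⟨δ', hδ', S1, hAvol⟩ := exists_A_vol G cs hc1 hε
  refine (((((((((Ev.scale (max S1 (max 1 (4 / ε)))).and (ev_A_ne G cs hc1 hω1 hγ hωγ RC Cb)).and
    (ev_A_mono G cs hc1 hω1 hγ hωγ hε RC Cb)).and
    (hV cs hRQ hcs.ρV.le hcs.ρ1 hcs.ρT ω hω1 RC Cb)).and
    (lam_vol_ev G cs hc1 hcs.ρV hω1 hε RC Cb)).and
    (ev_tgt G cs q hε δ ω RC Cb)).and
    ((hlip κ hκ1' ε hε).and (hhop κ hκ2' ε hε))).and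
    ((exists_line G cs hcs.κD hD K RC Cb ε hε).and (ev_geo G hγ hδ' 0 RC Cb))).and
    (hslab.and hstick)).mono ?_
  rintro Sc τ u hτ hSc ⟨⟨⟨⟨⟨⟨⟨⟨hS, hne⟩, hmono⟩, hVU⟩, hlamvol⟩, htgt⟩, hl, hh⟩, hline, hgeo⟩,
    hsl, hst⟩ Ψ hΨ x hbox
  have hS1 : S1 ≤ Sc := (le_max_left _ _).trans hS
  have hSε : 4 ≤ Sc * ε := by
    have := ((le_max_right _ _).trans (le_max_right _ _)).trans hS
    rw [div_le_iff₀ hε] at this
    exact this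
  have htg := htgt Ψ x
  have hT : ∀ {w t}, (par Sc ε δ ω q τ : El.Par G.R).AdmT w t → 0 ≤ t ∧ t ≤ 2 := by
    rintro w t ⟨Z, hZ, rfl⟩
    have := adm.bd hZ hω1 w
    constructor <;> linarith [this.1, this.2]
  refine
    { S_pos := hSc
      ε_pos := hε
      S_large := hSε
      δ_pos := hδ
      adm := fun Z hZ => hZ.2
      μ_left := ?_
      μ_right := ?_
      μ_sf := ?_
      A_meas := fun Z _ n _ => A_meas G cs Ψ x Sc τ u Z n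
      A_one := fun Z hZ => A_one G cs Ψ x Sc τ u hc1 (adm.nonneg hZ hω1)
      A_inv := fun Z _ => A_inv G cs Ψ x Sc τ u Z
      A_pow := fun Z hZ => A_pow G cs Ψ x Sc τ u hcs.c1 hω1 hZ
      A_mono := fun Z Z' hZ hZ' h => hmono Ψ x Z Z' hZ hZ' h
      A_gen := fun Z hZ => (hne Ψ x Z hZ).2
      A_ne := fun Z hZ => (hne Ψ x Z hZ).1
      A_fin := fun Z _ => A_fin G cs Ψ x Sc τ u Z
      Ah_le := fun Z hZ => Ah_le G cs Ψ x Sc τ u hc1 (adm.nonneg hZ hω1) hC'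
      gen := fun Z hZ => gen_of_hop G cs Ψ x Sc τ u hcs.c1 hcs.TU hJ hκ hκ' hC hc0 hω1
        (fun n hn w t s h0 h1 h2 v hv z X hX => hh Ψ hΨ x n hn w t s h0 h1 h2 v hv z X hX) hZ
      V_sub := fun Z hZ w => V_sub G cs hcs.ρV.le hcs.ρc hω1 u Z hZ w
      V_U := fun w t ht n hn => hVU.1 w t ht n hn
      V_VU := fun w t t' ht ht' htt n hn n' hn' => hVU.2 w t t' ht ht' htt n hn n' hn'
      lam_compl := fun w t _ => lam_compl G cs u τ w t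
      lam_ne := fun w t _ => lam_ne_zero G cs hcs.ρV u τ w t
      lam_fin := fun w t _ => lam_ne_top G cs hcs.ρV.le u τ w t
      lam_vol := fun Z hZ w b hb hZb => hlamvol Z hZ w b hb hZb
      Bx_meas := htg.Bx_meas
      Bx_inv := htg.Bx_inv
      Bx_mono := htg.Bx_mono
      Bx_prod := htg.Bx_prod
      Ds_meas := htg.Ds_meas
      Ds_inv := htg.Ds_inv
      Ds_mono := htg.Ds_mono
      Ds_mul := htg.Ds_mul
      Bx_Ds := htg.Bx_Ds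
      g_meas := htg.g_meas
      g_zero := htg.g_zero
      lip := fun n w t s ht hs hst v hv =>
        hl Ψ hΨ x n w t s (hT hs).1 hst (hT ht).2 v hv
      hop := fun n hn w t s ht hs hst v hv _ z _ X hX =>
        hh Ψ hΨ x n hn w t s (hT hs).1 hst (hT ht).2 v hv z X hX
      line := fun n hn r s h0 h1 z _ X hX => hline Ψ hΨ x n hn r s h0 h1 z X hX
      A_vol := fun Z hZ => hAvol Sc hS1 u τ Z (adm.nonneg hZ hω1) (hgeo ω hωγ Z hZ).2.1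
      slab := fun r s h0 h1 z hz0 hz1 X y y' θ r' t hX ht0 ht1 =>
        hsl Ψ hΨ x r s h0 h1 z hz0 hz1 X y y' θ r' t hX ht0 ht1
      stick := fun r s h0 h1 z hz0 hz1 X X' y θ w b hX hb0 hb1 h2 h3 =>
        hst Ψ hΨ x r s h0 h1 z hz0 hz1 X X' y θ w b hX hb0 hb1 h2 h3
      box := fun Z hZ n₀ => hbox Z hZ n₀ }
  · change (volume : Measure M.NN).IsMulLeftInvariant
    infer_instance
  · change (volume : Measure M.NN).IsMulRightInvariant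
    infer_instance
  · change SigmaFinite (volume : Measure M.NN)
    infer_instance

end Crest.Agent.R182.ElI
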