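/-
R182, module ELINST (helper671), block [I6]: from the box theorem to the field `box` of `El.Facts`.
-/
import Mathlib
import Crest.Agent.R182.ElFacts

set_option autoImplicit false
set_option linter.unusedSectionVars false

open MeasureTheory Set
open scoped Pointwise RealInnerProductSpace ENNReal

namespace Crest.Agent.R182.ElI

open Crest.GroupTheory Crest.Geometry Crest.Agent.R182.QI Crest.Agent.R182.Core
  Crest.Agent.R182.Nb Crest.Agent.R182.Gen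

section Law

variable {Γ : Type*} [Group Γ] {k : ℕ} {S : Set Γ} {π : Γ →* Multiplicative (Fin k → ℤ)}
  {M : BModel S π} {E : Type} [NormedAddCommGroup E] [InnerProductSpace ℝ E]

/-- the law `(σ, θ)` of all the legs of the shape `Z`, at the base point `y`, at the point `n` -/
def LegLaw (G : Geo M E) (Ψ : Γ → Γ) (y : M.G) (Sc τ : ℝ) (u : G.R → M.G) (η : ℝ) (Z : G.R → ℝ)
    (σ : Equiv.Perm G.R) (θ : E) (n : M.NN) : Prop :=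
  ∀ r : G.R, ∀ j : ℕ, (j : ℝ) * τ ≤ Z r →
    ‖Sc⁻¹ • G.T (M.h (M.ext Ψ (y * M.toG n * u r ^ j))) - θ - ((j : ℝ) * τ) • (σ r : E)‖ ≤ η

/-- the law of the legs at all the real times, seen from the base point `x` -/
theorem good_of_legLaw {G : Geo M E} (cs : Cst G) {Ψ : Γ → Γ} {x : M.G} {Sc τ η ε : ℝ}
    (hτ : 0 < τ) (hε : η + τ ≤ ε) {u : G.R → M.G} {Z : G.R → ℝ} {σ : Equiv.Perm G.R} {θ : E}
    {n₀ n : M.NN} (h : LegLaw G Ψ (x * M.toG n₀) Sc τ u η Z σ θ n) (r : G.R) (s : ℝ) (hs0 : 0 ≤ s)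
    (hsZ : s ≤ Z r) : ‖(data G cs Ψ x Sc τ u).f (n₀ * n) r s -
      (θ - Sc⁻¹ • G.T (M.h (M.ext Ψ x))) - s • (σ r : E)‖ ≤ ε := by
  have hfl := Nat.floor_le (div_nonneg hs0 hτ.le)
  have hlt := Nat.lt_floor_add_one (s / τ)
  rw [le_div_iff₀ hτ] at hfl
  rw [div_lt_iff₀ hτ] at hlt
  have h1 := h r ⌊s / τ⌋₊ (hfl.trans hsZ)
  have e1 : (data G cs Ψ x Sc τ u).f (n₀ * n) r s =
      Sc⁻¹ • G.T (M.h (M.ext Ψ (x * M.toG n₀ * M.toG n * u r ^ ⌊s / τ⌋₊))) -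
        Sc⁻¹ • G.T (M.h (M.ext Ψ x)) := by
    change Sc⁻¹ • G.T (M.h ((M.ext Ψ x)⁻¹ * M.ext Ψ (x * M.toG (n₀ * n) * u r ^ ⌊s / τ⌋₊))) = _
    rw [M.h_mul, M.h_inv, map_mul, ← mul_assoc x, map_add, map_neg, smul_add, smul_neg]
    abel
  rw [e1]
  have e2 : Sc⁻¹ • G.T (M.h (M.ext Ψ (x * M.toG n₀ * M.toG n * u r ^ ⌊s / τ⌋₊))) -
        Sc⁻¹ • G.T (M.h (M.ext Ψ x)) - (θ - Sc⁻¹ • G.T (M.h (M.ext Ψ x))) - s • (σ r : E) =
      (Sc⁻¹ • G.T (M.h (M.ext Ψ (x * M.toG n₀ * M.toG n * u r ^ ⌊s / τ⌋₊))) - θ -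
        ((⌊s / τ⌋₊ : ℝ) * τ) • (σ r : E)) - (s - (⌊s / τ⌋₊ : ℝ) * τ) • (σ r : E) := by
    rw [sub_smul]; abel
  rw [e2]
  refine (norm_sub_le _ _).trans ?_
  rw [norm_smul, G.norm_ray, mul_one, Real.norm_eq_abs, abs_of_nonneg (by linarith)]
  have h2 : (⌊s / τ⌋₊ + 1 : ℝ) * τ = (⌊s / τ⌋₊ : ℝ) * τ + τ := by ring
  linarith

/-- **[I6]** the law of a box in the form of `El`, from the law of all legs at most points -/
theorem lawAt_of_legLaw {G : Geo M E} (cs : Cst G) (hc1 : 0 < cs.c1) {Ψ : Γ → Γ} {x : M.G}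
    {Sc τ η κ ε δ : ℝ} (hτ : 0 < τ) (hε : η + τ ≤ ε) (hκ : 0 ≤ κ) (hδ : κ * CA M cs.c1 ≤ δ)
    {u : G.R → M.G} {Z : G.R → ℝ} (hZ : ∀ r, 0 ≤ Z r) {n₀ : M.NN} {σ : Equiv.Perm G.R} {θ : E}
    (h : (volume : Measure M.NN) {n | n ∈ M.NB (fm G u τ Z) 1 ∧
      ¬ LegLaw G Ψ (x * M.toG n₀) Sc τ u η Z σ θ n} ≤
        ENNReal.ofReal κ * volume (M.NB (fm G u τ Z) 1)) :
    LawAt G cs Ψ x Sc τ u ε δ Z n₀ σ (θ - Sc⁻¹ • G.T (M.h (M.ext Ψ x))) := by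
  refine (measure_mono ?_).trans (h.trans ?_)
  · rintro n ⟨hn, hbad⟩
    exact ⟨hn, fun hlaw => hbad (good_of_legLaw cs hτ hε hlaw)⟩
  · have hvol := Ah_le G cs Ψ x Sc τ u hc1 hZ (le_refl (CA M cs.c1))
    have hvol' : (volume : Measure M.NN) (M.NB (fm G u τ Z) 1) ≤
      ENNReal.ofReal (CA M cs.c1) * volume (M.NB (fm G u τ Z) (cs.c1 * rho G Z)) := hvol
    refine (mul_le_mul_right hvol' _).trans ?_
    rw [← mul_assoc, ← ENNReal.ofReal_mul hκ]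
    exact mul_le_mul_left (ENNReal.ofReal_le_ofReal hδ) _

end Law

end Crest.Agent.R182.ElI
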