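/-
R182, module ELINST / BOX (helper671): raw box laws give the laws of `El`; unit legs from `Legs`.
-/
import Mathlib
import Crest.Agent.R182.ElBoxI
import Crest.Agent.R182.BoxRaw
import Crest.Agent.R182.StarBM

set_option autoImplicit false
set_option linter.unusedSectionVars false

open MeasureTheory Set
open scoped Pointwise RealInnerProductSpace ENNReal

namespace Crest.Agent.R182.ElI

open Crest.GroupTheory Crest.Geometry Crest.Agent.R182.QI Crest.Agent.R182.Core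
  Crest.Agent.R182.Nb Crest.Agent.R182.Gen Crest.Agent.R182.OneScale Crest.Agent.R182.HoleOne

section Raw

variable {Γ : Type*} [Group Γ] {k : ℕ} {S : Set Γ} {π : Γ →* Multiplicative (Fin k → ℤ)}
  {M : BModel S π} {E : Type} [NormedAddCommGroup E] [InnerProductSpace ℝ E]

theorem inner_leg_le {G : Geo M E} {γ ω : ℝ} (hγ : Gap G γ) (hω : 0 ≤ ω) (hωγ : ω ≤ γ / 4)
    {Z : G.R → ℝ} (hZ : El.NR ω Z) {r : G.R} {t : ℝ} (ht0 : 0 ≤ t) (ht : t ≤ Z r) (e : G.R) :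
    ⟪(e : E), t • (r : E)⟫ ≤ Z e := by
  rw [inner_smul_right]
  have h1 := abs_le.1 (hZ e)
  have h2 := abs_le.1 (hZ r)
  have hγ0 := hγ.1
  have hγ1 := hγ.2.1
  by_cases her : e = r
  · subst her
    rw [real_inner_self_eq_norm_sq, G.norm_ray]
    linarith
  · have h3 := hγ.2.2 e r her
    have h4 : t * ⟪(e : E), (r : E)⟫ ≤ t * (1 - γ) := mul_le_mul_of_nonneg_left h3 ht0
    have h5 : t * (1 - γ) ≤ (1 + ω) * (1 - γ) :=
      mul_le_mul_of_nonneg_right (by linarith [h2.2]) (by linarith)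
    nlinarith [h1.1]

/-- (i) of the interface: a raw law at `x * n₀` is a law in the form of `El`, with the same `σ`
and the normalised `θ`. -/
theorem lawAt_of_raw {G : Geo M E} (cs : Cst G) (hc1 : 0 < cs.c1) {γ ω : ℝ} (hγ : Gap G γ)
    (hω : 0 ≤ ω) (hωγ : ω ≤ γ / 4) {Ψ : Γ → Γ} {x : M.G} {Sc τ η ε δ : ℝ} (hτ : 0 < τ)
    (hη : 0 ≤ η) (hε : η + τ ≤ ε) (hδ : η * CA M cs.c1 ≤ δ) {u : G.R → M.G} {Z : G.R → ℝ}
    (hZ : El.NR ω Z) {n₀ : M.NN} {σ : Equiv.Perm G.R} {L : E →ₗ[ℝ] E} {θ : E}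
    (hL : ∀ r : G.R, L (r : E) = (σ r : E))
    (h : RawLaw G Ψ Sc τ u η Z (x * M.toG n₀) L θ) :
    LawAt G cs Ψ x Sc τ u ε δ Z n₀ σ (θ - Sc⁻¹ • G.T (fh M Ψ x)) := by
  have hZ0 : ∀ r, 0 ≤ Z r := fun r => by
    have h1 := abs_le.1 (hZ r)
    linarith [hγ.2.1, h1.1]
  refine lawAt_of_legLaw cs hc1 hτ hε hη hδ hZ0 (le_trans (measure_mono ?_) h)
  rintro n ⟨hn, hbad⟩
  refine ⟨hn, fun hraw => hbad fun r j hj => ?_⟩
  have hj0 : 0 ≤ (j : ℝ) * τ := by positivity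
  have h1 := hraw [(r, j)] (by simp) (by
    intro w' hw' e
    rcases w' with _ | ⟨p, w'⟩
    · rw [hw_nil, inner_zero_right]; exact hZ0 e
    · obtain ⟨hp, hw''⟩ := List.cons_prefix_cons.1 hw'
      have : w' = [] := List.prefix_nil.1 hw''
      subst this hp
      rw [hw_cons, hw_nil, add_zero]
      exact inner_leg_le hγ hω hωγ hZ hj0 hj e)
  rw [hw_cons, hw_nil, add_zero, map_smul, hL] at h1
  have e1 : uw u [(r, j)] = u r ^ j := by simp [uw]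
  rw [e1] at h1
  exact h1

/-- the field `box` of `El.Facts` from raw laws at all base points -/
theorem boxAt_of_raw {G : Geo M E} (cs : Cst G) (hc1 : 0 < cs.c1) {γ ω : ℝ} (hγ : Gap G γ)
    (hω : 0 ≤ ω) (hωγ : ω ≤ γ / 4) {Ψ : Γ → Γ} {Sc τ η ε δ : ℝ} (hτ : 0 < τ)
    (hη : 0 ≤ η) (hε : η + τ ≤ ε) (hδ : η * CA M cs.c1 ≤ δ) {u : G.R → M.G}
    (h : ∀ Z, adm τ ω Z → ∀ y : M.G, ∃ L ∈ LLE G, ∃ θ : E, RawLaw G Ψ Sc τ u η Z y L θ)
    (x : M.G) : BoxAt G cs Ψ x Sc τ u ω ε δ := by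
  intro Z hZ n₀
  obtain ⟨L, ⟨σ, hL⟩, θ, hraw⟩ := h Z hZ (x * M.toG n₀)
  exact ⟨σ, _, lawAt_of_raw cs hc1 hγ hω hωγ hτ hη hε hδ hZ.2 hL hraw⟩

end Raw

section Legs

variable {Γ : Type*} [Group Γ] {k : ℕ} {S : Finset Γ} {π : Γ →* Multiplicative (Fin k → ℤ)}

/-- a bound for the length of the vertical letters -/
noncomputable def RV (M : BModel (S : Set Γ) π) : ℝ :=
  ∑ i : Fin k, M.len (M.t (Pi.single i 1))

theorem len_le_RV (M : BModel (S : Set Γ) π) {s : M.G} (hs : s ∈ Star.vts M ∨ s⁻¹ ∈ Star.vts M) :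
    s ∈ M.C ∧ M.len s ≤ RV M := by
  have key : ∀ s : M.G, s ∈ Star.vts M → s ∈ M.C ∧ M.len s ≤ RV M := by
    rintro _ ⟨i, rfl⟩
    refine ⟨M.CN_le (Star.t_mem_CN M _), ?_⟩
    exact Finset.single_le_sum (f := fun i : Fin k => M.len (M.t (Pi.single i 1)))
      (fun i _ => M.len_nonneg _) (Finset.mem_univ i)
  rcases hs with h | h
  · exact key s h
  · obtain ⟨h1, h2⟩ := key _ h
    rw [M.isLen.inv] at h2
    exact ⟨by simpa using inv_mem h1, h2⟩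

variable {M : BModel (S : Set Γ) π} [Countable Γ] {E : Type} [NormedAddCommGroup E]
  [InnerProductSpace ℝ E] {G : Geo M E} {V : Set M.NN} {RC : ℝ} {P : BModel.CapPar M G.T V RC}
  {Cb eps ε₁ τ : ℝ}

/-- accurate legs give accurate unit legs at large scales -/
theorem exists_unit (𝓛 : Star.Legs (M.toCap P) G.RS (Star.vts M) Cb eps) (heps : 0 ≤ eps)
    (hlt : eps < ε₁) (hτ : 0 < τ) : ∃ N0 : ℕ, ∀ N : ℕ, N0 ≤ N →
      ∃ un : Unit G (RV M) Cb ε₁ τ N, un.u = fun e => 𝓛.u N τ e := by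
  obtain ⟨N0, hN0⟩ := exists_nat_ge (𝓛.mX / ((ε₁ - eps) * τ))
  refine ⟨N0, fun N hN => ?_⟩
  have hNN : 𝓛.mX ≤ (ε₁ - eps) * τ * N := by
    have h1 : (N0 : ℝ) ≤ N := by exact_mod_cast hN
    have h2 := hN0.trans h1
    rwa [div_le_iff₀' (by have : 0 < ε₁ - eps := by linarith
                          positivity)] at h2
  choose w hwlen hwmem hwprod using fun e : G.R => 𝓛.u_mem N τ e
  refine ⟨⟨fun e => 𝓛.u N τ e, w, hwprod, fun e s hs => len_le_RV M (hwmem e s hs), fun e => ?_,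
    fun e => ?_⟩, rfl⟩
  · have h1 : ((w e).length : ℝ) ≤ ((𝓛.p N τ e * 𝓛.rb e : ℕ) : ℝ) := by exact_mod_cast hwlen e
    exact h1.trans (𝓛.p_rb_le hτ.le e)
  · have h1 := 𝓛.hgt_u (N := N) hτ.le heps e 1 (G.norm_ray e)
    have h2 := 𝓛.mE_le e
    have h3 : ‖G.T (M.h (𝓛.u N τ e)) - (τ * N) • (e : E)‖ ≤ eps * (τ * N) + 𝓛.mE e := by
      have e1 : (M.toCap P).hgt (𝓛.u N τ e ^ 1) = G.T (M.h (𝓛.u N τ e)) := by rw [pow_one]; rfl
      rw [e1] at h1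
      simpa using h1
    refine h3.trans ?_
    nlinarith

/-- the exponents of the unit legs are at most linear in the scale -/
theorem exists_p_le (𝓛 : Star.Legs (M.toCap P) G.RS (Star.vts M) Cb eps) (hτ : 0 < τ) :
    ∃ Cp : ℝ, 0 ≤ Cp ∧ ∀ (N : ℕ) (e : G.R), (𝓛.p N τ e : ℝ) ≤ Cp * N := by
  refine ⟨∑ e : G.R, τ / 𝓛.mE e, Finset.sum_nonneg fun e _ =>
    div_nonneg hτ.le (𝓛.mE_pos e).le, fun N e => ?_⟩
  have h1 := 𝓛.p_le (N := N) hτ.le e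
  have h2 := 𝓛.mE_pos e
  have h3 : (𝓛.p N τ e : ℝ) ≤ τ / 𝓛.mE e * N := by
    rw [div_mul_eq_mul_div, le_div_iff₀ h2]; exact h1
  refine h3.trans (mul_le_mul_of_nonneg_right ?_ (Nat.cast_nonneg N))
  exact Finset.single_le_sum (f := fun e : G.R => τ / 𝓛.mE e)
    (fun e _ => div_nonneg hτ.le (𝓛.mE_pos e).le) (Finset.mem_univ e)

end Legs

end Crest.Agent.R182.ElI
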