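/-
R182, module HOLE (helper823): at one scale, the laws of the shapes `S₁ < S₃` agree at every base
point; consequence: the law of the middle shape follows the verticals.
-/
import Mathlib
import Crest.Agent.R182.HoleGeo
import Crest.Agent.R182.HoleShift

set_option autoImplicit false
set_option linter.unusedSectionVars false

open MeasureTheory Set
open scoped ENNReal

namespace Crest.Agent.R182.HoleNil

theorem SideGeo.mono_C {N : Type*} [Group N] [MeasurableSpace N] [MeasurableMul₂ N]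
    [MeasurableInv N] {μ : Measure N} [SFinite μ] [μ.IsMulLeftInvariant] [μ.IsMulRightInvariant]
    {R : Type*} {A A' : Set N} {J : ℕ} {C C' : ℝ≥0∞} {s : Side N R}
    (h : SideGeo μ A A' J C s) (hC : C ≤ C') : SideGeo μ A A' J C' s :=
  { h with vol := h.vol.trans (by gcongr) }

end Crest.Agent.R182.HoleNil

namespace Crest.Agent.R182.HoleOne

open Crest.GroupTheory Crest.Geometry Crest.Agent.R182.QI Crest.Agent.R182.Core
  Crest.Agent.R182.Core.BModel Crest.Agent.R182.Nb Crest.Agent.R182.HoleNil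
  Crest.Agent.R182.OneScale Crest.Agent.R182.HoleGeo

variable {Γ : Type*} [Group Γ] {k : ℕ} {S : Set Γ} {π : Γ →* Multiplicative (Fin k → ℤ)}

variable (M : BModel S π) (Ψ : Γ → Γ) {ι κ : Type*} [Fintype ι] [Fintype κ]

variable {ρ : Type} (ray : M.gen → ρ) (x : ρ → M.G)

/-- `Λ` is a law of the shape `m` at the base point `y`, for the words `w`. -/
def LawB (c1 : ℝ) (w : κ → M.G) (τ : ℝ) (δ : ℝ≥0∞) (y : M.G) (m : ρ → ℕ)
    (Λ : κ → Fin k → ℝ) : Prop :=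
  Law volume (prof M Ψ y w) (M.NB (F ray x m) 1) τ (δ * volume (M.NB (F ray x m) c1)) 1 Λ

variable {M Ψ ray x}

theorem LawB.law {c1 : ℝ} {w : κ → M.G} {τ : ℝ} {δ : ℝ≥0∞} {y : M.G} {m : ρ → ℕ}
    {Λ : κ → Fin k → ℝ} {n : M.NN} :
    LawB M Ψ ray x c1 w τ δ (y * M.toG n) m Λ ↔ Law volume (prof M Ψ y w) (M.NB (F ray x m) 1) τ
      (δ * volume (M.NB (F ray x m) c1)) n Λ := law_iff.symm

theorem LawB.law' {c1 : ℝ} {w : κ → M.G} {τ : ℝ} {δ : ℝ≥0∞} {y : M.G} {m : ρ → ℕ}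
    {Λ : κ → Fin k → ℝ} {g n : M.NN} :
    LawB M Ψ ray x c1 w τ δ (y * M.toG g * M.toG n) m Λ ↔
      Law volume (prof M Ψ y w) (M.NB (F ray x m) 1) τ
      (δ * volume (M.NB (F ray x m) c1)) (g * n) Λ := by
  rw [mul_assoc, ← map_mul]; exact LawB.law

/-- **Holes are filled**: the laws of the shapes `m + q₁ - t` and `m + q₂ - t` agree. -/
theorem hole_scale [Countable Γ] [DecidableEq ρ] {gc : GC} (hgc : gc.Ok M M.gen) {w : κ → M.G}
    {m : ρ → ℕ} {q₁ q₂ t : ℕ} {e₁ e₂ : ℝ} (he₁ : 0 < e₁) (he₂ : 0 < e₂) (he₂' : e₂ ≤ 1)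
    (zA : volume (M.NB (F ray x m) gc.c1) ≠ 0)
    (zW₁ : ∀ r, volume (M.NB (F ray x (Function.update m r (m r + q₁))) gc.c1) ≠ 0)
    (zW₂ : ∀ r, volume (M.NB (F ray x (Function.update m r (m r + q₂))) gc.c1) ≠ 0)
    (zA₀ : volume (M.NB (F ray x fun r => m r + q₂) (gc.c1 * e₂)) ≠ 0)
    (g₁ : SideGeo volume (M.NB (F ray x m) gc.c1) (M.NB (F ray x m) 1) gc.J
      (ENNReal.ofReal (gc.A3 ^ M.r))
      (side ray gc (F ray x fun r => m r + q₁) (F ray x fun r => m r + (q₁ - t))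
        (fun r => F ray x (Function.update m r (m r + q₁))) e₁))
    (g₂ : SideGeo volume (M.NB (F ray x m) gc.c1) (M.NB (F ray x m) 1) gc.J
      (ENNReal.ofReal (gc.A3 ^ M.r))
      (side ray gc (F ray x fun r => m r + q₂) (F ray x fun r => m r + (q₂ - t))
        (fun r => F ray x (Function.update m r (m r + q₂))) e₂))
    (g₃ : M.NB (F ray x fun r => m r + q₁) e₁ ⊆
      M.NB (F ray x fun r => m r + q₂) (gc.c1 * e₂))
    (g₄ : M.NB (F ray x fun r => m r + q₂) (gc.c1 * e₂) ⊆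
      M.NB (F ray x fun r => m r + (q₁ - t)) gc.c1)
    {τ η : ℝ} (hτ : 0 ≤ τ) (hη : 0 ≤ η) {δ ε₁ : ℝ≥0∞}
    (l0 : ∀ y, ∃ Λ, LawB M Ψ ray x gc.c1 w τ δ y m Λ)
    (l1 : ∀ y r, ∃ Λ, LawB M Ψ ray x gc.c1 w τ δ y (Function.update m r (m r + q₁)) Λ)
    (l2 : ∀ y r, ∃ Λ, LawB M Ψ ray x gc.c1 w τ δ y (Function.update m r (m r + q₂)) Λ)
    (l3 : ∀ y, ∃ Λ, LawB M Ψ ray x gc.c1 w τ δ y (fun r => m r + (q₁ - t)) Λ)
    (l4 : ∀ y, ∃ Λ, LawB M Ψ ray x gc.c1 w τ δ y (fun r => m r + (q₂ - t)) Λ)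
    (el₁ : ∀ (y : M.G) (r : ρ), volume {n : M.NN |
      n ∈ M.NB (F ray x fun r => m r + q₁) (gc.A2 * e₁) ∧ ∃ Λ Λ',
      LawB M Ψ ray x gc.c1 w τ δ (y * M.toG n) m Λ ∧
      LawB M Ψ ray x gc.c1 w τ δ (y * M.toG n) (Function.update m r (m r + q₁)) Λ' ∧
      η < dist Λ Λ'} ≤ ε₁ * volume (M.NB (F ray x fun r => m r + q₁) e₁))
    (el₂ : ∀ (y : M.G) (r : ρ), volume {n : M.NN |
      n ∈ M.NB (F ray x fun r => m r + q₂) (gc.A2 * e₂) ∧ ∃ Λ Λ',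
      LawB M Ψ ray x gc.c1 w τ δ (y * M.toG n) m Λ ∧
      LawB M Ψ ray x gc.c1 w τ δ (y * M.toG n) (Function.update m r (m r + q₂)) Λ' ∧
      η < dist Λ Λ'} ≤ ε₁ * volume (M.NB (F ray x fun r => m r + q₂) e₂))
    {C : ℝ≥0∞} (hC1 : ENNReal.ofReal (gc.A3 ^ M.r) ≤ C)
    (hC2 : ENNReal.ofReal ((gc.c1⁻¹) ^ M.r) ≤ C) (hδ : 2 * δ < 1)
    (hε : (gc.J + 1) * (4 * (4 * δ * C + ε₁) + δ) +
      (gc.J + 1) * (4 * (4 * δ * C + ε₁) + δ) * C < 1)
    {y : M.G} {Λ₁ Λ₂ : κ → Fin k → ℝ}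
    (h₁ : LawB M Ψ ray x gc.c1 w τ δ y (fun r => m r + (q₁ - t)) Λ₁)
    (h₂ : LawB M Ψ ray x gc.c1 w τ δ y (fun r => m r + (q₂ - t)) Λ₂) :
    dist Λ₁ Λ₂ ≤ (2 * gc.J + 4) * (8 * τ + 2 * η) := by
  have hc1 := hgc.c1_pos
  have hc1' := hgc.c1_le
  have L1 : SideLaw volume (prof M Ψ y w) (M.NB (F ray x m) gc.c1) (M.NB (F ray x m) 1) τ η δ ε₁
      (side ray gc (F ray x fun r => m r + q₁) (F ray x fun r => m r + (q₁ - t))
        (fun r => F ray x (Function.update m r (m r + q₁))) e₁) := by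
    constructor
    · intro r n
      obtain ⟨Λ, h⟩ := l1 (y * M.toG n) r
      exact ⟨Λ, LawB.law.1 h⟩
    · exact zW₁
    · exact fun r => (volume_NB_lt_top M _ _).ne
    · intro n
      obtain ⟨Λ, h⟩ := l3 (y * M.toG n)
      exact ⟨Λ, LawB.law.1 h⟩
    · intro g r
      refine le_trans (measure_mono ?_) (el₁ (y * M.toG g) r)
      rintro n ⟨hn, Λ, Λ', h, h', hd⟩
      exact ⟨hn, Λ, Λ', LawB.law'.2 h, LawB.law'.2 h', hd⟩
  have L2 : SideLaw volume (prof M Ψ y w) (M.NB (F ray x m) gc.c1) (M.NB (F ray x m) 1) τ η δ ε₁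
      (side ray gc (F ray x fun r => m r + q₂) (F ray x fun r => m r + (q₂ - t))
        (fun r => F ray x (Function.update m r (m r + q₂))) e₂) := by
    constructor
    · intro r n
      obtain ⟨Λ, h⟩ := l2 (y * M.toG n) r
      exact ⟨Λ, LawB.law.1 h⟩
    · exact zW₂
    · exact fun r => (volume_NB_lt_top M _ _).ne
    · intro n
      obtain ⟨Λ, h⟩ := l4 (y * M.toG n)
      exact ⟨Λ, LawB.law.1 h⟩
    · intro g r
      refine le_trans (measure_mono ?_) (el₂ (y * M.toG g) r)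
      rintro n ⟨hn, Λ, Λ', h, h', hd⟩
      exact ⟨hn, Λ, Λ', LawB.law'.2 h, LawB.law'.2 h', hd⟩
  refine hole_laws (μ := volume) (f := prof M Ψ y w) (measurable_prof y w)
    (A := M.NB (F ray x m) gc.c1) (A' := M.NB (F ray x m) 1)
    (A₀ := M.NB (F ray x fun r => m r + q₂) (gc.c1 * e₂)) (J := gc.J) (C := C) (τ := τ) (η := η)
    (δ := δ) (ε₁ := ε₁) hτ hη (measurableSet_NB M _ _) zA (volume_NB_lt_top M _ _).ne
    (NB_mono hc1') (hgc.mul _) (fun n => ?_) (g₁.mono_C hC1) L1 (g₂.mono_C hC1) L2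
    (measurableSet_NB M _ _) zA₀ (volume_NB_lt_top M _ _).ne ?_ ?_ ?_ hδ hε (n := 1) h₁ h₂
  · obtain ⟨Λ, h⟩ := l0 (y * M.toG n)
    exact ⟨Λ, LawB.law.1 h⟩
  · intro k hk g hg
    exact hgc.mul _ k (g₄ hk) g hg
  · intro k hk g hg
    exact hgc.mul' _ e₂ he₂.le he₂' k hk g (g₃ hg)
  · change volume (M.NB (F ray x fun r => m r + q₂) e₂) ≤ _
    have h5 : volume (M.NB (F ray x fun r => m r + q₂) e₂) = ENNReal.ofReal (gc.c1⁻¹ ^ M.r) *
        volume (M.NB (F ray x fun r => m r + q₂) (gc.c1 * e₂)) := by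
      rw [← volume_NB_smul (inv_pos.2 hc1), ← mul_assoc, inv_mul_cancel₀ hc1.ne', one_mul]
    rw [h5]
    gcongr

end Crest.Agent.R182.HoleOne
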