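/-
R182, module HOLE (helper860): the hypotheses `el₁`, `el₂` of `hole_scale` from the enlargement
lemma (laws in the sense of EL) and the raw box laws.
-/
import Mathlib
import Crest.Agent.R182.BoxRaw
import Crest.Agent.R182.HoleDict
import Crest.Agent.R182.HoleScale
import Crest.Agent.R182.ElFacts

set_option autoImplicit false
set_option linter.unusedSectionVars false

open MeasureTheory Set
open scoped ENNReal Pointwise RealInnerProductSpace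

namespace Crest.Agent.R182.HoleOne

open Crest.GroupTheory Crest.Geometry Crest.Agent.R182.QI Crest.Agent.R182.Core
  Crest.Agent.R182.Core.BModel Crest.Agent.R182.Nb Crest.Agent.R182.HoleNil
  Crest.Agent.R182.HoleGeo Crest.Agent.R182.OneScale Crest.Agent.R182.ElI

variable {Γ : Type*} [Group Γ] {k : ℕ} {S : Set Γ} {π : Γ →* Multiplicative (Fin k → ℤ)}
  {M : BModel S π} {E : Type} [NormedAddCommGroup E] [InnerProductSpace ℝ E]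

/-- the box laws of the shape `Z` at all base points -/
def BoxOut (G : Geo M E) (Ψ : Γ → Γ) (Sc τ : ℝ) (u : G.R → M.G) (η : ℝ) (Z : G.R → ℝ) : Prop :=
  ∀ y : M.G, ∃ (σ : Equiv.Perm G.R) (L : E →ₗ[ℝ] E) (θ : E), (∀ e : G.R, L (e : E) = (σ e : E)) ∧
    RawLaw G Ψ Sc τ u η Z y L θ

/-- raw laws are laws in the sense of EL -/
def RawAt (G : Geo M E) (cs : Cst G) (Ψ : Γ → Γ) (Sc τ : ℝ) (u : G.R → M.G) (η ε δ : ℝ)
    (Z : G.R → ℝ) : Prop :=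
  ∀ (x : M.G) (n : M.NN) (σ : Equiv.Perm G.R) (L : E →ₗ[ℝ] E) (θ : E),
    (∀ e : G.R, L (e : E) = (σ e : E)) → RawLaw G Ψ Sc τ u η Z (x * M.toG n) L θ →
    LawAt G cs Ψ x Sc τ u ε δ Z n σ (θ - Sc⁻¹ • G.T (fh M Ψ x))

/-- the output of the enlargement lemma at one scale -/
def ElOut (G : Geo M E) [DecidableEq G.R] (cs : Cst G) (Ψ : Γ → Γ) (Sc τ : ℝ) (u : G.R → M.G)
    (ε δ η β b : ℝ) (KS : Set M.NN) : Prop :=
  ∀ x : M.G, volume {n : M.NN | n ∈ KS ∧ ∃ (w : G.R) (σ σ' : Equiv.Perm G.R) (θ θ' : E),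
        LawAt G cs Ψ x Sc τ u ε δ (fun _ => 1) n σ θ ∧
        LawAt G cs Ψ x Sc τ u ε δ (Function.update (fun _ => 1) w (1 + b)) n σ' θ' ∧
        ¬ (σ = σ' ∧ ‖θ - θ'‖ ≤ η)} ≤ ENNReal.ofReal β * volume KS

theorem BoxOut.lle {G : Geo M E} {Ψ : Γ → Γ} {Sc τ η : ℝ} {u : G.R → M.G} {Z : G.R → ℝ}
    (h : BoxOut G Ψ Sc τ u η Z) (y : M.G) : ∃ L ∈ LLE G, ∃ θ, RawLaw G Ψ Sc τ u η Z y L θ := by
  obtain ⟨σ, L, θ, h1, h2⟩ := h y
  exact ⟨L, ⟨σ, h1⟩, θ, h2⟩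

/-- uniqueness of laws of a box -/
theorem law_unique {ι : Type*} [Fintype ι] {f : M.NN → ι → Fin k → ℝ} {A A' : Set M.NN} {τ : ℝ}
    {δ : ℝ≥0∞} (hA : A ⊆ A') (zA : volume A ≠ 0) (tA : volume A ≠ ∞) (hδ : 2 * δ < 1) {n : M.NN}
    {Λ Λ' : ι → Fin k → ℝ} (h : Law volume f A' τ (δ * volume A) n Λ)
    (h' : Law volume f A' τ (δ * volume A) n Λ') : dist Λ Λ' ≤ 2 * τ := by
  have h1 : Law volume f A τ (δ * volume A) (n * 1) Λ := by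
    rw [mul_one]; exact h.mono hA le_rfl le_rfl
  have h2 := h'.overlap h1 (fun g hg => by rw [one_mul]; exact hA hg) (by
    rw [← add_mul, ← two_mul]
    calc 2 * δ * volume A < 1 * volume A := by
          rw [ENNReal.mul_lt_mul_iff_left zA tA]; exact hδ
      _ = volume A := one_mul _)
  linarith

/-- the shapes in the two notations -/
theorem shape_one {ρ : Type*} {τ : ℝ} {p : ℕ} (hp : (1 : ℝ) = p * τ) :
    (fun _ : ρ => (1 : ℝ)) = fun r : ρ => (((fun _ => p) r : ℕ) : ℝ) * τ := by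
  funext r; exact hp

theorem shape_upd {ρ : Type*} [DecidableEq ρ] {τ b : ℝ} {p q : ℕ} (hp : (1 : ℝ) = p * τ)
    (hq : b = q * τ) (r : ρ) : Function.update (fun _ : ρ => (1 : ℝ)) r (1 + b) =
      fun r' : ρ => ((Function.update (fun _ => p) r (p + q) r' : ℕ) : ℝ) * τ := by
  funext r'
  by_cases h : r' = r
  · subst h
    rw [Function.update_self, Function.update_self, hq]
    push_cast
    rw [add_mul, ← hp]
  · rw [Function.update_of_ne h, Function.update_of_ne h]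
    exact hp

theorem shape_add {ρ : Type*} {τ b : ℝ} {p q : ℕ} (hp : (1 : ℝ) = p * τ)
    (hq : b = q * τ) : (fun _ : ρ => 1 + b) = fun r : ρ => (((fun _ => p + q) r : ℕ) : ℝ) * τ := by
  funext r
  rw [hq]
  push_cast
  rw [add_mul, ← hp]

variable [FiniteDimensional ℝ E]

/-- the laws of the shape `m` from the raw laws -/
theorem exists_lawB (G : Geo M E) : ∃ CR : ℝ, 1 ≤ CR ∧
    ∀ {Ψ : Γ → Γ} {RC Cb e₁ τ Sc : ℝ} (un : ElI.Unit G RC Cb e₁ τ Sc), 0 < Sc → 0 < τ →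
      0 ≤ e₁ → ∀ {J : ℕ}, J * τ ≤ 1 / 4 → ∀ {m : G.R → ℕ}, (∀ r, 1 / 2 ≤ (m r : ℝ) * τ) →
      ∀ {η : ℝ}, 0 ≤ η → ∀ {y : M.G} {L : E →ₗ[ℝ] E} {θ : E}, L ∈ LLE G →
      RawLaw G Ψ Sc τ un.u η (fun r => m r * τ) y L θ →
      ∀ {c1 : ℝ} {δ' : ℝ≥0∞}, 0 < c1 → ENNReal.ofReal η ≤ δ' * ENNReal.ofReal (c1 ^ M.r) →
      LawB M Ψ G.ray un.u c1 (ww' G un.u J) (CR * (η + e₁) * Sc) δ' y m
        (pr M (ww' G un.u J) (toV G L) (Sc • G.T.symm θ)) := by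
  obtain ⟨CR, hCR, h⟩ := rawLaw_law G
  refine ⟨CR, hCR, ?_⟩
  intro Ψ RC Cb e₁ τ Sc un hSc hτ he J hJ m hm η hη y L θ hL hraw c1 δ' hc1 hδ'
  have h1 := h un hSc hτ he hJ hm hη hL hraw hc1 hδ'
  rw [fm_eq G un.u hτ m] at h1
  exact h1

/-- **(iii)**: the hypotheses `el₁`, `el₂` of `hole_scale`, together with the laws, with one
constant `CR` -/
theorem exists_law_el (G : Geo M E) [DecidableEq G.R] : ∃ CR D : ℝ, 1 ≤ CR ∧ 1 ≤ D ∧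
    (∀ {Ψ : Γ → Γ} {RC Cb e₁ τ Sc : ℝ} (un : ElI.Unit G RC Cb e₁ τ Sc), 0 < Sc → 0 < τ →
      0 ≤ e₁ → ∀ {J : ℕ}, J * τ ≤ 1 / 4 → ∀ {m : G.R → ℕ}, (∀ r, 1 / 2 ≤ (m r : ℝ) * τ) →
      ∀ {η : ℝ}, 0 ≤ η → ∀ {y : M.G} {L : E →ₗ[ℝ] E} {θ : E}, L ∈ LLE G →
      RawLaw G Ψ Sc τ un.u η (fun r => m r * τ) y L θ →
      ∀ {c1 : ℝ} {δ' : ℝ≥0∞}, 0 < c1 → ENNReal.ofReal η ≤ δ' * ENNReal.ofReal (c1 ^ M.r) →
      LawB M Ψ G.ray un.u c1 (ww' G un.u J) (CR * (η + e₁) * Sc) δ' y m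
        (pr M (ww' G un.u J) (toV G L) (Sc • G.T.symm θ))) ∧
    ∀ {cs : Cst G} {Ψ : Γ → Γ} {RC Cb e₁ τ Sc : ℝ} (un : ElI.Unit G RC Cb e₁ τ Sc), 0 < Sc →
      0 < τ → 0 ≤ e₁ → ∀ {J : ℕ}, J * τ ≤ 1 / 4 → ∀ {p q : ℕ} {b : ℝ}, (1 : ℝ) = p * τ →
      b = q * τ → ∀ {η₀ ε1 δ1 η' β A2 e c1 : ℝ} {δL : ℝ≥0∞}, 0 ≤ η₀ → 0 ≤ η' → 0 < A2 →
      0 < c1 → c1 ≤ 1 →
      ENNReal.ofReal η₀ ≤ δL * ENNReal.ofReal (c1 ^ M.r) → 2 * δL < 1 →
      volume (M.NB (F G.ray un.u fun _ => p) c1) ≠ 0 →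
      (∀ r, volume (M.NB (F G.ray un.u (Function.update (fun _ => p) r (p + q))) c1) ≠ 0) →
      BoxOut G Ψ Sc τ un.u η₀ (fun _ => 1) →
      (∀ r, BoxOut G Ψ Sc τ un.u η₀ (Function.update (fun _ => 1) r (1 + b))) →
      RawAt G cs Ψ Sc τ un.u η₀ ε1 δ1 (fun _ => 1) →
      (∀ r, RawAt G cs Ψ Sc τ un.u η₀ ε1 δ1 (Function.update (fun _ => 1) r (1 + b))) →
      ElOut G cs Ψ Sc τ un.u ε1 δ1 η' β b (M.NB (fm G un.u τ fun _ => 1 + b) (A2 * e)) →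
      ∀ (y : M.G) (r : G.R), volume {n : M.NN |
        n ∈ M.NB (F G.ray un.u fun _ => p + q) (A2 * e) ∧ ∃ Λ Λ',
        LawB M Ψ G.ray un.u c1 (ww' G un.u J) (CR * (η₀ + e₁) * Sc) δL (y * M.toG n)
          (fun _ => p) Λ ∧
        LawB M Ψ G.ray un.u c1 (ww' G un.u J) (CR * (η₀ + e₁) * Sc) δL (y * M.toG n)
          (Function.update (fun _ => p) r (p + q)) Λ' ∧
        4 * (CR * (η₀ + e₁) * Sc) + D * η' * Sc < dist Λ Λ'} ≤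
      ENNReal.ofReal (β * A2 ^ M.r) * volume (M.NB (F G.ray un.u fun _ => p + q) e) := by
  obtain ⟨CR, hCR, hlaw⟩ := exists_lawB G
  obtain ⟨D, hD, hDb⟩ : ∃ D : ℝ, 1 ≤ D ∧ ∀ v : E, ‖G.T.symm v‖ ≤ D * ‖v‖ := by
    let f : E →L[ℝ] (Fin k → ℝ) :=
      LinearMap.toContinuousLinearMap (G.T.symm : E →ₗ[ℝ] (Fin k → ℝ))
    refine ⟨‖f‖ + 1, by linarith [norm_nonneg f], fun v => ?_⟩
    have h1 : ‖f v‖ ≤ ‖f‖ * ‖v‖ := f.le_opNorm v
    have h2 : f v = G.T.symm v := rfl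
    rw [h2] at h1
    have := norm_nonneg v
    nlinarith
  refine ⟨CR, D, hCR, hD, @hlaw, ?_⟩
  intro cs Ψ RC Cb e₁ τ Sc un hSc hτ he₁ J hJ p q b hp hq η₀ ε1 δ1 η' β A2 e c1 δL hη₀ hη' hA2 hc1
    hc1' hδη hδ z1 z2 B1 B2 R1 R2 hel y r
  have hb0 : 0 ≤ b := by rw [hq]; positivity
  have hfm : fm G un.u τ (fun _ => 1 + b) = F G.ray un.u fun _ => p + q := by
    rw [shape_add hp hq]
    exact fm_eq G un.u hτ _
  -- the inclusion of the bad sets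
  have hsub : {n : M.NN |
        n ∈ M.NB (F G.ray un.u fun _ => p + q) (A2 * e) ∧ ∃ Λ Λ',
        LawB M Ψ G.ray un.u c1 (ww' G un.u J) (CR * (η₀ + e₁) * Sc) δL (y * M.toG n)
          (fun _ => p) Λ ∧
        LawB M Ψ G.ray un.u c1 (ww' G un.u J) (CR * (η₀ + e₁) * Sc) δL (y * M.toG n)
          (Function.update (fun _ => p) r (p + q)) Λ' ∧
        4 * (CR * (η₀ + e₁) * Sc) + D * η' * Sc < dist Λ Λ'} ⊆
      {n : M.NN | n ∈ M.NB (fm G un.u τ fun _ => 1 + b) (A2 * e) ∧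
        ∃ (w : G.R) (σ σ' : Equiv.Perm G.R) (θ θ' : E),
        LawAt G cs Ψ y Sc τ un.u ε1 δ1 (fun _ => 1) n σ θ ∧
        LawAt G cs Ψ y Sc τ un.u ε1 δ1 (Function.update (fun _ => 1) w (1 + b)) n σ' θ' ∧
        ¬ (σ = σ' ∧ ‖θ - θ'‖ ≤ η')} := by
    rintro n ⟨hn, Λ, Λ', hΛ, hΛ', hd⟩
    refine ⟨by rw [hfm]; exact hn, r, ?_⟩
    obtain ⟨σ, L, θ, hL, hraw⟩ := B1 (y * M.toG n)
    obtain ⟨σ', L', θ', hL', hraw'⟩ := B2 r (y * M.toG n)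
    refine ⟨σ, σ', _, _, R1 y n σ L θ hL hraw, R2 r y n σ' L' θ' hL' hraw', ?_⟩
    rintro ⟨rfl, hθ⟩
    refine absurd hd (not_lt.2 ?_)
    have hLL : L = L' := ext_R G fun e => (hL e).trans (hL' e).symm
    subst hLL
    have hm1 : ∀ r' : G.R, 1 / 2 ≤ (((fun _ => p) r' : ℕ) : ℝ) * τ := by
      intro r'
      have : (p : ℝ) * τ = 1 := hp.symm
      change 1 / 2 ≤ (p : ℝ) * τ
      rw [this]; norm_num
    have hm2 : ∀ r' : G.R, 1 / 2 ≤ ((Function.update (fun _ => p) r (p + q) r' : ℕ) : ℝ) * τ := by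
      intro r'
      have h3 := congrFun (shape_upd (ρ := G.R) hp hq r) r'
      beta_reduce at h3
      rw [← h3]
      by_cases h : r' = r
      · subst h; rw [Function.update_self]; linarith
      · rw [Function.update_of_ne h]; norm_num
    have hl1 := hlaw un hSc hτ he₁ hJ hm1 hη₀ ⟨σ, hL⟩ (by
      rw [← shape_one hp]; exact hraw) hc1 hδη
    have hl2 := hlaw un hSc hτ he₁ hJ hm2 hη₀ ⟨σ, hL⟩ (by
      rw [← shape_upd hp hq r]; exact hraw') hc1 hδη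
    have d1 : dist Λ (pr M (ww' G un.u J) (toV G L) (Sc • G.T.symm θ)) ≤
        2 * (CR * (η₀ + e₁) * Sc) :=
      law_unique (NB_mono hc1') z1 (volume_NB_lt_top M _ _).ne hδ hΛ hl1
    have d2 : dist (pr M (ww' G un.u J) (toV G L) (Sc • G.T.symm θ')) Λ' ≤
        2 * (CR * (η₀ + e₁) * Sc) :=
      law_unique (NB_mono hc1') (z2 r) (volume_NB_lt_top M _ _).ne hδ hl2 hΛ'
    have d3 : dist (pr M (ww' G un.u J) (toV G L) (Sc • G.T.symm θ))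
        (pr M (ww' G un.u J) (toV G L) (Sc • G.T.symm θ')) ≤ D * η' * Sc := by
      rw [dist_pi_le_iff (by positivity)]
      intro i
      rw [dist_eq_norm]
      have e1 : pr M (ww' G un.u J) (toV G L) (Sc • G.T.symm θ) i -
          pr M (ww' G un.u J) (toV G L) (Sc • G.T.symm θ') i = Sc • G.T.symm (θ - θ') := by
        simp only [pr, map_sub, smul_sub]; abel
      rw [e1, norm_smul, Real.norm_of_nonneg hSc.le]
      have e2 : θ - Sc⁻¹ • G.T (fh M Ψ y) - (θ' - Sc⁻¹ • G.T (fh M Ψ y)) = θ - θ' := by abel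
      rw [e2] at hθ
      have h5 := hDb (θ - θ')
      have h6 : D * ‖θ - θ'‖ ≤ D * η' := mul_le_mul_of_nonneg_left hθ (by linarith)
      have h7 := mul_le_mul_of_nonneg_left (h5.trans h6) hSc.le
      linarith
    have t1 := dist_triangle4 Λ (pr M (ww' G un.u J) (toV G L) (Sc • G.T.symm θ))
      (pr M (ww' G un.u J) (toV G L) (Sc • G.T.symm θ')) Λ'
    linarith
  refine (measure_mono hsub).trans ((hel y).trans ?_)
  rw [hfm, volume_NB_smul hA2, ← mul_assoc]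
  gcongr
  by_cases hβ : 0 ≤ β
  · rw [ENNReal.ofReal_mul hβ]
  · rw [ENNReal.ofReal_of_nonpos (not_le.1 hβ).le, zero_mul]
    exact zero_le

/-- **(iii)**: the hypotheses `el₁`, `el₂` of `hole_scale` -/
theorem exists_el (G : Geo M E) [DecidableEq G.R] : ∃ CR D : ℝ, 1 ≤ CR ∧ 1 ≤ D ∧
    ∀ {cs : Cst G} {Ψ : Γ → Γ} {RC Cb e₁ τ Sc : ℝ} (un : ElI.Unit G RC Cb e₁ τ Sc), 0 < Sc →
      0 < τ → 0 ≤ e₁ → ∀ {J : ℕ}, J * τ ≤ 1 / 4 → ∀ {p q : ℕ} {b : ℝ}, (1 : ℝ) = p * τ →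
      b = q * τ → ∀ {η₀ ε1 δ1 η' β A2 e c1 : ℝ} {δL : ℝ≥0∞}, 0 ≤ η₀ → 0 ≤ η' → 0 < A2 →
      0 < c1 → c1 ≤ 1 →
      ENNReal.ofReal η₀ ≤ δL * ENNReal.ofReal (c1 ^ M.r) → 2 * δL < 1 →
      volume (M.NB (F G.ray un.u fun _ => p) c1) ≠ 0 →
      (∀ r, volume (M.NB (F G.ray un.u (Function.update (fun _ => p) r (p + q))) c1) ≠ 0) →
      BoxOut G Ψ Sc τ un.u η₀ (fun _ => 1) →
      (∀ r, BoxOut G Ψ Sc τ un.u η₀ (Function.update (fun _ => 1) r (1 + b))) →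
      RawAt G cs Ψ Sc τ un.u η₀ ε1 δ1 (fun _ => 1) →
      (∀ r, RawAt G cs Ψ Sc τ un.u η₀ ε1 δ1 (Function.update (fun _ => 1) r (1 + b))) →
      ElOut G cs Ψ Sc τ un.u ε1 δ1 η' β b (M.NB (fm G un.u τ fun _ => 1 + b) (A2 * e)) →
      ∀ (y : M.G) (r : G.R), volume {n : M.NN |
        n ∈ M.NB (F G.ray un.u fun _ => p + q) (A2 * e) ∧ ∃ Λ Λ',
        LawB M Ψ G.ray un.u c1 (ww' G un.u J) (CR * (η₀ + e₁) * Sc) δL (y * M.toG n)
          (fun _ => p) Λ ∧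
        LawB M Ψ G.ray un.u c1 (ww' G un.u J) (CR * (η₀ + e₁) * Sc) δL (y * M.toG n)
          (Function.update (fun _ => p) r (p + q)) Λ' ∧
        4 * (CR * (η₀ + e₁) * Sc) + D * η' * Sc < dist Λ Λ'} ≤
      ENNReal.ofReal (β * A2 ^ M.r) * volume (M.NB (F G.ray un.u fun _ => p + q) e) := by
  obtain ⟨CR, D, hCR, hD, -, h⟩ := exists_law_el G
  exact ⟨CR, D, hCR, hD, @h⟩

end Crest.Agent.R182.HoleOne
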