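/-
R182, integration (helper848): a Euclidean norm which is invariant under all linear maps preserving
a given norm.
-/
import Mathlib

set_option autoImplicit false

open MeasureTheory Set
open scoped ENNReal MatrixOrder Matrix.Norms.L2Operator

namespace Crest.Agent.R182.InvT

variable {k : ℕ}

/-- the dual unit ball -/
def pol (g : Seminorm ℝ (Fin k → ℝ)) : Set (Fin k → ℝ) := {f | ∀ x, ∑ i, f i * x i ≤ g x}

theorem sum_single (f : Fin k → ℝ) (i : Fin k) (c : ℝ) :
    ∑ j, f j * (Pi.single i c : Fin k → ℝ) j = f i * c := by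
  rw [Finset.sum_eq_single i]
  · simp
  · intro j _ hj; simp [Pi.single_eq_of_ne hj]
  · simp

theorem isClosed_pol (g : Seminorm ℝ (Fin k → ℝ)) : IsClosed (pol g) := by
  have : pol g = ⋂ x : Fin k → ℝ, {f | ∑ i, f i * x i ≤ g x} := by
    ext f; simp [pol]
  rw [this]
  refine isClosed_iInter fun x => isClosed_le (by fun_prop) continuous_const

theorem pol_le (g : Seminorm ℝ (Fin k → ℝ)) {f : Fin k → ℝ} (hf : f ∈ pol g) (i : Fin k) :
    |f i| ≤ g (Pi.single i 1) := by
  rw [abs_le]
  constructor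
  · have := hf (Pi.single i (-1))
    rw [sum_single] at this
    have h2 : g (Pi.single i (-1)) = g (Pi.single i 1) := by
      rw [Pi.single_neg, map_neg_eq_map]
    linarith
  · have := hf (Pi.single i 1)
    rw [sum_single] at this
    linarith

theorem isCompact_pol (g : Seminorm ℝ (Fin k → ℝ)) : IsCompact (pol g) := by
  refine Metric.isCompact_of_isClosed_isBounded (isClosed_pol g) ?_
  refine (Metric.isBounded_closedBall (x := (0 : Fin k → ℝ))
    (r := ∑ i, g (Pi.single i 1))).subset fun f hf => ?_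
  rw [mem_closedBall_zero_iff]
  refine (pi_norm_le_iff_of_nonneg (Finset.sum_nonneg fun i _ => apply_nonneg _ _)).2 fun i => ?_
  rw [Real.norm_eq_abs]
  exact (pol_le g hf i).trans (Finset.single_le_sum (f := fun i => g (Pi.single i 1))
    (fun i _ => apply_nonneg _ _) (Finset.mem_univ i))

theorem seminorm_le (g : Seminorm ℝ (Fin k → ℝ)) (u : Fin k → ℝ) :
    g u ≤ ‖u‖ * ∑ i, g (Pi.single i 1) := by
  have h1 : u = ∑ i, u i • (Pi.single i 1 : Fin k → ℝ) := by
    ext j
    rw [Finset.sum_apply, Finset.sum_eq_single j] <;> simp +contextual [eq_comm]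
  calc g u = g (∑ i, u i • (Pi.single i 1 : Fin k → ℝ)) := by rw [← h1]
    _ ≤ ∑ i, g (u i • (Pi.single i 1 : Fin k → ℝ)) := by
        induction (Finset.univ : Finset (Fin k)) using Finset.induction_on with
        | empty => simp
        | insert a s ha ih =>
          rw [Finset.sum_insert ha, Finset.sum_insert ha]
          exact (map_add_le_add g _ _).trans (add_le_add le_rfl ih)
    _ ≤ ∑ i, ‖u‖ * g (Pi.single i 1) := by
        refine Finset.sum_le_sum fun i _ => ?_
        rw [map_smul_eq_mul]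
        exact mul_le_mul_of_nonneg_right (norm_le_pi_norm u i) (apply_nonneg _ _)
    _ = _ := by rw [Finset.mul_sum]

theorem continuous_seminorm (g : Seminorm ℝ (Fin k → ℝ)) : Continuous g := by
  refine Seminorm.continuous_of_continuousAt_zero ?_
  rw [Metric.continuousAt_iff]
  intro ε hε
  set A := ∑ i, g (Pi.single i 1 : Fin k → ℝ)
  have hA : 0 ≤ A := Finset.sum_nonneg fun i _ => apply_nonneg _ _
  refine ⟨ε / (A + 1), by positivity, fun {x} hx => ?_⟩
  rw [map_zero, Real.dist_0_eq_abs, abs_of_nonneg (apply_nonneg _ _)]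
  rw [dist_zero_right, lt_div_iff₀ (by positivity)] at hx
  refine (seminorm_le g x).trans_lt ?_
  nlinarith [norm_nonneg x]

/-- a norm is bounded below -/
theorem exists_lower (g : Seminorm ℝ (Fin k → ℝ)) (hg : ∀ v, g v = 0 → v = 0) :
    ∃ c : ℝ, 0 < c ∧ ∀ v, c * ‖v‖ ≤ g v := by
  by_cases hne : (Metric.sphere (0 : Fin k → ℝ) 1).Nonempty
  · obtain ⟨v₀, hv₀, hmin⟩ := (isCompact_sphere (0 : Fin k → ℝ) 1).exists_isMinOn hne
      (continuous_seminorm g).continuousOn
    have h0 : 0 < g v₀ := by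
      refine lt_of_le_of_ne (apply_nonneg _ _) fun h => ?_
      have := hg v₀ h.symm
      rw [this] at hv₀
      simp at hv₀
    refine ⟨g v₀, h0, fun v => ?_⟩
    by_cases hv : v = 0
    · simp [hv]
    have hn : 0 < ‖v‖ := norm_pos_iff.2 hv
    have h1 := hmin (a := ‖v‖⁻¹ • v) (by
      rw [mem_sphere_zero_iff_norm, norm_smul, norm_inv, norm_norm, inv_mul_cancel₀ hn.ne'])
    change g v₀ ≤ g (‖v‖⁻¹ • v) at h1
    rw [map_smul_eq_mul, Real.norm_eq_abs, abs_of_pos (inv_pos.2 hn), inv_mul_eq_div,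
      le_div_iff₀ hn] at h1
    exact h1
  · refine ⟨1, one_pos, fun v => ?_⟩
    by_cases hv : v = 0
    · simp [hv]
    · exfalso
      apply hne
      refine ⟨‖v‖⁻¹ • v, ?_⟩
      rw [mem_sphere_zero_iff_norm, norm_smul, norm_inv, norm_norm,
        inv_mul_cancel₀ (norm_pos_iff.2 hv).ne']

theorem pol_mem_nhds (g : Seminorm ℝ (Fin k → ℝ)) (hg : ∀ v, g v = 0 → v = 0) :
    pol g ∈ nhds (0 : Fin k → ℝ) := by
  obtain ⟨c, hc, h⟩ := exists_lower g hg
  refine Filter.mem_of_superset (Metric.closedBall_mem_nhds (0 : Fin k → ℝ)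
    (ε := c / (k + 1)) (by positivity)) fun f hf x => ?_
  rw [mem_closedBall_zero_iff] at hf
  calc ∑ i, f i * x i ≤ ∑ _i : Fin k, c / (k + 1) * ‖x‖ := by
        refine Finset.sum_le_sum fun i _ => ?_
        have h1 : |f i| ≤ c / (k + 1) := (norm_le_pi_norm f i).trans hf
        have h2 : |x i| ≤ ‖x‖ := norm_le_pi_norm x i
        calc f i * x i ≤ |f i * x i| := le_abs_self _
          _ = |f i| * |x i| := abs_mul _ _
          _ ≤ _ := mul_le_mul h1 h2 (abs_nonneg _) (by positivity)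
    _ = k / (k + 1) * (c * ‖x‖) := by
        rw [Finset.sum_const, Finset.card_univ, Fintype.card_fin, nsmul_eq_mul]; ring
    _ ≤ 1 * (c * ‖x‖) := by
        have : (k : ℝ) / (k + 1) ≤ 1 := by
          rw [div_le_one (by positivity)]; linarith
        exact mul_le_mul_of_nonneg_right this (by positivity)
    _ ≤ g x := by rw [one_mul]; exact h x

/-- the Gram matrix -/
noncomputable def Q (g : Seminorm ℝ (Fin k → ℝ)) : Matrix (Fin k) (Fin k) ℝ :=
  Matrix.of fun i j => ∫ f in pol g, f i * f j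

theorem quad (g : Seminorm ℝ (Fin k → ℝ)) (v : Fin k → ℝ) :
    v ⬝ᵥ (Q g).mulVec v = ∫ f in pol g, (∑ i, f i * v i) ^ 2 := by
  have hint : ∀ i j, IntegrableOn (fun f : Fin k → ℝ => f i * f j) (pol g) := fun i j =>
    ContinuousOn.integrableOn_compact (isCompact_pol g) (by fun_prop)
  have h1 : ∀ f : Fin k → ℝ, (∑ i, f i * v i) ^ 2 = ∑ i, ∑ j, v i * v j * (f i * f j) := by
    intro f
    rw [sq, Finset.sum_mul_sum]
    refine Finset.sum_congr rfl fun i _ => Finset.sum_congr rfl fun j _ => by ring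
  simp_rw [h1]
  rw [integral_finsetSum _ fun i _ => integrable_finsetSum _ fun j _ =>
    (hint i j).const_mul (v i * v j)]
  simp only [dotProduct, Matrix.mulVec, Q, Matrix.of_apply]
  refine Finset.sum_congr rfl fun i _ => ?_
  rw [integral_finsetSum _ fun j _ => (hint i j).const_mul (v i * v j), Finset.mul_sum]
  refine Finset.sum_congr rfl fun j _ => ?_
  rw [integral_const_mul]
  ring

theorem quad_pos (g : Seminorm ℝ (Fin k → ℝ)) (hg : ∀ v, g v = 0 → v = 0) {v : Fin k → ℝ}
    (hv : v ≠ 0) : 0 < v ⬝ᵥ (Q g).mulVec v := by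
  rw [quad]
  have hcont : Continuous fun f : Fin k → ℝ => (∑ i, f i * v i) ^ 2 := by fun_prop
  rw [setIntegral_pos_iff_support_of_nonneg_ae (Filter.Eventually.of_forall fun f => sq_nonneg _)
    (hcont.continuousOn.integrableOn_compact (isCompact_pol g))]
  -- an open set inside
  have h1 : IsOpen ({f : Fin k → ℝ | (∑ i, f i * v i) ^ 2 ≠ 0} ∩ interior (pol g)) :=
    (isOpen_ne_fun hcont continuous_const).inter isOpen_interior
  have h2 : ({f : Fin k → ℝ | (∑ i, f i * v i) ^ 2 ≠ 0} ∩ interior (pol g)).Nonempty := by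
    have h3 : ∀ᶠ t : ℝ in nhds 0, t • v ∈ interior (pol g) := by
      have h4 : Filter.Tendsto (fun t : ℝ => t • v) (nhds 0) (nhds ((0 : ℝ) • v)) :=
        (continuous_id.smul continuous_const).tendsto 0
      rw [zero_smul] at h4
      exact h4.eventually (isOpen_interior.mem_nhds (mem_interior_iff_mem_nhds.2
        (pol_mem_nhds g hg)))
    obtain ⟨t, ht, ht0⟩ := (h3.filter_mono nhdsWithin_le_nhds |>.and
      (self_mem_nhdsWithin : ({0}ᶜ : Set ℝ) ∈ nhdsWithin 0 {0}ᶜ)).exists
    refine ⟨t • v, ?_, ht⟩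
    have ht0' : t ≠ 0 := ht0
    have h5 : ∑ i, (t • v) i * v i = t * (v ⬝ᵥ v) := by
      simp only [dotProduct, Pi.smul_apply, smul_eq_mul, Finset.mul_sum]
      exact Finset.sum_congr rfl fun i _ => by ring
    have h6 : v ⬝ᵥ v ≠ 0 := by
      rw [Ne, dotProduct_self_eq_zero]; exact hv
    change (∑ i, (t • v) i * v i) ^ 2 ≠ 0
    rw [h5]
    exact pow_ne_zero _ (mul_ne_zero ht0' h6)
  refine (h1.measure_pos volume h2).trans_le (measure_mono ?_)
  rintro f ⟨hf, hf2⟩
  exact ⟨hf, interior_subset hf2⟩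

theorem quad_inv (g : Seminorm ℝ (Fin k → ℝ)) (hg : ∀ v, g v = 0 → v = 0)
    {L : (Fin k → ℝ) →ₗ[ℝ] (Fin k → ℝ)} (hL : ∀ v, g (L v) = g v) (v : Fin k → ℝ) :
    L v ⬝ᵥ (Q g).mulVec (L v) = v ⬝ᵥ (Q g).mulVec v := by
  classical
  have hinj : Function.Injective L := by
    rw [injective_iff_map_eq_zero]
    intro x hx
    apply hg
    rw [← hL, hx, map_zero]
  have hsurj : Function.Surjective L := LinearMap.injective_iff_surjective.1 hinj
  -- the transpose
  set A := LinearMap.toMatrix' L with hA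
  set M : (Fin k → ℝ) →ₗ[ℝ] (Fin k → ℝ) := Matrix.toLin' A.transpose with hM
  have hLA : ∀ x, L x = A.mulVec x := fun x => by
    rw [hA, LinearMap.toMatrix'_mulVec]
  have hMf : ∀ f x : Fin k → ℝ, ∑ i, M f i * x i = ∑ i, f i * L x i := by
    intro f x
    have h1 : M f ⬝ᵥ x = f ⬝ᵥ L x := by
      rw [hM, Matrix.toLin'_apply, hLA, Matrix.mulVec_transpose, Matrix.dotProduct_mulVec]
    exact h1
  have hpre : M ⁻¹' (pol g) = pol g := by
    ext f
    constructor
    · intro hf x
      obtain ⟨y, rfl⟩ := hsurj x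
      have := hf y
      rw [hMf] at this
      rw [hL]; exact this
    · intro hf x
      rw [hMf, ← hL]
      exact hf (L x)
  have hdet : LinearMap.det M ≠ 0 := by
    rw [hM, LinearMap.det_toLin', Matrix.det_transpose]
    intro h0
    rw [hA, LinearMap.det_toMatrix'] at h0
    have := LinearMap.bot_lt_ker_of_det_eq_zero (f := L) h0
    rw [LinearMap.ker_eq_bot.2 hinj] at this
    exact lt_irrefl _ this
  have hmap := Real.map_linearMap_volume_pi_eq_smul_volume_pi hdet
  have hvol0 : volume (pol g) ≠ 0 := by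
    have h1 : 0 < volume (interior (pol g)) := isOpen_interior.measure_pos volume
      ⟨0, mem_interior_iff_mem_nhds.2 (pol_mem_nhds g hg)⟩
    exact (h1.trans_le (measure_mono interior_subset)).ne'
  have hvolt : volume (pol g) ≠ ∞ := (isCompact_pol g).measure_ne_top
  have hMm : Measurable M := (LinearMap.continuous_of_finiteDimensional M).measurable
  have h1 : ENNReal.ofReal |(LinearMap.det M)⁻¹| = 1 := by
    have h2 : Measure.map M volume (pol g) = volume (pol g) := by
      rw [Measure.map_apply hMm (isClosed_pol g).measurableSet, hpre]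
    rw [hmap, Measure.smul_apply, smul_eq_mul] at h2
    have h3 := ENNReal.mul_div_cancel_right hvol0 hvolt (a := ENNReal.ofReal |(LinearMap.det M)⁻¹|)
    rw [h2, ENNReal.div_self hvol0 hvolt] at h3
    exact h3.symm
  have hmp : MeasurePreserving M volume volume := ⟨hMm, by rw [hmap, h1, one_smul]⟩
  have hMinj : Function.Injective M := by
    rw [← LinearMap.ker_eq_bot]
    by_contra hne
    exact hdet (LinearMap.det_eq_zero_iff_ker_ne_bot.2 hne)
  have hemb : MeasurableEmbedding M :=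
    (LinearMap.isClosedEmbedding_of_injective (LinearMap.ker_eq_bot.2 hMinj)).measurableEmbedding
  rw [quad, quad]
  have h4 := hmp.setIntegral_preimage_emb hemb (fun f : Fin k → ℝ => (∑ i, f i * v i) ^ 2) (pol g)
  rw [hpre] at h4
  rw [← h4]
  refine integral_congr_ae (Filter.Eventually.of_forall fun f => ?_)
  change (∑ i, f i * L v i) ^ 2 = (∑ i, M f i * v i) ^ 2
  rw [hMf]

/-- **An invariant Euclidean norm.** -/
theorem exists_invT (g : Seminorm ℝ (Fin k → ℝ)) (hg : ∀ v, g v = 0 → v = 0) :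
    ∃ T : (Fin k → ℝ) ≃ₗ[ℝ] EuclideanSpace ℝ (Fin k),
      ∀ L : (Fin k → ℝ) →ₗ[ℝ] (Fin k → ℝ), (∀ v, g (L v) = g v) → ∀ v, ‖T (L v)‖ = ‖T v‖ := by
  classical
  have hsymm : (Q g).IsHermitian := by
    ext i j
    simp only [Q, Matrix.conjTranspose_apply, Matrix.of_apply, star_trivial]
    refine integral_congr_ae (Filter.Eventually.of_forall fun f => ?_)
    exact mul_comm _ _
  have hps : (Q g).PosSemidef := by
    refine Matrix.PosSemidef.of_dotProduct_mulVec_nonneg hsymm fun v => ?_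
    rw [star_trivial]
    by_cases hv : v = 0
    · simp [hv]
    · exact (quad_pos g hg hv).le
  obtain ⟨B, hB⟩ : ∃ B : Matrix (Fin k) (Fin k) ℝ, Q g = B.conjTranspose * B := by
    obtain ⟨B, hB⟩ := CStarAlgebra.nonneg_iff_eq_star_mul_self.mp hps.nonneg
    exact ⟨B, hB⟩
  have hq : ∀ v, v ⬝ᵥ (Q g).mulVec v = B.mulVec v ⬝ᵥ B.mulVec v := by
    intro v
    rw [hB, Matrix.conjTranspose_eq_transpose_of_trivial, ← Matrix.mulVec_mulVec,
      Matrix.dotProduct_mulVec, Matrix.vecMul_transpose]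
  have hBinj : Function.Injective (Matrix.toLin' B) := by
    rw [injective_iff_map_eq_zero]
    intro v hv
    rw [Matrix.toLin'_apply] at hv
    by_contra hne
    have := quad_pos g hg hne
    rw [hq, hv] at this
    simp at this
  refine ⟨(LinearEquiv.ofInjectiveEndo _ hBinj).trans (WithLp.linearEquiv 2 ℝ (Fin k → ℝ)).symm,
    fun L hL v => ?_⟩
  have hn : ∀ v, ‖((LinearEquiv.ofInjectiveEndo _ hBinj).trans
      (WithLp.linearEquiv 2 ℝ (Fin k → ℝ)).symm) v‖ ^ 2 = v ⬝ᵥ (Q g).mulVec v := by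
    intro v
    rw [hq, EuclideanSpace.norm_sq_eq]
    simp only [dotProduct]
    refine Finset.sum_congr rfl fun i _ => ?_
    rw [Real.norm_eq_abs, sq_abs, sq]
    rfl
  have h1 : ‖((LinearEquiv.ofInjectiveEndo _ hBinj).trans
      (WithLp.linearEquiv 2 ℝ (Fin k → ℝ)).symm) (L v)‖ ^ 2 = ‖((LinearEquiv.ofInjectiveEndo _
      hBinj).trans (WithLp.linearEquiv 2 ℝ (Fin k → ℝ)).symm) v‖ ^ 2 := by
    rw [hn, hn, quad_inv g hg hL]
  exact (pow_left_inj₀ (norm_nonneg _) (norm_nonneg _) two_ne_zero).1 h1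

end Crest.Agent.R182.InvT
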