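import Mathlib
import Crest.Agent.R182.MicDefs

/-!
# Row 182, module MICRO, block T2: transport of means by the coarse inverse (author: helper56)

`w.fib = {y | w.E y = 1}` (a finite subset of the ball of radius `K`).  For an invariant mean `m`
on `Om S K` the functional `dual m φ = m (w ↦ ∑_{y ∈ fib w} φ (flip w y))` is positive and
invariant, `dual (dual m) = m` on bounded functions, and `dual` preserves extremality.
-/

set_option autoImplicit false

namespace Crest.Agent.R182.Mic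

open Crest.GroupTheory Crest.Geometry Crest.Agent.R182.QI

variable {Γ : Type*} [Group Γ]

namespace Om

variable {S : Set Γ} {K : ℕ}

open Classical in
/-- the fibre of `E` over `1` -/
noncomputable def fib (w : Om S K) : Finset Γ :=
  if h : {y | w.E y = 1}.Finite then h.toFinset else ∅

theorem fib_len (_hS : Subgroup.closure S = ⊤) (w : Om S K) {y : Γ} (hy : w.E y = 1) :
    wordLength S y ≤ K := by
  have h := w.FE y
  rw [hy, w.F_one] at h
  simpa using h

end Om

section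

variable {S : Finset Γ} {K : ℕ}

namespace Om

theorem fib_finite (hS : Subgroup.closure (S : Set Γ) = ⊤) (w : Om (S : Set Γ) K) :
    {y | w.E y = 1}.Finite :=
  (ball_finite hS K).subset fun _ hy => w.fib_len hS hy

theorem mem_fib (hS : Subgroup.closure (S : Set Γ) = ⊤) (w : Om (S : Set Γ) K) {y : Γ} :
    y ∈ w.fib ↔ w.E y = 1 := by
  rw [fib, dif_pos (w.fib_finite hS)]
  simp

theorem fib_card (hS : Subgroup.closure (S : Set Γ) = ⊤) (w : Om (S : Set Γ) K) :
    w.fib.card ≤ (ballF S K).card := by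
  classical
  apply Finset.card_le_card
  intro y hy
  exact mem_ballF_of_le hS (w.fib_len hS ((w.mem_fib hS).1 hy))

theorem abs_sum_fib_le (hS : Subgroup.closure (S : Set Γ) = ⊤) (w : Om (S : Set Γ) K)
    {f : Γ → ℝ} {C : ℝ} (hC : ∀ y, w.E y = 1 → |f y| ≤ C) (hC0 : 0 ≤ C) :
    |∑ y ∈ w.fib, f y| ≤ (ballF S K).card * C := by
  calc |∑ y ∈ w.fib, f y| ≤ ∑ y ∈ w.fib, |f y| := Finset.abs_sum_le_sum_abs _ _
    _ ≤ ∑ y ∈ w.fib, C := Finset.sum_le_sum fun y hy => hC y ((w.mem_fib hS).1 hy)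
    _ = w.fib.card * C := by rw [Finset.sum_const, nsmul_eq_mul]
    _ ≤ (ballF S K).card * C := by
      have := w.fib_card hS
      gcongr

end Om

/-- boundedness of a fibre function -/
def FBdd (h : Om (S : Set Γ) K → Γ → ℝ) : Prop :=
  ∃ C : ℝ, 0 ≤ C ∧ ∀ w y, w.E y = 1 → |h w y| ≤ C

/-- the fibre sum -/
noncomputable def fs (h : Om (S : Set Γ) K → Γ → ℝ) (w : Om (S : Set Γ) K) : ℝ :=
  ∑ y ∈ w.fib, h w y

theorem fs_mem (hS : Subgroup.closure (S : Set Γ) = ⊤) {h : Om (S : Set Γ) K → Γ → ℝ}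
    (hh : FBdd h) : fs h ∈ bddAlg (Om (S : Set Γ) K) := by
  obtain ⟨C, hC0, hC⟩ := hh
  exact ⟨_, fun w => w.abs_sum_fib_le hS (hC w) hC0⟩

theorem nd_one_E (_hS : Subgroup.closure (S : Set Γ) = ⊤) (w : Om (S : Set Γ) K) {y : Γ}
    (hy : w.E y = 1) (t : Γ) :
    wordLength (S : Set Γ) (w.E (y * t)) ≤ K * wordLength (S : Set Γ) t + K := by
  have h := w.E_up y (y * t)
  rw [hy] at h
  simpa using h

/-- **(INV)** -/
theorem fs_inv (hS : Subgroup.closure (S : Set Γ) = ⊤) {m : (Om (S : Set Γ) K → ℝ) → ℝ}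
    (hm : Erg.PInv Om.act (bddAlg (Om (S : Set Γ) K)) m) {h : Om (S : Set Γ) K → Γ → ℝ}
    (hh : FBdd h) (t : Γ) :
    m (fs fun w y => h (w.act (w.E (y * t))) ((w.F (w.E (y * t)))⁻¹ * (y * t))) = m (fs h) := by
  classical
  obtain ⟨C, hC0, hC⟩ := hh
  set R := K * wordLength (S : Set Γ) t + K with hR
  -- the piece with `E (y' t⁻¹) = q⁻¹`
  let ψ : Γ → Om (S : Set Γ) K → ℝ := fun q w =>
    ∑ y ∈ w.fib with w.E (y * t⁻¹) = q⁻¹, h w y
  have hψ : ∀ q, ψ q ∈ bddAlg (Om (S : Set Γ) K) := by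
    intro q
    refine ⟨(ballF S K).card * C, fun w => ?_⟩
    have h1 : ψ q w = ∑ y ∈ w.fib, if w.E (y * t⁻¹) = q⁻¹ then h w y else 0 := by
      simp only [ψ, Finset.sum_filter]
    rw [h1]
    refine w.abs_sum_fib_le hS (fun y hy => ?_) hC0
    split_ifs
    · exact hC w y hy
    · simpa using hC0
  -- right-hand side
  have hr : fs h = ∑ q ∈ ballF S R, ψ q := by
    ext w
    rw [Finset.sum_apply]
    have h1 : ∀ y ∈ w.fib, (w.E (y * t⁻¹))⁻¹ ∈ ballF S R := by
      intro y hy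
      rw [mem_ballF hS, wordLength_inv hS]
      have := nd_one_E hS w ((w.mem_fib hS).1 hy) t⁻¹
      rwa [wordLength_inv hS] at this
    rw [fs, ← Finset.sum_fiberwise_of_maps_to h1]
    refine Finset.sum_congr rfl fun q _ => ?_
    simp only [ψ]
    refine Finset.sum_congr (Finset.filter_congr fun y _ => ?_) fun _ _ => rfl
    exact inv_eq_iff_eq_inv
  -- left-hand side
  have hl : (fs fun w y => h (w.act (w.E (y * t))) ((w.F (w.E (y * t)))⁻¹ * (y * t))) =
      ∑ q ∈ ballF S R, fun w => ψ q (w.act q) := by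
    ext w
    rw [Finset.sum_apply]
    have h1 : ∀ y ∈ w.fib, w.E (y * t) ∈ ballF S R := by
      intro y hy
      rw [mem_ballF hS]
      exact nd_one_E hS w ((w.mem_fib hS).1 hy) t
    rw [fs, ← Finset.sum_fiberwise_of_maps_to h1]
    refine Finset.sum_congr rfl fun q _ => ?_
    simp only [ψ]
    refine Finset.sum_nbij' (fun y => (w.F q)⁻¹ * (y * t)) (fun y => w.F q * (y * t⁻¹))
      ?_ ?_ ?_ ?_ ?_
    · intro y hy
      rw [Finset.mem_filter, Om.mem_fib hS] at hy ⊢
      obtain ⟨hy1, hy2⟩ := hy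
      constructor
      · rw [Om.act_E, mul_inv_cancel_left, hy2, inv_mul_cancel]
      · rw [Om.act_E]
        have : w.F q * ((w.F q)⁻¹ * (y * t) * t⁻¹) = y := by group
        rw [this, hy1, mul_one]
    · intro y hy
      rw [Finset.mem_filter, Om.mem_fib hS, Om.act_E, Om.act_E] at hy
      rw [Finset.mem_filter, Om.mem_fib hS]
      obtain ⟨hy1, hy2⟩ := hy
      constructor
      · exact mul_eq_left.1 hy2
      · have : w.F q * (y * t⁻¹) * t = w.F q * y := by group
        rw [this]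
        exact (inv_mul_eq_one.1 hy1).symm
    · intro y _
      group
    · intro y _
      group
    · intro y hy
      rw [Finset.mem_filter] at hy
      rw [hy.2]
  rw [hl, hr, hm.sum _ _ (fun q _ => (alg_Om (S := (S : Set Γ)) (K := K)).shift q _ (hψ q)),
    hm.sum _ _ (fun q _ => hψ q)]
  exact Finset.sum_congr rfl fun q _ => hm.inv q _ (hψ q)

open Classical in
/-- `φ` of the flipped pair -/
noncomputable def fl (φ : Om (S : Set Γ) K → ℝ) (w : Om (S : Set Γ) K) (y : Γ) : ℝ :=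
  if h : w.E y = 1 then φ (w.flip y h) else 0

theorem fl_of (φ : Om (S : Set Γ) K → ℝ) (w : Om (S : Set Γ) K) {y : Γ} (h : w.E y = 1) :
    fl φ w y = φ (w.flip y h) := dif_pos h

theorem FBdd_fl {φ : Om (S : Set Γ) K → ℝ} (hφ : φ ∈ bddAlg (Om (S : Set Γ) K)) :
    FBdd (fl φ) := by
  obtain ⟨C, hC⟩ := hφ
  refine ⟨|C|, abs_nonneg _, fun w y hy => ?_⟩
  rw [fl_of φ w hy]
  exact (hC _).trans (le_abs_self _)

theorem fs_fl_mem (hS : Subgroup.closure (S : Set Γ) = ⊤) {φ : Om (S : Set Γ) K → ℝ}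
    (hφ : φ ∈ bddAlg (Om (S : Set Γ) K)) : fs (fl φ) ∈ bddAlg (Om (S : Set Γ) K) :=
  fs_mem hS (FBdd_fl hφ)

/-- transport of a functional by the coarse inverse -/
noncomputable def dual (m : (Om (S : Set Γ) K → ℝ) → ℝ) (φ : Om (S : Set Γ) K → ℝ) : ℝ :=
  m (fs (fl φ))

theorem fs_fl_add (hS : Subgroup.closure (S : Set Γ) = ⊤) (φ χ : Om (S : Set Γ) K → ℝ) :
    fs (fl (φ + χ)) = fs (fl φ) + fs (fl χ) := by
  ext w
  simp only [fs, Pi.add_apply]
  rw [← Finset.sum_add_distrib]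
  refine Finset.sum_congr rfl fun y hy => ?_
  rw [Om.mem_fib hS] at hy
  rw [fl_of _ w hy, fl_of _ w hy, fl_of _ w hy, Pi.add_apply]

theorem fs_fl_smul (hS : Subgroup.closure (S : Set Γ) = ⊤) (c : ℝ)
    (φ : Om (S : Set Γ) K → ℝ) : fs (fl (c • φ)) = c • fs (fl φ) := by
  ext w
  simp only [fs, Pi.smul_apply, smul_eq_mul]
  rw [Finset.mul_sum]
  refine Finset.sum_congr rfl fun y hy => ?_
  rw [Om.mem_fib hS] at hy
  rw [fl_of _ w hy, fl_of _ w hy, Pi.smul_apply, smul_eq_mul]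

theorem fs_fl_nonneg (hS : Subgroup.closure (S : Set Γ) = ⊤) {φ : Om (S : Set Γ) K → ℝ}
    (hφ : ∀ x, 0 ≤ φ x) (w : Om (S : Set Γ) K) : 0 ≤ fs (fl φ) w := by
  refine Finset.sum_nonneg fun y hy => ?_
  rw [Om.mem_fib hS] at hy
  rw [fl_of _ w hy]
  exact hφ _

theorem flip_act (w : Om (S : Set Γ) K) {y : Γ} (hy : w.E y = 1) (t : Γ)
    (hy' : (w.act (w.E (y * t))).E ((w.F (w.E (y * t)))⁻¹ * (y * t)) = 1) :
    (w.flip y hy).act t =
      (w.act (w.E (y * t))).flip ((w.F (w.E (y * t)))⁻¹ * (y * t)) hy' := by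
  ext x
  · simp [mul_assoc]
  · simp [mul_assoc]

theorem dual_pinv (hS : Subgroup.closure (S : Set Γ) = ⊤) {m : (Om (S : Set Γ) K → ℝ) → ℝ}
    (hm : Erg.PInv Om.act (bddAlg (Om (S : Set Γ) K)) m) :
    Erg.PInv Om.act (bddAlg (Om (S : Set Γ) K)) (dual m) where
  add φ hφ χ hχ := by
    rw [dual, fs_fl_add hS, hm.add _ (fs_fl_mem hS hφ) _ (fs_fl_mem hS hχ)]
    rfl
  smul c φ hφ := by
    rw [dual, fs_fl_smul hS, hm.smul _ _ (fs_fl_mem hS hφ)]
    rfl
  nonneg φ hφ h0 := hm.nonneg _ (fs_fl_mem hS hφ) (fs_fl_nonneg hS h0)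
  inv t φ hφ := by
    have h1 := fs_inv hS hm (FBdd_fl hφ) t
    rw [dual, dual, ← h1]
    congr 1
    ext w
    refine Finset.sum_congr rfl fun y hy => ?_
    rw [Om.mem_fib hS] at hy
    have hy' : (w.act (w.E (y * t))).E ((w.F (w.E (y * t)))⁻¹ * (y * t)) = 1 := by
      rw [Om.act_E, mul_inv_cancel_left, inv_mul_cancel]
    show fl (fun x => φ (x.act t)) w y = fl φ (w.act (w.E (y * t))) ((w.F (w.E (y * t)))⁻¹ * (y * t))
    rw [fl_of _ w hy, fl_of _ _ hy', flip_act w hy t hy']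

theorem flip_flip (w : Om (S : Set Γ) K) {x : Γ} (hy : w.E (w.F x) = 1)
    (hx : (w.flip (w.F x) hy).E x = 1) : (w.flip (w.F x) hy).flip x hx = w.act x := by
  ext z
  · simp
  · simp

/-- `dual` is an involution on bounded functions -/
theorem dual_dual (hS : Subgroup.closure (S : Set Γ) = ⊤) {m : (Om (S : Set Γ) K → ℝ) → ℝ}
    (hm : Erg.PInv Om.act (bddAlg (Om (S : Set Γ) K)) m) {φ : Om (S : Set Γ) K → ℝ}
    (hφ : φ ∈ bddAlg (Om (S : Set Γ) K)) : dual (dual m) φ = m φ := by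
  classical
  let ψ : Γ → Om (S : Set Γ) K → ℝ := fun x w => if w.E 1 = x⁻¹ then φ w else 0
  have hψ : ∀ x, ψ x ∈ bddAlg (Om (S : Set Γ) K) := by
    obtain ⟨C, hC⟩ := hφ
    intro x
    refine ⟨|C|, fun w => ?_⟩
    simp only [ψ]
    split_ifs
    · exact (hC w).trans (le_abs_self _)
    · simp
  have h1 : fs (fl (fs (fl φ))) = ∑ x ∈ ballF S K, fun w => ψ x (w.act x) := by
    ext w
    rw [Finset.sum_apply]
    have e1 : fs (fl (fs (fl φ))) w =
        ∑ y ∈ w.fib, ∑ x ∈ ballF S K, if w.F x = y then φ (w.act x) else 0 := by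
      refine Finset.sum_congr rfl fun y hy => ?_
      rw [Om.mem_fib hS] at hy
      rw [fl_of _ w hy, fs, ← Finset.sum_filter]
      have e2 : (w.flip y hy).fib = (ballF S K).filter (fun x => w.F x = y) := by
        ext x
        rw [Om.mem_fib hS, Finset.mem_filter, mem_ballF hS, Om.flip_E, inv_mul_eq_one]
        constructor
        · intro h
          refine ⟨(w.flip y hy).fib_len hS ?_, h.symm⟩
          rw [Om.flip_E, inv_mul_eq_one]
          exact h
        · intro h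
          exact h.2.symm
      rw [e2]
      refine Finset.sum_congr rfl fun x hx => ?_
      rw [Finset.mem_filter] at hx
      obtain ⟨hx1, hx2⟩ := hx
      subst hx2
      have hx3 : (w.flip (w.F x) hy).E x = 1 := by simp
      rw [fl_of _ _ hx3, flip_flip]
    rw [e1, Finset.sum_comm]
    refine Finset.sum_congr rfl fun x _ => ?_
    rw [Finset.sum_ite_eq]
    simp only [ψ, Om.act_E, mul_one, mul_eq_left, Om.mem_fib hS]
  have h2 : ∑ x ∈ ballF S K, ψ x = φ := by
    ext w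
    rw [Finset.sum_apply]
    have hw : (w.E 1)⁻¹ ∈ ballF S K := by
      rw [mem_ballF hS, wordLength_inv hS]
      exact w.E_one_len hS
    rw [Finset.sum_eq_single (w.E 1)⁻¹]
    · simp [ψ]
    · intro x _ hx
      simp only [ψ]
      rw [if_neg]
      intro h
      exact hx (by rw [h, inv_inv])
    · intro h
      exact absurd hw h
  rw [dual, dual, h1, hm.sum _ _ (fun x _ => (alg_Om (S := (S : Set Γ)) (K := K)).shift x _ (hψ x))]
  rw [Finset.sum_congr rfl fun x _ => hm.inv x _ (hψ x), ← hm.sum _ _ (fun x _ => hψ x), h2]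

/-- `dual` preserves extremality -/
theorem dual_ext (hS : Subgroup.closure (S : Set Γ) = ⊤) {m : (Om (S : Set Γ) K → ℝ) → ℝ}
    (hm : Erg.PInv Om.act (bddAlg (Om (S : Set Γ) K)) m)
    (hE : Erg.Ext Om.act (bddAlg (Om (S : Set Γ) K)) m) :
    Erg.Ext Om.act (bddAlg (Om (S : Set Γ) K)) (dual m) := by
  intro m' hm' hle
  obtain ⟨c, hc⟩ := hE (dual m') (dual_pinv hS hm') fun φ hφ h0 => by
    have h1 := hle _ (fs_fl_mem hS hφ) (fs_fl_nonneg hS h0)
    have h2 := dual_dual hS hm hφ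
    calc dual m' φ = m' (fs (fl φ)) := rfl
      _ ≤ dual m (fs (fl φ)) := h1
      _ = dual (dual m) φ := rfl
      _ = m φ := h2
  refine ⟨c, fun φ hφ => ?_⟩
  calc m' φ = dual (dual m') φ := (dual_dual hS hm' hφ).symm
    _ = dual m' (fs (fl φ)) := rfl
    _ = c * m (fs (fl φ)) := hc _ (fs_fl_mem hS hφ)
    _ = c * dual m φ := rfl

/-- total mass of the dual -/
theorem dual_pos (hS : Subgroup.closure (S : Set Γ) = ⊤) {m : (Om (S : Set Γ) K → ℝ) → ℝ}
    (hm : Erg.PInv Om.act (bddAlg (Om (S : Set Γ) K)) m) (h1 : m 1 = 1) :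
    1 ≤ (ballF S K).card * dual m 1 := by
  classical
  have hmem := fs_fl_mem hS (one_mem (bddAlg (Om (S : Set Γ) K)))
  have ha := alg_Om (S := (S : Set Γ)) (K := K)
  have e0 : ∀ w : Om (S : Set Γ) K, fs (fl 1) w = w.fib.card := by
    intro w
    rw [fs, Finset.sum_congr rfl fun y hy => ?_]
    rotate_left
    · exact fun _ => (1 : ℝ)
    · rw [fl_of _ w ((w.mem_fib hS).1 hy)]; rfl
    · simp
  have e1 : m (∑ q ∈ ballF S K, fun w => fs (fl 1) (w.act q)) = (ballF S K).card * dual m 1 := by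
    rw [hm.sum _ _ (fun q _ => ha.shift q _ hmem),
      Finset.sum_congr rfl fun q _ => hm.inv q _ hmem, Finset.sum_const, nsmul_eq_mul]
    rfl
  rw [← e1, ← h1]
  refine hm.mono (one_mem _) (sum_mem fun q _ => ha.shift q _ hmem) fun w => ?_
  rw [Finset.sum_apply]
  have h2 : w.E 1 ∈ ballF S K := by
    rw [mem_ballF hS]
    exact w.E_one_len hS
  refine le_trans ?_ (Finset.single_le_sum (f := fun q => fs (fl 1) (w.act q)) ?_ h2)
  · rw [e0]
    have h3 : (w.F (w.E 1))⁻¹ ∈ (w.act (w.E 1)).fib := by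
      rw [Om.mem_fib hS, Om.act_E, mul_inv_cancel, inv_mul_cancel]
    have h4 : 1 ≤ (w.act (w.E 1)).fib.card := Finset.card_pos.2 ⟨_, h3⟩
    show (1 : ℝ) ≤ _
    exact_mod_cast h4
  · intro q _
    exact fs_fl_nonneg hS (fun _ => zero_le_one) _

theorem dual_pos' (hS : Subgroup.closure (S : Set Γ) = ⊤) {m : (Om (S : Set Γ) K → ℝ) → ℝ}
    (hm : Erg.PInv Om.act (bddAlg (Om (S : Set Γ) K)) m) (h1 : m 1 = 1) :
    0 < dual m 1 := by
  have h := dual_pos hS hm h1
  by_contra h2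
  push Not at h2
  have h3 : ((ballF S K).card : ℝ) * dual m 1 ≤ 0 :=
    mul_nonpos_of_nonneg_of_nonpos (Nat.cast_nonneg _) h2
  linarith

/-- the normalised dual is an invariant mean -/
theorem dual_imean (hS : Subgroup.closure (S : Set Γ) = ⊤) {m : (Om (S : Set Γ) K → ℝ) → ℝ}
    (hm : Erg.IMean Om.act (bddAlg (Om (S : Set Γ) K)) m) :
    Erg.IMean Om.act (bddAlg (Om (S : Set Γ) K)) (fun φ => dual m φ / dual m 1) where
  add φ hφ χ hχ := by
    rw [(dual_pinv hS hm.toPInv).add φ hφ χ hχ, add_div]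
  smul c φ hφ := by
    rw [(dual_pinv hS hm.toPInv).smul c φ hφ, mul_div_assoc]
  nonneg φ hφ h0 := div_nonneg ((dual_pinv hS hm.toPInv).nonneg φ hφ h0)
    (dual_pos' hS hm.toPInv hm.one).le
  inv t φ hφ := by
    rw [(dual_pinv hS hm.toPInv).inv t φ hφ]
  one := div_self (dual_pos' hS hm.toPInv hm.one).ne'

theorem dual_imean_ext (hS : Subgroup.closure (S : Set Γ) = ⊤)
    {m : (Om (S : Set Γ) K → ℝ) → ℝ}
    (hm : Erg.IMean Om.act (bddAlg (Om (S : Set Γ) K)) m)
    (hE : Erg.Ext Om.act (bddAlg (Om (S : Set Γ) K)) m) :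
    Erg.Ext Om.act (bddAlg (Om (S : Set Γ) K)) (fun φ => dual m φ / dual m 1) := by
  have hp := dual_pos' hS hm.toPInv hm.one
  intro m' hm' hle
  have h1 : Erg.PInv Om.act (bddAlg (Om (S : Set Γ) K)) (fun φ => dual m 1 * m' φ) :=
    { add := fun φ hφ χ hχ => by rw [hm'.add φ hφ χ hχ, mul_add]
      smul := fun c φ hφ => by rw [hm'.smul c φ hφ]; ring
      nonneg := fun φ hφ h0 => mul_nonneg hp.le (hm'.nonneg φ hφ h0)
      inv := fun t φ hφ => by rw [hm'.inv t φ hφ] }
  obtain ⟨c, hc⟩ := dual_ext hS hm.toPInv hE _ h1 fun φ hφ h0 => by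
    have h2 := hle φ hφ h0
    rw [le_div_iff₀ hp] at h2
    linarith
  refine ⟨c, fun φ hφ => ?_⟩
  have h3 := hc φ hφ
  have h4 : m' φ = (dual m 1 * m' φ) / dual m 1 := by field_simp
  rw [h4, h3]
  ring

/-! ### The transport bound -/

section bound

variable {e : Γ → Om (S : Set Γ) K → ℝ}

theorem FBdd_coc (hS : Subgroup.closure (S : Set Γ) = ⊤)
    (he : Erg.Coc Om.act (bddAlg (Om (S : Set Γ) K)) e) (s : Γ) :
    FBdd fun (w : Om (S : Set Γ) K) y => |e (w.E (y * s)) w| := by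
  classical
  choose C hC using he.mem
  refine ⟨∑ z ∈ ballF S (K * wordLength (S : Set Γ) s + K), |C z|,
    Finset.sum_nonneg fun _ _ => abs_nonneg _, fun w y hy => ?_⟩
  rw [abs_abs]
  have hz : w.E (y * s) ∈ ballF S (K * wordLength (S : Set Γ) s + K) := by
    rw [mem_ballF hS]; exact nd_one_E hS w hy s
  exact ((hC _ w).trans (le_abs_self _)).trans
    (Finset.single_le_sum (f := fun z => |C z|) (fun _ _ => abs_nonneg _) hz)

theorem abs_mem {φ : Om (S : Set Γ) K → ℝ} (h : φ ∈ bddAlg (Om (S : Set Γ) K)) :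
    (fun w => |φ w|) ∈ bddAlg (Om (S : Set Γ) K) := by
  obtain ⟨C, hC⟩ := h
  exact ⟨C, fun w => by rw [abs_abs]; exact hC w⟩

/-- one letter -/
theorem fs_coc_letter (hS : Subgroup.closure (S : Set Γ) = ⊤)
    {m : (Om (S : Set Γ) K → ℝ) → ℝ} (hm : Erg.PInv Om.act (bddAlg (Om (S : Set Γ) K)) m)
    (he : Erg.Coc Om.act (bddAlg (Om (S : Set Γ) K)) e) {t : Γ}
    (ht : wordLength (S : Set Γ) t ≤ 1) :
    m (fs fun w y => |e (w.E (y * t)) w|) ≤
      (ballF S K).card * ∑ z ∈ ballF S (2 * K), m (fun w => |e z w|) := by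
  classical
  have h1 : ∀ z, (fun w => |e z w|) ∈ bddAlg (Om (S : Set Γ) K) := fun z => abs_mem (he.mem z)
  have h2 : ((ballF S K).card : ℝ) * ∑ z ∈ ballF S (2 * K), m (fun w => |e z w|) =
      m (((ballF S K).card : ℝ) • ∑ z ∈ ballF S (2 * K), fun w => |e z w|) := by
    rw [hm.smul _ _ (sum_mem fun z _ => h1 z), hm.sum _ _ fun z _ => h1 z]
  rw [h2]
  refine hm.mono (fs_mem hS (FBdd_coc hS he t)) ((bddAlg _).smul_mem (sum_mem fun z _ => h1 z) _)
    fun w => ?_
  rw [Pi.smul_apply, smul_eq_mul, Finset.sum_apply]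
  refine (le_abs_self _).trans (w.abs_sum_fib_le hS (fun y hy => ?_)
    (Finset.sum_nonneg fun z _ => abs_nonneg _))
  rw [abs_abs]
  have hz : w.E (y * t) ∈ ballF S (2 * K) := by
    rw [mem_ballF hS]
    have := nd_one_E hS w hy t
    have h3 : K * wordLength (S : Set Γ) t ≤ K * 1 := Nat.mul_le_mul_left _ ht
    omega
  exact Finset.single_le_sum (f := fun z => |e z w|) (fun _ _ => abs_nonneg _) hz

/-- **transport bound** -/
theorem transport_bound (hS : Subgroup.closure (S : Set Γ) = ⊤)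
    {m : (Om (S : Set Γ) K → ℝ) → ℝ} (hm : Erg.PInv Om.act (bddAlg (Om (S : Set Γ) K)) m)
    (he : Erg.Coc Om.act (bddAlg (Om (S : Set Γ) K)) e) (y : Γ) :
    m (fs fun w y₀ => |e (w.E (y₀ * y)) w|) ≤
      wordLength (S : Set Γ) y *
        ((ballF S K).card * ∑ z ∈ ballF S (2 * K), m (fun w => |e z w|)) := by
  classical
  set B : ℝ := (ballF S K).card * ∑ z ∈ ballF S (2 * K), m (fun w => |e z w|) with hB
  have ha := alg_Om (S := (S : Set Γ)) (K := K)
  have key : ∀ l : List Γ, IsWord (S : Set Γ) l →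
      m (fs fun w y₀ => |e (w.E (y₀ * l.prod)) w|) ≤ l.length * B := by
    intro l
    induction l using List.reverseRecOn with
    | nil =>
      intro _
      have h1 : (fs fun (w : Om (S : Set Γ) K) y₀ => |e (w.E (y₀ * ([] : List Γ).prod)) w|) =
          (0 : ℝ) • (1 : Om (S : Set Γ) K → ℝ) := by
        ext w
        rw [zero_smul]
        refine Finset.sum_eq_zero fun y hy => ?_
        rw [Om.mem_fib hS] at hy
        show |e (w.E (y * ([] : List Γ).prod)) w| = 0
        rw [List.prod_nil, mul_one, hy, he.one ha, abs_zero]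
      rw [h1, hm.smul _ _ (one_mem _)]
      simp
    | append_singleton l t ih =>
      intro hl
      have hl1 : IsWord (S : Set Γ) l := fun x hx => hl x (by simp [hx])
      have ht : t ∈ (S : Set Γ) ∨ t⁻¹ ∈ (S : Set Γ) := hl t (by simp)
      have h1 := ih hl1
      have h2 := fs_coc_letter hS hm he (wordLength_letter ht)
      have h3 := fs_inv hS hm (FBdd_coc hS he t) l.prod
      have h4 : FBdd fun (w : Om (S : Set Γ) K) y =>
          |e ((w.act (w.E (y * l.prod))).E ((w.F (w.E (y * l.prod)))⁻¹ * (y * l.prod) * t))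
            (w.act (w.E (y * l.prod)))| := by
        obtain ⟨C, hC0, hC⟩ := FBdd_coc hS he t
        refine ⟨C, hC0, fun w y hy => hC _ _ ?_⟩
        rw [Om.act_E, mul_inv_cancel_left, inv_mul_cancel]
      have h5 : m (fs fun w y₀ => |e (w.E (y₀ * (l ++ [t]).prod)) w|) ≤
          m (fs (fun w y₀ => |e (w.E (y₀ * l.prod)) w|) + fs fun w y =>
            |e ((w.act (w.E (y * l.prod))).E ((w.F (w.E (y * l.prod)))⁻¹ * (y * l.prod) * t))
              (w.act (w.E (y * l.prod)))|) := by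
        refine hm.mono (fs_mem hS (FBdd_coc hS he _))
          (add_mem (fs_mem hS (FBdd_coc hS he _)) (fs_mem hS h4)) fun w => ?_
        rw [Pi.add_apply, fs, fs, fs, ← Finset.sum_add_distrib]
        refine Finset.sum_le_sum fun y hy => ?_
        rw [Om.mem_fib hS] at hy
        have e1 : w.E (y * (l ++ [t]).prod) = w.E (y * l.prod) *
            (w.act (w.E (y * l.prod))).E ((w.F (w.E (y * l.prod)))⁻¹ * (y * l.prod) * t) := by
          rw [Om.act_E, mul_inv_cancel_left]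
          congr 1
          rw [List.prod_append, List.prod_singleton]
          group
        rw [e1, he.coc]
        exact abs_add_le _ _
      rw [hm.add _ (fs_mem hS (FBdd_coc hS he _)) _ (fs_mem hS h4), h3] at h5
      rw [List.length_append, List.length_singleton]
      push_cast
      linarith
  obtain ⟨l, hlen, hl, hlg⟩ := wordLength_spec hS y
  have h6 := key l hl
  rw [hlg] at h6
  rw [← hlen]
  exact h6

end bound

end

end Crest.Agent.R182.Mic
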