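import Mathlib
import Crest.Agent.R182.MicDual
import Crest.Agent.R182.FinRed

/-!
# Row 182, module MICRO, block Z5 (author: helper671): the dual relation

If the height cocycle is `L` up to almost coboundaries for `m`, and `L'` for the normalised dual
mean, then `L ∘ L' = id`.
-/

set_option autoImplicit false

namespace Crest.Agent.R182.Mic

open Crest.GroupTheory Crest.Geometry Crest.Agent.R182.QI Crest.Agent.R182.FinRed
  Crest.Agent.R182.FinPath

variable {Γ : Type*} [Group Γ] {S : Finset Γ} {K k : ℕ}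

/-- the height cocycle is linear up to almost coboundaries -/
def AppC (S : Finset Γ) (K : ℕ) {k : ℕ} (π : Γ →* Multiplicative (Fin k → ℤ))
    (m : (Om (S : Set Γ) K → ℝ) → ℝ) (L : (Fin k → ℝ) →ₗ[ℝ] (Fin k → ℝ)) : Prop :=
  ∀ ε : ℝ, 0 < ε → ∀ B : Finset Γ, ∃ ξ : Fin k → Om (S : Set Γ) K → ℝ,
    (∀ i, ξ i ∈ bddAlg (Om (S : Set Γ) K)) ∧ ∀ x ∈ B, ∀ i,
      m (fun w => |hc π i x w - L (hgtR π x) i - (ξ i w - ξ i (w.act x))|) ≤ ε

theorem hgtR_mul' (π : Γ →* Multiplicative (Fin k → ℤ)) (g h : Γ) :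
    hgtR π (g * h) = hgtR π g + hgtR π h := by
  ext i
  simp only [hgtR, hgt_mul, Pi.add_apply]
  push_cast
  rfl

theorem hgtR_pow' (π : Γ →* Multiplicative (Fin k → ℤ)) (g : Γ) (n : ℕ) :
    hgtR π (g ^ n) = (n : ℝ) • hgtR π g := by
  induction n with
  | zero =>
    ext i
    simp [hgtR, hgt_one]
  | succ n ih =>
    rw [pow_succ, hgtR_mul', ih]
    push_cast
    rw [add_smul, one_smul]

theorem hc_eq (π : Γ →* Multiplicative (Fin k → ℤ)) (i : Fin k) (g : Γ)
    (w : Om (S : Set Γ) K) : hc π i g w = hgtR π (w.F g) i := rfl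

/-- the mean of the height cocycle -/
theorem mean_hc (hS : Subgroup.closure (S : Set Γ) = ⊤) {π : Γ →* Multiplicative (Fin k → ℤ)}
    {m : (Om (S : Set Γ) K → ℝ) → ℝ} (hm : Erg.IMean Om.act (bddAlg (Om (S : Set Γ) K)) m)
    {L : (Fin k → ℝ) →ₗ[ℝ] (Fin k → ℝ)} (hL : AppC S K π m L) (y : Γ) (i : Fin k) :
    m (hc π i y) = L (hgtR π y) i := by
  have hco := coc_hc (K := K) hS π i
  have ha := alg_Om (S := (S : Set Γ)) (K := K)
  by_contra hne
  have hpos : 0 < |m (hc π i y) - L (hgtR π y) i| := abs_pos.2 (sub_ne_zero.2 hne)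
  obtain ⟨ξ, hξ, hx⟩ := hL (|m (hc π i y) - L (hgtR π y) i| / 2) (by positivity) {y}
  have h1 := hx y (Finset.mem_singleton_self y) i
  have hξs := ha.shift y _ (hξ i)
  have hmem : (hc π i y - (fun _ => L (hgtR π y) i) - (ξ i - fun w => ξ i (w.act y))) ∈
      bddAlg (Om (S : Set Γ) K) :=
    sub_mem (sub_mem (hco.mem y) (Erg.const_mem _ _)) (sub_mem (hξ i) hξs)
  have h2 : m (hc π i y - (fun _ => L (hgtR π y) i) - (ξ i - fun w => ξ i (w.act y))) =
      m (hc π i y) - L (hgtR π y) i := by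
    rw [hm.toPInv.sub (sub_mem (hco.mem y) (Erg.const_mem _ _)) (sub_mem (hξ i) hξs),
      hm.toPInv.sub (hco.mem y) (Erg.const_mem _ _), hm.toPInv.sub (hξ i) hξs,
      hm.toPInv.inv y _ (hξ i), hm.const]
    ring
  have h3 : |m (hc π i y) - L (hgtR π y) i| ≤
      m (fun w => |hc π i y w - L (hgtR π y) i - (ξ i w - ξ i (w.act y))|) := by
    rw [← h2]
    have h4 := hm.toPInv.neg (abs_mem hmem)
    have h5 := hm.toPInv.mono (neg_mem (abs_mem hmem)) hmem fun w => neg_abs_le _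
    have h6 := hm.toPInv.mono hmem (abs_mem hmem) fun w => le_abs_self _
    rw [h4] at h5
    exact abs_le.2 ⟨h5, h6⟩
  linarith

/-- the error cocycle -/
theorem coc_err (hS : Subgroup.closure (S : Set Γ) = ⊤) (π : Γ →* Multiplicative (Fin k → ℤ))
    (L : (Fin k → ℝ) →ₗ[ℝ] (Fin k → ℝ)) {ξ : Fin k → Om (S : Set Γ) K → ℝ}
    (hξ : ∀ i, ξ i ∈ bddAlg (Om (S : Set Γ) K)) (i : Fin k) :
    Erg.Coc Om.act (bddAlg (Om (S : Set Γ) K))
      (fun x w => hc π i x w - L (hgtR π x) i - (ξ i w - ξ i (w.act x))) where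
  mem x := sub_mem (sub_mem ((coc_hc hS π i).mem x) (Erg.const_mem _ _))
    (sub_mem (hξ i) ((alg_Om (S := (S : Set Γ)) (K := K)).shift x _ (hξ i)))
  coc g h w := by
    rw [(coc_hc (K := K) hS π i).coc g h w, hgtR_mul', map_add, Pi.add_apply, Om.act_mul]
    ring

theorem dual_rel (hS : Subgroup.closure (S : Set Γ) = ⊤) {π : Γ →* Multiplicative (Fin k → ℤ)}
    (hπ : Function.Surjective π) {m : (Om (S : Set Γ) K → ℝ) → ℝ}
    (hm : Erg.IMean Om.act (bddAlg (Om (S : Set Γ) K)) m)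
    {L L' : (Fin k → ℝ) →ₗ[ℝ] (Fin k → ℝ)} (hL : AppC S K π m L)
    (hL' : AppC S K π (fun φ => dual m φ / dual m 1) L') : L ∘ₗ L' = LinearMap.id := by
  classical
  set 𝓐 := bddAlg (Om (S : Set Γ) K) with h𝓐
  have hm' := dual_imean hS hm
  have hd := dual_pinv hS hm.toPInv
  set Z := dual m 1 with hZ
  have hZ0 : 0 < Z := dual_pos' hS hm.toPInv hm.one
  obtain ⟨D, hD⟩ := exists_hom_bound hS π
  set M₁ : ℝ := ((ballF S K).card : ℝ) with hM₁
  set M₂ : ℝ := ((ballF S (2 * K)).card : ℝ) with hM₂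
  have hM₁0 : 0 ≤ M₁ := Nat.cast_nonneg _
  have hM₂0 : 0 ≤ M₂ := Nat.cast_nonneg _
  -- Main estimate
  have main : ∀ ε : ℝ, 0 < ε → ∃ C₂ : ℝ, ∀ (y : Γ) (i : Fin k),
      |hgtR π y i - L (L' (hgtR π y)) i| * Z ≤
        C₂ + wordLength (S : Set Γ) y * (M₁ * (M₂ * ε)) := by
    intro ε hε
    obtain ⟨ξ, hξ, hx⟩ := hL ε hε (ballF S (2 * K))
    choose Cξ hCξ using hξ
    set C₁ : ℝ := ∑ i, |Cξ i| with hC₁
    have hC₁0 : 0 ≤ C₁ := Finset.sum_nonneg fun _ _ => abs_nonneg _
    have hξb : ∀ i w, |ξ i w| ≤ C₁ := fun i w =>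
      ((hCξ i w).trans (le_abs_self _)).trans
        (Finset.single_le_sum (f := fun i => |Cξ i|) (fun _ _ => abs_nonneg _) (Finset.mem_univ i))
    set C₃ : ℝ := D * (2 * K) + 2 * C₁ with hC₃
    have hC₃0 : 0 ≤ C₃ := by positivity
    refine ⟨M₁ * C₃, fun y i => ?_⟩
    set e : Γ → Om (S : Set Γ) K → ℝ := fun x w =>
      hc π i x w - L (hgtR π x) i - (ξ i w - ξ i (w.act x)) with he
    have hec : Erg.Coc Om.act 𝓐 e := coc_err hS π L (fun i => ⟨Cξ i, hCξ i⟩) i
    have hb := transport_bound hS hm.toPInv hec y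
    have hb2 : ∑ z ∈ ballF S (2 * K), m (fun w => |e z w|) ≤ M₂ * ε := by
      calc ∑ z ∈ ballF S (2 * K), m (fun w => |e z w|) ≤ ∑ z ∈ ballF S (2 * K), ε :=
            Finset.sum_le_sum fun z hz => hx z hz i
        _ = M₂ * ε := by rw [Finset.sum_const, nsmul_eq_mul]
    have hb3 : m (fs fun w y₀ => |e (w.E (y₀ * y)) w|) ≤
        wordLength (S : Set Γ) y * (M₁ * (M₂ * ε)) := by
      refine hb.trans ?_
      exact mul_le_mul_of_nonneg_left (mul_le_mul_of_nonneg_left hb2 hM₁0) (Nat.cast_nonneg _)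
    -- the function `Φ`
    set Φ : Om (S : Set Γ) K → ℝ := ∑ j, (L (Pi.single j 1) i) • hc π j y with hΦ
    have hΦmem : Φ ∈ 𝓐 := sum_mem fun j _ => 𝓐.smul_mem ((coc_hc hS π j).mem y) _
    have hΦv : ∀ w, Φ w = L (hgtR π (w.F y)) i := by
      intro w
      rw [hΦ, Finset.sum_apply]
      have h1 : hgtR π (w.F y) = ∑ j, (hgtR π (w.F y) j) • (Pi.single j (1 : ℝ) : Fin k → ℝ) := by
        ext l
        rw [Finset.sum_apply, Finset.sum_eq_single l]
        · simp
        · intro j _ hj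
          simp [hj.symm]
        · intro h; exact absurd (Finset.mem_univ l) h
      conv_rhs => rw [h1]
      rw [map_sum, Finset.sum_apply]
      refine Finset.sum_congr rfl fun j _ => ?_
      rw [map_smul, Pi.smul_apply, Pi.smul_apply, smul_eq_mul, smul_eq_mul, hc_eq]
      ring
    have hΦm : dual m Φ = Z * L (L' (hgtR π y)) i := by
      have h1 : dual m Φ / Z = ∑ j, (L (Pi.single j 1) i) * (L' (hgtR π y)) j := by
        have h2 := hm'.toPInv.sum Finset.univ (fun j => (L (Pi.single j 1) i) • hc π j y)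
          (fun j _ => 𝓐.smul_mem ((coc_hc hS π j).mem y) _)
        refine h2.trans (Finset.sum_congr rfl fun j _ => ?_)
        have h3 := hm'.toPInv.smul (L (Pi.single j 1) i) _ ((coc_hc (K := K) hS π j).mem y)
        rw [mean_hc hS hm' hL' y j] at h3
        exact h3
      have h2 : L (L' (hgtR π y)) i = ∑ j, (L (Pi.single j 1) i) * (L' (hgtR π y)) j := by
        have h3 : L' (hgtR π y) = ∑ j, (L' (hgtR π y) j) • (Pi.single j (1 : ℝ) : Fin k → ℝ) := by
          ext l
          rw [Finset.sum_apply, Finset.sum_eq_single l]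
          · simp
          · intro j _ hj
            simp [hj.symm]
          · intro h; exact absurd (Finset.mem_univ l) h
        conv_lhs => rw [h3]
        rw [map_sum, Finset.sum_apply]
        refine Finset.sum_congr rfl fun j _ => ?_
        rw [map_smul, Pi.smul_apply, smul_eq_mul]
        ring
      rw [h2, ← h1]
      field_simp
    -- pointwise inequality
    have hFB : FBdd fun (w : Om (S : Set Γ) K) y₀ => |e (w.E (y₀ * y)) w| :=
      FBdd_coc hS hec y
    have hpt : ∀ w : Om (S : Set Γ) K,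
        |hgtR π y i * fs (fl 1) w - fs (fl Φ) w| ≤
          M₁ * C₃ + fs (fun w y₀ => |e (w.E (y₀ * y)) w|) w := by
      intro w
      have h1 : hgtR π y i * fs (fl 1) w - fs (fl Φ) w =
          ∑ y₀ ∈ w.fib, (hgtR π y i - L (hgtR π (w.E (y₀ * y))) i) := by
        rw [fs, fs, Finset.mul_sum, ← Finset.sum_sub_distrib]
        refine Finset.sum_congr rfl fun y₀ hy₀ => ?_
        rw [Om.mem_fib hS] at hy₀
        rw [fl_of _ w hy₀, fl_of _ w hy₀, hΦv, Om.flip_F]
        simp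
      rw [h1]
      refine (Finset.abs_sum_le_sum_abs _ _).trans ?_
      have h2 : ∀ y₀ ∈ w.fib, |hgtR π y i - L (hgtR π (w.E (y₀ * y))) i| ≤
          C₃ + |e (w.E (y₀ * y)) w| := by
        intro y₀ hy₀
        rw [Om.mem_fib hS] at hy₀
        set x := w.E (y₀ * y) with hxdef
        have h3 : hc π i x w = L (hgtR π x) i + e x w + (ξ i w - ξ i (w.act x)) := by
          rw [he]; ring
        -- `F x` is close to `y₀ * y`
        have h4 : |hgtR π (w.F x) i - hgtR π y i| ≤ D * (2 * K) := by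
          have h5 : hgtR π (w.F x) i - hgtR π y i =
              ((Multiplicative.toAdd (π ((y₀ * y)⁻¹ * w.F x * y₀)) i : ℤ) : ℝ) := by
            have h6 : hgtR π (w.F x) = hgtR π y + hgtR π ((y₀ * y)⁻¹ * w.F x * y₀) := by
              have h7 : hgtR π ((y₀ * y) * ((y₀ * y)⁻¹ * w.F x)) = hgtR π (w.F x) := by
                rw [mul_inv_cancel_left]
              rw [← h7, hgtR_mul', hgtR_mul', hgtR_mul' π ((y₀ * y)⁻¹ * w.F x)]
              abel
            rw [h6, Pi.add_apply, add_sub_cancel_left]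
            rfl
          rw [h5]
          refine (hD _ i).trans ?_
          have h6 : wordLength (S : Set Γ) ((y₀ * y)⁻¹ * w.F x * y₀) ≤ 2 * K := by
            have h7 := wordLength_mul_le hS ((y₀ * y)⁻¹ * w.F x) y₀
            have h8 := w.fib_len hS hy₀
            have h9 : wordLength (S : Set Γ) ((y₀ * y)⁻¹ * w.F x) ≤ K := by
              have := w.FE (y₀ * y)
              rw [nd_comm hS] at this
              exact this
            omega
          have h7 : (wordLength (S : Set Γ) ((y₀ * y)⁻¹ * w.F x * y₀) : ℝ) ≤ 2 * K := by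
            exact_mod_cast h6
          exact mul_le_mul_of_nonneg_left h7 (Nat.cast_nonneg _)
        rw [← hc_eq (S := S) (K := K) π i x w, h3] at h4
        have h5 : hgtR π y i - L (hgtR π x) i =
            -(L (hgtR π x) i + e x w + (ξ i w - ξ i (w.act x)) - hgtR π y i) + e x w +
              (ξ i w - ξ i (w.act x)) := by ring
        rw [h5]
        have h6 := hξb i w
        have h7 := hξb i (w.act x)
        calc _ ≤ |-(L (hgtR π x) i + e x w + (ξ i w - ξ i (w.act x)) - hgtR π y i) + e x w| +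
              |ξ i w - ξ i (w.act x)| := abs_add_le _ _
          _ ≤ |-(L (hgtR π x) i + e x w + (ξ i w - ξ i (w.act x)) - hgtR π y i)| + |e x w| +
              (|ξ i w| + |ξ i (w.act x)|) := add_le_add (abs_add_le _ _) (abs_sub _ _)
          _ ≤ C₃ + |e x w| := by rw [abs_neg]; linarith
      calc ∑ y₀ ∈ w.fib, |hgtR π y i - L (hgtR π (w.E (y₀ * y))) i|
          ≤ ∑ y₀ ∈ w.fib, (C₃ + |e (w.E (y₀ * y)) w|) := Finset.sum_le_sum h2
        _ = w.fib.card * C₃ + fs (fun w y₀ => |e (w.E (y₀ * y)) w|) w := by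
          rw [Finset.sum_add_distrib, Finset.sum_const, nsmul_eq_mul]; rfl
        _ ≤ M₁ * C₃ + fs (fun w y₀ => |e (w.E (y₀ * y)) w|) w := by
          have h3 : (w.fib.card : ℝ) ≤ M₁ := Nat.cast_le.2 (w.fib_card hS)
          have := mul_le_mul_of_nonneg_right h3 hC₃0
          linarith
    -- apply `m`
    have hmem1 := fs_fl_mem hS (one_mem 𝓐)
    have hmemΦ := fs_fl_mem hS hΦmem
    have hmemF := fs_mem hS hFB
    have hlhs : (hgtR π y i) • fs (fl (1 : Om (S : Set Γ) K → ℝ)) - fs (fl Φ) ∈ 𝓐 :=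
      sub_mem (𝓐.smul_mem hmem1 _) hmemΦ
    have hval : m ((hgtR π y i) • fs (fl (1 : Om (S : Set Γ) K → ℝ)) - fs (fl Φ)) =
        (hgtR π y i - L (L' (hgtR π y)) i) * Z := by
      rw [hm.toPInv.sub (𝓐.smul_mem hmem1 _) hmemΦ, hm.toPInv.smul _ _ hmem1]
      show hgtR π y i * dual m 1 - dual m Φ = _
      rw [hΦm]; ring
    have hrhs : ((fun _ => M₁ * C₃) + fs fun (w : Om (S : Set Γ) K) y₀ => |e (w.E (y₀ * y)) w|) ∈ 𝓐 :=
      add_mem (Erg.const_mem _ _) hmemF
    have hrv : m ((fun _ => M₁ * C₃) + fs fun (w : Om (S : Set Γ) K) y₀ => |e (w.E (y₀ * y)) w|) ≤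
        M₁ * C₃ + wordLength (S : Set Γ) y * (M₁ * (M₂ * ε)) := by
      rw [hm.toPInv.add _ (Erg.const_mem _ _) _ hmemF, hm.const]
      linarith
    have hup := hm.toPInv.mono hlhs hrhs fun w => (le_abs_self _).trans (hpt w)
    have hlo := hm.toPInv.mono (neg_mem hlhs) hrhs fun w => (neg_le_abs _).trans (hpt w)
    rw [hm.toPInv.neg hlhs] at hlo
    rw [hval] at hup hlo
    have h8 : |(hgtR π y i - L (L' (hgtR π y)) i) * Z| ≤
        M₁ * C₃ + wordLength (S : Set Γ) y * (M₁ * (M₂ * ε)) :=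
      abs_le.2 ⟨by linarith, by linarith⟩
    rw [abs_mul, abs_of_pos hZ0] at h8
    exact h8
  -- homogenise
  have hom : ∀ (y : Γ) (i : Fin k), hgtR π y i = L (L' (hgtR π y)) i := by
    intro y i
    by_contra hne
    set δ := |hgtR π y i - L (L' (hgtR π y)) i| * Z with hδ
    have hδ0 : 0 < δ := mul_pos (abs_pos.2 (sub_ne_zero.2 hne)) hZ0
    set q : ℝ := wordLength (S : Set Γ) y * (M₁ * M₂) with hq
    have hq0 : 0 ≤ q := by positivity
    obtain ⟨C₂, hC₂⟩ := main (δ / (2 * (q + 1))) (by positivity)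
    have h1 : ∀ n : ℕ, n * δ ≤ C₂ + n * (δ / 2) := by
      intro n
      have h2 := hC₂ (y ^ n) i
      rw [hgtR_pow', map_smul, map_smul, Pi.smul_apply, Pi.smul_apply, smul_eq_mul, smul_eq_mul,
        ← mul_sub, abs_mul, Nat.abs_cast] at h2
      have h3 : (wordLength (S : Set Γ) (y ^ n) : ℝ) ≤ n * wordLength (S : Set Γ) y := by
        exact_mod_cast wordLength_pow_le hS y n
      have h4 : (wordLength (S : Set Γ) (y ^ n) : ℝ) * (M₁ * (M₂ * (δ / (2 * (q + 1))))) ≤
          n * (δ / 2) := by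
        calc (wordLength (S : Set Γ) (y ^ n) : ℝ) * (M₁ * (M₂ * (δ / (2 * (q + 1)))))
            ≤ (n * wordLength (S : Set Γ) y) * (M₁ * (M₂ * (δ / (2 * (q + 1))))) :=
              mul_le_mul_of_nonneg_right h3 (by positivity)
          _ = n * (δ / 2) * (q / (q + 1)) := by rw [hq]; field_simp
          _ ≤ n * (δ / 2) * 1 := by
              apply mul_le_mul_of_nonneg_left _ (by positivity)
              rw [div_le_one (by positivity)]
              linarith
          _ = n * (δ / 2) := mul_one _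
      calc n * δ = n * |hgtR π y i - L (L' (hgtR π y)) i| * Z := by rw [hδ]; ring
        _ ≤ _ := h2
        _ ≤ C₂ + n * (δ / 2) := by linarith
    obtain ⟨n, hn⟩ := exists_nat_gt (C₂ / (δ / 2))
    rw [div_lt_iff₀ (by positivity)] at hn
    have h2 := h1 n
    linarith
  refine LinearMap.pi_ext' fun j => ?_
  refine LinearMap.ext_ring ?_
  obtain ⟨y, hy⟩ := hπ (Multiplicative.ofAdd (Pi.single j (1 : ℤ)))
  have h1 : hgtR π y = Pi.single j 1 := by
    ext l
    have h2 : hgt π y = Pi.single j 1 := by rw [hgt, hy]; rfl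
    rw [hgtR, h2]
    by_cases hl : l = j
    · subst hl; simp
    · simp [hl]
  ext i
  have h2 := hom y i
  rw [h1] at h2
  simpa using h2.symm

theorem dual_rel' (hS : Subgroup.closure (S : Set Γ) = ⊤) {π : Γ →* Multiplicative (Fin k → ℤ)}
    (hπ : Function.Surjective π) {m : (Om (S : Set Γ) K → ℝ) → ℝ}
    (hm : Erg.IMean Om.act (bddAlg (Om (S : Set Γ) K)) m)
    {L L' : (Fin k → ℝ) →ₗ[ℝ] (Fin k → ℝ)} (hL : AppC S K π m L)
    (hL' : AppC S K π (fun φ => dual m φ / dual m 1) L') : L' ∘ₗ L = LinearMap.id := by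
  have h := dual_rel hS hπ hm hL hL'
  exact (LinearMap.comp_eq_id_comm ℝ (Fin k → ℝ)).1 h

end Crest.Agent.R182.Mic
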