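import Mathlib

/-!
# Row 182, module HT (author: helper506): cocycles of orthogonal representations

`Coc U b`: cocycle identity, `AC U b`: almost coboundary, `fix U A`: fixed vectors.
-/

set_option autoImplicit false

namespace Crest.Agent.R182.Ht

open Filter Topology

section Basic

variable {G V : Type*} [Group G] [NormedAddCommGroup V] [InnerProductSpace ℝ V]

/-- cocycle identity -/
def Coc (U : G →* (V ≃ₗᵢ[ℝ] V)) (b : G → V) : Prop := ∀ g h, b (g * h) = b g + U g (b h)

/-- almost coboundary -/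
def AC (U : G →* (V ≃ₗᵢ[ℝ] V)) (b : G → V) : Prop :=
  ∀ (S : Finset G) (ε : ℝ), 0 < ε → ∃ ξ : V, ∀ s ∈ S, ‖b s - (ξ - U s ξ)‖ ≤ ε

variable {U : G →* (V ≃ₗᵢ[ℝ] V)} {b : G → V}

theorem U_mul (g h : G) (v : V) : U (g * h) v = U g (U h v) := by
  rw [map_mul]; rfl

theorem U_one (v : V) : U 1 v = v := by rw [map_one]; rfl

theorem U_inv_apply (g : G) (v : V) : U g⁻¹ (U g v) = v := by
  rw [← U_mul, inv_mul_cancel, U_one]

theorem U_apply_inv (g : G) (v : V) : U g (U g⁻¹ v) = v := by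
  rw [← U_mul, mul_inv_cancel, U_one]

theorem U_norm (g : G) (v : V) : ‖U g v‖ = ‖v‖ := (U g).norm_map v

theorem U_inner (g : G) (v w : V) : inner ℝ (U g v) (U g w) = inner ℝ v w :=
  (U g).inner_map_map v w

theorem U_inner_left (g : G) (v w : V) : inner ℝ (U g v) w = inner ℝ v (U g⁻¹ w) := by
  rw [← U_inner (U := U) g v, U_apply_inv]

theorem Coc.one (hb : Coc U b) : b 1 = 0 := by
  have := hb 1 1
  rw [mul_one, U_one] at this
  simpa using this

theorem Coc.inv (hb : Coc U b) (g : G) : b g⁻¹ = - U g⁻¹ (b g) := by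
  have := hb g⁻¹ g
  rw [inv_mul_cancel, hb.one] at this
  exact eq_neg_of_add_eq_zero_left this.symm

theorem Coc.norm_inv (hb : Coc U b) (g : G) : ‖b g⁻¹‖ = ‖b g‖ := by
  rw [hb.inv, norm_neg, U_norm]

theorem Coc.norm_mul_le (hb : Coc U b) (g h : G) : ‖b (g * h)‖ ≤ ‖b g‖ + ‖b h‖ := by
  rw [hb g h]
  exact (norm_add_le _ _).trans (by rw [U_norm])

theorem Coc.norm_conj_le (hb : Coc U b) (g h : G) : ‖b (g * h * g⁻¹)‖ ≤ ‖b h‖ + 2 * ‖b g‖ := by
  have h1 := hb.norm_mul_le (g * h) g⁻¹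
  have h2 := hb.norm_mul_le g h
  rw [hb.norm_inv] at h1
  linarith

theorem Coc.sub_cob (hb : Coc U b) (ξ : V) : Coc U (fun g => b g - (ξ - U g ξ)) := by
  intro g h
  show b (g * h) - (ξ - U (g * h) ξ) = (b g - (ξ - U g ξ)) + U g (b h - (ξ - U h ξ))
  rw [hb g h, U_mul, map_sub, map_sub]
  abel

theorem Coc.add {b' : G → V} (hb : Coc U b) (hb' : Coc U b') : Coc U (fun g => b g + b' g) := by
  intro g h
  show b (g * h) + b' (g * h) = (b g + b' g) + U g (b h + b' h)
  rw [hb g h, hb' g h, map_add]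
  abel

theorem Coc.norm_list_le (hb : Coc U b) (l : List G) {C : ℝ} (hl : ∀ x ∈ l, ‖b x‖ ≤ C) :
    ‖b l.prod‖ ≤ l.length * C := by
  induction l with
  | nil => simp [hb.one]
  | cons a l ih =>
    rw [List.prod_cons, List.length_cons]
    have h1 := hb.norm_mul_le a l.prod
    have h2 := ih fun x hx => hl x (List.mem_cons_of_mem _ hx)
    have h3 := hl a List.mem_cons_self
    push_cast
    linarith

/-- it suffices to be almost a coboundary on finite subsets of a generating set -/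
theorem AC.of_gen (hb : Coc U b) {T : Set G} (hT : Subgroup.closure T = ⊤)
    (h : ∀ (S : Finset G), (S : Set G) ⊆ T → ∀ ε : ℝ, 0 < ε →
      ∃ ξ : V, ∀ s ∈ S, ‖b s - (ξ - U s ξ)‖ ≤ ε) : AC U b := by
  classical
  intro S ε hε
  -- every element is a product of letters
  have hw : ∀ g : G, ∃ l : List G, (∀ x ∈ l, x ∈ T ∨ x⁻¹ ∈ T) ∧ l.prod = g := by
    intro g
    have hg : g ∈ Subgroup.closure T := by rw [hT]; trivial
    induction hg using Subgroup.closure_induction with
    | mem x hx => exact ⟨[x], by simp [hx], by simp⟩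
    | one => exact ⟨[], by simp, by simp⟩
    | mul x y _ _ hx hy =>
      obtain ⟨l, hl, rfl⟩ := hx
      obtain ⟨l', hl', rfl⟩ := hy
      refine ⟨l ++ l', ?_, by simp⟩
      intro x hx
      rcases List.mem_append.mp hx with hx | hx
      · exact hl x hx
      · exact hl' x hx
    | inv x _ hx =>
      obtain ⟨l, hl, rfl⟩ := hx
      refine ⟨(l.map (·⁻¹)).reverse, ?_, by rw [List.prod_inv_reverse]⟩
      intro x hx
      rw [List.mem_reverse, List.mem_map] at hx
      obtain ⟨y, hy, rfl⟩ := hx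
      rcases hl y hy with h1 | h1
      · right; simpa using h1
      · left; simpa using h1
  choose w hw1 hw2 using hw
  set S' : Finset G := S.biUnion fun s => ((w s).map fun x => if x ∈ T then x else x⁻¹).toFinset
    with hS'
  obtain ⟨L, hL⟩ : ∃ L : ℕ, ∀ s ∈ S, (w s).length ≤ L :=
    ⟨S.sup fun s => (w s).length, fun s hs => Finset.le_sup (f := fun s => (w s).length) hs⟩
  have hS'T : (S' : Set G) ⊆ T := by
    intro x hx
    rw [Finset.mem_coe, hS', Finset.mem_biUnion] at hx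
    obtain ⟨s, hs, hx⟩ := hx
    rw [List.mem_toFinset, List.mem_map] at hx
    obtain ⟨y, hy, rfl⟩ := hx
    by_cases h1 : y ∈ T
    · rw [if_pos h1]; exact h1
    · rw [if_neg h1]; exact (hw1 s y hy).resolve_left h1
  obtain ⟨ξ, hξ⟩ := h S' hS'T (ε / (L + 1)) (by positivity)
  refine ⟨ξ, fun s hs => ?_⟩
  have hc := hb.sub_cob ξ
  have h1 : ∀ x ∈ w s, ‖(fun g => b g - (ξ - U g ξ)) x‖ ≤ ε / (L + 1) := by
    intro x hx
    have h2 : (if x ∈ T then x else x⁻¹) ∈ S' := by
      rw [hS', Finset.mem_biUnion]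
      refine ⟨s, hs, ?_⟩
      rw [List.mem_toFinset, List.mem_map]
      exact ⟨x, hx, rfl⟩
    by_cases h3 : x ∈ T
    · rw [if_pos h3] at h2
      exact hξ _ h2
    · rw [if_neg h3] at h2
      rw [← hc.norm_inv]
      exact hξ _ h2
  have h4 := hc.norm_list_le (w s) h1
  rw [hw2] at h4
  refine h4.trans ?_
  have h5 : ((w s).length : ℝ) ≤ L := by exact_mod_cast hL s hs
  have h6 : 0 ≤ ε / ((L : ℝ) + 1) := by positivity
  calc ((w s).length : ℝ) * (ε / (L + 1)) ≤ L * (ε / (L + 1)) :=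
        mul_le_mul_of_nonneg_right h5 h6
    _ ≤ (L + 1) * (ε / (L + 1)) := by nlinarith
    _ = ε := by field_simp

theorem AC.add {b' : G → V} (h : AC U b) (h' : AC U b') : AC U (fun g => b g + b' g) := by
  intro S ε hε
  obtain ⟨ξ, hξ⟩ := h S (ε / 2) (by positivity)
  obtain ⟨ξ', hξ'⟩ := h' S (ε / 2) (by positivity)
  refine ⟨ξ + ξ', fun s hs => ?_⟩
  have e : b s + b' s - (ξ + ξ' - U s (ξ + ξ')) = (b s - (ξ - U s ξ)) + (b' s - (ξ' - U s ξ')) := by
    rw [map_add]; abel
  rw [e]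
  have h1 := hξ s hs
  have h2 := hξ' s hs
  exact (norm_add_le _ _).trans (by linarith)

/-- an almost coboundary has sublinear growth -/
theorem AC.sublinear (hb : Coc U b) (h : AC U b) (S : Finset G) {ε : ℝ} (hε : 0 < ε) :
    ∃ C : ℝ, ∀ l : List G, (∀ x ∈ l, x ∈ S ∨ x⁻¹ ∈ S) → ‖b l.prod‖ ≤ ε * l.length + C := by
  obtain ⟨ξ, hξ⟩ := h S ε hε
  refine ⟨2 * ‖ξ‖, fun l hl => ?_⟩
  have hc := hb.sub_cob ξ
  have h1 := hc.norm_list_le l (C := ε) (fun x hx => by
    rcases hl x hx with h1 | h1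
    · exact hξ x h1
    · rw [← hc.norm_inv]; exact hξ _ h1)
  have h2 : b l.prod = (b l.prod - (ξ - U l.prod ξ)) + (ξ - U l.prod ξ) := by abel
  rw [h2]
  refine (norm_add_le _ _).trans ?_
  have h3 : ‖ξ - U l.prod ξ‖ ≤ 2 * ‖ξ‖ := by
    refine (norm_sub_le _ _).trans ?_
    rw [U_norm]; linarith
  have h4 : ‖b l.prod - (ξ - U l.prod ξ)‖ ≤ l.length * ε := h1
  linarith

end Basic

section Fix

variable {G V : Type*} [Group G] [NormedAddCommGroup V] [InnerProductSpace ℝ V]

/-- vectors fixed by a subgroup -/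
def fix (U : G →* (V ≃ₗᵢ[ℝ] V)) (A : Subgroup G) : Submodule ℝ V where
  carrier := {v | ∀ a ∈ A, U a v = v}
  add_mem' := by
    intro v w hv hw a ha
    rw [map_add, hv a ha, hw a ha]
  zero_mem' := fun a _ => map_zero _
  smul_mem' := by
    intro c v hv a ha
    rw [map_smul, hv a ha]

variable {U : G →* (V ≃ₗᵢ[ℝ] V)} {A B : Subgroup G}

theorem mem_fix {v : V} : v ∈ fix U A ↔ ∀ a ∈ A, U a v = v := Iff.rfl

theorem fix_anti (h : A ≤ B) : fix U B ≤ fix U A := fun _ hv a ha => hv a (h ha)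

theorem isClosed_fix (U : G →* (V ≃ₗᵢ[ℝ] V)) (A : Subgroup G) : IsClosed (fix U A : Set V) := by
  have : (fix U A : Set V) = ⋂ a ∈ A, {v | U a v = v} := by
    ext v
    simp only [SetLike.mem_coe, mem_fix, Set.mem_iInter, Set.mem_ofPred_eq]
  rw [this]
  exact isClosed_biInter fun a _ => isClosed_eq (U a).continuous continuous_id

instance [CompleteSpace V] (U : G →* (V ≃ₗᵢ[ℝ] V)) (A : Subgroup G) :
    CompleteSpace (fix U A) := (isClosed_fix U A).completeSpace_coe

theorem U_mem_fix [hA : A.Normal] (g : G) {v : V} (hv : v ∈ fix U A) : U g v ∈ fix U A := by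
  intro a ha
  have h1 : a * g = g * (g⁻¹ * a * g) := by group
  rw [← U_mul, h1, U_mul, hv _ (by simpa using hA.conj_mem a ha g⁻¹)]

theorem U_mem_orth [hA : A.Normal] (g : G) {v : V} (hv : v ∈ (fix U A)ᗮ) :
    U g v ∈ (fix U A)ᗮ := by
  rw [Submodule.mem_orthogonal] at hv ⊢
  intro w hw
  rw [real_inner_comm, U_inner_left, real_inner_comm]
  exact hv _ (U_mem_fix g⁻¹ hw)

/-- span of the differences `w - a w` -/
def dif (U : G →* (V ≃ₗᵢ[ℝ] V)) (A : Subgroup G) : Submodule ℝ V :=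
  Submodule.span ℝ {v | ∃ a ∈ A, ∃ w, v = w - U a w}

theorem orth_dif : (dif U A)ᗮ = fix U A := by
  ext y
  rw [Submodule.mem_orthogonal]
  constructor
  · intro h a ha
    have h1 : ∀ w, inner ℝ w (y - U a y) = 0 := by
      intro w
      have h2 := h (w - U a⁻¹ w) (Submodule.subset_span ⟨a⁻¹, A.inv_mem ha, w, rfl⟩)
      rw [inner_sub_left, U_inner_left, inv_inv, ← inner_sub_right] at h2
      exact h2
    have h3 := h1 (y - U a y)
    rw [inner_self_eq_zero, sub_eq_zero] at h3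
    exact h3.symm
  · intro h v hv
    induction hv using Submodule.span_induction with
    | mem x hx =>
      obtain ⟨a, ha, w, rfl⟩ := hx
      rw [inner_sub_left, U_inner_left, h _ (A.inv_mem ha), sub_self]
    | zero => exact inner_zero_left _
    | add x z _ _ hx hz => rw [inner_add_left, hx, hz, add_zero]
    | smul c x _ hx => rw [inner_smul_left, hx, mul_zero]

theorem orth_fix [CompleteSpace V] : (fix U A)ᗮ = (dif U A).topologicalClosure := by
  rw [← orth_dif, Submodule.orthogonal_orthogonal_eq_closure]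

end Fix

end Crest.Agent.R182.Ht
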