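import Mathlib

/-!
# R182 / MICRO: almost invariant, linearly bounded measures on `ℤ^d` with a `ℤ^k`-action

`ℤ^k` acts on `A = ℤ^d`; `ℓ` is a length on `A` that is changed by at most `c |v|₁` by `v ∈ ℤ^k`
(the word length of a group in which the action is by conjugation).  There are probability
measures `p_n` on `A`, supported in `{ℓ ≤ C (n+1)}`, asymptotically translation invariant, and
with `‖T_j p_n - p_n‖₁ ≤ 2/(n+1)`.
-/

open Finset
open scoped Pointwise

namespace Crest.Agent.R182.HtMeas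

variable {d k : ℕ}

/-- `ℤ^d → ℝ^d`. -/
def ι (a : Fin d → ℤ) : Fin d → ℝ := fun i => (a i : ℝ)

@[simp] theorem ι_apply (a : Fin d → ℤ) (i : Fin d) : ι a i = (a i : ℝ) := rfl

@[simp] theorem ι_zero : ι (0 : Fin d → ℤ) = 0 := by ext i; simp

theorem ι_add (a b : Fin d → ℤ) : ι (a + b) = ι a + ι b := by ext i; simp

theorem ι_neg (a : Fin d → ℤ) : ι (-a) = - ι a := by ext i; simp

theorem ι_sub (a b : Fin d → ℤ) : ι (a - b) = ι a - ι b := by ext i; simp

theorem ι_smul (n : ℤ) (a : Fin d → ℤ) : ι (n • a) = (n : ℝ) • ι a := by ext i; simp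

theorem ι_sum {α : Type*} (s : Finset α) (f : α → Fin d → ℤ) :
    ι (∑ i ∈ s, f i) = ∑ i ∈ s, ι (f i) := by
  ext i; simp [Finset.sum_apply]

theorem ι_inj {a b : Fin d → ℤ} (h : ι a = ι b) : a = b := by
  ext i
  have := congrFun h i
  simpa using this

theorem ι_single (j : Fin d) : ι (Pi.single j 1 : Fin d → ℤ) = Pi.single j 1 := by
  ext i
  by_cases h : i = j
  · subst h; simp
  · simp [h]

/-- Real extension of an additive endomorphism of `ℤ^d`. -/
noncomputable def ex (f : (Fin d → ℤ) →+ (Fin d → ℤ)) : (Fin d → ℝ) →ₗ[ℝ] (Fin d → ℝ) :=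
  Matrix.toLin' (Matrix.of fun i j => ((f (Pi.single j 1) i : ℤ) : ℝ))

theorem ex_ι (f : (Fin d → ℤ) →+ (Fin d → ℤ)) (a : Fin d → ℤ) : ex f (ι a) = ι (f a) := by
  have ha : a = ∑ j, a j • (Pi.single j 1 : Fin d → ℤ) := by
    ext i
    simp [Finset.sum_apply, Pi.single_apply]
  have hf : f a = ∑ j, a j • f (Pi.single j 1) := by
    conv_lhs => rw [ha]
    rw [map_sum]
    exact Finset.sum_congr rfl fun j _ => map_zsmul f _ _
  ext i
  rw [hf]
  simp only [ex, Matrix.toLin'_apply, Matrix.mulVec, dotProduct, Matrix.of_apply, ι_apply,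
    Finset.sum_apply, Pi.smul_apply, smul_eq_mul, Int.cast_sum, Int.cast_mul]
  exact Finset.sum_congr rfl fun j _ => mul_comm _ _

theorem ex_ext {f g : (Fin d → ℝ) →ₗ[ℝ] (Fin d → ℝ)} (h : ∀ a, f (ι a) = g (ι a)) : f = g := by
  apply LinearMap.pi_ext'
  intro j
  apply LinearMap.ext_ring
  simp only [LinearMap.comp_apply, LinearMap.single_apply]
  have := h (Pi.single j 1)
  rwa [ι_single] at this

/-- An action of `ℤ^k` on `ℤ^d`. -/
structure Act (k d : ℕ) where
  /-- the automorphism of `v` -/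
  ac : (Fin k → ℤ) → (Fin d → ℤ) →+ (Fin d → ℤ)
  ac_zero : ∀ a, ac 0 a = a
  ac_add : ∀ v w a, ac (v + w) a = ac v (ac w a)

variable (φ : Act k d)

namespace Act

theorem ac_neg_cancel (v : Fin k → ℤ) (a : Fin d → ℤ) : φ.ac v (φ.ac (-v) a) = a := by
  rw [← φ.ac_add, add_neg_cancel, φ.ac_zero]

theorem ac_cancel_neg (v : Fin k → ℤ) (a : Fin d → ℤ) : φ.ac (-v) (φ.ac v a) = a := by
  rw [← φ.ac_add, neg_add_cancel, φ.ac_zero]

/-- The action of `v ∈ ℤ^k` on `ℝ^d`. -/
noncomputable def E (v : Fin k → ℤ) : (Fin d → ℝ) →ₗ[ℝ] (Fin d → ℝ) := ex (φ.ac v)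

theorem E_ι (v : Fin k → ℤ) (a : Fin d → ℤ) : φ.E v (ι a) = ι (φ.ac v a) := by
  rw [E, ex_ι]

theorem E_add (v w : Fin k → ℤ) : φ.E (v + w) = φ.E v ∘ₗ φ.E w := by
  apply ex_ext
  intro a
  rw [LinearMap.comp_apply, E_ι, E_ι, E_ι, φ.ac_add]

theorem E_zero : φ.E (0 : Fin k → ℤ) = LinearMap.id := by
  apply ex_ext
  intro a
  rw [E_ι, φ.ac_zero]; rfl

end Act

/-- **Carathéodory** with signs: a combination with coefficients of total mass `≤ W` can be
written with `d+1` terms and the same bound on the mass. -/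
theorem car {Ω : Type*} [Fintype Ω] [Nonempty Ω] (u : Ω → Fin d → ℝ) (x : Ω → ℝ) :
    ∃ (α : Fin (d + 1) → Ω) (y : Fin (d + 1) → ℝ), ∑ i, |y i| ≤ ∑ ω, |x ω| ∧
      ∑ i, y i • u (α i) = ∑ ω, x ω • u ω := by
  classical
  set W : ℝ := ∑ ω, |x ω| with hW
  have hW0 : 0 ≤ W := Finset.sum_nonneg fun _ _ => abs_nonneg _
  rcases hW0.eq_or_lt with h0 | hpos
  · have hx : ∀ ω, x ω = 0 := by
      intro ω
      have := (Finset.sum_eq_zero_iff_of_nonneg (fun ω _ => abs_nonneg (x ω))).1 h0.symm ω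
        (Finset.mem_univ _)
      simpa using this
    refine ⟨fun _ => Classical.arbitrary Ω, fun _ => 0, ?_, ?_⟩
    · simpa using hW0
    · simp [hx]
  · -- the point `(1/W) ∑ |x| (sign x u)` lies in the convex hull
    set z : Ω → Fin d → ℝ := fun ω => (SignType.sign (x ω) : ℝ) • u ω with hz
    have hmem : (1 / W) • ∑ ω, x ω • u ω ∈ convexHull ℝ (Set.range z) := by
      have h1 : (1 / W) • ∑ ω, x ω • u ω = ∑ ω, (|x ω| / W) • z ω := by
        rw [Finset.smul_sum]
        refine Finset.sum_congr rfl fun ω _ => ?_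
        rw [hz]
        simp only [smul_smul]
        congr 1
        have : x ω = |x ω| * (SignType.sign (x ω) : ℝ) := (abs_mul_sign _).symm
        conv_lhs => rw [this]
        ring
      rw [h1]
      refine (convex_convexHull ℝ _).sum_mem (fun ω _ => by positivity) ?_
        (fun ω _ => subset_convexHull ℝ _ ⟨ω, rfl⟩)
      rw [← Finset.sum_div, ← hW, div_self hpos.ne']
    obtain ⟨ι', _, zz, w, hrange, haff, hwpos, hwsum, hweq⟩ :=
      eq_pos_convex_span_of_mem_convexHull hmem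
    have hcard : Fintype.card ι' ≤ d + 1 := by
      have h2 := haff.card_le_finrank_succ
      have h3 : Module.finrank ℝ (vectorSpan ℝ (Set.range zz)) ≤ d := by
        have := Submodule.finrank_le (vectorSpan ℝ (Set.range zz))
        simpa using this
      omega
    -- embed `ι'` into `Fin (d+1)`
    obtain ⟨emb⟩ : Nonempty (ι' ↪ Fin (d + 1)) :=
      Function.Embedding.nonempty_of_card_le (by simpa using hcard)
    have hex : ∀ i : ι', ∃ ω, z ω = zz i := fun i => hrange ⟨i, rfl⟩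
    choose om hom using hex
    let α : Fin (d + 1) → Ω := fun i => if h : ∃ s, emb s = i then om h.choose
      else Classical.arbitrary Ω
    let y : Fin (d + 1) → ℝ := fun i => if h : ∃ s, emb s = i then
      W * w h.choose * (SignType.sign (x (om h.choose)) : ℝ) else 0
    have hα : ∀ s, α (emb s) = om s := by
      intro s
      have h : ∃ s', emb s' = emb s := ⟨s, rfl⟩
      have hs : h.choose = s := emb.injective h.choose_spec
      simp only [α, dif_pos h, hs]
    have hy : ∀ s, y (emb s) = W * w s * (SignType.sign (x (om s)) : ℝ) := by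
      intro s
      have h : ∃ s', emb s' = emb s := ⟨s, rfl⟩
      have hs : h.choose = s := emb.injective h.choose_spec
      simp only [y, dif_pos h, hs]
    have hy0 : ∀ i, i ∉ Set.range emb → y i = 0 := by
      intro i hi
      simp only [y]
      rw [dif_neg]
      intro h
      exact hi h
    refine ⟨α, y, ?_, ?_⟩
    · have hsum : ∑ i, |y i| = ∑ s, |y (emb s)| := by
        rw [← Finset.sum_image (s := Finset.univ) (g := emb) (f := fun i => |y i|)
          (fun a _ b _ h => emb.injective h)]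
        symm
        apply Finset.sum_subset (Finset.subset_univ _)
        intro i _ hi
        rw [hy0 i (by simpa using hi), abs_zero]
      rw [hsum]
      calc ∑ s, |y (emb s)| ≤ ∑ s, W * w s := by
            refine Finset.sum_le_sum fun s _ => ?_
            rw [hy, abs_mul, abs_of_pos (mul_pos hpos (hwpos s))]
            have : |(SignType.sign (x (om s)) : ℝ)| ≤ 1 := by
              rcases SignType.sign (x (om s)) with _ | _ | _ <;> simp
            nlinarith [mul_pos hpos (hwpos s)]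
        _ = W := by rw [← Finset.mul_sum, hwsum, mul_one]
    · have hsum : ∑ i, y i • u (α i) = ∑ s, y (emb s) • u (α (emb s)) := by
        rw [← Finset.sum_image (s := Finset.univ) (g := emb) (f := fun i => y i • u (α i))
          (fun a _ b _ h => emb.injective h)]
        symm
        apply Finset.sum_subset (Finset.subset_univ _)
        intro i _ hi
        rw [hy0 i (by simpa using hi), zero_smul]
      rw [hsum]
      have h4 : ∀ s, y (emb s) • u (α (emb s)) = W • (w s • zz s) := by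
        intro s
        rw [hy, hα, ← hom s, hz]
        simp only [smul_smul]
        ring_nf
      rw [Finset.sum_congr rfl fun s _ => h4 s, ← Finset.smul_sum, hweq, smul_smul,
        mul_one_div_cancel hpos.ne', one_smul]


/-- A length on `ℤ^d` changed by at most `c |v|₁` by `v ∈ ℤ^k`. -/
structure Len (φ : Act k d) where
  /-- the length -/
  ℓ : (Fin d → ℤ) → ℝ
  /-- the constant -/
  c : ℝ
  ℓ_zero : ℓ 0 = 0
  ℓ_nonneg : ∀ a, 0 ≤ ℓ a
  ℓ_neg : ∀ a, ℓ (-a) ≤ ℓ a
  ℓ_add : ∀ a b, ℓ (a + b) ≤ ℓ a + ℓ b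
  c_nonneg : 0 ≤ c
  ℓ_ac : ∀ v a, ℓ (φ.ac v a) ≤ ℓ a + c * ∑ j, |(v j : ℝ)|

variable {φ} (L : Len φ)

namespace Len

theorem ℓ_nsmul (n : ℕ) (a : Fin d → ℤ) : L.ℓ (n • a) ≤ n * L.ℓ a := by
  induction n with
  | zero => simp [L.ℓ_zero]
  | succ n ih =>
    rw [succ_nsmul]
    push_cast
    have := L.ℓ_add (n • a) a
    linarith

theorem ℓ_zsmul (n : ℤ) (a : Fin d → ℤ) : L.ℓ (n • a) ≤ |(n : ℝ)| * L.ℓ a := by
  rcases Int.eq_nat_or_neg n with ⟨m, rfl | rfl⟩
  · have := L.ℓ_nsmul m a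
    rw [natCast_zsmul]
    simpa using this
  · have h1 := L.ℓ_nsmul m a
    have h2 := L.ℓ_neg (m • a)
    rw [neg_smul, natCast_zsmul]
    push_cast
    rw [abs_neg]
    have h3 : |(m : ℝ)| = m := abs_of_nonneg (by positivity)
    rw [h3]
    linarith

theorem ℓ_sum {α : Type*} (s : Finset α) (f : α → Fin d → ℤ) :
    L.ℓ (∑ i ∈ s, f i) ≤ ∑ i ∈ s, L.ℓ (f i) := by
  classical
  induction s using Finset.induction_on with
  | empty => simp [L.ℓ_zero]
  | insert a s ha ih =>
    rw [Finset.sum_insert ha, Finset.sum_insert ha]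
    have := L.ℓ_add (f a) (∑ i ∈ s, f i)
    linarith

theorem ℓ_le (a : Fin d → ℤ) : L.ℓ a ≤ ∑ j, |(a j : ℝ)| * L.ℓ (Pi.single j 1) := by
  have ha : a = ∑ j, a j • (Pi.single j 1 : Fin d → ℤ) := by
    ext i
    simp [Finset.sum_apply, Pi.single_apply]
  conv_lhs => rw [ha]
  exact (L.ℓ_sum _ _).trans (Finset.sum_le_sum fun j _ => L.ℓ_zsmul _ _)

end Len

/-- One step towards the origin. -/
noncomputable def sg (v : Fin k → ℤ) : Fin k → ℤ := fun t => (v t).sign

theorem sub_sg_le {v : Fin k → ℤ} {m : ℕ} (h : ∀ t, |v t| ≤ (m : ℤ) + 1) (t : Fin k) :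
    |(v - sg v) t| ≤ (m : ℤ) := by
  have ht := h t
  simp only [Pi.sub_apply, sg]
  rcases lt_trichotomy (v t) 0 with h0 | h0 | h0
  · rw [Int.sign_eq_neg_one_of_neg h0]
    rw [abs_le] at ht ⊢
    omega
  · simp [h0]
  · rw [Int.sign_eq_one_of_pos h0]
    rw [abs_le] at ht ⊢
    omega

theorem abs_sg_le (v : Fin k → ℤ) (t : Fin k) : |((sg v t : ℤ) : ℝ)| ≤ 1 := by
  have : |(sg v t : ℤ)| ≤ 1 := by
    simp only [sg]
    rcases lt_trichotomy (v t) 0 with h0 | h0 | h0
    · rw [Int.sign_eq_neg_one_of_neg h0]; simp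
    · simp [h0]
    · rw [Int.sign_eq_one_of_pos h0]; simp
  exact_mod_cast this

theorem sum_abs_sg_le (v : Fin k → ℤ) : ∑ t, |((sg v t : ℤ) : ℝ)| ≤ k := by
  calc ∑ t, |((sg v t : ℤ) : ℝ)| ≤ ∑ _t : Fin k, (1 : ℝ) :=
        Finset.sum_le_sum fun t _ => abs_sg_le v t
    _ = k := by simp

/-- The small steps. -/
noncomputable def Step (k : ℕ) : Finset (Fin k → ℤ) := Fintype.piFinset fun _ => Finset.Icc (-1) 1

theorem sg_mem (v : Fin k → ℤ) : sg v ∈ Step k := by
  rw [Step, Fintype.mem_piFinset]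
  intro t
  rw [Finset.mem_Icc]
  simp only [sg]
  rcases lt_trichotomy (v t) 0 with h0 | h0 | h0
  · rw [Int.sign_eq_neg_one_of_neg h0]; simp
  · simp [h0]
  · rw [Int.sign_eq_one_of_pos h0]; simp

/-- bound for the coefficients of `T^{-s} e_j`, `s` a small step. -/
noncomputable def C0 (φ : Act k d) : ℝ :=
  ∑ s ∈ Step k, ∑ j : Fin d, ∑ l : Fin d, |(φ.ac (-s) (Pi.single j 1) l : ℝ)|

theorem C0_nonneg : 0 ≤ C0 φ :=
  Finset.sum_nonneg fun _ _ => Finset.sum_nonneg fun _ _ => Finset.sum_nonneg fun _ _ =>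
    abs_nonneg _

theorem le_C0 (v : Fin k → ℤ) (j : Fin d) :
    ∑ l : Fin d, |(φ.ac (-(sg v)) (Pi.single j 1) l : ℝ)| ≤ C0 φ := by
  have h1 : ∑ j : Fin d, ∑ l : Fin d, |(φ.ac (-(sg v)) (Pi.single j 1) l : ℝ)| ≤ C0 φ :=
    Finset.single_le_sum (f := fun s => ∑ j : Fin d, ∑ l : Fin d,
      |(φ.ac (-s) (Pi.single j 1) l : ℝ)|)
      (fun s _ => Finset.sum_nonneg fun _ _ => Finset.sum_nonneg fun _ _ => abs_nonneg _)
      (sg_mem v)
  refine le_trans ?_ h1
  exact Finset.single_le_sum (f := fun j => ∑ l : Fin d,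
      |(φ.ac (-(sg v)) (Pi.single j 1) l : ℝ)|)
      (fun s _ => Finset.sum_nonneg fun _ _ => abs_nonneg _) (Finset.mem_univ j)

/-- The mass of the remaining strands. -/
noncomputable def TT (φ : Act k d) : ℝ := (d + 1) * C0 φ + 1

theorem TT_pos : 0 < TT φ := by
  have := C0_nonneg (φ := φ)
  unfold TT
  positivity

theorem one_le_TT : 1 ≤ TT φ := by
  have := C0_nonneg (φ := φ)
  unfold TT
  have : 0 ≤ ((d : ℝ) + 1) * C0 φ := by positivity
  linarith

/-- The lengths of the basis vectors. -/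
noncomputable def L1 (L : Len φ) : ℝ := ∑ j, L.ℓ (Pi.single j 1)

theorem L1_nonneg : 0 ≤ L1 L := Finset.sum_nonneg fun _ _ => L.ℓ_nonneg _

theorem le_L1 (j : Fin d) : L.ℓ (Pi.single j 1) ≤ L1 L :=
  Finset.single_le_sum (f := fun j => L.ℓ (Pi.single j 1)) (fun _ _ => L.ℓ_nonneg _)
    (Finset.mem_univ j)

/-- The constant of `strands`. -/
noncomputable def C1 (L : Len φ) : ℝ := (d + 1) * ((TT φ + 1) * L1 L) + (d + 1) * (L.c * k)

theorem C1_nonneg : 0 ≤ C1 L := by
  have h1 := L1_nonneg L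
  have h2 := TT_pos (φ := φ)
  have h3 := L.c_nonneg
  unfold C1
  positivity

/-- **Strands.**  A lattice point that is a combination of `d+1` vectors `T^{-v_i} e_{j_i}`,
`|v_i| ≤ m`, with bounded coefficients, splits into pieces based at the `v_i` of total length
`O(m)`. -/
theorem strands (m : ℕ) : ∀ (v : Fin (d + 1) → Fin k → ℤ) (j : Fin (d + 1) → Fin d)
    (x : Fin (d + 1) → ℝ) (a : Fin d → ℤ), (∀ i t, |v i t| ≤ (m : ℤ)) →
    (∀ i, |x i| ≤ TT φ) →
    ∑ i, x i • φ.E (-(v i)) (Pi.single (j i) 1) = ι a →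
    ∃ b : Fin (d + 1) → Fin d → ℤ, ∑ i, b i = a ∧
      ∑ i, L.ℓ (φ.ac (v i) (b i)) ≤ C1 L * (m + 1) := by
  have hL1 := L1_nonneg L
  have hT := TT_pos (φ := φ)
  have hc := L.c_nonneg
  induction m with
  | zero =>
    intro v j x a hv hx hsum
    have hv0 : ∀ i, v i = 0 := by
      intro i
      ext t
      have := hv i t
      simpa using this
    refine ⟨Pi.single 0 a, ?_, ?_⟩
    · rw [Finset.sum_pi_single']
      simp
    · have h1 : ∑ i, L.ℓ (φ.ac (v i) ((Pi.single 0 a : Fin (d + 1) → Fin d → ℤ) i)) = L.ℓ a := by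
        rw [Finset.sum_eq_single 0]
        · simp [hv0, φ.ac_zero]
        · intro i _ hi
          rw [Pi.single_eq_of_ne hi, map_zero, L.ℓ_zero]
        · simp
      rw [h1]
      have h2 : ∀ l, |(a l : ℝ)| ≤ (d + 1) * TT φ := by
        intro l
        have h3 : (a l : ℝ) = ∑ i, x i * (Pi.single (j i) (1 : ℝ) : Fin d → ℝ) l := by
          have := congrFun hsum l
          simp only [hv0, neg_zero, φ.E_zero, LinearMap.id_apply, Finset.sum_apply,
            Pi.smul_apply, smul_eq_mul, ι_apply] at this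
          rw [this]
        rw [h3]
        calc |∑ i, x i * (Pi.single (j i) (1 : ℝ) : Fin d → ℝ) l|
            ≤ ∑ i, |x i * (Pi.single (j i) (1 : ℝ) : Fin d → ℝ) l| :=
              Finset.abs_sum_le_sum_abs _ _
          _ ≤ ∑ _i : Fin (d + 1), TT φ := by
              refine Finset.sum_le_sum fun i _ => ?_
              rw [abs_mul]
              have h4 : |(Pi.single (j i) (1 : ℝ) : Fin d → ℝ) l| ≤ 1 := by
                by_cases h : l = j i
                · subst h; simp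
                · simp [h]
              have h5 := hx i
              have h6 := abs_nonneg (x i)
              nlinarith [abs_nonneg ((Pi.single (j i) (1 : ℝ) : Fin d → ℝ) l)]
          _ = (d + 1) * TT φ := by simp
      have h7 : L.ℓ a ≤ ((d + 1) * TT φ) * L1 L := by
        refine (L.ℓ_le a).trans ?_
        rw [L1, Finset.mul_sum]
        exact Finset.sum_le_sum fun l _ =>
          mul_le_mul_of_nonneg_right (h2 l) (L.ℓ_nonneg _)
      unfold C1
      have h8 : 0 ≤ ((d : ℝ) + 1) * L1 L := by positivity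
      have h9 : 0 ≤ ((d : ℝ) + 1) * (L.c * k) := by positivity
      push_cast
      nlinarith
  | succ m ih =>
    intro v j x a hv hx hsum
    have hv' : ∀ i t, |v i t| ≤ (m : ℤ) + 1 := by
      intro i t
      have := hv i t
      push_cast at this
      exact this
    -- new positions and coefficients
    let w : Fin (d + 1) → Fin k → ℤ := fun i => v i - sg (v i)
    let u : Fin (d + 1) × Fin d → Fin d → ℝ := fun p => φ.E (-(w p.1)) (Pi.single p.2 1)
    let M : Fin (d + 1) → Fin d → ℤ := fun i => φ.ac (-(sg (v i))) (Pi.single (j i) 1)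
    let y : Fin (d + 1) × Fin d → ℝ := fun p => Int.fract (x p.1) * (M p.1 p.2 : ℝ)
    let a' : Fin d → ℤ := a - ∑ i, ⌊x i⌋ • φ.ac (-(v i)) (Pi.single (j i) 1)
    have hexp : ∀ i, φ.E (-(v i)) (Pi.single (j i) 1) =
        ∑ l, (M i l : ℝ) • φ.E (-(w i)) (Pi.single l 1) := by
      intro i
      have h1 : -(v i) = -(w i) + -(sg (v i)) := by
        simp only [w]; abel
      rw [h1, φ.E_add, LinearMap.comp_apply]
      have h2 : φ.E (-(sg (v i))) (Pi.single (j i) 1) =
          ∑ l, (M i l : ℝ) • (Pi.single l 1 : Fin d → ℝ) := by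
        rw [← ι_single, φ.E_ι]
        ext t
        simp only [Finset.sum_apply, Pi.smul_apply, smul_eq_mul, ι_apply, Pi.single_apply]
        simp [M]
      rw [h2, map_sum]
      exact Finset.sum_congr rfl fun l _ => by rw [map_smul]
    have hsum' : ∑ p, y p • u p = ι a' := by
      have h1 : ∑ p, y p • u p = ∑ i, Int.fract (x i) • φ.E (-(v i)) (Pi.single (j i) 1) := by
        rw [Fintype.sum_prod_type]
        refine Finset.sum_congr rfl fun i _ => ?_
        rw [hexp i, Finset.smul_sum]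
        refine Finset.sum_congr rfl fun l _ => ?_
        simp only [y, u, smul_smul]
      rw [h1]
      simp only [a', ι_sub, ι_sum, ι_smul]
      rw [← hsum, ← Finset.sum_sub_distrib]
      refine Finset.sum_congr rfl fun i _ => ?_
      rw [← φ.E_ι, ι_single, ← sub_smul]
      rfl
    have hmass : ∑ p, |y p| ≤ (d + 1) * C0 φ := by
      rw [Fintype.sum_prod_type]
      calc ∑ i, ∑ l, |y (i, l)| ≤ ∑ _i : Fin (d + 1), C0 φ := by
            refine Finset.sum_le_sum fun i _ => ?_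
            refine le_trans (Finset.sum_le_sum fun l _ => ?_) (le_C0 (v i) (j i))
            simp only [y, abs_mul]
            have h1 : |Int.fract (x i)| ≤ 1 := by
              rw [abs_of_nonneg (Int.fract_nonneg _)]
              exact (Int.fract_lt_one _).le
            calc |Int.fract (x i)| * |(M i l : ℝ)| ≤ 1 * |(M i l : ℝ)| :=
                  mul_le_mul_of_nonneg_right h1 (abs_nonneg _)
              _ = _ := by rw [one_mul]
        _ = (d + 1) * C0 φ := by simp
    have : Nonempty (Fin (d + 1) × Fin d) := ⟨(0, j 0)⟩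
    obtain ⟨α, z, hzmass, hzsum⟩ := car u y
    have hz : ∀ i, |z i| ≤ TT φ := by
      intro i
      have h1 : |z i| ≤ ∑ i, |z i| :=
        Finset.single_le_sum (f := fun i => |z i|) (fun _ _ => abs_nonneg _) (Finset.mem_univ i)
      unfold TT
      linarith
    obtain ⟨b, hb1, hb2⟩ := ih (fun i => w (α i).1) (fun i => (α i).2) z a'
      (fun i t => sub_sg_le (hv' _) t) hz (by rw [← hsum', ← hzsum])
    classical
    refine ⟨fun i => ⌊x i⌋ • φ.ac (-(v i)) (Pi.single (j i) 1) +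
      ∑ i' ∈ Finset.univ.filter (fun i' => (α i').1 = i), b i', ?_, ?_⟩
    · rw [Finset.sum_add_distrib, Finset.sum_fiberwise, hb1]
      simp only [a']
      abel
    · have h1 : ∀ i, L.ℓ (φ.ac (v i) (⌊x i⌋ • φ.ac (-(v i)) (Pi.single (j i) 1) +
          ∑ i' ∈ Finset.univ.filter (fun i' => (α i').1 = i), b i')) ≤
          (TT φ + 1) * L1 L + ∑ i' ∈ Finset.univ.filter (fun i' => (α i').1 = i),
            (L.ℓ (φ.ac (w (α i').1) (b i')) + L.c * k) := by
        intro i
        rw [map_add, map_zsmul, φ.ac_neg_cancel, map_sum]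
        refine (L.ℓ_add _ _).trans (add_le_add ?_ ?_)
        · refine (L.ℓ_zsmul _ _).trans ?_
          have h2 : |((⌊x i⌋ : ℤ) : ℝ)| ≤ TT φ + 1 := by
            have h3 := hx i
            rw [abs_le] at h3 ⊢
            have h4 := Int.floor_le (x i)
            have h5 := Int.lt_floor_add_one (x i)
            constructor <;> linarith
          exact mul_le_mul h2 (le_L1 L _) (L.ℓ_nonneg _) (by linarith)
        · refine (L.ℓ_sum _ _).trans (Finset.sum_le_sum fun i' hi' => ?_)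
          have hi : (α i').1 = i := (Finset.mem_filter.1 hi').2
          have h2 : φ.ac (v i) (b i') = φ.ac (sg (v i)) (φ.ac (w (α i').1) (b i')) := by
            rw [← φ.ac_add, hi]
            congr 2
            simp only [w]; abel
          rw [h2]
          refine (L.ℓ_ac _ _).trans ?_
          have h3 := sum_abs_sg_le (v i)
          have h4 := mul_le_mul_of_nonneg_left h3 hc
          linarith
      calc ∑ i, L.ℓ (φ.ac (v i) (⌊x i⌋ • φ.ac (-(v i)) (Pi.single (j i) 1) +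
          ∑ i' ∈ Finset.univ.filter (fun i' => (α i').1 = i), b i'))
          ≤ ∑ i, ((TT φ + 1) * L1 L + ∑ i' ∈ Finset.univ.filter (fun i' => (α i').1 = i),
            (L.ℓ (φ.ac (w (α i').1) (b i')) + L.c * k)) := Finset.sum_le_sum fun i _ => h1 i
        _ = (d + 1) * ((TT φ + 1) * L1 L) + (∑ i', L.ℓ (φ.ac (w (α i').1) (b i')) +
            (d + 1) * (L.c * k)) := by
            rw [Finset.sum_add_distrib, Finset.sum_fiberwise, Finset.sum_add_distrib]
            simp
        _ ≤ C1 L * ((m + 1 : ℕ) + 1) := by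
            push_cast
            have h5 : C1 L * ((m : ℝ) + 1 + 1) = C1 L * (m + 1) + C1 L := by ring
            rw [h5]
            have h6 : C1 L = (d + 1) * ((TT φ + 1) * L1 L) + (d + 1) * (L.c * k) := rfl
            linarith

/-- The box `[-m, m]^k`. -/
noncomputable def bx (k m : ℕ) : Finset (Fin k → ℤ) :=
  Fintype.piFinset fun _ => Finset.Icc (-(m : ℤ)) m

theorem mem_bx {m : ℕ} {v : Fin k → ℤ} : v ∈ bx k m ↔ ∀ t, |v t| ≤ (m : ℤ) := by
  rw [bx, Fintype.mem_piFinset]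
  simp only [Finset.mem_Icc, abs_le]

theorem zero_mem_bx (m : ℕ) : (0 : Fin k → ℤ) ∈ bx k m := by
  rw [mem_bx]; intro t; simp

/-- The convex body spanned by `± T^{-v} e_j`, `|v| ≤ m`, scaled by `R`. -/
def P (φ : Act k d) (m : ℕ) (R : ℝ) : Set (Fin d → ℝ) :=
  {x | ∃ y : (bx k m) × Fin d → ℝ, ∑ p, |y p| ≤ R ∧
    ∑ p, y p • φ.E (-(p.1 : Fin k → ℤ)) (Pi.single p.2 1) = x}

theorem sum_abs_le_of_mem_bx {m : ℕ} {v : Fin k → ℤ} (hv : v ∈ bx k m) :
    ∑ t, |(v t : ℝ)| ≤ k * m := by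
  rw [mem_bx] at hv
  calc ∑ t, |(v t : ℝ)| ≤ ∑ _t : Fin k, (m : ℝ) :=
        Finset.sum_le_sum fun t _ => by exact_mod_cast hv t
    _ = k * m := by simp

/-- The constant of `len_le`. -/
noncomputable def C2 (L : Len φ) : ℝ := 2 * (d + 1) * (L.c * k) + C1 L + (d + 2) * L1 L

theorem C2_nonneg : 0 ≤ C2 L := by
  have h1 := L1_nonneg L
  have h2 := C1_nonneg L
  have h3 := L.c_nonneg
  unfold C2
  positivity

/-- **Length of the lattice points of `P m R`.** -/
theorem len_le {m : ℕ} {R : ℝ} {a : Fin d → ℤ} (ha : ι a ∈ P φ m R) :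
    L.ℓ a ≤ C2 L * (m + 1 + R) := by
  have hL1 := L1_nonneg L
  have hc := L.c_nonneg
  have hC1 := C1_nonneg L
  have hC2 := C2_nonneg L
  obtain ⟨y, hy, hya⟩ := ha
  have hR : 0 ≤ R := le_trans (Finset.sum_nonneg fun _ _ => abs_nonneg _) hy
  rcases Nat.eq_zero_or_pos d with hd | hd
  · subst hd
    have : a = 0 := Subsingleton.elim _ _
    rw [this, L.ℓ_zero]
    positivity
  have : Nonempty ((bx k m) × Fin d) := ⟨(⟨0, zero_mem_bx m⟩, ⟨0, hd⟩)⟩
  obtain ⟨α, z, hzm, hz⟩ := car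
    (fun p : (bx k m) × Fin d => φ.E (-(p.1 : Fin k → ℤ)) (Pi.single p.2 1)) y
  rw [hya] at hz
  let a' : Fin d → ℤ := a - ∑ i, ⌊z i⌋ •
    φ.ac (-((α i).1 : Fin k → ℤ)) (Pi.single (α i).2 1)
  have hsum : ∑ i, Int.fract (z i) • φ.E (-((α i).1 : Fin k → ℤ)) (Pi.single (α i).2 1) =
      ι a' := by
    simp only [a', ι_sub, ι_sum, ι_smul]
    rw [← hz, ← Finset.sum_sub_distrib]
    refine Finset.sum_congr rfl fun i _ => ?_
    rw [← φ.E_ι, ι_single, ← sub_smul]
    rfl
  obtain ⟨b, hb1, hb2⟩ := strands L m (fun i => (α i).1) (fun i => (α i).2)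
    (fun i => Int.fract (z i)) a' (fun i t => mem_bx.1 (α i).1.2 t)
    (fun i => by
      rw [abs_of_nonneg (Int.fract_nonneg _)]
      exact (Int.fract_lt_one _).le.trans one_le_TT) hsum
  have hmove : ∀ (i : Fin (d + 1)) (x : Fin d → ℤ),
      L.ℓ (φ.ac (-((α i).1 : Fin k → ℤ)) x) ≤ L.ℓ x + L.c * (k * m) := by
    intro i x
    refine (L.ℓ_ac _ _).trans ?_
    have h1 : ∑ j, |((-((α i).1 : Fin k → ℤ)) j : ℝ)| ≤ k * m := by
      refine le_trans (le_of_eq ?_) (sum_abs_le_of_mem_bx (α i).1.2)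
      refine Finset.sum_congr rfl fun t _ => ?_
      simp
    have h2 := mul_le_mul_of_nonneg_left h1 hc
    linarith
  have ha : a = ∑ i, b i + ∑ i, ⌊z i⌋ •
      φ.ac (-((α i).1 : Fin k → ℤ)) (Pi.single (α i).2 1) := by
    rw [hb1]; simp only [a']; abel
  have h1 : L.ℓ (∑ i, b i) ≤ C1 L * (m + 1) + (d + 1) * (L.c * (k * m)) := by
    refine (L.ℓ_sum _ _).trans ?_
    calc ∑ i, L.ℓ (b i) ≤ ∑ i, (L.ℓ (φ.ac ((α i).1 : Fin k → ℤ) (b i)) + L.c * (k * m)) := by
          refine Finset.sum_le_sum fun i _ => ?_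
          have := hmove i (φ.ac ((α i).1 : Fin k → ℤ) (b i))
          rwa [φ.ac_cancel_neg] at this
      _ = ∑ i, L.ℓ (φ.ac ((α i).1 : Fin k → ℤ) (b i)) + (d + 1) * (L.c * (k * m)) := by
          rw [Finset.sum_add_distrib]; simp
      _ ≤ _ := by linarith
  have h2 : L.ℓ (∑ i, ⌊z i⌋ • φ.ac (-((α i).1 : Fin k → ℤ)) (Pi.single (α i).2 1)) ≤
      (R + (d + 1)) * L1 L + (d + 1) * (L.c * (k * m)) := by
    refine (L.ℓ_sum _ _).trans ?_
    calc ∑ i, L.ℓ (⌊z i⌋ • φ.ac (-((α i).1 : Fin k → ℤ)) (Pi.single (α i).2 1))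
        ≤ ∑ i, ((|z i| + 1) * L1 L + L.c * (k * m)) := by
          refine Finset.sum_le_sum fun i _ => ?_
          rw [← map_zsmul]
          refine (hmove i _).trans ?_
          have h3 : L.ℓ (⌊z i⌋ • (Pi.single (α i).2 1 : Fin d → ℤ)) ≤ (|z i| + 1) * L1 L := by
            refine (L.ℓ_zsmul _ _).trans ?_
            have h4 : |((⌊z i⌋ : ℤ) : ℝ)| ≤ |z i| + 1 := by
              have h5 := Int.floor_le (z i)
              have h6 := Int.lt_floor_add_one (z i)
              rw [abs_le]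
              constructor
              · have := neg_abs_le (z i); linarith
              · have := le_abs_self (z i); linarith
            exact mul_le_mul h4 (le_L1 L _) (L.ℓ_nonneg _) (by positivity)
          linarith
      _ = (∑ i, |z i| + (d + 1)) * L1 L + (d + 1) * (L.c * (k * m)) := by
          rw [Finset.sum_add_distrib, ← Finset.sum_mul, Finset.sum_add_distrib]
          simp
      _ ≤ (R + (d + 1)) * L1 L + (d + 1) * (L.c * (k * m)) := by
          have h7 : ∑ i, |z i| ≤ R := hzm.trans hy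
          have h8 := mul_le_mul_of_nonneg_right h7 hL1
          nlinarith
  have h3 : L.ℓ a ≤ (C1 L * (m + 1) + (d + 1) * (L.c * (k * m))) +
      ((R + (d + 1)) * L1 L + (d + 1) * (L.c * (k * m))) := by
    have h0 := (L.ℓ_add _ _).trans (add_le_add h1 h2)
    rw [← ha] at h0
    exact h0
  refine h3.trans ?_
  have h4 : C2 L * (m + 1 + R) = 2 * (d + 1) * (L.c * k) * (m + 1 + R) + C1 L * (m + 1 + R) +
      (d + 2) * L1 L * (m + 1 + R) := by
    unfold C2; ring
  rw [h4]
  have h5 : 2 * (d + 1) * (L.c * k) * (m : ℝ) ≤ 2 * (d + 1) * (L.c * k) * (m + 1 + R) := by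
    apply mul_le_mul_of_nonneg_left
    · linarith
    · positivity
  have h6 : C1 L * (m + 1) ≤ C1 L * (m + 1 + R) := mul_le_mul_of_nonneg_left (by linarith) hC1
  have h7 : (R + (d + 1)) * L1 L ≤ (d + 2) * L1 L * (m + 1 + R) := by
    have h8 : (R + (d + 1)) ≤ (d + 2) * (m + 1 + R) := by
      have hm : (0 : ℝ) ≤ m := by positivity
      have hd' : (0 : ℝ) ≤ d := by positivity
      nlinarith [mul_nonneg hd' hR, mul_nonneg hd' hm]
    have := mul_le_mul_of_nonneg_right h8 hL1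
    linarith
  nlinarith

/-! ### The bodies `P m R` -/

theorem P_mono {m : ℕ} {R R' : ℝ} (h : R ≤ R') : P φ m R ⊆ P φ m R' :=
  fun _ ⟨y, hy, hx⟩ => ⟨y, hy.trans h, hx⟩

theorem P_add {m : ℕ} {R R' : ℝ} {x x' : Fin d → ℝ} (hx : x ∈ P φ m R) (hx' : x' ∈ P φ m R') :
    x + x' ∈ P φ m (R + R') := by
  obtain ⟨y, hy, rfl⟩ := hx
  obtain ⟨y', hy', rfl⟩ := hx'
  refine ⟨fun p => y p + y' p, ?_, ?_⟩
  · calc ∑ p, |y p + y' p| ≤ ∑ p, (|y p| + |y' p|) :=
          Finset.sum_le_sum fun p _ => abs_add_le _ _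
      _ ≤ R + R' := by rw [Finset.sum_add_distrib]; linarith
  · rw [← Finset.sum_add_distrib]
    exact Finset.sum_congr rfl fun p _ => add_smul _ _ _

theorem P_neg {m : ℕ} {R : ℝ} {x : Fin d → ℝ} (hx : x ∈ P φ m R) : -x ∈ P φ m R := by
  obtain ⟨y, hy, rfl⟩ := hx
  refine ⟨fun p => - y p, ?_, ?_⟩
  · simpa using hy
  · rw [← Finset.sum_neg_distrib]
    exact Finset.sum_congr rfl fun p _ => neg_smul _ _

theorem P_sub {m : ℕ} {R R' : ℝ} {x x' : Fin d → ℝ} (hx : x ∈ P φ m R) (hx' : x' ∈ P φ m R') :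
    x - x' ∈ P φ m (R + R') := by
  rw [sub_eq_add_neg]
  exact P_add hx (P_neg hx')

theorem E_mem_P {m : ℕ} {v : Fin k → ℤ} (hv : ∀ t, |v t| ≤ (m : ℤ)) (x : Fin d → ℝ) :
    φ.E (-v) x ∈ P φ m (∑ j, |x j|) := by
  classical
  have hv' : v ∈ bx k m := mem_bx.2 hv
  refine ⟨fun p => if p.1 = ⟨v, hv'⟩ then x p.2 else 0, ?_, ?_⟩
  · rw [Fintype.sum_prod_type]
    rw [Finset.sum_eq_single ⟨v, hv'⟩]
    · simp
    · intro w _ hw
      simp [hw]
    · simp
  · rw [Fintype.sum_prod_type]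
    rw [Finset.sum_eq_single ⟨v, hv'⟩]
    · simp only [if_true]
      have hx : x = ∑ j, x j • (Pi.single j 1 : Fin d → ℝ) := by
        ext i
        simp [Finset.sum_apply, Pi.single_apply]
      conv_rhs => rw [hx, map_sum]
      exact Finset.sum_congr rfl fun j _ => by rw [map_smul]
    · intro w _ hw
      simp [hw]
    · simp

theorem mem_P (m : ℕ) (x : Fin d → ℝ) : x ∈ P φ m (∑ j, |x j|) := by
  have := E_mem_P (φ := φ) (m := m) (v := 0) (by simp) x
  rwa [neg_zero, φ.E_zero, LinearMap.id_apply] at this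

theorem P_smul (m : ℕ) {t : ℝ} (ht : 0 < t) : P φ m t = t • P φ m 1 := by
  ext x
  rw [Set.mem_smul_set]
  constructor
  · rintro ⟨y, hy, rfl⟩
    refine ⟨t⁻¹ • ∑ p, y p • φ.E (-(p.1 : Fin k → ℤ)) (Pi.single p.2 1),
      ⟨fun p => t⁻¹ * y p, ?_, ?_⟩, ?_⟩
    · have : ∀ p, |t⁻¹ * y p| = t⁻¹ * |y p| := fun p => by
        rw [abs_mul, abs_of_pos (inv_pos.2 ht)]
      rw [Finset.sum_congr rfl fun p _ => this p, ← Finset.mul_sum]
      rw [inv_mul_le_iff₀ ht]
      simpa using hy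
    · rw [Finset.smul_sum]
      exact Finset.sum_congr rfl fun p _ => by rw [smul_smul]
    · rw [smul_smul, mul_inv_cancel₀ ht.ne', one_smul]
  · rintro ⟨x, ⟨y, hy, rfl⟩, rfl⟩
    refine ⟨fun p => t * y p, ?_, ?_⟩
    · have : ∀ p, |t * y p| = t * |y p| := fun p => by
        rw [abs_mul, abs_of_pos ht]
      rw [Finset.sum_congr rfl fun p _ => this p, ← Finset.mul_sum]
      nlinarith
    · rw [Finset.smul_sum]
      exact Finset.sum_congr rfl fun p _ => by rw [smul_smul]

/-- `P m R` is bounded. -/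
theorem P_bdd (m : ℕ) : ∃ B : ℝ, 0 ≤ B ∧ ∀ R x, x ∈ P φ m R → ∀ i, |x i| ≤ R * B := by
  refine ⟨∑ p : (bx k m) × Fin d, ∑ i, |φ.E (-(p.1 : Fin k → ℤ)) (Pi.single p.2 1) i|,
    Finset.sum_nonneg fun _ _ => Finset.sum_nonneg fun _ _ => abs_nonneg _, ?_⟩
  rintro R x ⟨y, hy, rfl⟩ i
  simp only [Finset.sum_apply, Pi.smul_apply, smul_eq_mul]
  have hB : ∀ p : (bx k m) × Fin d, |φ.E (-(p.1 : Fin k → ℤ)) (Pi.single p.2 1) i| ≤
      ∑ p : (bx k m) × Fin d, ∑ i, |φ.E (-(p.1 : Fin k → ℤ)) (Pi.single p.2 1) i| := by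
    intro p
    refine le_trans ?_ (Finset.single_le_sum
      (f := fun p : (bx k m) × Fin d => ∑ i, |φ.E (-(p.1 : Fin k → ℤ)) (Pi.single p.2 1) i|)
      (fun _ _ => Finset.sum_nonneg fun _ _ => abs_nonneg _) (Finset.mem_univ p))
    exact Finset.single_le_sum
      (f := fun i => |φ.E (-(p.1 : Fin k → ℤ)) (Pi.single p.2 1) i|)
      (fun _ _ => abs_nonneg _) (Finset.mem_univ i)
  calc |∑ p, y p * φ.E (-(p.1 : Fin k → ℤ)) (Pi.single p.2 1) i|
      ≤ ∑ p, |y p * φ.E (-(p.1 : Fin k → ℤ)) (Pi.single p.2 1) i| :=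
        Finset.abs_sum_le_sum_abs _ _
    _ ≤ ∑ p, |y p| * ∑ p : (bx k m) × Fin d,
          ∑ i, |φ.E (-(p.1 : Fin k → ℤ)) (Pi.single p.2 1) i| := by
        refine Finset.sum_le_sum fun p _ => ?_
        rw [abs_mul]
        exact mul_le_mul_of_nonneg_left (hB p) (abs_nonneg _)
    _ ≤ _ := by
        rw [← Finset.sum_mul]
        exact mul_le_mul_of_nonneg_right hy
          (Finset.sum_nonneg fun _ _ => Finset.sum_nonneg fun _ _ => abs_nonneg _)

/-- The lattice points of `P m R`. -/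
def lat (φ : Act k d) (m : ℕ) (R : ℝ) : Set (Fin d → ℤ) := {a | ι a ∈ P φ m R}

theorem lat_finite (m : ℕ) (R : ℝ) : (lat φ m R).Finite := by
  obtain ⟨B, hB, h⟩ := P_bdd (φ := φ) m
  refine (Fintype.piFinset fun _ : Fin d => Finset.Icc (-⌈R * B⌉) ⌈R * B⌉).finite_toSet.subset ?_
  intro a ha
  rw [Finset.mem_coe, Fintype.mem_piFinset]
  intro i
  have h1 := h R (ι a) ha i
  rw [ι_apply, abs_le] at h1
  rw [Finset.mem_Icc]
  have h2 := Int.le_ceil (R * B)
  constructor
  · have : ((-⌈R * B⌉ : ℤ) : ℝ) ≤ a i := by push_cast; linarith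
    exact_mod_cast this
  · have : (a i : ℝ) ≤ (⌈R * B⌉ : ℤ) := by linarith
    exact_mod_cast this

/-- The lattice points of `P m R`, as a finset. -/
noncomputable def latF (φ : Act k d) (m : ℕ) (R : ℝ) : Finset (Fin d → ℤ) :=
  (lat_finite (φ := φ) m R).toFinset

theorem mem_latF {m : ℕ} {R : ℝ} {a : Fin d → ℤ} : a ∈ latF φ m R ↔ ι a ∈ P φ m R := by
  rw [latF, Set.Finite.mem_toFinset]; rfl

open MeasureTheory

/-- The unit cube. -/
def Q (d : ℕ) : Set (Fin d → ℝ) := Set.univ.pi fun _ => Set.Ico 0 1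

theorem vol_Q : volume (Q d) = 1 := by
  rw [Q, volume_pi_pi]
  simp

theorem Q_subset (m : ℕ) {x : Fin d → ℝ} (hx : x ∈ Q d) : x ∈ P φ m d := by
  refine P_mono ?_ (mem_P (φ := φ) m x)
  calc ∑ j, |x j| ≤ ∑ _j : Fin d, (1 : ℝ) := by
        refine Finset.sum_le_sum fun j _ => ?_
        have := hx j (Set.mem_univ j)
        rw [abs_of_nonneg this.1]
        exact this.2.le
    _ = d := by simp

/-- The unit cube at `a`. -/
def Qa (a : Fin d → ℤ) : Set (Fin d → ℝ) := {x | x - ι a ∈ Q d}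

theorem mem_Qa {a : Fin d → ℤ} {x : Fin d → ℝ} :
    x ∈ Qa a ↔ ∀ i, ⌊x i⌋ = a i := by
  simp only [Qa, Q, Set.mem_ofPred_eq, Set.mem_pi, Set.mem_univ, true_imp_iff, Set.mem_Ico,
    Pi.sub_apply, ι_apply, Int.floor_eq_iff]
  refine forall_congr' fun i => ?_
  constructor
  · rintro ⟨h1, h2⟩; constructor <;> linarith
  · rintro ⟨h1, h2⟩; constructor <;> linarith

theorem vol_Qa (a : Fin d → ℤ) : volume (Qa a) = 1 := by
  have : Qa a = (fun x => x - ι a) ⁻¹' Q d := rfl
  simp only [sub_eq_add_neg] at this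
  rw [this, measure_preimage_add_right, vol_Q]

theorem meas_Qa (a : Fin d → ℤ) : MeasurableSet (Qa a) := by
  have : Qa a = (fun x => x - ι a) ⁻¹' Q d := rfl
  rw [this]
  exact (measurable_id.sub_const _) (MeasurableSet.univ_pi fun _ => measurableSet_Ico)

theorem card_le_vol (m : ℕ) (R : ℝ) :
    ((latF φ m R).card : ENNReal) ≤ volume (P φ m (R + d)) := by
  have h1 : volume (⋃ a ∈ latF φ m R, Qa a) = (latF φ m R).card := by
    rw [measure_biUnion_finset]
    · simp [vol_Qa]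
    · intro a _ b _ hab
      rw [Function.onFun, Set.disjoint_left]
      intro x hxa hxb
      apply hab
      ext i
      rw [← mem_Qa.1 hxa i, ← mem_Qa.1 hxb i]
    · intro a _
      exact meas_Qa a
  rw [← h1]
  apply measure_mono
  intro x hx
  simp only [Set.mem_iUnion] at hx
  obtain ⟨a, ha, hxa⟩ := hx
  have h2 : x = ι a + (x - ι a) := by abel
  rw [h2]
  exact P_add (mem_latF.1 ha) (Q_subset m hxa)

theorem vol_le_card (m : ℕ) (R : ℝ) :
    volume (P φ m (R - d)) ≤ (latF φ m R).card := by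
  calc volume (P φ m (R - d)) ≤ volume (⋃ a ∈ latF φ m R, Qa a) := by
        apply measure_mono
        intro x hx
        have h1 : x ∈ Qa (fun i => ⌊x i⌋) := mem_Qa.2 fun i => rfl
        simp only [Set.mem_iUnion]
        refine ⟨fun i => ⌊x i⌋, ?_, h1⟩
        rw [mem_latF]
        have h2 : ι (fun i => ⌊x i⌋) = x - (x - ι (fun i => ⌊x i⌋)) := by abel
        rw [h2]
        have := P_sub hx (Q_subset (φ := φ) m h1)
        rwa [sub_add_cancel] at this
    _ ≤ ∑ a ∈ latF φ m R, volume (Qa a) := measure_biUnion_finset_le _ _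
    _ = (latF φ m R).card := by simp [vol_Qa]

theorem vol_P (m : ℕ) {t : ℝ} (ht : 0 < t) :
    volume (P φ m t) = ENNReal.ofReal (t ^ d) * volume (P φ m 1) := by
  rw [P_smul m ht, Measure.addHaar_smul]
  congr 2
  rw [Module.finrank_fin_fun, abs_of_pos (pow_pos ht _)]

theorem vol_P_lt_top (m : ℕ) (t : ℝ) : volume (P φ m t) < ⊤ := by
  obtain ⟨B, hB, h⟩ := P_bdd (φ := φ) m
  have : P φ m t ⊆ Set.univ.pi fun _ => Set.Icc (-(t * B)) (t * B) := by
    intro x hx i _
    have := h t x hx i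
    rwa [abs_le] at this
  refine lt_of_le_of_lt (measure_mono this) ?_
  rw [volume_pi_pi]
  apply ENNReal.prod_lt_top
  intro i _
  simp

theorem vol_P_pos (m : ℕ) : 0 < volume (P φ m 1) := by
  have h0 : (0 : ℝ) < (1 + d) := by positivity
  have h1 : volume (P φ m (1 + d)) = _ := vol_P (φ := φ) m h0
  have h2 := card_le_vol (φ := φ) m 1
  rw [h1] at h2
  have h3 : 1 ≤ (latF φ m 1).card := by
    rw [Nat.one_le_iff_ne_zero, Finset.card_ne_zero]
    refine ⟨0, mem_latF.2 ?_⟩
    refine P_mono zero_le_one ?_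
    have := mem_P (φ := φ) m (0 : Fin d → ℝ)
    simpa using this
  by_contra h
  rw [not_lt, nonpos_iff_eq_zero] at h
  rw [h, mul_zero] at h2
  simp only [nonpos_iff_eq_zero, Nat.cast_eq_zero] at h2
  omega

/-- The Følner defect. -/
noncomputable def fd (d : ℕ) (s R : ℝ) : ℝ := ((R + s + d) / (R - d)) ^ d - 1

theorem card_growth (m : ℕ) {s R : ℝ} (hs : 0 ≤ s) (hR : (d : ℝ) < R) :
    ((latF φ m (R + s)).card : ℝ) - (latF φ m R).card ≤ fd d s R * (latF φ m R).card := by
  have hd : (0 : ℝ) ≤ d := by positivity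
  have h1 : (0 : ℝ) < R - d := by linarith
  have h2 : (0 : ℝ) < R + s + d := by linarith
  have hV0 := vol_P_pos (φ := φ) m
  have hV1 := vol_P_lt_top (φ := φ) m 1
  set V : ℝ := (volume (P φ m 1)).toReal with hV
  have hVpos : 0 < V := ENNReal.toReal_pos hV0.ne' hV1.ne
  have hup : ((latF φ m (R + s)).card : ℝ) ≤ (R + s + d) ^ d * V := by
    have h3 := card_le_vol (φ := φ) m (R + s)
    rw [vol_P m h2] at h3
    have h4 := ENNReal.toReal_mono (ENNReal.mul_lt_top ENNReal.ofReal_lt_top hV1).ne h3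
    rw [ENNReal.toReal_mul, ENNReal.toReal_ofReal (by positivity)] at h4
    simpa using h4
  have hlow : (R - d) ^ d * V ≤ (latF φ m R).card := by
    have h3 := vol_le_card (φ := φ) m R
    rw [vol_P m h1] at h3
    have h4 := ENNReal.toReal_mono (by simp) h3
    rw [ENNReal.toReal_mul, ENNReal.toReal_ofReal (by positivity)] at h4
    simpa using h4
  have h5 : (R + s + d) ^ d * V = ((R + s + d) / (R - d)) ^ d * ((R - d) ^ d * V) := by
    rw [div_pow, ← mul_assoc, div_mul_cancel₀]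
    positivity
  have h6 : ((R + s + d) / (R - d)) ^ d * ((R - d) ^ d * V) ≤
      ((R + s + d) / (R - d)) ^ d * (latF φ m R).card :=
    mul_le_mul_of_nonneg_left hlow (by positivity)
  unfold fd
  rw [sub_mul, one_mul]
  linarith

theorem fd_tendsto (d : ℕ) (s : ℝ) :
    Filter.Tendsto (fun n : ℕ => fd d s (n + 1)) Filter.atTop (nhds 0) := by
  have h1 : Filter.Tendsto (fun n : ℕ => ((n : ℝ) + 1 + s + d) / ((n : ℝ) + 1 - d))
      Filter.atTop (nhds 1) := by
    have h2 : Filter.Tendsto (fun n : ℕ => (1 : ℝ) + (s + 2 * d) / ((n : ℝ) + (1 - d)))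
        Filter.atTop (nhds (1 + 0)) := by
      refine Filter.Tendsto.const_add _ ?_
      refine Filter.Tendsto.div_atTop tendsto_const_nhds ?_
      exact Filter.tendsto_atTop_add_const_right _ _ tendsto_natCast_atTop_atTop
    rw [add_zero] at h2
    refine h2.congr' ?_
    filter_upwards [Filter.eventually_ge_atTop d] with n hn
    have hn' : (d : ℝ) ≤ n := by exact_mod_cast hn
    have h3 : (n : ℝ) + 1 - d ≠ 0 := by
      have : (0 : ℝ) < n + 1 - d := by linarith
      exact this.ne'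
    have h4 : (n : ℝ) + (1 - d) = n + 1 - d := by ring
    rw [h4]
    field_simp
    ring
  have h5 := (h1.pow d).sub_const 1
  simpa [fd] using h5

theorem latF_nonempty {m : ℕ} {R : ℝ} (hR : 0 ≤ R) : (latF φ m R).Nonempty := by
  refine ⟨0, mem_latF.2 ?_⟩
  refine P_mono hR ?_
  have := mem_P (φ := φ) m (0 : Fin d → ℝ)
  simpa using this

/-- translation defect of the lattice points of `P m R`. -/
theorem shift_le {m : ℕ} {s R : ℝ} (hs : 0 ≤ s) (hR : (d : ℝ) < R) {u : Fin d → ℤ}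
    (hu : ι u ∈ P φ m s) (G : Finset (Fin d → ℤ)) :
    ∑ y ∈ G, |(if y - u ∈ latF φ m R then (1 : ℝ) else 0) -
      (if y ∈ latF φ m R then (1 : ℝ) else 0)| ≤ 2 * (fd d s R * (latF φ m R).card) := by
  classical
  set F := latF φ m R with hF
  set F' := latF φ m (R + s) with hF'
  have hs1 : F ⊆ F' := by
    intro y hy
    rw [hF, mem_latF] at hy
    rw [hF', mem_latF]
    exact P_mono (by linarith) hy
  have hs2 : F.image (fun y => y + u) ⊆ F' := by
    intro y hy
    rw [Finset.mem_image] at hy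
    obtain ⟨z, hz, rfl⟩ := hy
    rw [hF, mem_latF] at hz
    rw [hF', mem_latF, ι_add]
    exact P_add hz hu
  have hc2 : (F.image (fun y => y + u)).card = F.card :=
    Finset.card_image_of_injective _ (add_left_injective u)
  have h1 : ∀ y, |(if y - u ∈ F then (1 : ℝ) else 0) - (if y ∈ F then (1 : ℝ) else 0)| ≤
      (if y ∈ F' \ F then (1 : ℝ) else 0) +
        (if y ∈ F' \ F.image (fun y => y + u) then (1 : ℝ) else 0) := by
    intro y
    have hiff : y - u ∈ F ↔ y ∈ F.image (fun y => y + u) := by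
      rw [Finset.mem_image]
      constructor
      · intro h; exact ⟨y - u, h, by simp⟩
      · rintro ⟨z, hz, rfl⟩; simpa using hz
    have hs2' := @hs2 y
    by_cases ha : y - u ∈ F <;> by_cases hb : y ∈ F
    · rw [if_pos ha, if_pos hb, sub_self, abs_zero]
      positivity
    · have h1 := hs2' (hiff.1 ha)
      rw [if_pos ha, if_neg hb, sub_zero, abs_one, if_pos (Finset.mem_sdiff.2 ⟨h1, hb⟩)]
      have : (0 : ℝ) ≤ (if y ∈ F' \ F.image (fun y => y + u) then (1 : ℝ) else 0) := by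
        positivity
      linarith
    · have h1 := hs1 hb
      rw [if_neg ha, if_pos hb, zero_sub, abs_neg, abs_one,
        if_pos (Finset.mem_sdiff.2 ⟨h1, fun h => ha (hiff.2 h)⟩)]
      have : (0 : ℝ) ≤ (if y ∈ F' \ F then (1 : ℝ) else 0) := by
        positivity
      linarith
    · rw [if_neg ha, if_neg hb, sub_self, abs_zero]
      positivity
  have h2 : ∀ S : Finset (Fin d → ℤ), ∑ y ∈ G, (if y ∈ S then (1 : ℝ) else 0) ≤ S.card := by
    intro S
    rw [Finset.sum_ite_mem, Finset.sum_const, nsmul_eq_mul, mul_one]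
    exact_mod_cast Finset.card_le_card Finset.inter_subset_right
  have h3 : ((F' \ F).card : ℝ) ≤ fd d s R * F.card := by
    rw [Finset.cast_card_sdiff hs1]
    exact card_growth m hs hR
  have h4 : ((F' \ F.image (fun y => y + u)).card : ℝ) ≤ fd d s R * F.card := by
    rw [Finset.cast_card_sdiff hs2, hc2]
    exact card_growth m hs hR
  calc _ ≤ ∑ y ∈ G, ((if y ∈ F' \ F then (1 : ℝ) else 0) +
        (if y ∈ F' \ F.image (fun y => y + u) then (1 : ℝ) else 0)) :=
        Finset.sum_le_sum fun y _ => h1 y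
    _ ≤ _ := by
      rw [Finset.sum_add_distrib]
      have := h2 (F' \ F)
      have := h2 (F' \ F.image (fun y => y + u))
      linarith

/-- The box `[0, n]^k`. -/
noncomputable def bp (k n : ℕ) : Finset (Fin k → ℤ) :=
  Fintype.piFinset fun _ => Finset.Icc 0 (n : ℤ)

theorem mem_bp {n : ℕ} {v : Fin k → ℤ} : v ∈ bp k n ↔ ∀ t, 0 ≤ v t ∧ v t ≤ (n : ℤ) := by
  rw [bp, Fintype.mem_piFinset]
  simp only [Finset.mem_Icc]

theorem card_bp (k n : ℕ) : (bp k n).card = (n + 1) ^ k := by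
  rw [bp, Fintype.card_piFinset]
  simp

/-- The faces of the box. -/
theorem card_face (k n : ℕ) (j : Fin k) (c : ℤ) :
    (n + 1) * ((bp k n).filter fun v => v j = c).card ≤ (n + 1) ^ k := by
  classical
  have h1 : ((bp k n).filter fun v => v j = c) ⊆
      Fintype.piFinset (Function.update (fun _ : Fin k => Finset.Icc 0 (n : ℤ)) j {c}) := by
    intro v hv
    rw [Finset.mem_filter, mem_bp] at hv
    rw [Fintype.mem_piFinset]
    intro t
    by_cases h : t = j
    · subst h; simp [hv.2]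
    · rw [Function.update_of_ne h, Finset.mem_Icc]
      exact hv.1 t
  have h2 := Finset.card_le_card h1
  rw [Fintype.card_piFinset] at h2
  have h3 : ∏ i, (Function.update (fun _ : Fin k => Finset.Icc 0 (n : ℤ)) j {c} i).card =
      ∏ i ∈ Finset.univ.erase j, (n + 1) := by
    rw [← Finset.mul_prod_erase Finset.univ _ (Finset.mem_univ j)]
    simp only [Function.update_self, Finset.card_singleton, one_mul]
    refine Finset.prod_congr rfl fun t ht => ?_
    rw [Function.update_of_ne (Finset.ne_of_mem_erase ht)]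
    simp
  rw [h3] at h2
  calc (n + 1) * ((bp k n).filter fun v => v j = c).card
      ≤ (n + 1) * ∏ i ∈ Finset.univ.erase j, (n + 1) := Nat.mul_le_mul_left _ h2
    _ = ∏ _i : Fin k, (n + 1) :=
        Finset.mul_prod_erase Finset.univ (fun _ => n + 1) (Finset.mem_univ j)
    _ = (n + 1) ^ k := by simp

/-- The basic sets. -/
noncomputable def FF (φ : Act k d) (n : ℕ) : Finset (Fin d → ℤ) := latF φ n (n + 1)

theorem FF_card_pos (n : ℕ) : 0 < (FF φ n).card :=
  Finset.card_pos.2 (latF_nonempty (by positivity))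

/-- The measures. -/
noncomputable def pp (φ : Act k d) (n : ℕ) (x : Fin d → ℤ) : ℝ :=
  (∑ v ∈ bp k n, if φ.ac (-v) x ∈ FF φ n then (1 : ℝ) else 0) /
    (((n : ℝ) + 1) ^ k * (FF φ n).card)

/-- The supports. -/
noncomputable def FS (φ : Act k d) (n : ℕ) : Finset (Fin d → ℤ) :=
  (bp k n ×ˢ FF φ n).image fun q => φ.ac q.1 q.2

theorem mem_FS {n : ℕ} {x : Fin d → ℤ} :
    x ∈ FS φ n ↔ ∃ v ∈ bp k n, φ.ac (-v) x ∈ FF φ n := by
  rw [FS, Finset.mem_image]
  constructor
  · rintro ⟨⟨v, a⟩, h, rfl⟩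
    rw [Finset.mem_product] at h
    exact ⟨v, h.1, by simpa [φ.ac_cancel_neg] using h.2⟩
  · rintro ⟨v, hv, h⟩
    exact ⟨(v, φ.ac (-v) x), Finset.mem_product.2 ⟨hv, h⟩, φ.ac_neg_cancel v x⟩

theorem pp_nonneg (n : ℕ) (x : Fin d → ℤ) : 0 ≤ pp φ n x := by
  unfold pp
  apply div_nonneg
  · exact Finset.sum_nonneg fun v _ => by split_ifs <;> norm_num
  · positivity

theorem pp_eq_zero {n : ℕ} {x : Fin d → ℤ} (h : x ∉ FS φ n) : pp φ n x = 0 := by
  unfold pp
  rw [Finset.sum_eq_zero, zero_div]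
  intro v hv
  rw [if_neg]
  intro h'
  exact h (mem_FS.2 ⟨v, hv, h'⟩)

theorem ac_injective (v : Fin k → ℤ) : Function.Injective (φ.ac v) := by
  intro a b h
  have := congrArg (φ.ac (-v)) h
  rwa [φ.ac_cancel_neg, φ.ac_cancel_neg] at this

theorem den_pos (n : ℕ) : 0 < ((n : ℝ) + 1) ^ k * (FF φ n).card := by
  have := FF_card_pos (φ := φ) n
  positivity

/-- sum over `G` of the indicator of `F` at `T^{-v} x` is at most `|F|`. -/
theorem sum_ind_le (n : ℕ) (v : Fin k → ℤ) (G : Finset (Fin d → ℤ)) :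
    ∑ x ∈ G, (if φ.ac (-v) x ∈ FF φ n then (1 : ℝ) else 0) ≤ (FF φ n).card := by
  classical
  rw [← Finset.sum_filter, Finset.sum_const, nsmul_eq_mul, mul_one]
  have h1 : (G.filter fun x => φ.ac (-v) x ∈ FF φ n).card ≤ (FF φ n).card := by
    apply Finset.card_le_card_of_injOn (φ.ac (-v))
    · intro x hx
      exact (Finset.mem_filter.1 hx).2
    · exact (ac_injective _).injOn
  exact_mod_cast h1

theorem sum_pp (n : ℕ) : ∑ x ∈ FS φ n, pp φ n x = 1 := by
  classical
  unfold pp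
  rw [← Finset.sum_div, Finset.sum_comm]
  have h1 : ∀ v ∈ bp k n, ∑ x ∈ FS φ n, (if φ.ac (-v) x ∈ FF φ n then (1 : ℝ) else 0) =
      (FF φ n).card := by
    intro v hv
    apply le_antisymm (sum_ind_le n v _)
    rw [← Finset.sum_filter, Finset.sum_const, nsmul_eq_mul, mul_one]
    have h2 : (FF φ n).card ≤ ((FS φ n).filter fun x => φ.ac (-v) x ∈ FF φ n).card := by
      apply Finset.card_le_card_of_injOn (φ.ac v)
      · intro x hx
        have hx' : x ∈ FF φ n := hx
        rw [Finset.mem_coe, Finset.mem_filter, mem_FS]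
        exact ⟨⟨v, hv, by rwa [φ.ac_cancel_neg]⟩, by rwa [φ.ac_cancel_neg]⟩
      · exact (ac_injective _).injOn
    exact_mod_cast h2
  rw [Finset.sum_congr rfl h1, Finset.sum_const, card_bp, nsmul_eq_mul]
  push_cast
  exact div_self (den_pos n).ne'

theorem FS_len (L : Len φ) {n : ℕ} {x : Fin d → ℤ} (hx : x ∈ FS φ n) :
    L.ℓ x ≤ (2 * C2 L + L.c * k) * (n + 1) := by
  obtain ⟨v, hv, h⟩ := mem_FS.1 hx
  have h1 := len_le L (mem_latF.1 h)
  have h2 := L.ℓ_ac v (φ.ac (-v) x)
  rw [φ.ac_neg_cancel] at h2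
  have h3 : ∑ j, |(v j : ℝ)| ≤ k * n := by
    calc ∑ t, |(v t : ℝ)| ≤ ∑ _t : Fin k, (n : ℝ) := by
          refine Finset.sum_le_sum fun t _ => ?_
          have := mem_bp.1 hv t
          rw [abs_of_nonneg (by exact_mod_cast this.1)]
          exact_mod_cast this.2
      _ = k * n := by simp
  have h4 := mul_le_mul_of_nonneg_left h3 L.c_nonneg
  have hc := L.c_nonneg
  have hk : 0 ≤ L.c * k := by positivity
  nlinarith

/-- asymptotic translation invariance. -/
theorem pp_shift (n : ℕ) (a : Fin d → ℤ) (hn : d ≤ n) (G : Finset (Fin d → ℤ)) :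
    ∑ x ∈ G, |pp φ n (x - a) - pp φ n x| ≤ 2 * fd d (∑ j, |(a j : ℝ)|) (n + 1) := by
  classical
  have hden := den_pos (φ := φ) n
  have hs : 0 ≤ ∑ j, |(a j : ℝ)| := Finset.sum_nonneg fun _ _ => abs_nonneg _
  have hR : (d : ℝ) < n + 1 := by
    have : (d : ℝ) ≤ n := by exact_mod_cast hn
    linarith
  have h1 : ∀ x, |pp φ n (x - a) - pp φ n x| ≤
      (∑ v ∈ bp k n, |(if φ.ac (-v) x - φ.ac (-v) a ∈ FF φ n then (1 : ℝ) else 0) -
        (if φ.ac (-v) x ∈ FF φ n then (1 : ℝ) else 0)|) /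
        (((n : ℝ) + 1) ^ k * (FF φ n).card) := by
    intro x
    unfold pp
    rw [← sub_div, abs_div, abs_of_pos hden, ← Finset.sum_sub_distrib]
    apply div_le_div_of_nonneg_right _ hden.le
    refine (Finset.abs_sum_le_sum_abs _ _).trans (le_of_eq ?_)
    refine Finset.sum_congr rfl fun v _ => ?_
    rw [map_sub]
  have h2 : ∀ v ∈ bp k n,
      ∑ x ∈ G, |(if φ.ac (-v) x - φ.ac (-v) a ∈ FF φ n then (1 : ℝ) else 0) -
        (if φ.ac (-v) x ∈ FF φ n then (1 : ℝ) else 0)| ≤
      2 * (fd d (∑ j, |(a j : ℝ)|) (n + 1) * (FF φ n).card) := by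
    intro v hv
    have h3 : ι (φ.ac (-v) a) ∈ P φ n (∑ j, |(a j : ℝ)|) := by
      rw [← φ.E_ι]
      have := E_mem_P (φ := φ) (m := n) (v := v) (fun t => by
        have := mem_bp.1 hv t
        rw [abs_of_nonneg this.1]
        exact this.2) (ι a)
      simpa using this
    have h4 := shift_le hs hR h3 (G.image (φ.ac (-v)))
    rw [Finset.sum_image (fun x _ y _ h => ac_injective _ h)] at h4
    exact h4
  calc ∑ x ∈ G, |pp φ n (x - a) - pp φ n x|
      ≤ ∑ x ∈ G, (∑ v ∈ bp k n,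
        |(if φ.ac (-v) x - φ.ac (-v) a ∈ FF φ n then (1 : ℝ) else 0) -
        (if φ.ac (-v) x ∈ FF φ n then (1 : ℝ) else 0)|) /
        (((n : ℝ) + 1) ^ k * (FF φ n).card) := Finset.sum_le_sum fun x _ => h1 x
    _ = (∑ v ∈ bp k n, ∑ x ∈ G,
        |(if φ.ac (-v) x - φ.ac (-v) a ∈ FF φ n then (1 : ℝ) else 0) -
        (if φ.ac (-v) x ∈ FF φ n then (1 : ℝ) else 0)|) /
        (((n : ℝ) + 1) ^ k * (FF φ n).card) := by
        rw [← Finset.sum_div, Finset.sum_comm]
    _ ≤ (∑ _v ∈ bp k n, 2 * (fd d (∑ j, |(a j : ℝ)|) (n + 1) * (FF φ n).card)) /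
        (((n : ℝ) + 1) ^ k * (FF φ n).card) := by
        apply div_le_div_of_nonneg_right _ hden.le
        exact Finset.sum_le_sum h2
    _ = 2 * fd d (∑ j, |(a j : ℝ)|) (n + 1) := by
        have hF : (0 : ℝ) < (FF φ n).card := by exact_mod_cast FF_card_pos (φ := φ) n
        rw [Finset.sum_const, card_bp, nsmul_eq_mul]
        push_cast
        rw [div_eq_iff hden.ne']
        ring

/-- almost invariance under the action. -/
theorem pp_act (n : ℕ) (j : Fin k) (G : Finset (Fin d → ℤ)) :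
    ∑ x ∈ G, |pp φ n (φ.ac (-(Pi.single j 1)) x) - pp φ n x| ≤ 2 / ((n : ℝ) + 1) := by
  classical
  have hden := den_pos (φ := φ) n
  set e : Fin k → ℤ := Pi.single j 1 with he
  set B := bp k n with hB
  set B' := B.image (fun v => v + e) with hB'
  have h0 : ∀ x, ∑ v ∈ B, (if φ.ac (-v) (φ.ac (-e) x) ∈ FF φ n then (1 : ℝ) else 0) =
      ∑ v ∈ B', (if φ.ac (-v) x ∈ FF φ n then (1 : ℝ) else 0) := by
    intro x
    rw [hB', Finset.sum_image (fun x _ y _ h => add_left_injective e h)]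
    refine Finset.sum_congr rfl fun v _ => ?_
    rw [← φ.ac_add, neg_add]
  have h1 : ∀ x, |pp φ n (φ.ac (-e) x) - pp φ n x| ≤
      (∑ v ∈ (B' \ B) ∪ (B \ B'), (if φ.ac (-v) x ∈ FF φ n then (1 : ℝ) else 0)) /
        (((n : ℝ) + 1) ^ k * (FF φ n).card) := by
    intro x
    unfold pp
    rw [h0 x, ← sub_div, abs_div, abs_of_pos hden]
    apply div_le_div_of_nonneg_right _ hden.le
    have hpos : ∀ v, 0 ≤ (if φ.ac (-v) x ∈ FF φ n then (1 : ℝ) else 0) := fun v => by
      split_ifs <;> norm_num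
    rw [Finset.sum_union (by
      rw [Finset.disjoint_left]
      intro v hv hv'
      exact (Finset.mem_sdiff.1 hv').2 (Finset.mem_sdiff.1 hv).1)]
    rw [← Finset.sum_sdiff_sub_sum_sdiff]
    rw [abs_le]
    have h2 : 0 ≤ ∑ v ∈ B' \ B, (if φ.ac (-v) x ∈ FF φ n then (1 : ℝ) else 0) :=
      Finset.sum_nonneg fun v _ => hpos v
    have h3 : 0 ≤ ∑ v ∈ B \ B', (if φ.ac (-v) x ∈ FF φ n then (1 : ℝ) else 0) :=
      Finset.sum_nonneg fun v _ => hpos v
    constructor <;> linarith
  have hk1 : B' \ B ⊆ (B.filter fun v => v j = (n : ℤ)).image (fun v => v + e) := by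
    intro v hv
    rw [Finset.mem_sdiff, hB', Finset.mem_image] at hv
    obtain ⟨⟨w, hw, rfl⟩, hv2⟩ := hv
    rw [Finset.mem_image]
    refine ⟨w, Finset.mem_filter.2 ⟨hw, ?_⟩, rfl⟩
    by_contra hne
    apply hv2
    rw [hB, mem_bp] at hw ⊢
    intro t
    have := hw t
    by_cases h : t = j
    · subst h
      simp only [he, Pi.add_apply, Pi.single_eq_same]
      omega
    · simp only [he, Pi.add_apply, Pi.single_eq_of_ne h]
      omega
  have hk2 : B \ B' ⊆ B.filter fun v => v j = 0 := by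
    intro v hv
    rw [Finset.mem_sdiff] at hv
    refine Finset.mem_filter.2 ⟨hv.1, ?_⟩
    by_contra hne
    apply hv.2
    rw [hB', Finset.mem_image]
    refine ⟨v - e, ?_, by simp⟩
    have hw := hv.1
    rw [hB, mem_bp] at hw ⊢
    intro t
    have := hw t
    by_cases h : t = j
    · subst h
      simp only [he, Pi.sub_apply, Pi.single_eq_same]
      omega
    · simp only [he, Pi.sub_apply, Pi.single_eq_of_ne h]
      omega
  have hcard : ((n : ℝ) + 1) * ((B' \ B) ∪ (B \ B')).card ≤ 2 * ((n : ℝ) + 1) ^ k := by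
    have h2 : ((B' \ B) ∪ (B \ B')).card ≤ (B.filter fun v => v j = (n : ℤ)).card +
        (B.filter fun v => v j = 0).card := by
      refine (Finset.card_union_le _ _).trans (add_le_add ?_ (Finset.card_le_card hk2))
      exact (Finset.card_le_card hk1).trans Finset.card_image_le
    have h3 := card_face k n j n
    have h4 := card_face k n j 0
    have h5 : (n + 1) * ((B' \ B) ∪ (B \ B')).card ≤ 2 * (n + 1) ^ k := by
      calc (n + 1) * ((B' \ B) ∪ (B \ B')).card ≤ (n + 1) *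
          ((B.filter fun v => v j = (n : ℤ)).card + (B.filter fun v => v j = 0).card) :=
            Nat.mul_le_mul_left _ h2
        _ ≤ _ := by rw [mul_add]; rw [hB]; omega
    exact_mod_cast h5
  calc ∑ x ∈ G, |pp φ n (φ.ac (-e) x) - pp φ n x|
      ≤ ∑ x ∈ G, (∑ v ∈ (B' \ B) ∪ (B \ B'),
        (if φ.ac (-v) x ∈ FF φ n then (1 : ℝ) else 0)) /
        (((n : ℝ) + 1) ^ k * (FF φ n).card) := Finset.sum_le_sum fun x _ => h1 x
    _ = (∑ v ∈ (B' \ B) ∪ (B \ B'), ∑ x ∈ G,
        (if φ.ac (-v) x ∈ FF φ n then (1 : ℝ) else 0)) /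
        (((n : ℝ) + 1) ^ k * (FF φ n).card) := by
        rw [← Finset.sum_div, Finset.sum_comm]
    _ ≤ (∑ _v ∈ (B' \ B) ∪ (B \ B'), ((FF φ n).card : ℝ)) /
        (((n : ℝ) + 1) ^ k * (FF φ n).card) := by
        apply div_le_div_of_nonneg_right _ hden.le
        exact Finset.sum_le_sum fun v _ => sum_ind_le n v G
    _ ≤ 2 / ((n : ℝ) + 1) := by
        rw [Finset.sum_const, nsmul_eq_mul]
        have hF : (0 : ℝ) < (FF φ n).card := by exact_mod_cast FF_card_pos (φ := φ) n
        have hn : (0 : ℝ) < (n : ℝ) + 1 := by positivity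
        rw [div_le_div_iff₀ hden hn]
        nlinarith

/-! ### Final form -/

theorem exists_measure_act (L : Len φ) :
    ∃ (C : ℝ) (p : ℕ → (Fin d → ℤ) →₀ ℝ), 0 ≤ C ∧ (∀ n x, 0 ≤ p n x) ∧
      (∀ n, ((p n).sum fun _ r => r) = 1) ∧
      (∀ n, ∀ x ∈ (p n).support, L.ℓ x ≤ C * (n + 1)) ∧
      (∀ a, Filter.Tendsto (fun n => (p n - (p n).mapDomain (fun x => a + x)).sum fun _ r => |r|)
        Filter.atTop (nhds 0)) ∧
      (∀ n (j : Fin k), ((p n - (p n).mapDomain (φ.ac (Pi.single j 1))).sum fun _ r => |r|) ≤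
        2 / ((n : ℝ) + 1)) := by
  classical
  have hC : 0 ≤ 2 * C2 L + L.c * k := by
    have h1 := C2_nonneg L
    have h2 := L.c_nonneg
    positivity
  let p : ℕ → (Fin d → ℤ) →₀ ℝ := fun n =>
    Finsupp.onFinset (FS φ n) (pp φ n) (fun x hx => by
      by_contra h
      exact hx (pp_eq_zero h))
  have hp : ∀ n x, p n x = pp φ n x := fun n x => rfl
  refine ⟨2 * C2 L + L.c * k, p, hC, fun n x => pp_nonneg n x, ?_, ?_, ?_, ?_⟩
  · intro n
    rw [← sum_pp (φ := φ) n]
    exact Finsupp.onFinset_sum _ (fun _ => rfl)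
  · intro n x hx
    have h1 : x ∈ FS φ n := by
      by_contra h
      rw [Finsupp.mem_support_iff] at hx
      exact hx (pp_eq_zero h)
    exact FS_len L h1
  · intro a
    have h1 : ∀ n, d ≤ n → ((p n - (p n).mapDomain (fun x => a + x)).sum fun _ r => |r|) ≤
        2 * fd d (∑ j, |(a j : ℝ)|) (n + 1) := by
      intro n hn
      refine le_trans (le_of_eq ?_) (pp_shift (φ := φ) n a hn
        (p n - (p n).mapDomain (fun x => a + x)).support)
      rw [Finsupp.sum]
      refine Finset.sum_congr rfl fun x _ => ?_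
      rw [Finsupp.sub_apply, abs_sub_comm]
      congr 2
      have h2 : x = a + (x - a) := by abel
      conv_lhs => rw [h2]
      exact Finsupp.mapDomain_apply (add_right_injective a) _ _
    have h2 : Filter.Tendsto (fun n : ℕ => 2 * fd d (∑ j, |(a j : ℝ)|) (n + 1))
        Filter.atTop (nhds 0) := by
      have := (fd_tendsto d (∑ j, |(a j : ℝ)|)).const_mul 2
      simpa using this
    refine squeeze_zero' (Filter.Eventually.of_forall fun n => ?_) ?_ h2
    · exact Finset.sum_nonneg fun _ _ => abs_nonneg _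
    · filter_upwards [Filter.eventually_ge_atTop d] with n hn
      exact h1 n hn
  · intro n j
    refine le_trans (le_of_eq ?_) (pp_act (φ := φ) n j
      (p n - (p n).mapDomain (φ.ac (Pi.single j 1))).support)
    rw [Finsupp.sum]
    refine Finset.sum_congr rfl fun x _ => ?_
    rw [Finsupp.sub_apply, abs_sub_comm]
    congr 2
    have h2 : x = φ.ac (Pi.single j 1) (φ.ac (-(Pi.single j 1)) x) :=
      (φ.ac_neg_cancel _ _).symm
    conv_lhs => rw [h2]
    exact Finsupp.mapDomain_apply (ac_injective _) _ _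

/-- an automorphism as a unit of the endomorphism monoid. -/
def toU (t : (Fin d → ℤ) ≃+ (Fin d → ℤ)) : (AddMonoid.End (Fin d → ℤ))ˣ where
  val := t.toAddMonoidHom
  inv := t.symm.toAddMonoidHom
  val_inv := by ext1 x; exact t.apply_symm_apply x
  inv_val := by ext1 x; exact t.symm_apply_apply x

theorem toU_comm (T : Fin k → ((Fin d → ℤ) ≃+ (Fin d → ℤ)))
    (hT : ∀ i j x, T i (T j x) = T j (T i x)) :
    Pairwise fun i j => ∀ x y : Multiplicative ℤ,
      Commute (zpowersHom _ (toU (T i)) x) (zpowersHom _ (toU (T j)) y) := by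
  intro i j _ x y
  have : Commute (toU (T i)) (toU (T j)) := by
    apply Units.ext
    ext1 x
    exact hT i j x
  simp only [zpowersHom_apply]
  exact this.zpow_zpow _ _

/-- The homomorphism generated by commuting automorphisms. -/
noncomputable def homOf (T : Fin k → ((Fin d → ℤ) ≃+ (Fin d → ℤ)))
    (hT : ∀ i j x, T i (T j x) = T j (T i x)) :
    (Fin k → Multiplicative ℤ) →* (AddMonoid.End (Fin d → ℤ))ˣ :=
  MonoidHom.noncommPiCoprod (fun j => zpowersHom _ (toU (T j))) (toU_comm T hT)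

theorem homOf_single (T : Fin k → ((Fin d → ℤ) ≃+ (Fin d → ℤ)))
    (hT : ∀ i j x, T i (T j x) = T j (T i x)) (j : Fin k) :
    homOf T hT (Pi.mulSingle j (Multiplicative.ofAdd (1 : ℤ))) = toU (T j) := by
  rw [homOf, MonoidHom.noncommPiCoprod_mulSingle]
  simp

/-- The action generated by commuting automorphisms. -/
noncomputable def actOf (T : Fin k → ((Fin d → ℤ) ≃+ (Fin d → ℤ)))
    (hT : ∀ i j x, T i (T j x) = T j (T i x)) : Act k d where
  ac v := (homOf T hT (fun j => Multiplicative.ofAdd (v j))).val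
  ac_zero := by
    intro a
    have h1 : (fun j : Fin k => Multiplicative.ofAdd ((0 : Fin k → ℤ) j)) = 1 := rfl
    rw [h1, map_one]
    rfl
  ac_add := by
    intro v w a
    have h1 : (fun j : Fin k => Multiplicative.ofAdd ((v + w) j)) =
      (fun j : Fin k => Multiplicative.ofAdd (v j)) *
        (fun j : Fin k => Multiplicative.ofAdd (w j)) := rfl
    rw [h1, map_mul]
    rfl

theorem actOf_single (T : Fin k → ((Fin d → ℤ) ≃+ (Fin d → ℤ)))
    (hT : ∀ i j x, T i (T j x) = T j (T i x)) (j : Fin k) (x : Fin d → ℤ) :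
    (actOf T hT).ac (Pi.single j 1) x = T j x := by
  classical
  have h1 : (fun i : Fin k => Multiplicative.ofAdd ((Pi.single j 1 : Fin k → ℤ) i)) =
      Pi.mulSingle j (Multiplicative.ofAdd (1 : ℤ)) := by
    ext i
    by_cases h : i = j
    · subst h; simp
    · simp [h]
  have h2 : (actOf T hT).ac (Pi.single j 1) = (toU (T j)).val := by
    change (homOf T hT (fun i : Fin k =>
      Multiplicative.ofAdd ((Pi.single j 1 : Fin k → ℤ) i))).val = _
    rw [h1, homOf_single]
  rw [h2]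
  rfl

/-- **Controlled almost invariant measures.** -/
theorem exists_measure (T : Fin k → ((Fin d → ℤ) ≃+ (Fin d → ℤ)))
    (hT : ∀ i j x, T i (T j x) = T j (T i x)) (ℓ : (Fin d → ℤ) → ℝ) (c : ℝ)
    (h0 : ℓ 0 = 0) (hnn : ∀ a, 0 ≤ ℓ a) (hneg : ∀ a, ℓ (-a) ≤ ℓ a)
    (hadd : ∀ a b, ℓ (a + b) ≤ ℓ a + ℓ b)
    (hT1 : ∀ j a, ℓ (T j a) ≤ ℓ a + c) (hT2 : ∀ j a, ℓ ((T j).symm a) ≤ ℓ a + c) :
    ∃ (C : ℝ) (p : ℕ → (Fin d → ℤ) →₀ ℝ), 0 ≤ C ∧ (∀ n x, 0 ≤ p n x) ∧
      (∀ n, ((p n).sum fun _ r => r) = 1) ∧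
      (∀ n, ∀ x ∈ (p n).support, ℓ x ≤ C * (n + 1)) ∧
      (∀ a, Filter.Tendsto (fun n => (p n - (p n).mapDomain (fun x => a + x)).sum fun _ r => |r|)
        Filter.atTop (nhds 0)) ∧
      (∀ n (j : Fin k), ((p n - (p n).mapDomain (T j)).sum fun _ r => |r|) ≤
        2 / ((n : ℝ) + 1)) := by
  classical
  set φ := actOf T hT with hφ
  have hj : ∀ j x, φ.ac (Pi.single j 1) x = T j x := actOf_single T hT
  have hj' : ∀ j x, φ.ac (-(Pi.single j 1)) x = (T j).symm x := by
    intro j x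
    apply (T j).injective
    rw [← hj, φ.ac_neg_cancel, AddEquiv.apply_symm_apply]
  have h1 : ∀ j (t : ℕ) a, ℓ (φ.ac (Pi.single j (t : ℤ)) a) ≤ ℓ a + |c| * t := by
    intro j t
    induction t with
    | zero => intro a; simp [φ.ac_zero]
    | succ t ih =>
      intro a
      have h2 : (Pi.single j ((t + 1 : ℕ) : ℤ) : Fin k → ℤ) =
          Pi.single j 1 + Pi.single j (t : ℤ) := by
        rw [← Pi.single_add]; push_cast; rw [add_comm]
      rw [h2, φ.ac_add, hj]
      have h3 := hT1 j (φ.ac (Pi.single j (t : ℤ)) a)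
      have h4 := ih a
      have h5 := le_abs_self c
      push_cast
      linarith
  have h2 : ∀ j (t : ℕ) a, ℓ (φ.ac (Pi.single j (-(t : ℤ))) a) ≤ ℓ a + |c| * t := by
    intro j t
    induction t with
    | zero => intro a; simp [φ.ac_zero]
    | succ t ih =>
      intro a
      have h2 : (Pi.single j (-((t + 1 : ℕ) : ℤ)) : Fin k → ℤ) =
          -(Pi.single j 1) + Pi.single j (-(t : ℤ)) := by
        rw [← Pi.single_neg, ← Pi.single_add]; push_cast; congr 1; ring
      rw [h2, φ.ac_add, hj']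
      have h3 := hT2 j (φ.ac (Pi.single j (-(t : ℤ))) a)
      have h4 := ih a
      have h5 := le_abs_self c
      push_cast
      linarith
  have h3 : ∀ j (t : ℤ) a, ℓ (φ.ac (Pi.single j t) a) ≤ ℓ a + |c| * |(t : ℝ)| := by
    intro j t a
    rcases Int.eq_nat_or_neg t with ⟨m, rfl | rfl⟩
    · have := h1 j m a
      simpa using this
    · have := h2 j m a
      simpa using this
  have h4 : ∀ (s : Finset (Fin k)) (v : Fin k → ℤ) a,
      ℓ (φ.ac (∑ j ∈ s, Pi.single j (v j)) a) ≤ ℓ a + |c| * ∑ j ∈ s, |(v j : ℝ)| := by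
    intro s v
    induction s using Finset.induction_on with
    | empty => intro a; simp [φ.ac_zero]
    | insert j s hjs ih =>
      intro a
      rw [Finset.sum_insert hjs, Finset.sum_insert hjs, φ.ac_add]
      have h5 := h3 j (v j) (φ.ac (∑ j ∈ s, Pi.single j (v j)) a)
      have h6 := ih a
      rw [mul_add]
      linarith
  let L : Len φ :=
    { ℓ := ℓ
      c := |c|
      ℓ_zero := h0
      ℓ_nonneg := hnn
      ℓ_neg := hneg
      ℓ_add := hadd
      c_nonneg := abs_nonneg _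
      ℓ_ac := by
        intro v a
        have h5 := h4 Finset.univ v a
        rwa [Finset.univ_sum_single] at h5 }
  obtain ⟨C, p, hC, hp0, hp1, hp2, hp3, hp4⟩ := exists_measure_act L
  refine ⟨C, p, hC, hp0, hp1, hp2, hp3, fun n j => ?_⟩
  have h5 : (φ.ac (Pi.single j 1) : (Fin d → ℤ) → (Fin d → ℤ)) = T j := by
    funext x; exact hj j x
  have := hp4 n j
  rwa [h5] at this

end Crest.Agent.R182.HtMeas
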