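import Mathlib
import Crest.Agent.R182.HtCoc

/-!
# Row 182, module HT (author: helper506): the main lemma

`A` abelian normal, centralised by `N`; `G` generated by `N` and `z_j`; `b` orthogonal to the
`A`-fixed vectors; controlled averages `p_n` on `A`.  Then `b` is an almost coboundary.
-/

set_option autoImplicit false

namespace Crest.Agent.R182.Ht

open Filter Topology

section Lc

variable {ι V : Type*} [NormedAddCommGroup V] [InnerProductSpace ℝ V]

/-- `ℓ¹` norm of a finitely supported function -/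
noncomputable def l1 (q : ι →₀ ℝ) : ℝ := q.sum fun _ r => |r|

theorem l1_nonneg (q : ι →₀ ℝ) : 0 ≤ l1 q := Finset.sum_nonneg fun _ _ => abs_nonneg _

theorem l1_of_nonneg {q : ι →₀ ℝ} (h : ∀ x, 0 ≤ q x) : l1 q = q.sum fun _ r => r :=
  Finset.sum_congr rfl fun x _ => abs_of_nonneg (h x)

/-- integral of `f` against `q` -/
noncomputable def E (f : ι → V) (q : ι →₀ ℝ) : V := q.sum fun x r => r • f x

theorem E_eq_lc (f : ι → V) (q : ι →₀ ℝ) : E f q = Finsupp.linearCombination ℝ f q := by
  rw [E, Finsupp.linearCombination_apply]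

theorem E_sub (f : ι → V) (q r : ι →₀ ℝ) : E f (q - r) = E f q - E f r := by
  rw [E_eq_lc, E_eq_lc, E_eq_lc, map_sub]

theorem E_add_fun (f g : ι → V) (q : ι →₀ ℝ) : E (fun x => f x + g x) q = E f q + E g q := by
  unfold E Finsupp.sum
  rw [← Finset.sum_add_distrib]
  exact Finset.sum_congr rfl fun x _ => smul_add _ _ _

theorem E_sub_fun (f g : ι → V) (q : ι →₀ ℝ) : E (fun x => f x - g x) q = E f q - E g q := by
  unfold E Finsupp.sum
  rw [← Finset.sum_sub_distrib]
  exact Finset.sum_congr rfl fun x _ => smul_sub _ _ _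

theorem E_congr {f g : ι → V} {q : ι →₀ ℝ} (h : ∀ x ∈ q.support, f x = g x) : E f q = E g q :=
  Finset.sum_congr rfl fun x hx => by
    show q x • f x = q x • g x
    rw [h x hx]

theorem E_const (v : V) (q : ι →₀ ℝ) : E (fun _ => v) q = (q.sum fun _ r => r) • v := by
  unfold E Finsupp.sum
  rw [Finset.sum_smul]

theorem E_mapDomain {κ : Type*} (φ : ι → κ) (f : κ → V) (q : ι →₀ ℝ) :
    E f (q.mapDomain φ) = E (fun x => f (φ x)) q := by
  unfold E
  exact Finsupp.sum_mapDomain_index (h := fun x (r : ℝ) => r • f x) (fun _ => zero_smul _ _)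
    (fun _ _ _ => add_smul _ _ _)

theorem map_E {W : Type*} [NormedAddCommGroup W] [InnerProductSpace ℝ W] (T : V →ₗ[ℝ] W)
    (f : ι → V) (q : ι →₀ ℝ) : T (E f q) = E (fun x => T (f x)) q := by
  unfold E Finsupp.sum
  rw [map_sum]
  exact Finset.sum_congr rfl fun x _ => map_smul _ _ _

theorem norm_E_le {f : ι → V} {q : ι →₀ ℝ} {C : ℝ} (h : ∀ x ∈ q.support, ‖f x‖ ≤ C) :
    ‖E f q‖ ≤ l1 q * C := by
  unfold E l1 Finsupp.sum
  rw [Finset.sum_mul]
  refine (norm_sum_le _ _).trans (Finset.sum_le_sum fun x hx => ?_)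
  rw [norm_smul, Real.norm_eq_abs]
  exact mul_le_mul_of_nonneg_left (h x hx) (abs_nonneg _)

theorem E_mem {K : Submodule ℝ V} {f : ι → V} {q : ι →₀ ℝ} (h : ∀ x ∈ q.support, f x ∈ K) :
    E f q ∈ K := K.sum_mem fun x hx => K.smul_mem _ (h x hx)

end Lc

section HB

variable {V : Type*} [NormedAddCommGroup V] [InnerProductSpace ℝ V]

/-- weak convergence to zero of finitely many sequences in a convex set gives small elements. -/
theorem exists_small_of_weak {σ : Type*} [Fintype σ] [CompleteSpace V] (R : Set (σ → V))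
    (hR : Convex ℝ R) (e : ℕ → σ → V) (he : ∀ n, e n ∈ R)
    (hw : ∀ s (y : V), Tendsto (fun n => inner ℝ y (e n s)) atTop (𝓝 0)) {ε : ℝ} (hε : 0 < ε) :
    ∃ x ∈ R, ∀ s, ‖x s‖ ≤ ε := by
  classical
  have h0 : (0 : σ → V) ∈ closure R := by
    by_contra h
    obtain ⟨f, u, hu, hf⟩ := geometric_hahn_banach_point_closed hR.closure isClosed_closure h
    rw [map_zero] at hu
    have h1 : Tendsto (fun n => f (e n)) atTop (𝓝 0) := by
      have h2 : ∀ n, f (e n) = ∑ s, f (Pi.single s (e n s)) := by
        intro n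
        rw [← map_sum]
        congr 1
        exact (Finset.univ_sum_single (e n)).symm
      have h3 : Tendsto (fun n => ∑ s, f (Pi.single s (e n s))) atTop (𝓝 (∑ _s : σ, (0 : ℝ))) := by
        refine tendsto_finsetSum _ fun s _ => ?_
        -- Riesz
        set g : V →L[ℝ] ℝ := f.comp (ContinuousLinearMap.single ℝ (fun _ : σ => V) s) with hg
        have h4 : ∀ v : V, f (Pi.single s v) = inner ℝ ((InnerProductSpace.toDual ℝ V).symm g) v := by
          intro v
          rw [InnerProductSpace.toDual_symm_apply]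
          rfl
        simp only [h4]
        exact hw s _
      simp only [Finset.sum_const_zero] at h3
      exact h3.congr fun n => (h2 n).symm
    have h5 : u ≤ 0 := ge_of_tendsto h1 (Filter.Eventually.of_forall fun n =>
      (hf _ (subset_closure (he n))).le)
    linarith
  rw [Metric.mem_closure_iff] at h0
  obtain ⟨x, hx, hd⟩ := h0 ε hε
  refine ⟨x, hx, fun s => ?_⟩
  rw [dist_comm, dist_zero_right] at hd
  exact (norm_le_pi_norm x s).trans hd.le

end HB

section AB

variable {G V : Type*} [Group G] [NormedAddCommGroup V] [InnerProductSpace ℝ V] [CompleteSpace V]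
  {U : G →* (V ≃ₗᵢ[ℝ] V)} {b : G → V}

/-- **Main lemma.** -/
theorem ac_of_averages (hb : Coc U b) (N A : Subgroup G) [A.Normal]
    (hcomm : ∀ a ∈ A, ∀ n ∈ N, a * n = n * a) (hAN : A ≤ N)
    (hbA : ∀ g, b g ∈ (fix U A)ᗮ) {Z : Set G} (hgen : Subgroup.closure ((N : Set G) ∪ Z) = ⊤)
    (p : ℕ → G →₀ ℝ) (hp0 : ∀ n x, 0 ≤ p n x) (hp1 : ∀ n, ((p n).sum fun _ r => r) = 1)
    (hpA : ∀ n, ∀ x ∈ (p n).support, x ∈ A)
    (hinv : ∀ a ∈ A, Tendsto (fun n => l1 (p n - (p n).mapDomain (fun x => a * x))) atTop (𝓝 0))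
    (hz : ∀ z ∈ Z, ∃ C : ℝ, ∀ n, ‖E (fun x => b (z * x * z⁻¹)) (p n) - E b (p n)‖ ≤ C) :
    AC U b := by
  classical
  set ξ : ℕ → V := fun n => E b (p n) with hξ
  set err : ℕ → G → V := fun n g => b g - (ξ n - U g (ξ n)) with herr
  set Q : ℕ → V → V := fun n v => E (fun x => U x v) (p n) with hQ
  have hl1 : ∀ n, l1 (p n) = 1 := fun n => by rw [l1_of_nonneg (hp0 n), hp1]
  have herr1 : ∀ n g, err n g = E (fun x => b (g * x) - b x) (p n) := by
    intro n g
    have h1 : E (fun x => b (g * x)) (p n) = b g + U g (ξ n) := by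
      have h2 : (fun x => b (g * x)) = fun x => (fun _ => b g) x + (fun x => U g (b x)) x := by
        ext x; exact hb g x
      rw [h2, E_add_fun, E_const, hp1, one_smul]
      congr 1
      exact (map_E (U g).toLinearEquiv.toLinearMap b (p n)).symm
    rw [E_sub_fun, h1]
    show b g - (ξ n - U g (ξ n)) = b g + U g (ξ n) - ξ n
    abel
  have hcoc : ∀ n, Coc U (err n) := fun n => hb.sub_cob (ξ n)
  -- `Q` bounds
  have hQle : ∀ n v, ‖Q n v‖ ≤ ‖v‖ := by
    intro n v
    have := norm_E_le (f := fun x => U x v) (q := p n) (C := ‖v‖) fun x _ => (U_norm x v).le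
    rwa [hl1, one_mul] at this
  have hQadd : ∀ n v w, Q n (v + w) = Q n v + Q n w := by
    intro n v w
    show E (fun x => U x (v + w)) (p n) = _
    simp only [map_add]
    exact E_add_fun _ _ _
  have hQsub : ∀ n v w, Q n (v - w) = Q n v - Q n w := by
    intro n v w
    show E (fun x => U x (v - w)) (p n) = _
    simp only [map_sub]
    exact E_sub_fun _ _ _
  have hQsmul : ∀ n (c : ℝ) v, Q n (c • v) = c • Q n v := by
    intro n c v
    show E (fun x => U x (c • v)) (p n) = _
    simp only [map_smul]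
    unfold Q E Finsupp.sum
    rw [Finset.smul_sum]
    exact Finset.sum_congr rfl fun x _ => smul_comm _ _ _
  -- elements centralising `A`
  have hN : ∀ n, ∀ g ∈ N, err n g = Q n (b g) := by
    intro n g hg
    rw [herr1]
    refine E_congr fun x hx => ?_
    rw [← hcomm x (hpA n x hx) g hg, hb x g]
    abel
  -- strong convergence of `Q n v` for `v` orthogonal to the fixed vectors
  have hQ0 : ∀ v ∈ (fix U A)ᗮ, Tendsto (fun n => Q n v) atTop (𝓝 0) := by
    intro v hv
    rw [orth_fix] at hv
    have hspan : ∀ w ∈ dif U A, Tendsto (fun n => Q n w) atTop (𝓝 0) := by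
      intro w hw
      induction hw using Submodule.span_induction with
      | mem x hx =>
        obtain ⟨a, ha, w, rfl⟩ := hx
        have h1 : ∀ n, Q n (w - U a w) = E (fun x => U x w) (p n - (p n).mapDomain (fun x => a * x)) := by
          intro n
          rw [E_sub, E_mapDomain, hQsub]
          congr 1
          refine E_congr fun x hx => ?_
          rw [hcomm a ha x (hAN (hpA n x hx)), U_mul]
        rw [tendsto_zero_iff_norm_tendsto_zero]
        refine squeeze_zero (fun n => norm_nonneg _) (fun n => ?_)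
          (by simpa using (hinv a ha).mul_const ‖w‖)
        rw [h1]
        exact norm_E_le fun x _ => (U_norm x w).le
      | zero =>
        have : ∀ n, Q n 0 = 0 := fun n => norm_le_zero_iff.1 ((hQle n 0).trans (by simp))
        simp [this]
      | add x y _ _ hx hy =>
        simp only [hQadd]
        simpa using hx.add hy
      | smul c x _ hx =>
        simp only [hQsmul]
        simpa using hx.const_smul c
    rw [Metric.tendsto_atTop]
    intro ε hε
    obtain ⟨w, hw, hd⟩ := Metric.mem_closure_iff.1 hv (ε / 2) (by positivity)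
    obtain ⟨M, hM⟩ := Metric.tendsto_atTop.1 (hspan w hw) (ε / 2) (by positivity)
    refine ⟨M, fun n hn => ?_⟩
    have h1 := hM n hn
    rw [dist_zero_right] at h1 ⊢
    have h2 : Q n v = Q n (v - w) + Q n w := by rw [hQsub]; abel
    rw [h2]
    have h3 := hQle n (v - w)
    rw [dist_eq_norm] at hd
    calc _ ≤ ‖Q n (v - w)‖ + ‖Q n w‖ := norm_add_le _ _
      _ < ε := by linarith
  -- strong convergence for elements of `N`
  have hN0 : ∀ g ∈ N, Tendsto (fun n => err n g) atTop (𝓝 0) := by
    intro g hg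
    exact (hQ0 _ (hbA g)).congr fun n => (hN n g hg).symm
  -- all errors are orthogonal to the fixed vectors
  have hξA : ∀ n, ξ n ∈ (fix U A)ᗮ := fun n => E_mem fun x _ => hbA x
  have herrA : ∀ n g, err n g ∈ (fix U A)ᗮ := fun n g =>
    Submodule.sub_mem _ (hbA g) (Submodule.sub_mem _ (hξA n) (U_mem_orth g (hξA n)))
  -- boundedness for `z ∈ Z`
  have hZb : ∀ z ∈ Z, ∃ C, ∀ n, ‖err n z‖ ≤ C := by
    intro z hzZ
    obtain ⟨C, hC⟩ := hz z hzZ
    refine ⟨C + ‖b z‖, fun n => ?_⟩
    have h1 : err n z = (E (fun x => b (z * x * z⁻¹)) (p n) - E b (p n)) +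
        E (fun x => U (z * x * z⁻¹) (b z)) (p n) := by
      rw [herr1, ← E_sub_fun, ← E_add_fun]
      refine E_congr fun x _ => ?_
      have h2 : z * x = z * x * z⁻¹ * z := by group
      have h3 := hb (z * x * z⁻¹) z
      rw [← h2] at h3
      rw [h3]
      abel
    rw [h1]
    refine (norm_add_le _ _).trans (add_le_add (hC n) ?_)
    have := norm_E_le (f := fun x => U (z * x * z⁻¹) (b z)) (q := p n) (C := ‖b z‖)
      fun x _ => (U_norm _ _).le
    rwa [hl1, one_mul] at this
  -- asymptotic invariance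
  have hZinv : ∀ z ∈ Z, ∀ a ∈ A, Tendsto (fun n => err n z - U a (err n z)) atTop (𝓝 0) := by
    intro z hzZ a ha
    have ha' : z⁻¹ * a * z ∈ A := by
      simpa using (inferInstance : A.Normal).conj_mem a ha z⁻¹
    have h1 : ∀ n, err n z - U a (err n z) = err n a - U z (err n (z⁻¹ * a * z)) := by
      intro n
      have h2 := hcoc n a z
      have h3 := hcoc n z (z⁻¹ * a * z)
      have h4 : z * (z⁻¹ * a * z) = a * z := by group
      rw [h4, h2] at h3
      have h5 : err n z = err n a + U a (err n z) - U z (err n (z⁻¹ * a * z)) := by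
        rw [h3]; abel
      calc err n z - U a (err n z) =
          (err n a + U a (err n z) - U z (err n (z⁻¹ * a * z))) - U a (err n z) := by rw [← h5]
        _ = _ := by abel
    have h6 := hN0 a (hAN ha)
    have h7 := hN0 _ (hAN ha')
    have h8 : Tendsto (fun n => U z (err n (z⁻¹ * a * z))) atTop (𝓝 0) := by
      rw [tendsto_zero_iff_norm_tendsto_zero] at h7 ⊢
      exact h7.congr fun n => (U_norm _ _).symm
    have h9 := h6.sub h8
    rw [sub_zero] at h9
    exact h9.congr fun n => (h1 n).symm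
  -- weak convergence to zero
  have hweak : ∀ g ∈ (N : Set G) ∪ Z, ∀ y : V, Tendsto (fun n => inner ℝ y (err n g)) atTop (𝓝 0) := by
    rintro g (hg | hg) y
    · have h1 := (hN0 g hg)
      have h2 := (tendsto_const_nhds (x := y)).inner (𝕜 := ℝ) h1
      rwa [inner_zero_right] at h2
    · obtain ⟨C, hC⟩ := hZb g hg
      have hC0 : 0 ≤ C := (norm_nonneg _).trans (hC 0)
      -- on the span of differences
      have hspan : ∀ w ∈ dif U A, Tendsto (fun n => inner ℝ w (err n g)) atTop (𝓝 0) := by
        intro w hw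
        induction hw using Submodule.span_induction with
        | mem x hx =>
          obtain ⟨a, ha, w, rfl⟩ := hx
          have h1 : ∀ n, inner ℝ (w - U a w) (err n g) =
              inner ℝ w (err n g - U a⁻¹ (err n g)) := by
            intro n
            rw [inner_sub_left, U_inner_left, ← inner_sub_right]
          have h2 := (tendsto_const_nhds (x := w)).inner (𝕜 := ℝ) (hZinv g hg a⁻¹ (A.inv_mem ha))
          rw [inner_zero_right] at h2
          exact h2.congr fun n => (h1 n).symm
        | zero => simp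
        | add x y _ _ hx hy =>
          simp only [inner_add_left]
          simpa using hx.add hy
        | smul c x _ hx =>
          simp only [inner_smul_left]
          simpa using hx.const_mul c
      -- decompose `y`
      have : (fix U A).HasOrthogonalProjection := inferInstance
      obtain ⟨y₁, hy₁, y₂, hy₂, rfl⟩ := (fix U A).exists_add_mem_mem_orthogonal y
      have h1 : ∀ n, inner ℝ (y₁ + y₂) (err n g) = inner ℝ y₂ (err n g) := by
        intro n
        rw [inner_add_left, (Submodule.mem_orthogonal _ _).1 (herrA n g) y₁ hy₁, zero_add]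
      simp only [h1]
      rw [orth_fix] at hy₂
      rw [Metric.tendsto_atTop]
      intro ε hε
      obtain ⟨w, hw, hd⟩ := Metric.mem_closure_iff.1 hy₂ (ε / 2 / (C + 1)) (by positivity)
      obtain ⟨M, hM⟩ := Metric.tendsto_atTop.1 (hspan w hw) (ε / 2) (by positivity)
      refine ⟨M, fun n hn => ?_⟩
      have h2 := hM n hn
      rw [dist_zero_right, Real.norm_eq_abs] at h2 ⊢
      have h3 : (inner ℝ y₂ (err n g) : ℝ) = inner ℝ (y₂ - w) (err n g) + inner ℝ w (err n g) := by
        rw [← inner_add_left]; congr 1; abel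
      rw [h3]
      have h4 : |(inner ℝ (y₂ - w) (err n g) : ℝ)| ≤ ε / 2 := by
        refine (abs_real_inner_le_norm _ _).trans ?_
        rw [dist_eq_norm] at hd
        have h5 := hC n
        calc ‖y₂ - w‖ * ‖err n g‖ ≤ (ε / 2 / (C + 1)) * C :=
              mul_le_mul hd.le h5 (norm_nonneg _) (by positivity)
          _ ≤ (ε / 2 / (C + 1)) * (C + 1) := by
              apply mul_le_mul_of_nonneg_left _ (by positivity); linarith
          _ = ε / 2 := by field_simp
      calc _ ≤ |(inner ℝ (y₂ - w) (err n g) : ℝ)| + |(inner ℝ w (err n g) : ℝ)| := abs_add_le _ _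
        _ < ε := by linarith
  -- Hahn–Banach
  refine AC.of_gen hb hgen fun S hS ε hε => ?_
  set R : Set (S → V) := {e | ∃ ξ : V, ∀ s : S, e s = b s - (ξ - U s ξ)} with hR
  have hRc : Convex ℝ R := by
    rintro x ⟨ξ₁, h1⟩ y ⟨ξ₂, h2⟩ s t hs ht hst
    refine ⟨s • ξ₁ + t • ξ₂, fun g => ?_⟩
    have h3 : b (g : G) = s • b g + t • b g := by rw [← add_smul, hst, one_smul]
    rw [Pi.add_apply, Pi.smul_apply, Pi.smul_apply, h1, h2, map_add, map_smul, map_smul]
    conv_rhs => rw [h3]
    simp only [smul_sub]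
    abel
  obtain ⟨x, ⟨ξ₀, h1⟩, h2⟩ := exists_small_of_weak R hRc (fun n (s : S) => err n s)
    (fun n => ⟨ξ n, fun s => rfl⟩) (fun s y => hweak s (hS s.2) y) hε
  refine ⟨ξ₀, fun s hs => ?_⟩
  have h3 := h2 ⟨s, hs⟩
  rw [h1] at h3
  exact h3

end AB

end Crest.Agent.R182.Ht
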