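import Mathlib
import Crest.Agent.R182.HtMeas
import Crest.Agent.R182.HtNil

/-!
# Row 182, module HT: `MeasProp` holds (helper247)
-/

set_option autoImplicit false

namespace Crest.Agent.R182.Ht

open Filter Topology

/-- The controlled almost invariant measures exist. -/
theorem measProp : MeasProp := by
  intro d k T ℓ c hT hnn h0 hneg hadd h1 h2
  obtain ⟨C, p, hC, hp0, hp1, hp2, hp3, hp4⟩ := HtMeas.exists_measure T hT ℓ c h0 hnn
    (fun a => (hneg a).le) hadd h1 h2
  refine ⟨max C 2, p, hp0, hp1, fun n x hx => ?_, fun a => hp3 a, fun j n => ?_⟩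
  · refine (hp2 n x hx).trans ?_
    exact mul_le_mul_of_nonneg_right (le_max_left _ _) (by positivity)
  · refine (hp4 n j).trans ?_
    exact div_le_div_of_nonneg_right (le_max_right _ _) (by positivity)

end Crest.Agent.R182.Ht
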