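import Mathlib
import Crest.Agent.R182.HtNil
import Crest.Agent.R182.HtMeasProp

/-!
# Row 182, module HT (author: helper506): decomposition of a cocycle

`b = βW + L + r`, `βW` in the finite dimensional span of `β (N)`, `L` a homomorphism into the
fixed vectors vanishing on `N`, `r` an almost coboundary.
-/

set_option autoImplicit false

namespace Crest.Agent.R182.Ht

open Filter Topology

universe u v

section Proj

variable {G : Type u} [Group G] {V : Type v} [NormedAddCommGroup V] [InnerProductSpace ℝ V]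
  {U : G →* (V ≃ₗᵢ[ℝ] V)} {b : G → V}

/-- projection onto an invariant finite dimensional subspace commutes with the action -/
theorem starProj_U (W : Submodule ℝ V) [FiniteDimensional ℝ W] (hW : ∀ g, ∀ v ∈ W, U g v ∈ W)
    (g : G) (v : V) : W.starProjection (U g v) = U g (W.starProjection v) := by
  refine Submodule.eq_starProjection_of_mem_orthogonal
    (hW g _ (Submodule.starProjection_apply_mem _ _)) ?_
  rw [← map_sub]
  have h1 : v - W.starProjection v ∈ Wᗮ := Submodule.sub_starProjection_mem_orthogonal _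
  rw [Submodule.mem_orthogonal] at h1 ⊢
  intro w hw
  rw [real_inner_comm, U_inner_left, real_inner_comm]
  exact h1 _ (hW g⁻¹ w hw)

theorem coc_proj (hb : Coc U b) (W : Submodule ℝ V) [FiniteDimensional ℝ W]
    (hW : ∀ g, ∀ v ∈ W, U g v ∈ W) : Coc U (fun g => W.starProjection (b g)) := by
  intro g h
  show W.starProjection (b (g * h)) = _
  rw [hb g h, map_add, starProj_U W hW]

theorem coc_sub {b' : G → V} (hb : Coc U b) (hb' : Coc U b') : Coc U (fun g => b g - b' g) := by
  intro g h
  show b (g * h) - b' (g * h) = (b g - b' g) + U g (b h - b' h)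
  rw [hb g h, hb' g h, map_sub]
  abel

end Proj

theorem isNilpotent_top_of_comm {Q : Type u} [Group Q] (h : ∀ x y : Q, x * y = y * x) :
    Group.IsNilpotent (⊤ : Subgroup Q) := by
  let _i : CommGroup (⊤ : Subgroup Q) :=
    { (inferInstance : Group (⊤ : Subgroup Q)) with
      mul_comm := fun a b => Subtype.ext (h a b) }
  exact CommGroup.isNilpotent

/-- **Decomposition.** -/
theorem exists_dec {G : Type u} [Group G] (hfg : ∀ H : Subgroup G, H.FG) (N : Subgroup G)
    [N.Normal] (hnil : Group.IsNilpotent N) (hab : ∀ g h : G, g * h * g⁻¹ * h⁻¹ ∈ N)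
    {V : Type v} [NormedAddCommGroup V] [InnerProductSpace ℝ V] [CompleteSpace V]
    {U : G →* (V ≃ₗᵢ[ℝ] V)} {b : G → V} (hb : Coc U b) :
    ∃ (W : Submodule ℝ V) (β L r : G → V), FiniteDimensional ℝ W ∧
      (∀ g, b g = β g + L g + r g) ∧ (∀ g, β g ∈ W) ∧ W ≤ fix U N ∧
      (∀ g, ∀ v ∈ W, U g v ∈ W) ∧ Coc U β ∧ Submodule.span ℝ (β '' N) = W ∧
      (∀ g, L g ∈ fix U ⊤) ∧ (∀ g h, L (g * h) = L g + L h) ∧ (∀ n ∈ N, L n = 0) ∧
      Coc U r ∧ AC U r := by
  classical
  set β₀ : G → V := fun g => PF U N (b g) with hβ₀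
  have hβ₀c : Coc U β₀ := hb.PF N
  have hβ₀N : ∀ g, β₀ g ∈ fix U N := fun g => PF_mem N (b g)
  set W : Submodule ℝ V := Submodule.span ℝ (β₀ '' N) with hW
  have hWN : W ≤ fix U N := by
    rw [hW, Submodule.span_le]
    rintro _ ⟨n, _, rfl⟩
    exact hβ₀N n
  -- finite dimension
  have hfd : FiniteDimensional ℝ W := by
    obtain ⟨X, hX⟩ := hfg N
    have h1 : W = Submodule.span ℝ (β₀ '' (X : Set G)) := by
      apply le_antisymm
      · rw [hW, Submodule.span_le]
        rintro _ ⟨n, hn, rfl⟩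
        have hn' : n ∈ N := hn
        have hXN : (X : Set G) ⊆ N := by rw [← hX]; exact Subgroup.subset_closure
        rw [← hX] at hn'
        have key : n ∈ N ∧ β₀ n ∈ Submodule.span ℝ (β₀ '' (X : Set G)) := by
          induction hn' using Subgroup.closure_induction with
          | mem x hx => exact ⟨hXN hx, Submodule.subset_span ⟨x, hx, rfl⟩⟩
          | one => exact ⟨N.one_mem, by rw [hβ₀c.one]; exact Submodule.zero_mem _⟩
          | mul x y hx' hy' hx hy =>
            have hx := hx (by rw [← hX]; exact hx')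
            have hy := hy (by rw [← hX]; exact hy')
            refine ⟨N.mul_mem hx.1 hy.1, ?_⟩
            rw [hβ₀c x y, hβ₀N y x hx.1]
            exact Submodule.add_mem _ hx.2 hy.2
          | inv x hx' hx =>
            have hx := hx (by rw [← hX]; exact hx')
            refine ⟨N.inv_mem hx.1, ?_⟩
            rw [hβ₀c.inv x, hβ₀N x _ (N.inv_mem hx.1)]
            exact Submodule.neg_mem _ hx.2
        exact key.2
      · rw [Submodule.span_le]
        rintro _ ⟨n, hn, rfl⟩
        refine Submodule.subset_span ⟨n, ?_, rfl⟩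
        rw [← hX]; exact Subgroup.subset_closure hn
    rw [h1]
    exact FiniteDimensional.span_of_finite ℝ (X.finite_toSet.image _)
  -- invariance
  have hWU : ∀ g, ∀ v ∈ W, U g v ∈ W := by
    intro g v hv
    rw [hW] at hv
    induction hv using Submodule.span_induction with
    | mem x hx =>
      obtain ⟨n, hn, rfl⟩ := hx
      have h1 : U g (β₀ n) = β₀ (g * n * g⁻¹) := by
        rw [hβ₀c (g * n) g⁻¹, hβ₀c g n, hβ₀c.inv g, map_neg, U_mul,
          U_mem_fix g⁻¹ (hβ₀N g) n hn, U_apply_inv]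
        abel
      rw [h1]
      exact Submodule.subset_span ⟨_, (inferInstance : N.Normal).conj_mem n hn g, rfl⟩
    | zero => rw [map_zero]; exact Submodule.zero_mem _
    | add x y _ _ hx hy => rw [map_add]; exact Submodule.add_mem _ hx hy
    | smul c x _ hx => rw [map_smul]; exact Submodule.smul_mem _ _ hx
  set β : G → V := fun g => W.starProjection (β₀ g) with hβ
  have hβc : Coc U β := coc_proj hβ₀c W hWU
  have hβn : ∀ n ∈ N, β n = β₀ n := by
    intro n hn
    exact Submodule.starProjection_eq_self_iff.2 (Submodule.subset_span ⟨n, hn, rfl⟩)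
  set β₂ : G → V := fun g => β₀ g - β g with hβ₂
  have hβ₂c : Coc U β₂ := coc_sub hβ₀c hβc
  have hβ₂N : ∀ g, β₂ g ∈ fix U N := fun g =>
    Submodule.sub_mem _ (hβ₀N g) (hWN (Submodule.starProjection_apply_mem _ _))
  have hβ₂0 : ∀ n ∈ N, β₂ n = 0 := fun n hn => by rw [hβ₂]; simp only [hβn n hn, sub_self]
  set L : G → V := fun g => PF U ⊤ (β₂ g) with hL
  have hLc : Coc U L := hβ₂c.PF ⊤
  have hLtop : ∀ g, L g ∈ fix U ⊤ := fun g => PF_mem ⊤ (β₂ g)
  have hLmul : ∀ g h, L (g * h) = L g + L h := by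
    intro g h
    rw [hLc g h, hLtop h g (Subgroup.mem_top g)]
  have hL0 : ∀ n ∈ N, L n = 0 := fun n hn => by rw [hL]; simp only [hβ₂0 n hn, map_zero]
  set r₂ : G → V := fun g => β₂ g - L g with hr₂
  have hr₂c : Coc U r₂ := coc_sub hβ₂c hLc
  have hr₂N : ∀ g, r₂ g ∈ fix U N := fun g =>
    Submodule.sub_mem _ (hβ₂N g) (fix_anti le_top (hLtop g))
  have hr₂0 : ∀ n ∈ N, r₂ n = 0 := fun n hn => by
    rw [hr₂]; simp only [hβ₂0 n hn, hL0 n hn, sub_self]
  have hr₂top : ∀ g, r₂ g ∈ (fix U ⊤)ᗮ := fun g => sub_PF_mem ⊤ (β₂ g)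
  have hAC₂ : AC U r₂ := by
    refine ac_quot hr₂c N hr₂N hr₂0 fun b' hb' hbb' => ?_
    have hcomm : ∀ x y : G ⧸ N, x * y = y * x := by
      intro x y
      induction x using QuotientGroup.induction_on with
      | H x =>
        induction y using QuotientGroup.induction_on with
        | H y =>
          rw [← QuotientGroup.mk_mul, ← QuotientGroup.mk_mul, QuotientGroup.eq]
          have h1 := hab y⁻¹ x⁻¹
          have h2 : (x * y)⁻¹ * (y * x) = y⁻¹ * x⁻¹ * y⁻¹⁻¹ * x⁻¹⁻¹ := by group
          rw [h2]; exact h1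
    refine ac_nil measProp (fg_quot hfg N) (⊤ : Subgroup (G ⧸ N)) (isNilpotent_top_of_comm hcomm)
      (fun _ _ => Subgroup.mem_top _) hb' ?_
    intro q
    have h1 := quot_orth N ⊤ hr₂top hbb' q
    rwa [Subgroup.map_top_of_surjective _ (QuotientGroup.mk'_surjective N)] at h1
  set r₁ : G → V := fun g => b g - β₀ g with hr₁
  have hr₁c : Coc U r₁ := hb.subPF N
  have hAC₁ : AC U r₁ := ac_nil measProp hfg N hnil hab hr₁c fun g => sub_PF_mem N (b g)
  refine ⟨W, β, L, fun g => r₁ g + r₂ g, hfd, ?_, fun g => Submodule.starProjection_apply_mem _ _,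
    hWN, hWU, hβc, ?_, hLtop, hLmul, hL0, hr₁c.add hr₂c, hAC₁.add hAC₂⟩
  · intro g
    rw [hr₁, hr₂, hβ₂]
    simp only
    abel
  · rw [hW]
    congr 1
    exact Set.image_congr fun n hn => hβn n hn

end Crest.Agent.R182.Ht
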