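/-
R182, module HTEXT (helper671): the Hilbert space `V = L²(m)` of an invariant mean `m` on an algebra
of bounded functions, the orthogonal representation of `G` on `V`, and:
for an extreme mean the only invariant vectors are the constants.
-/
import Mathlib
import Crest.Agent.R182.ErgCoc

set_option autoImplicit false
set_option linter.unusedSectionVars false

namespace Crest.Agent.R182.Ht

open Filter Topology Crest.Agent.R182.Erg

variable {G X : Type*} [Group G]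

/-- the algebra `𝓐` with the seminorm of `L²(m)`. -/
def PreV {ρ : X → G → X} {𝓐 : Subalgebra ℝ (X → ℝ)} {m : (X → ℝ) → ℝ}
    (_ha : Alg ρ 𝓐) (_hm : IMean ρ 𝓐 m) : Type _ := 𝓐

section

variable {ρ : X → G → X} {𝓐 : Subalgebra ℝ (X → ℝ)} {m : (X → ℝ) → ℝ}
  (ha : Alg ρ 𝓐) (hm : IMean ρ 𝓐 m)

noncomputable instance : AddCommGroup (PreV ha hm) := inferInstanceAs (AddCommGroup 𝓐)
noncomputable instance : Module ℝ (PreV ha hm) := inferInstanceAs (Module ℝ 𝓐)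

/-- the underlying function. -/
def fn {ha : Alg ρ 𝓐} {hm : IMean ρ 𝓐 m} (φ : PreV ha hm) : X → ℝ := ((show 𝓐 from φ) : X → ℝ)

theorem fn_mem {ha : Alg ρ 𝓐} {hm : IMean ρ 𝓐 m} (φ : PreV ha hm) : fn φ ∈ 𝓐 :=
  (show 𝓐 from φ).2

theorem fn_add {ha : Alg ρ 𝓐} {hm : IMean ρ 𝓐 m} (φ χ : PreV ha hm) :
    fn (φ + χ) = fn φ + fn χ := rfl

theorem fn_smul {ha : Alg ρ 𝓐} {hm : IMean ρ 𝓐 m} (c : ℝ) (φ : PreV ha hm) :
    fn (c • φ) = c • fn φ := rfl

/-- an element of `𝓐` as element of `PreV`. -/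
def mkV {φ : X → ℝ} (hφ : φ ∈ 𝓐) : PreV ha hm := (⟨φ, hφ⟩ : 𝓐)

@[simp] theorem fn_mkV {φ : X → ℝ} (hφ : φ ∈ 𝓐) : fn (mkV ha hm hφ) = φ := rfl

/-- the inner product of `L²(m)`. -/
@[reducible] noncomputable def preCore : PreInnerProductSpace.Core ℝ (PreV ha hm) where
  inner φ χ := m (fn φ * fn χ)
  conj_inner_symm φ χ := by
    change m _ = m _
    rw [mul_comm]
  re_inner_nonneg φ := hm.toPInv.sq_nonneg (fn_mem φ)
  add_left φ χ ψ := by
    change m _ = m _ + m _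
    rw [fn_add, add_mul, hm.add _ (mul_mem (fn_mem φ) (fn_mem ψ)) _
      (mul_mem (fn_mem χ) (fn_mem ψ))]
  smul_left φ χ r := by
    change m _ = r * m _
    rw [fn_smul, smul_mul_assoc, hm.smul _ _ (mul_mem (fn_mem φ) (fn_mem χ))]

noncomputable instance instSNG : SeminormedAddCommGroup (PreV ha hm) :=
  @InnerProductSpace.Core.toSeminormedAddCommGroup ℝ (PreV ha hm) _ _ _ (preCore ha hm)

noncomputable instance instIPS : InnerProductSpace ℝ (PreV ha hm) :=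
  InnerProductSpace.ofCore (preCore ha hm)

theorem inner_pre (φ χ : PreV ha hm) : inner ℝ φ χ = m (fn φ * fn χ) := rfl

/-- `L²(m)`. -/
abbrev V : Type _ := UniformSpace.Completion (PreV ha hm)

/-- the class of a function of `𝓐` in `L²(m)`. -/
noncomputable def ofP : PreV ha hm →ₗ[ℝ] V ha hm :=
  (UniformSpace.Completion.toComplₗᵢ (𝕜 := ℝ) (E := PreV ha hm)).toLinearMap

/-- the class of a function of `𝓐` in `L²(m)`. -/
noncomputable def ofA : 𝓐 →ₗ[ℝ] V ha hm := ofP ha hm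

theorem inner_ofA (φ χ : 𝓐) : inner ℝ (ofA ha hm φ) (ofA ha hm χ) = m ((φ : X → ℝ) * χ) :=
  UniformSpace.Completion.inner_coe (𝕜 := ℝ) (E := PreV ha hm) _ _

theorem norm_ofA (φ : 𝓐) : ‖ofA ha hm φ‖ = nrm m (φ : X → ℝ) := by
  rw [nrm, ← inner_ofA ha hm, real_inner_self_eq_norm_sq, Real.sqrt_sq (norm_nonneg _)]

theorem denseRange_ofA : DenseRange (ofA ha hm) := by
  have h : DenseRange ((↑) : PreV ha hm → V ha hm) := UniformSpace.Completion.denseRange_coe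
  exact h

theorem norm_ofA_le {φ : 𝓐} {C : ℝ} (hC : ∀ x, |(φ : X → ℝ) x| ≤ C) (hC0 : 0 ≤ C) :
    ‖ofA ha hm φ‖ ≤ C := by
  rw [norm_ofA]
  exact hm.nrm_le φ.2 hC hC0

/-- the shift on `𝓐`. -/
def sh (g : G) : 𝓐 ≃ₗ[ℝ] 𝓐 where
  toFun φ := ⟨fun x => (φ : X → ℝ) (ρ x g), ha.shift g _ φ.2⟩
  invFun φ := ⟨fun x => (φ : X → ℝ) (ρ x g⁻¹), ha.shift g⁻¹ _ φ.2⟩
  map_add' φ χ := rfl
  map_smul' c φ := rfl
  left_inv φ := by
    apply Subtype.ext
    funext x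
    show (φ : X → ℝ) (ρ (ρ x g⁻¹) g) = _
    rw [← ha.mul, inv_mul_cancel, ha.one]
  right_inv φ := by
    apply Subtype.ext
    funext x
    show (φ : X → ℝ) (ρ (ρ x g) g⁻¹) = _
    rw [← ha.mul, mul_inv_cancel, ha.one]

theorem sh_apply (g : G) (φ : 𝓐) (x : X) : (sh ha g φ : X → ℝ) x = (φ : X → ℝ) (ρ x g) := rfl

theorem norm_sh (g : G) (φ : 𝓐) : ‖ofA ha hm (sh ha g φ)‖ = ‖ofA ha hm φ‖ := by
  rw [norm_ofA, norm_ofA]
  exact hm.toPInv.nrm_shift φ.2 g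

/-- the unitary operator of `g`. -/
noncomputable def U₀ (g : G) : V ha hm ≃ₗᵢ[ℝ] V ha hm :=
  (sh ha g).extendOfIsometry (ofA ha hm) (ofA ha hm) (denseRange_ofA ha hm) (denseRange_ofA ha hm)
    (norm_sh ha hm g)

theorem U₀_ofA (g : G) (φ : 𝓐) : U₀ ha hm g (ofA ha hm φ) = ofA ha hm (sh ha g φ) :=
  LinearEquiv.extendOfIsometry_eq _ _ _ _ _ _ φ

theorem ext_of_dense {A B : V ha hm →L[ℝ] V ha hm}
    (h : ∀ φ : 𝓐, A (ofA ha hm φ) = B (ofA ha hm φ)) : A = B :=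
  ContinuousLinearMap.coe_injective (by
    apply LinearMap.ext
    intro v
    exact congrFun ((denseRange_ofA ha hm).equalizer A.continuous B.continuous (funext h)) v)

/-- the orthogonal representation of `G` on `L²(m)`. -/
noncomputable def U : G →* (V ha hm ≃ₗᵢ[ℝ] V ha hm) where
  toFun := U₀ ha hm
  map_one' := by
    apply LinearIsometryEquiv.ext
    intro v
    refine congrFun ((denseRange_ofA ha hm).equalizer (U₀ ha hm 1).continuous continuous_id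
      (funext fun φ => ?_)) v
    show U₀ ha hm 1 (ofA ha hm φ) = ofA ha hm φ
    rw [U₀_ofA]
    congr 1
    apply Subtype.ext
    funext x
    rw [sh_apply, ha.one]
  map_mul' g h := by
    apply LinearIsometryEquiv.ext
    intro v
    refine congrFun ((denseRange_ofA ha hm).equalizer (U₀ ha hm (g * h)).continuous
      ((U₀ ha hm g).continuous.comp (U₀ ha hm h).continuous) (funext fun φ => ?_)) v
    show U₀ ha hm (g * h) (ofA ha hm φ) = U₀ ha hm g (U₀ ha hm h (ofA ha hm φ))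
    rw [U₀_ofA, U₀_ofA, U₀_ofA]
    congr 1
    apply Subtype.ext
    funext x
    rw [sh_apply, sh_apply, sh_apply, ha.mul]

@[simp] theorem U_ofA (g : G) (φ : 𝓐) : U ha hm g (ofA ha hm φ) = ofA ha hm (sh ha g φ) :=
  U₀_ofA ha hm g φ

/-! ### Truncation -/

/-- the algebra is closed under truncations. -/
def TrClosed (𝓐 : Subalgebra ℝ (X → ℝ)) : Prop :=
  ∀ φ ∈ 𝓐, ∀ c : ℝ, (fun x => max (-c) (min (φ x) c)) ∈ 𝓐

theorem TrClosed.of_abs {𝓐 : Subalgebra ℝ (X → ℝ)} (h : ∀ φ ∈ 𝓐, (fun x => |φ x|) ∈ 𝓐) :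
    TrClosed 𝓐 := by
  have hmin : ∀ φ ∈ 𝓐, ∀ χ ∈ 𝓐, (fun x => min (φ x) (χ x)) ∈ 𝓐 := by
    intro φ hφ χ hχ
    have h1 : (fun x => min (φ x) (χ x)) = (2⁻¹ : ℝ) • (φ + χ - fun x => |(φ - χ) x|) := by
      funext x
      simp only [Pi.smul_apply, Pi.sub_apply, Pi.add_apply, smul_eq_mul]
      rcases le_total (φ x) (χ x) with h2 | h2
      · rw [min_eq_left h2, abs_of_nonpos (sub_nonpos.2 h2)]; ring
      · rw [min_eq_right h2, abs_of_nonneg (sub_nonneg.2 h2)]; ring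
    rw [h1]
    exact 𝓐.smul_mem (sub_mem (add_mem hφ hχ) (h _ (sub_mem hφ hχ))) _
  intro φ hφ c
  have h1 : (fun x => max (-c) (min (φ x) c)) =
      -(fun x => min ((fun _ => c : X → ℝ) x) ((-fun x => min (φ x) c) x)) := by
    funext x
    simp only [Pi.neg_apply]
    rw [← max_neg_neg, neg_neg]
  rw [h1]
  exact neg_mem (hmin _ (const_mem 𝓐 c) _ (neg_mem (hmin _ hφ _ (const_mem 𝓐 c))))

variable (ht : TrClosed 𝓐)

/-- truncation on `𝓐`. -/
noncomputable def clA (c : ℝ) (φ : 𝓐) : 𝓐 := ⟨_, ht _ φ.2 c⟩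

theorem clA_apply (c : ℝ) (φ : 𝓐) (x : X) :
    (clA ht c φ : X → ℝ) x = max (-c) (min ((φ : X → ℝ) x) c) := rfl

theorem abs_clamp_sub (c a b : ℝ) : |max (-c) (min a c) - max (-c) (min b c)| ≤ |a - b| := by
  have h1 := abs_max_sub_max_le_max (-c) (min a c) (-c) (min b c)
  have h2 := abs_min_sub_min_le_max a c b c
  rw [sub_self, abs_zero] at h1 h2
  exact (h1.trans (max_le (abs_nonneg _) le_rfl)).trans (h2.trans (max_le le_rfl (abs_nonneg _)))

theorem nrm_mono (hm : PInv ρ 𝓐 m) {φ χ : X → ℝ} (hφ : φ ∈ 𝓐) (hχ : χ ∈ 𝓐)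
    (h : ∀ x, |φ x| ≤ |χ x|) : nrm m φ ≤ nrm m χ := by
  refine Real.sqrt_le_sqrt (hm.mono (mul_mem hφ hφ) (mul_mem hχ hχ) fun x => ?_)
  show φ x * φ x ≤ χ x * χ x
  rw [← abs_mul_abs_self (φ x), ← abs_mul_abs_self (χ x)]
  exact mul_self_le_mul_self (abs_nonneg _) (h x)

theorem norm_clA_sub (c : ℝ) (φ χ : 𝓐) :
    ‖ofA ha hm (clA ht c φ) - ofA ha hm (clA ht c χ)‖ ≤ ‖ofA ha hm φ - ofA ha hm χ‖ := by
  rw [← map_sub, ← map_sub, norm_ofA, norm_ofA]
  exact nrm_mono hm.toPInv (clA ht c φ - clA ht c χ).2 (φ - χ).2 fun x => abs_clamp_sub c _ _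

/-- truncation on `PreV`. -/
noncomputable def clP (c : ℝ) (φ : PreV ha hm) : PreV ha hm := clA ht c φ

theorem lip_clP (c : ℝ) : LipschitzWith 1 (clP ha hm ht c) := by
  refine LipschitzWith.of_dist_le_mul fun φ χ => ?_
  rw [NNReal.coe_one, one_mul, dist_eq_norm, dist_eq_norm]
  have h1 := norm_clA_sub ha hm ht c φ χ
  have h2 : ∀ φ χ : PreV ha hm, ‖ofA ha hm φ - ofA ha hm χ‖ = ‖φ - χ‖ := by
    intro φ χ
    have h3 : ofA ha hm φ - ofA ha hm χ = ((φ - χ : PreV ha hm) : V ha hm) := by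
      rw [UniformSpace.Completion.coe_sub]; rfl
    rw [h3, UniformSpace.Completion.norm_coe]
  rw [← h2, ← h2]
  exact h1

/-- truncation on `L²(m)`. -/
noncomputable def Tc (c : ℝ) : V ha hm → V ha hm := UniformSpace.Completion.map (clP ha hm ht c)

theorem Tc_ofA (c : ℝ) (φ : 𝓐) : Tc ha hm ht c (ofA ha hm φ) = ofA ha hm (clA ht c φ) :=
  UniformSpace.Completion.map_coe (lip_clP ha hm ht c).uniformContinuous _

theorem continuous_Tc (c : ℝ) : Continuous (Tc ha hm ht c) := UniformSpace.Completion.continuous_map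

theorem norm_Tc_sub (c : ℝ) (v w : V ha hm) :
    ‖Tc ha hm ht c v - Tc ha hm ht c w‖ ≤ ‖v - w‖ := by
  have hc := continuous_Tc ha hm ht c
  refine (denseRange_ofA ha hm).induction_on₂ (p := fun v w =>
    ‖Tc ha hm ht c v - Tc ha hm ht c w‖ ≤ ‖v - w‖) ?_ ?_ v w
  · exact isClosed_le (((hc.comp continuous_fst).sub (hc.comp continuous_snd)).norm)
      ((continuous_fst.sub continuous_snd).norm)
  · intro φ χ
    rw [Tc_ofA, Tc_ofA]
    exact norm_clA_sub ha hm ht c φ χ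

theorem Tc_U (c : ℝ) (g : G) (v : V ha hm) :
    Tc ha hm ht c (U ha hm g v) = U ha hm g (Tc ha hm ht c v) := by
  have hc := continuous_Tc ha hm ht c
  refine congrFun ((denseRange_ofA ha hm).equalizer (hc.comp (U ha hm g).continuous)
    ((U ha hm g).continuous.comp hc) (funext fun φ => ?_)) v
  show Tc ha hm ht c (U ha hm g (ofA ha hm φ)) = U ha hm g (Tc ha hm ht c (ofA ha hm φ))
  rw [U_ofA, Tc_ofA, Tc_ofA, U_ofA]
  rfl

theorem abs_inner_Tc_le {c : ℝ} (hc : 0 ≤ c) (v : V ha hm) (χ : 𝓐) (hχ : ∀ x, 0 ≤ (χ : X → ℝ) x) :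
    |inner ℝ (Tc ha hm ht c v) (ofA ha hm χ)| ≤ c * m χ := by
  refine (denseRange_ofA ha hm).induction_on (p := fun v =>
    |inner ℝ (Tc ha hm ht c v) (ofA ha hm χ)| ≤ c * m χ) v ?_ ?_
  · exact isClosed_le (((continuous_Tc ha hm ht c).inner continuous_const).abs) continuous_const
  · intro φ
    rw [Tc_ofA, inner_ofA, abs_le, ← hm.smul _ _ χ.2]
    have hmem := mul_mem (clA ht c φ).2 χ.2
    constructor
    · rw [← neg_le_neg_iff, neg_neg, ← hm.toPInv.neg hmem]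
      refine hm.toPInv.mono (neg_mem hmem) (𝓐.smul_mem χ.2 c) fun x => ?_
      show -((clA ht c φ : X → ℝ) x * (χ : X → ℝ) x) ≤ c * (χ : X → ℝ) x
      rw [← neg_mul]
      refine mul_le_mul_of_nonneg_right ?_ (hχ x)
      rw [clA_apply, neg_le]
      exact le_max_left _ _
    · refine hm.toPInv.mono hmem (𝓐.smul_mem χ.2 c) fun x => ?_
      show (clA ht c φ : X → ℝ) x * (χ : X → ℝ) x ≤ c * (χ : X → ℝ) x
      refine mul_le_mul_of_nonneg_right ?_ (hχ x)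
      rw [clA_apply]
      exact max_le (by linarith) (min_le_right _ _)

theorem inner_U_left (g : G) (v w : V ha hm) :
    inner ℝ (U ha hm g v) w = inner ℝ v (U ha hm g⁻¹ w) := by
  have h1 : U ha hm g (U ha hm g⁻¹ w) = w := by
    have h2 : (U ha hm g * U ha hm g⁻¹) w = w := by
      rw [← map_mul, mul_inv_cancel, map_one]; rfl
    exact h2
  conv_lhs => rw [← h1]
  exact (U ha hm g).inner_map_map _ _

/-- a bounded invariant vector is constant. -/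
theorem Tc_const (hE : Ext ρ 𝓐 m) {c : ℝ} (hc : 0 < c) {v : V ha hm}
    (hv : ∀ g, U ha hm g v = v) :
    ∃ κ : ℝ, Tc ha hm ht c v = κ • ofA ha hm 1 := by
  classical
  set w := Tc ha hm ht c v with hw
  have hwi : ∀ g, U ha hm g w = w := fun g => by rw [hw, ← Tc_U, hv]
  have hle := fun χ hχ => abs_le.1 (abs_inner_Tc_le ha hm ht hc.le v χ hχ)
  set m' : (X → ℝ) → ℝ := fun φ => if h : φ ∈ 𝓐 then
    (2 * c)⁻¹ * (c * m φ + inner ℝ w (ofA ha hm ⟨φ, h⟩)) else 0 with hm'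
  have hval : ∀ φ (h : φ ∈ 𝓐), m' φ = (2 * c)⁻¹ * (c * m φ + inner ℝ w (ofA ha hm ⟨φ, h⟩)) := by
    intro φ h
    simp only [hm', dif_pos h]
  have hpos : 0 < (2 * c)⁻¹ := by positivity
  have hP : PInv ρ 𝓐 m' := by
    refine ⟨?_, ?_, ?_, ?_⟩
    · intro φ hφ χ hχ
      have h1 : ofA ha hm ⟨φ + χ, add_mem hφ hχ⟩ = ofA ha hm ⟨φ, hφ⟩ + ofA ha hm ⟨χ, hχ⟩ := by
        rw [← map_add]; rfl
      rw [hval _ hφ, hval _ hχ, hval _ (add_mem hφ hχ), hm.add _ hφ _ hχ, h1, inner_add_right]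
      ring
    · intro a φ hφ
      have h1 : ofA ha hm ⟨a • φ, 𝓐.smul_mem hφ a⟩ = a • ofA ha hm ⟨φ, hφ⟩ := by
        rw [← map_smul]; rfl
      rw [hval _ hφ, hval _ (𝓐.smul_mem hφ a), hm.smul _ _ hφ, h1, real_inner_smul_right]
      ring
    · intro φ hφ h0
      rw [hval _ hφ]
      have h1 := (hle ⟨φ, hφ⟩ h0).1
      exact mul_nonneg hpos.le (by linarith)
    · intro g φ hφ
      rw [hval _ hφ, hval _ (ha.shift g _ hφ), hm.inv g _ hφ]
      have h1 : ofA ha hm ⟨_, ha.shift g _ hφ⟩ = U ha hm g (ofA ha hm ⟨φ, hφ⟩) := by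
        rw [U_ofA]; rfl
      rw [h1]
      conv_lhs => rw [← hwi g]
      rw [(U ha hm g).inner_map_map]
  obtain ⟨κ, hκ⟩ := hE m' hP fun φ hφ h0 => by
    rw [hval _ hφ]
    have h1 := (hle ⟨φ, hφ⟩ h0).2
    rw [inv_mul_le_iff₀ (by positivity)]
    linarith
  refine ⟨2 * c * κ - c, ?_⟩
  have h1 : ∀ φ : 𝓐, inner ℝ w (ofA ha hm φ) = inner ℝ ((2 * c * κ - c) • ofA ha hm 1)
      (ofA ha hm φ) := by
    intro φ
    have h2 := hκ φ φ.2
    rw [hval _ φ.2, inv_mul_eq_iff_eq_mul₀ (by positivity)] at h2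
    rw [real_inner_smul_left, inner_ofA]
    have h3 : ((1 : 𝓐) : X → ℝ) * (φ : X → ℝ) = φ := one_mul _
    rw [h3]
    have h4 : inner ℝ w (ofA ha hm ⟨φ, φ.2⟩) = inner ℝ w (ofA ha hm φ) := rfl
    rw [h4] at h2
    linarith
  refine ext_inner_right ℝ fun u => ?_
  exact congrFun ((denseRange_ofA ha hm).equalizer (continuous_const.inner continuous_id)
    (continuous_const.inner continuous_id) (funext h1)) u

theorem norm_one : ‖ofA ha hm 1‖ = 1 := by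
  rw [norm_ofA, nrm]
  have h3 : ((1 : 𝓐) : X → ℝ) * ((1 : 𝓐) : X → ℝ) = 1 := one_mul _
  rw [h3, hm.one, Real.sqrt_one]

/-- truncations converge. -/
theorem tendsto_Tc (v : V ha hm) {ε : ℝ} (hε : 0 < ε) :
    ∃ C : ℝ, ∀ c ≥ C, ‖Tc ha hm ht c v - v‖ ≤ ε := by
  obtain ⟨φ, hφ⟩ := (denseRange_ofA ha hm).exists_dist_lt v (half_pos hε)
  obtain ⟨C, hC⟩ := ha.bdd φ φ.2
  refine ⟨C, fun c hc => ?_⟩
  have h1 : clA ht c φ = φ := by
    apply Subtype.ext
    funext x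
    rw [clA_apply]
    have h2 := abs_le.1 ((hC x).trans hc)
    rw [min_eq_left h2.2, max_eq_right h2.1]
  have h3 := norm_Tc_sub ha hm ht c v (ofA ha hm φ)
  rw [Tc_ofA, h1] at h3
  rw [dist_eq_norm] at hφ
  calc ‖Tc ha hm ht c v - v‖ = ‖(Tc ha hm ht c v - ofA ha hm φ) - (v - ofA ha hm φ)‖ := by
        congr 1; abel
    _ ≤ ‖Tc ha hm ht c v - ofA ha hm φ‖ + ‖v - ofA ha hm φ‖ := norm_sub_le _ _
    _ ≤ ε := by linarith

include ht in
/-- **Ergodicity**: for an extreme invariant mean the invariant vectors are the constants. -/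
theorem fixed_const_of_tr (hE : Ext ρ 𝓐 m) {v : V ha hm} (hv : ∀ g, U ha hm g v = v) :
    v = (inner ℝ (ofA ha hm 1) v) • ofA ha hm 1 := by
  have key : ∀ ε > 0, ‖v - (inner ℝ (ofA ha hm 1) v) • ofA ha hm 1‖ ≤ ε := by
    intro ε hε
    obtain ⟨C, hC⟩ := tendsto_Tc ha hm ht v (half_pos hε)
    set c := max C 1 with hc
    have hc0 : 0 < c := lt_of_lt_of_le one_pos (le_max_right _ _)
    obtain ⟨κ, hκ⟩ := Tc_const ha hm ht hE hc0 hv
    have h1 := hC c (le_max_left _ _)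
    rw [hκ] at h1
    have h2 : v - (inner ℝ (ofA ha hm 1) v) • ofA ha hm 1 =
        -(κ • ofA ha hm 1 - v) +
          (inner ℝ (ofA ha hm 1) (κ • ofA ha hm 1 - v)) • ofA ha hm 1 := by
      rw [inner_sub_right, real_inner_smul_right, real_inner_self_eq_norm_sq, norm_one]
      module
    rw [h2]
    refine (norm_add_le _ _).trans ?_
    rw [norm_neg, norm_smul, norm_one, mul_one]
    have h3 := norm_inner_le_norm (𝕜 := ℝ) (ofA ha hm 1) (κ • ofA ha hm 1 - v)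
    rw [norm_one, one_mul] at h3
    linarith
  have h0 : ‖v - (inner ℝ (ofA ha hm 1) v) • ofA ha hm 1‖ ≤ 0 :=
    le_of_forall_pos_le_add fun ε hε => by rw [zero_add]; exact key ε hε
  exact sub_eq_zero.1 (norm_le_zero_iff.1 h0)

/-- **Ergodicity**: for an extreme invariant mean the invariant vectors are the constants. -/
theorem fixed_const (habs : ∀ φ ∈ 𝓐, (fun x => |φ x|) ∈ 𝓐) (hE : Ext ρ 𝓐 m) {v : V ha hm}
    (hv : ∀ g, U ha hm g v = v) : v = (inner ℝ v (ofA ha hm 1)) • ofA ha hm 1 := by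
  rw [real_inner_comm]
  exact fixed_const_of_tr ha hm (TrClosed.of_abs habs) hE hv

/-! ### Back from `L²` to `L¹` -/

theorem mean_abs_le (habs : ∀ φ ∈ 𝓐, (fun x => |φ x|) ∈ 𝓐) (φ : 𝓐) :
    m (fun x => |(φ : X → ℝ) x|) ≤ ‖ofA ha hm φ‖ := by
  have h1 := (le_abs_self _).trans (hm.toPInv.abs_le (habs _ φ.2) (one_mem 𝓐))
  have h2 : nrm m (1 : X → ℝ) = 1 := by
    rw [nrm, one_mul, hm.one, Real.sqrt_one]
  have h3 : nrm m (fun x => |(φ : X → ℝ) x|) = nrm m (φ : X → ℝ) := by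
    rw [nrm, nrm]
    congr 2
    funext x
    exact abs_mul_abs_self _
  rw [mul_one, h2, mul_one, h3] at h1
  rwa [norm_ofA]

theorem mean_abs_sub_le (habs : ∀ φ ∈ 𝓐, (fun x => |φ x|) ∈ 𝓐) (φ χ : 𝓐) :
    m (fun x => |(φ : X → ℝ) x - (χ : X → ℝ) x|) ≤ ‖ofA ha hm φ - ofA ha hm χ‖ := by
  rw [← map_sub]
  exact mean_abs_le ha hm habs (φ - χ)

theorem exists_near (v : V ha hm) {ε : ℝ} (hε : 0 < ε) : ∃ ξ : 𝓐, ‖v - ofA ha hm ξ‖ < ε := by
  obtain ⟨φ, hφ⟩ := (denseRange_ofA ha hm).exists_dist_lt v hε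
  exact ⟨φ, by rwa [← dist_eq_norm]⟩

/-- almost coboundaries in `L²` give almost coboundaries of functions of `𝓐` in `L¹`. -/
theorem exists_cob (habs : ∀ φ ∈ 𝓐, (fun x => |φ x|) ∈ 𝓐) (v : V ha hm) {ε : ℝ} (hε : 0 < ε) :
    ∃ ξ : 𝓐, ∀ (g : G) (a : 𝓐),
      m (fun x => |(a : X → ℝ) x - ((ξ : X → ℝ) x - (ξ : X → ℝ) (ρ x g))|) ≤
        ‖ofA ha hm a - (v - U ha hm g v)‖ + ε := by
  obtain ⟨ξ, hξ⟩ := exists_near ha hm v (half_pos hε)
  refine ⟨ξ, fun g a => ?_⟩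
  refine (mean_abs_sub_le ha hm habs a (ξ - sh ha g ξ)).trans ?_
  have h1 : ofA ha hm a - ofA ha hm (ξ - sh ha g ξ) =
      (ofA ha hm a - (v - U ha hm g v)) + ((v - ofA ha hm ξ) - U ha hm g (v - ofA ha hm ξ)) := by
    rw [map_sub, map_sub, U_ofA]
    abel
  rw [h1]
  refine (norm_add_le _ _).trans (add_le_add_right ?_ _)
  refine (norm_sub_le _ _).trans ?_
  rw [(U ha hm g).norm_map]
  linarith

/-! ### Cocycles -/

/-- the vector valued cocycle of a bounded cocycle. -/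
noncomputable def bco {A : G → X → ℝ} (hA : Coc ρ 𝓐 A) (g : G) : V ha hm :=
  ofA ha hm ⟨A g, hA.mem g⟩

theorem bco_mul {A : G → X → ℝ} (hA : Coc ρ 𝓐 A) (g h : G) :
    bco ha hm hA (g * h) = bco ha hm hA g + U ha hm g (bco ha hm hA h) := by
  rw [bco, bco, bco, U_ofA, ← map_add]
  congr 1
  apply Subtype.ext
  funext x
  exact hA.coc g h x

theorem norm_bco {A : G → X → ℝ} (hA : Coc ρ 𝓐 A) (g : G) :
    ‖bco ha hm hA g‖ = nrm m (A g) := norm_ofA ha hm _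

end

end Crest.Agent.R182.Ht
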