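import Mathlib
import Crest.Agent.R182.HtDec
import Crest.Agent.R182.HtExt
import Crest.Agent.R182.MicDefs
import Crest.Agent.R182.FinRed

/-!
# Row 182, module HT (author: helper506): vector valued cocycles over an extreme mean
-/

set_option autoImplicit false

namespace Crest.Agent.R182.Ht

open Filter Topology Crest.Agent.R182.FinRed Crest.Agent.R182.FinPath

universe u v

section VK

variable {G : Type u} [Group G] {V : Type v} [NormedAddCommGroup V] [InnerProductSpace ℝ V]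

/-- `V^k` -/
abbrev VK (k : ℕ) (V : Type v) : Type v := PiLp 2 (fun _ : Fin k => V)

/-- the diagonal action -/
noncomputable def UK (U : G →* (V ≃ₗᵢ[ℝ] V)) (k : ℕ) : G →* (VK k V ≃ₗᵢ[ℝ] VK k V) where
  toFun g := LinearIsometryEquiv.piLpCongrRight 2 (fun _ => U g)
  map_one' := by
    ext v i
    simp [LinearIsometryEquiv.piLpCongrRight_apply]
  map_mul' g h := by
    ext v i
    simp [LinearIsometryEquiv.piLpCongrRight_apply]

theorem UK_apply (U : G →* (V ≃ₗᵢ[ℝ] V)) {k : ℕ} (g : G) (v : VK k V) (i : Fin k) :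
    (UK U k g v) i = U g (v i) := rfl

theorem norm_coord_le {k : ℕ} (v : VK k V) (i : Fin k) : ‖v i‖ ≤ ‖v‖ :=
  PiLp.norm_apply_le v i

theorem norm_le_sum {k : ℕ} (v : VK k V) : ‖v‖ ≤ ∑ i, ‖v i‖ := by
  rw [PiLp.norm_eq_of_L2]
  have h : ∑ i, ‖v i‖ ^ 2 ≤ (∑ i, ‖v i‖) ^ 2 :=
    Finset.sum_sq_le_sq_sum_of_nonneg fun i _ => norm_nonneg _
  calc Real.sqrt (∑ i, ‖v i‖ ^ 2) ≤ Real.sqrt ((∑ i, ‖v i‖) ^ 2) := Real.sqrt_le_sqrt h
    _ = ∑ i, ‖v i‖ := Real.sqrt_sq (Finset.sum_nonneg fun i _ => norm_nonneg _)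

end VK

/-- a homomorphism to `ℝ` which vanishes on the kernel of a surjection onto `ℤ^l` is linear -/
theorem exists_linear {G : Type u} [Group G] {l : ℕ} {π : G →* Multiplicative (Fin l → ℤ)}
    (hπ : Function.Surjective π) (c : G → ℝ) (hc : ∀ g h, c (g * h) = c g + c h)
    (h0 : ∀ g, π g = 1 → c g = 0) : ∃ a : (Fin l → ℝ) →ₗ[ℝ] ℝ, ∀ g, c g = a (hgtR π g) := by
  classical
  have h1 : c 1 = 0 := by
    have := hc 1 1
    rw [mul_one] at this
    linarith
  have hinv : ∀ g, c g⁻¹ = - c g := by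
    intro g
    have := hc g g⁻¹
    rw [mul_inv_cancel, h1] at this
    linarith
  choose x hx using fun j : Fin l => hπ (Multiplicative.ofAdd (Pi.single j (1 : ℤ)))
  have hz : ∀ (g : G) (n : ℤ), c (g ^ n) = n * c g := by
    intro g n
    let f : G →* Multiplicative ℝ :=
      { toFun := fun g => Multiplicative.ofAdd (c g)
        map_one' := by rw [h1]; rfl
        map_mul' := fun g h => by rw [hc]; rfl }
    have h2 : f (g ^ n) = (f g) ^ n := map_zpow f g n
    have h3 := congrArg Multiplicative.toAdd h2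
    rw [toAdd_zpow] at h3
    have h4 : c (g ^ n) = n • c g := h3
    rw [h4, zsmul_eq_mul]
  refine ⟨LinearMap.lsum ℝ (fun _ => ℝ) ℝ (fun j => (LinearMap.toSpanSingleton ℝ ℝ (c (x j)))), ?_⟩
  intro g
  set v : Fin l → ℤ := Multiplicative.toAdd (π g) with hv
  set p : G := (List.ofFn fun j => x j ^ v j).prod with hp
  have hπp : π p = π g := by
    rw [hp, map_list_prod, List.map_ofFn, List.prod_ofFn]
    apply Multiplicative.toAdd.injective
    rw [toAdd_prod]
    ext i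
    rw [Finset.sum_apply]
    simp only [Function.comp, map_zpow, hx, toAdd_zpow, toAdd_ofAdd, Pi.smul_apply,
      smul_eq_mul, Pi.single_apply]
    rw [Finset.sum_eq_single i]
    · simp [hv]
    · intro j _ hj
      simp [hj.symm]
    · intro h; exact absurd (Finset.mem_univ _) h
  have hcp : c p = c g := by
    have h2 : c (g * p⁻¹) = 0 := h0 _ (by rw [map_mul, map_inv, hπp, mul_inv_cancel])
    rw [hc, hinv] at h2
    linarith
  have hcp2 : c p = ∑ j, (v j : ℝ) * c (x j) := by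
    have hl : ∀ l : List G, c l.prod = (l.map c).sum := by
      intro l
      induction l with
      | nil => simp [h1]
      | cons a l ih => rw [List.prod_cons, hc, ih, List.map_cons, List.sum_cons]
    rw [hp, hl, List.map_ofFn, List.sum_ofFn]
    exact Finset.sum_congr rfl fun j _ => hz _ _
  rw [← hcp, hcp2, LinearMap.lsum_apply, LinearMap.sum_apply]
  refine Finset.sum_congr rfl fun j _ => ?_
  simp [LinearMap.toSpanSingleton_apply, hgtR, hgt, hv]

section Dec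

open Crest.Agent.R182.Erg

variable {G : Type u} [Group G] {X : Type v} {ρ : X → G → X} {𝓐 : Subalgebra ℝ (X → ℝ)}
  {m : (X → ℝ) → ℝ}

/-- the vector valued cocycle in `V^k` -/
noncomputable def bvec (ha : Alg ρ 𝓐) (hm : IMean ρ 𝓐 m) {k : ℕ} {A : Fin k → G → X → ℝ}
    (hA : ∀ i, Erg.Coc ρ 𝓐 (A i)) (g : G) : VK k (V ha hm) :=
  WithLp.toLp 2 fun i => bco ha hm (hA i) g

theorem bvec_apply (ha : Alg ρ 𝓐) (hm : IMean ρ 𝓐 m) {k : ℕ} {A : Fin k → G → X → ℝ}
    (hA : ∀ i, Erg.Coc ρ 𝓐 (A i)) (g : G) (i : Fin k) :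
    bvec ha hm hA g i = bco ha hm (hA i) g := rfl

theorem coc_bvec (ha : Alg ρ 𝓐) (hm : IMean ρ 𝓐 m) {k : ℕ} {A : Fin k → G → X → ℝ}
    (hA : ∀ i, Erg.Coc ρ 𝓐 (A i)) : Coc (UK (U ha hm) k) (bvec ha hm hA) := by
  intro g h
  ext i
  show bco ha hm (hA i) (g * h) = bco ha hm (hA i) g + U ha hm g (bco ha hm (hA i) h)
  exact bco_mul ha hm (hA i) g h

/-- **Decomposition over an extreme mean.** -/
theorem exists_dec_mean (ha : Alg ρ 𝓐) (hm : IMean ρ 𝓐 m) (hE : Ext ρ 𝓐 m)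
    (habs : ∀ φ ∈ 𝓐, (fun x => |φ x|) ∈ 𝓐) (hfg : ∀ H : Subgroup G, H.FG) (N : Subgroup G)
    [N.Normal] (hnil : Group.IsNilpotent N) {l : ℕ} {π : G →* Multiplicative (Fin l → ℤ)}
    (hπ : Function.Surjective π) (hker : ∀ g, π g = 1 ↔ g ∈ N) {k : ℕ} {A : Fin k → G → X → ℝ}
    (hA : ∀ i, Erg.Coc ρ 𝓐 (A i)) :
    ∃ (W : Submodule ℝ (VK k (V ha hm))) (β r : G → VK k (V ha hm))
      (Lb : (Fin l → ℝ) →ₗ[ℝ] (Fin k → ℝ)), FiniteDimensional ℝ W ∧
      (∀ g i, bco ha hm (hA i) g = β g i + (Lb (hgtR π g) i) • ofA ha hm 1 + r g i) ∧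
      (∀ g, β g ∈ W) ∧ W ≤ fix (UK (U ha hm) k) N ∧
      (∀ g, ∀ v ∈ W, UK (U ha hm) k g v ∈ W) ∧ Coc (UK (U ha hm) k) β ∧
      Submodule.span ℝ (β '' N) = W ∧ Coc (UK (U ha hm) k) r ∧ AC (UK (U ha hm) k) r := by
  have hab : ∀ g h : G, g * h * g⁻¹ * h⁻¹ ∈ N := by
    intro g h
    rw [← hker, map_mul, map_mul, map_mul, map_inv, map_inv, mul_comm (π g) (π h)]
    group
  obtain ⟨W, β, L, r, hfd, hb, hβ, hWN, hWU, hβc, hspan, hLt, hLm, hL0, hrc, hr⟩ :=
    exists_dec hfg N hnil hab (coc_bvec ha hm hA)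
  -- coordinates of `L` are constants
  have hone : ‖ofA ha hm 1‖ = 1 := norm_one ha hm
  have hcoord : ∀ g i, L g i = (inner ℝ (L g i) (ofA ha hm 1)) • ofA ha hm 1 := by
    intro g i
    refine fixed_const ha hm habs hE fun g' => ?_
    have h1 := hLt g g' (Subgroup.mem_top g')
    exact congrFun (congrArg WithLp.ofLp h1) i
  choose a hac using fun i : Fin k => exists_linear hπ
    (fun g => inner ℝ (L g i) (ofA ha hm 1)) (fun g h => by
      show (inner ℝ (L (g * h) i) (ofA ha hm 1) : ℝ) = _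
      rw [hLm, PiLp.add_apply, inner_add_left]) (fun g hg => by
      show (inner ℝ (L g i) (ofA ha hm 1) : ℝ) = 0
      rw [hL0 g ((hker g).1 hg), PiLp.zero_apply, inner_zero_left])
  refine ⟨W, β, r, LinearMap.pi a, hfd, fun g i => ?_, hβ, hWN, hWU, hβc, hspan, hrc, hr⟩
  have h1 : bvec ha hm hA g i = (β g + L g + r g) i := by rw [hb g]
  rw [bvec_apply, PiLp.add_apply, PiLp.add_apply] at h1
  rw [h1, hcoord g i]
  congr 2
  rw [LinearMap.pi_apply, ← hac i g]

end Dec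

end Crest.Agent.R182.Ht
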