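import Mathlib
import Crest.Agent.R182.HtVec

/-!
# Row 182, module ZD (author: helper506): essential values of vector valued `L²`-functions
-/

set_option autoImplicit false

namespace Crest.Agent.R182.Ht

open Filter Topology Crest.Agent.R182.Erg Crest.Agent.R182.Mic

universe u v

variable {G : Type u} [Group G] {X : Type v} {ρ : X → G → X} {m : (X → ℝ) → ℝ}

theorem mem_bdd_of_le {X : Type*} {φ : X → ℝ} {C : ℝ} (h : ∀ x, |φ x| ≤ C) : φ ∈ bddAlg X :=
  ⟨C, h⟩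

theorem ind_mem {X : Type*} (s : Set X) : s.indicator (1 : X → ℝ) ∈ bddAlg X := by
  refine ⟨1, fun x => ?_⟩
  by_cases h : x ∈ s
  · rw [Set.indicator_of_mem h]; simp
  · rw [Set.indicator_of_notMem h]; simp

theorem abs_mem_bdd {X : Type*} : ∀ φ ∈ bddAlg X, (fun x => |φ x|) ∈ bddAlg X := by
  rintro φ ⟨C, hC⟩
  exact ⟨C, fun x => by rw [abs_abs]; exact hC x⟩

/-- `e` is an essential value of `t` -/
def EssVal (ha : Alg ρ (bddAlg X)) (hm : IMean ρ (bddAlg X) m) {k : ℕ} (t : VK k (V ha hm))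
    (e : Fin k → ℝ) : Prop :=
  ∀ ε > 0, ∃ κ > 0, ∀ η > 0, ∃ τ : Fin k → bddAlg X, (∀ i, ‖t i - ofA ha hm (τ i)‖ ≤ η) ∧
    κ ≤ m (Set.indicator {x | ∀ i, |(τ i : X → ℝ) x - e i| ≤ ε} 1)

theorem essVal_zero (ha : Alg ρ (bddAlg X)) (hm : IMean ρ (bddAlg X) m) (k : ℕ) :
    EssVal ha hm (0 : VK k (V ha hm)) 0 := by
  intro ε hε
  refine ⟨1, one_pos, fun η hη => ⟨fun _ => 0, fun i => ?_, ?_⟩⟩
  · rw [map_zero, PiLp.zero_apply, sub_zero, norm_zero]; exact hη.le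
  · have h1 : Set.indicator {x : X | ∀ i : Fin k, |((0 : bddAlg X) : X → ℝ) x - (0 : Fin k → ℝ) i| ≤ ε}
        (1 : X → ℝ) = 1 := by
      ext x
      rw [Set.indicator_of_mem]
      intro i
      simp [hε.le]
    rw [h1, hm.one]

theorem exists_pos_le {ι : Type*} (t : Finset ι) (f : ι → ℝ) (hf : ∀ i ∈ t, 0 < f i) {δ : ℝ}
    (hδ : 0 < δ) : ∃ η, 0 < η ∧ η ≤ δ ∧ ∀ i ∈ t, η ≤ f i := by
  classical
  induction t using Finset.induction_on with
  | empty => exact ⟨δ, hδ, le_rfl, fun i hi => absurd hi (Finset.notMem_empty i)⟩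
  | insert a s _ ih =>
    obtain ⟨η, h1, h2, h3⟩ := ih fun i hi => hf i (Finset.mem_insert_of_mem hi)
    refine ⟨min η (f a), lt_min h1 (hf a (Finset.mem_insert_self _ _)),
      (min_le_left _ _).trans h2, fun i hi => ?_⟩
    rcases Finset.mem_insert.1 hi with rfl | hi
    · exact min_le_right _ _
    · exact (min_le_left _ _).trans (h3 i hi)

/-- **Essential values exist.** -/
theorem exists_ess (ha : Alg ρ (bddAlg X)) (hm : IMean ρ (bddAlg X) m) {k : ℕ}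
    (t : VK k (V ha hm)) (ht : t ≠ 0) : ∃ e : Fin k → ℝ, e ≠ 0 ∧ EssVal ha hm t e := by
  classical
  by_contra hcon
  obtain ⟨i₁, hi₁⟩ : ∃ i, t i ≠ 0 := by
    by_contra h
    push Not at h
    exact ht (by ext i; exact h i)
  set θ : ℝ := ‖t i₁‖ with hθ
  have hθ0 : 0 < θ := norm_pos_iff.2 hi₁
  set δs : ℝ := θ / (16 * (k + 1)) with hδs
  have hδs0 : 0 < δs := by positivity
  have hδle : δs ≤ θ / 16 := by
    rw [hδs]
    apply div_le_div_of_nonneg_left hθ0.le (by norm_num)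
    have : (0 : ℝ) ≤ k := Nat.cast_nonneg k
    linarith
  choose τs hτs using fun i => exists_near ha hm (t i) hδs0
  -- a common bound for the approximants
  obtain ⟨M, hM, hMθ⟩ : ∃ M : ℝ, (∀ i x, 2 * |(τs i : X → ℝ) x| ≤ M) ∧ θ ≤ M := by
    have h1 : ∀ i, ∃ C, ∀ x, |(τs i : X → ℝ) x| ≤ C := fun i => (τs i).2
    choose C hC using h1
    refine ⟨2 * ∑ i, |C i| + θ, fun i x => ?_, ?_⟩
    · have h2 := hC i x
      have h3 : |C i| ≤ ∑ i, |C i| :=
        Finset.single_le_sum (f := fun i => |C i|) (fun _ _ => abs_nonneg _) (Finset.mem_univ i)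
      have h4 := le_abs_self (C i)
      linarith
    · have : 0 ≤ ∑ i, |C i| := Finset.sum_nonneg fun _ _ => abs_nonneg _
      linarith
  have hM0 : 0 < M := lt_of_lt_of_le hθ0 hMθ
  -- negation
  have hneg : ∀ e : Fin k → ℝ, e ≠ 0 → ∃ ε > 0, ∀ κ > 0, ∃ η > 0, ∀ τ : Fin k → bddAlg X,
      (∀ i, ‖t i - ofA ha hm (τ i)‖ ≤ η) →
        m (Set.indicator {x | ∀ i, |(τ i : X → ℝ) x - e i| ≤ ε} 1) < κ := by
    intro e he
    by_contra h
    apply hcon
    refine ⟨e, he, ?_⟩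
    intro ε hε
    by_contra h2
    apply h
    refine ⟨ε, hε, fun κ hκ => ?_⟩
    by_contra h3
    apply h2
    refine ⟨κ, hκ, fun η hη => ?_⟩
    by_contra h4
    apply h3
    refine ⟨η, hη, fun τ hτ => ?_⟩
    by_contra h5
    exact h4 ⟨τ, hτ, not_lt.1 h5⟩
  set A : Set (Fin k → ℝ) := {e | θ / 4 ≤ ‖e‖ ∧ ‖e‖ ≤ M} with hA
  have hAc : IsCompact A := by
    apply Metric.isCompact_of_isClosed_isBounded
    · exact (isClosed_le continuous_const continuous_norm).inter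
        (isClosed_le continuous_norm continuous_const)
    · exact (Metric.isBounded_closedBall (x := (0 : Fin k → ℝ)) (r := M)).subset fun e he => by
        rw [mem_closedBall_zero_iff]; exact he.2
  have hA0 : ∀ e ∈ A, e ≠ 0 := by
    rintro e ⟨h1, -⟩ rfl
    rw [norm_zero] at h1
    linarith
  choose! εf hεf0 hεf using hneg
  obtain ⟨tt, htt, hcov⟩ := hAc.elim_nhds_subcover (fun e => Metric.ball e (εf e))
    (fun e he => Metric.ball_mem_nhds e (hεf0 e (hA0 e he)))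
  set p : ℝ := (tt.card : ℝ) with hp
  have hp0 : 0 ≤ p := Nat.cast_nonneg _
  set κ : ℝ := θ ^ 2 / (16 * (p + 1) * M ^ 2) with hκ
  have hκ0 : 0 < κ := by positivity
  have h1 : ∀ e ∈ tt, ∃ η > 0, ∀ τ : Fin k → bddAlg X,
      (∀ i, ‖t i - ofA ha hm (τ i)‖ ≤ η) →
        m (Set.indicator {x | ∀ i, |(τ i : X → ℝ) x - e i| ≤ εf e} 1) < κ :=
    fun e he => hεf e (hA0 e (htt e he)) κ hκ0
  choose! ηf hηf0 hηf using h1
  obtain ⟨η, hη0, hηδ, hηle⟩ := exists_pos_le tt ηf hηf0 hδs0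
  choose τ hτ using fun i => exists_near ha hm (t i) hη0
  have hind : ∀ e ∈ tt, m (Set.indicator {x | ∀ i, |(τ i : X → ℝ) x - e i| ≤ εf e} 1) ≤ κ :=
    fun e he => (hηf e he τ fun i => (hτ i).le.trans (hηle e he)).le
  -- functions in the algebra
  set Ie : (Fin k → ℝ) → X → ℝ :=
    fun e => Set.indicator {x | ∀ i, |(τ i : X → ℝ) x - e i| ≤ εf e} 1 with hIe
  have hIem : ∀ e, Ie e ∈ bddAlg X := fun e => ind_mem _
  have hIe0 : ∀ e x, 0 ≤ Ie e x := fun e x => Set.indicator_nonneg (fun _ _ => zero_le_one) x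
  set D : Fin k → X → ℝ := fun i => (τ i : X → ℝ) - (τs i : X → ℝ) with hD
  have hDm : ∀ i, D i ∈ bddAlg X := fun i => sub_mem (τ i).2 (τs i).2
  set Φ : X → ℝ := (fun _ => θ ^ 2 / 16) + ((M ^ 2) • ∑ e ∈ tt, Ie e + (4 : ℝ) • ∑ i, D i * D i)
    with hΦ
  have hm' := hm.toPInv
  have hs1 : (∑ e ∈ tt, Ie e) ∈ bddAlg X := sum_mem fun e _ => hIem e
  have hs2 : (∑ i, D i * D i) ∈ bddAlg X := sum_mem fun i _ => mul_mem (hDm i) (hDm i)
  have hΦm : Φ ∈ bddAlg X := add_mem (const_mem _ _)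
    (add_mem ((bddAlg X).smul_mem hs1 _) ((bddAlg X).smul_mem hs2 _))
  have hle : ∀ x, ((τ i₁ : X → ℝ) * (τ i₁ : X → ℝ)) x ≤ Φ x := by
    intro x
    set w : Fin k → ℝ := fun i => (τ i : X → ℝ) x with hw
    have hΦx : Φ x = θ ^ 2 / 16 + (M ^ 2 * ∑ e ∈ tt, Ie e x + 4 * ∑ i, D i x * D i x) := by
      simp only [hΦ, Pi.add_apply, Pi.smul_apply, smul_eq_mul, Finset.sum_apply, Pi.mul_apply]
    have hi : |w i₁| ≤ ‖w‖ := norm_le_pi_norm w i₁
    have hsq : ((τ i₁ : X → ℝ) * (τ i₁ : X → ℝ)) x ≤ ‖w‖ ^ 2 := by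
      show w i₁ * w i₁ ≤ _
      rw [← abs_mul_abs_self, ← sq]
      exact pow_le_pow_left₀ (abs_nonneg _) hi 2
    have hnn1 : 0 ≤ ∑ e ∈ tt, Ie e x := Finset.sum_nonneg fun e _ => hIe0 e x
    have hnn2 : 0 ≤ ∑ i, D i x * D i x := Finset.sum_nonneg fun i _ => mul_self_nonneg _
    rw [hΦx]
    rcases le_or_gt ‖w‖ (θ / 4) with h1 | h1
    · have : ‖w‖ ^ 2 ≤ (θ / 4) ^ 2 := pow_le_pow_left₀ (norm_nonneg _) h1 2
      have h2 : 0 ≤ M ^ 2 * ∑ e ∈ tt, Ie e x := by positivity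
      nlinarith
    · rcases le_or_gt ‖w‖ M with h2 | h2
      · have hwA : w ∈ A := ⟨h1.le, h2⟩
        obtain ⟨e, he, hwe⟩ := Set.mem_iUnion₂.1 (hcov hwA)
        have h3 : Ie e x = 1 := by
          rw [hIe]
          simp only
          rw [Set.indicator_of_mem]
          · rfl
          · intro i
            rw [Metric.mem_ball, dist_eq_norm] at hwe
            exact (norm_le_pi_norm (w - e) i).trans hwe.le
        have h4 : 1 ≤ ∑ e ∈ tt, Ie e x := by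
          rw [← h3]
          exact Finset.single_le_sum (f := fun e => Ie e x) (fun e _ => hIe0 e x) he
        have h5 : ‖w‖ ^ 2 ≤ M ^ 2 := pow_le_pow_left₀ (norm_nonneg _) h2 2
        have h6 : M ^ 2 ≤ M ^ 2 * ∑ e ∈ tt, Ie e x := le_mul_of_one_le_right (by positivity) h4
        have h7 : 0 ≤ θ ^ 2 / 16 := by positivity
        linarith
      · -- the maximal coordinate
        have hne : Nonempty (Fin k) := ⟨i₁⟩
        obtain ⟨i₂, hi₂⟩ : ∃ i₂, ‖w‖ = |w i₂| := by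
          obtain ⟨i₂, -, h3⟩ := Finset.exists_max_image Finset.univ (fun i => |w i|)
            ⟨i₁, Finset.mem_univ i₁⟩
          refine ⟨i₂, le_antisymm ?_ (norm_le_pi_norm w i₂)⟩
          exact (pi_norm_le_iff_of_nonneg (abs_nonneg _)).2 fun i => h3 i (Finset.mem_univ i)
        have h3 : ‖w‖ / 2 ≤ |D i₂ x| := by
          have h4 := hM i₂ x
          have h5 : |w i₂| - |(τs i₂ : X → ℝ) x| ≤ |w i₂ - (τs i₂ : X → ℝ) x| :=
            abs_sub_abs_le_abs_sub _ _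
          have h6 : D i₂ x = w i₂ - (τs i₂ : X → ℝ) x := rfl
          rw [h6]
          rw [← hi₂] at h5
          linarith
        have h4 : (‖w‖ / 2) ^ 2 ≤ D i₂ x * D i₂ x := by
          rw [← abs_mul_abs_self (D i₂ x), ← sq]
          exact pow_le_pow_left₀ (by positivity) h3 2
        have h5 : D i₂ x * D i₂ x ≤ ∑ i, D i x * D i x :=
          Finset.single_le_sum (f := fun i => D i x * D i x) (fun i _ => mul_self_nonneg _)
            (Finset.mem_univ i₂)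
        have h6 : 0 ≤ M ^ 2 * ∑ e ∈ tt, Ie e x := by positivity
        have h7 : 0 ≤ θ ^ 2 / 16 := by positivity
        nlinarith
  have h2 := hm'.mono (mul_mem (τ i₁).2 (τ i₁).2) hΦm hle
  -- evaluate
  have h3 : m Φ = θ ^ 2 / 16 + (M ^ 2 * ∑ e ∈ tt, m (Ie e) + 4 * ∑ i, m (D i * D i)) := by
    rw [hΦ, hm'.add _ (const_mem _ _) _ (add_mem ((bddAlg X).smul_mem hs1 _)
      ((bddAlg X).smul_mem hs2 _)), hm.const, hm'.add _ ((bddAlg X).smul_mem hs1 _) _
      ((bddAlg X).smul_mem hs2 _), hm'.smul _ _ hs1, hm'.smul _ _ hs2,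
      hm'.sum _ _ (fun e _ => hIem e), hm'.sum _ _ (fun i _ => mul_mem (hDm i) (hDm i))]
  have h4 : ∑ e ∈ tt, m (Ie e) ≤ p * κ := by
    refine (Finset.sum_le_sum fun e he => hind e he).trans ?_
    rw [Finset.sum_const, nsmul_eq_mul]
  have h5 : ∀ i, m (D i * D i) ≤ (2 * δs) ^ 2 := by
    intro i
    have e1 : m (D i * D i) = ‖ofA ha hm (τ i - τs i)‖ ^ 2 := by
      rw [norm_ofA]
      exact (hm'.nrm_sq (hDm i)).symm
    rw [e1]
    refine pow_le_pow_left₀ (norm_nonneg _) ?_ 2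
    have e2 : ofA ha hm (τ i - τs i) = (t i - ofA ha hm (τs i)) - (t i - ofA ha hm (τ i)) := by
      rw [map_sub]; abel
    rw [e2]
    refine (norm_sub_le _ _).trans ?_
    have e3 := (hτs i).le
    have e4 := (hτ i).le
    linarith
  have h6 : ∑ i, m (D i * D i) ≤ k * (2 * δs) ^ 2 := by
    refine (Finset.sum_le_sum fun i _ => h5 i).trans ?_
    rw [Finset.sum_const, Finset.card_univ, Fintype.card_fin, nsmul_eq_mul]
  have h7 : (θ - θ / 16) ^ 2 ≤ m ((τ i₁ : X → ℝ) * (τ i₁ : X → ℝ)) := by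
    have e1 : m ((τ i₁ : X → ℝ) * (τ i₁ : X → ℝ)) = ‖ofA ha hm (τ i₁)‖ ^ 2 := by
      rw [norm_ofA]
      exact (hm'.nrm_sq (τ i₁).2).symm
    rw [e1]
    refine pow_le_pow_left₀ (by linarith) ?_ 2
    have e2 : ‖t i₁‖ ≤ ‖t i₁ - ofA ha hm (τ i₁)‖ + ‖ofA ha hm (τ i₁)‖ := by
      have := norm_add_le (t i₁ - ofA ha hm (τ i₁)) (ofA ha hm (τ i₁))
      rwa [sub_add_cancel] at this
    have e3 := (hτ i₁).le
    have e4 : η ≤ θ / 16 := hηδ.trans hδle
    linarith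
  have h8 : M ^ 2 * (p * κ) ≤ θ ^ 2 / 16 := by
    rw [hκ]
    have : M ^ 2 * (p * (θ ^ 2 / (16 * (p + 1) * M ^ 2))) = (p / (p + 1)) * (θ ^ 2 / 16) := by
      field_simp
    rw [this]
    have h9 : p / (p + 1) ≤ 1 := by
      rw [div_le_one (by positivity)]; linarith
    have : 0 ≤ θ ^ 2 / 16 := by positivity
    nlinarith
  have h9 : 4 * (k * (2 * δs) ^ 2) ≤ θ ^ 2 / 16 := by
    rw [hδs]
    have hk : (0 : ℝ) ≤ k := Nat.cast_nonneg k
    have : 4 * ((k : ℝ) * (2 * (θ / (16 * (k + 1)))) ^ 2) = (k / (k + 1) ^ 2) * (θ ^ 2 / 16) := by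
      field_simp
      ring
    rw [this]
    have h10 : (k : ℝ) / (k + 1) ^ 2 ≤ 1 := by
      rw [div_le_one (by positivity)]; nlinarith
    have : 0 ≤ θ ^ 2 / 16 := by positivity
    nlinarith
  have h10 : M ^ 2 * ∑ e ∈ tt, m (Ie e) ≤ M ^ 2 * (p * κ) :=
    mul_le_mul_of_nonneg_left h4 (by positivity)
  have h11 : 0 < θ ^ 2 := by positivity
  rw [h3] at h2
  nlinarith

end Crest.Agent.R182.Ht
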