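import Mathlib
import Crest.Agent.R182.MicDefs
import Crest.Agent.R182.FinNil
import Crest.Agent.R182.FinRed
import Crest.Agent.R182.PolycRoot

/-!
# Row 182, module ZD, block Z2 (author: helper671): counting ends of chains in a slab

`card_le`: the number of end points of chains of `J` steps of length `≤ ℓ` whose images under a
quasi-isometry stay in a slab of height `H` is at most `C exp(c(H+ℓ)) (Jℓ+1)^d`.
-/

set_option autoImplicit false

namespace Crest.Agent.R182.Zd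

open Crest.GroupTheory Crest.Geometry Crest.Agent.R182.QI Crest.Agent.R182.FinPath
  Crest.Agent.R182.FinNil Crest.Agent.R182.FinRed Crest.Agent.R182.Polyc
open scoped Pointwise

variable {Γ : Type*} [Group Γ]

section Fib

variable {k : ℕ} {π : Γ →* Multiplicative (Fin k → ℤ)} {A : Set Γ} {S : Set Γ}
  {x : Fin k → Γ} {μ M D₁ L : ℕ}

/-- the fibre component along a word -/
theorem fib_word (hA : Sym A)
    (hM : ∀ s, (s ∈ S ∨ s⁻¹ ∈ S) → ∀ v : Fin k → ℤ,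
        z x v * s * (z x (v + hgt π s))⁻¹ ∈ A ^ (M * μ ^ n1 v)) (hμ : 1 ≤ μ)
    (hD : ∀ s, (s ∈ S ∨ s⁻¹ ∈ S) → n1 (hgt π s) ≤ D₁) (l : List Γ) :
    ∀ (g : Γ) (p : ℕ), IsWord S l → n1 (hgt π g) + D₁ * l.length ≤ L →
      g * (z x (hgt π g))⁻¹ ∈ A ^ p →
      (g * l.prod) * (z x (hgt π (g * l.prod)))⁻¹ ∈ A ^ (p + l.length * (M * μ ^ L)) := by
  induction l with
  | nil =>
    intro g p _ _ hg
    simpa using hg
  | cons s l ih =>
    intro g p hl hL hg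
    rw [isWord_cons] at hl
    rw [List.length_cons] at hL
    have h1 := hM s hl.1 (hgt π g)
    rw [← hgt_mul] at h1
    have h2 := pow_mul_mem hg h1
    have h3 : g * (z x (hgt π g))⁻¹ * (z x (hgt π g) * s * (z x (hgt π (g * s)))⁻¹) =
        (g * s) * (z x (hgt π (g * s)))⁻¹ := by group
    rw [h3] at h2
    have h4 : n1 (hgt π (g * s)) ≤ n1 (hgt π g) + D₁ := by
      rw [hgt_mul]
      exact (n1_add_le _ _).trans (Nat.add_le_add_left (hD s hl.1) _)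
    have h5 := ih (g * s) (p + M * μ ^ n1 (hgt π g)) hl.2 (by
      rw [mul_add, mul_one] at hL; omega) h2
    have h6 : g * (s :: l).prod = g * s * l.prod := by rw [List.prod_cons, mul_assoc]
    rw [h6]
    refine hA.mono ?_ h5
    rw [List.length_cons]
    have h7 : μ ^ n1 (hgt π g) ≤ μ ^ L := Nat.pow_le_pow_right hμ (by omega)
    calc p + M * μ ^ n1 (hgt π g) + l.length * (M * μ ^ L)
        ≤ p + M * μ ^ L + l.length * (M * μ ^ L) := by gcongr
      _ = p + (l.length + 1) * (M * μ ^ L) := by ring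

end Fib

theorem card_le_of_pgr {S : Finset Γ} (hS : Subgroup.closure (S : Set Γ) = ⊤) {k : ℕ}
    (π : Γ →* Multiplicative (Fin k → ℤ)) (hπ : Function.Surjective π) (hN : PGr π.ker) (K : ℕ) :
    ∃ (C c : ℝ) (d : ℕ), 0 ≤ C ∧ 0 ≤ c ∧ ∀ (w : Mic.Om (S : Set Γ) K) (ι : Type) [Fintype ι]
      (P : ι → ℕ → Γ) (J : ℕ) (ℓ H : ℝ), 1 ≤ ℓ → 0 ≤ H → (∀ i, P i 0 = 1) →
      (∀ i, ∀ j < J, (nd (S : Set Γ) (P i j) (P i (j+1)) : ℝ) ≤ ℓ) →
      (∀ i, ∀ j ≤ J, ∀ a, |hgtR π (w.F (P i j)) a| ≤ H) → Function.Injective (fun i => P i J) →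
      (Fintype.card ι : ℝ) ≤ C * Real.exp (c * (H + ℓ)) * (J * ℓ + 1) ^ d := by
  classical
  obtain ⟨A, hA, hAf, hcl, C₀, d, hgrow⟩ := hN
  obtain ⟨x, μ, hμ, hx, hq⟩ := exists_q_bound hA hAf hcl hπ
  set B : Set Γ := {s | s ∈ (S : Set Γ) ∨ s⁻¹ ∈ (S : Set Γ)} with hB
  have hBf : B.Finite := by
    have h1 : B ⊆ (S : Set Γ) ∪ (S : Set Γ)⁻¹ := by
      intro s hs
      rcases hs with h | h
      · exact Or.inl h
      · exact Or.inr h
    exact (S.finite_toSet.union S.finite_toSet.inv).subset h1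
  obtain ⟨M, hM⟩ := exists_unif hBf hA hq
  obtain ⟨D₁, hD₁⟩ : ∃ m, ∀ s ∈ B, n1 (hgt π s) ≤ m := by
    obtain ⟨m, hm⟩ := (hBf.image (fun s => n1 (hgt π s))).bddAbove
    exact ⟨m, fun s hs => hm ⟨s, hs, rfl⟩⟩
  set Pc : ℕ := (2 * S.card + 1) ^ (3 * K) with hPc
  have hlogμ : 0 ≤ Real.log μ := Real.log_nonneg (by exact_mod_cast hμ)
  refine ⟨Pc * C₀ * ((2 * K + 1) * (M + 1)) ^ d,
    d * ((k + 2 * D₁ * K) * Real.log μ) + 2 * k, d, by positivity, by positivity, ?_⟩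
  intro w ι _ P J ℓ H hℓ hH hP0 hPs hPH hinj
  have hℓ0 : (0 : ℝ) ≤ ℓ := by linarith
  set W : ℕ := K * ⌊ℓ⌋₊ + K with hW
  set L : ℕ := k * ⌊H⌋₊ + D₁ * W with hL
  have hn1 : ∀ i, ∀ j ≤ J, n1 (hgt π (w.F (P i j))) ≤ k * ⌊H⌋₊ := fun i j hj =>
    n1_le_of_abs fun a => hPH i j hj a
  -- the fibre component
  have hfib : ∀ i, ∀ j ≤ J, w.F (P i j) * (z x (hgt π (w.F (P i j))))⁻¹ ∈
      A ^ (j * (W * (M * μ ^ L))) := by
    intro i j
    induction j with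
    | zero =>
      intro _
      rw [hP0, w.F_one, hgt_one, z_zero]
      simp
    | succ j ih =>
      intro hj
      have h1 := ih (by omega)
      obtain ⟨l, hl1, hl2, hl3⟩ := wordLength_spec hS ((w.F (P i j))⁻¹ * w.F (P i (j+1)))
      have h2 : l.length ≤ W := by
        rw [hl1]
        have h3 := w.F_up (P i j) (P i (j + 1))
        have h4 : nd (S : Set Γ) (P i j) (P i (j+1)) ≤ ⌊ℓ⌋₊ := Nat.le_floor (hPs i j (by omega))
        refine (show _ ≤ _ from h3).trans ?_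
        rw [hW]
        gcongr
      have h5 := fib_word (L := L) hA (fun s hs => hM s hs) hμ hD₁ l (w.F (P i j))
        (j * (W * (M * μ ^ L))) hl2 (by
          rw [hL]
          exact Nat.add_le_add (hn1 i j (by omega)) (Nat.mul_le_mul_left _ h2)) h1
      rw [hl3, mul_inv_cancel_left] at h5
      refine hA.mono ?_ h5
      calc j * (W * (M * μ ^ L)) + l.length * (M * μ ^ L)
          ≤ j * (W * (M * μ ^ L)) + W * (M * μ ^ L) := by gcongr
        _ = (j + 1) * (W * (M * μ ^ L)) := by ring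
  -- counting
  set m : ℕ := J * (W * (M * μ ^ L)) + 1 with hm
  have hAm : (A ^ m).Finite := pow_finite hAf m
  set f : ι → Γ := fun i => w.F (P i J) with hf
  have hc1 : Fintype.card ι ≤ Pc * (Finset.univ.image f).card := by
    rw [← Finset.card_univ]
    refine Finset.card_le_mul_card_image Finset.univ Pc ?_
    intro p hp
    obtain ⟨i₀, -, hi₀⟩ := Finset.mem_image.1 hp
    have h1 : (Finset.univ.filter fun i => f i = p).card =
        ((Finset.univ.filter fun i => f i = p).image fun i => P i J).card :=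
      (Finset.card_image_of_injective _ hinj).symm
    have h2 : (((Finset.univ.filter fun i => f i = p).image fun i => P i J : Finset Γ) : Set Γ) ⊆
        {y | nd (S : Set Γ) (P i₀ J) y ≤ 3 * K} := by
      intro y hy
      rw [Finset.mem_coe, Finset.mem_image] at hy
      obtain ⟨i, hi, rfl⟩ := hy
      have h3 : f i = p := (Finset.mem_filter.1 hi).2
      have h4 := w.F_lo hS (P i₀ J) (P i J)
      have h5 : nd (S : Set Γ) (w.F (P i₀ J)) (w.F (P i J)) = 0 := by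
        rw [nd_eq_zero hS]
        exact hi₀.trans h3.symm
      rw [h5, mul_zero, zero_add] at h4
      exact h4
    have h3 := Set.ncard_le_ncard h2 (nd_ball_finite hS _ _)
    rw [Set.ncard_coe_finset, nd_ball_ncard] at h3
    rw [h1]
    exact h3.trans (ncard_ball_le hS _)
  have hc2 : (Finset.univ.image f).card ≤ (A ^ m).ncard * (2 * ⌊H⌋₊ + 1) ^ k := by
    let bx : Finset (Fin k → ℤ) := Fintype.piFinset fun _ => Finset.Icc (-(⌊H⌋₊ : ℤ)) ⌊H⌋₊
    have hbx : bx.card = (2 * ⌊H⌋₊ + 1) ^ k := by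
      rw [Fintype.card_piFinset]
      simp only [Int.card_Icc, Finset.prod_const, Finset.card_univ, Fintype.card_fin]
      congr 1
      omega
    have h1 : Finset.univ.image f ⊆ (hAm.toFinset ×ˢ bx).image fun p => p.1 * z x p.2 := by
      intro p hp
      obtain ⟨i, -, rfl⟩ := Finset.mem_image.1 hp
      refine Finset.mem_image.2 ⟨(f i * (z x (hgt π (f i)))⁻¹, hgt π (f i)), ?_, by simp⟩
      rw [Finset.mem_product]
      refine ⟨?_, ?_⟩
      · rw [Set.Finite.mem_toFinset]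
        exact hA.mono (Nat.le_succ _) (hfib i J le_rfl)
      · rw [Fintype.mem_piFinset]
        intro a
        have h2 : |((hgt π (f i) a : ℤ) : ℝ)| ≤ H := hPH i J le_rfl a
        have h3 : (hgt π (f i) a).natAbs ≤ ⌊H⌋₊ := by
          refine Nat.le_floor ?_
          rw [Nat.cast_natAbs, Int.cast_abs]
          exact h2
        rw [Finset.mem_Icc]
        show -(⌊H⌋₊ : ℤ) ≤ hgt π (f i) a ∧ hgt π (f i) a ≤ ⌊H⌋₊
        omega
    refine (Finset.card_le_card h1).trans (Finset.card_image_le.trans ?_)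
    rw [Finset.card_product, hbx, Set.ncard_eq_toFinset_card _ hAm]
  have hc3 := hgrow m (by omega)
  have hc4 : Fintype.card ι ≤ Pc * ((C₀ * m ^ d) * (2 * ⌊H⌋₊ + 1) ^ k) :=
    hc1.trans (Nat.mul_le_mul_left _ (hc2.trans (Nat.mul_le_mul_right _ hc3)))
  -- real estimates
  have hWr : (W : ℝ) ≤ 2 * K * ℓ := by
    rw [hW]; push_cast
    have h1 : (⌊ℓ⌋₊ : ℝ) ≤ ℓ := Nat.floor_le hℓ0
    have h2 : (0 : ℝ) ≤ K := Nat.cast_nonneg _
    nlinarith
  have hLr : (L : ℝ) ≤ (k + 2 * D₁ * K) * (H + ℓ) := by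
    rw [hL]; push_cast
    have h1 : (⌊H⌋₊ : ℝ) ≤ H := Nat.floor_le hH
    have h2 : (k : ℝ) * ⌊H⌋₊ ≤ k * H := mul_le_mul_of_nonneg_left h1 (Nat.cast_nonneg _)
    have h3 : (D₁ : ℝ) * W ≤ D₁ * (2 * K * ℓ) := mul_le_mul_of_nonneg_left hWr (Nat.cast_nonneg _)
    have h4 : (0 : ℝ) ≤ k * ℓ := by positivity
    have h5 : (0 : ℝ) ≤ 2 * D₁ * K * H := by positivity
    nlinarith
  have hμ0 : (0 : ℝ) < μ := by exact_mod_cast hμ
  have hμL : (μ : ℝ) ^ L ≤ Real.exp ((k + 2 * D₁ * K) * Real.log μ * (H + ℓ)) := by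
    have h1 : (μ : ℝ) ^ L = Real.exp (L * Real.log μ) := by
      rw [Real.exp_nat_mul, Real.exp_log hμ0]
    rw [h1]
    refine Real.exp_le_exp.2 ?_
    have := mul_le_mul_of_nonneg_right hLr hlogμ
    linarith
  have hμL1 : (1 : ℝ) ≤ (μ : ℝ) ^ L := one_le_pow₀ (by exact_mod_cast hμ)
  have hmr : (m : ℝ) ≤ ((2 * K + 1) * (M + 1)) * (J * ℓ + 1) *
      Real.exp ((k + 2 * D₁ * K) * Real.log μ * (H + ℓ)) := by
    refine le_trans ?_ (mul_le_mul_of_nonneg_left hμL (by positivity))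
    rw [hm]; push_cast
    have hJ : (0 : ℝ) ≤ J := Nat.cast_nonneg _
    have hK : (0 : ℝ) ≤ K := Nat.cast_nonneg _
    have hM0 : (0 : ℝ) ≤ M := Nat.cast_nonneg _
    have h1 : (J : ℝ) * (W * (M * μ ^ L)) ≤ J * ((2 * K * ℓ) * (M * μ ^ L)) := by gcongr
    have h2 : (J : ℝ) * ((2 * K * ℓ) * (M * μ ^ L)) + 1 ≤
        (2 * K * (J * ℓ) * M + 1) * μ ^ L := by nlinarith
    have h3 : 2 * (K : ℝ) * (J * ℓ) * M + 1 ≤ ((2 * K + 1) * (M + 1)) * (J * ℓ + 1) := by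
      have hJl : (0 : ℝ) ≤ J * ℓ := by positivity
      have : 0 ≤ (K : ℝ) * (J * ℓ) := by positivity
      have : 0 ≤ (M : ℝ) * (J * ℓ) := by positivity
      have : 0 ≤ (K : ℝ) * M := by positivity
      nlinarith
    have h4 : (2 * (K : ℝ) * (J * ℓ) * M + 1) * μ ^ L ≤
        ((2 * K + 1) * (M + 1)) * (J * ℓ + 1) * μ ^ L :=
      mul_le_mul_of_nonneg_right h3 (by positivity)
    linarith
  have hHr : ((2 * ⌊H⌋₊ + 1 : ℕ) : ℝ) ^ k ≤ Real.exp (2 * k * (H + ℓ)) := by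
    have h1 : ((2 * ⌊H⌋₊ + 1 : ℕ) : ℝ) ≤ Real.exp (2 * (H + ℓ)) := by
      push_cast
      have h2 : (⌊H⌋₊ : ℝ) ≤ H := Nat.floor_le hH
      have h3 := Real.add_one_le_exp (2 * (H + ℓ))
      linarith
    calc ((2 * ⌊H⌋₊ + 1 : ℕ) : ℝ) ^ k ≤ (Real.exp (2 * (H + ℓ))) ^ k := by gcongr
      _ = Real.exp (2 * k * (H + ℓ)) := by
        rw [← Real.exp_nat_mul]; congr 1; ring
  have hfin : (Fintype.card ι : ℝ) ≤
      Pc * ((C₀ * (m : ℝ) ^ d) * ((2 * ⌊H⌋₊ + 1 : ℕ) : ℝ) ^ k) := by exact_mod_cast hc4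
  refine hfin.trans ?_
  calc (Pc : ℝ) * ((C₀ * (m : ℝ) ^ d) * ((2 * ⌊H⌋₊ + 1 : ℕ) : ℝ) ^ k)
      ≤ Pc * ((C₀ * (((2 * K + 1) * (M + 1)) * (J * ℓ + 1) *
        Real.exp ((k + 2 * D₁ * K) * Real.log μ * (H + ℓ))) ^ d) *
          Real.exp (2 * k * (H + ℓ))) := by gcongr
    _ = Pc * C₀ * ((2 * K + 1) * (M + 1)) ^ d *
        (Real.exp ((k + 2 * D₁ * K) * Real.log μ * (H + ℓ)) ^ d *
          Real.exp (2 * k * (H + ℓ))) * (J * ℓ + 1) ^ d := by
        rw [mul_pow, mul_pow]; ring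
    _ = Pc * C₀ * ((2 * K + 1) * (M + 1)) ^ d *
        Real.exp ((d * ((k + 2 * D₁ * K) * Real.log μ) + 2 * k) * (H + ℓ)) *
          (J * ℓ + 1) ^ d := by
        rw [← Real.exp_nat_mul, ← Real.exp_add]
        congr 3
        ring

/-- **Z2.** -/
theorem card_le (R : RootData Γ) {S : Finset Γ} (hS : Subgroup.closure (S : Set Γ) = ⊤) (K : ℕ) :
    ∃ (C c : ℝ) (d : ℕ), 0 ≤ C ∧ 0 ≤ c ∧ ∀ (w : Mic.Om (S : Set Γ) K) (ι : Type) [Fintype ι]
      (P : ι → ℕ → Γ) (J : ℕ) (ℓ H : ℝ), 1 ≤ ℓ → 0 ≤ H → (∀ i, P i 0 = 1) →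
      (∀ i, ∀ j < J, (nd (S : Set Γ) (P i j) (P i (j+1)) : ℝ) ≤ ℓ) →
      (∀ i, ∀ j ≤ J, ∀ a, |hgtR R.π (w.F (P i j)) a| ≤ H) → Function.Injective (fun i => P i J) →
      (Fintype.card ι : ℝ) ≤ C * Real.exp (c * (H + ℓ)) * (J * ℓ + 1) ^ d := by
  refine card_le_of_pgr hS R.π R.surj ?_ K
  have hker : R.π.ker = R.N := by
    ext g; rw [MonoidHom.mem_ker]; exact R.mem_N g
  rw [hker]
  exact pgr_of_nilpotent (R.pz.pc.mono le_top) R.nilp

end Crest.Agent.R182.Zd
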