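import Mathlib
import Crest.Agent.R182.HtEss
import Crest.Agent.R182.ZdSlab

/-!
# Row 182, module ZD (author: helper506): no zero-weight drift

Contradiction between chains of the source whose heights move in a direction `b ≠ 0` and whose
images stay at bounded height (relative to the length), and the slab growth of the target.
-/

set_option autoImplicit false

namespace Crest.Agent.R182.Zd

open Filter Topology Crest.GroupTheory Crest.Agent.R182.QI Crest.Agent.R182.FinPath
  Crest.Agent.R182.FinRed Crest.Agent.R182.Polyc Crest.Agent.R182.Ht Crest.Agent.R182.Mic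

universe u

theorem exp_beats (C D : ℝ) (d : ℕ) : ∃ q : ℕ, C * (D * (q + 1)) ^ d < Real.exp q := by
  have h1 := Real.tendsto_pow_mul_exp_neg_atTop_nhds_zero d
  have h2 : Tendsto (fun q : ℕ => ((q : ℝ) + 1) ^ d * Real.exp (-((q : ℝ) + 1))) atTop (𝓝 0) :=
    h1.comp (tendsto_atTop_add_const_right _ _ tendsto_natCast_atTop_atTop)
  have h3 := h2.const_mul (C * D ^ d * Real.exp 1)
  rw [mul_zero] at h3
  obtain ⟨q, hq⟩ := (h3.eventually (gt_mem_nhds one_pos)).exists
  refine ⟨q, ?_⟩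
  have h4 : C * (D * ((q : ℝ) + 1)) ^ d =
      (C * D ^ d * Real.exp 1 * (((q : ℝ) + 1) ^ d * Real.exp (-((q : ℝ) + 1)))) * Real.exp q := by
    rw [mul_pow]
    have h5 : Real.exp 1 * Real.exp (-((q : ℝ) + 1)) * Real.exp q = 1 := by
      rw [← Real.exp_add, ← Real.exp_add]
      ring_nf
      exact Real.exp_zero
    calc C * (D ^ d * ((q : ℝ) + 1) ^ d) = C * (D ^ d * ((q : ℝ) + 1) ^ d) *
          (Real.exp 1 * Real.exp (-((q : ℝ) + 1)) * Real.exp q) := by rw [h5, mul_one]
      _ = _ := by ring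
  rw [h4]
  have h6 := Real.exp_pos (q : ℝ)
  nlinarith

/-- finite Markov inequality -/
theorem half_card {ι : Type} [Fintype ι] (f : ι → ℝ) (hf : ∀ i, 0 ≤ f i) {lam : ℝ} (hlam : 0 < lam)
    (h : ∑ i, f i ≤ Fintype.card ι * lam) :
    (Fintype.card ι : ℝ) / 2 ≤ Nat.card {i // f i ≤ 2 * lam} := by
  classical
  rw [Nat.card_eq_fintype_card, Fintype.card_subtype]
  have h1 : (Finset.univ.filter fun i => f i ≤ 2 * lam).card +
      (Finset.univ.filter fun i => ¬ f i ≤ 2 * lam).card = Fintype.card ι := by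
    rw [Finset.card_filter_add_card_filter_not]
    rfl
  have h2 : ((Finset.univ.filter fun i => ¬ f i ≤ 2 * lam).card : ℝ) * (2 * lam) ≤ ∑ i, f i := by
    calc _ = ∑ i ∈ Finset.univ.filter fun i => ¬ f i ≤ 2 * lam, (2 * lam) := by
          rw [Finset.sum_const, nsmul_eq_mul]
      _ ≤ ∑ i ∈ Finset.univ.filter fun i => ¬ f i ≤ 2 * lam, f i := by
          refine Finset.sum_le_sum fun i hi => ?_
          rw [Finset.mem_filter] at hi
          exact (not_le.1 hi.2).le
      _ ≤ ∑ i, f i := Finset.sum_le_univ_sum_of_nonneg hf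
  have h3 : ((Finset.univ.filter fun i => f i ≤ 2 * lam).card : ℝ) +
      ((Finset.univ.filter fun i => ¬ f i ≤ 2 * lam).card : ℝ) = Fintype.card ι := by
    exact_mod_cast h1
  nlinarith

/-- a set of positive mean contains a point where a function of small mean is small. -/
theorem exists_point {X G : Type*} [Group G] {ρ : X → G → X} {m : (X → ℝ) → ℝ}
    (hm : Erg.PInv ρ (bddAlg X) m) {f : X → ℝ} (hf : f ∈ bddAlg X) (hf0 : ∀ x, 0 ≤ f x) {s : Set X}
    {κ E : ℝ} (hκ : 0 < κ) (hs : κ ≤ m (s.indicator 1)) (hfE : m f ≤ E) (hE : 0 < E) :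
    ∃ x ∈ s, f x ≤ 2 / κ * E := by
  by_contra hcon
  push Not at hcon
  have h1 : ∀ x, ((2 / κ * E) • s.indicator (1 : X → ℝ)) x ≤ f x := by
    intro x
    rw [Pi.smul_apply, smul_eq_mul]
    by_cases hx : x ∈ s
    · rw [Set.indicator_of_mem hx, Pi.one_apply, mul_one]
      exact (hcon x hx).le
    · rw [Set.indicator_of_notMem hx, mul_zero]
      exact hf0 x
  have h2 := hm.mono ((bddAlg X).smul_mem (ind_mem s) _) hf h1
  rw [hm.smul _ _ (ind_mem s)] at h2
  have h3 : 2 / κ * E * κ ≤ 2 / κ * E * m (s.indicator 1) :=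
    mul_le_mul_of_nonneg_left hs (by positivity)
  have h4 : 2 / κ * E * κ = 2 * E := by field_simp
  linarith

variable {Γ : Type u} [Group Γ]

/-- **No essential value of a zero-weight drift can compensate a vertical direction.** -/
theorem no_ess (R : RootData Γ) {S : Finset Γ} (hS : Subgroup.closure (S : Set Γ) = ⊤) {K : ℕ}
    {m : (Om (S : Set Γ) K → ℝ) → ℝ}
    (hm : Erg.IMean Om.act (bddAlg (Om (S : Set Γ) K)) m)
    {β r : Γ → VK R.k (V alg_Om hm)} {Lb : (Fin R.k → ℝ) →ₗ[ℝ] (Fin R.k → ℝ)}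
    (hdec : ∀ g i, bco alg_Om hm (coc_hc hS R.π i) g =
      β g i + (Lb (hgtR R.π g) i) • ofA alg_Om hm 1 + r g i)
    (hrc : Ht.Coc (UK (U alg_Om hm) R.k) r) (hr : AC (UK (U alg_Om hm) R.k) r)
    {b : Fin R.k → ℝ} {t : VK R.k (V alg_Om hm)} (hess : EssVal alg_Om hm t (Lb b))
    (hchain : ∃ μ C₁ : ℝ, 0 < μ ∧ 0 ≤ C₁ ∧ ∀ (J : ℕ) (ε : ℝ), 0 < ε → ∃ C₂ : ℝ, 0 ≤ C₂ ∧
      ∀ q : ℕ, ∃ (ι : Type) (_ : Fintype ι) (P : ι → ℕ → Γ),
        (2:ℝ)^(J*q) ≤ C₂ * Fintype.card ι ∧ (∀ i, P i 0 = 1) ∧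
        (∀ i, ∀ j < J, (nd (S : Set Γ) (P i j) (P i (j+1)) : ℝ) ≤ C₁*(q+1)) ∧
        Function.Injective (fun i => P i J) ∧
        (∀ i, ∀ j ≤ J, ∀ a, |hgtR R.π (P i j) a - j*q*μ*b a| ≤ C₂) ∧
        (∀ i, ∀ j ≤ J, ‖β (P i j) + ((j*q*μ:ℝ))•t‖ ≤ ε*q + C₂)) : False := by
  classical
  obtain ⟨μ, C₁, hμ, hC₁, hchain⟩ := hchain
  obtain ⟨C, c, d, hC, hc0, hcard⟩ := card_le R hS K
  have hlog2 : 0 < Real.log 2 := Real.log_pos one_lt_two
  -- choice of `J`
  obtain ⟨J₀, hJ₀⟩ := exists_nat_gt ((c * (1 + C₁) + 1) / Real.log 2)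
  set J : ℕ := J₀ + 1 with hJ
  have hJ1 : (1 : ℝ) ≤ J := by rw [hJ]; push_cast; linarith [(Nat.cast_nonneg J₀ : (0:ℝ) ≤ J₀)]
  have hJlog : c * (1 + C₁) + 1 ≤ J * Real.log 2 := by
    rw [div_lt_iff₀ hlog2] at hJ₀
    rw [hJ]; push_cast; nlinarith
  set e : Fin R.k → ℝ := Lb b with he
  -- `ε₁`, `κ`
  set ε₁ : ℝ := 1 / (4 * J * μ) with hε₁
  have hε₁0 : 0 < ε₁ := by positivity
  obtain ⟨κ, hκ, hess⟩ := hess ε₁ hε₁0
  set kk : ℝ := (R.k : ℝ) + 1 with hkk
  have hkk1 : 1 ≤ kk := by rw [hkk]; linarith [(Nat.cast_nonneg R.k : (0:ℝ) ≤ R.k)]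
  set δ₀ : ℝ := κ / (16 * (J + 1) * kk) with hδ₀
  have hδ₀0 : 0 < δ₀ := by positivity
  -- `ε`, `ε'`, `η`
  set ε : ℝ := δ₀ / 3 with hε
  set ε' : ℝ := δ₀ / (3 * (J * C₁ + 1)) with hε'
  set η : ℝ := δ₀ / (3 * (J * μ)) with hη
  have hε0 : 0 < ε := by positivity
  have hε'0 : 0 < ε' := by positivity
  have hη0 : 0 < η := by positivity
  obtain ⟨C₂, hC₂, hchain⟩ := hchain J ε hε0
  obtain ⟨C', hC'⟩ := AC.sublinear hrc hr S hε'0
  have hC'0 : 0 ≤ C' := by
    have h1 := hC' [] (by simp)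
    simp only [List.prod_nil, List.length_nil, Nat.cast_zero, mul_zero, zero_add] at h1
    exact (norm_nonneg _).trans h1
  have hr' : ∀ x : Γ, ‖r x‖ ≤ ε' * wordLength (S : Set Γ) x + C' := by
    intro x
    obtain ⟨l, hlen, hl, rfl⟩ := wordLength_spec hS x
    rw [← hlen]
    exact hC' l hl
  obtain ⟨τ, hτ, hτκ⟩ := hess η hη0
  -- bound for `Lb`
  obtain ⟨CL, hCL0, hCL⟩ : ∃ CL : ℝ, 0 ≤ CL ∧ ∀ v : Fin R.k → ℝ, ∀ D : ℝ, (∀ a, |v a| ≤ D) →
      ∀ a, |Lb v a| ≤ CL * D := by
    refine ⟨∑ a', ∑ a, |Lb (Pi.single a' 1) a|,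
      Finset.sum_nonneg fun _ _ => Finset.sum_nonneg fun _ _ => abs_nonneg _, ?_⟩
    intro v D hv a
    have h1 : v = ∑ a', v a' • (Pi.single a' (1 : ℝ) : Fin R.k → ℝ) := by
      ext j
      simp [Finset.sum_apply, Pi.single_apply]
    have h2 : Lb v a = ∑ a', v a' * Lb (Pi.single a' 1) a := by
      conv_lhs => rw [h1]
      rw [map_sum, Finset.sum_apply]
      refine Finset.sum_congr rfl fun a' _ => ?_
      rw [map_smul, Pi.smul_apply, smul_eq_mul]
    rw [h2, Finset.sum_mul]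
    refine (Finset.abs_sum_le_sum_abs _ _).trans (Finset.sum_le_sum fun a' _ => ?_)
    rw [abs_mul, mul_comm]
    have h3 : |Lb (Pi.single a' 1) a| ≤ ∑ a, |Lb (Pi.single a' 1) a| :=
      Finset.single_le_sum (f := fun a => |Lb (Pi.single a' 1) a|) (fun _ _ => abs_nonneg _)
        (Finset.mem_univ a)
    exact mul_le_mul h3 (hv a') (abs_nonneg _)
      (Finset.sum_nonneg fun _ _ => abs_nonneg _)
  -- constants
  set C₄ : ℝ := C₂ + CL * C₂ + (ε' * (J * C₁) + C') + 1 with hC₄
  have hC₄0 : 0 < C₄ := by positivity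
  set C₅ : ℝ := 4 / κ * ((J + 1) * kk * C₄) with hC₅
  have hC₅0 : 0 ≤ C₅ := by positivity
  -- the main inequality for every `q`
  have key : ∀ q : ℕ, (2:ℝ)^(J*q) ≤ (2 * C₂) * (C * Real.exp (c * ((q + C₅) + (C₁ * (q + 1) + 1))) *
      (J * (C₁ * (q + 1) + 1) + 1) ^ d) := by
    intro q
    obtain ⟨ι, _, P, h2q, hP0, hPs, hPinj, hPh, hPβ⟩ := hchain q
    have hq0 : (0 : ℝ) ≤ q := Nat.cast_nonneg q
    set E : ℝ := δ₀ * q + C₄ with hE
    have hE0 : 0 < E := by positivity
    -- length of the points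
    have hlen : ∀ i, ∀ j ≤ J, (wordLength (S : Set Γ) (P i j) : ℝ) ≤ j * (C₁ * (q + 1)) := by
      intro i j
      induction j with
      | zero => intro _; rw [hP0]; simp
      | succ j ih =>
        intro hj
        have h1 := ih (by omega)
        have h2 := hPs i j (by omega)
        have h3 := nd_triangle hS 1 (P i j) (P i (j + 1))
        rw [nd_one_left, nd_one_left] at h3
        have h4 : (wordLength (S : Set Γ) (P i (j + 1)) : ℝ) ≤ wordLength (S : Set Γ) (P i j) +
            nd (S : Set Γ) (P i j) (P i (j + 1)) := by exact_mod_cast h3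
        push_cast
        linarith
    -- the error functions
    set fn' : ι → ℕ → Fin R.k → (Om (S : Set Γ) K → ℝ) := fun i j a w =>
      |hc R.π a (P i j) w - (j * q * μ) * (e a - (τ a : Om (S : Set Γ) K → ℝ) w)| with hfn'
    have hfnm : ∀ i j a, fn' i j a ∈ bddAlg (Om (S : Set Γ) K) := by
      intro i j a
      apply abs_mem_bdd
      exact sub_mem ((coc_hc hS R.π a).mem _)
        ((bddAlg _).smul_mem (sub_mem (Erg.const_mem _ (e a)) (τ a).2) (j * q * μ))
    have hfn0 : ∀ i j a w, 0 ≤ fn' i j a w := fun i j a w => abs_nonneg _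
    have hbound : ∀ i, ∀ j ≤ J, ∀ a, m (fn' i j a) ≤ E := by
      intro i j hj a
      have hjJ : (j : ℝ) ≤ J := by exact_mod_cast hj
      have hj0 : (0 : ℝ) ≤ j := Nat.cast_nonneg j
      set χ : bddAlg (Om (S : Set Γ) K) := ((j * q * μ : ℝ)) • ((e a) • 1 - τ a) with hχ
      have h1 := mean_abs_sub_le alg_Om hm abs_mem_bdd
        ⟨hc R.π a (P i j), (coc_hc hS R.π a).mem _⟩ χ
      have h2 : (fun w => |hc R.π a (P i j) w - (χ : Om (S : Set Γ) K → ℝ) w|) = fn' i j a := by
        funext w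
        simp only [hfn', hχ]
        congr 2
        show (j * q * μ : ℝ) * ((e a) * 1 - (τ a : Om (S : Set Γ) K → ℝ) w) = _
        rw [mul_one]
      have h1' : m (fun w => |hc R.π a (P i j) w - (χ : Om (S : Set Γ) K → ℝ) w|) ≤
          ‖bco alg_Om hm (coc_hc hS R.π a) (P i j) - ofA alg_Om hm χ‖ := h1
      rw [h2] at h1'
      refine h1'.trans ?_
      have h3 : bco alg_Om hm (coc_hc hS R.π a) (P i j) - ofA alg_Om hm χ =
          (β (P i j) + ((j*q*μ:ℝ))•t) a + (Lb (hgtR R.π (P i j)) a - (j * q * μ) * e a) •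
            ofA alg_Om hm 1 + r (P i j) a - (j * q * μ : ℝ) • (t a - ofA alg_Om hm (τ a)) := by
        rw [hdec, hχ, map_smul, map_sub, map_smul, PiLp.add_apply, PiLp.smul_apply]
        module
      rw [h3]
      have e1 : ‖(β (P i j) + ((j*q*μ:ℝ))•t) a‖ ≤ ε * q + C₂ :=
        (norm_coord_le _ a).trans (hPβ i j hj)
      have e2 : ‖(Lb (hgtR R.π (P i j)) a - (j * q * μ) * e a) • ofA alg_Om hm 1‖ ≤ CL * C₂ := by
        rw [norm_smul, Ht.norm_one, mul_one, Real.norm_eq_abs]
        have h4 := hCL (hgtR R.π (P i j) - ((j * q * μ : ℝ)) • b) C₂ (fun a => by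
          rw [Pi.sub_apply, Pi.smul_apply, smul_eq_mul]
          exact hPh i j hj a) a
        rw [map_sub, map_smul, Pi.sub_apply, Pi.smul_apply, smul_eq_mul] at h4
        exact h4
      have e3 : ‖r (P i j) a‖ ≤ ε' * (J * C₁ * (q + 1)) + C' := by
        refine (norm_coord_le _ a).trans ((hr' _).trans ?_)
        have h4 := hlen i j hj
        have h5 : (j : ℝ) * (C₁ * (q + 1)) ≤ J * C₁ * (q + 1) := by
          rw [mul_assoc]
          exact mul_le_mul_of_nonneg_right hjJ (by positivity)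
        have h6 := mul_le_mul_of_nonneg_left (h4.trans h5) hε'0.le
        linarith
      have e4 : ‖(j * q * μ : ℝ) • (t a - ofA alg_Om hm (τ a))‖ ≤ (J * q * μ) * η := by
        rw [norm_smul, Real.norm_eq_abs, abs_of_nonneg (by positivity)]
        exact mul_le_mul (by gcongr) (hτ a) (norm_nonneg _) (by positivity)
      have e5 : ε * q + ε' * (J * C₁ * q) + (J * q * μ) * η ≤ δ₀ * q := by
        have f1 : ε' * (J * C₁) ≤ δ₀ / 3 := by
          rw [hε', div_mul_eq_mul_div, div_le_div_iff₀ (by positivity) (by norm_num)]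
          nlinarith [mul_nonneg (le_trans zero_le_one hJ1) hC₁]
        have f2 : (J * μ) * η = δ₀ / 3 := by
          rw [hη]; field_simp
        have f3 : ε * q + ε' * (J * C₁ * q) + (J * q * μ) * η =
            (ε + ε' * (J * C₁) + (J * μ) * η) * q := by ring
        rw [f3, f2]
        apply mul_le_mul_of_nonneg_right _ hq0
        rw [hε]; linarith
      calc _ ≤ ‖(β (P i j) + ((j*q*μ:ℝ))•t) a‖ +
            ‖(Lb (hgtR R.π (P i j)) a - (j * q * μ) * e a) • ofA alg_Om hm 1‖ + ‖r (P i j) a‖ +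
            ‖(j * q * μ : ℝ) • (t a - ofA alg_Om hm (τ a))‖ := by
            refine (norm_sub_le _ _).trans (add_le_add_left ?_ _)
            refine (norm_add_le _ _).trans (add_le_add_left ?_ _)
            exact norm_add_le _ _
        _ ≤ (ε * q + C₂) + CL * C₂ + (ε' * (J * C₁ * (q + 1)) + C') + (J * q * μ) * η := by
            linarith
        _ ≤ E := by
            rw [hE, hC₄]
            have : ε' * (J * C₁ * ((q : ℝ) + 1)) = ε' * (J * C₁ * q) + ε' * (J * C₁) := by ring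
            linarith
    -- the total error
    set F : ι → Om (S : Set Γ) K → ℝ := fun i w => ∑ j ∈ Finset.range (J + 1), ∑ a, fn' i j a w
      with hF
    have hFm : ∀ i, F i = ∑ j ∈ Finset.range (J + 1), ∑ a, fn' i j a := by
      intro i; ext w; simp only [hF, Finset.sum_apply]
    have hFmem : ∀ i, F i ∈ bddAlg (Om (S : Set Γ) K) := by
      intro i; rw [hFm]; exact sum_mem fun j _ => sum_mem fun a _ => hfnm i j a
    have hF0 : ∀ i w, 0 ≤ F i w := fun i w =>
      Finset.sum_nonneg fun j _ => Finset.sum_nonneg fun a _ => hfn0 i j a w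
    have hmF : ∀ i, m (F i) ≤ (J + 1) * kk * E := by
      intro i
      rw [hFm, hm.toPInv.sum _ _ (fun j _ => sum_mem fun a _ => hfnm i j a)]
      calc _ ≤ ∑ j ∈ Finset.range (J + 1), kk * E := by
            refine Finset.sum_le_sum fun j hj => ?_
            rw [hm.toPInv.sum _ _ (fun a _ => hfnm i j a)]
            calc _ ≤ ∑ _a : Fin R.k, E := Finset.sum_le_sum fun a _ =>
                  hbound i j (Nat.lt_succ_iff.1 (Finset.mem_range.1 hj)) a
              _ = R.k * E := by rw [Finset.sum_const, Finset.card_univ, Fintype.card_fin,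
                  nsmul_eq_mul]
              _ ≤ kk * E := mul_le_mul_of_nonneg_right (by rw [hkk]; linarith) hE0.le
        _ = (J + 1) * kk * E := by
            rw [Finset.sum_const, Finset.card_range, nsmul_eq_mul]; push_cast; ring
    -- number of chains
    rcases isEmpty_or_nonempty ι with hι | hι
    · exfalso
      rw [Fintype.card_eq_zero] at h2q
      have : (0 : ℝ) < 2 ^ (J * q) := by positivity
      push_cast at h2q
      linarith
    have hcι : (0 : ℝ) < Fintype.card ι := by exact_mod_cast Fintype.card_pos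
    set lam : ℝ := 2 / κ * ((J + 1) * kk * E) with hlam
    have hlam0 : 0 < lam := by positivity
    -- a good point `w`
    obtain ⟨w, hw, hFw⟩ := exists_point hm.toPInv (f := ∑ i, F i) (sum_mem fun i _ => hFmem i)
      (fun w => by rw [Finset.sum_apply]; exact Finset.sum_nonneg fun i _ => hF0 i w) hκ hτκ
      (E := Fintype.card ι * ((J + 1) * kk * E)) (by
        rw [hm.toPInv.sum _ _ (fun i _ => hFmem i)]
        calc _ ≤ ∑ _i : ι, (J + 1) * kk * E := Finset.sum_le_sum fun i _ => hmF i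
          _ = _ := by rw [Finset.sum_const, Finset.card_univ, nsmul_eq_mul]) (by positivity)
    rw [Finset.sum_apply] at hFw
    have hFw' : ∑ i, F i w ≤ Fintype.card ι * lam := by
      refine hFw.trans (le_of_eq ?_)
      rw [hlam]; ring
    have hhalf := half_card (fun i => F i w) (fun i => hF0 i w) hlam0 hFw'
    -- apply the counting theorem to the good chains
    have hfin : Fintype {i // F i w ≤ 2 * lam} := Fintype.ofFinite _
    have h2lam : 2 * lam ≤ q / 4 + C₅ := by
      have f1 : 2 * lam = (4 / κ * ((J + 1) * kk) * δ₀) * q + C₅ := by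
        rw [hlam, hE, hC₅]; ring
      have f2 : 4 / κ * ((J + 1) * kk) * δ₀ = 1 / 4 := by
        rw [hδ₀]; field_simp; norm_num
      rw [f1, f2]; linarith
    have hcnt := hcard w {i // F i w ≤ 2 * lam} (fun i => P i.1) J (C₁ * (q + 1) + 1) (q + C₅)
      (by have : 0 ≤ C₁ * ((q : ℝ) + 1) := by positivity
          linarith) (by positivity) (fun i => hP0 i.1)
      (fun i j hj => (hPs i.1 j hj).trans (by linarith)) (by
        intro i j hj a
        have h4 : fn' i.1 j a w ≤ F i.1 w := by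
          have f1 : fn' i.1 j a w ≤ ∑ a, fn' i.1 j a w :=
            Finset.single_le_sum (f := fun a => fn' i.1 j a w) (fun a _ => hfn0 i.1 j a w)
              (Finset.mem_univ a)
          have f2 : (∑ a, fn' i.1 j a w) ≤ F i.1 w :=
            Finset.single_le_sum (f := fun j => ∑ a, fn' i.1 j a w)
              (fun j _ => Finset.sum_nonneg fun a _ => hfn0 i.1 j a w)
              (Finset.mem_range.2 (by omega))
          exact f1.trans f2
        have h5 := h4.trans i.2
        have h6 : |e a - (τ a : Om (S : Set Γ) K → ℝ) w| ≤ ε₁ := by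
          rw [abs_sub_comm]; exact hw a
        have hjJ : (j : ℝ) ≤ J := by exact_mod_cast hj
        have hj0 : (0 : ℝ) ≤ j := Nat.cast_nonneg j
        have h7 : |(j * q * μ) * (e a - (τ a : Om (S : Set Γ) K → ℝ) w)| ≤ q / 4 := by
          rw [abs_mul, abs_of_nonneg (by positivity)]
          calc (j * q * μ) * |e a - (τ a : Om (S : Set Γ) K → ℝ) w| ≤ (J * q * μ) * ε₁ :=
                mul_le_mul (by gcongr) h6 (abs_nonneg _) (by positivity)
            _ = q / 4 := by rw [hε₁]; field_simp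
        have h8 : |hc R.π a (P i.1 j) w| ≤
            |hc R.π a (P i.1 j) w - (j * q * μ) * (e a - (τ a : Om (S : Set Γ) K → ℝ) w)| +
            |(j * q * μ) * (e a - (τ a : Om (S : Set Γ) K → ℝ) w)| := by
          have := abs_add_le (hc R.π a (P i.1 j) w - (j * q * μ) *
            (e a - (τ a : Om (S : Set Γ) K → ℝ) w))
            ((j * q * μ) * (e a - (τ a : Om (S : Set Γ) K → ℝ) w))
          rwa [sub_add_cancel] at this
        have h9 : |hgtR R.π (w.F (P i.1 j)) a| = |hc R.π a (P i.1 j) w| := rfl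
        rw [h9]
        have h10 : |hc R.π a (P i.1 j) w - (j * q * μ) *
            (e a - (τ a : Om (S : Set Γ) K → ℝ) w)| ≤ 2 * lam := h5
        linarith)
      (fun i i' h => Subtype.ext (hPinj h))
    rw [← Nat.card_eq_fintype_card] at hcnt
    calc (2:ℝ)^(J*q) ≤ C₂ * Fintype.card ι := h2q
      _ = (2 * C₂) * (Fintype.card ι / 2) := by ring
      _ ≤ (2 * C₂) * Nat.card {i // F i w ≤ 2 * lam} :=
          mul_le_mul_of_nonneg_left hhalf (by positivity)
      _ ≤ _ := mul_le_mul_of_nonneg_left hcnt (by positivity)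
  -- exponential versus polynomial
  obtain ⟨q, hq⟩ := exp_beats (2 * C₂ * C * Real.exp (c * (C₅ + C₁ + 1))) (J * (C₁ + 1) + 1) d
  have h1 := key q
  have hq0 : (0 : ℝ) ≤ q := Nat.cast_nonneg q
  have h2 : (2:ℝ)^(J*q) = Real.exp (J * q * Real.log 2) := by
    rw [← Real.rpow_natCast, Real.rpow_def_of_pos two_pos]
    push_cast
    ring_nf
  have h3 : Real.exp (c * ((q + C₅) + (C₁ * (q + 1) + 1))) =
      Real.exp (c * (C₅ + C₁ + 1)) * Real.exp (c * (1 + C₁) * q) := by
    rw [← Real.exp_add]; ring_nf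
  have h4 : (J * (C₁ * ((q : ℝ) + 1) + 1) + 1) ^ d ≤ ((J * (C₁ + 1) + 1) * ((q : ℝ) + 1)) ^ d := by
    apply pow_le_pow_left₀ (by positivity)
    nlinarith [mul_nonneg (le_trans zero_le_one hJ1) hq0]
  have h5 : Real.exp (c * (1 + C₁) * q) * Real.exp q ≤ Real.exp (J * q * Real.log 2) := by
    rw [← Real.exp_add]
    apply Real.exp_le_exp.2
    nlinarith
  rw [h2, h3] at h1
  have h6 : Real.exp (c * (1 + C₁) * q) * Real.exp q ≤
      (2 * C₂ * C * Real.exp (c * (C₅ + C₁ + 1)) * ((J * (C₁ + 1) + 1) * ((q : ℝ) + 1)) ^ d) *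
        Real.exp (c * (1 + C₁) * q) := by
    refine h5.trans (h1.trans ?_)
    have : (2 * C₂) * (C * (Real.exp (c * (C₅ + C₁ + 1)) * Real.exp (c * (1 + C₁) * q)) *
      (J * (C₁ * ((q : ℝ) + 1) + 1) + 1) ^ d) =
      (2 * C₂ * C * Real.exp (c * (C₅ + C₁ + 1)) * Real.exp (c * (1 + C₁) * q)) *
      (J * (C₁ * ((q : ℝ) + 1) + 1) + 1) ^ d := by ring
    rw [this]
    have h7 := mul_le_mul_of_nonneg_left h4
      (show 0 ≤ 2 * C₂ * C * Real.exp (c * (C₅ + C₁ + 1)) * Real.exp (c * (1 + C₁) * q) by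
        positivity)
    refine h7.trans (le_of_eq ?_)
    ring
  have h7 : 0 < Real.exp (c * (1 + C₁) * q) := Real.exp_pos _
  have h8 : Real.exp q ≤ 2 * C₂ * C * Real.exp (c * (C₅ + C₁ + 1)) *
      ((J * (C₁ + 1) + 1) * ((q : ℝ) + 1)) ^ d := by
    rw [mul_comm (Real.exp (c * (1 + C₁) * q))] at h6
    exact le_of_mul_le_mul_right h6 h7
  exact absurd h8 (not_le.2 hq)

end Crest.Agent.R182.Zd
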