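import Mathlib
import Crest.Agent.R182.ZdFinal
import Crest.Agent.R182.ZdChain
import Crest.Agent.R182.MicRel
import Crest.Agent.R182.ErgLip

/-!
# Row 182, module MICRO (author: helper506): the law for extreme invariant means
-/

set_option autoImplicit false

namespace Crest.Agent.R182.Mic

open Filter Topology Crest.GroupTheory Crest.Agent.R182.QI Crest.Agent.R182.FinPath
  Crest.Agent.R182.FinRed Crest.Agent.R182.Polyc Crest.Agent.R182.Ht Crest.Agent.R182.Zd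

universe u

variable {Γ : Type u} [Group Γ]

section Res

variable {H : Type*} [NormedAddCommGroup H] [InnerProductSpace ℝ H]

/-- restriction of an orthogonal representation to an invariant subspace -/
noncomputable def resW (U : Γ →* (H ≃ₗᵢ[ℝ] H)) (W : Submodule ℝ H)
    (hW : ∀ g, ∀ v ∈ W, U g v ∈ W) : Γ →* (W ≃ₗᵢ[ℝ] W) where
  toFun g :=
    { toFun := fun v => ⟨U g v, hW g v v.2⟩
      invFun := fun v => ⟨U g⁻¹ v, hW g⁻¹ v v.2⟩
      map_add' := fun _ _ => Subtype.ext (map_add _ _ _)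
      map_smul' := fun _ _ => Subtype.ext (map_smul _ _ _)
      left_inv := fun _ => Subtype.ext (U_inv_apply _ _)
      right_inv := fun _ => Subtype.ext (U_apply_inv _ _)
      norm_map' := fun v => U_norm g (v : H) }
  map_one' := LinearIsometryEquiv.ext fun _ => Subtype.ext (U_one _)
  map_mul' _ _ := LinearIsometryEquiv.ext fun _ => Subtype.ext (U_mul _ _ _)

theorem resW_coe (U : Γ →* (H ≃ₗᵢ[ℝ] H)) (W : Submodule ℝ H)
    (hW : ∀ g, ∀ v ∈ W, U g v ∈ W) (g : Γ) (v : W) : ((resW U W hW g v : W) : H) = U g v := rfl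

/-- chains with prescribed drift, in a subspace -/
theorem chains_in (R : RootData Γ) {S : Finset Γ} (hS : Subgroup.closure (S : Set Γ) = ⊤)
    {U : Γ →* (H ≃ₗᵢ[ℝ] H)} {W : Submodule ℝ H} [FiniteDimensional ℝ W] (hWN : W ≤ fix U R.N)
    (hWU : ∀ g, ∀ v ∈ W, U g v ∈ W) {β : Γ → H} (hβ : ∀ g, β g ∈ W) (hβc : Ht.Coc U β)
    (hspan : Submodule.span ℝ (β '' (R.N : Set Γ)) = W) {b : Fin R.k → ℝ} (hb : b ≠ 0) {t : H}
    (ht : t ∈ W) : ∃ μ C₁ : ℝ, 0 < μ ∧ 0 ≤ C₁ ∧ ∀ (J : ℕ) (ε : ℝ), 0 < ε → ∃ C₂ : ℝ, 0 ≤ C₂ ∧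
      ∀ q : ℕ, ∃ (ι : Type) (_ : Fintype ι) (P : ι → ℕ → Γ),
        (2:ℝ)^(J*q) ≤ C₂ * Fintype.card ι ∧ (∀ i, P i 0 = 1) ∧
        (∀ i, ∀ j < J, (nd (S : Set Γ) (P i j) (P i (j+1)) : ℝ) ≤ C₁*(q+1)) ∧
        Function.Injective (fun i => P i J) ∧
        (∀ i, ∀ j ≤ J, ∀ a, |hgtR R.π (P i j) a - j*q*μ*b a| ≤ C₂) ∧
        (∀ i, ∀ j ≤ J, ‖β (P i j) + ((j*q*μ:ℝ))•t‖ ≤ ε*q + C₂) := by
  set βW : Γ → W := fun g => ⟨β g, hβ g⟩ with hβWdef
  have hUW : ∀ n ∈ R.N, ∀ v, resW U W hWU n v = v := fun n hn v => Subtype.ext (hWN v.2 n hn)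
  have hβW : Ht.Coc (resW U W hWU) βW := fun g h => Subtype.ext (hβc g h)
  have hspanW : Submodule.span ℝ (βW '' (R.N : Set Γ)) = ⊤ := by
    rw [eq_top_iff]
    rintro ⟨v, hv⟩ -
    have h1 : Submodule.map W.subtype (Submodule.span ℝ (βW '' (R.N : Set Γ))) = W := by
      rw [Submodule.map_span, ← Set.image_comp]
      exact hspan
    have h2 : v ∈ Submodule.map W.subtype (Submodule.span ℝ (βW '' (R.N : Set Γ))) := by
      rw [h1]; exact hv
    obtain ⟨v', hv', rfl⟩ := h2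
    exact hv'
  obtain ⟨μ, C₁, hμ, hC₁, h⟩ := exists_chains R hS (resW U W hWU) hUW βW hβW hspanW b hb
    (-⟨t, ht⟩)
  refine ⟨μ, C₁, hμ, hC₁, fun J ε hε => ?_⟩
  obtain ⟨C₂, hC₂, h⟩ := h J ε hε
  refine ⟨C₂, hC₂, fun q => ?_⟩
  obtain ⟨ι, hι, P, h1, h2, h3, h4, h5, h6⟩ := h q
  refine ⟨ι, hι, P, h1, h2, h3, h4, h5, fun i j hj => ?_⟩
  have h7 := h6 i j hj
  rw [smul_neg, sub_neg_eq_add] at h7
  exact h7

end Res

/-- **No zero-weight drift.** -/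
theorem exists_law (R : RootData Γ) {S : Finset Γ} (hS : Subgroup.closure (S : Set Γ) = ⊤) {K : ℕ}
    {m : (Om (S : Set Γ) K → ℝ) → ℝ}
    (hm : Erg.IMean Om.act (bddAlg (Om (S : Set Γ) K)) m)
    (hE : Erg.Ext Om.act (bddAlg (Om (S : Set Γ) K)) m) :
    ∃ (Lb : (Fin R.k → ℝ) →ₗ[ℝ] (Fin R.k → ℝ)) (r : Γ → VK R.k (V alg_Om hm)),
      (∀ g i, bco alg_Om hm (coc_hc hS R.π i) g =
        (Lb (hgtR R.π g) i) • ofA alg_Om hm 1 + r g i) ∧
      Ht.Coc (UK (U alg_Om hm) R.k) r ∧ AC (UK (U alg_Om hm) R.k) r := by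
  have hN := R.normal
  have hfg : ∀ H : Subgroup Γ, H.FG := fun H => (R.pz.pc.mono le_top).fg
  obtain ⟨W, β, r, Lb, hfd, hdec, hβ, hWN, hWU, hβc, hspan, hrc, hr⟩ :=
    exists_dec_mean alg_Om hm hE abs_mem_bdd hfg R.N R.nilp R.surj R.mem_N
      (fun i => coc_hc hS R.π i)
  -- the contradiction for a pair `(b, t)`
  have key : ∀ b : Fin R.k → ℝ, b ≠ 0 → ∀ t : VK R.k (V alg_Om hm), t ∈ W →
      EssVal alg_Om hm t (Lb b) → False := fun b hb t ht hess =>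
    no_ess R hS hm hdec hrc hr hess (chains_in R hS hWN hWU hβ hβc hspan hb ht)
  have hW : W = ⊥ := by
    by_contra hW
    obtain ⟨t₀, ht₀W, ht₀⟩ := Submodule.exists_mem_ne_zero_of_ne_bot hW
    obtain ⟨e, he, hess⟩ := exists_ess alg_Om hm t₀ ht₀
    by_cases hinj : Function.Injective Lb
    · obtain ⟨b, hb⟩ := (LinearMap.surjective_of_injective hinj) e
      refine key b ?_ t₀ ht₀W (by rw [hb]; exact hess)
      rintro rfl
      rw [map_zero] at hb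
      exact he hb.symm
    · obtain ⟨b, hb0, hb⟩ : ∃ b, Lb b = 0 ∧ b ≠ 0 := by
        by_contra hcon
        push Not at hcon
        exact hinj ((injective_iff_map_eq_zero Lb).2 hcon)
      exact key b hb 0 W.zero_mem (by rw [hb0]; exact essVal_zero alg_Om hm R.k)
  refine ⟨Lb, r, fun g i => ?_, hrc, hr⟩
  have h1 : β g = 0 := by
    have := hβ g
    rw [hW, Submodule.mem_bot] at this
    exact this
  rw [hdec g i, h1, PiLp.zero_apply, zero_add]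

section Law

variable (R : RootData Γ) {S : Finset Γ} (hS : Subgroup.closure (S : Set Γ) = ⊤) {K : ℕ}
  {m : (Om (S : Set Γ) K → ℝ) → ℝ} (hm : Erg.IMean Om.act (bddAlg (Om (S : Set Γ) K)) m)
  {Lb : (Fin R.k → ℝ) →ₗ[ℝ] (Fin R.k → ℝ)} {r : Γ → VK R.k (V alg_Om hm)}
  (hdec : ∀ g i, bco alg_Om hm (coc_hc hS R.π i) g =
    (Lb (hgtR R.π g) i) • ofA alg_Om hm 1 + r g i)

variable (K) in
/-- the deviation function -/
noncomputable def dev (Lb : (Fin R.k → ℝ) →ₗ[ℝ] (Fin R.k → ℝ)) (x : Γ) (i : Fin R.k) :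
    bddAlg (Om (S : Set Γ) K) :=
  ⟨hc R.π i x, (coc_hc hS R.π i).mem x⟩ - (Lb (hgtR R.π x) i) • (1 : bddAlg (Om (S : Set Γ) K))

theorem dev_apply (x : Γ) (i : Fin R.k) (w : Om (S : Set Γ) K) :
    (dev R hS K Lb x i : Om (S : Set Γ) K → ℝ) w = hc R.π i x w - Lb (hgtR R.π x) i := by
  show hc R.π i x w - Lb (hgtR R.π x) i * 1 = _
  rw [mul_one]

include hdec in
theorem ofA_dev (x : Γ) (i : Fin R.k) : ofA alg_Om hm (dev R hS K Lb x i) = r x i := by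
  have h1 : ofA alg_Om hm (dev R hS K Lb x i) = bco alg_Om hm (coc_hc hS R.π i) x -
      (Lb (hgtR R.π x) i) • ofA alg_Om hm 1 := by
    rw [dev, map_sub, map_smul]; rfl
  rw [h1, hdec]
  abel

include hdec in
theorem appC (hr : AC (UK (U alg_Om hm) R.k) r) : AppC S K R.π m Lb := by
  intro ε hε B
  obtain ⟨ξ, hξ⟩ := hr B (ε / 2) (by positivity)
  choose ξ' hξ' using fun i => exists_cob alg_Om hm abs_mem_bdd (ξ i) (half_pos hε)
  refine ⟨fun i => ξ' i, fun i => (ξ' i).2, fun x hx i => ?_⟩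
  have h1 := hξ' i x (dev R hS K Lb x i)
  rw [ofA_dev R hS hm hdec] at h1
  have h2 : ‖r x i - (ξ i - U alg_Om hm x (ξ i))‖ ≤ ε / 2 := by
    have h3 := norm_coord_le (r x - (ξ - UK (U alg_Om hm) R.k x ξ)) i
    exact h3.trans (hξ x hx)
  have h4 : (fun w => |hc R.π i x w - Lb (hgtR R.π x) i -
      ((ξ' i : Om (S : Set Γ) K → ℝ) w - (ξ' i : Om (S : Set Γ) K → ℝ) (w.act x))|) =
      fun w => |(dev R hS K Lb x i : Om (S : Set Γ) K → ℝ) w -
        ((ξ' i : Om (S : Set Γ) K → ℝ) w - (ξ' i : Om (S : Set Γ) K → ℝ) (w.act x))| := by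
    funext w; rw [dev_apply]
  rw [h4]
  linarith

include hdec in
theorem law_sub (hrc : Ht.Coc (UK (U alg_Om hm) R.k) r) (hr : AC (UK (U alg_Om hm) R.k) r) :
    ∀ ε > 0, ∃ C : ℝ, ∀ (x : Γ) (i : Fin R.k),
      m (fun w => |hc R.π i x w - Lb (hgtR R.π x) i|) ≤ ε * wordLength (S : Set Γ) x + C := by
  intro ε hε
  obtain ⟨C, hC⟩ := AC.sublinear hrc hr S hε
  refine ⟨C, fun x i => ?_⟩
  have h1 := mean_abs_le alg_Om hm abs_mem_bdd (dev R hS K Lb x i)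
  rw [ofA_dev R hS hm hdec] at h1
  simp only [dev_apply] at h1
  refine h1.trans ((norm_coord_le _ i).trans ?_)
  obtain ⟨l, hlen, hl, rfl⟩ := wordLength_spec hS x
  rw [← hlen]
  exact hC l hl

end Law

/-- extremality of a positive multiple -/
theorem ext_div {X G : Type*} [Group G] {ρ : X → G → X} {𝓐 : Subalgebra ℝ (X → ℝ)}
    {m : (X → ℝ) → ℝ} (hE : Erg.Ext ρ 𝓐 m) {Z : ℝ} (hZ : 0 < Z) :
    Erg.Ext ρ 𝓐 (fun φ => m φ / Z) := by
  intro m' hm' hle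
  have h1 : Erg.PInv ρ 𝓐 (fun φ => Z * m' φ) :=
    ⟨fun φ hφ χ hχ => by rw [hm'.add φ hφ χ hχ]; ring,
      fun c φ hφ => by rw [hm'.smul c φ hφ]; ring,
      fun φ hφ h0 => mul_nonneg hZ.le (hm'.nonneg φ hφ h0),
      fun g φ hφ => by rw [hm'.inv g φ hφ]⟩
  obtain ⟨c, hc⟩ := hE _ h1 fun φ hφ h0 => by
    have := hle φ hφ h0
    rw [le_div_iff₀ hZ] at this
    linarith
  refine ⟨c, fun φ hφ => ?_⟩
  have h2 := hc φ hφ
  have h3 : m' φ = c * m φ / Z := by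
    rw [eq_div_iff hZ.ne', ← h2]; ring
  rw [h3]; ring

/-- **Output of the module MICRO**: `N` a seminorm with the capacity inequality. -/
theorem micOut (R : RootData Γ) {S : Finset Γ} (hS : Subgroup.closure (S : Set Γ) = ⊤)
    (N : Seminorm ℝ (Fin R.k → ℝ))
    (hseg : ∀ (K : ℕ) (m : (Om (S : Set Γ) K → ℝ) → ℝ),
      Erg.IMean Om.act (bddAlg (Om (S : Set Γ) K)) m →
      ∀ L : (Fin R.k → ℝ) →ₗ[ℝ] (Fin R.k → ℝ), (∀ ε > 0, ∃ C : ℝ, ∀ (x : Γ) (i : Fin R.k),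
        m (fun w => |hc R.π i x w - L (hgtR R.π x) i|) ≤ ε * wordLength (S : Set Γ) x + C) →
      ∀ v, N v ≤ N (L v)) : Erg.MicOut (S : Set Γ) R.π N := by
  intro K m hm hE
  obtain ⟨L, r, hdec, hrc, hr⟩ := exists_law R hS hm hE
  have hlaw := law_sub R hS hm hdec hrc hr
  have happ := appC R hS hm hdec hr
  -- the dual mean
  have hm' := dual_imean hS hm
  have hZ := dual_pos' hS hm.toPInv hm.one
  have hE' := ext_div (dual_ext hS hm.toPInv hE) hZ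
  obtain ⟨L', r', hdec', hrc', hr'⟩ := exists_law R hS hm' hE'
  have hlaw' := law_sub R hS hm' hdec' hrc' hr'
  have happ' := appC R hS hm' hdec' hr'
  have hrel := dual_rel' hS R.surj hm happ happ'
  refine ⟨L, fun v => ?_, hlaw⟩
  apply le_antisymm
  · have h1 := hseg K _ hm' L' hlaw' (L v)
    have h2 : L' (L v) = v := LinearMap.congr_fun hrel v
    rwa [h2] at h1
  · exact hseg K m hm L hlaw v

end Crest.Agent.R182.Mic
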