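/-
R182, module MICRO, block Z4 (helper278): if the image of the segment `[0, v]` under the quasi-isometries
`w` stays near the segment `[0, L v]` in `m`-mean then `g v ≤ g (L v)` for the norm `g = GenSys.g`.
-/
import Mathlib
import Crest.Agent.R182.CapMain
import Crest.Agent.R182.ErgUnif
import Crest.Agent.R182.MicDefs
import Crest.Agent.R182.FinRed

set_option autoImplicit false
set_option linter.unusedSectionVars false

namespace Crest.Agent.R182.Mic

open MeasureTheory Crest.GroupTheory Crest.Geometry Crest.Agent.R182.QI Crest.Agent.R182.FinPath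
  Crest.Agent.R182.FinRed Crest.Agent.R182.Cap

/-! ### Fubini -/

section fubini

variable {X Ω J Y : Type*} [MeasurableSpace Ω] [Fintype J]

theorem PMean.sum {𝓐 : Subalgebra ℝ (X → ℝ)} {m : (X → ℝ) → ℝ} (hm : Erg.PMean 𝓐 m)
    {α : Type*} (s : Finset α) (f : α → X → ℝ) (hf : ∀ i ∈ s, f i ∈ 𝓐) :
    m (∑ i ∈ s, f i) = ∑ i ∈ s, m (f i) := by
  classical
  induction s using Finset.induction_on with
  | empty =>
    rw [Finset.sum_empty, Finset.sum_empty]
    have := hm.smul 0 0 (zero_mem _)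
    rwa [smul_zero, zero_mul] at this
  | insert a s ha ih =>
    rw [Finset.sum_insert ha, Finset.sum_insert ha,
      hm.add _ (hf a (Finset.mem_insert_self _ _)) _
        (sum_mem fun i hi => hf i (Finset.mem_insert_of_mem hi)),
      ih fun i hi => hf i (Finset.mem_insert_of_mem hi)]

theorem PMean.mono {𝓐 : Subalgebra ℝ (X → ℝ)} {m : (X → ℝ) → ℝ} (hm : Erg.PMean 𝓐 m)
    {f g : X → ℝ} (hf : f ∈ 𝓐) (hg : g ∈ 𝓐) (h : ∀ x, f x ≤ g x) : m f ≤ m g := by
  have h1 : 0 ≤ m (g + (-1 : ℝ) • f) :=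
    hm.nonneg _ (add_mem hg (𝓐.smul_mem hf _)) fun x => by
      have := h x
      simp only [Pi.add_apply, Pi.smul_apply, smul_eq_mul]
      linarith
  rw [hm.add _ hg _ (𝓐.smul_mem hf _), hm.smul _ _ hf] at h1
  linarith

theorem PMean.const {𝓐 : Subalgebra ℝ (X → ℝ)} {m : (X → ℝ) → ℝ} (hm : Erg.PMean 𝓐 m)
    (c : ℝ) : m (fun _ => c) = c := by
  have h := hm.smul c 1 (one_mem 𝓐)
  rw [hm.one, mul_one] at h
  have h2 : (fun _ : X => c) = c • (1 : X → ℝ) := by funext x; simp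
  rw [h2]; exact h

/-- **Fubini**: for finitely many random points there is one `w` which is good with
probability `≥ 1/2`. -/
theorem exists_good {𝓐 : Subalgebra ℝ (X → ℝ)} {m : (X → ℝ) → ℝ} (hm : Erg.PMean 𝓐 m)
    (P : Measure Ω) [IsProbabilityMeasure P] (y : J → Ω → Y)
    (hy : ∀ j γ, MeasurableSet {ω | y j ω = γ}) (B : Finset Y)
    (hB : ∀ᵐ ω ∂P, ∀ j, y j ω ∈ B) (f : Y → X → ℝ) (hf : ∀ γ, f γ ∈ 𝓐)
    (hf0 : ∀ γ x, 0 ≤ f γ x) {δ θ : ℝ} (hδ : ∀ γ ∈ B, m (f γ) ≤ δ) (hδ0 : 0 ≤ δ) (hθ : 0 < θ)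
    (hsmall : Fintype.card J * δ ≤ θ / 4) :
    ∃ w : X, ENNReal.ofReal (1 / 2) ≤ P {ω | ∀ j, f (y j ω) w ≤ θ} := by
  classical
  set p : J → Y → ℝ := fun j γ => (P {ω | y j ω = γ}).toReal with hp
  have hp0 : ∀ j γ, 0 ≤ p j γ := fun j γ => ENNReal.toReal_nonneg
  have hpsum : ∀ j, ∑ γ ∈ B, p j γ ≤ 1 := by
    intro j
    have h1 : ∑ γ ∈ B, P {ω | y j ω = γ} = P (⋃ γ ∈ B, {ω | y j ω = γ}) := by
      rw [measure_biUnion_finset]
      · intro a _ b _ hab
        rw [Function.onFun, Set.disjoint_left]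
        intro ω h1 h2
        exact hab (h1.symm.trans h2)
      · exact fun γ _ => hy j γ
    have h2 : ∑ γ ∈ B, p j γ = (∑ γ ∈ B, P {ω | y j ω = γ}).toReal := by
      rw [ENNReal.toReal_sum fun γ _ => measure_ne_top _ _]
    rw [h2, h1]
    calc (P (⋃ γ ∈ B, {ω | y j ω = γ})).toReal ≤ (P Set.univ).toReal :=
          ENNReal.toReal_mono (measure_ne_top _ _) (measure_mono (Set.subset_univ _))
      _ = 1 := by rw [measure_univ]; rfl
  set φ : X → ℝ := ∑ j, ∑ γ ∈ B, p j γ • f γ with hφ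
  have hφm : φ ∈ 𝓐 := sum_mem fun j _ => sum_mem fun γ _ => 𝓐.smul_mem (hf γ) _
  have h1 : m φ ≤ θ / 4 := by
    rw [hφ, PMean.sum hm _ _ fun j _ => sum_mem fun γ _ => 𝓐.smul_mem (hf γ) _]
    calc ∑ j, m (∑ γ ∈ B, p j γ • f γ) = ∑ j, ∑ γ ∈ B, p j γ * m (f γ) := by
          refine Finset.sum_congr rfl fun j _ => ?_
          rw [PMean.sum hm _ _ fun γ _ => 𝓐.smul_mem (hf γ) _]
          exact Finset.sum_congr rfl fun γ _ => hm.smul _ _ (hf γ)
      _ ≤ ∑ j : J, δ := by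
          refine Finset.sum_le_sum fun j _ => ?_
          calc ∑ γ ∈ B, p j γ * m (f γ) ≤ ∑ γ ∈ B, p j γ * δ :=
                Finset.sum_le_sum fun γ hγ => mul_le_mul_of_nonneg_left (hδ γ hγ) (hp0 _ _)
            _ = (∑ γ ∈ B, p j γ) * δ := by rw [Finset.sum_mul]
            _ ≤ 1 * δ := mul_le_mul_of_nonneg_right (hpsum j) hδ0
            _ = δ := one_mul _
      _ = Fintype.card J * δ := by rw [Finset.sum_const, nsmul_eq_mul, Finset.card_univ]
      _ ≤ θ / 4 := hsmall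
  obtain ⟨w, hw⟩ : ∃ w, φ w ≤ θ / 2 := by
    by_contra hcon
    push Not at hcon
    have h2 : m (fun _ => θ / 2) ≤ m φ :=
      PMean.mono hm (by
        have : (fun _ : X => θ / 2) = (θ / 2) • (1 : X → ℝ) := by funext x; simp
        rw [this]; exact 𝓐.smul_mem (one_mem _) _) hφm fun x => (hcon x).le
    rw [PMean.const hm] at h2
    linarith
  refine ⟨w, ?_⟩
  set bad : Set Ω := ⋃ j, ⋃ γ ∈ B.filter (fun γ => θ < f γ w), {ω | y j ω = γ} with hbad
  have hbadle : P bad ≤ ENNReal.ofReal (1 / 2) := by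
    have e1 : P bad ≤ ∑ j, ∑ γ ∈ B.filter (fun γ => θ < f γ w), P {ω | y j ω = γ} :=
      (measure_iUnion_fintype_le _ _).trans
        (Finset.sum_le_sum fun j _ => measure_biUnion_finset_le _ _)
    have e2 : ∑ j, ∑ γ ∈ B.filter (fun γ => θ < f γ w), P {ω | y j ω = γ} =
        ENNReal.ofReal (∑ j, ∑ γ ∈ B.filter (fun γ => θ < f γ w), p j γ) := by
      rw [ENNReal.ofReal_sum_of_nonneg fun j _ => Finset.sum_nonneg fun γ _ => hp0 _ _]
      refine Finset.sum_congr rfl fun j _ => ?_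
      rw [ENNReal.ofReal_sum_of_nonneg fun γ _ => hp0 _ _]
      refine Finset.sum_congr rfl fun γ _ => ?_
      rw [hp]
      exact (ENNReal.ofReal_toReal (measure_ne_top _ _)).symm
    refine e1.trans (e2.le.trans (ENNReal.ofReal_le_ofReal ?_))
    have e3 : ∑ j, ∑ γ ∈ B.filter (fun γ => θ < f γ w), p j γ ≤ φ w / θ := by
      rw [hφ, Finset.sum_apply, Finset.sum_div]
      refine Finset.sum_le_sum fun j _ => ?_
      rw [Finset.sum_apply, Finset.sum_div]
      calc ∑ γ ∈ B.filter (fun γ => θ < f γ w), p j γ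
          ≤ ∑ γ ∈ B.filter (fun γ => θ < f γ w), (p j γ • f γ) w / θ := by
            refine Finset.sum_le_sum fun γ hγ => ?_
            have h3 := (Finset.mem_filter.1 hγ).2
            rw [Pi.smul_apply, smul_eq_mul, mul_div_assoc]
            have h4 : 1 ≤ f γ w / θ := by rw [le_div_iff₀ hθ]; linarith
            nlinarith [hp0 j γ]
        _ ≤ ∑ γ ∈ B, (p j γ • f γ) w / θ := by
            refine Finset.sum_le_sum_of_subset_of_nonneg (Finset.filter_subset _ _)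
              fun γ _ _ => ?_
            rw [Pi.smul_apply, smul_eq_mul]
            exact div_nonneg (mul_nonneg (hp0 _ _) (hf0 _ _)) hθ.le
    refine e3.trans ?_
    rw [div_le_iff₀ hθ]
    linarith
  have hcov : (1 : ENNReal) ≤ P {ω | ∀ j, f (y j ω) w ≤ θ} + P bad := by
    calc (1 : ENNReal) = P Set.univ := measure_univ.symm
      _ ≤ P ({ω | ∀ j, f (y j ω) w ≤ θ} ∪ bad) := by
          refine measure_mono_ae ?_
          filter_upwards [hB] with ω hω _
          by_cases h : ∀ j, f (y j ω) w ≤ θ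
          · exact Or.inl h
          · push Not at h
            obtain ⟨j, hj⟩ := h
            refine Or.inr ?_
            rw [hbad]
            simp only [Set.mem_iUnion]
            exact ⟨j, y j ω, Finset.mem_filter.2 ⟨hω j, hj⟩, rfl⟩
      _ ≤ _ := measure_union_le _ _
  have h5 : (1 : ENNReal) ≤ P {ω | ∀ j, f (y j ω) w ≤ θ} + ENNReal.ofReal (1 / 2) :=
    hcov.trans (by gcongr)
  have h6 : (1 : ENNReal) = ENNReal.ofReal (1 / 2) + ENNReal.ofReal (1 / 2) := by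
    rw [← ENNReal.ofReal_add (by norm_num) (by norm_num)]
    norm_num
  rw [h6] at h5
  exact (ENNReal.add_le_add_iff_right ENNReal.ofReal_ne_top).1 h5

end fubini

/-! ### lattices in the model -/

variable {Γ : Type*} [Group Γ] {k : ℕ} {G H I E : Type*} [Group G] [Group H] [MeasurableSpace H]
  [Fintype I] [NormedAddCommGroup E] [NormedSpace ℝ E]

/-- A lattice `Γ` in the model, with measurable rounding and integral verticals. -/
structure Lat (M : CapModel G H I E) (S : Set Γ) (π : Γ →* Multiplicative (Fin k → ℤ))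
    (T : (Fin k → ℝ) ≃ₗ[ℝ] E) where
  iot : Γ →* G
  rnd : G → Γ
  a : ℝ
  one_le_a : 1 ≤ a
  len_iot : ∀ γ, M.len (iot γ) ≤ a * wordLength S γ
  iot_len : ∀ γ, (wordLength S γ : ℝ) ≤ a * M.len (iot γ) + a
  len_rnd : ∀ g, M.len ((iot (rnd g))⁻¹ * g) ≤ a
  hgt_iot : ∀ γ, M.hgt (iot γ) = T (hgtR π γ)
  rnd_meas : ∀ (x g : G) (γ : Γ), MeasurableSet {n | rnd (x * M.emb n * g) = γ}
  vt : ∀ v : Fin k → ℤ, ∃ g ∈ M.Cl (n1 v), M.hgt g = T (fun i => (v i : ℝ))

namespace Lat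

variable {M : CapModel G H I E} {S : Set Γ} {π : Γ →* Multiplicative (Fin k → ℤ)}
  {T : (Fin k → ℝ) ≃ₗ[ℝ] E} (R : Lat M S π T)

include R in
theorem a0 : 0 ≤ R.a := zero_le_one.trans R.one_le_a

theorem dst_iot (x y : Γ) : M.dst (R.iot x) (R.iot y) = M.len (R.iot (x⁻¹ * y)) := by
  unfold CapModel.dst; rw [map_mul, map_inv]

theorem nd_rnd (P Q : G) : (nd S (R.rnd P) (R.rnd Q) : ℝ) ≤ R.a * (M.dst P Q + 2 * R.a) + R.a := by
  have h1 := R.iot_len ((R.rnd P)⁻¹ * R.rnd Q)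
  rw [← R.dst_iot] at h1
  have h2 := M.dst_tri (R.iot (R.rnd P)) P (R.iot (R.rnd Q))
  have h3 := M.dst_tri P Q (R.iot (R.rnd Q))
  have h4 : M.dst (R.iot (R.rnd P)) P ≤ R.a := R.len_rnd P
  have h5 : M.dst Q (R.iot (R.rnd Q)) ≤ R.a := by rw [M.dst_comm]; exact R.len_rnd Q
  have ha := R.a0
  refine h1.trans ?_
  have : M.dst (R.iot (R.rnd P)) (R.iot (R.rnd Q)) ≤ M.dst P Q + 2 * R.a := by linarith
  gcongr

theorem dst_le_nd (P Q : G) : M.dst P Q ≤ R.a * nd S (R.rnd P) (R.rnd Q) + 2 * R.a := by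
  have h1 := R.len_iot ((R.rnd P)⁻¹ * R.rnd Q)
  rw [← R.dst_iot] at h1
  have h2 := M.dst_tri P (R.iot (R.rnd P)) Q
  have h3 := M.dst_tri (R.iot (R.rnd P)) (R.iot (R.rnd Q)) Q
  have h4 : M.dst P (R.iot (R.rnd P)) ≤ R.a := by rw [M.dst_comm]; exact R.len_rnd P
  have h5 : M.dst (R.iot (R.rnd Q)) Q ≤ R.a := R.len_rnd Q
  have h6 : R.a * (wordLength S ((R.rnd P)⁻¹ * R.rnd Q) : ℝ) = R.a * nd S (R.rnd P) (R.rnd Q) := rfl
  linarith

/-- the extension of a pair -/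
def ext {K : ℕ} (w : Om S K) (g : G) : G := R.iot (w.F (R.rnd g))

theorem qi [Countable Γ] (hS : Subgroup.closure S = ⊤) {K : ℕ} (w : Om S K) :
    QI M (8 * R.a ^ 3 * (K + 1)) (R.ext w) := by
  have ha := R.a0
  have ha1 := R.one_le_a
  have hK : (0 : ℝ) ≤ K := Nat.cast_nonneg _
  have ha2 : 1 ≤ R.a ^ 2 := one_le_pow₀ ha1
  have ha3 : R.a ≤ R.a ^ 3 := by nlinarith
  have ha32 : R.a ^ 2 ≤ R.a ^ 3 := by nlinarith
  have ha13 : 1 ≤ R.a ^ 3 := by nlinarith
  refine ⟨by nlinarith, fun P Q => ?_, fun P Q => ?_, fun x g A => ?_⟩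
  · have h1 : M.dst (R.ext w P) (R.ext w Q) ≤ R.a * nd S (w.F (R.rnd P)) (w.F (R.rnd Q)) := by
      unfold ext; rw [R.dst_iot]; exact R.len_iot _
    have h2 : (nd S (w.F (R.rnd P)) (w.F (R.rnd Q)) : ℝ) ≤ K * nd S (R.rnd P) (R.rnd Q) + K := by
      exact_mod_cast w.F_up _ _
    have h3 := R.nd_rnd P Q
    have h4 := M.dst_nonneg P Q
    calc M.dst (R.ext w P) (R.ext w Q)
        ≤ R.a * (K * (R.a * (M.dst P Q + 2 * R.a) + R.a) + K) := by
          refine h1.trans ?_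
          gcongr
          exact h2.trans (by gcongr)
      _ = K * R.a ^ 2 * M.dst P Q + K * (2 * R.a ^ 3 + R.a ^ 2 + R.a) := by ring
      _ ≤ K * R.a ^ 3 * M.dst P Q + K * (4 * R.a ^ 3) := by gcongr; linarith
      _ ≤ _ := by
        have hp : 0 ≤ R.a ^ 3 := by positivity
        nlinarith [mul_nonneg hp h4, mul_nonneg (mul_nonneg hK hp) h4, mul_nonneg hK hp]
  · have h1 := R.dst_le_nd P Q
    have h2 : (nd S (R.rnd P) (R.rnd Q) : ℝ) ≤
        K * nd S (w.F (R.rnd P)) (w.F (R.rnd Q)) + 3 * K := by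
      exact_mod_cast w.F_lo hS _ _
    have h3 : (nd S (w.F (R.rnd P)) (w.F (R.rnd Q)) : ℝ) ≤
        R.a * M.dst (R.ext w P) (R.ext w Q) + R.a := by
      unfold ext; rw [R.dst_iot]; exact R.iot_len _
    have h4 := M.dst_nonneg (R.ext w P) (R.ext w Q)
    calc M.dst P Q ≤ R.a * (K * (R.a * M.dst (R.ext w P) (R.ext w Q) + R.a) + 3 * K) + 2 * R.a := by
          refine h1.trans ?_
          gcongr
          exact h2.trans (by gcongr)
      _ = K * R.a ^ 2 * M.dst (R.ext w P) (R.ext w Q) + (K * (R.a ^ 2 + 3 * R.a) + 2 * R.a) := by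
          ring
      _ ≤ K * R.a ^ 3 * M.dst (R.ext w P) (R.ext w Q) + (K * (4 * R.a ^ 3) + 2 * R.a ^ 3) := by
          gcongr
          linarith
      _ ≤ _ := by
        have hp : 0 ≤ R.a ^ 3 := by positivity
        nlinarith [mul_nonneg hp h4, mul_nonneg (mul_nonneg hK hp) h4, mul_nonneg hK hp]
  · have : {n | R.ext w (x * M.emb n * g) ∈ A} =
        ⋃ γ ∈ {γ | R.iot (w.F γ) ∈ A}, {n | R.rnd (x * M.emb n * g) = γ} := by
      ext n; simp [ext]
    rw [this]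
    exact MeasurableSet.biUnion (Set.to_countable _) fun γ _ => R.rnd_meas x g γ

include R in
/-- the checkpoints of a long vertical segment. -/
theorem exists_star (v : Fin k → ℝ) {b : ℕ} (hb : ∑ i, |v i| ≤ b) (n : ℕ) :
    ∃ d : ℕ → G, d 0 = 1 ∧
      (∀ j : ℕ, M.hgt (d j) = T (fun i => ((⌊(j * n : ℝ) * v i⌋ : ℤ) : ℝ))) ∧
      (∀ j : ℕ, d j ∈ M.Cl (j * (n * b + k))) ∧
      ∀ j : ℕ, (d j)⁻¹ * d (j + 1) ∈ M.Cl (n * b + k) := by
  set u : ℕ → Fin k → ℤ := fun j i => ⌊((j + 1 : ℕ) * n : ℝ) * v i⌋ - ⌊(j * n : ℝ) * v i⌋ with hu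
  have hn1 : ∀ j, n1 (u j) ≤ n * b + k := by
    intro j
    have h1 : ∀ i, ((u j i).natAbs : ℝ) ≤ n * |v i| + 1 := by
      intro i
      rw [Nat.cast_natAbs, Int.cast_abs, hu]
      push_cast
      have e1 := Int.floor_le (((j + 1 : ℕ) * n : ℝ) * v i)
      have e2 := Int.lt_floor_add_one (((j + 1 : ℕ) * n : ℝ) * v i)
      have e3 := Int.floor_le ((j * n : ℝ) * v i)
      have e4 := Int.lt_floor_add_one ((j * n : ℝ) * v i)
      push_cast at e1 e2
      have e5 : ((j + 1) * n : ℝ) * v i - (j * n : ℝ) * v i = n * v i := by ring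
      have e6 : |(n : ℝ) * v i| = n * |v i| := by rw [abs_mul, abs_of_nonneg (Nat.cast_nonneg n)]
      have e7 := neg_abs_le ((n : ℝ) * v i)
      have e8 := le_abs_self ((n : ℝ) * v i)
      rw [abs_le]
      constructor <;> linarith
    have h2 : (n1 (u j) : ℝ) ≤ n * b + k := by
      unfold n1
      push_cast
      calc ∑ i, ((u j i).natAbs : ℝ) ≤ ∑ i, ((n : ℝ) * |v i| + 1) :=
            Finset.sum_le_sum fun i _ => h1 i
        _ = n * ∑ i, |v i| + k := by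
            rw [Finset.sum_add_distrib, ← Finset.mul_sum, Finset.sum_const, Finset.card_univ,
              Fintype.card_fin]
            simp
        _ ≤ n * b + k := by gcongr
    exact_mod_cast h2
  choose g hg hgh using fun j => R.vt (u j)
  refine ⟨fun j => Nat.rec 1 (fun j x => x * g j) j, rfl, ?_, ?_, ?_⟩
  · intro j
    induction j with
    | zero =>
      show M.hgt 1 = _
      rw [M.hgt_one]
      have : (fun i => ((⌊((0 : ℕ) * n : ℝ) * v i⌋ : ℤ) : ℝ)) = 0 := by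
        funext i; simp
      rw [this, map_zero]
    | succ j ih =>
      show M.hgt ((Nat.rec 1 (fun j x => x * g j) j : G) * g j) = _
      rw [M.hgt_mul, ih, hgh, ← map_add]
      congr 1
      funext i
      simp only [Pi.add_apply, hu]
      push_cast
      ring
  · intro j
    induction j with
    | zero =>
      show (1 : G) ∈ _
      rw [zero_mul]; exact M.one_mem_Cl
    | succ j ih =>
      show (Nat.rec 1 (fun j x => x * g j) j : G) * g j ∈ _
      rw [Nat.succ_mul]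
      exact M.Cl_mul _ _ _ _ ih (M.Cl_mono _ _ (hn1 j) (hg j))
  · intro j
    show (Nat.rec 1 (fun j x => x * g j) j : G)⁻¹ * ((Nat.rec 1 (fun j x => x * g j) j : G) * g j) ∈ _
    rw [inv_mul_cancel_left]
    exact M.Cl_mono _ _ (hn1 j) (hg j)

/-- bounds for linear maps in heights. -/
theorem exists_l_le (M : CapModel G H I E) (T : (Fin k → ℝ) ≃ₗ[ℝ] E)
    (Φ : (Fin k → ℝ) →ₗ[ℝ] (Fin k → ℝ)) :
    ∃ C : ℝ, 0 ≤ C ∧ ∀ x j, |M.S.l j (T (Φ x))| ≤ C * ‖x‖ := by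
  set Θ : (Fin k → ℝ) →L[ℝ] E := LinearMap.toContinuousLinearMap (T.toLinearMap ∘ₗ Φ) with hΘ
  have hC := M.C0_pos
  refine ⟨M.C0 * ‖Θ‖, by positivity, fun x j => ?_⟩
  have h1 : T (Φ x) = Θ x := rfl
  rw [h1, mul_assoc]
  exact (M.l_le j _).trans (mul_le_mul_of_nonneg_left (Θ.le_opNorm x) hC.le)

theorem exists_symm_le (T : (Fin k → ℝ) ≃ₗ[ℝ] E) : ∃ C : ℝ, 0 ≤ C ∧ ∀ e, ‖T.symm e‖ ≤ C * ‖e‖ := by
  have : FiniteDimensional ℝ E := LinearEquiv.finiteDimensional T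
  set Θ : E →L[ℝ] (Fin k → ℝ) := LinearMap.toContinuousLinearMap T.symm.toLinearMap with hΘ
  exact ⟨‖Θ‖, norm_nonneg _, fun e => Θ.le_opNorm e⟩

/-- the height of the image. -/
theorem exists_height_le {K : ℕ} (L : (Fin k → ℝ) →ₗ[ℝ] (Fin k → ℝ)) :
    ∃ C : ℝ, 0 ≤ C ∧ ∀ (w : Om S K) (P : G) (η : ℝ), 0 ≤ η →
      (∀ i, |hc π i (R.rnd P) w - L (hgtR π (R.rnd P)) i| ≤ η) →
      ∀ j, |M.S.l j (M.hgt (R.ext w P)) - M.S.l j (T (L (T.symm (M.hgt P))))| ≤ C * (η + 1) := by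
  obtain ⟨C1, hC1, h1⟩ := exists_l_le M T LinearMap.id
  obtain ⟨C2, hC2, h2⟩ := exists_l_le M T L
  obtain ⟨C3, hC3, h3⟩ := exists_symm_le T
  have hC0 := M.C0_pos
  have ha := R.a0
  refine ⟨C1 + C2 * (C3 * (M.C0 * R.a)), by positivity, ?_⟩
  intro w P η hη h j
  set γ := R.rnd P with hγ
  have e1 : M.hgt (R.ext w P) = T (hgtR π (w.F γ)) := by unfold ext; rw [R.hgt_iot]
  have e2 : ‖hgtR π (w.F γ) - L (hgtR π γ)‖ ≤ η := by
    rw [pi_norm_le_iff_of_nonneg hη]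
    intro i
    exact h i
  have e3 : ‖hgtR π γ - T.symm (M.hgt P)‖ ≤ C3 * (M.C0 * R.a) := by
    have e4 : hgtR π γ - T.symm (M.hgt P) = T.symm (M.hgt (R.iot γ) - M.hgt P) := by
      rw [map_sub, R.hgt_iot, LinearEquiv.symm_apply_apply]
    rw [e4]
    refine (h3 _).trans ?_
    have e5 := M.norm_hgt_sub P (R.iot γ)
    have e6 : M.dst P (R.iot γ) ≤ R.a := by rw [M.dst_comm]; exact R.len_rnd P
    exact mul_le_mul_of_nonneg_left (e5.trans (mul_le_mul_of_nonneg_left e6 hC0.le)) hC3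
  have e7 : M.S.l j (M.hgt (R.ext w P)) - M.S.l j (T (L (T.symm (M.hgt P)))) =
      M.S.l j (T ((LinearMap.id : (Fin k → ℝ) →ₗ[ℝ] (Fin k → ℝ))
        (hgtR π (w.F γ) - L (hgtR π γ)))) +
      M.S.l j (T (L (hgtR π γ - T.symm (M.hgt P)))) := by
    rw [e1, LinearMap.id_apply, map_sub L, map_sub T, map_sub T, map_sub, map_sub]
    ring
  rw [e7]
  refine (abs_add_le _ _).trans ?_
  have e8 := (h1 (hgtR π (w.F γ) - L (hgtR π γ)) j).trans (mul_le_mul_of_nonneg_left e2 hC1)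
  have e9 := (h2 (hgtR π γ - T.symm (M.hgt P)) j).trans (mul_le_mul_of_nonneg_left e3 hC2)
  have e10 : 0 ≤ C2 * (C3 * (M.C0 * R.a)) := by positivity
  nlinarith [mul_nonneg e10 hη]

/-- the height of the base point. -/
theorem exists_base_le {K : ℕ} :
    ∃ C : ℝ, 0 ≤ C ∧ ∀ (w : Om S K) (j : I), |M.S.l j (M.hgt (R.ext w 1))| ≤ C := by
  have hC0 := M.C0_pos
  have ha := R.a0
  refine ⟨M.C0 * (M.C0 * (R.a * (K * (R.a * R.a + R.a) + K))), by positivity, fun w j => ?_⟩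
  refine (M.l_le j _).trans (mul_le_mul_of_nonneg_left ((M.hgt_le _).trans
    (mul_le_mul_of_nonneg_left ?_ hC0.le)) hC0.le)
  refine (R.len_iot _).trans (mul_le_mul_of_nonneg_left ?_ ha)
  have h1 : (wordLength S (w.F (R.rnd 1)) : ℝ) ≤ K * wordLength S (R.rnd 1) + K := by
    exact_mod_cast w.F_len (R.rnd 1)
  have h2 : (wordLength S (R.rnd 1) : ℝ) ≤ R.a * R.a + R.a := by
    refine (R.iot_len _).trans ?_
    have h3 : M.len (R.iot (R.rnd 1)) ≤ R.a := by
      have := R.len_rnd 1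
      rwa [mul_one, M.len_inv] at this
    gcongr
  exact h1.trans (by gcongr)

end Lat

/-- the walk stays in a ball. -/
theorem len_wk_le (M : CapModel G H I E) {c : ℕ → G} {q : ℕ} {B : ℝ}
    (hc : ∀ j ≤ q, M.len (c j) ≤ B) {ω : ℕ → H × H} {L : ℕ}
    (hω : ∀ j < L, (ω j).1 ∈ M.V ∧ (ω j).2 ∈ M.V) (j : ℕ) (hj : j ≤ L) :
    M.len (M.emb (Star.wk (M.mv c q) 1 ω j)) ≤ j * (2 * (2 * B + M.C0)) := by
  induction j with
  | zero => simp [Star.wk, M.len_one]
  | succ j ih =>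
    have h1 := ih (by omega)
    have h2 := hω j (by omega)
    have hcj := hc (j % (q + 1)) (Nat.le_of_lt_succ (Nat.mod_lt _ (Nat.succ_pos q)))
    have h3 : ∀ n ∈ M.V, M.len (M.emb (M.mv c q j n)) ≤ 2 * B + M.C0 := by
      intro n hn
      unfold CapModel.mv
      rw [M.emb_cj]
      refine (M.len_mul _ _).trans ?_
      rw [M.len_inv]
      have := M.len_mul (c (j % (q + 1))) (M.emb n)
      have := M.V_le n hn
      linarith
    simp only [Star.wk]
    rw [map_mul, map_mul, map_inv]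
    refine (M.len_mul _ _).trans ?_
    have h4 := M.len_mul (M.emb (Star.wk (M.mv c q) 1 ω j)) (M.emb (M.mv c q j (ω j).1))⁻¹
    rw [M.len_inv] at h4
    have h5 := h3 _ h2.1
    have h6 := h3 _ h2.2
    push_cast
    linarith

section seg

variable [MeasurableMul₂ H] [MeasurableInv H] {M : CapModel G H I E} {S : Finset Γ}
  {π : Γ →* Multiplicative (Fin k → ℤ)} {T : (Fin k → ℝ) ≃ₗ[ℝ] E}

theorem dev_mem (hS : Subgroup.closure (S : Set Γ) = ⊤) {K : ℕ}
    (L : (Fin k → ℝ) →ₗ[ℝ] (Fin k → ℝ)) (γ : Γ) (i : Fin k) :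
    (fun w : Om (S : Set Γ) K => |hc π i γ w - L (hgtR π γ) i|) ∈ bddAlg (Om (S : Set Γ) K) := by
  obtain ⟨C, hC⟩ := (coc_hc (K := K) hS π i).mem γ
  refine ⟨C + |L (hgtR π γ) i|, fun w => ?_⟩
  rw [abs_abs]
  have h1 := abs_sub (hc π i γ w) (L (hgtR π γ) i)
  linarith [hC w]

/-- the data of the star for the segment `[0, r n v]`. -/
theorem Lat.exists_starData {S' : Set Γ} (R : Lat M S' π T) (v : Fin k → ℝ) {b : ℕ}
    (hb : ∑ i, |v i| ≤ b) {r n : ℕ} (hr : 1 ≤ r) (hn : 1 ≤ n) :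
    ∃ (m0 : ℕ) (s : ℝ) (c : ℕ → G) (d : ℕ → ℕ → G), CapModel.StarData M 1 r m0 s c d ∧
      s ≤ M.C0 * (n * (b + k)) + 2 * M.C0 ∧
      (m0 : ℝ) ≤ (⌈M.C0⌉₊ * (b + k + 2) + 1) * (r * n) ∧
      (∀ j, ∀ t ≤ r, M.len (d j t) ≤ M.C0 * (b + k) * (r * n)) ∧
      (∀ j, ∀ t ≤ r, ∃ τ : ℝ, 0 ≤ τ ∧ τ ≤ r * n ∧ ∃ e : Fin k → ℝ, ‖e‖ ≤ 1 ∧
        M.hgt (d j t) = T (τ • v + e)) ∧
      ∃ e : Fin k → ℝ, ‖e‖ ≤ 1 ∧ M.hgt (c 1) = T ((r * n : ℝ) • v + e) := by
  have hC0p := M.C0_pos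
  have hr1 : (1 : ℝ) ≤ r := by exact_mod_cast hr
  have hn1 : (1 : ℝ) ≤ n := by exact_mod_cast hn
  have hk : (0 : ℝ) ≤ k := Nat.cast_nonneg k
  have hbR : (0 : ℝ) ≤ b := Nat.cast_nonneg b
  obtain ⟨d, hd0, hdh, hdC, hdd⟩ := R.exists_star v hb n
  have hceil1 : 1 ≤ ⌈M.C0⌉₊ := Nat.one_le_ceil_iff.2 hC0p
  have hceil : M.C0 ≤ (⌈M.C0⌉₊ : ℝ) := Nat.le_ceil _
  have hfl : ∀ t : ℕ, ∃ e : Fin k → ℝ, ‖e‖ ≤ 1 ∧ M.hgt (d t) = T ((t * n : ℝ) • v + e) := by
    intro t
    refine ⟨fun i => ((⌊(t * n : ℝ) * v i⌋ : ℤ) : ℝ) - (t * n : ℝ) * v i, ?_, ?_⟩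
    · rw [pi_norm_le_iff_of_nonneg zero_le_one]
      intro i
      rw [Real.norm_eq_abs, abs_le]
      have e1 := Int.floor_le ((t * n : ℝ) * v i)
      have e2 := Int.lt_floor_add_one ((t * n : ℝ) * v i)
      constructor <;> linarith
    · rw [hdh]
      congr 1
      funext i
      simp
  have hlen : ∀ t ≤ r, M.len (d t) ≤ M.C0 * (b + k) * (r * n) := by
    intro t ht
    have e1 := M.len_Cl _ _ (hdC t)
    refine e1.trans ?_
    push_cast
    have e2 : (t : ℝ) ≤ r := by exact_mod_cast ht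
    have e3 : (t * (n * b + k) : ℝ) ≤ (b + k) * (r * n) := by
      calc (t * (n * b + k) : ℝ) ≤ r * (n * b + n * k) := by
            gcongr
            nlinarith
        _ = (b + k) * (r * n) := by ring
    rw [mul_assoc]
    exact mul_le_mul_of_nonneg_left e3 hC0p.le
  refine ⟨⌈M.C0⌉₊ * (r * (n * b + k) + 2) + r, M.C0 * (n * b + k) + 2 * M.C0,
    fun j => if j = 1 then d r else 1, fun j t => if j = 1 then d t else 1,
    ⟨by omega, by simp, ?_, ?_, ?_, ?_, ?_, ?_, ?_⟩, ?_, ?_, ?_, ?_, ?_⟩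
  · intro j _
    split_ifs
    · refine M.Cl_mono _ _ ?_ (hdC r)
      calc r * (n * b + k) ≤ 1 * (r * (n * b + k) + 2) := by omega
        _ ≤ ⌈M.C0⌉₊ * (r * (n * b + k) + 2) := Nat.mul_le_mul_right _ hceil1
        _ ≤ _ := by omega
    · exact M.Cl_mono _ _ (Nat.zero_le _) M.one_mem_Cl
  · intro j; split_ifs <;> simp [hd0]
  · intro j; rfl
  · intro j t _
    split_ifs
    · have := M.len_Cl _ _ (hdd t)
      push_cast at this
      unfold CapModel.dst
      linarith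
    · rw [M.dst_self]; positivity
  · have : 0 ≤ M.C0 * (n * b + k : ℝ) := by positivity
    linarith
  · omega
  · push_cast
    have e2 : (n * b + k : ℝ) ≤ r * (n * b + k) := by
      have : (0 : ℝ) ≤ n * b + k := by positivity
      nlinarith
    calc M.C0 * (n * b + k) + 2 * M.C0 = M.C0 * ((n * b + k) + 2) := by ring
      _ ≤ ⌈M.C0⌉₊ * (r * (n * b + k) + 2) := by gcongr
      _ ≤ _ := by linarith
  · have e1 : (n * b + k : ℝ) ≤ n * (b + k) := by nlinarith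
    have e2 := mul_le_mul_of_nonneg_left e1 hC0p.le
    linarith
  · push_cast
    have h1 : (r * (n * b + k) + 2 : ℝ) ≤ (b + k + 2) * (r * n) := by
      have h2 : (k : ℝ) ≤ n * k := by nlinarith
      have h3 : (1 : ℝ) ≤ r * n := by nlinarith
      nlinarith
    have h4 : (r : ℝ) ≤ r * n := by nlinarith
    have h5 : (0 : ℝ) ≤ ⌈M.C0⌉₊ := Nat.cast_nonneg _
    have h6 := mul_le_mul_of_nonneg_left h1 h5
    linarith
  · intro j t ht
    beta_reduce
    split_ifs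
    · exact hlen t ht
    · rw [M.len_one]; positivity
  · intro j t ht
    beta_reduce
    split_ifs
    · obtain ⟨e, he, h⟩ := hfl t
      refine ⟨t * n, by positivity, ?_, e, he, h⟩
      have : (t : ℝ) ≤ r := by exact_mod_cast ht
      gcongr
    · refine ⟨0, le_rfl, by positivity, 0, by simp, ?_⟩
      rw [M.hgt_one, zero_smul, add_zero, map_zero]
  · obtain ⟨e, he, h⟩ := hfl r
    exact ⟨e, he, by simpa using h⟩

/-- the random points visited by the star walk. -/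
def pt (M : CapModel G H I E) (c : ℕ → G) (d : ℕ → ℕ → G) {L0 : ℕ} (j : ℕ) (β : Bool) (t : ℕ)
    (ω : Fin L0 → H × H) : G :=
  1 * M.emb (Star.wk (M.mv c 1) 1 (Star.extω ω) (if β then j + 1 else j)) * d (j % (1 + 1)) t

/-- one pair `w` is good for most walks. -/
theorem exists_w (R : Lat M (S : Set Γ) π T)
    (hS : Subgroup.closure (S : Set Γ) = ⊤) {K : ℕ}
    {m : (Om (S : Set Γ) K → ℝ) → ℝ} (hm : Erg.PMean (bddAlg (Om (S : Set Γ) K)) m)
    (L : (Fin k → ℝ) →ₗ[ℝ] (Fin k → ℝ))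
    (hL : ∀ ε > 0, ∃ C : ℝ, ∀ x i, m (fun w => |hc π i x w - L (hgtR π x) i|) ≤
      ε * wordLength (S : Set Γ) x + C) {B0 : ℝ} (hB0 : 0 ≤ B0) (L0 r : ℕ) {θ : ℝ} (hθ : 0 < θ) :
    ∃ N0 : ℝ, ∀ N : ℝ, N0 ≤ N → ∀ (c : ℕ → G) (d : ℕ → ℕ → G),
      (∀ j ≤ 1, M.len (c j) ≤ B0 * N) → (∀ j, ∀ t ≤ r, M.len (d j t) ≤ B0 * N) →
      ∃ w : Om (S : Set Γ) K, ENNReal.ofReal (1 / 2) ≤
        (Measure.pi fun _ : Fin L0 => M.ν.prod M.ν)
          {ω : Fin L0 → H × H | ∀ (j : Fin L0) (β : Bool) (t : Fin (r + 1)) (i : Fin k),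
            |hc π i (R.rnd (pt M c d j β t ω)) w - L (hgtR π (R.rnd (pt M c d j β t ω))) i| ≤
              θ * N} := by
  classical
  have hC0 := M.one_le_C0
  have hC0p := M.C0_pos
  have ha := R.a0
  set C1 : ℝ := L0 * (2 * (2 * B0 + M.C0)) + B0 with hC1
  have hC1p : 0 ≤ C1 := by positivity
  set C2 : ℝ := R.a * C1 + R.a * R.a + R.a with hC2
  have hC2p : 0 ≤ C2 := by positivity
  set cJ : ℝ := (Fintype.card (Fin L0 × Bool × Fin (r + 1)) : ℝ) with hcJ
  have hcJ0 : 0 ≤ cJ := Nat.cast_nonneg _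
  set ε : ℝ := θ / (8 * ((cJ + 1) * (k + 1) * (C2 + 1))) with hε
  have hε0 : 0 < ε := by positivity
  obtain ⟨Cε, hCε⟩ := hL ε hε0
  refine ⟨max 1 (8 * (cJ * (k * |Cε|)) / θ), fun N hN c d hcl hd => ?_⟩
  have hN1 : 1 ≤ N := (le_max_left _ _).trans hN
  have hN0 : 0 ≤ N := by linarith
  have hN2 : 8 * (cJ * (k * |Cε|)) ≤ θ * N := by
    have := (le_max_right _ _).trans hN
    rw [div_le_iff₀ hθ] at this
    linarith
  set Bl : Finset Γ := ballF S ⌈C2 * N⌉₊ with hBl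
  set f : Γ → Om (S : Set Γ) K → ℝ := fun γ => ∑ i, fun w => |hc π i γ w - L (hgtR π γ) i|
    with hf
  have hfa : ∀ γ w, f γ w = ∑ i, |hc π i γ w - L (hgtR π γ) i| := by
    intro γ w; simp only [hf, Finset.sum_apply]
  suffices key : ∃ w, ENNReal.ofReal (1 / 2) ≤ (Measure.pi fun _ : Fin L0 => M.ν.prod M.ν)
      {ω : Fin L0 → H × H | ∀ j : Fin L0 × Bool × Fin (r + 1),
        f (R.rnd (pt M c d j.1 j.2.1 j.2.2 ω)) w ≤ θ * N} by
    obtain ⟨w, hw⟩ := key
    refine ⟨w, hw.trans (measure_mono ?_)⟩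
    intro ω hω j β t i
    have h1 := hω (j, β, t)
    rw [hfa] at h1
    exact (Finset.single_le_sum (f := fun i => |hc π i (R.rnd (pt M c d j β t ω)) w -
      L (hgtR π (R.rnd (pt M c d j β t ω))) i|) (fun _ _ => abs_nonneg _)
      (Finset.mem_univ i)).trans h1
  refine exists_good hm (Measure.pi fun _ : Fin L0 => M.ν.prod M.ν)
    (J := Fin L0 × Bool × Fin (r + 1)) (fun j ω => R.rnd (pt M c d j.1 j.2.1 j.2.2 ω)) ?_ Bl ?_ f
    ?_ ?_ (δ := k * (ε * (C2 * N + 1) + |Cε|)) (θ := θ * N) ?_ (by positivity) (by positivity) ?_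
  · -- measurability
    rintro ⟨j, β, t⟩ γ
    have h1 : Measurable fun ω : Fin L0 → H × H =>
        Star.wk (M.mv c 1) 1 (Star.extω ω) (if β then (j : ℕ) + 1 else j) :=
      (Star.measurable_wk (φ := M.mv c 1) (fun j => M.cj_meas _) _).comp
        (measurable_const.prodMk measurable_id)
    exact h1 (R.rnd_meas 1 (d ((j : ℕ) % (1 + 1)) t) γ)
  · -- the ball
    filter_upwards [CapModel.ae_pi_mem_V M L0] with ω hω
    rintro ⟨j, β, t⟩
    rw [hBl]
    apply mem_ballF_of_le hS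
    have h1 : ∀ i ≤ L0, M.len (M.emb (Star.wk (M.mv c 1) 1 (Star.extω ω) i)) ≤
        i * (2 * (2 * (B0 * N) + M.C0)) := fun i hi =>
      len_wk_le M (ω := Star.extω ω) (L := L0) hcl (fun j hj => by
        rw [Star.extω_of_lt ω hj]; exact hω ⟨j, hj⟩) i hi
    have h2 : M.len (pt M c d j β t ω) ≤ C1 * N := by
      unfold pt
      rw [one_mul]
      refine (M.len_mul _ _).trans ?_
      have h3 := h1 (if β then (j : ℕ) + 1 else j) (by split_ifs <;> omega)
      have h4 := hd ((j : ℕ) % (1 + 1)) t (by omega)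
      have h5 : ((if β then (j : ℕ) + 1 else j : ℕ) : ℝ) ≤ L0 := by
        have : (if β then (j : ℕ) + 1 else j : ℕ) ≤ L0 := by split_ifs <;> omega
        exact_mod_cast this
      have h6 : 2 * (2 * (B0 * N) + M.C0) ≤ 2 * (2 * B0 + M.C0) * N := by nlinarith
      calc _ ≤ ((if β then (j : ℕ) + 1 else j : ℕ) : ℝ) * (2 * (2 * (B0 * N) + M.C0)) + B0 * N :=
            add_le_add h3 h4
        _ ≤ L0 * (2 * (2 * B0 + M.C0) * N) + B0 * N := by
            gcongr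
        _ = C1 * N := by rw [hC1]; ring
    have h3 : (wordLength (S : Set Γ) (R.rnd (pt M c d j β t ω)) : ℝ) ≤ C2 * N := by
      refine (R.iot_len _).trans ?_
      have h4 : M.len (R.iot (R.rnd (pt M c d j β t ω))) ≤ M.len (pt M c d j β t ω) + R.a := by
        have h5 := M.dst_tri 1 (pt M c d j β t ω) (R.iot (R.rnd (pt M c d j β t ω)))
        have h6 : M.dst (pt M c d j β t ω) (R.iot (R.rnd (pt M c d j β t ω))) ≤ R.a := by
          rw [M.dst_comm]; exact R.len_rnd _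
        have h7 : M.dst 1 (R.iot (R.rnd (pt M c d j β t ω))) =
          M.len (R.iot (R.rnd (pt M c d j β t ω))) := by unfold CapModel.dst; simp
        have h8 : M.dst 1 (pt M c d j β t ω) = M.len (pt M c d j β t ω) := by
          unfold CapModel.dst; simp
        linarith
      calc R.a * M.len (R.iot (R.rnd (pt M c d j β t ω))) + R.a ≤ R.a * (C1 * N + R.a) + R.a := by
            gcongr
            linarith
        _ ≤ C2 * N := by
            rw [hC2]
            nlinarith [mul_nonneg (mul_nonneg ha ha) (by linarith : (0:ℝ) ≤ N - 1),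
              mul_nonneg ha (by linarith : (0:ℝ) ≤ N - 1)]
    exact_mod_cast h3.trans (Nat.le_ceil _)
  · exact fun γ => sum_mem fun i _ => dev_mem hS L γ i
  · intro γ w
    rw [hfa]
    exact Finset.sum_nonneg fun _ _ => abs_nonneg _
  · intro γ hγ
    have h1 : (wordLength (S : Set Γ) γ : ℝ) ≤ C2 * N + 1 := by
      have h2 := wordLength_le_of_mem_ballF hS hγ
      have h3 : (wordLength (S : Set Γ) γ : ℝ) ≤ ⌈C2 * N⌉₊ := by exact_mod_cast h2
      exact h3.trans (Nat.ceil_lt_add_one (by positivity)).le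
    rw [hf]
    beta_reduce
    rw [PMean.sum hm _ _ fun i _ => dev_mem hS L γ i]
    calc ∑ i, m (fun w => |hc π i γ w - L (hgtR π γ) i|)
        ≤ ∑ i : Fin k, (ε * (C2 * N + 1) + |Cε|) := by
          refine Finset.sum_le_sum fun i _ => (hCε γ i).trans ?_
          have := le_abs_self Cε
          gcongr
      _ = _ := by rw [Finset.sum_const, Finset.card_univ, Fintype.card_fin, nsmul_eq_mul]
  · rw [← hcJ]
    have h1 : cJ * (k * (ε * (C2 * N + 1))) ≤ θ * N / 8 := by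
      have h2 : C2 * N + 1 ≤ (C2 + 1) * N := by nlinarith
      have h3 : cJ * k ≤ (cJ + 1) * (k + 1) := by
        have : (0 : ℝ) ≤ k := Nat.cast_nonneg _
        nlinarith
      calc cJ * (k * (ε * (C2 * N + 1))) = (cJ * k) * ε * (C2 * N + 1) := by ring
        _ ≤ ((cJ + 1) * (k + 1)) * ε * ((C2 + 1) * N) := by gcongr
        _ = θ * N / 8 := by
          rw [hε]
          field_simp
    have h2 : cJ * (k * |Cε|) ≤ θ * N / 8 := by linarith
    linarith

/-- quantitative form, for a fixed scale `r n`. -/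
theorem seg_aux [Countable Γ] (R : Lat M (S : Set Γ) π T)
    (hS : Subgroup.closure (S : Set Γ) = ⊤) (hR : M.Reach) (hE : M.Ent) {K : ℕ}
    {m : (Om (S : Set Γ) K → ℝ) → ℝ} (hm : Erg.PMean (bddAlg (Om (S : Set Γ) K)) m)
    (L : (Fin k → ℝ) →ₗ[ℝ] (Fin k → ℝ))
    (hL : ∀ ε > 0, ∃ C : ℝ, ∀ x i, m (fun w => |hc π i x w - L (hgtR π x) i|) ≤
      ε * wordLength (S : Set Γ) x + C) (v : Fin k → ℝ) :
    ∃ C : ℝ, 1 ≤ C ∧ ∀ r : ℕ, 1 ≤ r → ∀ θ : ℝ, 0 < θ → ∃ n0 : ℕ, ∀ n : ℕ, n0 ≤ n →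
      (r * n : ℝ) * M.S.g (T v) ≤ (r * n : ℝ) * M.S.g (T (L v)) +
        (C * θ + C / r) * (r * n : ℝ) + C * (1 + Real.log (C * (r * n : ℝ))) := by
  classical
  have hC0 := M.one_le_C0
  have hC0p := M.C0_pos
  have ha := R.a0
  have hK'1 : 1 ≤ 8 * R.a ^ 3 * (K + 1) := by
    have h1 : 1 ≤ R.a ^ 3 := one_le_pow₀ R.one_le_a
    have h2 : (0 : ℝ) ≤ K := Nat.cast_nonneg _
    nlinarith
  obtain ⟨L0, hL0⟩ := CapModel.cap_one hR hE hK'1 1
  obtain ⟨A, hA, hcap⟩ := hL0 L0 le_rfl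
  obtain ⟨b, hb⟩ := exists_nat_ge (∑ i, |v i|)
  obtain ⟨Ch, hCh0, hCh⟩ := R.exists_height_le (K := K) L
  obtain ⟨Cb, hCb0, hCb⟩ := R.exists_base_le (K := K)
  obtain ⟨Ci, hCi0, hCi⟩ := Lat.exists_l_le M T LinearMap.id
  obtain ⟨CL, hCL0, hCL⟩ := Lat.exists_l_le M T L
  have hLip := M.S.Lip_nonneg
  have hbR : (0 : ℝ) ≤ b := Nat.cast_nonneg b
  have hkR : (0 : ℝ) ≤ k := Nat.cast_nonneg k
  obtain ⟨C8, hC8⟩ : ∃ C8 : ℝ, C8 = ⌈M.C0⌉₊ * (b + k + 2) + 1 := ⟨_, rfl⟩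
  have hC8p : 1 ≤ C8 := by
    have : (0:ℝ) ≤ ⌈M.C0⌉₊ * (b + k + 2) := by positivity
    linarith
  obtain ⟨C, hC⟩ : ∃ C : ℝ, C = M.S.Lip * (Ch + CL + Cb + Ci) + A * (M.C0 * (b + k)) +
    A * (2 * M.C0 + 2) + C8 := ⟨_, rfl⟩
  have p1 : 0 ≤ M.S.Lip * (Ch + CL + Cb + Ci) := by positivity
  have p2 : 0 ≤ A * (M.C0 * (b + k)) := by positivity
  have p3 : 0 ≤ A * (2 * M.C0 + 2) := by positivity
  refine ⟨C, by linarith, fun r hr θ hθ => ?_⟩
  obtain ⟨N0, hN0⟩ := exists_w R hS hm L hL (B0 := M.C0 * (b + k)) (by positivity) L0 r hθ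
  obtain ⟨n1', hn1'⟩ := exists_nat_ge N0
  refine ⟨n1' + 1, fun n hn => ?_⟩
  have hn1 : 1 ≤ n := by omega
  obtain ⟨N, hN⟩ : ∃ N : ℝ, N = r * n := ⟨_, rfl⟩
  have hn1R : (1 : ℝ) ≤ n := by exact_mod_cast hn1
  have hr1R : (1 : ℝ) ≤ r := by exact_mod_cast hr
  have hnN : (n : ℝ) ≤ N := by rw [hN]; nlinarith
  have hN1 : 1 ≤ N := hn1R.trans hnN
  have hNp : 0 ≤ N := by linarith
  have hN0N : N0 ≤ N := by
    refine hn1'.trans (le_trans ?_ hnN)
    exact_mod_cast (by omega : n1' ≤ n)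
  obtain ⟨m0, s, c, d, hst, hs, hm0, hdlen, hdh, hch⟩ := R.exists_starData v hb hr hn1
  rw [← hN] at hm0 hdlen hdh hch
  have hc1len : ∀ j ≤ 1, M.len (c j) ≤ M.C0 * (b + k) * N := by
    intro j _
    rw [← hst.d_end j]
    exact hdlen j r le_rfl
  obtain ⟨w, hw⟩ := hN0 N hN0N c d hc1len hdlen
  have hD : 0 ≤ Ch * (θ * N + 1) + CL + Cb := by positivity
  have hkey : ∀ ω : Fin L0 → H × H, ω ∈ {ω : Fin L0 → H × H | ∀ (j : Fin L0) (β : Bool)
      (t : Fin (r + 1)) (i : Fin k),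
            |hc π i (R.rnd (pt M c d j β t ω)) w - L (hgtR π (R.rnd (pt M c d j β t ω))) i| ≤
              θ * N} → ∀ (j : ℕ) (hj : j < L0) (β : Bool) (t : ℕ) (ht : t ≤ r) (i : I),
      M.S.l i (M.hgt (R.ext w (pt M c d j β t ω))) ≤ M.S.l i (M.hgt (R.ext w 1)) +
        (N * max (M.S.l i (T (L v))) 0 + (Ch * (θ * N + 1) + CL + Cb)) := by
    intro ω hω j hj β t ht i
    have h1 := hCh w (pt M c d j β t ω) (θ * N) (by positivity)
      (fun i => hω ⟨j, hj⟩ β ⟨t, by omega⟩ i) i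
    obtain ⟨τ, hτ0, hτN, e, he, h2⟩ := hdh (j % (1 + 1)) t ht
    have h3 : M.hgt (pt M c d j β t ω) = T (τ • v + e) := by
      unfold pt
      rw [M.hgt_mul, M.hgt_mul, M.hgt_one, M.hgt_emb, h2]; simp
    rw [h3, LinearEquiv.symm_apply_apply, map_add, map_smul, map_add T, map_smul T, map_add,
      map_smul, smul_eq_mul] at h1
    have h4 := (le_abs_self _).trans h1
    have h5 := (abs_le.1 (hCb w i)).1
    have h6 := (le_abs_self _).trans ((hCL e i).trans (mul_le_of_le_one_right hCL0 he))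
    have h7 : τ * M.S.l i (T (L v)) ≤ N * max (M.S.l i (T (L v))) 0 :=
      (mul_le_mul_of_nonneg_left (le_max_left _ _) hτ0).trans
        (mul_le_mul_of_nonneg_right hτN (le_max_right _ _))
    linarith
  have hmain := hcap (R.ext w) (R.qi hS w) r m0 s c d hst
    (fun i => max 0 (M.S.l i (M.hgt (c 1))))
    (fun i => N * max (M.S.l i (T (L v))) 0 + (Ch * (θ * N + 1) + CL + Cb))
    (fun i => le_max_left _ _) (fun i => by positivity) (fun i => ⟨1, le_rfl, le_rfl⟩) 1 _ (1 / 2)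
    (by norm_num) hw (fun ω hω j hj t ht i => by
      have := hkey ω hω j hj false t ht i
      simpa only [pt, Bool.false_eq_true, if_false] using this)
    (fun ω hω j hj t ht i => by
      have := hkey ω hω j hj true t ht i
      simpa only [pt, if_true] using this)
  -- the left-hand side
  have e1 : N * M.S.g (T v) ≤ M.S.Gt (fun i => max 0 (M.S.l i (M.hgt (c 1)))) +
      M.S.Lip * Ci := by
    unfold Conv.GenSys.g
    rw [← M.S.Gt_smul hNp]
    refine M.S.Gt_le_add hCi0 fun i => ?_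
    obtain ⟨e, he, h2⟩ := hch
    rw [h2, map_add, map_smul, map_add, map_smul, smul_eq_mul]
    have h6 := (neg_abs_le (M.S.l i (T e)))
    have h7 := (hCi e i).trans (mul_le_of_le_one_right hCi0 he)
    rw [LinearMap.id_apply] at h7
    rw [mul_max_of_nonneg _ _ hNp, mul_zero]
    refine max_le ?_ ?_
    · have := le_max_right 0 (N * M.S.l i (T v) + M.S.l i (T e))
      linarith
    · have := le_max_left 0 (N * M.S.l i (T v) + M.S.l i (T e))
      linarith
  -- the right-hand side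
  have e2 : M.S.Gt (fun i => N * max (M.S.l i (T (L v))) 0 + (Ch * (θ * N + 1) + CL + Cb)) ≤
      N * M.S.g (T (L v)) + M.S.Lip * (Ch * (θ * N + 1) + CL + Cb) := by
    unfold Conv.GenSys.g
    rw [← M.S.Gt_smul hNp]
    exact M.S.Gt_le_add hD fun i => le_rfl
  have e3 : |Real.log (1 / 2)| ≤ 1 := by
    rw [one_div, Real.log_inv, abs_neg, abs_of_nonneg (Real.log_nonneg (by norm_num))]
    have := Real.log_two_lt_d9
    linarith
  have e4 : A * (s + 1) ≤ A * (M.C0 * (b + k)) / r * N + A * (2 * M.C0 + 1) := by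
    have h1 : A * (M.C0 * (b + k)) / r * N = A * (M.C0 * (n * (b + k))) := by
      rw [hN]
      have : (r : ℝ) ≠ 0 := by positivity
      field_simp
    rw [h1]
    have h2 := mul_le_mul_of_nonneg_left (add_le_add_left hs 1) hA
    linarith
  have hm1 : (1 : ℝ) ≤ m0 := by exact_mod_cast hst.one_le
  have e5 : A * Real.log m0 ≤ C * Real.log (C * N) := by
    have h1 : Real.log m0 ≤ Real.log (C * N) := by
      refine Real.log_le_log (by linarith) (hm0.trans ?_)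
      rw [← hC8]
      have : C8 ≤ C := by linarith
      gcongr
    have h2 : 0 ≤ Real.log m0 := Real.log_nonneg hm1
    have h3 : A ≤ C := by
      have : A ≤ A * (2 * M.C0 + 2) := by nlinarith
      linarith
    exact mul_le_mul h3 h1 h2 (by linarith)
  have e6 : A * |Real.log (1 / 2)| ≤ A := by
    have := mul_le_mul_of_nonneg_left e3 hA
    linarith
  rw [← hN]
  have h9 : M.S.Lip * Ch ≤ C := by
    have : M.S.Lip * Ch ≤ M.S.Lip * (Ch + CL + Cb + Ci) :=
      mul_le_mul_of_nonneg_left (by linarith) hLip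
    linarith
  have h10 : M.S.Lip * Ch * (θ * N) ≤ C * (θ * N) :=
    mul_le_mul_of_nonneg_right h9 (by positivity)
  have h11 : A * (M.C0 * (b + k)) / r * N ≤ C / r * N := by
    have : A * (M.C0 * (b + k)) ≤ C := by linarith
    gcongr
  have h12 : M.S.Lip * (Ch + CL + Cb + Ci) + A * (2 * M.C0 + 2) ≤ C := by linarith
  have h13 : M.S.Lip * (Ch * (θ * N + 1) + CL + Cb) + M.S.Lip * Ci =
      M.S.Lip * Ch * (θ * N) + M.S.Lip * (Ch + CL + Cb + Ci) := by ring
  have h14 : A * (2 * M.C0 + 2) = A * (2 * M.C0 + 1) + A := by ring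
  have h15 : (C * θ + C / r) * N + C * (1 + Real.log (C * N)) =
      C * (θ * N) + C / r * N + C + C * Real.log (C * N) := by ring
  linarith

/-- **Z4**: the segment inequality. -/
theorem seg [Countable Γ] (R : Lat M (S : Set Γ) π T)
    (hS : Subgroup.closure (S : Set Γ) = ⊤) (hR : M.Reach) (hE : M.Ent) {K : ℕ}
    {m : (Om (S : Set Γ) K → ℝ) → ℝ} (hm : Erg.PMean (bddAlg (Om (S : Set Γ) K)) m)
    (L : (Fin k → ℝ) →ₗ[ℝ] (Fin k → ℝ))
    (hL : ∀ ε > 0, ∃ C : ℝ, ∀ x i, m (fun w => |hc π i x w - L (hgtR π x) i|) ≤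
      ε * wordLength (S : Set Γ) x + C) (v : Fin k → ℝ) :
    M.S.g (T v) ≤ M.S.g (T (L v)) := by
  obtain ⟨C, hC1, hC⟩ := seg_aux R hS hR hE hm L hL v
  have hC0 : 0 < C := by linarith
  -- for all `r` and `θ`
  have key : ∀ r : ℕ, 1 ≤ r → ∀ θ : ℝ, 0 < θ →
      M.S.g (T v) ≤ M.S.g (T (L v)) + (C * θ + C / r) + 2 * θ := by
    intro r hr θ hθ
    obtain ⟨n0, hn0⟩ := hC r hr θ hθ
    have hrR : (1 : ℝ) ≤ r := by exact_mod_cast hr
    -- the logarithm
    have hlog : ∀ᶠ x : ℝ in Filter.atTop, Real.log x ≤ θ / (C * C) * x := by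
      have h1 := Real.isLittleO_log_id_atTop.def (c := θ / (C * C)) (by positivity)
      filter_upwards [h1, Filter.eventually_ge_atTop 0] with x hx hx0
      have h2 := (Real.le_norm_self _).trans hx
      rwa [id, Real.norm_eq_abs, abs_of_nonneg hx0] at h2
    obtain ⟨X, hX⟩ := Filter.eventually_atTop.1 hlog
    obtain ⟨n, hn⟩ := exists_nat_ge (max (n0 : ℝ) (max X (max 1 (C / θ))))
    have hn1 : n0 ≤ n := by exact_mod_cast (le_max_left _ _).trans hn
    have hn2 : X ≤ n := (le_max_left _ _).trans ((le_max_right _ _).trans hn)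
    have hn3 : (1 : ℝ) ≤ n := (le_max_left _ _).trans ((le_max_right _ _).trans
      ((le_max_right _ _).trans hn))
    have hn4 : C / θ ≤ n := (le_max_right _ _).trans ((le_max_right _ _).trans
      ((le_max_right _ _).trans hn))
    have h := hn0 n hn1
    obtain ⟨N, hN⟩ : ∃ N : ℝ, N = r * n := ⟨_, rfl⟩
    rw [← hN] at h
    have hnN : (n : ℝ) ≤ N := by rw [hN]; nlinarith
    have hNp : 0 < N := by linarith
    have h1 : Real.log (C * N) ≤ θ / (C * C) * (C * N) := hX _ (by nlinarith)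
    have h2 : C * Real.log (C * N) ≤ θ * N := by
      calc C * Real.log (C * N) ≤ C * (θ / (C * C) * (C * N)) :=
            mul_le_mul_of_nonneg_left h1 hC0.le
        _ = θ * N := by field_simp
    have h3 : C ≤ θ * N := by
      rw [div_le_iff₀ hθ] at hn4
      nlinarith
    have h4 : N * M.S.g (T v) ≤ N * (M.S.g (T (L v)) + (C * θ + C / r) + 2 * θ) := by
      nlinarith
    exact le_of_mul_le_mul_left h4 hNp
  refine le_of_forall_pos_le_add fun ε hε => ?_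
  obtain ⟨r, hr⟩ := exists_nat_ge (max 1 (2 * C / ε))
  have hr1 : (1 : ℝ) ≤ r := (le_max_left _ _).trans hr
  have hr2 : C / r ≤ ε / 2 := by
    have h1 := (le_max_right _ _).trans hr
    rw [div_le_iff₀ hε] at h1
    rw [div_le_iff₀ (by linarith)]
    linarith
  have h := key r (by exact_mod_cast hr1) (ε / (2 * (C + 2))) (by positivity)
  have h2 : C * (ε / (2 * (C + 2))) + 2 * (ε / (2 * (C + 2))) = ε / 2 := by field_simp
  linarith

end seg

end Crest.Agent.R182.Mic
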