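/-
R182, module MICRO, block Z4 for a `BModel` (helper278).
-/
import Mathlib
import Crest.Agent.R182.MicSeg
import Crest.Agent.R182.CapFin
import Crest.Agent.R182.NbAdM

set_option autoImplicit false
set_option linter.unusedSectionVars false

open MeasureTheory

namespace Crest.Agent.R182.Core

open Crest.GroupTheory Crest.Geometry Crest.Agent.R182.QI Crest.Agent.R182.FinPath
  Crest.Agent.R182.FinRed Crest.Agent.R182.Bnd Nb Crest.Agent.R182.Mic

variable {Γ : Type*} [Group Γ] {k : ℕ}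

namespace BModel

section lat

variable {S : Set Γ} {π : Γ →* Multiplicative (Fin k → ℤ)} (M : BModel S π)
  [Countable Γ] {E : Type*} [NormedAddCommGroup E] [NormedSpace ℝ E]
  {T : (Fin k → ℝ) ≃ₗ[ℝ] E} {V : Set M.NN} {RC : ℝ} (P : CapPar M T V RC)

/-- the lattice of the model. -/
noncomputable def toLat (hRC : M.a ≤ RC) : Mic.Lat (M.toCap P) S π T where
  iot := M.ι
  rnd := M.rnd
  a := P.s * M.a
  one_le_a := by nlinarith [P.one_le_s, M.one_le_a]
  len_iot γ := by
    have h1 := M.len_ι γ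
    change P.s * M.len (M.ι γ) ≤ _
    rw [mul_assoc]
    exact mul_le_mul_of_nonneg_left h1 (by linarith [P.one_le_s])
  iot_len γ := by
    have h1 := M.ι_len γ
    have h2 := P.one_le_s
    have h3 := M.len_nonneg (M.ι γ)
    have h4 := M.a0
    change _ ≤ P.s * M.a * (P.s * M.len (M.ι γ)) + P.s * M.a
    have h5 : M.a * M.len (M.ι γ) ≤ P.s * M.a * (P.s * M.len (M.ι γ)) := by
      have h6 : 0 ≤ M.a * M.len (M.ι γ) := mul_nonneg h4 h3
      have h7 : (1 : ℝ) ≤ P.s * P.s := by nlinarith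
      calc M.a * M.len (M.ι γ) = 1 * (M.a * M.len (M.ι γ)) := (one_mul _).symm
        _ ≤ (P.s * P.s) * (M.a * M.len (M.ι γ)) := mul_le_mul_of_nonneg_right h7 h6
        _ = _ := by ring
    have h8 : M.a ≤ P.s * M.a := by nlinarith
    linarith
  len_rnd g := mul_le_mul_of_nonneg_left (M.len_rnd g) (by linarith [P.one_le_s])
  hgt_iot γ := by
    change T (M.h (M.ι γ)) = _
    rw [M.h_ι]
  rnd_meas x g γ := M.measurableSet_rnd x g γ
  vt v := by
    obtain ⟨l, hl, hlen, h⟩ := M.t_list v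
    refine ⟨M.t v, ⟨l, hlen, fun s hs => ⟨M.CN_le (h s hs).1, (h s hs).2.trans hRC⟩, hl⟩, ?_⟩
    change T (M.h (M.t v)) = _
    congr 1
    funext i
    exact M.h_t v i

end lat

/-- **Z4** for a `BModel`. -/
theorem seg_g {S : Finset Γ} {π : Γ →* Multiplicative (Fin k → ℤ)} (M : BModel (S : Set Γ) π)
    [Countable Γ] (hS : Subgroup.closure (S : Set Γ) = ⊤) {K : ℕ}
    {m : (Om (S : Set Γ) K → ℝ) → ℝ} (hm : Erg.PMean (bddAlg (Om (S : Set Γ) K)) m)
    (L : (Fin k → ℝ) →ₗ[ℝ] (Fin k → ℝ))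
    (hL : ∀ ε > 0, ∃ C : ℝ, ∀ x i, m (fun w => |hc π i x w - L (hgtR π x) i|) ≤
      ε * wordLength (S : Set Γ) x + C) (v : Fin k → ℝ) :
    (gsys M).g v ≤ (gsys M).g (L v) := by
  obtain ⟨P⟩ := M.exists_capPar (LinearEquiv.refl ℝ (Fin k → ℝ)) (V := Metric.ball (0 : M.NN) 1)
    M.a Metric.isOpen_ball.measurableSet Metric.isBounded_ball
    (Metric.measure_ball_pos volume (0 : M.NN) one_pos).ne'
  exact seg (M.toLat P le_rfl) hS (M.toCap_reach P M.C_growth)
    (M.toCap_ent P (AdS.of_bch1 M.nilC M.star_cj) (ρ := 1)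
      fun n hn => (mem_ball_zero_iff.1 hn).le) hm L hL v

end BModel

end Crest.Agent.R182.Core
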