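import Mathlib
import Crest.Agent.R182.ConvG
import Crest.Agent.R182.MicDual
import Crest.Agent.R182.HtVec
import Crest.Agent.R182.HtEss
import Crest.Agent.R182.ErgLip
import Crest.Agent.R182.PolycRoot
import Crest.Agent.R182.ZdSlab

/-!
# Row 182, module MICRO, block Z6 (helper247): glue

* `GenSys.sn`: the seminorm `g` of a system of generating weights;
* `micOut_of_dual`: `MicOut` from the law, the segment inequality `g v ≤ g (L v)` and the dual
  relation `L ∘ L' = 1`;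
* the hypotheses of the modules HT, ZD and LIP over a root datum.
-/

set_option autoImplicit false

namespace Crest.Agent.R182.Conv.GenSys

variable {ι : Type*} [Fintype ι] {E : Type*} [AddCommGroup E] [Module ℝ E]

/-- the seminorm `g`. -/
noncomputable def sn (G : GenSys ι E) : Seminorm ℝ E :=
  Seminorm.of G.g G.g_add_le fun a x => by rw [G.g_smul, Real.norm_eq_abs]

@[simp] theorem sn_apply (G : GenSys ι E) (v : E) : G.sn v = G.g v := rfl

/-- the seminorm `g` pulled back by a linear equivalence -/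
noncomputable def snT (G : GenSys ι E) {F : Type*} [AddCommGroup F] [Module ℝ F]
    (T : F →ₗ[ℝ] E) : Seminorm ℝ F := G.sn.comp T

@[simp] theorem snT_apply (G : GenSys ι E) {F : Type*} [AddCommGroup F] [Module ℝ F]
    (T : F →ₗ[ℝ] E) (v : F) : G.snT T v = G.g (T v) := rfl

end Crest.Agent.R182.Conv.GenSys

namespace Crest.Agent.R182.Mic

open Crest.GroupTheory Crest.Geometry Crest.Agent.R182.QI Crest.Agent.R182.FinPath Crest.Agent.R189.MeanF
  Crest.Agent.R182.FinNil Crest.Agent.R182.FinRed Crest.Agent.R182.Polyc Crest.Agent.R182.Erg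

/-- If `L` and `L'` do not decrease a seminorm and `L ∘ L' = 1`, then `L` preserves it. -/
theorem seminorm_eq {E : Type*} [AddCommGroup E] [Module ℝ E] [FiniteDimensional ℝ E]
    {N : Seminorm ℝ E} {L L' : E →ₗ[ℝ] E} (h1 : ∀ v, N v ≤ N (L v)) (h2 : ∀ v, N v ≤ N (L' v))
    (h : L ∘ₗ L' = LinearMap.id) (v : E) : N (L v) = N v := by
  have h3 : L' ∘ₗ L = LinearMap.id := mul_eq_one_comm.1 (h : L * L' = 1)
  refine le_antisymm ?_ (h1 v)
  have h4 := h2 (L v)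
  have h5 : L' (L v) = v := LinearMap.congr_fun h3 v
  rwa [h5] at h4

theorem seminorm_eq' {E : Type*} [AddCommGroup E] [Module ℝ E]
    {N : Seminorm ℝ E} {L L' : E →ₗ[ℝ] E} (h1 : ∀ v, N v ≤ N (L v)) (h2 : ∀ v, N v ≤ N (L' v))
    (h : L ∘ₗ L' = LinearMap.id) (v : E) : N (L' v) = N v := by
  refine le_antisymm ?_ (h2 v)
  have h4 := h1 (L' v)
  have h5 : L (L' v) = v := LinearMap.congr_fun h v
  rwa [h5] at h4

section Glue

variable {Γ : Type*} [Group Γ] {S : Finset Γ} {k : ℕ} {π : Γ →* Multiplicative (Fin k → ℤ)}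

/-- **Assembly of `MicOut`** from the law `Pr` (any predicate, e.g. the almost coboundary form),
its consequences and the dual relation. -/
theorem micOut_of_dual (hS : Subgroup.closure (S : Set Γ) = ⊤) (N : Seminorm ℝ (Fin k → ℝ))
    (Pr : ∀ K : ℕ, ((Om (S : Set Γ) K → ℝ) → ℝ) → ((Fin k → ℝ) →ₗ[ℝ] (Fin k → ℝ)) → Prop)
    (hP : ∀ (K : ℕ) (m : (Om (S : Set Γ) K → ℝ) → ℝ),
      IMean Om.act (bddAlg (Om (S : Set Γ) K)) m → Ext Om.act (bddAlg (Om (S : Set Γ) K)) m →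
      ∃ L, Pr K m L)
    (hlaw : ∀ (K : ℕ) (m : (Om (S : Set Γ) K → ℝ) → ℝ) (L : (Fin k → ℝ) →ₗ[ℝ] (Fin k → ℝ)),
      IMean Om.act (bddAlg (Om (S : Set Γ) K)) m → Ext Om.act (bddAlg (Om (S : Set Γ) K)) m →
      Pr K m L → ∀ ε > 0, ∃ C : ℝ, ∀ (x : Γ) (i : Fin k),
        m (fun w => |hc π i x w - L (hgtR π x) i|) ≤ ε * wordLength S x + C)
    (hseg : ∀ (K : ℕ) (m : (Om (S : Set Γ) K → ℝ) → ℝ) (L : (Fin k → ℝ) →ₗ[ℝ] (Fin k → ℝ)),
      IMean Om.act (bddAlg (Om (S : Set Γ) K)) m → Ext Om.act (bddAlg (Om (S : Set Γ) K)) m →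
      Pr K m L → ∀ v, N v ≤ N (L v))
    (hrel : ∀ (K : ℕ) (m : (Om (S : Set Γ) K → ℝ) → ℝ)
      (L L' : (Fin k → ℝ) →ₗ[ℝ] (Fin k → ℝ)),
      IMean Om.act (bddAlg (Om (S : Set Γ) K)) m → Ext Om.act (bddAlg (Om (S : Set Γ) K)) m →
      Pr K m L → Pr K (fun φ => dual m φ / dual m 1) L' → L ∘ₗ L' = LinearMap.id) :
    MicOut (S : Set Γ) π N := by
  intro K m hm hE
  obtain ⟨L, hL⟩ := hP K m hm hE
  have hm' := dual_imean hS hm
  have hE' := dual_imean_ext hS hm hE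
  obtain ⟨L', hL'⟩ := hP K _ hm' hE'
  have h1 := hseg K m L hm hE hL
  have h2 := hseg K _ L' hm' hE' hL'
  have h3 := hrel K m L L' hm hE hL hL'
  exact ⟨L, fun v => seminorm_eq h1 h2 h3 v, hlaw K m L hm hE hL⟩

end Glue

section Root

variable {Γ : Type*} [Group Γ]

/-- every subgroup of `Γ` is finitely generated -/
theorem root_fg (R : RootData Γ) (H : Subgroup Γ) : H.FG := (R.pz.pc.mono le_top).fg

theorem root_ker (R : RootData Γ) : R.π.ker = R.N := by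
  ext g
  rw [MonoidHom.mem_ker]
  exact R.mem_N g

theorem root_amen (R : RootData Γ) : Amen Γ :=
  amen_of_polycyclic (isPolycyclic_iff.2 R.pz.pc)

theorem root_pgr (R : RootData Γ) : PGr R.π.ker := by
  have hk := root_ker R
  have h1 : Group.IsNilpotent R.π.ker := by
    rw [hk]; exact R.nilp
  exact pgr_of_nilpotent (R.pz.pc.mono le_top) h1

/-- **Decomposition of the height cocycle over an extreme mean**, over a root datum. -/
theorem exists_dec_root (R : RootData Γ) {S : Finset Γ}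
    (hS : Subgroup.closure (S : Set Γ) = ⊤) {K : ℕ} {m : (Om (S : Set Γ) K → ℝ) → ℝ}
    (hm : IMean Om.act (bddAlg (Om (S : Set Γ) K)) m)
    (hE : Ext Om.act (bddAlg (Om (S : Set Γ) K)) m) :
    ∃ (W : Submodule ℝ (Ht.VK R.k (Ht.V alg_Om hm))) (β r : Γ → Ht.VK R.k (Ht.V alg_Om hm))
      (Lb : (Fin R.k → ℝ) →ₗ[ℝ] (Fin R.k → ℝ)), FiniteDimensional ℝ W ∧
      (∀ g i, Ht.bco alg_Om hm (coc_hc hS R.π i) g =
        β g i + (Lb (hgtR R.π g) i) • Ht.ofA alg_Om hm 1 + r g i) ∧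
      (∀ g, β g ∈ W) ∧ W ≤ Ht.fix (Ht.UK (Ht.U alg_Om hm) R.k) R.N ∧
      (∀ g, ∀ v ∈ W, Ht.UK (Ht.U alg_Om hm) R.k g v ∈ W) ∧
      Ht.Coc (Ht.UK (Ht.U alg_Om hm) R.k) β ∧
      Submodule.span ℝ (β '' R.N) = W ∧ Ht.Coc (Ht.UK (Ht.U alg_Om hm) R.k) r ∧
      Ht.AC (Ht.UK (Ht.U alg_Om hm) R.k) r := by
  have := R.normal
  exact Ht.exists_dec_mean alg_Om hm hE Ht.abs_mem_bdd (root_fg R) R.N R.nilp R.surj R.mem_N
    (fun i => coc_hc hS R.π i)

end Root

end Crest.Agent.R182.Mic
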