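/-
R182, module MICRO: final form for a `BModel` and an invariant Euclidean norm (helper506).
-/
import Mathlib
import Crest.Agent.R182.MicFinal
import Crest.Agent.R182.MicNorm
import Crest.Agent.R182.MicLat
import Crest.Agent.R182.InvT

set_option autoImplicit false

namespace Crest.Agent.R182.Mic

open Crest.GroupTheory Crest.Agent.R182.QI Crest.Agent.R182.FinPath
  Crest.Agent.R182.FinRed Crest.Agent.R182.Polyc Crest.Agent.R182.Ht Crest.Agent.R182.Zd
  Crest.Agent.R182.Core Crest.Agent.R182.Nb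

universe u

variable {Γ : Type u} [Group Γ]

/-- **Output of the module MICRO**, for two seminorms: `N₀` has the capacity inequality, and `N`
is preserved by all linear maps preserving `N₀`. -/
theorem micOut' (R : RootData Γ) {S : Finset Γ} (hS : Subgroup.closure (S : Set Γ) = ⊤)
    (N₀ N : Seminorm ℝ (Fin R.k → ℝ))
    (hseg : ∀ (K : ℕ) (m : (Om (S : Set Γ) K → ℝ) → ℝ),
      Erg.IMean Om.act (bddAlg (Om (S : Set Γ) K)) m →
      ∀ L : (Fin R.k → ℝ) →ₗ[ℝ] (Fin R.k → ℝ), (∀ ε > 0, ∃ C : ℝ, ∀ (x : Γ) (i : Fin R.k),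
        m (fun w => |hc R.π i x w - L (hgtR R.π x) i|) ≤ ε * wordLength (S : Set Γ) x + C) →
      ∀ v, N₀ v ≤ N₀ (L v))
    (hN : ∀ L : (Fin R.k → ℝ) →ₗ[ℝ] (Fin R.k → ℝ), (∀ v, N₀ (L v) = N₀ v) →
      ∀ v, N (L v) = N v) : Erg.MicOut (S : Set Γ) R.π N := by
  intro K m hm hE
  obtain ⟨L, hL, h⟩ := micOut R hS N₀ hseg K m hm hE
  exact ⟨L, hN L hL, h⟩

/-- **MICRO for the norm `g`.** -/
theorem micOut_g (R : RootData Γ) {S : Finset Γ} (hS : Subgroup.closure (S : Set Γ) = ⊤)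
    (M : BModel (S : Set Γ) R.π) : Erg.MicOut (S : Set Γ) R.π (gsys M).sn := by
  have : Countable Γ := countable_of_closure S.finite_toSet hS
  exact micOut R hS _ fun K m hm L hL v => BModel.seg_g M hS ⟨hm.add, hm.smul, hm.nonneg, hm.one⟩ L hL v

/-- **MICRO for the invariant norm.** -/
theorem micOut_T (R : RootData Γ) {S : Finset Γ} (hS : Subgroup.closure (S : Set Γ) = ⊤)
    (M : BModel (S : Set Γ) R.π) (N : Seminorm ℝ (Fin R.k → ℝ))
    (hN : ∀ L : (Fin R.k → ℝ) →ₗ[ℝ] (Fin R.k → ℝ), (∀ v, (gsys M).g (L v) = (gsys M).g v) →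
      ∀ v, N (L v) = N v) : Erg.MicOut (S : Set Γ) R.π N := by
  intro K m hm hE
  obtain ⟨L, hL, h⟩ := micOut_g R hS M K m hm hE
  exact ⟨L, hN L hL, h⟩

/-- **The invariant Euclidean coordinates of a model.** -/
theorem exists_T (R : RootData Γ) {S : Finset Γ} (hS : Subgroup.closure (S : Set Γ) = ⊤)
    (M : BModel (S : Set Γ) R.π) : ∃ T : (Fin R.k → ℝ) ≃ₗ[ℝ] EuclideanSpace ℝ (Fin R.k),
      ∀ N : Seminorm ℝ (Fin R.k → ℝ), (∀ v, N v = ‖T v‖) → Erg.MicOut (S : Set Γ) R.π N := by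
  obtain ⟨T, hT⟩ := InvT.exists_invT (gsys M).sn fun v hv => by
    have h1 : (gsys M).g v = 0 := hv
    exact (gsys M).eq_zero_of_g_eq_zero h1
  exact ⟨T, fun N hN => micOut_T R hS M N fun L hL v => by
    rw [hN, hN]; exact hT L hL v⟩

end Crest.Agent.R182.Mic
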