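/-
R182, module STAR (helper554): the law per point in the boxes of near tuples, at every scale where
(LIP) holds.
-/
import Mathlib
import Crest.Agent.R182.StarBM
import Crest.Agent.R182.GenStar
import Crest.Agent.R182.BoxOne

set_option autoImplicit false
set_option linter.unusedSectionVars false

open MeasureTheory List

namespace Crest.Agent.R182.Gen

open Crest.Agent.R182.Nb Crest.Agent.R182.Core Crest.Agent.R182.Cap Crest.Agent.R182.Star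
  Crest.Agent.R182.QI Crest.Agent.R182.Erg Crest.Agent.R182.OneScale Crest.Agent.R182.Conv

variable {Γ : Type*} [Group Γ] {k : ℕ} {π : Γ →* Multiplicative (Fin k → ℤ)} {S : Finset Γ}
  {M : BModel (S : Set Γ) π} [Countable Γ] {E : Type} [NormedAddCommGroup E]
  [InnerProductSpace ℝ E] {T : (Fin k → ℝ) ≃ₗ[ℝ] E} {V : Set M.NN} {RC : ℝ}
  {R : RSys (GI M) E}

/-- **the law per point in the boxes of near tuples**, one shape. -/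
theorem sgood_shape [FiniteDimensional ℝ E] [MeasurableSpace E] [BorelSpace E]
    (P : BModel.CapPar M T V RC) (hRC : M.a ≤ RC) {ρV : ℝ} (hρV : ∀ n ∈ V, ‖n‖ ≤ ρV)
    (hRS : (M.toCap P).S = R.toGenSys) {m1 : ℝ} (hm1 : 0 < m1) (hm11 : m1 ≤ 1)
    (hm1le : ∀ e ∈ R.Eb, ∀ e' ∈ R.Eb, e ≠ e' → inner ℝ e e' ≤ 1 - m1) (Cb : ℝ) (K : ℕ)
    {X : R.Eb → ℝ} (hX : ∀ e, |X e - 1| ≤ m1 / 10) (C2 CQ : ℝ) {η : ℝ} (hη : 0 < η) (kw : ℕ)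
    {tW : ℝ} (htW : 0 ≤ tW) :
    ∃ eps1 μ1 : ℝ, 0 < eps1 ∧ 0 < μ1 ∧ ∀ eps : ℝ, 0 ≤ eps → eps ≤ eps1 →
    ∀ 𝓛 : Legs (M.toCap P) R (vts M) Cb eps, ∀ R₀ : ℝ,
    ∃ (Tm : ℕ) (δ₀ μ₀ : ℝ), 0 < δ₀ ∧ 0 < μ₀ ∧ ∀ Rl Cg R1 τ₁ : ℝ, 0 < τ₁ →
    ∃ N0 : ℕ, 1 ≤ N0 ∧ ∀ N : ℕ, N0 ≤ N → ∀ (B : Finset M.G) (Tm' : ℕ) (δ₀' μ₀' : ℝ),
      (∀ e, 𝓛.b e ∈ B) → Tm ≤ Tm' → δ₀' ≤ δ₀ → μ₀' ≤ μ₀ →
      LipAt M (nrmT T) B K Tm' μ₀' δ₀' R₀ R1 τ₁ N →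
      ∀ g : R.Eb → M.G, NearTup M T R Rl Cg μ1 N X g → Touch M (rayE hRS) g 1 ∧
      ∀ Ψ : Γ → Γ, QIMap (S : Set Γ) (S : Set Γ) Ψ K → ∀ (x : M.G) (D1 : ℝ) (Q' : Set M.NN),
      1 ≤ D1 → MeasurableSet Q' →
      (volume : Measure M.NN) Q' ≤ ENNReal.ofReal CQ *
        volume (box M (fun i => D1 • fam M (rayE hRS) g i) 1) →
      (∀ n ∈ box M (fun i => D1 • fam M (rayE hRS) g i) 1, P.s * M.len (M.toG n) ≤ C2 * N) →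
      (∀ g' : M.G, Sm M (fam M (rayE hRS) g) 1 g' → ∀ a ∈ V,
        ∀ q ∈ box M (fun i => D1 • fam M (rayE hRS) g i) 1, q * (M.conjN g' a)⁻¹ ∈ Q') →
      (volume : Measure M.NN) {n | n ∈ box M (fun i => D1 • fam M (rayE hRS) g i) 1 ∧
        ¬ SGood 𝓛 N X kw tW η (M.ext Ψ) x n} ≤
      ENNReal.ofReal η * volume (box M (fun i => D1 • fam M (rayE hRS) g i) 1) := by
  obtain ⟨r0, hT⟩ := vts_Cl P hRC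
  have hX2 : ∀ e, |X e - 1| ≤ 1 / 2 := fun e => (hX e).trans (by linarith)
  obtain ⟨τ, δ, ρ1, A, 𝒲, eps1, hτ, hδ, hρ1, hA, heps1, hW, hmain⟩ := star_law_bm P hRC hρV hRS Cb
    K (convex_Om (R := R) (X := X)) (by norm_num) (ball_Om hX2) C2 CQ hη kw htW
  obtain ⟨eps2, μ1, heps2, hμ1, hab⟩ := absorb_star hRS hm1 hm11 hm1le hT Cb hX hτ hρ1 hW
  refine ⟨min eps1 eps2, μ1, lt_min heps1 heps2, hμ1, fun eps he0 he 𝓛 R₀ => ?_⟩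
  obtain ⟨N1, hN1, hlaw⟩ := hmain eps he0 (he.trans (min_le_left _ _)) 𝓛
  obtain ⟨μ₀, hμ₀, hab⟩ := hab eps he0 (he.trans (min_le_right _ _)) 𝓛 R₀
  refine ⟨A * ∑ e : R.Eb, ⌈τ / 𝓛.mE e⌉₊, δ, μ₀, hδ, hμ₀, fun Rl Cg R1 τ₁ hτ₁ => ?_⟩
  obtain ⟨N2, hab⟩ := hab Rl Cg R1 τ₁ hτ₁
  refine ⟨max N1 N2, hN1.trans (le_max_left _ _), ?_⟩
  intro N hN B Tm' δ₀' μ₀' hB hTm hδ₀ hμ₀' hlip g hg
  obtain ⟨ht, hsm, habs⟩ := hab N (le_of_max_le_right hN) g hg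
  refine ⟨ht, ?_⟩
  intro Ψ hΨ x D1 Q' hD1 hQ' hCQ hlen hmv
  by_cases hQ0 : (volume : Measure M.NN) (box M (fun i => D1 • fam M (rayE hRS) g i) 1) = 0
  · refine le_of_eq_of_le (measure_mono_null (fun n hn => hn.1) hQ0) zero_le'
  exact hlaw B Tm' δ₀' R₀ μ₀ R1 τ₁ hB hδ₀ hTm N (le_of_max_le_left hN)
    (hlip.mono subset_rfl le_rfl hμ₀' le_rfl) Ψ hΨ x _ Q' (measurableSet_box M zero_le_one) hQ' hQ0
    (volume_box_lt_top M zero_le_one).ne hCQ hlen (fun w hw a ha q hq => hmv _ (hsm w hw) a ha q hq)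
    fun w hw e a ha l hl hlC i hi u hu => habs D1 hD1 w hw e a ha l hl hlC i hi u hu

/-- **the law per point in the boxes of near tuples**, finitely many shapes. -/
theorem sgood_shapes [FiniteDimensional ℝ E] [MeasurableSpace E] [BorelSpace E]
    (P : BModel.CapPar M T V RC) (hRC : M.a ≤ RC) {ρV : ℝ} (hρV : ∀ n ∈ V, ‖n‖ ≤ ρV)
    (hRS : (M.toCap P).S = R.toGenSys) {m1 : ℝ} (hm1 : 0 < m1) (hm11 : m1 ≤ 1)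
    (hm1le : ∀ e ∈ R.Eb, ∀ e' ∈ R.Eb, e ≠ e' → inner ℝ e e' ≤ 1 - m1) (Cb : ℝ) (K : ℕ)
    (𝒳 : Finset (R.Eb → ℝ)) (hX : ∀ X ∈ 𝒳, ∀ e, |X e - 1| ≤ m1 / 10) (C2 CQ : ℝ) {η : ℝ}
    (hη : 0 < η) (kw : ℕ) {tW : ℝ} (htW : 0 ≤ tW) :
    ∃ eps1 μ1 : ℝ, 0 < eps1 ∧ 0 < μ1 ∧ ∀ eps : ℝ, 0 ≤ eps → eps ≤ eps1 →
    ∀ 𝓛 : Legs (M.toCap P) R (vts M) Cb eps, ∀ R₀ : ℝ,
    ∃ (Tm : ℕ) (δ₀ μ₀ : ℝ), 0 < δ₀ ∧ 0 < μ₀ ∧ ∀ Rl Cg R1 τ₁ : ℝ, 0 < τ₁ →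
    ∃ N0 : ℕ, 1 ≤ N0 ∧ ∀ N : ℕ, N0 ≤ N → ∀ (B : Finset M.G) (Tm' : ℕ) (δ₀' μ₀' : ℝ),
      (∀ e, 𝓛.b e ∈ B) → Tm ≤ Tm' → δ₀' ≤ δ₀ → μ₀' ≤ μ₀ →
      LipAt M (nrmT T) B K Tm' μ₀' δ₀' R₀ R1 τ₁ N → ∀ X ∈ 𝒳,
      ∀ g : R.Eb → M.G, NearTup M T R Rl Cg μ1 N X g → Touch M (rayE hRS) g 1 ∧
      ∀ Ψ : Γ → Γ, QIMap (S : Set Γ) (S : Set Γ) Ψ K → ∀ (x : M.G) (D1 : ℝ) (Q' : Set M.NN),
      1 ≤ D1 → MeasurableSet Q' →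
      (volume : Measure M.NN) Q' ≤ ENNReal.ofReal CQ *
        volume (box M (fun i => D1 • fam M (rayE hRS) g i) 1) →
      (∀ n ∈ box M (fun i => D1 • fam M (rayE hRS) g i) 1, P.s * M.len (M.toG n) ≤ C2 * N) →
      (∀ g' : M.G, Sm M (fam M (rayE hRS) g) 1 g' → ∀ a ∈ V,
        ∀ q ∈ box M (fun i => D1 • fam M (rayE hRS) g i) 1, q * (M.conjN g' a)⁻¹ ∈ Q') →
      (volume : Measure M.NN) {n | n ∈ box M (fun i => D1 • fam M (rayE hRS) g i) 1 ∧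
        ¬ SGood 𝓛 N X kw tW η (M.ext Ψ) x n} ≤
      ENNReal.ofReal η * volume (box M (fun i => D1 • fam M (rayE hRS) g i) 1) := by
  classical
  induction 𝒳 using Finset.induction_on with
  | empty =>
    exact ⟨1, 1, one_pos, one_pos, fun eps _ _ 𝓛 R₀ => ⟨0, 1, 1, one_pos, one_pos,
      fun Rl Cg R1 τ₁ _ => ⟨1, le_rfl, fun N _ B Tm' δ₀' μ₀' _ _ _ _ _ X hX => by
        simp at hX⟩⟩⟩
  | insert X s hs ih =>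
    obtain ⟨e1, μ1, he1, hμ1, h1⟩ := ih fun Y hY => hX Y (Finset.mem_insert_of_mem hY)
    obtain ⟨e2, μ2, he2, hμ2, h2⟩ := sgood_shape P hRC hρV hRS hm1 hm11 hm1le Cb K
      (hX X (Finset.mem_insert_self _ _)) C2 CQ hη kw htW
    refine ⟨min e1 e2, min μ1 μ2, lt_min he1 he2, lt_min hμ1 hμ2, fun eps he0 he 𝓛 R₀ => ?_⟩
    obtain ⟨Tm1, δ1, u1, hδ1, hu1, h1⟩ := h1 eps he0 (he.trans (min_le_left _ _)) 𝓛 R₀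
    obtain ⟨Tm2, δ2, u2, hδ2, hu2, h2⟩ := h2 eps he0 (he.trans (min_le_right _ _)) 𝓛 R₀
    refine ⟨max Tm1 Tm2, min δ1 δ2, min u1 u2, lt_min hδ1 hδ2, lt_min hu1 hu2,
      fun Rl Cg R1 τ₁ hτ₁ => ?_⟩
    obtain ⟨N1, hN1, h1⟩ := h1 Rl Cg R1 τ₁ hτ₁
    obtain ⟨N2, hN2, h2⟩ := h2 Rl Cg R1 τ₁ hτ₁
    refine ⟨max N1 N2, hN1.trans (le_max_left _ _), ?_⟩
    intro N hN B Tm' δ₀' μ₀' hB hTm hδ hμ hlip Y hY g hg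
    rcases Finset.mem_insert.1 hY with rfl | hY
    · exact h2 N (le_of_max_le_right hN) B Tm' δ₀' μ₀' hB (le_of_max_le_right hTm)
        (hδ.trans (min_le_right _ _)) (hμ.trans (min_le_right _ _)) hlip g
        (hg.mono le_rfl le_rfl (min_le_right _ _))
    · exact h1 N (le_of_max_le_left hN) B Tm' δ₀' μ₀' hB (le_of_max_le_left hTm)
        (hδ.trans (min_le_left _ _)) (hμ.trans (min_le_left _ _)) hlip Y hY g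
        (hg.mono le_rfl le_rfl (min_le_left _ _))

end Crest.Agent.R182.Gen
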