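/-
R182 (helper278): the box theorem at a frequent set of scales, in powers of unit legs.
-/
import Mathlib
import Crest.Agent.R182.BoxFreqA
import Crest.Agent.R182.StarGlue
import Crest.Agent.R182.HoleEl
import Crest.Agent.R182.BoxMain2
import Crest.Agent.R182.ElUnit
import Crest.Agent.R182.MicT

set_option autoImplicit false
set_option linter.unusedSectionVars false

open MeasureTheory List
open scoped RealInnerProductSpace Topology

namespace Crest.Agent.R182.HoleOne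

open Crest.GroupTheory Crest.Geometry Crest.Agent.R182.QI Crest.Agent.R182.Core
  Crest.Agent.R182.Core.BModel Crest.Agent.R182.Nb Crest.Agent.R182.HoleNil
  Crest.Agent.R182.OneScale Crest.Agent.R182.ElI Crest.Agent.R182.Star Crest.Agent.R182.Cap
  Crest.Agent.R182.Gen Crest.Agent.R182.Conv Crest.Agent.R182.Erg Crest.Agent.R189.MeanF

variable {Γ : Type*} [Group Γ] {k : ℕ} {π : Γ →* Multiplicative (Fin k → ℤ)} {S : Finset Γ}
  {M : BModel (S : Set Γ) π} {E : Type} [NormedAddCommGroup E]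
  [InnerProductSpace ℝ E]

/-- the box theorem for all near-round shapes with sides in `τ ℕ`, at a frequent set of scales. -/
def BoxFreq (G : Geo M E) (K : ℕ) : Prop :=
  ∃ m0 : ℝ, 0 < m0 ∧ ∃ RC Cb : ℝ, ∀ η : ℝ, 0 < η → ∀ τ : ℝ, 0 < τ → ∀ e0 : ℝ, 0 < e0 →
    ∃ (b : G.R → M.G) (Cp : ℝ), (∀ e, b e ∈ M.CN) ∧ ∀ N1 : ℕ, ∃ N : ℕ, N1 ≤ N ∧
      ∃ (un : ElI.Unit G RC Cb e0 τ N) (p : G.R → ℕ), (∀ e, un.u e = b e ^ p e) ∧
      (∀ e, (p e : ℝ) ≤ Cp * N) ∧ ∀ Ψ : Γ → Γ, QIMap (S : Set Γ) (S : Set Γ) Ψ K →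
      ∀ m : G.R → ℕ, (∀ e, |(m e : ℝ) * τ - 1| ≤ m0) → ∀ y : M.G,
        ∃ L ∈ LLE G, ∃ θ : E, RawLaw G Ψ N τ un.u η (fun e => m e * τ) y L θ

variable [Countable Γ]

theorem finite_shapes {ι : Type*} [Finite ι] {τ : ℝ} (hτ : 0 < τ) (m0 : ℝ) :
    {m : ι → ℕ | ∀ e, |(m e : ℝ) * τ - 1| ≤ m0}.Finite := by
  have h : {m : ι → ℕ | ∀ e, m e ≤ ⌈(1 + m0) / τ⌉₊}.Finite := by
    have h1 : {m : ι → ℕ | ∀ e, m e ≤ ⌈(1 + m0) / τ⌉₊} =
        Set.pi Set.univ fun _ : ι => Set.Iic ⌈(1 + m0) / τ⌉₊ := by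
      ext m; simp [Pi.le_def]
    rw [h1]
    exact Set.Finite.pi fun _ => Set.finite_Iic _
  refine h.subset fun m hm e => ?_
  have h1 := (abs_le.1 (hm e)).2
  have h2 : (m e : ℝ) ≤ (1 + m0) / τ := by
    rw [le_div_iff₀ hτ]; linarith
  exact_mod_cast h2.trans (Nat.le_ceil _)

/-- **the box theorem at a frequent set of scales** -/
theorem box_freq [FiniteDimensional ℝ E] (hS : Subgroup.closure (S : Set Γ) = ⊤)
    (hΓ : Amen Γ) (hX : XModel M) (G : Geo M E) (hmic : MicOut (S : Set Γ) π (nrmT G.T)) (K : ℕ) :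
    BoxFreq G K := by
  classical
  let _ : MeasurableSpace E := borel E
  have _ : BorelSpace E := ⟨rfl⟩
  -- the capacity model
  obtain ⟨P⟩ : Nonempty (BModel.CapPar M G.T (Metric.closedBall (0 : M.NN) 1) M.a) :=
    BModel.exists_capPar M G.T M.a Metric.isClosed_closedBall.measurableSet
      Metric.isBounded_closedBall (Metric.measure_closedBall_pos _ _ one_pos).ne'
  have hRS := hRS_of G P
  have hρV : ∀ n ∈ Metric.closedBall (0 : M.NN) 1, ‖n‖ ≤ 1 := fun n hn => by simpa using hn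
  obtain ⟨r0, hT⟩ := vts_Cl P le_rfl
  obtain ⟨m1, hm1, hm11, hm1le⟩ := exists_margin G.RS
  obtain ⟨Cb, hCb, hlegs⟩ := exists_legs_bm P G.RS
  obtain ⟨D, hD, hDOm⟩ := exists_bound_Om G
  have hK : 1 ≤ P.s * M.KQ K := by
    have h1 : 1 ≤ M.KQ K := by
      unfold BModel.KQ
      have h1 : 1 ≤ M.a ^ 3 := one_le_pow₀ M.one_le_a
      have h2 : (0:ℝ) ≤ K := Nat.cast_nonneg _
      nlinarith
    nlinarith [P.one_le_s]
  have ha1 := M.a0
  obtain ⟨D1, D2, CQ, C2, hD1, hD2, hmv, hvol, hlen, hone⟩ := box_one (P := P) (R := G.RS)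
    (M.toCap_reach P M.C_growth) (M.toCap_ent P (AdS.of_bch1 M.nilC M.star_cj) hρV) hRS ⟨1, hρV⟩
    (by rw [M.one_def]; exact Metric.closedBall_mem_nhds _ one_pos) hT (slow_vts M) Cb hK hm1 hm11
    hm1le (R0 := 1) le_rfl
  refine ⟨m1 / 10, by positivity, M.a, r0 * Cb, fun η hη τ hτ e0 he0 => ?_⟩
  -- constants of one scale
  set tW : ℝ := 2 * D with htW
  have htW0 : 0 ≤ tW := by positivity
  obtain ⟨eps2, e1, kw1, tW1, heps2, he1, htW1, hone⟩ := hone (η / 2) (by positivity) 2 tW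
  -- the words of the tuples
  set a : ℝ := 1 + m1 / 10 with ha
  have ha0 : 0 < a := by positivity
  set Cg : ℝ := (2 * |Cb| + 1) * r0 with hCg
  have hCg0 : 0 ≤ Cg := by positivity
  -- the finitely many shapes
  have hfin := finite_shapes (ι := G.R) hτ (m1 / 10)
  set Sh : Finset (G.R → ℕ) := hfin.toFinset with hSh
  set sh : (G.R → ℕ) → (G.R → ℝ) := fun m e => (m e : ℝ) * τ with hsh
  have hmem : ∀ m : G.R → ℕ, m ∈ Sh ↔ ∀ e, |sh m e - 1| ≤ m1 / 10 := fun m => by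
    rw [hSh, Set.Finite.mem_toFinset]; rfl
  have hXsh : ∀ X ∈ Sh.image sh, ∀ e, |X e - 1| ≤ m1 / 10 := by
    intro X hX
    obtain ⟨m, hm, rfl⟩ := Finset.mem_image.1 hX
    exact (hmem m).1 hm
  obtain ⟨eps1, μ, heps1, hμ0, hgood⟩ := sgood_shapes P le_rfl hρV hRS hm1 hm11 hm1le Cb K
    (Sh.image sh) hXsh C2 CQ he1 kw1 htW1
  -- the legs
  set eps : ℝ := min (min eps1 eps2) (min (e0 / 2) (μ / (2 * a))) with heps
  have heps0 : 0 < eps := by
    have : 0 < μ / (2 * a) := by positivity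
    exact lt_min (lt_min heps1 heps2) (lt_min (by positivity) this)
  obtain ⟨𝓛, h𝓛⟩ := hlegs eps heps0
  obtain ⟨R₀, hR₀, hR₀b, hR₀c⟩ := exists_R0 hX 𝓛 h𝓛
  obtain ⟨Tm, δ₀, μ₀, hδ₀, hμ₀, hgood⟩ := hgood eps heps0.le
    ((min_le_left _ _).trans (min_le_left _ _)) 𝓛 R₀
  set B : Finset M.G := Finset.univ.image 𝓛.b with hB
  obtain ⟨R1, τ', hτ', hlip⟩ := exists_lipAt hS hΓ hmic B (fun b hb => by
      obtain ⟨e, -, rfl⟩ := Finset.mem_image.1 hb
      exact M.CN_le (h𝓛 e)) hR₀ (fun b hb => by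
      obtain ⟨e, -, rfl⟩ := Finset.mem_image.1 hb
      exact hR₀b e) (fun b hb => by
      obtain ⟨e, -, rfl⟩ := Finset.mem_image.1 hb
      exact hR₀c e) K Tm hμ₀ hδ₀
  obtain ⟨Na, hNa1, hNa⟩ := hgood M.a Cg R1 τ' hτ'
  obtain ⟨κ, hκ, hκ1, Nb, hNb1, hNb⟩ := hone eps heps0.le
    ((min_le_left _ _).trans (min_le_right _ _)) 𝓛
  obtain ⟨Nc, hNc1, hNc⟩ := unit_GF (M.toCap P) hK G.RS hT (slow_vts M) 2 htW0
    (δ := η / 2) (by positivity) 𝓛 hτ
  obtain ⟨Cp, hCp0, hCp⟩ := exists_p_le 𝓛 hτ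
  obtain ⟨q, hq⟩ : ∃ q : ℝ, q = a / τ := ⟨_, rfl⟩
  have hqp : 0 ≤ q := by rw [hq]; positivity
  obtain ⟨Nd, hNd⟩ := exists_nat_ge (𝓛.mX / (e0 / 2 * τ))
  obtain ⟨Ne, hNe⟩ := exists_nat_ge (q * 𝓛.mX / (μ / 2))
  obtain ⟨Nf, hNf⟩ := exists_nat_ge (q * 𝓛.rX / κ)
  refine ⟨𝓛.b, Cp, h𝓛, fun N1 => ?_⟩
  obtain ⟨N, hN, hlipN⟩ := hlip (N1 + Na + Nb + Nc + Nd + Ne + Nf)
  have hNp : (1 : ℝ) ≤ N := by
    have : 1 ≤ N := by omega
    exact_mod_cast this
  have hN0 : (0 : ℝ) < N := by linarith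
  have hmXn := 𝓛.mX_nonneg
  -- the unit legs
  obtain ⟨un, hun⟩ := exists_unit_legs G hT 𝓛 heps0.le (N := N) (τ := τ) (e0 := e0) hτ.le (by
    have h1 : eps ≤ e0 / 2 := (min_le_right _ _).trans (min_le_left _ _)
    have h2 : (Nd : ℝ) ≤ N := by
      have : Nd ≤ N := by omega
      exact_mod_cast this
    have h3 := hNd.trans h2
    rw [div_le_iff₀ (by positivity)] at h3
    have h4 : eps * (τ * N) ≤ e0 / 2 * (τ * N) := by gcongr
    linarith)
  refine ⟨N, by omega, un, fun e => 𝓛.p N τ e, fun e => by rw [hun]; rfl, fun e => hCp N e, ?_⟩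
  intro Ψ hΨ m hm y
  have hmS : m ∈ Sh := (hmem m).2 hm
  -- the tuple
  have hmτ : ∀ e, (m e : ℝ) * τ ≤ a := fun e => by
    have := (abs_le.1 (hm e)).2
    rw [ha]; linarith
  have hmq : ∀ e, (m e : ℝ) ≤ q := fun e => by
    rw [hq, le_div_iff₀ hτ]; exact hmτ e
  have hnear : NearTup M G.T G.RS M.a Cg μ N (sh m) (fun e => 𝓛.u N τ e ^ m e) := by
    refine nearTup_legs hT 𝓛 heps0.le hτ.le hmτ hmq ?_ ?_
    · have h1 : |Cb| * a ≤ 2 * |Cb| + 1 := by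
        have : a ≤ 2 := by rw [ha]; linarith
        have := abs_nonneg Cb
        nlinarith
      rw [hCg, mul_comm]
      gcongr
    have h1 : eps ≤ μ / (2 * a) := (min_le_right _ _).trans (min_le_right _ _)
    have h2 : a * eps ≤ μ / 2 := by
      calc a * eps ≤ a * (μ / (2 * a)) := by gcongr
        _ = μ / 2 := by field_simp
    have h3 : (Ne : ℝ) ≤ N := by
      have : Ne ≤ N := by omega
      exact_mod_cast this
    have h4 := hNe.trans h3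
    rw [div_le_iff₀' (by positivity)] at h4
    have h5 : a * eps * N ≤ μ / 2 * N := by gcongr
    linarith
  have hclose : ∀ e, ∃ j : ℕ, (j : ℝ) ≤ κ * N ∧
      (𝓛.u N (sh m e) e)⁻¹ * 𝓛.u N τ e ^ m e ∈ Bl (vts M) j := by
    intro e
    refine ⟨m e * 𝓛.rb e, ?_, 𝓛.u_mul_mem hτ.le e (m e)⟩
    have h1 : ((𝓛.rb e : ℕ) : ℝ) ≤ 𝓛.rX := by exact_mod_cast 𝓛.rb_le' e
    have h3 : (Nf : ℝ) ≤ N := by
      have : Nf ≤ N := by omega
      exact_mod_cast this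
    have h4 := hNf.trans h3
    rw [div_le_iff₀' hκ] at h4
    have h5 := hmq e
    push_cast
    calc (m e : ℝ) * 𝓛.rb e ≤ q * 𝓛.rX := by gcongr
      _ ≤ κ * N := h4
  obtain ⟨-, hsg⟩ := hNa N (by omega) B Tm δ₀ μ₀
    (fun e => Finset.mem_image_of_mem _ (Finset.mem_univ e)) le_rfl le_rfl le_rfl hlipN (sh m)
    (Finset.mem_image_of_mem _ hmS) _ hnear
  have hbad := hsg Ψ hΨ y D1 (box M (fun i => D2 • fam M (rayE hRS) _ i) 1) hD1
    (measurableSet_box M zero_le_one) (hvol _) (fun n hn => hlen (rayE hRS) _ N (by omega)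
      (fun e => (hnear.word e).mono (le_max_left _ _) le_rfl) n hn) (fun g' hg' => hmv _ g' hg')
  obtain ⟨σ, L, θ, hL, hTL⟩ := hNb N (by omega) (sh m) ((hmem m).1 hmS) _ hclose (M.ext Ψ)
    (M.toCap_qi P hΨ) y hbad
  refine ⟨L, ⟨σ, hL⟩, θ, ?_⟩
  simp only [one_smul] at hTL
  refine rawLaw_of_timed G 𝓛 hτ (D := D) (tW := tW) (η := η) (η' := η / 2) (δ := η / 2)
    (kw := 2) le_rfl le_rfl (by linarith)
    (by positivity) (fun n w hwl hw => ?_) (m := m) (hDOm _ fun e => ?_) hTL hun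
  · have h1 := hNc N (by omega) (M.ext Ψ) (M.toCap_qi P hΨ) y n 1 w hwl hw
    simpa using h1
  · exact (hm e).trans (by linarith)

section Final

variable {Γ : Type*} [Group Γ] {S : Finset Γ}

/-- **invariant Euclidean coordinates with the box theorem**, for every quality `K`. -/
theorem exists_geo_boxFreq (D : Polyc.RootData Γ) (hS : Subgroup.closure (S : Set Γ) = ⊤)
    (M : BModel (S : Set Γ) D.π) (hX : XModel M) :
    ∃ G : Geo M (EuclideanSpace ℝ (Fin D.k)), ∀ K : ℕ, BoxFreq G K := by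
  have : Countable Γ := Crest.Agent.R182.Core.countable_of_closure S.finite_toSet hS
  obtain ⟨T, hT⟩ := Mic.exists_T D hS M
  exact ⟨⟨T, Star.RSys.ofGen (M.gsysT T), rfl⟩, fun K => box_freq hS (Mic.root_amen D) hX _
    (hT (nrmT T) fun v => nrmT_apply T v) K⟩

end Final

end Crest.Agent.R182.HoleOne
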