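/-
R182, module BOXGRP (helper468): the inequality `mul_V` of `El.KFacts`, for moves which are shorter
than the letters of the box.  (Based on helper88's `exists_mulV`, with mixed error terms.)
-/
import Mathlib
import Crest.Agent.R182.BoxNR
import Crest.Agent.R182.BoxFacts

set_option autoImplicit false
set_option linter.unusedSectionVars false

open MeasureTheory Set
open scoped Pointwise ENNReal

namespace Crest.Agent.R182.BoxVol

open Crest.Agent.R182.Nb Crest.Agent.R182.Core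

/-- splitting of boxes of families which are sums of a pure and a small part -/
theorem exists_pk_split (c : ℕ) (σ : Type*) [Fintype σ] (A : ℝ) (hA : 1 ≤ A) :
    ∃ A' : ℝ, 1 ≤ A' ∧ ∀ {L : Type*} [LieRing L] [LieAlgebra ℝ L] (g f : σ → L) (w : σ → Prop)
      [DecidablePred w], NilC c L → ∀ e, 0 ≤ e → e ≤ 1 →
      (∀ i, ∃ p ∈ Bx c (rst g w) A, ∃ k ∈ Bx c g (A * e), f i = p + k) → ∀ s, 0 ≤ s →
      ∀ x ∈ Bx c f s, ∃ p ∈ Bx c (rst g w) (A' * s), ∃ k ∈ Bx c g (A' * (e * s)), x = p + k := by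
  classical
  obtain ⟨A₁, hA₁, h₁⟩ := exists_Bx_comp c (σ ⊕ σ) σ (1 + A) (by linarith)
  obtain ⟨A₂, hA₂, h₂⟩ := exists_Bx_split c σ (σ ⊕ σ) A hA
  obtain ⟨A₃, hA₃, h₃⟩ := exists_Bx_comp c σ (σ ⊕ σ) A hA
  refine ⟨A₃ * A₁ + A₂ * A₁, by nlinarith, ?_⟩
  intro L _ _ g f w _ hN e he he1 hf s hs x hx
  choose p hp k hk hpk using hf
  have hA0 : 0 < A := by linarith
  set G : σ ⊕ σ → L := Sum.elim p fun i => A⁻¹ • k i with hG
  have hfG : ∀ i, f i ∈ Bx c G (1 + A) := by
    intro i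
    rw [hpk i]
    have h1 : p i ∈ Bx c G 1 := by
      have := gen_mem_Bx (hN.nil G) (Sum.inl i)
      exact this
    have h2 : k i ∈ Bx c G A := by
      have := Bx_smul (gen_mem_Bx (hN.nil G) (Sum.inr i)) A
      have e1 : A • G (Sum.inr i) = k i := by
        change A • A⁻¹ • k i = k i
        rw [smul_smul, mul_inv_cancel₀ hA0.ne', one_smul]
      rw [e1, abs_of_pos hA0, mul_one] at this
      exact this
    exact Bx_add h1 h2
  have hx1 : x ∈ Bx c G (A₁ * s) := h₁ G f (hN.nil G) hfG s hs hx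
  obtain ⟨u, hu, y, hy, rfl⟩ := h₂ g G (fun j => j.isLeft = true) (hN.nil g) e he he1
    (by
      intro j hj
      cases j with
      | inl i => exact Bx_rst_le (by linarith) (hp i)
      | inr i => simp at hj)
    (by
      intro j hj
      cases j with
      | inl i => simp at hj
      | inr i =>
        have := Bx_smul (hk i) A⁻¹
        rw [abs_of_pos (inv_pos.2 hA0), ← mul_assoc, inv_mul_cancel₀ hA0.ne', one_mul] at this
        exact this) (A₁ * s) (by positivity) x hx1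
  refine ⟨u, ?_, y, ?_, rfl⟩
  · have h4 := h₃ (rst g w) (rst G fun j => j.isLeft = true) (hN.nil _) (by
      intro j
      cases j with
      | inl i =>
        have : rst G (fun j => j.isLeft = true) (Sum.inl i) = p i := by simp [rst, hG]
        rw [this]; exact hp i
      | inr i =>
        have : rst G (fun j => j.isLeft = true) (Sum.inr i) = 0 := by simp [rst]
        rw [this]; exact Bx_zero_mem (by linarith)) (A₁ * s) (by positivity) hu
    refine Bx_mono ?_ h4
    have : 0 ≤ A₂ * A₁ * s := by positivity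
    nlinarith
  · refine Bx_mono ?_ hy
    have : 0 ≤ A₃ * A₁ * (e * s) := by positivity
    nlinarith

variable {Γ : Type*} [Group Γ] {k : ℕ} {S : Set Γ} {π : Γ →* Multiplicative (Fin k → ℤ)}

/-- **`mul_V`**: the sup of the `lamV`-measures of cosets times the volume of the product. -/
theorem exists_mulV' (M : BModel S π) (w : GI M → Prop) [DecidablePred w] (R : RayQ M w) (A : ℝ)
    (hA : 1 ≤ A) :
    ∃ A₁ : ℝ, 1 ≤ A₁ ∧ ∀ B : ℝ, 1 ≤ B → ∃ C : ℝ, 0 < C ∧
      ∀ (g : GI M → M.L) (T : M.L →ₗ[ℝ] M.L), IsLie T → R.D.Pres T → R.D.qdet T ≠ 0 →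
        (∀ i, ¬ w i → R.D.P (g i) = 0) → ∀ e : ℝ, 0 < e → e ≤ 1 →
        (∀ i, w i → ∃ p ∈ Bx M.c (rst g w) A, ∃ k ∈ Bx M.c g (A * e), T (eg M i) = p + k) →
        (∀ x, R.D.P x = 0 → x ∈ Bx M.c (rst g w) A₁ → x ∈ Bx M.c g (B * e)) →
        ∃ m : ℝ≥0∞, (∀ ρ, 0 ≤ ρ → ρ ≤ A → ∀ y : M.NN,
            lamV R.D ρ T {v | y * v⁻¹ ∈ M.NB g (A * e)} ≤ m) ∧
          m * volume (M.NB g (A * e) * M.NB (rst (fun i => T (eg M i)) w) A) ≤
            ENNReal.ofReal C * volume (M.NB g e) := by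
  obtain ⟨A₃, hA₃, h₃⟩ := exists_pk_split M.c (GI M) A hA
  -- constants for the group law
  set T₁ : ℝ := A₃ * A + A with hT₁
  have hT₁1 : 1 ≤ T₁ := by nlinarith
  obtain ⟨A₂, H₂⟩ := M.star.exists_famConst M.c (GI M) T₁ hT₁1
  have hA₂ := H₂.one_le
  set a : ℝ := A₂ * T₁ with ha
  have ha1 : 1 ≤ a := by nlinarith
  have ha0 : 0 < a := by linarith
  set A₁ : ℝ := 2 * (A₃ * a) + a with hA₁
  refine ⟨A₁, by nlinarith, fun B hB => ?_⟩
  set T₂ : ℝ := A + (a + 2 * (A₃ * a) + B) with hT₂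
  have hA₃a : 0 ≤ A₃ * a := by positivity
  obtain ⟨A₅, H₅⟩ := M.star.exists_famConst M.c (GI M) T₂ (by linarith)
  have hA₅ := H₅.one_le
  set V₀ : ℝ := (vQ R.D w (eg M) a).toReal + 1 with hV₀
  have hV₀0 : 0 < V₀ := by positivity
  refine ⟨a ^ R.n * (V₀ * (A₅ * T₂) ^ M.r), by positivity, ?_⟩
  intro g T hT hP hdet hv e he he1 h1 h2
  have hNg : Nil M.c g := M.nilC.nil g
  set G : GI M → M.L := rst g w with hG
  have hNG : Nil M.c G := M.nilC.nil G
  set f : GI M → M.L := rst (fun i => T (eg M i)) w with hf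
  have hNf : Nil M.c f := M.nilC.nil f
  have hfG : ∀ i, ∃ p ∈ Bx M.c G A, ∃ k ∈ Bx M.c g (A * e), f i = p + k := by
    intro i
    rw [hf]; unfold Nb.rst
    split_ifs with hi
    · exact h1 i hi
    · exact ⟨0, Bx_zero_mem (by linarith), 0, Bx_zero_mem (by positivity), (add_zero _).symm⟩
  have hfw : ∀ i, w i → f i = T (eg M i) := fun i hi => if_pos hi
  have hfv : ∀ i, ¬ w i → R.D.P (f i) = 0 := fun i hi => by
    have : f i = 0 := if_neg hi
    rw [this, map_zero]
  have hdet0 : 0 < R.D.qdet T := lt_of_le_of_ne (abs_nonneg _) (Ne.symm hdet)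
  set Ps : Set R.D.QN := (prN R.D '' M.NB g e) ∩ (prN R.D '' M.NB f 1) with hPs
  set Pb : Set R.D.QN := (prN R.D '' M.NB g (a * e)) ∩ (prN R.D '' M.NB f (a * 1)) with hPb
  have hPbs : (volume : Measure R.D.QN) Pb ≤
      ENNReal.ofReal (a ^ R.n) * (volume : Measure R.D.QN) Ps := by
    have hsub : (Pb : Set (Fin R.n → ℝ)) ⊆ a • (Ps : Set (Fin R.n → ℝ)) := by
      intro q hq
      rw [Set.mem_smul_set]
      refine ⟨(a⁻¹ • q : Fin R.n → ℝ), ⟨prN_image_smul R.D ha0 hq.1, prN_image_smul R.D ha0 hq.2⟩, ?_⟩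
      rw [smul_smul, mul_inv_cancel₀ ha0.ne', one_smul]
    exact volume_le_of_subset_smul ha0 hsub
  have hPsm : MeasurableSet Ps :=
    (((BModel.isCompact_NB M g e).image (continuous_prN R.D)).inter
      ((BModel.isCompact_NB M f 1).image (continuous_prN R.D))).measurableSet
  refine ⟨ENNReal.ofReal (R.D.qdet T)⁻¹ * (volume : Measure R.D.QN) Pb, ?_, ?_⟩
  · -- cosets
    intro ρ hρ hρA y
    have hm : MeasurableSet {v : M.NN | y * v⁻¹ ∈ M.NB g (A * e)} := by
      have : Continuous fun v : M.NN => y * v⁻¹ := by fun_prop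
      exact this.measurable (BModel.measurableSet_NB M g _)
    unfold lamV
    rw [Measure.map_apply (continuous_move R.D T).measurable hm,
      Measure.restrict_apply' (MeasurableSet.univ_pi fun _ => measurableSet_Icc)]
    set Z : Set (Fin R.n → ℝ) := (fun q : Fin R.n → ℝ => M.E.symm (T (R.D.s q))) ⁻¹'
      {v | y * v⁻¹ ∈ M.NB g (A * e)} ∩ Set.pi univ fun _ => Icc (-ρ) ρ with hZ
    by_cases hZe : Z = ∅
    · rw [hZe, measure_empty]; exact zero_le
    obtain ⟨q₀, hq₀1, hq₀2⟩ := Set.nonempty_iff_ne_empty.2 hZe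
    have hmv : ∀ q : Fin R.n → ℝ, q ∈ (Set.pi univ fun _ => Icc (-ρ) ρ : Set (Fin R.n → ℝ)) →
        M.E.symm (T (R.D.s q)) ∈ M.NB f A := by
      intro q hq
      refine BModel.NB_mono hρA (R.mvs_subset hT hρ ?_)
      exact ⟨q, fun j => abs_le.2 (hq j (mem_univ j)), LinearEquiv.apply_symm_apply _ _⟩
    set u₀ : M.NN := M.E.symm (T (R.D.s q₀)) with hu₀
    have hsub : Z ⊆ R.D.down T ⁻¹' (Pb * {prN R.D u₀} : Set R.D.QN) := by
      rintro q ⟨hq1, hq2⟩
      set u : M.NN := M.E.symm (T (R.D.s q)) with hu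
      have e1 : u * u₀⁻¹ ∈ M.NB g (a * e) := by
        have e2 : u * u₀⁻¹ = (y * u⁻¹)⁻¹ * (y * u₀⁻¹) := by group
        rw [e2, BModel.mem_NB, BModel.E_mul]
        have hAT : A ≤ T₁ := by nlinarith
        have h4 := H₂.op_mem g hNg (A * e) (A * e) (by positivity) (by nlinarith) (by positivity)
          (by nlinarith) _ (BModel.NB_inv hq1) _ hq₀1
        rw [max_self] at h4
        refine Bx_mono ?_ h4
        rw [ha, ← mul_assoc]
        gcongr
      have e3 : u * u₀⁻¹ ∈ M.NB f (a * 1) := by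
        rw [BModel.mem_NB, BModel.E_mul]
        have hAT : A ≤ T₁ := by nlinarith
        have h4 := H₂.op_mem f hNf A A (by positivity) hAT (by positivity) hAT _ (hmv q hq2) _
          (BModel.NB_inv (hmv q₀ hq₀2))
        rw [max_self] at h4
        refine Bx_mono ?_ h4
        rw [ha, mul_one]
        gcongr
      refine ⟨prN R.D (u * u₀⁻¹), ⟨mem_image_of_mem _ e1, mem_image_of_mem _ e3⟩, _, rfl, ?_⟩
      change prN R.D (u * u₀⁻¹) * prN R.D u₀ = R.D.down T q
      rw [← map_mul, inv_mul_cancel_right]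
      exact prN_move R.D q
    refine (measure_mono hsub).trans ?_
    have hdet' : LinearMap.det (R.D.down T) ≠ 0 := by
      intro h
      apply hdet
      unfold QData.qdet
      rw [h, abs_zero]
    have h4 := Measure.addHaar_preimage_linearMap (volume : Measure (Fin R.n → ℝ)) hdet'
      (Pb * {prN R.D u₀} : Set R.D.QN)
    rw [h4, abs_inv]
    have h5 : (volume : Measure (Fin R.n → ℝ)) (Pb * {prN R.D u₀} : Set R.D.QN) =
        (volume : Measure R.D.QN) Pb :=
      measure_mul_singleton (volume : Measure R.D.QN) Pb (prN R.D u₀)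
    rw [h5]
    exact le_rfl
  · -- the product
    set U : Set M.NN := M.NB f A with hU
    set N₂ : Set M.NN := M.NB g ((a + 2 * (A₃ * a) + B) * e) with hN₂
    have hPU : Ps * prN R.D '' U ⊆ prN R.D '' M.NB f a := by
      rintro _ ⟨_, ⟨_, n, hn, rfl⟩, _, ⟨u, hu, rfl⟩, rfl⟩
      refine ⟨n * u, ?_, map_mul _ _ _⟩
      rw [BModel.mem_NB, BModel.E_mul]
      have hAT : A ≤ T₁ := by nlinarith
      have h4 := H₂.op_mem f hNf 1 A zero_le_one hT₁1 (by positivity) hAT _ hn _ hu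
      refine Bx_mono ?_ h4
      rw [ha, max_eq_right hA]
      gcongr
    have hPUv : (volume : Measure R.D.QN) (Ps * prN R.D '' U) ≤
        ENNReal.ofReal (R.D.qdet T) * ENNReal.ofReal V₀ := by
      refine (measure_mono hPU).trans ?_
      rw [volume_prN_NB R.D hT hP hfw hfv ha0.le]
      gcongr
      rw [← ENNReal.ofReal_toReal (R.vQ_lt_top a).ne]
      exact ENNReal.ofReal_le_ofReal (by rw [hV₀]; linarith)
    have hmain : volume (M.NB g (A * e) * U) * (volume : Measure R.D.QN) Ps ≤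
        (ENNReal.ofReal (R.D.qdet T) * ENNReal.ofReal V₀) *
          (ENNReal.ofReal ((A₅ * T₂) ^ M.r) * volume (M.NB g e)) := by
      by_cases hP0 : (volume : Measure R.D.QN) Ps = 0
      · rw [hP0, mul_zero]; exact zero_le
      have hfin : (volume : Measure R.D.QN) (Ps * prN R.D '' U) ≠ ∞ :=
        (hPUv.trans_lt (ENNReal.mul_lt_top ENNReal.ofReal_lt_top ENNReal.ofReal_lt_top)).ne
      have key := measure_mul_upper (volume : Measure M.NN) (volume : Measure R.D.QN) (prN R.D)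
        (N := M.NB g (A * e)) (U := U) (N₂ := N₂) hPsm hP0 hfin ?_
      · refine key.trans ?_
        have hNN : M.NB g (A * e) * N₂ ⊆ M.NB g ((A₅ * T₂) * e) := by
          rintro _ ⟨n, hn, n', hn', rfl⟩
          rw [BModel.mem_NB, BModel.E_mul]
          have h4 := H₅.op_mem g hNg (A * e) ((a + 2 * (A₃ * a) + B) * e) (by positivity)
            (by nlinarith) (by positivity) (by nlinarith) _ hn _ hn'
          refine Bx_mono ?_ h4
          have h5 : max (A * e) ((a + 2 * (A₃ * a) + B) * e) ≤ T₂ * e := max_le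
            (by gcongr; linarith) (by gcongr; linarith)
          calc A₅ * max (A * e) ((a + 2 * (A₃ * a) + B) * e) ≤ A₅ * (T₂ * e) := by gcongr
            _ = (A₅ * T₂) * e := by ring
        calc (volume : Measure R.D.QN) (Ps * prN R.D '' U) * volume (M.NB g (A * e) * N₂)
            ≤ (ENNReal.ofReal (R.D.qdet T) * ENNReal.ofReal V₀) *
              volume (M.NB g ((A₅ * T₂) * e)) := by gcongr
          _ = _ := by rw [BModel.volume_NB_smul (by positivity)]
      · intro u hu u' hu' x hx y hy hxy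
        obtain ⟨⟨n, hn, rfl⟩, -⟩ := hx
        obtain ⟨⟨n', hn', rfl⟩, -⟩ := hy
        rw [← map_inv, ← map_mul] at hxy
        have h3 : M.E (n⁻¹ * n') ∈ Bx M.c g (a * e) := by
          rw [BModel.E_mul]
          have h4 := H₂.op_mem g hNg e e he.le (by linarith) he.le (by linarith) _
            (BModel.NB_inv hn) _ hn'
          rw [max_self] at h4
          refine Bx_mono ?_ h4
          rw [ha]
          have : A₂ ≤ A₂ * T₁ := le_mul_of_one_le_right (by linarith) hT₁1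
          gcongr
        have h4 : R.D.P (M.E (n⁻¹ * n')) ∈ R.D.P '' Bx M.c G (a * e) := by
          rw [← P_image_Bx R.D hv (by positivity)]
          exact mem_image_of_mem _ h3
        obtain ⟨z, hz, hz'⟩ := h4
        have h5 : M.E (u * u'⁻¹) ∈ Bx M.c f a := by
          rw [BModel.E_mul]
          have hAT : A ≤ T₁ := by nlinarith
          have h6 := H₂.op_mem f hNf A A (by linarith) hAT (by linarith) hAT _ hu _
            (BModel.NB_inv hu')
          rw [max_self] at h6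
          refine Bx_mono ?_ h6
          rw [ha]; gcongr
        obtain ⟨p, hp, q, hq, hpq⟩ := h₃ g f w M.nilC e he.le he1 hfG a ha0.le _ h5
        have h6 : R.D.P q ∈ R.D.P '' Bx M.c G (A₃ * (e * a)) := by
          rw [← P_image_Bx R.D hv (by positivity)]
          exact mem_image_of_mem _ hq
        obtain ⟨z₂, hz₂, hz₂'⟩ := h6
        have h7 : R.D.P (p + z₂ - z) = 0 := by
          have e1 : R.D.P (M.E (u * u'⁻¹)) = R.D.P p + R.D.P q := by rw [hpq, map_add]
          have e2 : R.D.P (M.E (n⁻¹ * n')) = R.D.P (M.E (u * u'⁻¹)) := hxy.symm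
          rw [map_sub, map_add, hz₂', hz', e2, e1, sub_self]
        have h8 : p + z₂ - z ∈ Bx M.c G A₁ := by
          rw [sub_eq_add_neg]
          refine Bx_mono ?_ (Bx_add (Bx_add hp hz₂) (Bx_neg hz))
          rw [hA₁]
          have e1 : a * e ≤ a := by nlinarith
          have e2 : A₃ * (e * a) ≤ A₃ * a := by
            have : e * a ≤ a := by nlinarith
            gcongr
          linarith
        have h9 := h2 _ h7 h8
        rw [hN₂, BModel.mem_NB]
        have h10 : M.E (u * u'⁻¹) = (p + z₂ - z) + z + -z₂ + q := by rw [hpq]; abel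
        rw [h10]
        refine Bx_mono ?_ (Bx_add (Bx_add (Bx_add h9 (Bx_rst_subset g (a * e) (by positivity) hz))
          (Bx_neg (Bx_rst_subset g _ (by positivity) hz₂))) hq)
        nlinarith
    calc ENNReal.ofReal (R.D.qdet T)⁻¹ * (volume : Measure R.D.QN) Pb * volume (M.NB g (A * e) * U)
        ≤ ENNReal.ofReal (R.D.qdet T)⁻¹ * (ENNReal.ofReal (a ^ R.n) *
          (volume : Measure R.D.QN) Ps) * volume (M.NB g (A * e) * U) := by gcongr
      _ = ENNReal.ofReal (R.D.qdet T)⁻¹ * ENNReal.ofReal (a ^ R.n) *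
          (volume (M.NB g (A * e) * U) * (volume : Measure R.D.QN) Ps) := by ring
      _ ≤ ENNReal.ofReal (R.D.qdet T)⁻¹ * ENNReal.ofReal (a ^ R.n) *
          ((ENNReal.ofReal (R.D.qdet T) * ENNReal.ofReal V₀) *
          (ENNReal.ofReal ((A₅ * T₂) ^ M.r) * volume (M.NB g e))) := by gcongr
      _ = ENNReal.ofReal (a ^ R.n * (V₀ * (A₅ * T₂) ^ M.r)) * volume (M.NB g e) := by
          rw [ENNReal.ofReal_mul (by positivity), ENNReal.ofReal_mul (by positivity)]
          have : ENNReal.ofReal (R.D.qdet T)⁻¹ * ENNReal.ofReal (R.D.qdet T) = 1 := by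
            rw [← ENNReal.ofReal_mul (by positivity), inv_mul_cancel₀ hdet, ENNReal.ofReal_one]
          calc _ = (ENNReal.ofReal (R.D.qdet T)⁻¹ * ENNReal.ofReal (R.D.qdet T)) *
                (ENNReal.ofReal (a ^ R.n) * (ENNReal.ofReal V₀ * ENNReal.ofReal ((A₅ * T₂) ^ M.r)) *
                volume (M.NB g e)) := by ring
            _ = _ := by rw [this, one_mul]

section mix

variable {M : BModel S π} {w : GI M → Prop} [DecidablePred w]

/-- vectors of a weight are combinations of monomials of this weight -/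
theorem mem_span_mon_wt (ν : (Fin k → ℝ) →ₗ[ℝ] ℝ) {x : M.L} (hx : ∀ i, M.bas.repr x i ≠ 0 → M.wt i = ν) :
    x ∈ Submodule.span ℝ (Set.range fun κ : {κ : KL (GI M) M.c //
      ((κ : List (GI M)).map (wg M)).sum = ν} => mon (eg M) (κ : List (GI M))) := by
  rw [← M.bas.sum_repr x]
  refine Submodule.sum_mem _ fun i _ => ?_
  by_cases h0 : M.bas.repr x i = 0
  · rw [h0, zero_smul]; exact Submodule.zero_mem _
  · refine Submodule.smul_mem _ _ ?_
    have h1 := M.monSpan i
    have h2 := hx i h0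
    refine (Submodule.span_le.2 ?_) h1
    rintro _ ⟨κ, hκ, rfl⟩
    by_cases h3 : κ.length ≤ M.c
    · exact Submodule.subset_span ⟨⟨⟨κ, mem_KL.2 h3⟩, hκ.trans h2⟩, rfl⟩
    · have : mon (eg M) κ = 0 := M.nilC.nil _ κ (by omega)
      change mon (eg M) κ ∈ _
      rw [this]; exact Submodule.zero_mem _

/-- **mixed vectors of a weight of the ray are small** -/
theorem exists_mix_small (M : BModel S π) (w : GI M → Prop) [DecidablePred w] :
    ∃ C : ℝ, 1 ≤ C ∧ ∀ (fam : GI M → M.L) (Y : GI M → ℝ) (Λ : ℝ), 1 ≤ Λ →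
      (∀ i, Real.exp (Y i) • eg M i ∈ Bx M.c fam Λ) →
      ∀ (B : ℝ) (v : Fin k → ℝ) (μ : ℝ), 0 < B → NearRound M w Y v (Real.log (C * Λ ^ M.c * B) + μ) →
      ∀ i₀ : GI M, w i₀ → 1 ≤ M.c → ∀ x ∈ Mw M w, (∀ i, M.bas.repr x i ≠ 0 → M.wt i = wg M i₀) →
      (∀ i, |M.bas.repr x i| ≤ B * Real.exp (wg M i₀ v)) → x ∈ Bx M.c fam (Real.exp (-μ)) := by
  classical
  let I := fun ν : (Fin k → ℝ) →ₗ[ℝ] ℝ => {κ : KL (GI M) M.c //
      (¬ ∀ i ∈ (κ : List (GI M)), w i) ∧ ((κ : List (GI M)).map (wg M)).sum = ν}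
  have hex : ∀ ν, ∃ a : M.L →ₗ[ℝ] (I ν → ℝ), ∀ y ∈ Submodule.span ℝ (Set.range fun κ : I ν =>
      mon (eg M) (κ : List (GI M))), ∑ i, a y i • mon (eg M) (i : List (GI M)) = y := fun ν =>
    exists_coeff _
  choose a ha using hex
  set Q : ℝ := ∑ i₀ : GI M, ∑ κ : I (wg M i₀), ∑ i, |a (wg M i₀) (M.bas i) κ| with hQ
  have hQ0 : 0 ≤ Q := by positivity
  have hbr := brC_pos (GI M) M.c
  set b := brC (GI M) M.c ^ M.c with hb
  have hb0 : 0 ≤ b := by positivity
  refine ⟨Q * b + 1, by nlinarith [mul_nonneg hQ0 hb0], ?_⟩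
  intro fam Y Λ hΛ hfam B v μ hB hNR i₀ hi₀ hc x hxM hwt hsize
  set C : ℝ := Q * b + 1 with hC
  have hC0 : 0 < C := by nlinarith [mul_nonneg hQ0 hb0]
  have hNil : Nil M.c fam := M.nilC.nil fam
  set ν := wg M i₀ with hν
  have hwprx : M.wpr ν x = x := by
    rw [M.wpr_apply]
    conv_rhs => rw [← M.bas.sum_repr x]
    refine Finset.sum_congr rfl fun i _ => ?_
    by_cases h0 : M.bas.repr x i = 0
    · rw [h0, zero_smul, zero_smul]
    · rw [if_pos (hwt i h0)]
  have hy := ha ν _ (wpr_mem_Mw (w := w) ν hxM)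
  rw [hwprx] at hy
  have hq : ∑ κ : I ν, ∑ i, |a ν (M.bas i) κ| ≤ Q := by
    rw [hQ, hν]
    exact Finset.single_le_sum (f := fun i₀ : GI M => ∑ κ : I (wg M i₀),
      ∑ i, |a (wg M i₀) (M.bas i) κ|) (fun i _ => Finset.sum_nonneg fun _ _ =>
        Finset.sum_nonneg fun _ _ => abs_nonneg _) (Finset.mem_univ i₀)
  have key : x ∈ Bx M.c fam ((∑ κ : I ν, ∑ i, |a ν (M.bas i) κ|) * (b / C * Real.exp (-μ))) := by
    rw [← hy, Finset.sum_mul]
    refine Bx_sum _ _ _ fun κ _ => ?_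
    obtain ⟨⟨κ, hκK⟩, hκw, hκν⟩ := κ
    rw [mem_KL] at hκK
    have h1 : |a ν x ⟨⟨κ, mem_KL.2 hκK⟩, hκw, hκν⟩| ≤
        (∑ i, |a ν (M.bas i) ⟨⟨κ, mem_KL.2 hκK⟩, hκw, hκν⟩|) *
          (B * Real.exp (ν v)) := abs_apply_le (a ν) _ hsize _
    have h2 : mon (eg M) κ = Real.exp (-(κ.map Y).sum) • mon (gZ (eg M) Y) κ := by
      rw [mon_gZ, smul_smul, ← Real.exp_add, neg_add_cancel, Real.exp_zero, one_smul]
    have h3 : mon (gZ (eg M) Y) κ ∈ Bx M.c fam (b * Λ ^ M.c) := by
      refine Bx_mono ?_ (mon_comp_mem hNil (v := gZ (eg M) Y) (t := fun _ => Λ)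
        (fun _ => by linarith) hfam κ)
      rw [List.map_const', List.prod_replicate]
      exact mul_le_mul (pow_le_pow_right₀ hbr hκK) (pow_le_pow_right₀ hΛ hκK) (by positivity) hb0
    have h4 := hNR [i₀] κ (by simp) (by simpa using hi₀) (by simpa using hc) hκK hκw
      (by simpa using hκν.symm)
    have h4' : ν v + (Real.log (C * Λ ^ M.c * B) + μ) ≤ (κ.map Y).sum := by simpa using h4
    have hCL : 0 < C * Λ ^ M.c * B := by positivity
    have h5 : Real.exp (ν v) * (C * Λ ^ M.c * B) * Real.exp μ ≤ Real.exp ((κ.map Y).sum) := by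
      rw [← Real.exp_log hCL, ← Real.exp_add, ← Real.exp_add]
      exact Real.exp_le_exp.2 (by linarith)
    change a ν x ⟨⟨κ, mem_KL.2 hκK⟩, hκw, hκν⟩ • mon (eg M) κ ∈ _
    rw [h2]
    refine Bx_mono ?_ (Bx_smul (Bx_smul h3 _) _)
    rw [abs_of_pos (Real.exp_pos _)]
    set q := ∑ i, |a ν (M.bas i) ⟨⟨κ, mem_KL.2 hκK⟩, hκw, hκν⟩| with hq
    have hq0 : 0 ≤ q := by positivity
    calc |a ν x ⟨⟨κ, mem_KL.2 hκK⟩, hκw, hκν⟩| *
          (Real.exp (-(κ.map Y).sum) * (b * Λ ^ M.c))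
        ≤ (q * (B * Real.exp (ν v))) *
          (Real.exp (-(κ.map Y).sum) * (b * Λ ^ M.c)) := by gcongr
      _ = q * (b / C) * (Real.exp (ν v) * (C * Λ ^ M.c * B) * Real.exp (-(κ.map Y).sum)) := by
          field_simp
      _ ≤ q * (b / C) * Real.exp (-μ) := by
          refine mul_le_mul_of_nonneg_left ?_ (by positivity)
          have h6 : Real.exp (ν v) * (C * Λ ^ M.c * B) ≤
              Real.exp ((κ.map Y).sum) * Real.exp (-μ) := by
            have := mul_le_mul_of_nonneg_right h5 (Real.exp_pos (-μ)).le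
            rwa [mul_assoc, ← Real.exp_add, add_neg_cancel, Real.exp_zero, mul_one] at this
          calc _ ≤ Real.exp ((κ.map Y).sum) * Real.exp (-μ) * Real.exp (-(κ.map Y).sum) := by
                gcongr
            _ = Real.exp (-μ) := by
                rw [mul_right_comm, ← Real.exp_add, add_neg_cancel, Real.exp_zero, one_mul]
      _ = q * (b / C * Real.exp (-μ)) := by ring
  refine Bx_mono ?_ key
  calc (∑ κ : I ν, ∑ i, |a ν (M.bas i) κ|) * (b / C * Real.exp (-μ))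
      ≤ Q * (b / C * Real.exp (-μ)) := by gcongr
    _ = (Q * b / C) * Real.exp (-μ) := by ring
    _ ≤ 1 * Real.exp (-μ) := by
        gcongr
        rw [div_le_one hC0, hC]
        linarith
    _ = _ := one_mul _

/-- **pure and mixed part** of a letter which is moved by a contracting vertical. -/
theorem exists_pure_mixed (M : BModel S π) (w : GI M → Prop) [DecidablePred w] :
    ∃ C : ℝ, 1 ≤ C ∧ ∀ (fam : GI M → M.L) (Y : GI M → ℝ) (Λ : ℝ), 1 ≤ Λ →
      (∀ i, Real.exp (Y i) • eg M i ∈ Bx M.c fam Λ) →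
      ∀ (T : M.L →ₗ[ℝ] M.L) (Λ' : ℝ) (v : Fin k → ℝ), IsLie T → (∀ x ∈ Mw M w, T x ∈ Mw M w) →
      1 ≤ Λ' → Grow M T Λ' v → ∀ T₁ : M.L →ₗ[ℝ] M.L, ∀ μ : ℝ,
      NearRound M w Y v (Real.log (C * Λ ^ M.c * Λ') + μ) → ∀ i, w i →
      (∀ j, |M.bas.repr (T₁ (eg M i)) j| ≤ 1 ∧
        (M.bas.repr (T₁ (eg M i)) j ≠ 0 → M.wt j = wg M i)) →
      ∃ p ∈ Bx M.c (rst (fun i => T (eg M i)) w) C, ∃ x ∈ Bx M.c fam (Real.exp (-μ)),
        T (T₁ (eg M i)) = p + x := by
  classical
  obtain ⟨C₁, hC₁, h₁⟩ := exists_mix_small M w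
  let I := fun ν : (Fin k → ℝ) →ₗ[ℝ] ℝ => {κ : KL (GI M) M.c //
      ((κ : List (GI M)).map (wg M)).sum = ν}
  have hex : ∀ ν, ∃ a : M.L →ₗ[ℝ] (I ν → ℝ), ∀ y ∈ Submodule.span ℝ (Set.range fun κ : I ν =>
      mon (eg M) (κ : List (GI M))), ∑ i, a y i • mon (eg M) (i : List (GI M)) = y := fun ν =>
    exists_coeff _
  choose a ha using hex
  set Q : ℝ := ∑ i₀ : GI M, ∑ κ : I (wg M i₀), ∑ i, |a (wg M i₀) (M.bas i) κ| with hQ
  have hQ0 : 0 ≤ Q := by positivity
  set B : ℝ := ∑ κ ∈ KL (GI M) M.c, ∑ j, |M.bas.repr (mon (eg M) κ) j| with hB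
  have hB0 : 0 ≤ B := by positivity
  refine ⟨Q + C₁ * (Q * B + 1), by nlinarith [mul_nonneg hQ0 hB0], ?_⟩
  intro fam Y Λ hΛ hfam T Λ' v hT hTM hΛ' hG T₁ μ hNR i₀ hi₀ hT₁
  set C : ℝ := Q + C₁ * (Q * B + 1) with hC
  by_cases hc : 1 ≤ M.c
  swap
  · have h0 : eg M i₀ = 0 := by
      have := M.nilC.nil (eg M) [i₀] (by simp; omega)
      simpa using this
    refine ⟨0, Bx_zero_mem (by nlinarith [mul_nonneg hQ0 hB0]), 0, Bx_zero_mem (Real.exp_pos _).le, ?_⟩
    rw [h0, map_zero, map_zero, add_zero]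
  set ν := wg M i₀ with hν
  set y := T₁ (eg M i₀) with hy
  have hys := ha ν y (mem_span_mon_wt ν fun i hi => (hT₁ i).2 hi)
  have hq : ∑ κ : I ν, ∑ i, |a ν (M.bas i) κ| ≤ Q := by
    rw [hQ, hν]
    exact Finset.single_le_sum (f := fun i₀ : GI M => ∑ κ : I (wg M i₀),
      ∑ i, |a (wg M i₀) (M.bas i) κ|) (fun i _ => Finset.sum_nonneg fun _ _ =>
        Finset.sum_nonneg fun _ _ => abs_nonneg _) (Finset.mem_univ i₀)
  have haκ : ∀ κ, |a ν y κ| ≤ ∑ i, |a ν (M.bas i) κ| := fun κ => by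
    have := abs_apply_le (a ν) y (B := 1) (fun i => (hT₁ i).1) κ
    rwa [mul_one] at this
  set p : M.L := ∑ κ : I ν, (if ∀ i ∈ (κ : List (GI M)), w i then a ν y κ else 0) •
    T (mon (eg M) (κ : List (GI M))) with hp
  set x : M.L := ∑ κ : I ν, (if ∀ i ∈ (κ : List (GI M)), w i then 0 else a ν y κ) •
    T (mon (eg M) (κ : List (GI M))) with hx
  have hsum : T y = p + x := by
    conv_lhs => rw [← hys]
    rw [map_sum, hp, hx, ← Finset.sum_add_distrib]
    refine Finset.sum_congr rfl fun κ _ => ?_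
    rw [map_smul]
    split_ifs
    · rw [zero_smul, add_zero]
    · rw [zero_smul, zero_add]
  refine ⟨p, ?_, x, ?_, hsum⟩
  · -- the pure part
    have h1 : p ∈ Bx M.c (rst (fun i => T (eg M i)) w) (∑ κ : I ν, ∑ i, |a ν (M.bas i) κ|) := by
      refine Bx_sum _ _ _ fun κ _ => ?_
      split_ifs with hκ
      · have h2 := Bx_smul (mon_mem_Bx (M.nilC.nil (rst (fun i => T (eg M i)) w))
          (κ : List (GI M))) (a ν y κ)
        rw [mon_rst_of w hκ, hT.mon] at h2
        refine Bx_mono ?_ h2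
        rw [mul_one]; exact haκ κ
      · rw [zero_smul]
        exact Bx_zero_mem (by positivity)
    refine Bx_mono ?_ h1
    nlinarith [mul_nonneg hQ0 hB0]
  · -- the mixed part
    have hxM : x ∈ Mw M w := by
      refine Submodule.sum_mem _ fun κ _ => ?_
      split_ifs with hκ
      · rw [zero_smul]; exact Submodule.zero_mem _
      · exact Submodule.smul_mem _ _ (hTM _ (Submodule.subset_span ⟨_, hκ, rfl⟩))
    have hterm : ∀ κ : I ν, ∀ i, |M.bas.repr (T (mon (eg M) (κ : List (GI M)))) i| ≤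
        (∑ j, |M.bas.repr (mon (eg M) (κ : List (GI M))) j|) * (Λ' * Real.exp (ν v)) := by
      intro κ i
      exact hG.le (by linarith) ν _ (fun j hj => (repr_mon_wt _ j hj).trans κ.2) i
    have hwt : ∀ i, M.bas.repr x i ≠ 0 → M.wt i = ν := by
      intro i hi
      rw [hx, map_sum, Finsupp.finsetSum_apply] at hi
      obtain ⟨κ, _, hκ⟩ := Finset.exists_ne_zero_of_sum_ne_zero hi
      rw [map_smul, Finsupp.smul_apply, smul_eq_mul] at hκ
      have hκ' := right_ne_zero_of_mul hκ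
      have e1 : M.bas.repr (T (mon (eg M) (κ : List (GI M)))) i =
          ∑ j, M.bas.repr (mon (eg M) (κ : List (GI M))) j * M.bas.repr (T (M.bas j)) i := by
        conv_lhs => rw [← M.bas.sum_repr (mon (eg M) (κ : List (GI M)))]
        rw [map_sum, map_sum, Finsupp.finsetSum_apply]
        exact Finset.sum_congr rfl fun j _ => by rw [map_smul, map_smul]; rfl
      rw [e1] at hκ'
      obtain ⟨j, _, hj⟩ := Finset.exists_ne_zero_of_sum_ne_zero hκ'
      rw [(hG i j).2 (right_ne_zero_of_mul hj), repr_mon_wt _ j (left_ne_zero_of_mul hj), κ.2]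
    have hBκ : ∀ κ : I ν, ∑ j, |M.bas.repr (mon (eg M) (κ : List (GI M))) j| ≤ B := by
      intro κ
      rw [hB]
      exact Finset.single_le_sum (f := fun κ => ∑ j, |M.bas.repr (mon (eg M) κ) j|)
        (fun _ _ => Finset.sum_nonneg fun _ _ => abs_nonneg _) κ.1.2
    have hsize : ∀ i, |M.bas.repr x i| ≤ ((Q * B + 1) * Λ') * Real.exp (ν v) := by
      intro i
      rw [hx, map_sum, Finsupp.finsetSum_apply]
      refine (Finset.abs_sum_le_sum_abs _ _).trans ?_
      calc ∑ κ : I ν, |M.bas.repr ((if ∀ i ∈ (κ : List (GI M)), w i then 0 else a ν y κ) •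
            T (mon (eg M) (κ : List (GI M)))) i|
          ≤ ∑ κ : I ν, (∑ i, |a ν (M.bas i) κ|) * (B * (Λ' * Real.exp (ν v))) := by
            refine Finset.sum_le_sum fun κ _ => ?_
            rw [map_smul, Finsupp.smul_apply, smul_eq_mul, abs_mul]
            have h1 : |if ∀ i ∈ (κ : List (GI M)), w i then 0 else a ν y κ| ≤
                ∑ i, |a ν (M.bas i) κ| := by
              split_ifs
              · rw [abs_zero]; positivity
              · exact haκ κ
            have h2 := (hterm κ i).trans (mul_le_mul_of_nonneg_right (hBκ κ)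
              (by positivity : (0:ℝ) ≤ Λ' * Real.exp (ν v)))
            exact mul_le_mul h1 h2 (abs_nonneg _) (by positivity)
        _ = (∑ κ : I ν, ∑ i, |a ν (M.bas i) κ|) * (B * (Λ' * Real.exp (ν v))) :=
            (Finset.sum_mul _ _ _).symm
        _ ≤ Q * (B * (Λ' * Real.exp (ν v))) := by gcongr
        _ ≤ _ := by
            have : 0 ≤ Λ' * Real.exp (ν v) := by positivity
            nlinarith
    refine h₁ fam Y Λ hΛ hfam ((Q * B + 1) * Λ') v μ (by positivity) ?_ i₀ hi₀ hc x hxM hwt hsize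
    intro κ κ' k1 k2 k3 k4 k5 k6
    refine le_trans ?_ (hNR κ κ' k1 k2 k3 k4 k5 k6)
    have hl : Real.log (C₁ * Λ ^ M.c * ((Q * B + 1) * Λ')) ≤ Real.log (C * Λ ^ M.c * Λ') := by
      have hΛc : 0 < Λ ^ M.c := by positivity
      have hQB : 0 ≤ Q * B := by positivity
      refine Real.log_le_log (by positivity) ?_
      calc C₁ * Λ ^ M.c * ((Q * B + 1) * Λ') = (C₁ * (Q * B + 1)) * Λ ^ M.c * Λ' := by ring
        _ ≤ C * Λ ^ M.c * Λ' := by
          gcongr
          rw [hC]; linarith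
    linarith

end mix

end Crest.Agent.R182.BoxVol
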