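/-
R182, module BOXGRP (helper468): the core of `KFacts`: products `K * A Y * V * A Z`.
-/
import Mathlib
import Crest.Agent.R182.BoxMulV

set_option autoImplicit false
set_option linter.unusedSectionVars false

open MeasureTheory Set
open scoped Pointwise ENNReal

namespace Crest.Agent.R182.BoxVol

open Crest.Agent.R182.Nb Crest.Agent.R182.Core

variable {Γ : Type*} [Group Γ] {k : ℕ} {S : Set Γ} {π : Γ →* Multiplicative (Fin k → ℤ)}

theorem NB_mul_subset {M : BModel S π} {σ : Type*} [Fintype σ] {T A : ℝ}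
    (H : M.star.FamConst M.c σ T A) (g : σ → M.L) {s t : ℝ} (hs : 0 ≤ s) (hsT : s ≤ T)
    (ht : 0 ≤ t) (htT : t ≤ T) : M.NB g s * M.NB g t ⊆ M.NB g (A * max s t) := by
  rintro _ ⟨x, hx, y, hy, rfl⟩
  rw [BModel.mem_NB, BModel.E_mul]
  exact H.op_mem g (M.nilC.nil g) s t hs hsT ht htT _ hx _ hy

theorem exists_K_core (M : BModel S π) (w : GI M → Prop) [DecidablePred w] (R : RayQ M w)
    (A2 C₁ : ℝ) (hA2 : 1 ≤ A2) (hC₁ : 1 ≤ C₁) (ρ : ℝ) (hρ : 0 < ρ) (hρ1 : ρ ≤ 1) :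
    ∃ A₁ : ℝ, 1 ≤ A₁ ∧ ∃ C : ℝ, 0 < C ∧ ∃ Ad : ℝ, 1 ≤ Ad ∧
      ∀ (g gY gZ' : GI M → M.L) (T : M.L →ₗ[ℝ] M.L), IsLie T → R.D.Pres T → R.D.qdet T ≠ 0 →
        (∀ i, ¬ w i → R.D.P (g i) = 0) →
        (∀ x : M.L, x ∈ Submodule.span ℝ (Set.range fun κ : List (GI M) => mon g κ)) →
        ∀ e : ℝ, 0 < e → e ≤ 1 → (∀ i, gY i ∈ Bx M.c g e) → (∀ i, w i → gZ' i = T (eg M i)) →
        (∀ i, ¬ w i → gZ' i ∈ Bx M.c g e) →
        (∀ i, w i → ∃ p ∈ Bx M.c (rst g w) C₁, ∃ k ∈ Bx M.c g e, T (eg M i) = p + k) →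
        (M.NB g (A2 * e) * M.NB gY 1 * M.NB gY 1 ⊆ M.NB g Ad) ∧
        (M.NB g (A2 * e) * M.NB gY 1 * mvs R.D ρ T * M.NB gZ' 1 ⊆ M.NB g Ad) ∧
        ((∀ x, R.D.P x = 0 → x ∈ Bx M.c (rst g w) A₁ → x ∈ Bx M.c g e) →
        ∃ m : ℝ≥0∞, m ≠ 0 ∧
          (∀ y : M.NN, lamV R.D ρ T {v | y * v⁻¹ ∈ M.NB g (A2 * e) * M.NB gY 1} ≤ m) ∧
          m * volume (M.NB g (A2 * e) * M.NB gY 1 * mvs R.D ρ T * M.NB gZ' 1) ≤
            ENNReal.ofReal C * volume (M.NB g (A2 * e))) := by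
  obtain ⟨a₁, ha₁, h₁⟩ := exists_Bx_small M.c (GI M) (GI M)
  obtain ⟨B₀, H₀⟩ := M.star.exists_famConst M.c (GI M) (A2 + a₁) (by linarith)
  have hB₀ := H₀.one_le
  set a₂ : ℝ := B₀ * (A2 + a₁) with ha₂
  have ha₂1 : 1 ≤ a₂ := by nlinarith
  set Tm : ℝ := a₂ + C₁ + 1 with hTm
  obtain ⟨A₃, hA₃, h₃⟩ := M.star.exists_S_op M.c (GI M) Tm (by linarith)
  set A : ℝ := A₃ + C₁ + a₂ with hA
  obtain ⟨A₁, hA₁, h₄⟩ := exists_mulV' M w R A (by linarith)
  obtain ⟨C, hC, h₅⟩ := h₄ 1 le_rfl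
  obtain ⟨A₄, hA₄, h₆⟩ := exists_Bx_comp M.c (GI M) (GI M) (C₁ + 1) (by linarith)
  obtain ⟨B₁, H₁⟩ := M.star.exists_famConst M.c (GI M) (A₃ + A₄ * A₃) (by nlinarith)
  obtain ⟨B₂, H₂⟩ := M.star.exists_famConst M.c (GI M) (a₂ + a₁) (by linarith)
  have hB₁ := H₁.one_le
  have hB₂ := H₂.one_le
  have hA₃₄ : 0 ≤ A₄ * A₃ := by positivity
  refine ⟨A₁, hA₁, C, hC, B₁ * (A₃ + A₄ * A₃) + B₂ * (a₂ + a₁), by nlinarith, ?_⟩
  intro g gY gZ' T hT hP hdet hv hspan e he he1 hgY hgw hgn hpk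
  have hNg : Nil M.c g := M.nilC.nil g
  -- `K * A Y`
  have hYg : M.NB gY 1 ⊆ M.NB g (a₁ * e) := by
    intro x hx
    have := h₁ g gY hNg e he.le he1 hgY 1 zero_le_one hx
    rwa [mul_one] at this
  have ha₁e : 0 ≤ a₁ * e := by positivity
  have hA2e : 0 ≤ A2 * e := by positivity
  have hKY : M.NB g (A2 * e) * M.NB gY 1 ⊆ M.NB g (a₂ * e) := by
    refine (Set.mul_subset_mul_left hYg).trans ((NB_mul_subset H₀ g hA2e (by nlinarith) ha₁e
      (by nlinarith)).trans (BModel.NB_mono ?_))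
    rw [ha₂, mul_assoc]
    refine mul_le_mul_of_nonneg_left (max_le ?_ ?_) (by linarith)
    · nlinarith
    · nlinarith
  have ha₂e : a₂ * e ≤ a₂ := by nlinarith
  -- the letters of the moves
  have hTg : ∀ i, w i → T (eg M i) ∈ Bx M.c g (C₁ + 1) := by
    intro i hi
    obtain ⟨p, hp, x, hx, hpx⟩ := hpk i hi
    rw [hpx]
    refine Bx_mono ?_ (Bx_add (Bx_rst_subset g C₁ (by linarith) hp) hx)
    linarith
  have hrst : rst gZ' w = rst (fun i => T (eg M i)) w := rst_congr' hgw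
  have hprod : M.NB g (A2 * e) * M.NB gY 1 * mvs R.D ρ T * M.NB gZ' 1 ⊆
      M.NB g (A₃ * e) * M.NB (rst (fun i => T (eg M i)) w) A₃ := by
    rintro _ ⟨_, ⟨k, hk, u, hu, rfl⟩, n, hn, rfl⟩
    have hk' := hKY hk
    have hu' := R.mvs_subset hT hρ.le hu
    obtain ⟨k', hk', u', hu', heq⟩ := h₃ g gZ' w hNg (M.nilC.nil _) e he.le he1
      (fun i hi => by
        rw [hgw i hi]
        exact Bx_mono (by linarith) (hTg i hi)) hgn (M.E k)
      (Bx_mono (by
        have : a₂ * e ≤ Tm * e := by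
          refine mul_le_mul_of_nonneg_right ?_ he.le
          linarith
        exact this) hk') (M.E u)
      (by
        rw [hrst]
        exact Bx_mono (by linarith) hu') (M.E n) (Bx_mono (by linarith) hn)
    refine ⟨M.E.symm k', ?_, M.E.symm u', ?_, ?_⟩
    · rw [BModel.mem_NB, LinearEquiv.apply_symm_apply]; exact hk'
    · rw [BModel.mem_NB, LinearEquiv.apply_symm_apply, ← hrst]; exact hu'
    · apply M.E.injective
      change M.E (M.E.symm k' * M.E.symm u') = M.E (k * u * n)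
      rw [BModel.E_mul, BModel.E_mul, BModel.E_mul, heq, LinearEquiv.apply_symm_apply,
        LinearEquiv.apply_symm_apply]
  have hfg : ∀ i, rst (fun i => T (eg M i)) w i ∈ Bx M.c g (C₁ + 1) := by
    intro i
    unfold rst
    split_ifs with hi
    · exact hTg i hi
    · exact Bx_zero_mem (by linarith)
  have hUg : M.NB (rst (fun i => T (eg M i)) w) A₃ ⊆ M.NB g (A₄ * A₃) := by
    intro x hx
    exact h₆ g _ hNg hfg A₃ (by linarith) hx
  refine ⟨?_, ?_, ?_⟩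
  · refine (Set.mul_subset_mul hKY hYg).trans ((NB_mul_subset H₂ g (by positivity) (by nlinarith)
      ha₁e (by nlinarith)).trans (BModel.NB_mono ?_))
    have h7 : max (a₂ * e) (a₁ * e) ≤ a₂ + a₁ := max_le (by nlinarith) (by nlinarith)
    have h8 : B₂ * max (a₂ * e) (a₁ * e) ≤ B₂ * (a₂ + a₁) :=
      mul_le_mul_of_nonneg_left h7 (by linarith)
    have h9 : 0 ≤ B₁ * (A₃ + A₄ * A₃) := by positivity
    linarith
  · refine hprod.trans ((Set.mul_subset_mul_left hUg).trans ((NB_mul_subset H₁ g (by positivity)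
      (by nlinarith) hA₃₄ (by linarith)).trans (BModel.NB_mono ?_)))
    have h7 : max (A₃ * e) (A₄ * A₃) ≤ A₃ + A₄ * A₃ := max_le (by nlinarith) (by linarith)
    have h8 : B₁ * max (A₃ * e) (A₄ * A₃) ≤ B₁ * (A₃ + A₄ * A₃) :=
      mul_le_mul_of_nonneg_left h7 (by linarith)
    have h9 : 0 ≤ B₂ * (a₂ + a₁) := by positivity
    linarith
  · intro h2
    obtain ⟨m₀, hm1, hm2⟩ := h₅ g T hT hP hdet hv e he he1
      (fun i hi => by
        obtain ⟨p, hp, x, hx, hpx⟩ := hpk i hi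
        refine ⟨p, Bx_mono (by linarith) hp, x, Bx_mono ?_ hx, hpx⟩
        have : 1 * e ≤ A * e := mul_le_mul_of_nonneg_right (by linarith) he.le
        linarith)
      (fun x hx1 hx2 => by rw [one_mul]; exact h2 x hx1 hx2)
    set P : Set M.NN := M.NB g (A * e) * M.NB (rst (fun i => T (eg M i)) w) A with hPdef
    have hPc : IsCompact P := (BModel.isCompact_NB M _ _).mul (BModel.isCompact_NB M _ _)
    have hPt : volume P ≠ ∞ := hPc.measure_lt_top.ne
    have hsub1 : M.NB g e ⊆ P := by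
      intro x hx
      refine ⟨x, BModel.NB_mono ?_ hx, 1, BModel.NB_one_mem (by linarith), mul_one x⟩
      have : 1 * e ≤ A * e := mul_le_mul_of_nonneg_right (by linarith) he.le
      linarith
    have hv0 : volume (M.NB g e) ≠ 0 := (BModel.volume_NB_pos hNg hspan he).ne'
    have hP0 : volume P ≠ 0 := fun h => hv0 (measure_mono_null hsub1 h)
    refine ⟨ENNReal.ofReal C * volume (M.NB g e) / volume P, ?_, ?_, ?_⟩
    · refine ENNReal.div_ne_zero.2 ⟨mul_ne_zero ?_ hv0, hPt⟩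
      rw [Ne, ENNReal.ofReal_eq_zero, not_le]; exact hC
    · intro y
      have h7 : m₀ ≤ ENNReal.ofReal C * volume (M.NB g e) / volume P :=
        (ENNReal.le_div_iff_mul_le (Or.inl hP0) (Or.inl hPt)).2 hm2
      refine (measure_mono ?_).trans ((hm1 ρ hρ.le (by linarith) y).trans h7)
      intro v hv'
      refine BModel.NB_mono ?_ (hKY hv')
      exact mul_le_mul_of_nonneg_right (by linarith) he.le
    · have hsub2 : M.NB g (A₃ * e) * M.NB (rst (fun i => T (eg M i)) w) A₃ ⊆ P :=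
        Set.mul_subset_mul (BModel.NB_mono (mul_le_mul_of_nonneg_right (by linarith) he.le))
          (BModel.NB_mono (by linarith))
      calc ENNReal.ofReal C * volume (M.NB g e) / volume P *
            volume (M.NB g (A2 * e) * M.NB gY 1 * mvs R.D ρ T * M.NB gZ' 1)
          ≤ ENNReal.ofReal C * volume (M.NB g e) / volume P * volume P := by
            gcongr
            exact hprod.trans hsub2
        _ = ENNReal.ofReal C * volume (M.NB g e) := ENNReal.div_mul_cancel hP0 hPt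
        _ ≤ ENNReal.ofReal C * volume (M.NB g (A2 * e)) := by
            gcongr
            refine BModel.NB_mono ?_
            nlinarith

end Crest.Agent.R182.BoxVol
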