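/-
R182, block BOX (helper480): the amount of bad random moves from the triple measure of the facets.
-/
import Mathlib
import Crest.Agent.R182.GenLaw
import Crest.Agent.R182.CapModel

set_option autoImplicit false
set_option linter.unusedSectionVars false

open MeasureTheory Set
open scoped ENNReal

namespace Crest.Agent.R182.Gen

variable {H : Type*} [Group H] [MeasurableSpace H] [MeasurableMul₂ H] [MeasurableInv H]
  (μ : Measure H) [SFinite μ] [μ.IsMulRightInvariant] {V : Set H}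

/-- the uniform law on `V` -/
theorem prod_cond (hV : MeasurableSet V) (hV0 : μ V ≠ 0) (hV1 : μ V ≠ ∞) {B : Set (H × H × H)}
    (hB : MeasurableSet B) (hBV : ∀ p ∈ B, p.2.1 ∈ V ∧ p.2.2 ∈ V) :
    (μ.prod (μ.prod μ)) B = μ V * μ V *
      (μ.prod (((μ V)⁻¹ • μ.restrict V).prod ((μ V)⁻¹ • μ.restrict V))) B := by
  have h1 : (((μ V)⁻¹ • μ.restrict V).prod ((μ V)⁻¹ • μ.restrict V)) =
      ((μ V)⁻¹ * (μ V)⁻¹) • (μ.restrict V).prod (μ.restrict V) := by
    rw [Measure.prod_smul_left, Measure.prod_smul_right, smul_smul]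
  have h2 : (μ.restrict V).prod (μ.restrict V) = (μ.prod μ).restrict (V ×ˢ V) :=
    Measure.prod_restrict V V
  have h3 : μ.prod ((μ.prod μ).restrict (V ×ˢ V)) =
      (μ.prod (μ.prod μ)).restrict (univ ×ˢ (V ×ˢ V)) := by
    rw [← h2, ← Measure.prod_restrict, Measure.restrict_univ, h2]
  rw [h1, h2, Measure.prod_smul_right, h3, Measure.smul_apply, Measure.restrict_apply hB,
    smul_eq_mul, ← mul_assoc]
  have h4 : B ∩ univ ×ˢ (V ×ˢ V) = B := by
    refine inter_eq_left.2 fun p hp => ?_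
    exact ⟨mem_univ _, (hBV p hp).1, (hBV p hp).2⟩
  rw [h4]
  have h5 : μ V * μ V * ((μ V)⁻¹ * (μ V)⁻¹) = 1 := by
    calc μ V * μ V * ((μ V)⁻¹ * (μ V)⁻¹) = (μ V * (μ V)⁻¹) * (μ V * (μ V)⁻¹) := by ring
      _ = 1 := by rw [ENNReal.mul_inv_cancel hV0 hV1, one_mul]
  rw [h5, one_mul]

variable {M : Type*} [PseudoMetricSpace M] [MeasurableSpace M] [OpensMeasurableSpace M]
  [SecondCountableTopology M]

theorem badInt_eq_prod {Φ : H → M} (hΦ : Measurable Φ) {δ : ℝ} {φ : H → H} (hφ : Measurable φ)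
    {Q : Set H} (hQ : MeasurableSet Q) (hV : MeasurableSet V) :
    badInt μ Φ δ φ Q V = (μ.prod (μ.prod μ)) (Q ×ˢ V ×ˢ V ∩
      {p : H × H × H | δ < dist (Φ p.1) (Φ (p.1 * φ (p.2.1⁻¹ * p.2.2)))}) := by
  have hm : MeasurableSet (Q ×ˢ V ×ˢ V ∩
      {p : H × H × H | δ < dist (Φ p.1) (Φ (p.1 * φ (p.2.1⁻¹ * p.2.2)))}) :=
    (hQ.prod (hV.prod hV)).inter (measurableSet_bad hΦ hφ)
  have hm1 : Measurable ((Q ×ˢ V ×ˢ V ∩
      {p : H × H × H | δ < dist (Φ p.1) (Φ (p.1 * φ (p.2.1⁻¹ * p.2.2)))}).indicator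
      (1 : H × H × H → ℝ≥0∞)) := measurable_one.indicator hm
  rw [← lintegral_indicator_one hm, lintegral_prod _ hm1.aemeasurable]
  unfold badInt
  refine lintegral_congr fun q => ?_
  exact (lintegral_prod (μ := μ) (ν := μ) (fun y : H × H => (Q ×ˢ V ×ˢ V ∩
      {p : H × H × H | δ < dist (Φ p.1) (Φ (p.1 * φ (p.2.1⁻¹ * p.2.2)))}).indicator
      (1 : H × H × H → ℝ≥0∞) (q, y)) (hm1.comp measurable_prodMk_left).aemeasurable).symm

/-- **from the facets to bad moves** -/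
theorem badInt_le (hV : MeasurableSet V) (hV0 : μ V ≠ 0) (hV1 : μ V ≠ ∞) {Φ : H → M}
    (hΦ : Measurable Φ) {δ : ℝ} {φ : H →* H} (hφ : Measurable φ) {Q : Set H}
    (hQ : MeasurableSet Q) {Bad : Set H} {Ts : Set (H × H × H)}
    (h : ∀ q ∈ Q, ∀ a ∈ V, ∀ b ∈ V, q ∉ Bad → q * (φ a)⁻¹ * φ b ∉ Bad →
      δ < dist (Φ q) (Φ (q * (φ a)⁻¹ * φ b)) → (q, a, b) ∈ Ts) :
    badInt μ Φ δ φ Q V ≤ μ V * μ V *
      ((μ.prod (((μ V)⁻¹ • μ.restrict V).prod ((μ V)⁻¹ • μ.restrict V))) Ts + 2 * μ Bad) := by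
  set ν : Measure H := (μ V)⁻¹ • μ.restrict V with hν
  have hνp : IsProbabilityMeasure ν := ⟨by
    rw [hν, Measure.smul_apply, Measure.restrict_apply MeasurableSet.univ, Set.univ_inter,
      smul_eq_mul]
    exact ENNReal.inv_mul_cancel hV0 hV1⟩
  set B : Set (H × H × H) := Q ×ˢ V ×ˢ V ∩
      {p : H × H × H | δ < dist (Φ p.1) (Φ (p.1 * φ (p.2.1⁻¹ * p.2.2)))} with hB
  have hm : MeasurableSet B := (hQ.prod (hV.prod hV)).inter (measurableSet_bad hΦ hφ)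
  rw [badInt_eq_prod μ hΦ hφ hQ hV, prod_cond μ hV hV0 hV1 hm (fun p hp => hp.1.2)]
  gcongr
  set Bad' := toMeasurable μ Bad with hBad'
  have hBm : MeasurableSet Bad' := measurableSet_toMeasurable _ _
  have hsub : B ⊆ Ts ∪ ((Bad' ×ˢ univ) ∪
      {p : H × H × H | p.1 * (φ p.2.1)⁻¹ * φ p.2.2 ∈ Bad'}) := by
    rintro ⟨q, a, b⟩ ⟨⟨hq, ha, hb⟩, hd⟩
    by_cases h1 : q ∈ Bad
    · exact Or.inr (Or.inl ⟨subset_toMeasurable _ _ h1, mem_univ _⟩)
    by_cases h2 : q * (φ a)⁻¹ * φ b ∈ Bad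
    · exact Or.inr (Or.inr (subset_toMeasurable _ _ h2))
    · refine Or.inl (h q hq a ha b hb h1 h2 ?_)
      have e1 : q * φ (a⁻¹ * b) = q * (φ a)⁻¹ * φ b := by rw [map_mul, map_inv, mul_assoc]
      have hd' : δ < dist (Φ q) (Φ (q * φ (a⁻¹ * b))) := hd
      rwa [e1] at hd'
  refine (measure_mono hsub).trans ((measure_union_le _ _).trans ?_)
  gcongr
  refine (measure_union_le _ _).trans ?_
  rw [two_mul]
  gcongr
  · rw [Measure.prod_prod, measure_univ, mul_one, hBad', measure_toMeasurable]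
  · have hm2 : MeasurableSet {p : H × H × H | p.1 * (φ p.2.1)⁻¹ * φ p.2.2 ∈ Bad'} := by
      have : Measurable fun p : H × H × H => p.1 * (φ p.2.1)⁻¹ * φ p.2.2 := by fun_prop
      exact this hBm
    rw [Measure.prod_apply_symm hm2]
    have h3 : ∀ y : H × H, μ ((fun x => (x, y)) ⁻¹'
        {p : H × H × H | p.1 * (φ p.2.1)⁻¹ * φ p.2.2 ∈ Bad'}) = μ Bad := by
      intro y
      have : (fun x => (x, y)) ⁻¹' {p : H × H × H | p.1 * (φ p.2.1)⁻¹ * φ p.2.2 ∈ Bad'} =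
          (fun x => x * ((φ y.1)⁻¹ * φ y.2)) ⁻¹' Bad' := by
        ext x
        simp only [mem_preimage, mem_ofPred_eq, mul_assoc]
      rw [this, measure_preimage_mul_right, hBad', measure_toMeasurable]
    simp only [h3]
    rw [lintegral_const, measure_univ, mul_one]

end Crest.Agent.R182.Gen
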