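/-
R182, module CLAW (helper860), part 2: the `CModel` of a `BModel`.
-/
import Mathlib
import Crest.Agent.R182.CLaw1

set_option autoImplicit false

open scoped Pointwise

namespace Crest.Agent.R182.CLaw

open Crest.GroupTheory Crest.Geometry Crest.Agent.R182.QI Crest.Agent.R182.FinPath
  Crest.Agent.R182.FinRed Crest.Agent.R182.Bnd Crest.Agent.R182.Core Crest.Agent.R182.OneScale

variable {Γ : Type*} [Group Γ] {k : ℕ} {S : Set Γ} {π : Γ →* Multiplicative (Fin k → ℤ)}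

/-- The facts about the model which are used for the law, beyond `BModel`. -/
structure Extra (M : BModel S π) (A : Set Γ) (x : Fin k → Γ) : Prop where
  chain : ∀ b ∈ M.C, ∃ (Z : ℕ → Set M.G) (r : ℕ), Chain M.len b Z r ∧ Z r = (M.C : Set M.G)
  split : ∃ a' R' : ℝ, ∀ (y : Γ) (m : ℕ), y * (z x (hgt π y))⁻¹ ∈ A ^ m →
    ∃ (X : M.L) (l : List M.G), M.ι y = M.ex X * l.prod ∧
      (∀ s ∈ l, s ∈ M.C ∧ M.len s ≤ R') ∧
      (l.length : ℝ) ≤ a' * (1 + wordLength S y) ∧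
      Real.log (2 + ‖M.bas.equivFun X‖) ≤
        a' * ((n1 (hgt π y) : ℝ) + Real.log (2 + m) + Real.log (2 + wordLength S y))

section

variable {M : BModel S π} {A : Set Γ} {x : Fin k → Γ}

theorem n1_le (v : Fin k → ℤ) {B : ℝ} (h : ∀ i, |(v i : ℝ)| ≤ B) : (n1 v : ℝ) ≤ k * B := by
  unfold n1
  push_cast
  refine (Finset.sum_le_card_nsmul _ _ B fun i _ => ?_).trans_eq ?_
  · refine le_trans (le_of_eq ?_) (h i)
    rw [Nat.cast_natAbs]; push_cast; rfl
  · simp

theorem exists_split (hE : Extra M A x) : ∃ aC : ℝ, M.a ≤ aC ∧ ∀ (y : Γ) (m : ℕ),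
    y * (z x (hgt π y))⁻¹ ∈ A ^ m → ∃ e c : M.G, M.ι y = e * c ∧ e ∈ Set.range M.ex ∧ c ∈ M.C ∧
      M.h e = 0 ∧
      M.len e ≤ aC * ((n1 (hgt π y) : ℝ) + Real.log (2 + m) + Real.log (2 + wordLength S y)) ∧
      Real.log (2 + szA M ((M.t (hgt π y))⁻¹ * c)) ≤ aC * Real.log (2 + wordLength S y) := by
  obtain ⟨a', R', hs⟩ := hE.split
  have ha := a0 M
  set R : ℝ := max M.a R' with hR
  obtain ⟨C, hC0, hC⟩ := exists_szA M R
  set Q : ℝ := k * (M.a * M.a) + |a'| with hQ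
  have hQ0 : 0 ≤ Q := by positivity
  have hlog2 : 0 < Real.log 2 := Real.log_pos (by norm_num)
  set c1 : ℝ := Real.log (2 + Q) / Real.log 2 + 1 with hc1
  have hlQ : 0 ≤ Real.log (2 + Q) := Real.log_nonneg (by linarith)
  have hc10 : 0 ≤ c1 := by positivity
  refine ⟨M.a + M.a * |a'| + C * c1, by
    have : 0 ≤ M.a * |a'| + C * c1 := by positivity
    linarith, fun y m hy => ?_⟩
  obtain ⟨X, l, hX, hl, hlen, hlog⟩ := hs y m hy
  set w : ℝ := (wordLength S y : ℝ) with hw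
  have hw0 : 0 ≤ w := Nat.cast_nonneg _
  have hlw2 : Real.log 2 ≤ Real.log (2 + w) := Real.log_le_log (by norm_num) (by linarith)
  have hlw0 : 0 ≤ Real.log (2 + w) := hlog2.le.trans hlw2
  have hlm0 : 0 ≤ Real.log (2 + (m : ℝ)) := Real.log_nonneg (by
    have : (0 : ℝ) ≤ m := Nat.cast_nonneg m
    linarith)
  have hn0 : (0 : ℝ) ≤ n1 (hgt π y) := Nat.cast_nonneg _
  have hcC : l.prod ∈ M.C := M.C.list_prod_mem fun s hs => (hl s hs).1
  refine ⟨M.ex X, l.prod, hX, ⟨X, rfl⟩, hcC, M.h_ex X, ?_, ?_⟩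
  · refine (M.len_ex_le X).trans ?_
    have h1 : Real.log (2 + ‖M.bas.equivFun X‖) ≤
        |a'| * ((n1 (hgt π y) : ℝ) + Real.log (2 + m) + Real.log (2 + w)) :=
      hlog.trans (mul_le_mul_of_nonneg_right (le_abs_self _) (by positivity))
    refine (mul_le_mul_of_nonneg_left h1 ha).trans ?_
    rw [← mul_assoc]
    refine mul_le_mul_of_nonneg_right ?_ (by positivity)
    have : 0 ≤ C * c1 := by positivity
    linarith
  · -- the word
    have h1 : Wd M R (|a'| * (1 + w)) l.prod := by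
      refine ⟨l, fun s hs => ⟨(hl s hs).1, (hl s hs).2.trans (le_max_right _ _)⟩, ?_, rfl⟩
      exact hlen.trans (mul_le_mul_of_nonneg_right (le_abs_self _) (by linarith))
    have h2 : Wd M R (n1 (hgt π y)) (M.t (hgt π y))⁻¹ :=
      (wd_t (hgt π y)).inv.mono (le_max_left _ _) le_rfl
    have h3 := h2.mul h1
    have hh : M.h ((M.t (hgt π y))⁻¹ * l.prod) = 0 := by
      have e1 : M.h l.prod = hgtR π y := by
        have e2 := M.h_ι y
        rw [hX, M.h_mul, M.h_ex, zero_add] at e2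
        exact e2
      have e2 : M.h (M.t (hgt π y)) = hgtR π y := funext fun i => M.h_t _ i
      rw [M.h_mul, OneScale.h_inv, e1, e2, neg_add_cancel]
    have h4 := hC _ _ h3 hh
    refine h4.trans ?_
    have h5 : (n1 (hgt π y) : ℝ) ≤ k * (M.a * (M.a * w)) := by
      refine n1_le _ fun i => ?_
      have e1 : ((hgt π y i : ℤ) : ℝ) = M.h (M.ι y) i := by rw [M.h_ι]; rfl
      rw [e1]
      exact (M.h_le _ i).trans (mul_le_mul_of_nonneg_left (M.len_ι y) ha)
    have h6 : 2 + ((n1 (hgt π y) : ℝ) + |a'| * (1 + w)) ≤ (2 + Q) * (2 + w) := by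
      have e1 : (n1 (hgt π y) : ℝ) + |a'| * (1 + w) ≤ Q * (1 + w) := by
        rw [hQ, add_mul]
        have e2 : k * (M.a * (M.a * w)) ≤ k * (M.a * M.a) * (1 + w) := by
          have : (0 : ℝ) ≤ k * (M.a * M.a) := by positivity
          nlinarith
        linarith
      nlinarith
    have h7 : Real.log (2 + ((n1 (hgt π y) : ℝ) + |a'| * (1 + w))) ≤
        Real.log (2 + Q) + Real.log (2 + w) := by
      rw [← Real.log_mul (by positivity) (by positivity)]
      exact Real.log_le_log (by positivity) h6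
    have h8 : Real.log (2 + Q) ≤ Real.log (2 + Q) / Real.log 2 * Real.log (2 + w) := by
      rw [div_mul_eq_mul_div, le_div_iff₀ hlog2]
      exact mul_le_mul_of_nonneg_left hlw2 hlQ
    have h9 : Real.log (2 + ((n1 (hgt π y) : ℝ) + |a'| * (1 + w))) ≤ c1 * Real.log (2 + w) := by
      rw [hc1, add_mul, one_mul]; linarith
    have h10 := mul_le_mul_of_nonneg_left h9 hC0
    refine h10.trans ?_
    rw [← mul_assoc]
    refine mul_le_mul_of_nonneg_right ?_ hlw0
    have : 0 ≤ M.a + M.a * |a'| := by positivity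
    linarith

/-- The `CModel` of a `BModel`. -/
noncomputable def toC (M : BModel S π) {A : Set Γ} {x : Fin k → Γ} (aC : ℝ) (haC : M.a ≤ aC)
    (hchain : ∀ b ∈ M.C, ∃ (Z : ℕ → Set M.G) (r : ℕ), Chain M.len b Z r ∧
      Z r = (M.C : Set M.G))
    (hsplit : ∀ (y : Γ) (m : ℕ),
      y * (z x (hgt π y))⁻¹ ∈ A ^ m → ∃ e c : M.G, M.ι y = e * c ∧ e ∈ Set.range M.ex ∧
      c ∈ M.C ∧ M.h e = 0 ∧
      M.len e ≤ aC * ((n1 (hgt π y) : ℝ) + Real.log (2 + m) + Real.log (2 + wordLength S y)) ∧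
      Real.log (2 + szA M ((M.t (hgt π y))⁻¹ * c)) ≤ aC * Real.log (2 + wordLength S y)) :
    CModel S π A x M.G where
  ι := M.ι
  len := M.len
  isLen := M.isLen
  a := aC
  one_le_a := M.one_le_a.trans haC
  len_ι γ := (M.len_ι γ).trans (mul_le_mul_of_nonneg_right haC (Nat.cast_nonneg _))
  ι_len γ := (M.ι_len γ).trans
    (add_le_add (mul_le_mul_of_nonneg_right haC (M.isLen.nonneg _)) haC)
  round g := ⟨M.rnd g, (M.len_rnd g).trans haC⟩
  h := M.h
  h_mul := M.h_mul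
  h_ι := M.h_ι
  h_le g i := (M.h_le g i).trans (mul_le_mul_of_nonneg_right haC (M.isLen.nonneg _))
  m := M.m
  Λ := M.Λ
  Λ_inj v hv := M.sep v fun i hi => by
    obtain ⟨j, hj⟩ := M.Λ_surj i hi
    rw [← hj]; exact hv j
  Λ_ne := M.Λ_ne
  χ := M.χ
  δ := M.δ
  crossed := M.crossed
  nontriv j := by
    obtain ⟨i, hi⟩ := M.lδ_ne j
    exact ⟨M.ex (M.bas i), M.h_ex _, by rw [M.δ_ex]; exact hi⟩
  χ_one := M.χ_one
  C := M.C
  chain := hchain
  E := Set.range M.ex
  one_mem_E := ⟨0, OneScale.ex_zero M⟩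
  t := M.t
  t_mem v := (wd_t v).mem
  h_t := M.h_t
  len_t v := by
    refine ((wd_t v).len_le (a0 M)).trans ?_
    rw [mul_comm]
    exact mul_le_mul_of_nonneg_right haC (Nat.cast_nonneg _)
  sz := szA M
  sz_nonneg := szA_nonneg
  sz_inv := szA_inv
  dec := dec_szA
  split := hsplit

end

end Crest.Agent.R182.CLaw
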