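/-
R182, module CLAW (helper860), part 3: the logarithmic law for zero-weight moves from the core law.
-/
import Mathlib
import Crest.Agent.R182.CLaw2

set_option autoImplicit false

open scoped Pointwise

namespace Crest.Agent.R182.CLaw

open Crest.GroupTheory Crest.Geometry Crest.Agent.R182.QI Crest.Agent.R182.FinPath
  Crest.Agent.R182.FinRed Crest.Agent.R182.Bnd Crest.Agent.R182.Core Crest.Agent.R182.OneScale

variable {Γ : Type*} [Group Γ] {k : ℕ} {S : Set Γ} {π : Γ →* Multiplicative (Fin k → ℤ)}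
  {A : Set Γ} {x : Fin k → Γ}

/-- `M'` is built from `M`. -/
structure Agree (M : BModel S π) (M' : CModel S π A x M.G) : Prop where
  ι : M'.ι = M.ι
  len : M'.len = M.len
  h : M'.h = M.h
  C : M'.C = M.C
  t : M'.t = M.t
  sz : M'.sz = szA M
  E : M'.E = Set.range M.ex

theorem exists_pos_lb {α : Type*} {s : Set α} (hs : s.Finite) (f : α → ℝ)
    (hf : ∀ a ∈ s, 0 < f a) : ∃ c : ℝ, 0 < c ∧ ∀ a ∈ s, c ≤ f a := by
  rcases s.eq_empty_or_nonempty with rfl | hne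
  · exact ⟨1, one_pos, by simp⟩
  · obtain ⟨a, ha, h⟩ := Set.exists_min_image s f hs hne
    exact ⟨f a, hf a ha, h⟩

theorem exists_sum_bound {α : Type*} {s : Set α} (hs : s.Finite) {P : α → ℝ → Prop}
    (hmono : ∀ a c c', c ≤ c' → P a c → P a c') (h : ∀ a ∈ s, ∃ c : ℝ, P a c) :
    ∃ C : ℝ, 0 ≤ C ∧ ∀ a ∈ s, P a C := by
  classical
  have h' : ∀ a, ∃ c : ℝ, a ∈ s → P a c := fun a => by
    by_cases ha : a ∈ s
    · obtain ⟨c, hc⟩ := h a ha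
      exact ⟨c, fun _ => hc⟩
    · exact ⟨0, fun h => absurd h ha⟩
  choose c hc using h'
  refine ⟨∑ a ∈ hs.toFinset, |c a|, Finset.sum_nonneg fun _ _ => abs_nonneg _, fun a ha => ?_⟩
  refine hmono a (c a) _ ((le_abs_self _).trans ?_) (hc a ha)
  exact Finset.single_le_sum (f := fun a => |c a|) (fun _ _ => abs_nonneg _)
    (hs.mem_toFinset.2 ha)

section

variable {M : BModel S π} {M' : CModel S π A x M.G}

/-- the two extensions have close heights -/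
theorem fh_ext (hag : Agree M M') (K : ℕ) : ∃ c : ℝ, 0 ≤ c ∧ ∀ Ψ : Γ → Γ, QIMap S S Ψ K →
    ∀ g i, |M.h (M'.ext Ψ g) i - fh M Ψ g i| ≤ c := by
  have ha := M'.a0
  have ha' := a0 M
  refine ⟨M'.a * (M'.a * (K * (M.a * (M.a + M'.a) + M.a) + K)), by positivity,
    fun Ψ hΨ g i => ?_⟩
  have h1 : M.h (M'.ext Ψ g) = hgtR π (Ψ (M'.r g)) := by
    rw [← hag.h]; exact M'.h_ext Ψ g
  have h2 : fh M Ψ g = hgtR π (Ψ (M.rnd g)) := M.h_ι _
  rw [h1, h2]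
  refine (M'.hgt_diff hΨ (M.rnd g) (M'.r g) i).trans ?_
  have h3 : (wordLength S ((M.rnd g)⁻¹ * M'.r g) : ℝ) ≤ M.a * (M.a + M'.a) + M.a := by
    refine (M.ι_len _).trans ?_
    have e1 : M.ι ((M.rnd g)⁻¹ * M'.r g) =
        ((M.ι (M.rnd g))⁻¹ * g) * (g⁻¹ * M.ι (M'.r g)) := by
      rw [map_mul, map_inv]; group
    rw [e1]
    have e2 := M.isLen.mul ((M.ι (M.rnd g))⁻¹ * g) (g⁻¹ * M.ι (M'.r g))
    have e3 := M.len_rnd g
    have e4 := M'.hr' g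
    rw [hag.len, hag.ι] at e4
    have := mul_le_mul_of_nonneg_left (e2.trans (add_le_add e3 e4)) ha'
    linarith
  gcongr

/-- descent along a vertical on which `Λ_j ∘ L` is negative. -/
theorem descent (hag : Agree M M') {Bf : Set M.G} {L : (Fin k → ℝ) →ₗ[ℝ] (Fin k → ℝ)}
    {κ B cK : ℝ} (hκ : 0 ≤ κ) {Ψ : Γ → Γ} (hray : RayAt M Bf L κ B Ψ)
    (hcK : ∀ g i, |M.h (M'.ext Ψ g) i - fh M Ψ g i| ≤ cK) (j : Fin M'.m) {b : M.G} (hb : b ∈ Bf)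
    {c : ℝ} (hneg : M'.Λ j (L (M.h b)) ≤ -(c * ‖M.h b‖)) (hκc : nu1 (M'.Λ j) * κ ≤ c / 2) :
    Descent (fun g => M'.Λ j (M'.h g)) b (M'.ext Ψ) (c / 2 * ‖M.h b‖)
      (nu1 (M'.Λ j) * (|B| + 2 * cK)) := by
  intro g n
  show M'.Λ j (M'.h (M'.ext Ψ (g * b ^ n))) ≤ M'.Λ j (M'.h (M'.ext Ψ g)) - c / 2 * ‖M.h b‖ * n +
    nu1 (M'.Λ j) * (|B| + 2 * cK)
  rw [hag.h]
  have h1 : ‖M.h (M'.ext Ψ (g * b ^ n)) - M.h (M'.ext Ψ g) - (n : ℝ) • L (M.h b)‖ ≤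
      κ * (n * ‖M.h b‖) + (|B| + 2 * cK) := by
    have hcK0 : 0 ≤ cK ∨ k = 0 := by
      rcases Nat.eq_zero_or_pos k with hk | hk
      · exact Or.inr hk
      · exact Or.inl ((abs_nonneg _).trans (hcK g ⟨0, hk⟩))
    rcases hcK0 with hcK0 | hk
    · refine (pi_norm_le_iff_of_nonneg (by positivity)).2 fun i => ?_
      rw [Real.norm_eq_abs]
      have e1 := hray g b hb n i
      have e2 := hcK (g * b ^ n) i
      have e3 := hcK g i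
      have e4 := le_abs_self B
      simp only [Pi.sub_apply, Pi.smul_apply, smul_eq_mul]
      rw [abs_le] at e1 e2 e3 ⊢
      constructor <;> linarith [e1.1, e1.2, e2.1, e2.2, e3.1, e3.2]
    · subst hk
      have hpos : (0 : ℝ) ≤ cK ∨ cK < 0 := le_or_gt 0 cK
      have e0 : M.h b = 0 := Subsingleton.elim _ _
      -- in dimension 0 all functionals vanish
      have e1 : M'.Λ j = 0 := by
        ext i; exact i.elim0
      exact absurd e1 (M'.Λ_ne j)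
  have h2 := (le_abs_self _).trans ((abs_le_nu1 (M'.Λ j) _).trans
    (mul_le_mul_of_nonneg_left h1 (nu1_nonneg (M'.Λ j))))
  rw [map_sub, map_sub, map_smul, smul_eq_mul] at h2
  have h3 : (n : ℝ) * M'.Λ j (L (M.h b)) ≤ n * -(c * ‖M.h b‖) :=
    mul_le_mul_of_nonneg_left hneg (Nat.cast_nonneg n)
  have h4 : nu1 (M'.Λ j) * κ * (n * ‖M.h b‖) ≤ c / 2 * (n * ‖M.h b‖) :=
    mul_le_mul_of_nonneg_right hκc (by positivity)
  nlinarith

/-- **ZL** from the core law. -/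
theorem zl (hag : Agree M M') {c0 : ℝ} (hc0 : 0 < c0)
    {LL : Set ((Fin k → ℝ) →ₗ[ℝ] (Fin k → ℝ))} (hLL : LL.Finite)
    (hne : ∀ L ∈ LL, ∀ j, M'.Λ j ∘ₗ L ≠ 0) {K : ℕ} (h : CoreLaw M LL c0 K) :
    ∃ C₂ : ℝ, 0 ≤ C₂ ∧ ∀ Ψ : Γ → Γ, QIMap S S Ψ K → ∀ g, ∀ v ∈ M.C, M.h v = 0 → ∀ i,
      |M.h (M'.ext Ψ (g * v)) i - M.h (M'.ext Ψ g) i| ≤ C₂ * Real.log (2 + szA M v) := by
  classical
  obtain ⟨cK, hcK0, hcK⟩ := fh_ext hag K
  -- lower bound for the functionals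
  obtain ⟨c1, hc1, hc1'⟩ := exists_pos_lb (s := LL ×ˢ (Set.univ : Set (Fin M'.m)))
    (hLL.prod Set.finite_univ) (fun p => nu1 (M'.Λ p.2 ∘ₗ p.1))
    (fun p hp => nu1_pos (hne p.1 hp.1 p.2))
  set Nm : ℝ := ∑ j, nu1 (M'.Λ j) with hNm
  have hNm0 : 0 ≤ Nm := Finset.sum_nonneg fun j _ => nu1_nonneg _
  have hNj : ∀ j, nu1 (M'.Λ j) ≤ Nm := fun j =>
    Finset.single_le_sum (f := fun j => nu1 (M'.Λ j)) (fun j _ => nu1_nonneg _)
      (Finset.mem_univ j)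
  set c : ℝ := c0 * c1 with hc
  have hc' : 0 < c := by positivity
  set η : ℝ := c / (2 * (1 + Nm)) with hη
  have hη0 : 0 < η := by positivity
  have hηc : ∀ j, nu1 (M'.Λ j) * η ≤ c / 2 := by
    intro j
    rw [hη, mul_div_assoc', div_le_div_iff₀ (by positivity) (by norm_num)]
    have := hNj j
    nlinarith
  obtain ⟨Bf, hBf, B, hlaw⟩ := h η hη0
  have hone : ∀ p ∈ LL ×ˢ (Set.univ : Set (Fin M'.m)), ∃ C₂ : ℝ, ∀ Ψ : Γ → Γ,
      QIMap S S Ψ K → RayAt M Bf p.1 η B Ψ → ∀ g, ∀ v ∈ M.C, M.h v = 0 →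
        |M'.Λ p.2 (M.h (M'.ext Ψ (g * v))) - M'.Λ p.2 (M.h (M'.ext Ψ g))| ≤
          C₂ * Real.log (2 + szA M v) := by
    rintro ⟨L, j⟩ ⟨hL, -⟩
    have hnu : (-(M'.Λ j ∘ₗ L)) ≠ 0 := neg_ne_zero.2 (hne L hL j)
    obtain ⟨b, hb, hbν⟩ := hBf.pos _ hnu
    have hbpos : 0 < ‖M.h b‖ := norm_pos_iff.2 (hBf.h_ne b hb)
    have hnn : nu1 (-(M'.Λ j ∘ₗ L)) = nu1 (M'.Λ j ∘ₗ L) := by
      unfold nu1
      exact Finset.sum_congr rfl fun i _ => by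
        rw [LinearMap.neg_apply, abs_neg]
    have hneg : M'.Λ j (L (M.h b)) ≤ -(c * ‖M.h b‖) := by
      rw [hnn, LinearMap.neg_apply, LinearMap.comp_apply] at hbν
      have h1 := hc1' (L, j) ⟨hL, Set.mem_univ _⟩
      have h2 : c * ‖M.h b‖ ≤ c0 * nu1 (M'.Λ j ∘ₗ L) * ‖M.h b‖ := by
        rw [hc]
        exact mul_le_mul_of_nonneg_right (mul_le_mul_of_nonneg_left h1 hc0.le) hbpos.le
      linarith
    obtain ⟨c', B', hcr⟩ := M'.crossed j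
    obtain ⟨Z, r, hZ, hZr⟩ := M'.chain b (by rw [hag.C]; exact hBf.mem_C b hb)
    obtain ⟨C₂, hC₂, hfin⟩ := log_law M'.isLen hcr b hZ (M'.deep j)
      (N0 := {v | v ∈ M'.C ∧ M'.h v = 0}) (by rw [hZr]; exact fun v hv => hv.1)
      (fun v hv => ⟨M'.C.inv_mem hv.1, by rw [M'.h_inv, hv.2, neg_zero]⟩)
      M'.sz_nonneg (fun v _ => M'.sz_inv v)
      (by rw [hZr]; exact M'.dec) (nu1 (M'.Λ j) * (|B| + 2 * cK)) (M'.KK_nonneg K)
      (show 0 < c / 2 * ‖M.h b‖ by positivity)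
    refine ⟨C₂, fun Ψ hΨ hray g v hv hv0 => ?_⟩
    have h1 := hfin (M'.ext Ψ) (M'.selfQI_ext hΨ)
      (descent hag hη0.le hray (hcK Ψ hΨ) j hb hneg (hηc j)) g v
      ⟨by rw [hag.C]; exact hv, by rw [hag.h]; exact hv0⟩
    rw [hag.sz, hag.h] at h1
    exact h1
  obtain ⟨C₂, hC₂, hall⟩ := exists_sum_bound (hLL.prod Set.finite_univ) (P := fun p C₂ =>
      ∀ Ψ : Γ → Γ, QIMap S S Ψ K → RayAt M Bf p.1 η B Ψ → ∀ g, ∀ v ∈ M.C, M.h v = 0 →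
        |M'.Λ p.2 (M.h (M'.ext Ψ (g * v))) - M'.Λ p.2 (M.h (M'.ext Ψ g))| ≤
          C₂ * Real.log (2 + szA M v)) (by
      intro p c c' hcc hP Ψ hΨ hray g v hv hv0
      refine (hP Ψ hΨ hray g v hv hv0).trans (mul_le_mul_of_nonneg_right hcc ?_)
      exact Real.log_nonneg (by have := szA_nonneg (M := M) v; linarith)) hone
  obtain ⟨c₃, hc₃, hcb⟩ := exists_coord_bound M'.Λ M'.Λ_inj
  refine ⟨c₃ * C₂, by positivity, fun Ψ hΨ g v hv hv0 i => ?_⟩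
  obtain ⟨L, hL, hray, -⟩ := hlaw Ψ hΨ
  have hlog : 0 ≤ Real.log (2 + szA M v) :=
    Real.log_nonneg (by have := szA_nonneg (M := M) v; linarith)
  have h3 := hcb (M.h (M'.ext Ψ (g * v)) - M.h (M'.ext Ψ g)) (C₂ * Real.log (2 + szA M v))
    (mul_nonneg hC₂ hlog) (fun j => by
      rw [map_sub]
      exact hall (L, j) ⟨hL, Set.mem_univ _⟩ Ψ hΨ hray g v hv hv0) i
  rw [mul_assoc]
  exact h3

end

end Crest.Agent.R182.CLaw
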