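/-
R182, module CLAW (helper860), part 4: the core law implies the law.
-/
import Mathlib
import Crest.Agent.R182.CLaw3

set_option autoImplicit false

open scoped Pointwise

namespace Crest.Agent.R182.CLaw

open Crest.GroupTheory Crest.Geometry Crest.Agent.R182.QI Crest.Agent.R182.FinPath
  Crest.Agent.R182.FinRed Crest.Agent.R182.Bnd Crest.Agent.R182.Core Crest.Agent.R182.OneScale

variable {Γ : Type*} [Group Γ] {k : ℕ} {S : Set Γ} {π : Γ →* Multiplicative (Fin k → ℤ)}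
  {A : Set Γ} {x : Fin k → Γ}

section

variable (M : BModel S π)

/-- the ray law along products of powers of elements of `Bf` -/
theorem ray_list {Bf : Set M.G} {L : (Fin k → ℝ) →ₗ[ℝ] (Fin k → ℝ)} {κ B : ℝ} {Ψ : Γ → Γ}
    (hray : RayAt M Bf L κ B Ψ) (l : List (M.G × ℕ)) (hl : ∀ p ∈ l, p.1 ∈ Bf) (g : M.G)
    (i : Fin k) :
    |fh M Ψ (g * (l.map fun p => p.1 ^ p.2).prod) i - fh M Ψ g i
      - L (M.h (l.map fun p => p.1 ^ p.2).prod) i| ≤
      κ * (l.map fun p => (p.2 : ℝ) * ‖M.h p.1‖).sum + l.length * B := by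
  induction l generalizing g with
  | nil => simp [OneScale.h_one]
  | cons p l ih =>
    rw [List.map_cons, List.prod_cons, List.map_cons, List.sum_cons, List.length_cons]
    have h1 := ih (fun q hq => hl q (List.mem_cons_of_mem _ hq)) (g * p.1 ^ p.2)
    have h2 := hray g p.1 (hl p (by simp)) p.2 i
    have e1 : g * (p.1 ^ p.2 * (l.map fun p => p.1 ^ p.2).prod) =
        g * p.1 ^ p.2 * (l.map fun p => p.1 ^ p.2).prod := by rw [mul_assoc]
    have e2 : L (M.h (p.1 ^ p.2 * (l.map fun p => p.1 ^ p.2).prod)) i =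
        p.2 * L (M.h p.1) i + L (M.h (l.map fun p => p.1 ^ p.2).prod) i := by
      rw [M.h_mul, OneScale.h_pow, map_add, map_smul]
      simp
    rw [e1, e2]
    push_cast
    rw [abs_le] at h1 h2 ⊢
    constructor <;> linarith [h1.1, h1.2, h2.1, h2.2]

theorem wd_list {R : ℝ} (l : List (M.G × ℕ)) (hl : ∀ p ∈ l, p.1 ∈ M.C ∧ M.len p.1 ≤ R) :
    Wd M R (l.map fun p => (p.2 : ℝ)).sum (l.map fun p => p.1 ^ p.2).prod := by
  induction l with
  | nil => simpa using Wd.one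
  | cons p l ih =>
    rw [List.map_cons, List.map_cons, List.prod_cons, List.sum_cons]
    refine Wd.mul ?_ (ih fun q hq => hl q (List.mem_cons_of_mem _ hq))
    have := (Wd.single (hl p (by simp)).1 (hl p (by simp)).2).pow (R := R) p.2
    simpa using this

theorem norm_h_ge {b : M.G} (hb : M.h b ≠ 0) : 1 ≤ ‖M.h b‖ := by
  obtain ⟨v, hv⟩ := M.h_int b
  obtain ⟨i, hi⟩ : ∃ i, M.h b i ≠ 0 := by
    by_contra hall
    push Not at hall
    exact hb (funext hall)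
  refine le_trans ?_ (norm_le_pi_norm (M.h b) i)
  rw [hv i] at hi ⊢
  have h1 : v i ≠ 0 := by
    intro h0; apply hi; rw [h0]; simp
  rw [Real.norm_eq_abs]
  have : 1 ≤ |v i| := Int.one_le_abs h1
  exact_mod_cast this

/-- **decomposition of elements of `C`** along the verticals: `c = z' · b₁^{n₁} ⋯ b_r^{n_r} · t w`. -/
theorem exists_decomp {c0 : ℝ} (hc0 : 0 < c0) {Bf : Set M.G} (hBf : Verts M c0 Bf) :
    ∃ (r : ℕ) (R D : ℝ), M.a ≤ R ∧ 0 ≤ D ∧ ∀ c ∈ M.C, ∃ (l : List (M.G × ℕ)) (w : Fin k → ℤ)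
      (z' : M.G), l.length ≤ r ∧ (∀ p ∈ l, p.1 ∈ Bf) ∧
      c = z' * (l.map fun p => p.1 ^ p.2).prod * M.t w ∧ z' ∈ M.C ∧ M.h z' = 0 ∧
      (l.map fun p => (p.2 : ℝ) * ‖M.h p.1‖).sum ≤ ‖M.h c‖ / c0 ∧
      (n1 w : ℝ) ≤ D ∧ (∀ i, |(w i : ℝ)| ≤ D) ∧
      ∀ q, Wd M R q c → Wd M R (q + ‖M.h c‖ / c0 + D) z' := by
  classical
  have ha := a0 M
  set F := hBf.fin.toFinset with hF
  set r := F.card with hr
  let b : Fin r → M.G := fun i => (F.equivFin.symm i : M.G)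
  have hb : ∀ i, b i ∈ Bf := fun i => hBf.fin.mem_toFinset.1 (F.equivFin.symm i).2
  have hbs : ∀ g ∈ Bf, ∃ i, b i = g := fun g hg =>
    ⟨F.equivFin ⟨g, hBf.fin.mem_toFinset.2 hg⟩, by simp [b]⟩
  have hbn : ∀ i, 1 ≤ ‖M.h (b i)‖ := fun i => norm_h_ge M (hBf.h_ne _ (hb i))
  set D₀ : ℝ := ∑ i, ‖M.h (b i)‖ with hD₀
  have hD₀0 : 0 ≤ D₀ := Finset.sum_nonneg fun i _ => norm_nonneg _
  set R : ℝ := M.a + ∑ i, M.len (b i) with hR
  have hRb : ∀ i, M.len (b i) ≤ R := fun i => by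
    have := Finset.single_le_sum (f := fun i => M.len (b i)) (fun i _ => M.isLen.nonneg _)
      (Finset.mem_univ i)
    rw [hR]; linarith
  have hRa : M.a ≤ R := by
    have : 0 ≤ ∑ i, M.len (b i) := Finset.sum_nonneg fun i _ => M.isLen.nonneg _
    rw [hR]; linarith
  set D : ℝ := D₀ + k * D₀ with hD
  have hD0 : 0 ≤ D := by positivity
  refine ⟨r, R, D, hRa, hD0, fun c hc => ?_⟩
  set u := M.h c with hu
  obtain ⟨w₀, hw₀, hw₀u, hw₀s⟩ := exists_comb (fun i => (‖M.h (b i)‖)⁻¹ • M.h (b i)) hc0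
    (fun ν hν => by
      obtain ⟨g, hg, hgν⟩ := hBf.pos ν hν
      obtain ⟨i, rfl⟩ := hbs g hg
      refine ⟨i, ?_⟩
      have hp : 0 < ‖M.h (b i)‖ := by linarith [hbn i]
      rw [map_smul, smul_eq_mul, ← div_eq_inv_mul, le_div_iff₀ hp]
      exact hgν) u
  let n : Fin r → ℕ := fun i => ⌊w₀ i / ‖M.h (b i)‖⌋₊
  have hp : ∀ i, 0 < ‖M.h (b i)‖ := fun i => by linarith [hbn i]
  have hn1 : ∀ i, (n i : ℝ) ≤ w₀ i / ‖M.h (b i)‖ := fun i =>
    Nat.floor_le (div_nonneg (hw₀ i) (norm_nonneg _))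
  have hn2 : ∀ i, w₀ i / ‖M.h (b i)‖ - n i ≤ 1 := fun i => by
    have := (Nat.lt_floor_add_one (w₀ i / ‖M.h (b i)‖)).le
    linarith
  let l : List (M.G × ℕ) := List.ofFn fun i => (b i, n i)
  set P := (l.map fun p => p.1 ^ p.2).prod with hP
  have hlmem : ∀ p ∈ l, p.1 ∈ Bf := by
    intro p hp
    rw [List.mem_ofFn] at hp
    obtain ⟨i, rfl⟩ := hp
    exact hb i
  have hhP : M.h P = ∑ i, (n i : ℝ) • M.h (b i) := by
    have key : ∀ (l : List M.G), M.h l.prod = (l.map M.h).sum := by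
      intro l
      induction l with
      | nil => simp [OneScale.h_one]
      | cons s l ih => rw [List.prod_cons, M.h_mul, ih, List.map_cons, List.sum_cons]
    rw [hP, key]
    simp only [l, List.map_ofFn, List.sum_ofFn, Function.comp]
    exact Finset.sum_congr rfl fun i _ => OneScale.h_pow M _ _
  have hsum : (l.map fun p => (p.2 : ℝ) * ‖M.h p.1‖).sum = ∑ i, (n i : ℝ) * ‖M.h (b i)‖ := by
    simp only [l, List.map_ofFn, List.sum_ofFn, Function.comp]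
  have hsum1 : ∑ i, (n i : ℝ) * ‖M.h (b i)‖ ≤ ‖u‖ / c0 := by
    refine (Finset.sum_le_sum fun i _ => ?_).trans hw₀s
    have := mul_le_mul_of_nonneg_right (hn1 i) (hp i).le
    rwa [div_mul_cancel₀ _ (hp i).ne'] at this
  -- remainder
  have hrem : ‖u - M.h P‖ ≤ D₀ := by
    have e1 : u - M.h P = ∑ i, (w₀ i / ‖M.h (b i)‖ - n i) • M.h (b i) := by
      conv_lhs => rw [← hw₀u, hhP]
      rw [← Finset.sum_sub_distrib]
      refine Finset.sum_congr rfl fun i _ => ?_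
      rw [sub_smul, smul_smul, div_eq_mul_inv]
    rw [e1, hD₀]
    refine (norm_sum_le _ _).trans (Finset.sum_le_sum fun i _ => ?_)
    rw [norm_smul, Real.norm_eq_abs, abs_of_nonneg (by linarith [hn1 i])]
    have := mul_le_mul_of_nonneg_right (hn2 i) (hp i).le
    linarith
  obtain ⟨w, hw⟩ := M.h_int (c * P⁻¹)
  have hwu : ∀ i, (w i : ℝ) = (u - M.h P) i := fun i => by
    rw [← hw i, M.h_mul, OneScale.h_inv, ← sub_eq_add_neg]
  have hwD : ∀ i, |(w i : ℝ)| ≤ D₀ := fun i => by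
    rw [hwu i]; exact (norm_le_pi_norm (u - M.h P) i).trans hrem
  have hPw : Wd M R (‖u‖ / c0) P := by
    have h1 : Wd M R (l.map fun p => (p.2 : ℝ)).sum P := by
      refine wd_list M l fun p hp => ?_
      obtain ⟨i, hi⟩ := hbs p.1 (hlmem p hp)
      exact ⟨hBf.mem_C p.1 (hlmem p hp), by rw [← hi]; exact hRb i⟩
    refine h1.mono le_rfl ?_
    have e1 : (l.map fun p => (p.2 : ℝ)).sum = ∑ i, (n i : ℝ) := by
      simp only [l, List.map_ofFn, List.sum_ofFn, Function.comp]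
    rw [e1]
    refine (Finset.sum_le_sum fun i _ => ?_).trans hsum1
    exact le_mul_of_one_le_right (Nat.cast_nonneg _) (hbn i)
  have hPC : P ∈ M.C := hPw.mem
  have hn1w : (n1 w : ℝ) ≤ k * D₀ := n1_le w hwD
  refine ⟨l, w, c * (P * M.t w)⁻¹, by simp [l], hlmem, ?_, ?_, ?_, ?_, ?_, fun i => ?_, ?_⟩
  · rw [← hP]; group
  · exact M.C.mul_mem hc (M.C.inv_mem (M.C.mul_mem hPC (wd_t w).mem))
  · rw [M.h_mul, OneScale.h_inv, M.h_mul]
    have e1 : M.h (M.t w) = u - M.h P := funext fun i => by rw [M.h_t, hwu]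
    rw [e1, ← hu]; abel
  · rw [hsum]; exact hsum1
  · rw [hD]; linarith
  · refine (hwD i).trans ?_
    rw [hD]
    have : (0 : ℝ) ≤ k * D₀ := by positivity
    linarith
  · intro q hq
    have h1 := hq.mul (hPw.mul ((wd_t w).mono hRa hn1w)).inv
    refine h1.mono le_rfl ?_
    rw [hD]; linarith

end

section

variable {M : BModel S π} {M' : CModel S π A x M.G}

/-- the law with fixed accuracy -/
def SubEAt (M : BModel S π) (_M' : CModel S π A x M.G) (L : (Fin k → ℝ) →ₗ[ℝ] (Fin k → ℝ))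
    (ε C : ℝ) (Φ : M.G → M.G) : Prop :=
  ∀ g X (v : Fin k → ℤ) (n : ℕ) (i : Fin k),
    |M.h (Φ (g * (M.ex X * M.t v ^ n))) i - M.h (Φ g) i - L (M.h (M.ex X * M.t v ^ n)) i| ≤
      ε * M.len (M.ex X * M.t v ^ n) + C

/-- **main step**: the law with accuracy `ε` for the displacements `ex X * t v ^ n`. -/
theorem exists_subEAt (hag : Agree M M') {c0 : ℝ} (hc0 : 0 < c0)
    {LL : Set ((Fin k → ℝ) →ₗ[ℝ] (Fin k → ℝ))} (hLL : LL.Finite)
    (hne : ∀ L ∈ LL, ∀ j, M'.Λ j ∘ₗ L ≠ 0) {K : ℕ} (h : CoreLaw M LL c0 K) {ε : ℝ}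
    (hε : 0 < ε) :
    ∃ C : ℝ, ∀ Ψ : Γ → Γ, QIMap S S Ψ K → ∃ L ∈ LL, SubEAt M M' L ε C (M'.ext Ψ) := by
  classical
  have ha := a0 M
  have ha1 := M.one_le_a
  obtain ⟨cK, hcK0, hcK⟩ := fh_ext hag K
  obtain ⟨C₂, hC₂0, hzl⟩ := zl hag hc0 hLL hne h
  obtain ⟨cl, hcl0, hlip⟩ := fh_lip M K
  -- uniform bound of the linear maps
  obtain ⟨cL, hcL0, hcL⟩ := exists_sum_bound hLL (P := fun L c => ∀ (u : Fin k → ℝ) (B : ℝ),
    0 ≤ B → (∀ i, |u i| ≤ B) → ∀ i, |L u i| ≤ c * B)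
    (fun L c c' hcc hP u B hB hu i => (hP u B hB hu i).trans
      (mul_le_mul_of_nonneg_right hcc hB)) (fun L _ => by
      obtain ⟨c, -, hc⟩ := exists_lin_bound L
      exact ⟨c, hc⟩)
  -- accuracy
  set q1 : ℝ := 1 + k * (M.a * M.a) with hq1
  set q2 : ℝ := M.a / c0 with hq2
  set q3 : ℝ := (k + 1 / c0) * M.a with hq3
  have hq10 : 0 < q1 := by positivity
  have hq20 : 0 ≤ q2 := by positivity
  have hq30 : 0 ≤ q3 := by positivity
  set η : ℝ := ε / (q1 + q2 + q3) with hη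
  have hη0 : 0 < η := by positivity
  obtain ⟨Bf, hBf, B, hlaw⟩ := h η hη0
  obtain ⟨r, R, D, hRa, hD0, hdec⟩ := exists_decomp M hc0 hBf
  obtain ⟨C₃, hC₃0, hC₃⟩ := exists_szA M R
  obtain ⟨C₄, hC₄0, hC₄⟩ := exists_log_le (C := C₂ * C₃) (by positivity) hη0
  refine ⟨(B + 2 * cK) + (η * D + C₄ + 2 * cK) + (r * |B| + 2 * cK) + (cl * (D * M.a + 1) + 2 * cK)
    + cL * D, fun Ψ hΨ => ?_⟩
  obtain ⟨L, hL, hray, hE, -⟩ := hlaw Ψ hΨ
  refine ⟨L, hL, fun g X v n i => ?_⟩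
  set Φ := M'.ext Ψ with hΦ
  set c := M.t v ^ n with hc
  set ℓ := M.len (M.ex X * c) with hℓ
  have hℓ0 : 0 ≤ ℓ := M.isLen.nonneg _
  have hWc : Wd M R (n * n1 v) c := ((wd_t v).mono hRa le_rfl).pow n
  have hcC : c ∈ M.C := hWc.mem
  have hhc : M.h c = (n : ℝ) • fun i => (v i : ℝ) := by
    rw [hc, OneScale.h_pow]
    congr 1
    exact funext (M.h_t v)
  have hhec : M.h (M.ex X * c) = M.h c := by rw [M.h_mul, M.h_ex, zero_add]
  set u := M.h c with hu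
  have huℓ : ‖u‖ ≤ M.a * ℓ := by
    refine (pi_norm_le_iff_of_nonneg (by positivity)).2 fun i => ?_
    rw [Real.norm_eq_abs, ← hhec]
    exact M.h_le _ i
  have hnv : (n : ℝ) * n1 v ≤ k * ‖u‖ := by
    have h1 : (n1 v : ℝ) ≤ k * ‖(fun i => (v i : ℝ) : Fin k → ℝ)‖ :=
      n1_le v fun i => by
        have := norm_le_pi_norm (fun i => (v i : ℝ) : Fin k → ℝ) i
        rwa [Real.norm_eq_abs] at this
    rw [hhc, norm_smul, Real.norm_eq_abs, Nat.abs_cast]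
    have := mul_le_mul_of_nonneg_left h1 (Nat.cast_nonneg n)
    linarith
  have hlenc : M.len c ≤ k * (M.a * M.a) * ℓ := by
    have h1 : Wd M M.a (n * n1 v) c := (wd_t v).pow n
    have h2 := h1.len_le ha
    refine h2.trans ((mul_le_mul_of_nonneg_right hnv ha).trans ?_)
    have h3 : (k : ℝ) * ‖u‖ * M.a ≤ k * (M.a * ℓ) * M.a := by gcongr
    linarith
  have hlenX : M.len (M.ex X) ≤ q1 * ℓ := by
    have h1 : M.ex X = (M.ex X * c) * c⁻¹ := by group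
    have h2 := M.isLen.mul (M.ex X * c) c⁻¹
    rw [← h1, M.isLen.inv] at h2
    rw [hq1]; linarith
  obtain ⟨l, w, z', hlr, hlB, hcz, hz'C, hz'0, hsum, hn1w, hwD, hWz⟩ := hdec c hcC
  set P := (l.map fun p => p.1 ^ p.2).prod with hP
  -- the steps
  have hcon : ∀ y, |M.h (Φ y) i - fh M Ψ y i| ≤ cK := fun y => hcK Ψ hΨ y i
  have s1 := hE g X i
  have s2 := hzl Ψ hΨ (g * M.ex X) z' hz'C hz'0 i
  have s3 := ray_list M hray l hlB (g * M.ex X * z') i
  have s4 := hlip Ψ hΨ (g * M.ex X * z' * P) (M.t w) i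
  rw [← hP] at s3
  have e0 : g * (M.ex X * c) = g * M.ex X * z' * P * M.t w := by
    rw [hcz]; group
  rw [e0, hhec]
  -- bounds
  have b1 : η * M.len (M.ex X) ≤ η * (q1 * ℓ) := mul_le_mul_of_nonneg_left hlenX hη0.le
  have b2 : C₂ * Real.log (2 + szA M z') ≤ η * ((k + 1 / c0) * (M.a * ℓ) + D) + C₄ := by
    have h1 := hC₃ _ _ (hWz _ hWc) hz'0
    have hq0 : 0 ≤ (n : ℝ) * n1 v + ‖u‖ / c0 + D := by positivity
    have h2 := hC₄ _ hq0
    have h3 : C₂ * Real.log (2 + szA M z') ≤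
        C₂ * (C₃ * Real.log (2 + ((n : ℝ) * n1 v + ‖u‖ / c0 + D))) :=
      mul_le_mul_of_nonneg_left h1 hC₂0
    have h4 : (n : ℝ) * n1 v + ‖u‖ / c0 + D ≤ (k + 1 / c0) * (M.a * ℓ) + D := by
      have h5 : (k + 1 / c0) * ‖u‖ ≤ (k + 1 / c0) * (M.a * ℓ) := by gcongr
      have h6 : (k + 1 / c0) * ‖u‖ = k * ‖u‖ + ‖u‖ / c0 := by ring
      linarith
    have h5 := mul_le_mul_of_nonneg_left h4 hη0.le
    linarith
  have b3 : η * (l.map fun p => (p.2 : ℝ) * ‖M.h p.1‖).sum + l.length * B ≤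
      η * (q2 * ℓ) + r * |B| := by
    refine add_le_add (mul_le_mul_of_nonneg_left ?_ hη0.le) ?_
    · refine hsum.trans ?_
      rw [hq2, div_mul_eq_mul_div]
      gcongr
    · calc (l.length : ℝ) * B ≤ l.length * |B| :=
            mul_le_mul_of_nonneg_left (le_abs_self B) (Nat.cast_nonneg _)
        _ ≤ r * |B| := by
            have : (l.length : ℝ) ≤ r := by exact_mod_cast hlr
            gcongr
  have b4 : cl * (M.len (M.t w) + 1) ≤ cl * (D * M.a + 1) := by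
    have h1 := (wd_t w).len_le (M := M) ha
    have h2 := mul_le_mul_of_nonneg_right hn1w ha
    gcongr
    linarith
  have b5 : |L u i - L (M.h P) i| ≤ cL * D := by
    have h1 : u = M.h z' + M.h P + M.h (M.t w) := by
      rw [hu, ← M.h_mul, ← M.h_mul, ← hcz]
    have h2 : u - M.h P = M.h (M.t w) := by rw [h1, hz'0]; abel
    have h3 : L u i - L (M.h P) i = L (M.h (M.t w)) i := by
      rw [← h2, map_sub]; rfl
    rw [h3]
    refine hcL L hL _ D hD0 (fun i => ?_) i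
    rw [M.h_t]; exact hwD i
  have hfin : η * (q1 * ℓ) + η * (q3 * ℓ) + η * (q2 * ℓ) = ε * ℓ := by
    have h1 : η * (q1 + q2 + q3) = ε := by
      rw [hη, div_mul_cancel₀ _ (by positivity)]
    calc η * (q1 * ℓ) + η * (q3 * ℓ) + η * (q2 * ℓ) = η * (q1 + q2 + q3) * ℓ := by ring
      _ = _ := by rw [h1]
  have hq3' : η * ((k + 1 / c0) * (M.a * ℓ) + D) = η * (q3 * ℓ) + η * D := by
    rw [hq3]; ring
  rw [hq3'] at b2
  have c1 := hcon g
  have c2 := hcon (g * M.ex X)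
  have c3 := hcon (g * M.ex X * z')
  have c4 := hcon (g * M.ex X * z' * P * M.t w)
  rw [abs_le] at s1 s2 s3 s4 b5 c1 c2 c3 c4 ⊢
  constructor
  · linarith [s1.1, s1.2, s2.1, s2.2, s3.1, s3.2, s4.1, s4.2, b5.1, b5.2, c1.1, c1.2, c2.1, c2.2,
      c3.1, c3.2, c4.1, c4.2]
  · linarith [s1.1, s1.2, s2.1, s2.2, s3.1, s3.2, s4.1, s4.2, b5.1, b5.2, c1.1, c1.2, c2.1, c2.2,
      c3.1, c3.2, c4.1, c4.2]

/-- comparison of the linear parts -/
theorem subEAt_compare {L₁ L₂ : (Fin k → ℝ) →ₗ[ℝ] (Fin k → ℝ)} {ε₁ ε₂ C₁ C₂ : ℝ}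
    {Φ : M.G → M.G} (h1 : SubEAt M M' L₁ ε₁ C₁ Φ) (h2 : SubEAt M M' L₂ ε₂ C₂ Φ)
    (hε₁ : 0 ≤ ε₁) (hε₂ : 0 ≤ ε₂) (v : Fin k → ℤ) (i : Fin k) :
    |L₁ (fun i => (v i : ℝ)) i - L₂ (fun i => (v i : ℝ)) i| ≤
      (ε₁ + ε₂) * M.len (M.t v) := by
  set d := |L₁ (fun i => (v i : ℝ)) i - L₂ (fun i => (v i : ℝ)) i| with hd
  set m := (ε₁ + ε₂) * M.len (M.t v) with hm
  have key : ∀ n : ℕ, n * d ≤ n * m + (C₁ + C₂) := by
    intro n
    have e1 := h1 1 0 v n i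
    have e2 := h2 1 0 v n i
    simp only [OneScale.ex_zero, one_mul] at e1 e2
    have e3 : M.h (M.t v ^ n) = (n : ℝ) • fun i => (v i : ℝ) := by
      rw [OneScale.h_pow]; congr 1; exact funext (M.h_t v)
    rw [e3, map_smul, Pi.smul_apply, smul_eq_mul] at e1 e2
    have e4 : M.len (M.t v ^ n) ≤ n * M.len (M.t v) := Bnd.IsLen.pow M.isLen _ _
    have e5 : ε₁ * M.len (M.t v ^ n) ≤ ε₁ * (n * M.len (M.t v)) :=
      mul_le_mul_of_nonneg_left e4 hε₁
    have e6 : ε₂ * M.len (M.t v ^ n) ≤ ε₂ * (n * M.len (M.t v)) :=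
      mul_le_mul_of_nonneg_left e4 hε₂
    have e7 : n * d = |n * L₁ (fun i => (v i : ℝ)) i - n * L₂ (fun i => (v i : ℝ)) i| := by
      rw [hd, ← mul_sub, abs_mul, Nat.abs_cast]
    rw [e7, hm]
    rw [abs_le] at e1 e2 ⊢
    constructor <;> nlinarith [e1.1, e1.2, e2.1, e2.2]
  by_contra hlt
  push Not at hlt
  obtain ⟨n, hn⟩ := exists_nat_gt ((C₁ + C₂) / (d - m))
  rw [div_lt_iff₀ (by linarith)] at hn
  have := key n
  nlinarith

/-- **the core law implies the restricted uniform sublinear law** -/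
theorem usle_of_coreLaw (hag : Agree M M')
    (h : ∀ K : ℕ, ∃ (LL : Set ((Fin k → ℝ) →ₗ[ℝ] (Fin k → ℝ))) (c0 : ℝ), LL.Finite ∧
      (∀ L ∈ LL, ∀ j, M'.Λ j ∘ₗ L ≠ 0) ∧ 0 < c0 ∧ CoreLaw M LL c0 K) : M'.USLE := by
  classical
  intro K
  obtain ⟨LL, c0, hLL, hne, hc0, hcore⟩ := h K
  have hex : ∀ ε : ℝ, ∃ C : ℝ, 0 < ε → ∀ Ψ : Γ → Γ, QIMap S S Ψ K → ∃ L ∈ LL,
      SubEAt M M' L ε C (M'.ext Ψ) := by
    intro ε
    by_cases hε : 0 < ε
    · obtain ⟨C, hC⟩ := exists_subEAt hag hc0 hLL hne hcore hε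
      exact ⟨C, fun _ => hC⟩
    · exact ⟨0, fun h => absurd h hε⟩
  choose C hC using hex
  -- separation of the elements of `LL`
  obtain ⟨δ, hδ, hsep⟩ : ∃ δ : ℝ, 0 < δ ∧ ∀ L₁ ∈ LL, ∀ L₂ ∈ LL,
      (∀ (i j : Fin k), |L₁ (Pi.single j 1) i - L₂ (Pi.single j 1) i| < δ) → L₁ = L₂ := by
    have hpair : ((LL ×ˢ LL) ∩ {p | p.1 ≠ p.2}).Finite := (hLL.prod hLL).inter_of_left _
    obtain ⟨δ, hδ, hδ'⟩ := exists_pos_lb hpair
      (fun p => ∑ j, ∑ i, |p.1 (Pi.single j 1) i - p.2 (Pi.single j 1) i|) (by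
        rintro ⟨L₁, L₂⟩ ⟨-, hne⟩
        have h0 : 0 ≤ ∑ j, ∑ i, |L₁ (Pi.single j 1) i - L₂ (Pi.single j 1) i| :=
          Finset.sum_nonneg fun _ _ => Finset.sum_nonneg fun _ _ => abs_nonneg _
        refine lt_of_le_of_ne h0 fun h1 => hne ?_
        refine LinearMap.pi_ext' fun j => LinearMap.ext_ring (funext fun i => ?_)
        have h2 := (Finset.sum_eq_zero_iff_of_nonneg (fun j _ =>
          Finset.sum_nonneg fun i _ => abs_nonneg _)).1 h1.symm j (Finset.mem_univ j)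
        have h3 := (Finset.sum_eq_zero_iff_of_nonneg (fun i _ => abs_nonneg _)).1 h2 i
          (Finset.mem_univ i)
        simpa [sub_eq_zero] using h3)
    refine ⟨δ / (k * k + 1), by positivity, fun L₁ h₁ L₂ h₂ hlt => ?_⟩
    by_contra hne
    have h1 := hδ' (L₁, L₂) ⟨⟨h₁, h₂⟩, hne⟩
    have h2 : ∑ j, ∑ i, |L₁ (Pi.single j 1) i - L₂ (Pi.single j 1) i| ≤
        ∑ _j : Fin k, ∑ _i : Fin k, δ / (k * k + 1) :=
      Finset.sum_le_sum fun j _ => Finset.sum_le_sum fun i _ => (hlt i j).le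
    have h3 : ∑ _j : Fin k, ∑ _i : Fin k, δ / ((k : ℝ) * k + 1) = (k * k) * (δ / (k * k + 1)) := by
      simp; ring
    rw [h3] at h2
    have h4 : ((k : ℝ) * k) * (δ / (k * k + 1)) < δ := by
      rw [mul_div_assoc', div_lt_iff₀ (by positivity)]
      nlinarith
    have h1' : δ ≤ ∑ j, ∑ i, |L₁ (Pi.single j 1) i - L₂ (Pi.single j 1) i| := h1
    linarith
  -- the critical accuracy
  set ml : ℝ := ∑ j : Fin k, M.len (M.t (Pi.single j 1)) with hml
  have hml0 : 0 ≤ ml := Finset.sum_nonneg fun j _ => M.isLen.nonneg _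
  set ε' : ℝ := δ / (2 * (ml + 1) * 2) with hε'
  have hε'0 : 0 < ε' := by positivity
  refine ⟨LL, fun ε => C (min ε ε'), hLL, hne, fun Ψ hΨ => ?_⟩
  obtain ⟨L, hL, hLs⟩ := hC ε' hε'0 Ψ hΨ
  refine ⟨L, hL, fun ε hε g e he v n i => ?_⟩
  have hmin : 0 < min ε ε' := lt_min hε hε'0
  obtain ⟨L₂, hL₂, hLs₂⟩ := hC (min ε ε') hmin Ψ hΨ
  have heq : L₂ = L := by
    refine hsep L₂ hL₂ L hL fun i j => ?_
    have h1 := subEAt_compare hLs₂ hLs hmin.le hε'0.le (Pi.single j 1) i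
    have e1 : (fun l => ((Pi.single j (1:ℤ) : Fin k → ℤ) l : ℝ)) = Pi.single j (1:ℝ) := by
      ext l; by_cases hl : l = j
      · subst hl; simp
      · simp [hl]
    rw [e1] at h1
    refine h1.trans_lt ?_
    have h2 : M.len (M.t (Pi.single j 1)) ≤ ml :=
      Finset.single_le_sum (f := fun j : Fin k => M.len (M.t (Pi.single j 1)))
        (fun j _ => M.isLen.nonneg _) (Finset.mem_univ j)
    have h3 : min ε ε' + ε' ≤ 2 * ε' := by
      have := min_le_right ε ε'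
      linarith
    calc (min ε ε' + ε') * M.len (M.t (Pi.single j 1)) ≤ (2 * ε') * ml :=
          mul_le_mul h3 h2 (M.isLen.nonneg _) (by positivity)
      _ = δ * (ml / (2 * (ml + 1))) := by rw [hε']; field_simp
      _ < δ := by
          have : ml / (2 * (ml + 1)) < 1 := by
            rw [div_lt_one (by positivity)]; linarith
          nlinarith
  rw [heq] at hLs₂
  rw [hag.E] at he
  obtain ⟨X, rfl⟩ := he
  have h1 := hLs₂ g X v n i
  rw [hag.h, hag.len, hag.t]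
  refine h1.trans (add_le_add ?_ le_rfl)
  exact mul_le_mul_of_nonneg_right (min_le_left _ _) (M.isLen.nonneg _)

/-- **the core law implies the law used by the final reduction.** -/
theorem law_of_coreLaw (M : BModel S π) (hE : Extra M A x)
    (h : ∀ K : ℕ, ∃ (LL : Set ((Fin k → ℝ) →ₗ[ℝ] (Fin k → ℝ))) (c0 : ℝ), LL.Finite ∧
      (∀ L ∈ LL, ∀ j, M.Λ j ∘ₗ L ≠ 0) ∧ 0 < c0 ∧ CoreLaw M LL c0 K) : Law S π A x := by
  obtain ⟨aC, haC, hs⟩ := exists_split hE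
  have hag : Agree M (toC M aC haC hE.chain hs) := ⟨rfl, rfl, rfl, rfl, rfl, rfl, rfl⟩
  exact CModel.law_of_usle _ (usle_of_coreLaw hag h)

end

end Crest.Agent.R182.CLaw
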