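/-
R182, module ASM (helper860), part 2: final assembly of S0272 from the real model `BModel` with the
extra facts `Extra` and the core law (or the law at one scale).
-/
import Mathlib
import Crest.Agent.R182.Asm
import Crest.Agent.R182.CLaw4

set_option autoImplicit false

namespace Crest.Agent.R182.Asm

open Crest.GroupTheory Crest.Geometry Crest.Agent.R182.QI Crest.Agent.R182.FinPath
  Crest.Agent.R182.FinRed Crest.Agent.R182.FinNil Crest.Agent.R182.Polyc Crest.Agent.R182.Wk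
  Crest.Agent.R182.Bnd Crest.Agent.R182.Core Crest.Agent.R182.OneScale Crest.Agent.R182.CLaw
open scoped Pointwise

universe u v

/-- A real model with the extra facts exists for (every generating set of) `Γ`. -/
def HasBModel (Γ : Type u) [Group Γ] (D : RootData Γ) : Prop :=
  ∀ (S : Finset Γ), Subgroup.closure (S : Set Γ) = ⊤ → ∀ (A : Set Γ), Sym A → A.Finite →
    Subgroup.closure A = D.π.ker →
    ∃ x : Fin D.k → Γ, (∀ i, hgt D.π (x i) = Pi.single i 1) ∧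
      ∃ M : BModel (S : Set Γ) D.π, Extra M A x

/-- The core law holds for every `BModel` (finite generating set, surjective `π`). -/
def HasCoreLaw : Prop :=
  ∀ (Γ : Type u) [Group Γ] (k : ℕ) (S : Finset Γ) (π : Γ →* Multiplicative (Fin k → ℤ)),
    Subgroup.closure (S : Set Γ) = ⊤ → Function.Surjective π → ∀ (M : BModel (S : Set Γ) π)
    (K : ℕ), ∃ (LL : Set ((Fin k → ℝ) →ₗ[ℝ] (Fin k → ℝ))) (c0 : ℝ), LL.Finite ∧
      (∀ L ∈ LL, ∀ j, M.Λ j ∘ₗ L ≠ 0) ∧ 0 < c0 ∧ CoreLaw M LL c0 K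

/-- The law at one scale holds for every `BModel`. -/
def HasOneScaleLaw : Prop :=
  ∀ (Γ : Type u) [Group Γ] (k : ℕ) (S : Finset Γ) (π : Γ →* Multiplicative (Fin k → ℤ)),
    Subgroup.closure (S : Set Γ) = ⊤ → Function.Surjective π → ∀ (M : BModel (S : Set Γ) π)
    (K : ℕ), ∃ (LL : Set ((Fin k → ℝ) →ₗ[ℝ] (Fin k → ℝ))) (c0 : ℝ), LL.Finite ∧
      (∀ L ∈ LL, Function.Injective L) ∧ 0 < c0 ∧ OneScaleLaw M LL c0 K

/-- bounded generation of `E` for every `BModel`. -/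
def HasBG : Prop :=
  ∀ (Γ : Type u) [Group Γ] (k : ℕ) (S : Finset Γ) (π : Γ →* Multiplicative (Fin k → ℤ)),
    Subgroup.closure (S : Set Γ) = ⊤ → Function.Surjective π → ∀ (M : BModel (S : Set Γ) π),
    ∃ (J : ℕ) (A : ℝ), 0 ≤ A ∧ BG M J A

theorem comp_ne {k : ℕ} {φ : (Fin k → ℝ) →ₗ[ℝ] ℝ} {L : (Fin k → ℝ) →ₗ[ℝ] (Fin k → ℝ)}
    (hφ : φ ≠ 0) (hL : Function.Injective L) : φ ∘ₗ L ≠ 0 := by
  intro h0
  have hs : Function.Surjective L := LinearMap.surjective_of_injective hL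
  refine hφ (LinearMap.ext fun y => ?_)
  obtain ⟨x, rfl⟩ := hs y
  have := congrArg (fun g : (Fin k → ℝ) →ₗ[ℝ] ℝ => g x) h0
  simpa using this

theorem hasCoreLaw (hBG : HasBG.{u}) (h : HasOneScaleLaw.{u}) : HasCoreLaw.{u} := by
  intro Γ _ k S π hS hπ M K
  obtain ⟨J, A, hA, hJ⟩ := hBG Γ k S π hS hπ M
  obtain ⟨LL, c0, hLL, hinj, hc0, hl⟩ := h Γ k S π hS hπ M K
  exact ⟨LL, c0, hLL, fun L hL j => comp_ne (M.Λ_ne j) (hinj L hL), hc0,
    coreLaw_of_oneScale M hA hJ hc0 hLL hl⟩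

theorem final' {P : Type u} {H : Type v} [Group P] [Group H]
    (hM : ∀ (Γ : Type u) [Group Γ] (D : RootData Γ), HasBModel Γ D)
    (hC : HasCoreLaw.{u}) (S : Finset P)
    (hS : Subgroup.closure (S : Set P) = ⊤) (T : Finset H)
    (hT : Subgroup.closure (T : Set H) = ⊤) (hP : IsVirtuallyPolycyclic P) (F : H → P)
    (hF : IsQuasiIsometry (wordDist (T : Set H)) (wordDist (S : Set P)) F) :
    IsVirtuallyPolycyclic H := by
  obtain ⟨G₁, -, hG₁, -, ⟨D⟩⟩ := exists_rootData hP (K := ⊤) (by simp)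
  have hfg : Group.FG P := ⟨S, hS⟩
  have hfg₁ : Group.FG G₁ := inferInstance
  obtain ⟨S₁, hS₁⟩ := hfg₁
  have hker : D.π.ker = D.N := by
    ext g
    rw [MonoidHom.mem_ker]
    exact D.mem_N g
  have hPC : PC D.π.ker := D.pz.pc.mono le_top
  have hnil : Group.IsNilpotent D.π.ker := by
    rw [hker]; exact D.nilp
  obtain ⟨A, hA, hAf, hcl, Cg, d, hgrow⟩ := pgr_of_nilpotent hPC hnil
  obtain ⟨x, hx, M, hE⟩ := hM G₁ D S₁ hS₁ A hA hAf hcl
  have hlaw : Bnd.Law (S₁ : Set G₁) D.π A x :=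
    law_of_coreLaw M hE (hC G₁ D.k S₁ D.π hS₁ D.surj M)
  exact final_of_law S hS T hT hP F hF G₁ S₁ hS₁ D.π D.surj A hA hAf hcl Cg d hgrow x hx hlaw

end Crest.Agent.R182.Asm
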