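/-
R182, module DNUM (helper329): D-numbers.  Connections along points with controlled image heights
(D2), the slab volume bound at an arbitrary vertex (D1), the sum rule.
-/
import Crest.Agent.R182.CapMain

set_option autoImplicit false
set_option linter.unusedSectionVars false

namespace Crest.Agent.R182.Cap

open MeasureTheory

variable {G H ι E : Type*} [Group G] [Group H] [MeasurableSpace H] [MeasurableMul₂ H]
    [MeasurableInv H] [Fintype ι] [NormedAddCommGroup E] [NormedSpace ℝ E]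

namespace CapModel

variable (M : CapModel G H ι E)

/-- `g` is the end of a chain of `r` allowed words with steps `≤ s`. -/
def Rch (W : Set G) (s : ℝ) (r : ℕ) (g : G) : Prop :=
  ∃ d : ℕ → G, d 0 = 1 ∧ d r = g ∧ (∀ j < r, M.dst (d j) (d (j + 1)) ≤ s) ∧ ∀ j ≤ r, d j ∈ W

/-- all image heights over the point `n` are at most `Z`. -/
def Low (Ψ : G → G) (x : G) (W : Set G) (Z : ι → ℝ) (n : H) : Prop :=
  ∀ g ∈ W, ∀ i, M.S.l i (M.hgt (Ψ (x * M.emb n * g))) ≤ Z i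

/-- the law `(θ, L)` holds over the point `n` for all allowed words. -/
def Good (Ψ : G → G) (x : G) (W : Set G) (θ : E) (L : E →ₗ[ℝ] E) (ε : ℝ) (n : H) : Prop :=
  ∀ g ∈ W, ‖M.hgt (Ψ (x * M.emb n * g)) - θ - L (M.hgt g)‖ ≤ ε

/-- `n'` is reached from `n` by one move at an allowed vertex. -/
def Mv (W : Set G) (s : ℝ) (r : ℕ) (n n' : H) : Prop :=
  ∃ (g : G) (u : H), n' = n * M.cj g u ∧ M.Rch W s r g ∧ M.len (M.emb u) ≤ s

variable {M}

theorem Rch.mono {W W' : Set G} {s s' : ℝ} {r : ℕ} {g : G} (h : M.Rch W s r g) (hW : W ⊆ W')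
    (hs : s ≤ s') : M.Rch W' s' r g := by
  obtain ⟨d, h0, h1, h2, h3⟩ := h
  exact ⟨d, h0, h1, fun j hj => (h2 j hj).trans hs, fun j hj => hW (h3 j hj)⟩

theorem Rch.mem {W : Set G} {s : ℝ} {r : ℕ} {g : G} (h : M.Rch W s r g) : g ∈ W := by
  obtain ⟨d, _, h1, _, h3⟩ := h
  rw [← h1]; exact h3 r le_rfl

theorem Rch.one_mem {W : Set G} {s : ℝ} {r : ℕ} {g : G} (h : M.Rch W s r g) : (1 : G) ∈ W := by
  obtain ⟨d, h1, _, _, h3⟩ := h
  rw [← h1]; exact h3 0 (Nat.zero_le r)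

theorem Rch.extend {W : Set G} {s : ℝ} {r r' : ℕ} {g : G} (h : M.Rch W s r g) (hs : 0 ≤ s)
    (hr : r ≤ r') : M.Rch W s r' g := by
  obtain ⟨d, h0, h1, h2, h3⟩ := h
  refine ⟨fun j => d (min j r), by simp [h0], by simp [h1, hr], ?_, fun j _ => h3 _ (by omega)⟩
  intro j hj
  by_cases h4 : j < r
  · have e1 : min j r = j := by omega
    have e2 : min (j + 1) r = j + 1 := by omega
    simp only [e1, e2]; exact h2 j h4
  · have e1 : min j r = r := by omega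
    have e2 : min (j + 1) r = r := by omega
    simp only [e1, e2, M.dst_self]; exact hs

theorem Low.mono {Ψ : G → G} {x : G} {W W' : Set G} {Z Z' : ι → ℝ} {n : H}
    (h : M.Low Ψ x W Z n) (hW : W' ⊆ W) (hZ : ∀ i, Z i ≤ Z' i) : M.Low Ψ x W' Z' n :=
  fun g hg i => (h g (hW hg) i).trans (hZ i)

theorem Good.mono {Ψ : G → G} {x : G} {W W' : Set G} {θ : E} {L : E →ₗ[ℝ] E} {ε ε' : ℝ} {n : H}
    (h : M.Good Ψ x W θ L ε n) (hW : W' ⊆ W) (hε : ε ≤ ε') : M.Good Ψ x W' θ L ε' n :=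
  fun g hg => (h g (hW hg)).trans hε

theorem Good.low {Ψ : G → G} {x : G} {W : Set G} {θ : E} {L : E →ₗ[ℝ] E} {ε : ℝ} {n : H}
    (h : M.Good Ψ x W θ L ε n) {Z : ι → ℝ}
    (hZ : ∀ g ∈ W, ∀ i, M.S.l i θ + M.S.l i (L (M.hgt g)) + M.C0 * ε ≤ Z i) :
    M.Low Ψ x W Z n := by
  intro g hg i
  have h1 := (le_abs_self _).trans (M.l_le i (M.hgt (Ψ (x * M.emb n * g)) - θ - L (M.hgt g)))
  rw [map_sub, map_sub] at h1
  have h2 := mul_le_mul_of_nonneg_left (h g hg) M.C0_pos.le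
  linarith [hZ g hg i]

/-- lower bound for the heights -/
theorem Good.ge {Ψ : G → G} {x : G} {W : Set G} {θ : E} {L : E →ₗ[ℝ] E} {ε : ℝ} {n : H}
    (h : M.Good Ψ x W θ L ε n) {g : G} (hg : g ∈ W) (i : ι) :
    M.S.l i θ + M.S.l i (L (M.hgt g)) - M.C0 * ε ≤ M.S.l i (M.hgt (Ψ (x * M.emb n * g))) := by
  have h1 := (neg_le_abs _).trans (M.l_le i (M.hgt (Ψ (x * M.emb n * g)) - θ - L (M.hgt g)))
  rw [map_sub, map_sub] at h1
  have h2 := mul_le_mul_of_nonneg_left (h g hg) M.C0_pos.le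
  linarith

/-- two laws for one point have close offsets. -/
theorem Good.offset {Ψ : G → G} {x : G} {W W' : Set G} {θ θ' : E} {L L' : E →ₗ[ℝ] E} {ε ε' : ℝ}
    {n : H} (h : M.Good Ψ x W θ L ε n) (h' : M.Good Ψ x W' θ' L' ε' n) (h1 : (1 : G) ∈ W)
    (h1' : (1 : G) ∈ W') : ‖θ - θ'‖ ≤ ε + ε' := by
  have e1 := h 1 h1
  have e2 := h' 1 h1'
  rw [M.hgt_one, map_zero, sub_zero] at e1 e2
  have e3 : θ - θ' = (M.hgt (Ψ (x * M.emb n * 1)) - θ') - (M.hgt (Ψ (x * M.emb n * 1)) - θ) := by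
    abel
  rw [e3]
  refine (norm_sub_le _ _).trans ?_
  linarith

/-! ### connections (D2) -/

section conn

variable {K : ℝ} {Ψ : G → G} {x : G} {W : Set G} {s : ℝ} {r m0 : ℕ} {Z : ι → ℝ}

/-- the height loss -/
def loss (M : CapModel G H ι E) (K s : ℝ) : ℝ := M.C0 ^ 4 * (K * s + K + 1)

theorem loss_nonneg {s : ℝ} (hK : 1 ≤ K) (hs : 0 ≤ s) : 0 ≤ M.loss K s := by
  have := M.C0_pos
  unfold loss; positivity

theorem conn_vert (hΨ : QI M K Ψ) (hs : 0 ≤ s) (hm0 : M.C0 * (K * s + K + 1) ≤ m0) {n : H} {g : G}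
    (hn : M.Low Ψ x W Z n) (hg : M.Rch W s r g) :
    M.Conn (fun i => Z i + M.loss K s) (r * m0) (Ψ (x * M.emb n)) (Ψ (x * M.emb n * g)) := by
  obtain ⟨d, h0, h1, h2, h3⟩ := hg
  have hK := hΨ.one_le
  have c1 := conn_of_seq (M := M) (Z := fun i => Z i + M.loss K s) (s := K * s + K) (m0 := m0) hm0
    (fun j => Ψ (x * M.emb n * d j)) r (fun j hj => by
      have h4 := hΨ.up (x * M.emb n * d j) (x * M.emb n * d (j + 1))
      rw [dst_mul_left] at h4
      have := h2 j hj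
      nlinarith)
    (by nlinarith) (fun j hj i => by
      have := hn (d j) (h3 j hj) i
      unfold loss; linarith)
  simp only [h0, h1, mul_one] at c1
  exact c1

theorem conn_step (hΨ : QI M K Ψ) (hm0 : M.C0 * (K * s + K + 1) ≤ m0) {n n' : H}
    (hn : M.Low Ψ x W Z n) (hn' : M.Low Ψ x W Z n') (h : M.Mv W s r n n') :
    M.Conn (fun i => Z i + M.loss K s) ((2 * r + 1) * m0) (Ψ (x * M.emb n)) (Ψ (x * M.emb n')) := by
  obtain ⟨g, u, rfl, ⟨d, h0, h1, h2, h3⟩, hu⟩ := h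
  have e : x * M.emb (n * M.cj g u) = x * M.emb n * M.emb (M.cj (d r) u) := by
    rw [map_mul, h1]; group
  have h4 := conn_move (M := M) hΨ (p := x * M.emb n) (u := u) (d := d) (r := r) (s := s) h0 h2 hu
    hm0 (Z := fun i => Z i + M.loss K s) (fun j hj i => by
      have := hn (d j) (h3 j hj) i
      unfold loss; linarith) (fun j hj i => by
      have := hn' (d j) (h3 j hj) i
      rw [e] at this
      unfold loss; linarith)
  rw [← e] at h4
  exact h4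

theorem conn_moves (hΨ : QI M K Ψ) (hs : 0 ≤ s) (hm0 : M.C0 * (K * s + K + 1) ≤ m0) (q : ℕ → H)
    (J : ℕ) (h1 : (1 : G) ∈ W) (hq : ∀ j ≤ J, M.Low Ψ x W Z (q j))
    (h : ∀ j < J, M.Mv W s r (q j) (q (j + 1))) :
    M.Conn (fun i => Z i + M.loss K s) (J * ((2 * r + 1) * m0)) (Ψ (x * M.emb (q 0)))
      (Ψ (x * M.emb (q J))) := by
  induction J with
  | zero =>
    rw [zero_mul]
    refine Conn.refl 0 fun i => ?_
    have := hq 0 le_rfl 1 h1 i
    rw [mul_one] at this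
    linarith [M.loss_nonneg (K := K) hΨ.one_le hs]
  | succ J ih =>
    rw [Nat.succ_mul]
    exact (ih (fun j hj => hq j (by omega)) (fun j hj => h j (by omega))).trans
      (conn_step hΨ hm0 (hq J (Nat.le_succ J)) (hq (J + 1) le_rfl) (h J (Nat.lt_succ_self J)))

/-- **(D2)**: connection between two vertices over the ends of a sequence of moves. -/
theorem conn_top (hΨ : QI M K Ψ) (hs : 0 ≤ s) (hm0 : M.C0 * (K * s + K + 1) ≤ m0) (q : ℕ → H)
    (J : ℕ) (hq : ∀ j ≤ J, M.Low Ψ x W Z (q j))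
    (h : ∀ j < J, M.Mv W s r (q j) (q (j + 1))) {g g' : G} (hg : M.Rch W s r g)
    (hg' : M.Rch W s r g') :
    M.Conn (fun i => Z i + M.loss K s) ((J + 1) * ((2 * r + 1) * m0)) (Ψ (x * M.emb (q 0) * g))
      (Ψ (x * M.emb (q J) * g')) := by
  have c1 := (conn_vert hΨ hs hm0 (hq 0 (Nat.zero_le J)) hg).symm
  have c2 := conn_moves hΨ hs hm0 q J hg.one_mem hq h
  have c3 := conn_vert hΨ hs hm0 (hq J le_rfl) hg'
  refine ((c1.trans c2).trans c3).extend ?_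
  nlinarith [Nat.zero_le (r * m0), Nat.zero_le m0]

/-- **(D2)**, D-number version. -/
theorem norm_delta_le (hΨ : QI M K Ψ) (hs : 0 ≤ s) (hm0 : M.C0 * (K * s + K + 1) ≤ m0) (q : ℕ → H)
    (J : ℕ) (hq : ∀ j ≤ J, M.Low Ψ x W Z (q j))
    (h : ∀ j < J, M.Mv W s r (q j) (q (j + 1))) {g g' : G} (hg : M.Rch W s r g)
    (hg' : M.Rch W s r g') {i : ι} (hi : M.S.NZ i) :
    ‖M.δ i (Ψ (x * M.emb (q J) * g')) - M.δ i (Ψ (x * M.emb (q 0) * g))‖ ≤
      ((J + 1) * ((2 * r + 1) * m0) : ℕ) * (M.C0 * Real.exp (Z i + M.loss K s)) :=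
  (conn_top hΨ hs hm0 q J hq h hg hg').delta hi

/-- nearby points have small D-numbers. -/
theorem norm_delta_near (hΨ : QI M K Ψ) {P Q : G} (hs : M.dst P Q ≤ s)
    (hm0 : M.C0 * (K * s + K + 1) ≤ m0) {i : ι} (hi : M.S.NZ i) :
    ‖M.δ i (Ψ Q) - M.δ i (Ψ P)‖ ≤
      m0 * (M.C0 * Real.exp (M.S.l i (M.hgt (Ψ P)) + M.loss K s)) := by
  have hK := hΨ.one_le
  have h1 : M.dst (Ψ P) (Ψ Q) ≤ K * s + K := by
    have := hΨ.up P Q
    nlinarith
  have c : M.Conn (fun j => M.S.l j (M.hgt (Ψ P)) + M.loss K s) m0 (Ψ P) (Ψ Q) :=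
    conn_of_dst h1 hm0 fun j => by unfold loss; linarith
  exact c.delta hi

end conn

/-! ### volume (D1) -/

/-- **(D1)**: the slab volume bound at the vertex `g'`, in absolute heights. -/
theorem vol_slab (hR : M.Reach) {K : ℝ} (hK : 1 ≤ K) {i : ι} (hi : M.S.NZ i) :
    ∃ (C : ℝ) (D : ℕ), 0 < C ∧
    ∀ Ψ : G → G, QI M K Ψ → ∀ (x g' : G) (S : Set H) (P : G) (Z : ι → ℝ) (m : ℕ) (v : E) (t : ℝ),
    1 ≤ m → (∀ j, M.S.l j (M.hgt P) ≤ Z j) → (∀ j, M.S.l j v ≤ Z j) → ‖v - M.hgt P‖ ≤ m →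
    M.S.l i (M.hgt P) ≤ M.S.l i v - t →
    (∀ n ∈ S, M.Conn Z m P (Ψ (x * M.emb n * g'))) →
    (∀ n ∈ S, M.S.l i (M.hgt (Ψ (x * M.emb n * g'))) ≤ M.S.l i v - t) →
    (∀ n ∈ S, ‖M.δ i (Ψ (x * M.emb n * g')) - M.δ i P‖ ≤ Real.exp (M.S.l i v - t)) →
    M.μ S ≤ ENNReal.ofReal (C * (m : ℝ) ^ D * Real.exp (M.S.Gt Z - t)) := by
  obtain ⟨C, D, hC, h⟩ := vol_le_slab (M := M) hR hK hi
  refine ⟨C, D, hC, ?_⟩
  intro Ψ hΨ x g' S P Z m v t hm hP hv hvm hPt hconn hh hδ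
  have key := h Ψ hΨ (x * g') (M.cj g' ⁻¹' S) P (fun j => Z j - M.S.l j (M.hgt P)) m
    (v - M.hgt P) (M.S.l i v - t - M.S.l i (M.hgt P)) (fun j => by linarith [hP j]) hm
    (fun j => by rw [map_sub]; linarith [hv j]) hvm (by linarith) ?_ ?_ ?_
  · rw [M.μ_cj_image] at key
    refine key.trans (le_of_eq ?_)
    have e1 : M.S.Gt (fun j => Z j - M.S.l j (M.hgt P)) = M.S.Gt Z := by
      have := M.S.Gt_add_l Z (-(M.hgt P))
      simp only [map_neg, ← sub_eq_add_neg] at this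
      exact this
    rw [e1, map_sub]
    congr 3
    ring
  · intro n hn
    have h1 := hconn _ hn
    rw [M.mul_emb_mul x g' (M.cj g' n), M.cj_inv_cj] at h1
    refine h1.mono fun j => ?_
    linarith
  · intro n hn
    have h1 := hh _ hn
    rw [M.mul_emb_mul x g' (M.cj g' n), M.cj_inv_cj] at h1
    linarith
  · intro n hn
    have h1 := hδ _ hn
    rw [M.mul_emb_mul x g' (M.cj g' n), M.cj_inv_cj] at h1
    refine h1.trans (le_of_eq ?_)
    congr 1; ring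

/-- the volume bound at the vertex `g'`, in absolute heights. -/
theorem vol_box (hR : M.Reach) {K : ℝ} (hK : 1 ≤ K) :
    ∃ (C : ℝ) (D : ℕ), 0 < C ∧
    ∀ Ψ : G → G, QI M K Ψ → ∀ (x g' : G) (S : Set H) (P : G) (Z : ι → ℝ) (m : ℕ),
    1 ≤ m → (∀ j, M.S.l j (M.hgt P) ≤ Z j) →
    (∀ n ∈ S, M.Conn Z m P (Ψ (x * M.emb n * g'))) →
    M.μ S ≤ ENNReal.ofReal (C * (m : ℝ) ^ D * Real.exp (M.S.Gt Z)) := by
  obtain ⟨C, D, hC, h⟩ := vol_le_reach (M := M) hR hK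
  refine ⟨C, D, hC, ?_⟩
  intro Ψ hΨ x g' S P Z m hm hP hconn
  have key := h Ψ hΨ (x * g') (M.cj g' ⁻¹' S) P (fun j => Z j - M.S.l j (M.hgt P)) m
    (fun j => by linarith [hP j]) hm ?_
  · rw [M.μ_cj_image] at key
    refine key.trans (le_of_eq ?_)
    have e1 : M.S.Gt (fun j => Z j - M.S.l j (M.hgt P)) = M.S.Gt Z := by
      have := M.S.Gt_add_l Z (-(M.hgt P))
      simp only [map_neg, ← sub_eq_add_neg] at this
      exact this
    rw [e1]
  · intro n hn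
    have h1 := hconn _ hn
    rw [M.mul_emb_mul x g' (M.cj g' n), M.cj_inv_cj] at h1
    refine h1.mono fun j => ?_
    linarith

end CapModel

/-! ### the sum rule -/

/-- **sum rule**: if `l i τ ≥ -e` for all weights outside one set `R` on which the weights are
positive multiples of `l i₀`, then `|l i τ| ≤ C e` outside `R` and `l i τ ≤ C e` on `R`. -/
theorem sum_rule {ι E : Type*} [Fintype ι] [AddCommGroup E] [Module ℝ E] (S : Conv.GenSys ι E) :
    ∃ C : ℝ, 0 ≤ C ∧ ∀ (τ : E) (e : ℝ) (i₀ : ι), 0 ≤ e →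
      (∀ i, -e ≤ S.l i τ ∨ ∃ c : ℝ, 0 < c ∧ S.l i = c • S.l i₀) → S.l i₀ τ ≤ C * e := by
  classical
  obtain ⟨n, hn⟩ := S.ne
  refine ⟨∑ i, (n i : ℝ), Finset.sum_nonneg fun i _ => Nat.cast_nonneg _, ?_⟩
  intro τ e i₀ he h
  by_contra hcon
  push Not at hcon
  have hpos : 0 ≤ ∑ i, (n i : ℝ) := Finset.sum_nonneg fun i _ => Nat.cast_nonneg _
  have h0 : 0 < S.l i₀ τ := lt_of_le_of_lt (by positivity) hcon
  have htr := S.tr n hn τ
  have h1 : ∀ i, -e ≤ S.l i τ := by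
    intro i
    rcases h i with h2 | ⟨c, hc, h2⟩
    · exact h2
    · rw [h2, LinearMap.smul_apply, smul_eq_mul]
      have := mul_pos hc h0
      linarith
  have h2 : (n i₀ : ℝ) * S.l i₀ τ = - ∑ i ∈ Finset.univ.erase i₀, (n i : ℝ) * S.l i τ := by
    rw [← Finset.add_sum_erase _ _ (Finset.mem_univ i₀)] at htr
    linarith
  have h3 : - ∑ i ∈ Finset.univ.erase i₀, (n i : ℝ) * S.l i τ ≤
      ∑ i ∈ Finset.univ.erase i₀, (n i : ℝ) * e := by
    rw [← Finset.sum_neg_distrib]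
    refine Finset.sum_le_sum fun i _ => ?_
    have := h1 i
    have h4 : (0 : ℝ) ≤ n i := Nat.cast_nonneg _
    nlinarith
  have h4 : ∑ i ∈ Finset.univ.erase i₀, (n i : ℝ) * e ≤ (∑ i, (n i : ℝ)) * e := by
    rw [← Finset.sum_mul]
    refine mul_le_mul_of_nonneg_right ?_ he
    exact Finset.sum_le_sum_of_subset_of_nonneg (Finset.erase_subset _ _)
      fun i _ _ => Nat.cast_nonneg _
  have h5 : (1 : ℝ) ≤ n i₀ := by exact_mod_cast S.one_le n hn i₀
  nlinarith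

/-- consequence of the sum rule: all `l i τ` are bounded above. -/
theorem sum_rule' {ι E : Type*} [Fintype ι] [AddCommGroup E] [Module ℝ E] (S : Conv.GenSys ι E) :
    ∃ C : ℝ, 0 ≤ C ∧ ∀ (τ : E) (e : ℝ), 0 ≤ e → (∀ i, -e ≤ S.l i τ) → ∀ i, S.l i τ ≤ C * e := by
  obtain ⟨C, hC, h⟩ := sum_rule S
  exact ⟨C, hC, fun τ e he h1 i => h τ e i he fun j => Or.inl (h1 j)⟩

/-- finite order: an inequality along all powers of a permutation is an equality. -/
theorem perm_eq {α : Type*} (σ : Equiv.Perm α) {N : ℕ} (hN : 0 < N) (hσ : σ ^ N = 1) (f : α → ℝ)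
    {e : ℝ} (h : ∀ a, f a ≤ f (σ a) + e) (a : α) : f (σ a) ≤ f a + (N - 1 : ℕ) * e := by
  have key : ∀ (k : ℕ) (b : α), f b ≤ f ((σ ^ k) b) + k * e := by
    intro k
    induction k with
    | zero => intro b; simp
    | succ k ih =>
      intro b
      have h1 := ih b
      have h2 := h ((σ ^ k) b)
      have e1 : (σ ^ (k + 1)) b = σ ((σ ^ k) b) := by rw [pow_succ']; rfl
      have e2 : ((k + 1 : ℕ) : ℝ) * e = k * e + e := by push_cast; ring
      rw [e1, e2]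
      linarith
  have h1 := key (N - 1) (σ a)
  have h2 : (σ ^ (N - 1)) (σ a) = a := by
    have : σ ^ (N - 1) * σ = 1 := by
      rw [← pow_succ, Nat.sub_add_cancel hN, hσ]
    have h3 := congrArg (fun τ : Equiv.Perm α => τ a) this
    simpa using h3
  rwa [h2] at h1

end Crest.Agent.R182.Cap
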