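/-
R182, module ELINST (helper89): field `A_vol` for all accurate unit legs at all large scales.
-/
import Mathlib
import Crest.Agent.R182.ElAvol
import Crest.Agent.R182.ElTouch

set_option autoImplicit false
set_option linter.unusedSectionVars false

open MeasureTheory Set
open scoped Pointwise RealInnerProductSpace ENNReal

namespace Crest.Agent.R182.ElI

open Crest.Agent.R182.Core Crest.Agent.R182.Nb Crest.Agent.R182.Gen

variable {Γ : Type*} [Group Γ] {k : ℕ} {S : Set Γ} {π : Γ →* Multiplicative (Fin k → ℤ)}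
variable {M : BModel S π} {E : Type} [NormedAddCommGroup E] [InnerProductSpace ℝ E]

/-- **the field `A_vol`** of the data, eventually. -/
theorem A_vol_ev (G : Geo M E) (cs : Cst G) (hc1 : 0 < cs.c1) {γ : ℝ} (hγ : Gap G γ) {ε : ℝ}
    (hε : 0 < ε) (RC Cb : ℝ) :
    Ev G RC Cb fun Sc τ u => ∀ ω, ω ≤ γ / 16 → ∀ Z, adm τ ω Z → ∀ (Ψ : Γ → Γ) (x : M.G),
      ENNReal.ofReal (Real.exp (Sc * (GG G Z - ε))) ≤
        (data G cs Ψ x Sc τ u).μ ((data G cs Ψ x Sc τ u).A Z) := by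
  obtain ⟨δ, hδ, S0, h⟩ := exists_A_vol G cs hc1 hε
  refine ((ev_geo G hγ hδ 0 RC Cb).and (Ev.scale S0)).mono
    fun Sc τ u hτ _ ⟨h1, hS⟩ ω hω Z hZ Ψ x => ?_
  refine h Sc hS u τ Z (fun r => ?_) (h1 ω hω Z hZ).2.1
  obtain ⟨⟨m, hm⟩, -⟩ := hZ
  rw [hm]
  positivity

end Crest.Agent.R182.ElI
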