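/-
R182, module HOLE / EL_K: coverings and Fubini on a group with a bi-invariant measure
(statements (M1)-(M3) of 6574).
-/
import Mathlib

set_option autoImplicit false

open MeasureTheory Set
open scoped Pointwise ENNReal

namespace Crest.Agent.R182.El

variable {N : Type*} [Group N] [MeasurableSpace N] {μ : Measure N}

section Cover

variable [MeasurableMul N] [μ.IsMulLeftInvariant]

/-- (M1) covering by translates of `A²`. -/
theorem cover_le {A T : Set N} (hA : MeasurableSet A) (h0 : μ A ≠ 0) (h1 : (1 : N) ∈ A)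
    (hinv : ∀ a ∈ A, a⁻¹ ∈ A) (hfin : μ (T * A) ≠ ⊤) (P : N → Prop) (β : ℝ≥0∞)
    (h : ∀ n₀ ∈ T, μ {a | a ∈ A ^ 2 ∧ ¬ P (n₀ * a)} ≤ β * μ A) :
    μ {t | t ∈ T ∧ ¬ P t} ≤ β * μ (T * A) := by
  classical
  rcases T.eq_empty_or_nonempty with rfl | ⟨t₀, ht₀⟩
  · simp
  -- translates
  have htr : ∀ (n : N) (B : Set N), μ (n • B) = μ B := by
    intro n B
    have : n • B = (fun x => n⁻¹ * x) ⁻¹' B := by
      ext x
      rw [Set.mem_smul_set_iff_inv_smul_mem, smul_eq_mul]; rfl
    rw [this, measure_preimage_mul]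
  have hsub : ∀ n ∈ T, n • A ⊆ T * A := by
    intro n hn x hx
    obtain ⟨a, ha, rfl⟩ := hx
    exact Set.mul_mem_mul hn ha
  have hAfin : μ A ≠ ⊤ := by
    intro htop
    apply hfin
    rw [eq_top_iff, ← htop, ← htr t₀ A]
    exact measure_mono (hsub t₀ ht₀)
  -- families of disjoint translates
  let p : Finset N → Prop := fun S => (∀ n ∈ S, n ∈ T) ∧
    (S : Set N).PairwiseDisjoint fun n => n • A
  have hcard : ∀ S, p S → (S.card : ℝ≥0∞) * μ A ≤ μ (T * A) := by
    rintro S ⟨hS, hd⟩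
    have h2 : μ (⋃ n ∈ S, n • A) = ∑ n ∈ S, μ (n • A) :=
      measure_biUnion_finset hd fun n _ => by
        have : n • A = (fun x => n⁻¹ * x) ⁻¹' A := by
          ext x
          rw [Set.mem_smul_set_iff_inv_smul_mem, smul_eq_mul]; rfl
        rw [this]
        exact (measurable_const_mul _) hA
    rw [Finset.sum_congr rfl fun n _ => htr n A, Finset.sum_const, nsmul_eq_mul] at h2
    rw [← h2]
    exact measure_mono (Set.iUnion₂_subset fun n hn => hsub n (hS n hn))
  obtain ⟨B, hB⟩ : ∃ B : ℕ, ∀ S, p S → S.card ≤ B := by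
    obtain ⟨B, hB⟩ := exists_nat_ge (μ (T * A) / μ A).toReal
    refine ⟨B, fun S hS => ?_⟩
    have h3 : (S.card : ℝ≥0∞) ≤ μ (T * A) / μ A := by
      rw [ENNReal.le_div_iff_mul_le (Or.inl h0) (Or.inl hAfin)]
      exact hcard S hS
    have h4 := ENNReal.toReal_mono (ENNReal.div_ne_top hfin h0) h3
    rw [ENNReal.toReal_natCast] at h4
    exact_mod_cast h4.trans hB
  let q : ℕ → Prop := fun k => ∃ S, p S ∧ S.card = k
  have hq0 : q 0 := ⟨∅, ⟨by simp, by simp⟩, rfl⟩
  have hspec := Nat.findGreatest_spec (P := q) (Nat.zero_le B) hq0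
  set k := Nat.findGreatest q B with hk
  obtain ⟨S, hS, hSk⟩ := hspec
  have hmax : ¬ q (k + 1) := by
    intro hq
    have h5 : k + 1 ≤ B := by
      obtain ⟨S', hS', hk'⟩ := hq
      rw [← hk']
      exact hB S' hS'
    have := Nat.le_findGreatest h5 hq
    omega
  -- `T` is covered
  have hcov : T ⊆ ⋃ n ∈ S, n • (A ^ 2) := by
    intro t ht
    by_contra hne
    have hne' : ∀ n ∈ S, t ∉ n • (A ^ 2) := by
      intro n hn hmem
      exact hne (Set.mem_biUnion hn hmem)
    have htS : t ∉ S := by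
      intro htS
      apply hne' t htS
      refine ⟨1, ?_, by simp⟩
      rw [pow_two]
      exact ⟨1, h1, 1, h1, by simp⟩
    apply hmax
    refine ⟨insert t S, ⟨?_, ?_⟩, by rw [Finset.card_insert_of_notMem htS, hSk]⟩
    · intro n hn
      rcases Finset.mem_insert.1 hn with rfl | hn
      · exact ht
      · exact hS.1 n hn
    · rw [Finset.coe_insert]
      refine hS.2.insert fun n hn _ => ?_
      rw [Set.disjoint_left]
      rintro x ⟨a, ha, rfl⟩ ⟨b, hb, hab⟩
      apply hne' n hn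
      refine ⟨b * a⁻¹, ?_, ?_⟩
      · rw [pow_two]; exact ⟨b, hb, a⁻¹, hinv a ha, rfl⟩
      · simp only [smul_eq_mul] at hab ⊢
        rw [← mul_assoc, hab, mul_inv_cancel_right]
  calc μ {t | t ∈ T ∧ ¬ P t}
      ≤ μ (⋃ n ∈ S, n • {a | a ∈ A ^ 2 ∧ ¬ P (n * a)}) := by
        apply measure_mono
        rintro t ⟨ht, hP⟩
        have := hcov ht
        simp only [Set.mem_iUnion] at this ⊢
        obtain ⟨n, hn, a, ha, rfl⟩ := this
        exact ⟨n, hn, a, ⟨ha, hP⟩, rfl⟩
    _ ≤ ∑ n ∈ S, μ (n • {a | a ∈ A ^ 2 ∧ ¬ P (n * a)}) := measure_biUnion_finset_le _ _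
    _ ≤ ∑ _n ∈ S, β * μ A := by
        refine Finset.sum_le_sum fun n hn => ?_
        rw [htr]
        exact h n (hS.1 n hn)
    _ = β * ((S.card : ℝ≥0∞) * μ A) := by
        rw [Finset.sum_const, nsmul_eq_mul]; ring
    _ ≤ β * μ (T * A) := mul_le_mul_right (hcard S hS) _

end Cover

section Fubini

variable [MeasurableMul₂ N] [MeasurableInv N] [SFinite μ]

omit [MeasurableInv N] in
/-- (M2) a good centre. -/
theorem exists_center [μ.IsMulLeftInvariant] {Rel : N → N → Prop}
    (hR : MeasurableSet {x : N × N | Rel x.1 x.2})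
    {B W : Set N} (hBm : MeasurableSet B) (hWm : MeasurableSet W)
    (hBW : ∀ s ∈ B, ∀ t ∈ B, s⁻¹ * t ∈ W) (hB0 : μ B ≠ 0) (hB : μ B ≠ ⊤) (β : ℝ≥0∞)
    (h : ∀ u ∈ W, μ {s | s ∈ B ∧ ¬ Rel s (s * u)} ≤ β) :
    ∃ s₀ ∈ B, μ {t | t ∈ B ∧ ¬ Rel s₀ t} * μ B ≤ β * μ W := by
  -- the bad set of pairs
  set D : Set (N × N) := {x | x.1 ∈ B ∧ x.2 ∈ B ∧ ¬ Rel x.1 x.2} with hD
  have hDm : MeasurableSet D :=
    (measurable_fst hBm).inter ((measurable_snd hBm).inter hR.compl)
  set D' : Set (N × N) := {x | (x.1, x.1 * x.2) ∈ D} with hD'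
  have hD'm : MeasurableSet D' :=
    (measurable_fst.prodMk (measurable_fst.mul measurable_snd)) hDm
  set f : N → ℝ≥0∞ := fun s => μ {t | (s, t) ∈ D} with hf
  have hfm : Measurable f := measurable_measure_prodMk_left hDm
  have h1 : ∀ s, f s = μ {u | (s, u) ∈ D'} := by
    intro s
    simp only [hf]
    rw [← measure_preimage_mul μ s {t | (s, t) ∈ D}]
    rfl
  have h2 : ∫⁻ s in B, f s ∂μ ≤ β * μ W := by
    calc ∫⁻ s in B, f s ∂μ ≤ ∫⁻ s, f s ∂μ := setLIntegral_le_lintegral _ _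
      _ = ∫⁻ s, μ {u | (s, u) ∈ D'} ∂μ := lintegral_congr h1
      _ = (μ.prod μ) D' := (Measure.prod_apply hD'm).symm
      _ = ∫⁻ u, μ {s | (s, u) ∈ D'} ∂μ := Measure.prod_apply_symm hD'm
      _ ≤ ∫⁻ u, W.indicator (fun _ => β) u ∂μ := by
          refine lintegral_mono fun u => ?_
          by_cases hu : u ∈ W
          · rw [Set.indicator_of_mem hu]
            refine le_trans (measure_mono ?_) (h u hu)
            intro s hs
            exact ⟨hs.1, hs.2.2⟩
          · rw [Set.indicator_of_notMem hu]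
            have : {s | (s, u) ∈ D'} = ∅ := by
              rw [Set.eq_empty_iff_forall_notMem]
              intro s hs
              apply hu
              have := hBW s hs.1 _ hs.2.1
              rwa [inv_mul_cancel_left] at this
            rw [this, measure_empty]
      _ = β * μ W := by rw [lintegral_indicator hWm, setLIntegral_const]
  obtain ⟨s₀, hs₀, hle⟩ := exists_le_setLAverage hB0 hB hfm.aemeasurable
  refine ⟨s₀, hs₀, ?_⟩
  have h3 : f s₀ * μ B ≤ β * μ W := by
    rw [setLAverage_eq] at hle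
    rw [ENNReal.le_div_iff_mul_le (Or.inl hB0) (Or.inl hB)] at hle
    exact hle.trans h2
  refine le_trans (mul_le_mul_left ?_ _) h3
  apply measure_mono
  rintro t ⟨ht, hrel⟩
  exact ⟨hs₀, ht, hrel⟩

/-- (M3) Fubini for moves distributed according to `lam`. -/
theorem lam_le [μ.IsMulRightInvariant] (lam : Measure N) [SFinite lam] {K Bad : Set N}
    (hK : MeasurableSet K) (hBad : MeasurableSet Bad) (m : ℝ≥0∞)
    (hm : ∀ y, lam {v | y * v⁻¹ ∈ K} ≤ m) :
    ∫⁻ n in K, lam {v | n * v ∈ Bad} ∂μ ≤ m * μ Bad := by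
  set D : Set (N × N) := {x | x.1 ∈ K ∧ x.1 * x.2 ∈ Bad} with hD
  have hDm : MeasurableSet D :=
    (measurable_fst hK).inter ((measurable_fst.mul measurable_snd) hBad)
  set D' : Set (N × N) := {x | x.1 * x.2⁻¹ ∈ K ∧ x.1 ∈ Bad} with hD'
  have hD'm : MeasurableSet D' :=
    ((measurable_fst.mul measurable_snd.inv) hK).inter (measurable_fst hBad)
  have h1 : ∫⁻ n in K, lam {v | n * v ∈ Bad} ∂μ = (μ.prod lam) D := by
    rw [Measure.prod_apply hDm, ← lintegral_indicator hK]
    refine lintegral_congr fun n => ?_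
    by_cases hn : n ∈ K
    · rw [Set.indicator_of_mem hn]
      congr 1
      ext v
      simp [hD, hn]
    · rw [Set.indicator_of_notMem hn]
      have : Prod.mk n ⁻¹' D = ∅ := by
        rw [Set.eq_empty_iff_forall_notMem]
        intro v hv
        exact hn hv.1
      rw [this, measure_empty]
  rw [h1, Measure.prod_apply_symm hDm]
  have h2 : ∀ v, μ ((fun x => (x, v)) ⁻¹' D) = μ ((fun x => (x, v)) ⁻¹' D') := by
    intro v
    rw [← measure_preimage_mul_right μ v ((fun x => (x, v)) ⁻¹' D')]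
    congr 1
    ext n
    simp [hD, hD']
  rw [lintegral_congr h2, ← Measure.prod_apply_symm hD'm, Measure.prod_apply hD'm]
  calc ∫⁻ y, lam (Prod.mk y ⁻¹' D') ∂μ ≤ ∫⁻ y, Bad.indicator (fun _ => m) y ∂μ := by
        refine lintegral_mono fun y => ?_
        by_cases hy : y ∈ Bad
        · rw [Set.indicator_of_mem hy]
          refine le_trans (measure_mono ?_) (hm y)
          intro v hv
          exact hv.1
        · rw [Set.indicator_of_notMem hy]
          have : Prod.mk y ⁻¹' D' = ∅ := by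
            rw [Set.eq_empty_iff_forall_notMem]
            intro v hv
            exact hy hv.2
          rw [this, measure_empty]
    _ = m * μ Bad := by rw [lintegral_indicator hBad, setLIntegral_const]

/-- (M3), Markov form, arbitrary bad set. -/
theorem lam_markov [μ.IsMulRightInvariant] (lam : Measure N) [SFinite lam] {K : Set N}
    (hK : MeasurableSet K) (Bad : Set N) (m : ℝ≥0∞)
    (hm : ∀ y, lam {v | y * v⁻¹ ∈ K} ≤ m) (c : ℝ≥0∞) :
    μ {n | n ∈ K ∧ c ≤ lam {v | n * v ∈ Bad}} * c ≤ m * μ Bad := by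
  set B' := toMeasurable μ Bad with hB'
  have hB'm : MeasurableSet B' := measurableSet_toMeasurable μ Bad
  have hsub : Bad ⊆ B' := subset_toMeasurable μ Bad
  have hμ : μ B' = μ Bad := measure_toMeasurable Bad
  have hfm : Measurable fun n => lam {v | n * v ∈ B'} := by
    have hDm : MeasurableSet {x : N × N | x.1 * x.2 ∈ B'} :=
      (measurable_fst.mul measurable_snd) hB'm
    exact measurable_measure_prodMk_left hDm
  have h1 := lam_le (μ := μ) lam hK hB'm m hm
  have h2 := mul_meas_ge_le_lintegral (μ := μ.restrict K) hfm c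
  rw [hμ] at h1
  refine le_trans ?_ (h2.trans h1)
  rw [mul_comm]
  refine mul_le_mul_right ?_ _
  rw [Measure.restrict_apply (measurableSet_le measurable_const hfm)]
  apply measure_mono
  rintro n ⟨hn, hc⟩
  exact ⟨hc.trans (measure_mono fun v hv => hsub hv), hn⟩

/-- (M3), Markov form, bad points only matter where `K` and the moves can reach them. -/
theorem lam_markov' [μ.IsMulRightInvariant] (lam : Measure N) [SFinite lam] {K V : Set N}
    (hK : MeasurableSet K) (hV : lam Vᶜ = 0) (Bad : Set N) (m : ℝ≥0∞)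
    (hm : ∀ y, lam {v | y * v⁻¹ ∈ K} ≤ m) (c : ℝ≥0∞) :
    μ {n | n ∈ K ∧ c ≤ lam {v | n * v ∈ Bad}} * c ≤ m * μ (Bad ∩ (K * V)) := by
  refine le_trans (mul_le_mul_left (measure_mono ?_) _)
    (lam_markov (μ := μ) lam hK (Bad ∩ (K * V)) m hm c)
  rintro n ⟨hn, hc⟩
  refine ⟨hn, hc.trans ?_⟩
  have h1 : {v | n * v ∈ Bad} ⊆ {v | n * v ∈ Bad ∩ (K * V)} ∪ Vᶜ := by
    intro v hv
    by_cases hvV : v ∈ V
    · exact Or.inl ⟨hv, Set.mul_mem_mul hn hvV⟩
    · exact Or.inr hvV
  refine (measure_mono h1).trans ((measure_union_le _ _).trans ?_)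
  rw [hV, add_zero]

/-- (M3) for the Haar measure of a set `A`. -/
theorem mul_markov [μ.IsMulRightInvariant] {K A : Set N} (hK : MeasurableSet K)
    (hA : MeasurableSet A) (Bad : Set N) (c : ℝ≥0∞) :
    μ {n | n ∈ K ∧ c ≤ μ {a | a ∈ A ∧ n * a ∈ Bad}} * c ≤ μ A * μ (Bad ∩ (K * A)) := by
  have h1 := lam_markov' (μ := μ) (μ.restrict A) (K := K) (V := A) hK
    (by rw [Measure.restrict_apply hA.compl]; simp) Bad (μ A)
    (fun y => (measure_mono (Set.subset_univ _)).trans (by rw [Measure.restrict_apply_univ])) c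
  refine le_trans (mul_le_mul_left (measure_mono ?_) _) h1
  rintro n ⟨hn, hc⟩
  refine ⟨hn, hc.trans ?_⟩
  rw [Measure.restrict_apply' hA]
  apply measure_mono
  rintro a ⟨ha, hb⟩
  exact ⟨hb, ha⟩

end Fubini

end Crest.Agent.R182.El
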