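/-
R182, module HOLE / EL_K (helper656): laws, boxes and typical points at one scale.
-/
import Mathlib
import Crest.Agent.R182.ElDefs
import Crest.Agent.R182.ElGeo
import Crest.Agent.R182.ElMeas

set_option autoImplicit false
set_option linter.unusedSectionVars false

open MeasureTheory Set
open scoped Pointwise RealInnerProductSpace ENNReal

namespace Crest.Agent.R182.El

variable {R E N Q : Type*} [Fintype R] [DecidableEq R] [NormedAddCommGroup E] [InnerProductSpace ℝ E]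
  [Group N] [MeasurableSpace N] [MeasurableMul₂ N] [MeasurableInv N]
  [Group Q] [MeasurableSpace Q] [MeasurableMul₂ Q] [MeasurableInv Q]

/-- `(σ, θ)` is the law of the box of sides `Z` at the base `n₀` -/
def IsLaw (M : Mdl R E) (d : Data R E N Q) (p : Par R) (Z : R → ℝ) (n₀ : N)
    (σ : Equiv.Perm R) (θ : E) : Prop :=
  d.μ {n | n ∈ d.Ah Z ∧ ¬ Good M d p.ε Z σ θ (n₀ * n)} ≤ ENNReal.ofReal p.δ * d.μ (d.A Z)

/-- the sides of the image box -/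
def XX (M : Mdl R E) (Z : R → ℝ) (σ : Equiv.Perm R) (θ : E) (t : ℝ) : R → ℝ :=
  fun r => ⟪M.e r, θ⟫ + Z (σ.symm r) + t

/-- standing smallness conditions; `m` = separation of the directions -/
structure Small (M : Mdl R E) (p : Par R) (m : ℝ) : Prop where
  m_pos : 0 < m
  m_le : m ≤ 1
  sep : ∀ r w, r ≠ w → ⟪M.e r, M.e w⟫ ≤ 1 - m
  ω_pos : 0 < p.ω
  ω_le : 2 * p.ω ≤ m
  ε_le : 32 * p.ε ≤ m
  δ_le : 4 * (((M.J : ℝ) + 2) * M.C * p.δ) ≤ 1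
  q_le : 3 * M.J + 4 ≤ p.q

section geo

variable {M : Mdl R E} {p : Par R} {m : ℝ} (hs : Small M p m)

include hs

theorem Small.ω_le_half : p.ω ≤ 1 / 2 := by linarith [hs.ω_le, hs.m_le]

theorem NR.le {Z : R → ℝ} (hZ : NR p.ω Z) (r : R) : Z r ≤ 1 + p.ω := by
  have := (abs_le.1 (hZ r)).2; linarith

theorem NR.ge {Z : R → ℝ} (hZ : NR p.ω Z) (r : R) : 1 - p.ω ≤ Z r := by
  have := (abs_le.1 (hZ r)).1; linarith

theorem NR.half {Z : R → ℝ} (hZ : NR p.ω Z) (r : R) : 1 / 2 ≤ Z r := by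
  have := NR.ge hs hZ r
  linarith [hs.ω_le_half]

theorem inner_leg_le {Z : R → ℝ} (hZ : NR p.ω Z) (σ : Equiv.Perm R) {r r' : R} {s : ℝ}
    (h0 : 0 ≤ s) (h1 : s ≤ Z r) : s * ⟪M.e r', M.e (σ r)⟫ ≤ Z (σ.symm r') := by
  by_cases h : r' = σ r
  · subst h
    rw [Frame.inner_self, mul_one, Equiv.symm_apply_apply]; exact h1
  · have h2 := hs.sep r' (σ r) h
    have h3 := NR.le hs hZ r
    have h4 := NR.ge hs hZ (σ.symm r')
    have h5 := hs.ω_le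
    have h6 := hs.m_le
    have h7 := hs.ω_pos
    have h8 := hs.m_pos
    calc s * ⟪M.e r', M.e (σ r)⟫ ≤ s * (1 - m) := mul_le_mul_of_nonneg_left h2 h0
      _ ≤ (1 + p.ω) * (1 - m) := mul_le_mul_of_nonneg_right (by linarith) (by linarith)
      _ ≤ Z (σ.symm r') := by nlinarith

theorem inner_leg_le' {Z : R → ℝ} (hZ : NR p.ω Z) (σ : Equiv.Perm R) {r r' : R} {s : ℝ}
    (h0 : 0 ≤ s) (h1 : s ≤ Z r) (h : r' ≠ σ r) :
    s * ⟪M.e r', M.e (σ r)⟫ ≤ Z (σ.symm r') - (m - 2 * p.ω) := by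
  have h2 := hs.sep r' (σ r) h
  have h3 := NR.le hs hZ r
  have h4 := NR.ge hs hZ (σ.symm r')
  have h5 := hs.ω_le
  have h6 := hs.m_le
  have h7 := hs.ω_pos
  have h8 := hs.m_pos
  calc s * ⟪M.e r', M.e (σ r)⟫ ≤ s * (1 - m) := mul_le_mul_of_nonneg_left h2 h0
    _ ≤ (1 + p.ω) * (1 - m) := mul_le_mul_of_nonneg_right (by linarith) (by linarith)
    _ ≤ Z (σ.symm r') - (m - 2 * p.ω) := by nlinarith

theorem norm_sub_e {a b : R} (h : a ≠ b) : m ≤ ‖M.e a - M.e b‖ := by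
  have h1 : ‖M.e a - M.e b‖ ^ 2 = 2 - 2 * ⟪M.e a, M.e b⟫ := by
    rw [@norm_sub_sq_real, M.norm_e, M.norm_e]; ring
  have h2 := hs.sep a b h
  have h3 : m ^ 2 ≤ ‖M.e a - M.e b‖ ^ 2 := by
    rw [h1]; nlinarith [hs.m_pos, hs.m_le]
  exact (sq_le_sq₀ hs.m_pos.le (norm_nonneg _)).1 h3

variable {d : Data R E N Q}

theorem Good.height {Z : R → ℝ} (hZ : NR p.ω Z) {τ : ℝ} {σ : Equiv.Perm R} {θ : E} {n : N}
    (h : Good M d τ Z σ θ n) {r : R} {s : ℝ} (h0 : 0 ≤ s) (h1 : s ≤ Z r) (r' : R) :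
    ⟪M.e r', d.f n r s⟫ ≤ XX M Z σ θ τ r' := by
  have h2 := h r s h0 h1
  have h3 : ⟪M.e r', d.f n r s⟫ = ⟪M.e r', d.f n r s - θ - s • M.e (σ r)⟫ + ⟪M.e r', θ⟫
      + s * ⟪M.e r', M.e (σ r)⟫ := by
    rw [inner_sub_right, inner_sub_right, real_inner_smul_right]; ring
  rw [h3, XX]
  have h4 := (M.toFrame.inner_le_norm r' (d.f n r s - θ - s • M.e (σ r))).trans h2
  have h5 := inner_leg_le hs hZ σ (r' := r') h0 h1
  linarith

theorem Good.unique [Nonempty R] {Z : R → ℝ} (hZ : NR p.ω Z) {τ τ' : ℝ} {σ σ' : Equiv.Perm R} {θ θ' : E} {n : N}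
    (h : Good M d τ Z σ θ n) (h' : Good M d τ' Z σ' θ' n) (hτ : 4 * (τ + τ') < m) :
    σ = σ' ∧ ‖θ - θ'‖ ≤ τ + τ' := by
  have key : ‖θ - θ'‖ ≤ τ + τ' := by
    obtain ⟨r⟩ := ‹Nonempty R›
    have hZ0 : (0:ℝ) ≤ Z r := by linarith [NR.half hs hZ r]
    have h1 := h r 0 le_rfl hZ0
    have h2 := h' r 0 le_rfl hZ0
    rw [zero_smul, sub_zero] at h1 h2
    have h3 : θ - θ' = (d.f n r 0 - θ') - (d.f n r 0 - θ) := by abel
    rw [h3]
    exact (norm_sub_le _ _).trans (by linarith)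
  refine ⟨Equiv.ext fun r => ?_, key⟩
  by_contra hne
  have hZ0 := NR.half hs hZ r
  have h1 := h r (Z r) (by linarith) le_rfl
  have h2 := h' r (Z r) (by linarith) le_rfl
  have h3 := norm_sub_e hs hne
  have h4 : Z r • (M.e (σ r) - M.e (σ' r)) = (d.f n r (Z r) - θ' - Z r • M.e (σ' r))
      - (d.f n r (Z r) - θ - Z r • M.e (σ r)) - (θ - θ') := by
    rw [smul_sub]; abel
  have h5 : ‖Z r • (M.e (σ r) - M.e (σ' r))‖ ≤ 2 * (τ + τ') := by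
    rw [h4]
    refine (norm_sub_le _ _).trans ?_
    have := norm_sub_le (d.f n r (Z r) - θ' - Z r • M.e (σ' r))
      (d.f n r (Z r) - θ - Z r • M.e (σ r))
    linarith [key]
  rw [norm_smul, Real.norm_of_nonneg (by linarith)] at h5
  have h6 : (1 / 2 : ℝ) * m ≤ Z r * ‖M.e (σ r) - M.e (σ' r)‖ :=
    mul_le_mul hZ0 h3 hs.m_pos.le (by linarith)
  linarith

end geo

/-! ### few exceptions -/

/-- `P` holds on `B` outside a set of measure at most `c` -/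
def Few (μ : Measure N) (B : Set N) (c : ℝ≥0∞) (P : N → Prop) : Prop :=
  μ {a | a ∈ B ∧ ¬ P a} ≤ c

theorem Few.mono {μ : Measure N} {B B' : Set N} {c c' : ℝ≥0∞} {P P' : N → Prop}
    (h : Few μ B c P) (hB : B' ⊆ B) (hc : c ≤ c') (hP : ∀ a ∈ B', P a → P' a) :
    Few μ B' c' P' :=
  (measure_mono (fun a (ha : a ∈ {a | a ∈ B' ∧ ¬ P' a}) =>
    (⟨hB ha.1, fun h' => ha.2 (hP _ ha.1 h')⟩ : a ∈ {a | a ∈ B ∧ ¬ P a}))).trans (h.trans hc)

theorem Few.and {μ : Measure N} {B : Set N} {c c' : ℝ≥0∞} {P P' : N → Prop}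
    (h : Few μ B c P) (h' : Few μ B c' P') : Few μ B (c + c') (fun a => P a ∧ P' a) := by
  refine le_trans (measure_mono ?_) ((measure_union_le _ _).trans (add_le_add h h'))
  intro a ha
  by_cases hp : P a
  · exact Or.inr ⟨ha.1, fun h => ha.2 ⟨hp, h⟩⟩
  · exact Or.inl ⟨ha.1, hp⟩

theorem Few.exists {μ : Measure N} {B : Set N} {c : ℝ≥0∞} {P : N → Prop}
    (h : Few μ B c P) (hc : c < μ B) : ∃ a ∈ B, P a := by
  by_contra hcon
  push Not at hcon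
  have : B ⊆ {a | a ∈ B ∧ ¬ P a} := fun a ha => ⟨ha, hcon a ha⟩
  exact absurd ((measure_mono this).trans h) (not_le.2 hc)

theorem Few.comp_left {μ : Measure N} [μ.IsMulLeftInvariant] {B B' : Set N} {c : ℝ≥0∞}
    {P : N → Prop} (h : Few μ B c P) (m : N) (hm : ∀ a ∈ B', m * a ∈ B) :
    Few μ B' c (fun a => P (m * a)) := by
  have h1 : {a | a ∈ B' ∧ ¬ P (m * a)} ⊆ (fun a => m * a) ⁻¹' {n | n ∈ B ∧ ¬ P n} :=
    fun a ha => ⟨hm a ha.1, ha.2⟩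
  refine (measure_mono h1).trans ?_
  rw [measure_preimage_mul]
  exact h

theorem Few.comp_right {μ : Measure N} [μ.IsMulRightInvariant] {B B' : Set N} {c : ℝ≥0∞}
    {P : N → Prop} (h : Few μ B c P) (m : N) (hm : ∀ a ∈ B', a * m ∈ B) :
    Few μ B' c (fun a => P (a * m)) := by
  have h1 : {a | a ∈ B' ∧ ¬ P (a * m)} ⊆ (fun a => a * m) ⁻¹' {n | n ∈ B ∧ ¬ P n} :=
    fun a ha => ⟨hm a ha.1, ha.2⟩
  refine (measure_mono h1).trans ?_
  rw [measure_preimage_mul_right]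
  exact h

theorem Few.and_list {μ : Measure N} {B : Set N} {c : ℝ≥0∞} {ι : Type*} (l : List ι)
    {P : ι → N → Prop} (h : ∀ i ∈ l, Few μ B c (P i)) :
    Few μ B (l.length * c) (fun a => ∀ i ∈ l, P i a) := by
  induction l with
  | nil => simp [Few]
  | cons i l ih =>
    have h1 := (h i (by simp)).and (ih fun j hj => h j (by simp [hj]))
    refine h1.mono le_rfl (le_of_eq ?_) ?_
    · rw [List.length_cons]; push_cast; ring
    · rintro a - ⟨ha, hb⟩ j hj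
      rcases List.mem_cons.1 hj with rfl | hj
      · exact ha
      · exact hb j hj


section chain

variable {M : Mdl R E} {d : Data R E N Q} {p : Par R} {m : ℝ}

theorem XX_add (Z : R → ℝ) (σ : Equiv.Perm R) (θ : E) (t t' : ℝ) (r : R) :
    XX M Z σ θ (t + t') r = XX M Z σ θ t r + t' := by simp only [XX]; ring

theorem XX_mono (Z : R → ℝ) (σ : Equiv.Perm R) (θ θ' : E) {t t' : ℝ} (h : ‖θ - θ'‖ + t ≤ t') :
    XX M Z σ θ t ≤ XX M Z σ θ' t' := by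
  intro r
  have h1 := M.toFrame.inner_le_norm r (θ - θ')
  rw [inner_sub_right] at h1
  simp only [XX]
  linarith

/-- from the root to a point of a leg -/
theorem line_mem (hF : Facts M d p) (hs : Small M p m) {Z : R → ℝ} (hZ : p.Adm Z)
    {σ : Equiv.Perm R} {θ : E} {t : N} (htD : t ∈ d.Dom) {τ : ℝ} (ht : Good M d τ Z σ θ t) {r : R}
    {s : ℝ} (h0 : 0 ≤ s) (h1 : s ≤ Z r) {z : ℝ} (hz : p.ε ≤ z) :
    (d.g t r 0)⁻¹ * d.g t r s ∈ d.Bx z (XX M Z σ θ (τ + p.ε)) := by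
  refine hF.line t htD r s h0 ?_ z hz _ ?_
  · have := NR.le hs (hF.adm Z hZ) r
    linarith [hs.ω_le_half]
  · intro s' h0' h1' r'
    have := ht.height hs (hF.adm Z hZ) h0' (h1'.trans h1) r'
    rw [XX_add]; linarith

theorem chain_prod (hF : Facts M d p) (hs : Small M p m) {Z : R → ℝ} (hZ : p.Adm Z)
    {σ : Equiv.Perm R} {θ : E} (r₀ : R) (l : List (R × N)) :
    ∀ t : N, (∀ x ∈ l, Cheap M d p.ε x.1 (Z x.1) x.2) →
      (∀ l', l' <+: l → t * (l'.map Prod.snd).prod ∈ d.Dom ∧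
        Good M d p.ε Z σ θ (t * (l'.map Prod.snd).prod)) →
      ∃ L : List Q, L.length = 3 * l.length ∧ (∀ y ∈ L, y ∈ d.Bx p.ε (XX M Z σ θ (2 * p.ε))) ∧
        (d.g t r₀ 0)⁻¹ * d.g (t * (l.map Prod.snd).prod) r₀ 0 = L.prod := by
  induction l with
  | nil => intro t _ _; exact ⟨[], by simp⟩
  | cons x l ih =>
    intro t hc hg
    obtain ⟨L, hL1, hL2, hL3⟩ := ih (t * x.2) (fun y hy => hc y (by simp [hy])) (fun l' hl' => by
      have := hg (x :: l') (List.cons_prefix_cons.2 ⟨rfl, hl'⟩)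
      rwa [List.map_cons, List.prod_cons, ← mul_assoc] at this)
    obtain ⟨htD, hgt⟩ : t ∈ d.Dom ∧ Good M d p.ε Z σ θ t := by
      simpa using hg [] (List.nil_prefix)
    obtain ⟨htD', hgt'⟩ : t * x.2 ∈ d.Dom ∧ Good M d p.ε Z σ θ (t * x.2) := by
      have := hg [x] (by simp)
      simpa using this
    have hZ0 : 0 ≤ Z x.1 := by linarith [NR.half hs (hF.adm Z hZ) x.1]
    have h1 := line_mem hF hs hZ htD hgt hZ0 le_rfl (z := p.ε) le_rfl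
    have h2 := line_mem hF hs hZ htD' hgt' hZ0 le_rfl (z := p.ε) le_rfl
    have h3 : (d.g t x.1 (Z x.1))⁻¹ * d.g (t * x.2) x.1 (Z x.1)
        ∈ d.Bx p.ε (XX M Z σ θ (p.ε + p.ε)) := by
      refine hc x (by simp) t htD htD' p.ε le_rfl _ fun r' => ?_
      rw [XX_add]
      have := hgt.height hs (hF.adm Z hZ) hZ0 le_rfl r'
      linarith
    rw [← two_mul] at h1 h2 h3
    refine ⟨(d.g t x.1 0)⁻¹ * d.g t x.1 (Z x.1) :: (d.g t x.1 (Z x.1))⁻¹ * d.g (t * x.2) x.1 (Z x.1)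
      :: ((d.g (t * x.2) x.1 0)⁻¹ * d.g (t * x.2) x.1 (Z x.1))⁻¹ :: L, ?_, ?_, ?_⟩
    · simp only [List.length_cons, hL1]; ring
    · intro y hy
      simp only [List.mem_cons] at hy
      rcases hy with rfl | rfl | rfl | hy
      · exact h1
      · exact h3
      · exact hF.Bx_inv _ _ _ h2
      · exact hL2 y hy
    · rw [List.map_cons, List.prod_cons, List.prod_cons, List.prod_cons, List.prod_cons, ← hL3,
        hF.g_zero t r₀ x.1, hF.g_zero (t * x.2) r₀ x.1, ← mul_assoc t]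
      group

/-- two points joined by a factorised path of good points -/
theorem conn_mem (hF : Facts M d p) (hs : Small M p m) {Z : R → ℝ} (hZ : p.Adm Z)
    {σ : Equiv.Perm R} {θ : E} {r₀ : R} {s₀ : ℝ} (h0 : 0 ≤ s₀) (h1 : s₀ ≤ Z r₀)
    (l : List (R × N)) (hl : l.length ≤ M.J) (t : N)
    (hc : ∀ x ∈ l, Cheap M d p.ε x.1 (Z x.1) x.2)
    (hg : ∀ l', l' <+: l → t * (l'.map Prod.snd).prod ∈ d.Dom ∧
      Good M d p.ε Z σ θ (t * (l'.map Prod.snd).prod)) :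
    (d.g t r₀ s₀)⁻¹ * d.g (t * (l.map Prod.snd).prod) r₀ s₀
      ∈ d.Bx (2 * p.ε) (XX M Z σ θ (3 * p.ε)) := by
  obtain ⟨L, hL1, hL2, hL3⟩ := chain_prod hF hs hZ r₀ l t hc hg
  obtain ⟨htD, hgt⟩ : t ∈ d.Dom ∧ Good M d p.ε Z σ θ t := by
    simpa using hg [] (List.nil_prefix)
  obtain ⟨htD', hgt'⟩ := hg l (List.prefix_rfl)
  have h2 := line_mem hF hs hZ htD hgt h0 h1 (z := p.ε) le_rfl
  have h3 := line_mem hF hs hZ htD' hgt' h0 h1 (z := p.ε) le_rfl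
  rw [← two_mul] at h2 h3
  have h4 := hF.Bx_prod p.ε (XX M Z σ θ (2 * p.ε)) le_rfl
    (((d.g t r₀ 0)⁻¹ * d.g t r₀ s₀)⁻¹ :: (L ++ [(d.g (t * (l.map Prod.snd).prod) r₀ 0)⁻¹ *
      d.g (t * (l.map Prod.snd).prod) r₀ s₀])) (by
        simp only [List.length_cons, List.length_append, List.length_nil, hL1]
        have := hs.q_le
        omega) (by
        intro y hy
        simp only [List.mem_cons, List.mem_append, List.not_mem_nil,
          or_false] at hy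
        rcases hy with rfl | hy | rfl
        · exact hF.Bx_inv _ _ _ h2
        · exact hL2 y hy
        · exact h3)
  rw [List.prod_cons, List.prod_append, List.prod_singleton, ← hL3] at h4
  have h5 : (fun r => XX M Z σ θ (2 * p.ε) r + p.ε) = XX M Z σ θ (3 * p.ε) := by
    ext r; rw [← XX_add]; congr 1; ring
  rw [h5, ← two_mul] at h4
  convert h4 using 1
  group

end chain

section box

variable {M : Mdl R E} {d : Data R E N Q} {p : Par R} {m : ℝ}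

theorem pow_mem_add {A : Set N} {i j : ℕ} {x y : N} (hx : x ∈ A ^ i) (hy : y ∈ A ^ j) :
    x * y ∈ A ^ (i + j) := by
  rw [pow_add]; exact Set.mul_mem_mul hx hy

theorem inv_mem_pow {A : Set N} (hA : ∀ a ∈ A, a⁻¹ ∈ A) {i : ℕ} {x : N} (hx : x ∈ A ^ i) :
    x⁻¹ ∈ A ^ i := by
  induction i generalizing x with
  | zero => rw [pow_zero, Set.mem_one] at hx ⊢; rw [hx, inv_one]
  | succ i ih =>
    rw [pow_succ, Set.mem_mul] at hx
    obtain ⟨a, ha, b, hb, rfl⟩ := hx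
    rw [mul_inv_rev, pow_succ']
    exact Set.mul_mem_mul (hA _ hb) (ih ha)

theorem pow_mono_of_one {A : Set N} (hA : (1 : N) ∈ A) {i j : ℕ} (h : i ≤ j) : A ^ i ⊆ A ^ j :=
  Set.pow_subset_pow_right hA h

/-- law + image box at the base `n₀`, measured at the end of the leg `(r₀, s₀)` -/
structure IsBox (M : Mdl R E) (d : Data R E N Q) (p : Par R) (Z : R → ℝ) (r₀ : R) (s₀ : ℝ) (n₀ : N)
    (σ : Equiv.Perm R) (θ : E) (ν : Q) : Prop where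
  law : IsLaw M d p Z n₀ σ θ
  box : Few d.μ ((d.A Z) ^ 5) (ENNReal.ofReal ((M.J + 1) * M.C * p.δ) * d.μ (d.A Z))
    (fun a => ν⁻¹ * d.g (n₀ * a) r₀ s₀ ∈ d.Bx (2 * p.ε) (XX M Z σ θ (3 * p.ε)))

theorem IsLaw.few (hF : Facts M d p) {Z : R → ℝ} {n₀ : N} {σ : Equiv.Perm R} {θ : E}
    (h : IsLaw M d p Z n₀ σ θ) {B : Set N} {m : N} (hB : ∀ a ∈ B, m * a ∈ d.Ah Z) :
    Few d.μ B (ENNReal.ofReal p.δ * d.μ (d.A Z)) (fun a => Good M d p.ε Z σ θ (n₀ * m * a)) := by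
  have := hF.μ_left
  have h1 : Few d.μ (d.Ah Z) (ENNReal.ofReal p.δ * d.μ (d.A Z))
    (fun a => Good M d p.ε Z σ θ (n₀ * a)) := h
  refine (h1.comp_left m hB).mono le_rfl le_rfl fun a _ ha => ?_
  rwa [mul_assoc]

theorem exists_isBox (hF : Facts M d p) (hs : Small M p m) {Z : R → ℝ} (hZ : p.Adm Z)
    {r₀ : R} {s₀ : ℝ} (h0 : 0 ≤ s₀) (h1 : s₀ ≤ Z r₀) (n₀ : N)
    (hD : ∀ a ∈ d.Ah Z, n₀ * a ∈ d.Dom) :
    ∃ σ θ ν, IsBox M d p Z r₀ s₀ n₀ σ θ ν := by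
  have := hF.μ_left
  have := hF.μ_right
  have := hF.μ_sf
  obtain ⟨σ₀, θ, ha⟩ := hF.box Z hZ n₀
  have hlaw : IsLaw M d p Z n₀ σ₀ θ := ha
  have hA5 : MeasurableSet ((d.A Z) ^ 5) := hF.A_meas Z hZ 5 (by norm_num)
  have hsub : d.A Z ⊆ (d.A Z) ^ 5 := by
    conv_lhs => rw [← pow_one (d.A Z)]
    exact pow_mono_of_one (hF.A_one Z hZ) (by norm_num)
  have hsub' : (d.A Z) ^ 5 ⊆ (d.A Z) ^ 10 := pow_mono_of_one (hF.A_one Z hZ) (by norm_num)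
  have hAtop : d.μ (d.Ah Z) ≠ ⊤ :=
    ne_top_of_le_ne_top (ENNReal.mul_ne_top ENNReal.ofReal_ne_top (hF.A_fin Z hZ)) (hF.Ah_le Z hZ)
  obtain ⟨s, hsB, hs0⟩ := exists_center (μ := d.μ)
    (Rel := fun s t => (d.g (n₀ * s) r₀ s₀)⁻¹ * d.g (n₀ * t) r₀ s₀
      ∈ d.Bx (2 * p.ε) (XX M Z σ₀ θ (3 * p.ε)))
    (by
      have hm : Measurable fun x : N × N =>
          (d.g (n₀ * x.1) r₀ s₀)⁻¹ * d.g (n₀ * x.2) r₀ s₀ := by
        have hg := hF.g_meas r₀ s₀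
        exact ((hg.comp (measurable_const.mul measurable_fst)).inv).mul
          (hg.comp (measurable_const.mul measurable_snd))
      exact hm (hF.Bx_meas _ _))
    (B := (d.A Z) ^ 5) (W := (d.A Z) ^ 10) hA5 (hF.A_meas Z hZ 10 le_rfl)
    (fun s hs t ht => by
      have := pow_mem_add (inv_mem_pow (hF.A_inv Z hZ) hs) ht
      simpa using this)
    (fun h => hF.A_ne Z hZ (measure_mono_null hsub h))
    (ne_top_of_le_ne_top hAtop (measure_mono (hsub'.trans (hF.A_pow Z hZ))))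
    ((M.J + 1 : ℕ) * (ENNReal.ofReal p.δ * d.μ (d.A Z)))
    (by
      intro u hu
      obtain ⟨l, hl, hc, rfl, hpre⟩ := hF.gen Z hZ u hu
      have hfew : Few d.μ ((d.A Z) ^ 5) (l.inits.length * (ENNReal.ofReal p.δ * d.μ (d.A Z)))
          (fun s => ∀ l' ∈ l.inits, Good M d p.ε Z σ₀ θ (n₀ * (s * (l'.map Prod.snd).prod))) := by
        refine Few.and_list _ fun l' hl' => ?_
        have h2 : Few d.μ (d.Ah Z) (ENNReal.ofReal p.δ * d.μ (d.A Z))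
          (fun a_1 => Good M d p.ε Z σ₀ θ (n₀ * a_1)) := ha
        exact h2.comp_right _ fun s hs => hpre l' ((List.mem_inits _ _).1 hl') s hs
      refine hfew.mono le_rfl ?_ ?_
      · gcongr
        rw [List.length_inits]; omega
      · intro s hs hg
        have := conn_mem hF ‹Small M p m› hZ h0 h1 l hl (n₀ * s) hc (fun l' hl' => by
          have h3 := hg l' ((List.mem_inits _ _).2 hl')
          have h4 := hD _ (hpre l' hl' s hs)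
          rw [← mul_assoc] at h3 h4
          exact ⟨h4, h3⟩)
        rwa [mul_assoc] at this)
  refine ⟨σ₀, θ, d.g (n₀ * s) r₀ s₀, hlaw, ?_⟩
  -- divide by the measure of the box
  have hB1 : d.μ (d.A Z) ≤ d.μ ((d.A Z) ^ 5) := measure_mono hsub
  have hW : d.μ ((d.A Z) ^ 10) ≤ ENNReal.ofReal M.C * d.μ (d.A Z) :=
    (measure_mono (hF.A_pow Z hZ)).trans (hF.Ah_le Z hZ)
  have h2 : d.μ {t | t ∈ (d.A Z) ^ 5 ∧ ¬ ((d.g (n₀ * s) r₀ s₀)⁻¹ * d.g (n₀ * t) r₀ s₀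
      ∈ d.Bx (2 * p.ε) (XX M Z σ₀ θ (3 * p.ε)))} * d.μ (d.A Z) ≤
      (ENNReal.ofReal ((M.J + 1) * M.C * p.δ) * d.μ (d.A Z)) * d.μ (d.A Z) := by
    refine (mul_le_mul_right hB1 _).trans (hs0.trans ?_)
    refine (mul_le_mul_right hW _).trans (le_of_eq ?_)
    have hJ : (0:ℝ) ≤ (M.J + 1 : ℝ) := by positivity
    have hC : (0:ℝ) ≤ M.C := by linarith [M.one_le_C]
    rw [ENNReal.ofReal_mul (mul_nonneg hJ hC), ENNReal.ofReal_mul hJ]
    have : ENNReal.ofReal ((M.J : ℝ) + 1) = ((M.J + 1 : ℕ) : ℝ≥0∞) := by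
      rw [← Nat.cast_succ, ENNReal.ofReal_natCast]
    rw [this]; ring
  exact (ENNReal.mul_le_mul_iff_left (hF.A_ne Z hZ) (hF.A_fin Z hZ)).1 h2

/-- two fractions of the same mass -/
theorem ofReal_mul_add_lt {x : ℝ≥0∞} (hx0 : x ≠ 0) (hx : x ≠ ⊤) {a b : ℝ} (ha : 0 ≤ a)
    (hb : 0 ≤ b) (hab : a + b < 1) :
    ENNReal.ofReal a * x + ENNReal.ofReal b * x < x := by
  rw [← add_mul, ← ENNReal.ofReal_add ha hb]
  calc ENNReal.ofReal (a + b) * x < 1 * x :=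
        ENNReal.mul_lt_mul_left hx0 hx (ENNReal.ofReal_lt_one.2 hab)
    _ = x := one_mul x

theorem Small.JCδ (hs : Small M p m) (hF : Facts M d p) :
    0 ≤ ((M.J : ℝ) + 1) * M.C * p.δ ∧ ((M.J : ℝ) + 1) * M.C * p.δ + p.δ ≤ 1 / 4 ∧
      p.δ ≤ 1 / 8 := by
  have h1 := hs.δ_le
  have h2 := M.one_le_C
  have h3 := hF.δ_pos
  have h4 : (0:ℝ) ≤ M.J := Nat.cast_nonneg _
  have h5 : p.δ ≤ M.C * p.δ := by nlinarith
  have h6 : 0 ≤ (M.J : ℝ) * M.C * p.δ := by positivity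
  refine ⟨by positivity, ?_, ?_⟩ <;> nlinarith

theorem law_compare [Nonempty R] (hF : Facts M d p) (hs : Small M p m) {Z : R → ℝ}
    (hZ : p.Adm Z) {n₀ k : N} (hk : k ∈ (d.A Z) ^ 9) {σ σ' : Equiv.Perm R} {θ θ' : E}
    (h : IsLaw M d p Z n₀ σ θ) (h' : IsLaw M d p Z (n₀ * k) σ' θ') :
    σ = σ' ∧ ‖θ - θ'‖ ≤ 2 * p.ε := by
  have h1 := h.few hF (B := d.A Z) (m := k) (fun a ha => hF.A_pow Z hZ (by
    have := pow_mem_add hk (j := 1) (by rwa [pow_one])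
    exact this))
  have h2 := h'.few hF (B := d.A Z) (m := 1) (fun a ha => by
    rw [one_mul]
    refine hF.A_pow Z hZ (pow_mono_of_one (hF.A_one Z hZ) (by norm_num : 1 ≤ 10) ?_)
    rwa [pow_one])
  obtain ⟨a, -, ha1, ha2⟩ := (h1.and h2).exists (ofReal_mul_add_lt (hF.A_ne Z hZ)
    (hF.A_fin Z hZ) hF.δ_pos.le hF.δ_pos.le (by linarith [(hs.JCδ hF).2.2]))
  rw [mul_one] at ha2
  have h3 := ha1.unique hs (hF.adm Z hZ) ha2 (by have := hs.ε_le; have := hs.m_pos; linarith)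
  exact ⟨h3.1, h3.2.trans (by linarith)⟩

theorem mem_Ah {Z : R → ℝ} (hF : Facts M d p) (hZ : p.Adm Z) {a : N} (ha : a ∈ d.A Z) {k : ℕ}
    (hk : 1 ≤ k) : a ∈ (d.A Z) ^ k :=
  pow_mono_of_one (hF.A_one Z hZ) hk (by rwa [pow_one])

theorem box_compare [Nonempty R] (hF : Facts M d p) (hs : Small M p m) {Z : R → ℝ}
    (hZ : p.Adm Z) {r₀ : R} {s₀ : ℝ} {n₀ k : N} (hk : k ∈ (d.A Z) ^ 4)
    {σ σ' : Equiv.Perm R} {θ θ' : E} {ν ν' : Q}
    (h : IsBox M d p Z r₀ s₀ n₀ σ θ ν) (h' : IsBox M d p Z r₀ s₀ (n₀ * k) σ' θ' ν') :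
    σ = σ' ∧ ‖θ - θ'‖ ≤ 2 * p.ε ∧ ∃ y y', y ∈ d.Bx (2 * p.ε) (XX M Z σ θ (3 * p.ε)) ∧
      y' ∈ d.Bx (2 * p.ε) (XX M Z σ θ' (3 * p.ε)) ∧ ν⁻¹ * ν' = y * y'⁻¹ := by
  have := hF.μ_left
  obtain ⟨hσ, hθ⟩ := law_compare hF hs hZ
    (pow_mono_of_one (hF.A_one Z hZ) (by norm_num : 4 ≤ 9) hk) h.law h'.law
  subst hσ
  refine ⟨rfl, hθ, ?_⟩
  have h1 := h.box.comp_left k (B' := d.A Z) (fun a ha =>
    pow_mem_add hk (j := 1) (by rwa [pow_one]))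
  have h2 := h'.box.comp_left 1 (B' := d.A Z) (fun a ha => by
    rw [one_mul]; exact mem_Ah hF hZ ha (by norm_num))
  have h3 := hs.JCδ hF
  obtain ⟨a, -, ha1, ha2⟩ := (h1.and h2).exists (ofReal_mul_add_lt (hF.A_ne Z hZ)
    (hF.A_fin Z hZ) h3.1 h3.1 (by linarith [hF.δ_pos]))
  refine ⟨_, _, ha1, ha2, ?_⟩
  rw [one_mul, ← mul_assoc n₀]
  group

/-- typical points -/
def Typ (M : Mdl R E) (d : Data R E N Q) (p : Par R) (Z : R → ℝ) (r₀ : R) (s₀ : ℝ) (t : N) : Prop :=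
  ∀ σ θ ν, IsBox M d p Z r₀ s₀ t σ θ ν → Good M d (3 * p.ε) Z σ θ t ∧
    ν⁻¹ * d.g t r₀ s₀ ∈ d.Bx (3 * p.ε) (XX M Z σ θ (6 * p.ε))

theorem Good.congr {Z : R → ℝ} {τ τ' : ℝ} {σ : Equiv.Perm R} {θ θ' : E} {n : N}
    (h : Good M d τ Z σ θ n) (hθ : ‖θ - θ'‖ + τ ≤ τ') : Good M d τ' Z σ θ' n := by
  intro r s h0 h1
  have h2 := h r s h0 h1
  have h3 : d.f n r s - θ' - s • M.e (σ r) = (d.f n r s - θ - s • M.e (σ r)) + (θ - θ') := by abel
  rw [h3]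
  exact (norm_add_le _ _).trans (by linarith)

theorem Bx_mem_prod (hF : Facts M d p) {z : ℝ} (hz : p.ε ≤ z) {X : R → ℝ} (l : List Q)
    (hl : l.length ≤ p.q) (h : ∀ x ∈ l, x ∈ d.Bx z X) {z' : ℝ} {X' : R → ℝ} (hz' : z + p.ε ≤ z')
    (hX' : ∀ r, X r + p.ε ≤ X' r) : l.prod ∈ d.Bx z' X' :=
  hF.Bx_mono _ _ _ _ hz' hX' (hF.Bx_prod z X hz l hl h)

theorem typ_few [Nonempty R] (hF : Facts M d p) (hs : Small M p m) {Z : R → ℝ}
    (hZ : p.Adm Z) {r₀ : R} {s₀ : ℝ} (h0 : 0 ≤ s₀) (h1 : s₀ ≤ Z r₀) (n₀ : N)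
    (hD : ∀ a ∈ d.Ah Z, n₀ * a ∈ d.Dom) :
    Few d.μ ((d.A Z) ^ 2) (ENNReal.ofReal ((M.J + 2) * M.C * p.δ) * d.μ (d.A Z))
      (fun a => Typ M d p Z r₀ s₀ (n₀ * a)) := by
  obtain ⟨σ, θ, ν, hb⟩ := exists_isBox hF hs hZ h0 h1 n₀ hD
  have hA := hF.A_one Z hZ
  have h2 := hb.law.few hF (B := (d.A Z) ^ 2) (m := 1) (fun a ha => by
    rw [one_mul]; exact hF.A_pow Z hZ (pow_mono_of_one hA (by norm_num) ha))
  have h3 := hb.box.mono (B' := (d.A Z) ^ 2) (P' := fun a => ν⁻¹ * d.g (n₀ * a) r₀ s₀ ∈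
    d.Bx (2 * p.ε) (XX M Z σ θ (3 * p.ε))) (pow_mono_of_one hA (by norm_num)) le_rfl
    (fun _ _ h => h)
  refine (h2.and h3).mono le_rfl ?_ ?_
  · rw [← add_mul]
    gcongr
    have hC := M.one_le_C
    have hδ := hF.δ_pos
    have hJ : (0:ℝ) ≤ M.J := Nat.cast_nonneg _
    rw [← ENNReal.ofReal_add hδ.le (by positivity)]
    refine ENNReal.ofReal_le_ofReal ?_
    nlinarith
  · rintro a ha ⟨hg, hbx⟩ σ' θ' ν' hb'
    rw [mul_one] at hg
    obtain ⟨hσ, hθ, y, y', hy, hy', hyy⟩ := box_compare hF hs hZ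
      (pow_mono_of_one hA (by norm_num : 2 ≤ 4) ha) hb hb'
    subst hσ
    refine ⟨hg.congr (by linarith), ?_⟩
    have hmono : XX M Z σ θ (3 * p.ε) ≤ XX M Z σ θ' (5 * p.ε) := XX_mono _ _ _ _ (by linarith)
    have hε := hF.ε_pos
    have h4 := Bx_mem_prod hF (z := 2 * p.ε) (by linarith) (X := XX M Z σ θ' (5 * p.ε))
      [y', y⁻¹, ν⁻¹ * d.g (n₀ * a) r₀ s₀] (by simp; have := hs.q_le; omega) (by
        intro x hx
        simp only [List.mem_cons, List.not_mem_nil, or_false] at hx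
        rcases hx with rfl | rfl | rfl
        · exact hF.Bx_mono _ _ _ _ le_rfl (XX_mono _ _ _ _ (by rw [sub_self, norm_zero]; linarith)) hy'
        · exact hF.Bx_inv _ _ _ (hF.Bx_mono _ _ _ _ le_rfl hmono hy)
        · exact hF.Bx_mono _ _ _ _ le_rfl hmono hbx)
      (z' := 3 * p.ε) (X' := XX M Z σ θ' (6 * p.ε)) (by linarith)
      (fun r => by rw [← XX_add]; exact le_of_eq (by congr 1; ring))
    have h5 : ν'⁻¹ * d.g (n₀ * a) r₀ s₀ = [y', y⁻¹, ν⁻¹ * d.g (n₀ * a) r₀ s₀].prod := by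
      have h6 : ν' = ν * (y * y'⁻¹) := by rw [← hyy]; group
      rw [h6]
      simp only [List.prod_cons, List.prod_nil]
      group
    rw [h5]; exact h4

theorem typ_pair [Nonempty R] (hF : Facts M d p) (hs : Small M p m) {Z : R → ℝ}
    (hZ : p.Adm Z) {r₀ : R} {s₀ : ℝ} (h0 : 0 ≤ s₀) (h1 : s₀ ≤ Z r₀) {t k : N}
    (hk : k ∈ (d.A Z) ^ 4) (hD : ∀ a ∈ d.Ah Z, t * k * a ∈ d.Dom)
    (ht : Typ M d p Z r₀ s₀ t) (htk : Typ M d p Z r₀ s₀ (t * k))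
    {σ : Equiv.Perm R} {θ : E} {ν : Q} (hb : IsBox M d p Z r₀ s₀ t σ θ ν) :
    Good M d (5 * p.ε) Z σ θ (t * k) ∧
    (d.g t r₀ s₀)⁻¹ * d.g (t * k) r₀ s₀ ∈ d.Bx (4 * p.ε) (XX M Z σ θ (9 * p.ε)) := by
  obtain ⟨σ', θ', ν', hb'⟩ := exists_isBox hF hs hZ h0 h1 (t * k) hD
  obtain ⟨hσ, hθ, y, y', hy, hy', hyy⟩ := box_compare hF hs hZ hk hb hb'
  subst hσ
  have hε := hF.ε_pos
  obtain ⟨-, h2⟩ := ht _ _ _ hb
  obtain ⟨hg, h3⟩ := htk _ _ _ hb'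
  refine ⟨hg.congr (by rw [← norm_neg, neg_sub]; linarith), ?_⟩
  have hθ' : ‖θ' - θ‖ ≤ 2 * p.ε := by rw [← norm_neg, neg_sub]; exact hθ
  have h4 := Bx_mem_prod hF (z := 3 * p.ε) (by linarith) (X := XX M Z σ θ (8 * p.ε))
      [(ν⁻¹ * d.g t r₀ s₀)⁻¹, y, y'⁻¹, ν'⁻¹ * d.g (t * k) r₀ s₀]
      (by simp; have := hs.q_le; omega) (by
        intro x hx
        simp only [List.mem_cons, List.not_mem_nil, or_false] at hx
        rcases hx with rfl | rfl | rfl | rfl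
        · exact hF.Bx_inv _ _ _ (hF.Bx_mono _ _ _ _ le_rfl
            (XX_mono _ _ _ _ (by rw [sub_self, norm_zero]; linarith)) h2)
        · exact hF.Bx_mono _ _ _ _ (by linarith)
            (XX_mono _ _ _ _ (by rw [sub_self, norm_zero]; linarith)) hy
        · exact hF.Bx_inv _ _ _ (hF.Bx_mono _ _ _ _ (by linarith)
            (XX_mono _ _ _ _ (by linarith)) hy')
        · exact hF.Bx_mono _ _ _ _ le_rfl (XX_mono _ _ _ _ (by linarith)) h3)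
      (z' := 4 * p.ε) (X' := XX M Z σ θ (9 * p.ε)) (by linarith)
      (fun r => by rw [← XX_add]; exact le_of_eq (by congr 1; ring))
  have h5 : (d.g t r₀ s₀)⁻¹ * d.g (t * k) r₀ s₀ =
      [(ν⁻¹ * d.g t r₀ s₀)⁻¹, y, y'⁻¹, ν'⁻¹ * d.g (t * k) r₀ s₀].prod := by
    have h6 : ν' = ν * (y * y'⁻¹) := by rw [← hyy]; group
    rw [h6]
    simp only [List.prod_cons, List.prod_nil]
    group
  rw [h5]; exact h4

end box

end Crest.Agent.R182.El
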