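/-
R182, module ELINST (helper860): the counting lemma for the fields `slab` and `stick`: points of
`x E g` whose image (seen from the image of `x`) has unipotent part in `B` and low heights.
-/
import Mathlib
import Crest.Agent.R182.ElBase
import Crest.Agent.R182.CoreV
import Crest.Agent.R182.BoxPack
import Crest.Agent.R182.CapReach

set_option autoImplicit false
set_option linter.unusedSectionVars false

open MeasureTheory Set
open scoped Pointwise ENNReal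

namespace Crest.Agent.R182.ElI

open Crest.GroupTheory Crest.Geometry Crest.Agent.R182.QI Crest.Agent.R182.Core
  Crest.Agent.R182.Nb Crest.Agent.R182.Gen

variable {Γ : Type*} [Group Γ] {k : ℕ} {S : Set Γ} {π : Γ →* Multiplicative (Fin k → ℤ)}

theorem volume_inv_NN (M : BModel S π) (s : Set M.NN) : volume s⁻¹ = volume s := by
  have h1 : s⁻¹ = (-1 : ℝ) • s := by
    ext x
    constructor
    · intro hx
      refine ⟨x⁻¹, hx, ?_⟩
      change (-1 : ℝ) • (-x : M.NN) = x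
      simp
    · rintro ⟨y, hy, rfl⟩
      change (-((-1 : ℝ) • y) : M.NN) ∈ s
      simpa using hy
  rw [h1, Measure.addHaar_smul]
  simp

theorem exists_count {M : BModel S π} (hS : S.Finite) (hcl : Subgroup.closure S = ⊤)
    (hG : M.CGrowth) (K : ℕ) : ∃ (A : ℝ) (D : ℕ), 1 ≤ A ∧ ∀ Ψ : Γ → Γ, QIMap S S Ψ K →
    ∀ (x g : M.G) (B : Set M.NN) (Z : GI M → ℝ) (m : ℝ), 1 ≤ m →
      volume {n : M.NN | up M ((M.ext Ψ x)⁻¹ * M.ext Ψ (x * M.toG n * g)) ∈ B ∧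
        M.len ((M.ext Ψ x)⁻¹ * M.ext Ψ (x * M.toG n * g)) ≤ m ∧
        ∀ i, wg M i (M.h ((M.ext Ψ x)⁻¹ * M.ext Ψ (x * M.toG n * g))) ≤ Z i} ≤
      ENNReal.ofReal (A * m ^ D) * volume (B * M.NB (gZ (eg M) Z) (A * m ^ D)) := by
  classical
  obtain ⟨A₂, hgrow⟩ := hG (RU M)
  obtain ⟨A₃, hA₃, had⟩ := M.ad_mem (max (RU M) M.a) 1
  obtain ⟨Cw, hCw, hwt⟩ := M.exists_wt_le
  obtain ⟨Cv, hCv, hpre⟩ := M.volume_preimage_le hS hcl K (5 * M.a)
  have ha := M.a0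
  set C₁ : ℝ := Cw * (M.a * M.a) with hC₁
  have hC₁0 : 0 ≤ C₁ := by positivity
  set v₀ : ℝ≥0∞ := volume (Metric.closedBall (0 : M.NN) 1) with hv₀
  have hv₀0 : v₀ ≠ 0 := (Metric.measure_closedBall_pos volume _ one_pos).ne'
  have hv₀t : v₀ ≠ ⊤ := measure_closedBall_lt_top.ne
  have hv₀r : 0 < v₀.toReal := ENNReal.toReal_pos hv₀0 hv₀t
  set Ab : ℝ := Real.exp C₁ ^ M.c * (A₃ * 4 ^ M.d) with hAb
  have hAb0 : 0 ≤ Ab := by positivity
  set Ac : ℝ := Cv.toReal * (A₂ * 3 ^ A₂) / v₀.toReal with hAc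
  have hAc0 : 0 ≤ Ac := by positivity
  refine ⟨1 + Ab + Ac, M.d + A₂, by linarith, fun Ψ hΨ x g B Z m hm => ?_⟩
  set R₁ : ℝ := (1 + Ab + Ac) * m ^ (M.d + A₂) with hR₁
  have hmd : m ^ M.d ≤ m ^ (M.d + A₂) := pow_le_pow_right₀ hm (by omega)
  have hmA : m ^ A₂ ≤ m ^ (M.d + A₂) := pow_le_pow_right₀ hm (by omega)
  have hm0 : 0 ≤ m := by linarith
  have hR₁pos : 0 < R₁ := by positivity
  by_cases hfin : volume (B * M.NB (gZ (eg M) Z) R₁) = ⊤
  · rw [hfin, ENNReal.mul_top (by rw [ne_eq, ENNReal.ofReal_eq_zero]; push Not; exact hR₁pos)]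
    exact le_top
  set VB := volume (B * M.NB (gZ (eg M) Z) R₁) with hVB
  set N₀ : ℕ := ⌊m + 1⌋₊ with hN₀
  have hN₀m : (N₀ : ℝ) ≤ m + 1 := Nat.floor_le (by linarith)
  obtain ⟨FC, hFC, hFCmem⟩ := hgrow N₀
  set P : M.NN → M.G := fun n => (M.ext Ψ x)⁻¹ * M.ext Ψ (x * M.toG n * g) with hP
  -- the cells
  let W : M.G → Set M.NN := fun f => M.conjN f⁻¹ ⁻¹' Metric.closedBall (0 : M.NN) 1
  have hWm : ∀ f, MeasurableSet (W f) := fun f =>
    (M.measurePreserving_conjN f⁻¹).measurable Metric.isClosed_closedBall.measurableSet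
  have hWv : ∀ f, volume (W f) = v₀ := fun f =>
    (M.measurePreserving_conjN f⁻¹).measure_preimage
      Metric.isClosed_closedBall.measurableSet.nullMeasurableSet
  have hWinv : ∀ f, ∀ w ∈ W f, w⁻¹ ∈ W f := by
    intro f w hw
    change M.conjN f⁻¹ w⁻¹ ∈ Metric.closedBall (0 : M.NN) 1
    rw [map_inv]
    have h1 : ‖M.conjN f⁻¹ w‖ ≤ 1 := mem_closedBall_zero_iff.1 hw
    rw [mem_closedBall_zero_iff]
    change ‖(-(M.conjN f⁻¹ w) : M.NN)‖ ≤ 1
    rwa [norm_neg]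
  -- unipotent elements in the cells are bounded after conjugation
  have hball : ∀ n : M.NN, n ∈ Metric.closedBall (0 : M.NN) 1 → M.len (M.toG n) ≤ 2 * M.a := by
    intro n hn
    rw [mem_closedBall_zero_iff] at hn
    refine (M.len_toG_le n).trans ?_
    have h1 : Real.log (2 + ‖n‖) ≤ 2 := by
      have h2 : Real.log (2 + ‖n‖) ≤ Real.log 3 :=
        Real.log_le_log (by positivity) (by linarith)
      have h3 := Real.log_le_sub_one_of_pos (by norm_num : (0:ℝ) < 3)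
      linarith
    nlinarith
  have hWlen : ∀ f, ∀ w ∈ W f, M.len (f⁻¹ * M.toG w * f) ≤ 2 * M.a := by
    intro f w hw
    have h1 : M.toG (M.conjN f⁻¹ w) = f⁻¹ * M.toG w * f := by rw [M.toG_conjN, inv_inv]
    rw [← h1]
    exact hball _ hw
  -- the good pairs
  let Bf : M.G → Set M.NN := fun f => {b | b ∈ B ∧ ∃ l : List M.G,
    (∀ s ∈ l, s ∈ M.C ∧ M.len s ≤ RU M) ∧ (l.length : ℝ) ≤ m + 1 ∧ f ∈ M.C ∧
    M.len (f⁻¹ * l.prod) ≤ M.a ∧ ∀ i, wg M i (M.h l.prod) ≤ Z i}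
  -- the cells are contained in the box
  have hWsub : ∀ f, (Bf f).Nonempty → W f ⊆ M.NB (gZ (eg M) Z) R₁ := by
    rintro f ⟨b, hb, l, hl, hlm, hfC, hfl, hlZ⟩ w hw
    have hlp : l.prod ∈ M.C := Subgroup.list_prod_mem _ fun s hs => (hl s hs).1
    have hf : f = (l ++ [(f⁻¹ * l.prod)⁻¹]).prod := by
      rw [List.prod_append, List.prod_singleton]; group
    have hlet : ∀ s ∈ l ++ [(f⁻¹ * l.prod)⁻¹], s ∈ M.C ∧ M.len s ≤ max (RU M) M.a := by
      intro s hs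
      rcases List.mem_append.1 hs with h | h
      · exact ⟨(hl s h).1, (hl s h).2.trans (le_max_left _ _)⟩
      · rw [List.mem_singleton.1 h]
        refine ⟨M.C.inv_mem (M.C.mul_mem (M.C.inv_mem hfC) hlp), ?_⟩
        rw [M.isLen.inv]; exact hfl.trans (le_max_right _ _)
    have hhf : ∀ j : GI M, wg M j (M.h (l ++ [(f⁻¹ * l.prod)⁻¹]).prod) ≤ Z j + C₁ := by
      intro j
      rw [← hf]
      have h1 : M.h l.prod = M.h f + M.h (f⁻¹ * l.prod) := by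
        rw [← M.h_mul]; congr 1; group
      have h2 := hlZ j
      rw [h1, map_add] at h2
      have h3 := (neg_le_abs _).trans ((hwt j (M.h (f⁻¹ * l.prod))).trans
        (mul_le_mul_of_nonneg_left ((M.norm_h_le _).trans
          (mul_le_mul_of_nonneg_left hfl ha)) hCw))
      change _ ≤ Z j + Cw * (M.a * M.a)
      change -(wg M j) (M.h (f⁻¹ * l.prod)) ≤ _ at h3
      linarith
    have hwn : ‖M.bas.equivFun (M.E (M.conjN f⁻¹ w))‖ ≤ 1 := by
      have h4 : M.bas.equivFun (M.E (M.conjN f⁻¹ w)) = M.conjN f⁻¹ w := M.E.symm_apply_apply _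
      rw [h4]
      exact mem_closedBall_zero_iff.1 hw
    have h1 := had _ hlet (M.E (M.conjN f⁻¹ w)) hwn (fun j => Z j + C₁) hhf
    rw [← hf] at h1
    have h2 : gZ (eg M) (fun j => Z j + C₁) = fun i => Real.exp C₁ • gZ (eg M) Z i := by
      funext i
      rw [gZ, gZ, smul_smul, ← Real.exp_add, add_comm]
    rw [h2] at h1
    have h3 := Bx_unscale (Real.one_le_exp hC₁0) (by positivity) h1
    rw [M.mem_NB]
    have h5 : M.E w = M.Ad f (M.E (M.conjN f⁻¹ w)) := by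
      have h6 : w = M.conjN f (M.conjN f⁻¹ w) := by
        rw [← M.conjN_mul, mul_inv_cancel, M.conjN_one]
      conv_lhs => rw [h6]
      rw [M.conjN_apply, LinearEquiv.apply_symm_apply]
    rw [h5]
    refine Bx_mono ?_ h3
    have h7 : (1 + (((l ++ [(f⁻¹ * l.prod)⁻¹]).length : ℕ) : ℝ)) ≤ 4 * m := by
      rw [List.length_append]; push_cast; simp; linarith
    calc Real.exp C₁ ^ M.c * (A₃ * (1 + (((l ++ [(f⁻¹ * l.prod)⁻¹]).length : ℕ) : ℝ)) ^ M.d)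
        ≤ Real.exp C₁ ^ M.c * (A₃ * (4 * m) ^ M.d) := by gcongr
      _ = Ab * m ^ M.d := by rw [hAb, mul_pow]; ring
      _ ≤ R₁ := by
          rw [hR₁]
          have : Ab * m ^ M.d ≤ Ab * m ^ (M.d + A₂) := mul_le_mul_of_nonneg_left hmd hAb0
          have h8 : 0 ≤ (1 + Ac) * m ^ (M.d + A₂) := by positivity
          nlinarith
  -- maximal separated sets
  have hmax : ∀ f, ∃ F : Finset M.NN, ((F.card : ℝ≥0∞) * v₀ ≤ VB) ∧
      ∀ b ∈ Bf f, ∃ b' ∈ F, M.len ((M.toG b' * f)⁻¹ * (M.toG b * f)) ≤ 4 * M.a := by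
    intro f
    by_cases hne : (Bf f).Nonempty
    swap
    · refine ⟨∅, by simp, fun b hb => absurd ⟨b, hb⟩ hne⟩
    have hsub : volume (W f * (MonoidHom.id M.NN) '' (Bf f)⁻¹) ≤ VB := by
      have h1 : W f * (MonoidHom.id M.NN) '' (Bf f)⁻¹ ⊆ (B * M.NB (gZ (eg M) Z) R₁)⁻¹ := by
        rintro _ ⟨w, hw, _, ⟨b, hb, rfl⟩, rfl⟩
        change (w * b)⁻¹ ∈ B * M.NB (gZ (eg M) Z) R₁
        rw [mul_inv_rev]
        exact ⟨b⁻¹, (show b⁻¹ ∈ Bf f from hb).1, w⁻¹, hWsub f hne (hWinv f w hw), rfl⟩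
      refine (measure_mono h1).trans (le_of_eq ?_)
      rw [volume_inv_NN]
    obtain ⟨F, hF, hcard, hcov⟩ := BoxVol.exists_maximal (volume : Measure M.NN)
      (MonoidHom.id M.NN) (hWm f) (by rw [hWv]; exact hv₀0) (Bf f)⁻¹
      (ne_top_of_le_ne_top hfin hsub)
    refine ⟨F.image fun u => u⁻¹, ?_, fun b hb => ?_⟩
    · rw [hWv] at hcard
      refine le_trans ?_ (hcard.trans hsub)
      have h1 : (((F.image fun u => u⁻¹).card : ℕ) : ℝ≥0∞) ≤ (F.card : ℝ≥0∞) := by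
        exact_mod_cast Finset.card_image_le
      gcongr
    · obtain ⟨u', hu', w₁, hw₁, w₂, hw₂, he⟩ := hcov b⁻¹ (by simpa using hb)
      refine ⟨u'⁻¹, Finset.mem_image_of_mem _ hu', ?_⟩
      have he' : b = u'⁻¹ * (w₂⁻¹ * w₁) := by
        have h1 : b⁻¹ = w₁⁻¹ * w₂ * u' := he
        have h2 : b = (w₁⁻¹ * w₂ * u')⁻¹ := by rw [← h1, inv_inv]
        rw [h2]; group
      have h3 : (M.toG u'⁻¹ * f)⁻¹ * (M.toG b * f) =
          (f⁻¹ * M.toG w₂ * f)⁻¹ * (f⁻¹ * M.toG w₁ * f) := by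
        rw [he', map_mul, map_mul, map_inv, map_inv]; group
      rw [h3]
      have h4 := M.isLen.mul (f⁻¹ * M.toG w₂ * f)⁻¹ (f⁻¹ * M.toG w₁ * f)
      rw [M.isLen.inv] at h4
      have h5 := hWlen f w₁ hw₁
      have h6 := hWlen f w₂ hw₂
      linarith
  choose F hFcard hFcov using hmax
  let T : Finset M.G := FC.biUnion fun f => (F f).image fun b => M.ext Ψ x * (M.toG b * f)
  have hsub : {n : M.NN | up M (P n) ∈ B ∧ M.len (P n) ≤ m ∧ ∀ i, wg M i (M.h (P n)) ≤ Z i} ⊆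
      {n : M.NN | ∃ p ∈ T, M.len (p⁻¹ * M.ext Ψ (x * M.toG n * g)) ≤ 5 * M.a} := by
    rintro n ⟨hn1, hn2, hn3⟩
    obtain ⟨l, hpl, hlC, hlen⟩ := up_spec M (P n)
    have hlm : (l.length : ℝ) ≤ m + 1 := hlen.trans (by linarith)
    have hlN : l.length ≤ N₀ := Nat.le_floor hlm
    obtain ⟨f, hf, hfC, hfl⟩ := hFCmem l hlN hlC
    have hhl : M.h (P n) = M.h l.prod := by
      rw [hpl, M.h_mul, M.h_toG, zero_add]
    have hb : up M (P n) ∈ Bf f := ⟨hn1, l, hlC, hlm, hfC, hfl, fun i => by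
      rw [← hhl]; exact hn3 i⟩
    obtain ⟨b', hb', hd⟩ := hFcov f _ hb
    refine ⟨M.ext Ψ x * (M.toG b' * f), Finset.mem_biUnion.2 ⟨f, hf,
      Finset.mem_image_of_mem _ hb'⟩, ?_⟩
    have h1 : (M.ext Ψ x * (M.toG b' * f))⁻¹ * M.ext Ψ (x * M.toG n * g) =
        ((M.toG b' * f)⁻¹ * (M.toG (up M (P n)) * f)) * (f⁻¹ * l.prod) := by
      have h2 : M.ext Ψ (x * M.toG n * g) = M.ext Ψ x * P n := by
        rw [hP]; group
      rw [h2]
      conv_lhs => rw [hpl]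
      group
    rw [h1]
    have h2 := M.isLen.mul ((M.toG b' * f)⁻¹ * (M.toG (up M (P n)) * f)) (f⁻¹ * l.prod)
    linarith
  refine (measure_mono hsub).trans ((hpre Ψ hΨ x g T).trans ?_)
  -- cardinality
  have hT : (T.card : ℝ≥0∞) ≤ (FC.card : ℝ≥0∞) * (VB / v₀) := by
    have h1 : T.card ≤ ∑ f ∈ FC, (F f).card :=
      Finset.card_biUnion_le.trans (Finset.sum_le_sum fun f _ => Finset.card_image_le)
    have h2 : ∀ f, ((F f).card : ℝ≥0∞) ≤ VB / v₀ := fun f => by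
      rw [ENNReal.le_div_iff_mul_le (Or.inl hv₀0) (Or.inl hv₀t)]
      exact hFcard f
    calc (T.card : ℝ≥0∞) ≤ ((∑ f ∈ FC, (F f).card : ℕ) : ℝ≥0∞) := by exact_mod_cast h1
      _ = ∑ f ∈ FC, ((F f).card : ℝ≥0∞) := by push_cast; rfl
      _ ≤ ∑ _f ∈ FC, VB / v₀ := Finset.sum_le_sum fun f _ => h2 f
      _ = _ := by rw [Finset.sum_const, nsmul_eq_mul]
  have hFCr : (FC.card : ℝ) ≤ (A₂ * 3 ^ A₂) * m ^ A₂ := by
    have h1 : (FC.card : ℝ) ≤ A₂ * (1 + N₀) ^ A₂ := by exact_mod_cast hFC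
    refine h1.trans ?_
    have h2 : (1 + (N₀ : ℝ)) ^ A₂ ≤ (3 * m) ^ A₂ := by gcongr; linarith
    calc (A₂ : ℝ) * (1 + N₀) ^ A₂ ≤ A₂ * (3 * m) ^ A₂ := by gcongr
      _ = _ := by rw [mul_pow]; ring
  have hkey : Cv * ((FC.card : ℝ≥0∞) / v₀) ≤ ENNReal.ofReal R₁ := by
    have e1 : Cv = ENNReal.ofReal Cv.toReal := (ENNReal.ofReal_toReal hCv).symm
    have e2 : v₀ = ENNReal.ofReal v₀.toReal := (ENNReal.ofReal_toReal hv₀t).symm
    have e3 : (FC.card : ℝ≥0∞) = ENNReal.ofReal (FC.card : ℝ) := by simp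
    rw [e3]
    have e4 : ENNReal.ofReal (FC.card : ℝ) / v₀ = ENNReal.ofReal ((FC.card : ℝ) / v₀.toReal) := by
      rw [ENNReal.ofReal_div_of_pos hv₀r, ENNReal.ofReal_toReal hv₀t]
    rw [e4]
    conv_lhs => rw [e1]
    rw [← ENNReal.ofReal_mul ENNReal.toReal_nonneg]
    refine ENNReal.ofReal_le_ofReal ?_
    calc Cv.toReal * ((FC.card : ℝ) / v₀.toReal) ≤
          Cv.toReal * ((A₂ * 3 ^ A₂) * m ^ A₂ / v₀.toReal) := by gcongr
      _ = Ac * m ^ A₂ := by rw [hAc]; ring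
      _ ≤ R₁ := by
          rw [hR₁]
          have : Ac * m ^ A₂ ≤ Ac * m ^ (M.d + A₂) := mul_le_mul_of_nonneg_left hmA hAc0
          have h8 : 0 ≤ (1 + Ab) * m ^ (M.d + A₂) := by positivity
          nlinarith
  calc Cv * (T.card : ℝ≥0∞) ≤ Cv * ((FC.card : ℝ≥0∞) * (VB / v₀)) := by gcongr
    _ = Cv * ((FC.card : ℝ≥0∞) / v₀) * VB := by
        rw [ENNReal.div_eq_inv_mul, ENNReal.div_eq_inv_mul]; ring
    _ ≤ ENNReal.ofReal R₁ * VB := by gcongr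

end Crest.Agent.R182.ElI
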