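/-
R182, module HOLE / EL_K: the volume count (statement of 6804, helper247).
-/
import Mathlib
import Crest.Agent.R182.ElMeas

set_option autoImplicit false

open MeasureTheory Set
open scoped Pointwise ENNReal

namespace Crest.Agent.R182.El

/-- **Volume count.** -/
theorem vol_count {N : Type*} [Group N] [MeasurableSpace N] [MeasurableMul₂ N] [MeasurableInv N]
    {μ : Measure N} [SigmaFinite μ] [μ.IsMulLeftInvariant] [μ.IsMulRightInvariant]
    {lam : Measure N} [IsFiniteMeasure lam] {A T : Set N} (hA : MeasurableSet A)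
    (_hA0 : μ A ≠ 0) (hAt : μ A ≠ ⊤) (n₁ : N) {m : ℝ≥0∞} (hm0 : m ≠ 0)
    (hm : ∀ y, lam {v | y * v⁻¹ ∈ A} ≤ m) (hlam : lam univ ≠ 0) {S ε Db GY a : ℝ}
    (hS : 4 ≤ S * ε) (hε : 0 < ε)
    (h1 : m * ENNReal.ofReal (Real.exp (S * (Db - ε))) ≤ lam univ)
    (h2 : ENNReal.ofReal (Real.exp (S * (GY - ε))) ≤ μ A)
    (hT : μ T ≤ ENNReal.ofReal (Real.exp (S * a)))
    (hgood : μ {x | x ∈ A ∧ ¬ (lam {v | n₁ * x * v ∉ T} ≤ lam univ / 2)} ≤ μ A / 4) :
    Db + GY ≤ a + 3 * ε := by
  have hlt : lam univ ≠ ⊤ := measure_ne_top lam univ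
  have hSpos : 0 < S := by
    by_contra h
    have : S * ε ≤ 0 := mul_nonpos_of_nonpos_of_nonneg (not_lt.1 h) hε.le
    linarith
  -- `m` is finite
  have hmt : m ≠ ⊤ := by
    rintro rfl
    apply hlt
    rw [eq_top_iff]
    refine le_trans (le_of_eq ?_) h1
    rw [ENNReal.top_mul]
    exact (ENNReal.ofReal_pos.2 (Real.exp_pos _)).ne'
  -- a measurable hull of `T`
  set T' := toMeasurable μ T with hT'
  have hT'm : MeasurableSet T' := measurableSet_toMeasurable μ T
  have hTT' : T ⊆ T' := subset_toMeasurable μ T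
  have hμT' : μ T' = μ T := measure_toMeasurable T
  -- the functions
  have hDm : MeasurableSet {x : N × N | n₁ * x.1 * x.2 ∉ T'} :=
    (((measurable_fst.const_mul n₁).mul measurable_snd) hT'm).compl
  have hgm : Measurable fun x => lam {v | n₁ * x * v ∉ T'} := measurable_measure_prodMk_left hDm
  set Gd : Set N := {x | x ∈ A ∧ lam {v | n₁ * x * v ∉ T'} ≤ lam univ / 2} with hGd
  have hGdm : MeasurableSet Gd := hA.inter (measurableSet_le hgm measurable_const)
  have hGdA : μ A ≤ μ Gd + μ A / 4 := by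
    have hsub : A ⊆ Gd ∪ {x | x ∈ A ∧ ¬ (lam {v | n₁ * x * v ∉ T} ≤ lam univ / 2)} := by
      intro x hx
      by_cases h : lam {v | n₁ * x * v ∉ T'} ≤ lam univ / 2
      · exact Or.inl ⟨hx, h⟩
      · refine Or.inr ⟨hx, fun h' => h (le_trans (measure_mono ?_) h')⟩
        intro v hv hvT
        exact hv (hTT' hvT)
    exact (measure_mono hsub).trans ((measure_union_le _ _).trans (add_le_add le_rfl hgood))
  -- lower bound for the integral
  set K : Set N := (fun n => n₁⁻¹ * n) ⁻¹' A with hK
  have hKm : MeasurableSet K := (measurable_const_mul _) hA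
  have hmK : ∀ y, lam {v | y * v⁻¹ ∈ K} ≤ m := by
    intro y
    refine le_trans (le_of_eq ?_) (hm (n₁⁻¹ * y))
    congr 1
    ext v
    simp only [hK, Set.mem_ofPred_eq, Set.mem_preimage]
    rw [mul_assoc]
  have h3 := lam_le (μ := μ) lam hKm hT'm m hmK
  rw [hμT'] at h3
  set GK : Set N := (fun n => n₁⁻¹ * n) ⁻¹' Gd with hGK
  have hGKm : MeasurableSet GK := (measurable_const_mul _) hGdm
  have hGKμ : μ GK = μ Gd := measure_preimage_mul μ _ _
  have hGKK : GK ⊆ K := fun n hn => hn.1
  have h4 : (lam univ / 2) * μ Gd ≤ ∫⁻ n in K, lam {v | n * v ∈ T'} ∂μ := by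
    calc (lam univ / 2) * μ Gd = ∫⁻ _n in GK, lam univ / 2 ∂μ := by
          rw [setLIntegral_const, hGKμ]
      _ ≤ ∫⁻ n in GK, lam {v | n * v ∈ T'} ∂μ := by
          refine setLIntegral_mono' hGKm fun n hn => ?_
          have h5 : lam {v | n * v ∉ T'} ≤ lam univ / 2 := by
            have := hn.2
            rwa [mul_inv_cancel_left] at this
          have h6 : lam univ ≤ lam {v | n * v ∈ T'} + lam univ / 2 := by
            have : (univ : Set N) ⊆ {v | n * v ∈ T'} ∪ {v | n * v ∉ T'} := by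
              intro v _
              by_cases h : n * v ∈ T'
              · exact Or.inl h
              · exact Or.inr h
            exact (measure_mono this).trans
              ((measure_union_le _ _).trans (add_le_add le_rfl h5))
          have h7 : lam univ / 2 ≠ ⊤ := ENNReal.div_ne_top hlt (by norm_num)
          have h8 : lam univ / 2 + lam univ / 2 ≤ lam {v | n * v ∈ T'} + lam univ / 2 := by
            rwa [ENNReal.add_halves]
          exact (ENNReal.add_le_add_iff_right h7).1 h8
      _ ≤ ∫⁻ n in K, lam {v | n * v ∈ T'} ∂μ := lintegral_mono_set hGKK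
  have h5 : (lam univ / 2) * μ Gd ≤ m * ENNReal.ofReal (Real.exp (S * a)) :=
    (h4.trans h3).trans (mul_le_mul_right hT _)
  -- pass to real numbers
  have hGdfin : μ Gd ≠ ⊤ := ((measure_mono fun x hx => hx.1).trans_lt hAt.lt_top).ne
  set α := (μ A).toReal with hα
  set γ := (μ Gd).toReal with hγ
  set l := (lam univ).toReal with hl
  set M := m.toReal with hM
  have hMpos : 0 < M := ENNReal.toReal_pos hm0 hmt
  have e1 : M * Real.exp (S * (Db - ε)) ≤ l := by
    have := ENNReal.toReal_mono hlt h1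
    rwa [ENNReal.toReal_mul, ENNReal.toReal_ofReal (Real.exp_pos _).le] at this
  have e2 : Real.exp (S * (GY - ε)) ≤ α := by
    have := ENNReal.toReal_mono hAt h2
    rwa [ENNReal.toReal_ofReal (Real.exp_pos _).le] at this
  have e3 : α ≤ γ + α / 4 := by
    have := ENNReal.toReal_mono (ENNReal.add_ne_top.2 ⟨hGdfin,
      ENNReal.div_ne_top hAt (by norm_num)⟩) hGdA
    rw [ENNReal.toReal_add hGdfin (ENNReal.div_ne_top hAt (by norm_num)),
      ENNReal.toReal_div] at this
    simpa using this
  have e4 : l / 2 * γ ≤ M * Real.exp (S * a) := by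
    have := ENNReal.toReal_mono (ENNReal.mul_ne_top hmt ENNReal.ofReal_ne_top) h5
    rw [ENNReal.toReal_mul, ENNReal.toReal_mul, ENNReal.toReal_ofReal (Real.exp_pos _).le,
      ENNReal.toReal_div] at this
    simpa using this
  have hlpos : 0 < l := ENNReal.toReal_pos hlam hlt
  have e5 : l / 2 * (3 / 4 * Real.exp (S * (GY - ε))) ≤ M * Real.exp (S * a) := by
    refine le_trans (mul_le_mul_of_nonneg_left ?_ (by positivity)) e4
    linarith
  have e6 : M * Real.exp (S * (Db - ε)) / 2 * (3 / 4 * Real.exp (S * (GY - ε))) ≤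
      M * Real.exp (S * a) := by
    refine le_trans (mul_le_mul_of_nonneg_right ?_ (by positivity)) e5
    linarith
  have e7 : 3 / 8 * Real.exp (S * (Db - ε) + S * (GY - ε)) ≤ Real.exp (S * a) := by
    rw [Real.exp_add]
    have : M * (3 / 8 * (Real.exp (S * (Db - ε)) * Real.exp (S * (GY - ε)))) ≤
        M * Real.exp (S * a) := by linarith
    exact le_of_mul_le_mul_left this hMpos
  have e8 : Real.exp (-(S * ε)) ≤ 3 / 8 := by
    have h9 : (5 : ℝ) ≤ Real.exp (S * ε) := by
      have := Real.add_one_le_exp (S * ε)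
      linarith
    rw [Real.exp_neg, inv_le_comm₀ (Real.exp_pos _) (by norm_num)]
    norm_num
    linarith
  have e9 : Real.exp (-(S * ε) + (S * (Db - ε) + S * (GY - ε))) ≤ Real.exp (S * a) := by
    rw [Real.exp_add]
    exact (mul_le_mul_of_nonneg_right e8 (Real.exp_pos _).le).trans e7
  rw [Real.exp_le_exp] at e9
  have e10 : S * (Db + GY) ≤ S * (a + 3 * ε) := by nlinarith
  exact le_of_mul_le_mul_left e10 hSpos

end Crest.Agent.R182.El
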