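/-
R182, module HOLE / EL_K (helper656): D-numbers from below, constancy of the type, inequality (I).
-/
import Mathlib
import Crest.Agent.R182.ElBox

set_option autoImplicit false
set_option linter.unusedSectionVars false

open MeasureTheory Set
open scoped Pointwise RealInnerProductSpace ENNReal

namespace Crest.Agent.R182.El

variable {R E N Q : Type*} [Fintype R] [DecidableEq R] [NormedAddCommGroup E]
  [InnerProductSpace ℝ E]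
  [Group N] [MeasurableSpace N] [MeasurableMul₂ N] [MeasurableInv N]
  [Group Q] [MeasurableSpace Q] [MeasurableMul₂ Q] [MeasurableInv Q]
  {M : Mdl R E} {d : Data R E N Q} {p : Par R} {m : ℝ}

theorem Good.height' (hs : Small M p m) {Z : R → ℝ} (hZ : NR p.ω Z) {τ : ℝ} {σ : Equiv.Perm R}
    {θ : E} {n : N} (h : Good M d τ Z σ θ n) {r : R} {s : ℝ} (h0 : 0 ≤ s) (h1 : s ≤ Z r) {r' : R}
    (hr : r' ≠ σ r) : ⟪M.e r', d.f n r s⟫ ≤ XX M Z σ θ (τ - (m - 2 * p.ω)) r' := by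
  have h2 := h r s h0 h1
  have h3 : ⟪M.e r', d.f n r s⟫ = ⟪M.e r', d.f n r s - θ - s • M.e (σ r)⟫ + ⟪M.e r', θ⟫
      + s * ⟪M.e r', M.e (σ r)⟫ := by
    rw [inner_sub_right, inner_sub_right, real_inner_smul_right]; ring
  rw [h3, XX]
  have h4 := (M.toFrame.inner_le_norm r' (d.f n r s - θ - s • M.e (σ r))).trans h2
  have h5 := inner_leg_le' hs hZ σ (r' := r') h0 h1 hr
  linarith

theorem G_XX {Z : R → ℝ} {σ : Equiv.Perm R} (hσ : ∀ r r', Z r = Z r')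
    (θ : E) {τ : ℝ} (hτ : 0 ≤ τ) : M.G (XX M Z σ θ τ) ≤ M.G Z + M.κ * τ := by
  have h1 := M.G_shift (fun r => Z (σ.symm r) + ⟪M.e r, θ⟫) τ hτ
  have h2 : (fun r => Z (σ.symm r)) = Z := funext fun r => hσ _ _
  rw [M.G_trans (fun r => Z (σ.symm r)) θ, h2] at h1
  refine le_trans (le_of_eq ?_) h1
  congr 1
  ext r
  simp only [XX]
  ring

/-- D-numbers from below: few points of a box lie in a slab of the image box -/
theorem spread (hF : Facts M d p) (hs : Small M p m) {Y : R → ℝ} (hY : p.Adm Y)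
    (hYr : ∀ r r', Y r = Y r') {w : R} {n₁ : N}
    {σ : Equiv.Perm R} {θ : E} {ν : Q} (_hb : IsBox M d p Y w (Y w) n₁ σ θ ν)
    (hD : ∀ a ∈ d.A Y, n₁ * a ∈ d.Dom) {r' : R} (hr : r' ≠ σ w) {t : ℝ} (ht0 : 0 ≤ t) (ht1 : t ≤ 1) (htm : t ≤ m - 2 * p.ω)
    (htc : 8 * M.κ * p.ε ≤ M.c0 * t) (hω : 3 * p.ε ≤ p.ω) (y : Q) :
    d.μ {a | a ∈ d.A Y ∧ Good M d p.ε Y σ θ (n₁ * a) ∧
      ν⁻¹ * d.g (n₁ * a) w (Y w) ∈ d.Bx (2 * p.ε) (XX M Y σ θ (3 * p.ε)) ∧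
      y⁻¹ * d.g (n₁ * a) w (Y w) ∈ d.Ds r' (XX M Y σ θ (3 * p.ε) r' - t)}
      ≤ ENNReal.ofReal (1 / 4) * d.μ (d.A Y) := by
  have := hF.μ_left
  have hN := hF.adm Y hY
  have hε := hF.ε_pos
  have hY0 : 0 ≤ Y w := by linarith [NR.half hs hN w]
  have hY2 : Y w ≤ 2 := by linarith [NR.le hs hN w, hs.ω_le_half]
  have hX : ∀ r, |XX M Y σ θ (3 * p.ε) r - ⟪M.e r, θ⟫ - 1| ≤ 2 * p.ω := by
    intro r
    have h1 := abs_le.1 (hN (σ.symm r))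
    simp only [XX]
    rw [abs_le]
    constructor <;> linarith [hs.ω_pos]
  have h1 := hF.slab w (Y w) hY0 hY2 (2 * p.ε) (by linarith)
    (by have := hs.ε_le; have := hs.m_le; linarith)
    (XX M Y σ θ (3 * p.ε)) ν y θ r' t hX ht0 ht1
  have h2 : d.μ {a | a ∈ d.A Y ∧ Good M d p.ε Y σ θ (n₁ * a) ∧
      ν⁻¹ * d.g (n₁ * a) w (Y w) ∈ d.Bx (2 * p.ε) (XX M Y σ θ (3 * p.ε)) ∧
      y⁻¹ * d.g (n₁ * a) w (Y w) ∈ d.Ds r' (XX M Y σ θ (3 * p.ε) r' - t)} ≤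
      ENNReal.ofReal (Real.exp (p.S * (M.G (XX M Y σ θ (3 * p.ε)) - M.c0 * t +
        M.κ * (2 * p.ε) + p.ε))) := by
    refine le_trans (measure_mono ?_) ((measure_preimage_mul d.μ n₁ _).le.trans h1)
    rintro a ⟨haA, ha1, ha2, ha3⟩
    refine ⟨hD a haA, ?_, ?_, ?_, ?_⟩
    · rw [Set.mem_smul_set_iff_inv_smul_mem, smul_eq_mul]; exact ha2
    · rw [Set.mem_smul_set_iff_inv_smul_mem, smul_eq_mul]; exact ha3
    · intro r
      have := ha1.height hs hN hY0 le_rfl r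
      have h3 : XX M Y σ θ (3 * p.ε) r = XX M Y σ θ p.ε r + 2 * p.ε := by
        rw [← XX_add]; congr 1; ring
      rw [h3]; linarith
    · have := ha1.height' hs hN hY0 le_rfl hr
      have h3 : XX M Y σ θ (3 * p.ε) r' = XX M Y σ θ (p.ε - (m - 2 * p.ω)) r' +
          (2 * p.ε + (m - 2 * p.ω)) := by
        rw [← XX_add]; congr 1; ring
      rw [h3]; linarith
  refine h2.trans (le_trans ?_ (mul_le_mul_right (hF.A_vol Y hY) _))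
  rw [← ENNReal.ofReal_mul (by norm_num)]
  refine ENNReal.ofReal_le_ofReal ?_
  have h3 := G_XX (M := M) (Z := Y) (σ := σ) hYr θ (τ := 3 * p.ε) (by linarith)
  have h4 : Real.exp (-2) ≤ 1 / 4 := by
    have h5 := Real.add_one_le_exp (1:ℝ)
    have h6 : Real.exp (-2) = (Real.exp 1)⁻¹ ^ 2 := by
      rw [← Real.exp_neg, ← Real.exp_nat_mul]; norm_num
    rw [h6, inv_pow, one_div]
    refine inv_anti₀ (by norm_num) ?_
    nlinarith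
  calc Real.exp (p.S * (M.G (XX M Y σ θ (3 * p.ε)) - M.c0 * t + M.κ * (2 * p.ε) + p.ε))
      ≤ Real.exp (-2 + p.S * (M.G Y - p.ε)) := by
        refine Real.exp_le_exp.2 ?_
        have h5 := M.one_le_κ
        have h6 := hF.S_pos
        have h7 := hF.S_large
        have h8 : M.G (XX M Y σ θ (3 * p.ε)) - M.c0 * t + M.κ * (2 * p.ε) + p.ε ≤
            M.G Y - p.ε - p.ε := by nlinarith
        have h9 := mul_le_mul_of_nonneg_left h8 h6.le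
        nlinarith
    _ = Real.exp (-2) * Real.exp (p.S * (M.G Y - p.ε)) := Real.exp_add _ _
    _ ≤ 1 / 4 * Real.exp (p.S * (M.G Y - p.ε)) :=
        mul_le_mul_of_nonneg_right h4 (Real.exp_pos _).le

/-- the type is constant -/
theorem type_const [Nonempty R] (hF : Facts M d p) (hs : Small M p m) {Z : R → ℝ} (hZ : p.Adm Z)
    {n n' : N} {σ σ' : Equiv.Perm R} {θ θ' : E} (h : IsLaw M d p Z n σ θ)
    (h' : IsLaw M d p Z n' σ' θ') : σ = σ' := by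
  have key : ∀ g ∈ Subgroup.closure (d.A Z), ∀ n (σ σ' : Equiv.Perm R) (θ θ' : E),
      IsLaw M d p Z n σ θ → IsLaw M d p Z (n * g) σ' θ' → σ = σ' := by
    intro g hg
    induction hg using Subgroup.closure_induction with
    | mem x hx =>
      intro n σ σ' θ θ' h h'
      exact (law_compare hF hs hZ (mem_Ah hF hZ hx (by norm_num)) h h').1
    | one =>
      intro n σ σ' θ θ' h h'
      exact (law_compare hF hs hZ (mem_Ah hF hZ (hF.A_one Z hZ) (by norm_num)) h h').1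
    | mul x y _ _ hx hy =>
      intro n σ σ' θ θ' h h'
      obtain ⟨σ₁, θ₁, h1⟩ := hF.box Z hZ (n * x)
      have h2 : IsLaw M d p Z (n * x) σ₁ θ₁ := h1
      rw [← mul_assoc] at h'
      exact (hx _ _ _ _ _ h h2).trans (hy _ _ _ _ _ h2 h')
    | inv x _ hx =>
      intro n σ σ' θ θ' h h'
      refine (hx (n * x⁻¹) _ _ _ θ h' ?_).symm
      rwa [inv_mul_cancel_right]
  refine key (n⁻¹ * n') (by rw [hF.A_gen Z hZ]; trivial) n σ σ' θ θ' h ?_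
  rwa [mul_inv_cancel_left]

theorem Good.sub {Z Z' : R → ℝ} (hZZ : Z ≤ Z') {τ : ℝ} {σ : Equiv.Perm R} {θ : E} {n : N}
    (h : Good M d τ Z' σ θ n) : Good M d τ Z σ θ n :=
  fun r s h0 h1 => h r s h0 (h1.trans (hZZ r))

/-- the type does not depend on the shape -/
theorem type_shape [Nonempty R] (hF : Facts M d p) (hs : Small M p m) {Y Z : R → ℝ}
    (hY : p.Adm Y) (hZ : p.Adm Z) (hYZ : Y ≤ Z) (hA : d.A Y ⊆ d.A Z)
    {n n' : N} {σ σ' : Equiv.Perm R} {θ θ' : E} (h : IsLaw M d p Y n σ θ)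
    (h' : IsLaw M d p Z n' σ' θ') : σ = σ' := by
  have := hF.μ_left
  have := hF.μ_right
  have hAY := hF.A_one Y hY
  have hAZ := hF.A_one Z hZ
  obtain ⟨σb, θ₁, h1⟩ := hF.box Z hZ 1
  have hlaw : IsLaw M d p Z 1 σb θ₁ := h1
  have hσ' : σb = σ' := type_const hF hs hZ hlaw h'
  have hmul : d.μ (d.A Z * d.A Y) ≤ ENNReal.ofReal M.C * d.μ (d.A Z) := by
    refine (measure_mono ?_).trans (hF.Ah_le Z hZ)
    refine (Set.mul_subset_mul_left hA).trans ?_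
    rw [← pow_two]
    exact (pow_mono_of_one hAZ (by norm_num)).trans (hF.A_pow Z hZ)
  have hfin : d.μ (d.A Z * d.A Y) ≠ ⊤ :=
    ne_top_of_le_ne_top (ENNReal.mul_ne_top ENNReal.ofReal_ne_top (hF.A_fin Z hZ)) hmul
  -- most points of `A Z` are good for their own `Y`-law
  have h2 : d.μ {t | t ∈ d.A Z ∧ ¬ (∀ (σ₁ : Equiv.Perm R) (θ₁ : E), IsLaw M d p Y t σ₁ θ₁ →
      Good M d (3 * p.ε) Y σ₁ θ₁ t)} ≤ ENNReal.ofReal p.δ * d.μ (d.A Z * d.A Y) := by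
    refine cover_le ?_ (hF.A_ne Y hY) hAY (hF.A_inv Y hY) hfin _ _ fun n₀ _ => ?_
    · have := hF.A_meas Y hY 1 (by norm_num)
      rwa [pow_one] at this
    · obtain ⟨σc, θ₀, h3⟩ := hF.box Y hY n₀
      have h4 : IsLaw M d p Y n₀ σc θ₀ := h3
      have h5 := h4.few hF (B := (d.A Y) ^ 2) (m := 1) (fun a ha => by
        rw [one_mul]; exact hF.A_pow Y hY (pow_mono_of_one hAY (by norm_num) ha))
      refine h5.mono le_rfl le_rfl fun a ha hg σ₁ θ₁ hl => ?_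
      rw [mul_one] at hg
      obtain ⟨h6, h7⟩ := law_compare hF hs hY (pow_mono_of_one hAY (by norm_num) ha) h4 hl
      subst h6
      exact hg.congr (by linarith)
  have h3 := hlaw.few hF (B := d.A Z) (m := 1) (fun a ha => by
    rw [one_mul]; exact hF.A_pow Z hZ (mem_Ah hF hZ ha (by norm_num)))
  have h4 : Few d.μ (d.A Z) (ENNReal.ofReal (p.δ * M.C) * d.μ (d.A Z))
      (fun t => ∀ (σ₁ : Equiv.Perm R) (θ₁ : E), IsLaw M d p Y t σ₁ θ₁ →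
      Good M d (3 * p.ε) Y σ₁ θ₁ t) := by
    refine le_trans h2 ?_
    rw [ENNReal.ofReal_mul hF.δ_pos.le, mul_assoc]
    exact mul_le_mul_right hmul _
  have hC := M.one_le_C
  have hδ := hF.δ_pos
  have hδ4 := hs.δ_le
  have hJ : (0:ℝ) ≤ M.J := Nat.cast_nonneg _
  obtain ⟨t, -, ht1, ht2⟩ := (h3.and h4).exists (ofReal_mul_add_lt (hF.A_ne Z hZ)
    (hF.A_fin Z hZ) hδ.le (by positivity) (by
      have h6 := (hs.JCδ hF).2.2
      have h7 : 0 ≤ (M.J : ℝ) * (M.C * p.δ) := by positivity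
      nlinarith))
  rw [one_mul, one_mul] at ht1
  obtain ⟨σc, θ₀, h5⟩ := hF.box Y hY t
  have h6 : IsLaw M d p Y t σc θ₀ := h5
  have h7 := ht2 _ _ h6
  have h8 := (h7.unique hs (hF.adm Y hY) (ht1.sub hYZ)
    (by have := hs.ε_le; have := hs.m_pos; linarith)).1
  rw [← hσ', ← h8]
  exact type_const hF hs hY h h6

/-- a hop along the ray `w` from a good point costs little in the other directions -/
theorem hop_Ds (hF : Facts M d p) (hs : Small M p m) {Y Z : R → ℝ} (hY : p.Adm Y) (hZ : p.Adm Z)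
    {w : R} (hYZ : Y w ≤ Z w) {σ : Equiv.Perm R} {θ : E} {n v : N} (hnD : n ∈ d.Dom)
    (hnvD : n * v ∈ d.Dom) (hn : Good M d p.ε Y σ θ n)
    (hv : v ∈ d.V w (Z w)) {r' : R} (hr : r' ≠ σ w) {t : ℝ}
    (hm : M.κ * (Z w - Y w) + t + 2 * p.ε ≤ m - 2 * p.ω) :
    (d.g n w (Y w))⁻¹ * d.g (n * v) w (Y w) ∈
      d.Ds r' (XX M Y σ θ (3 * p.ε) r' - t - 2 * p.ε) := by
  have hε := hF.ε_pos
  have hN := hF.adm Y hY
  have hY0 : 0 ≤ Y w := by linarith [NR.half hs hN w]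
  have h1 := hF.hop n hnD w (Z w) (Y w) ⟨Z, hZ, rfl⟩ ⟨Y, hY, rfl⟩ hYZ v
    (hF.V_U w (Z w) ⟨Z, hZ, rfl⟩ v hv) hnvD p.ε le_rfl
    (fun r => ⟪M.e r, d.f n w (Y w)⟫ + M.κ * (Z w - Y w) + p.ε) (fun r => le_rfl)
  have h2 := hF.Bx_Ds _ _ r' (by have := hs.ε_le; have := hs.m_le; linarith) h1
  refine hF.Ds_mono _ _ _ ?_ h2
  have h3 := hn.height' hs hN hY0 le_rfl hr
  simp only [XX] at h3 ⊢
  linarith

/-- **Inequality (I)** -/
theorem ineq_I [Nonempty R] (hF : Facts M d p) (hs : Small M p m) {Y Z : R → ℝ} (hY : p.Adm Y)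
    (hYr : ∀ r r', Y r = Y r') (hZ : p.Adm Z) (hA : d.A Y ⊆ d.A Z) {w : R} (hYZ : Y w ≤ Z w) (hZr : ∀ r, r ≠ w → Z r = Y r)
    {n₁ : N} {σ : Equiv.Perm R} {θ θ' : E} {ν : Q} (hb : IsBox M d p Y w (Y w) n₁ σ θ ν)
    (hb' : IsLaw M d p Z n₁ σ θ') (hD1 : ∀ a ∈ d.A Y, n₁ * a ∈ d.Dom)
    (hD2 : ∀ a ∈ d.A Y, ∀ v ∈ d.V w (Z w), ∀ x ∈ d.Ah Z, n₁ * a * v * x ∈ d.Dom)
    (hgood : Few d.μ (d.A Y) (ENNReal.ofReal (1 / 2) * d.μ (d.A Y)) (fun a =>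
      (Good M d p.ε Y σ θ (n₁ * a) ∧
        ν⁻¹ * d.g (n₁ * a) w (Y w) ∈ d.Bx (2 * p.ε) (XX M Y σ θ (3 * p.ε))) ∧
      ∃ v ∈ d.V w (Z w), Typ M d p Z w (Y w) (n₁ * a * v)))
    {r' : R} (hr : r' ≠ σ w) {t : ℝ} (ht0 : 0 ≤ t) (ht1 : t ≤ 1)
    (htc : 8 * M.κ * p.ε ≤ M.c0 * t) (hω : 3 * p.ε ≤ p.ω)
    (hm : M.κ * (Z w - Y w) + t + 2 * p.ε ≤ m - 2 * p.ω) :
    ⟪M.e r', θ⟫ ≤ ⟪M.e r', θ'⟫ + t + 12 * p.ε := by
  by_contra hcon
  push Not at hcon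
  have hε := hF.ε_pos
  have hκ := M.one_le_κ
  have hN := hF.adm Y hY
  have hNZ := hF.adm Z hZ
  have hY0 : 0 ≤ Y w := by linarith [NR.half hs hN w]
  have hZ0 : Y w ≤ Z w := hYZ
  have hκ0 : 0 ≤ M.κ * (Z w - Y w) := by nlinarith
  have hA0 := hF.A_ne Y hY
  have hAt := hF.A_fin Y hY
  obtain ⟨a₁, ha₁, ⟨hg₁, hx₁⟩, v₁, hv₁, ht₁⟩ := hgood.exists (by
    calc ENNReal.ofReal (1 / 2) * d.μ (d.A Y) < 1 * d.μ (d.A Y) :=
          ENNReal.mul_lt_mul_left hA0 hAt (ENNReal.ofReal_lt_one.2 (by norm_num))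
      _ = d.μ (d.A Y) := one_mul _)
  have h1 := spread hF hs hY hYr hb hD1 hr ht0 ht1 (by linarith) htc hω (d.g (n₁ * a₁) w (Y w))
  have h2 : Few d.μ (d.A Y) (ENNReal.ofReal (1 / 4) * d.μ (d.A Y)) (fun a =>
      ¬ (Good M d p.ε Y σ θ (n₁ * a) ∧
      ν⁻¹ * d.g (n₁ * a) w (Y w) ∈ d.Bx (2 * p.ε) (XX M Y σ θ (3 * p.ε)) ∧
      (d.g (n₁ * a₁) w (Y w))⁻¹ * d.g (n₁ * a) w (Y w) ∈
        d.Ds r' (XX M Y σ θ (3 * p.ε) r' - t))) := by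
    refine le_trans (measure_mono ?_) h1
    rintro a ⟨ha, hna⟩
    exact ⟨ha, not_not.1 hna⟩
  obtain ⟨a₂, ha₂, ⟨⟨hg₂, hx₂⟩, v₂, hv₂, ht₂⟩, hnot⟩ := (hgood.and h2).exists
    (ofReal_mul_add_lt hA0 hAt (by norm_num) (by norm_num) (by norm_num))
  refine hnot ⟨hg₂, hx₂, ?_⟩
  -- the two hops
  have h1Ah : (1 : N) ∈ d.Ah Z :=
    hF.A_pow Z hZ (mem_Ah hF hZ (hF.A_one Z hZ) (by norm_num))
  have hD3 : ∀ a ∈ d.A Y, ∀ v ∈ d.V w (Z w), n₁ * a * v ∈ d.Dom := fun a ha v hv => by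
    have := hD2 a ha v hv 1 h1Ah
    rwa [mul_one] at this
  have h3 := hop_Ds hF hs hY hZ hYZ (hD1 _ ha₁) (hD3 _ ha₁ _ hv₁) hg₁ hv₁ hr (t := t) hm
  have h4 := hop_Ds hF hs hY hZ hYZ (hD1 _ ha₂) (hD3 _ ha₂ _ hv₂) hg₂ hv₂ hr (t := t) hm
  -- the middle part
  have hVA : ∀ v ∈ d.V w (Z w), v ∈ d.A Z := fun v hv => hF.V_sub Z hZ w hv
  have hav : ∀ a ∈ d.A Y, ∀ v ∈ d.V w (Z w), a * v ∈ (d.A Z) ^ 2 := fun a ha v hv =>
    pow_mem_add (i := 1) (j := 1) (by rw [pow_one]; exact hA ha) (by rw [pow_one]; exact hVA v hv)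
  have hk : (a₁ * v₁)⁻¹ * (a₂ * v₂) ∈ (d.A Z) ^ 4 :=
    pow_mem_add (i := 2) (j := 2) (inv_mem_pow (hF.A_inv Z hZ) (hav a₁ ha₁ v₁ hv₁))
      (hav a₂ ha₂ v₂ hv₂)
  obtain ⟨σ'', θ'', ν'', hb''⟩ := exists_isBox hF hs hZ hY0 hYZ (n₁ * a₁ * v₁)
    (hD2 _ ha₁ _ hv₁)
  have h5 : IsLaw M d p Z (n₁ * (a₁ * v₁)) σ'' θ'' := by rw [← mul_assoc]; exact hb''.law
  obtain ⟨hσ, hθ⟩ := law_compare hF hs hZ
    (pow_mono_of_one (hF.A_one Z hZ) (by norm_num : 2 ≤ 9) (hav a₁ ha₁ v₁ hv₁)) hb' h5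
  subst hσ
  have h6 : n₁ * a₁ * v₁ * ((a₁ * v₁)⁻¹ * (a₂ * v₂)) = n₁ * a₂ * v₂ := by group
  have h7 := (typ_pair hF hs hZ hY0 hYZ hk (by rw [h6]; exact hD2 _ ha₂ _ hv₂) ht₁
    (by rw [h6]; exact ht₂) hb'').2
  rw [h6] at h7
  have h8 := hF.Bx_Ds _ _ r' (by have := hs.ε_le; have := hs.m_le; linarith) h7
  have hsw : σ.symm r' ≠ w := fun h => hr (by rw [← h, Equiv.apply_symm_apply])
  have h9 : (d.g (n₁ * a₁ * v₁) w (Y w))⁻¹ * d.g (n₁ * a₂ * v₂) w (Y w) ∈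
      d.Ds r' (XX M Y σ θ (3 * p.ε) r' - t - 2 * p.ε) := by
    refine hF.Ds_mono _ _ _ ?_ h8
    have h10 := M.toFrame.inner_le_norm r' (θ'' - θ')
    rw [inner_sub_right, ← norm_neg, neg_sub] at h10
    simp only [XX, hZr _ hsw]
    linarith
  have h10 := hF.Ds_mul _ _ _ (hF.Ds_mono r' _ (XX M Y σ θ (3 * p.ε) r' - t - p.ε) (by linarith)
    (hF.Ds_mul _ _ _ h3 _ h9)) _
    (hF.Ds_mono r' _ (XX M Y σ θ (3 * p.ε) r' - t - p.ε) (by linarith) (hF.Ds_inv _ _ _ h4))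
  rw [sub_add_cancel] at h10
  convert h10 using 1
  group

end Crest.Agent.R182.El
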