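/-
R182, module HOLE / EL_K (helper656): the volume walk with levels (V).
-/
import Mathlib
import Crest.Agent.R182.ElMain

set_option autoImplicit false
set_option linter.unusedSectionVars false

open MeasureTheory Set
open scoped Pointwise RealInnerProductSpace ENNReal

namespace Crest.Agent.R182.El

variable {R E N Q : Type*} [Fintype R] [DecidableEq R] [NormedAddCommGroup E]
  [InnerProductSpace ℝ E]
  [Group N] [MeasurableSpace N] [MeasurableMul₂ N] [MeasurableInv N]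
  [Group Q] [MeasurableSpace Q] [MeasurableMul₂ Q] [MeasurableInv Q]
  {M : Mdl R E} {d : Data R E N Q} {p : Par R} {m : ℝ}

theorem typ_good [Nonempty R] (hF : Facts M d p) (hs : Small M p m) {Z : R → ℝ} (hZ : p.Adm Z)
    {r₀ : R} {s₀ : ℝ} (h0 : 0 ≤ s₀) (h1 : s₀ ≤ Z r₀) {n k : N} (hk : k ∈ (d.A Z) ^ 9)
    (hD : ∀ a ∈ d.Ah Z, n * k * a ∈ d.Dom)
    {σ : Equiv.Perm R} {θ : E} (hl : IsLaw M d p Z n σ θ) (ht : Typ M d p Z r₀ s₀ (n * k)) :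
    Good M d (5 * p.ε) Z σ θ (n * k) := by
  obtain ⟨σ', θ', ν', hb⟩ := exists_isBox hF hs hZ h0 h1 (n * k) hD
  obtain ⟨hσ, hθ⟩ := law_compare hF hs hZ hk hl hb.law
  subst hσ
  refine (ht _ _ _ hb).1.congr ?_
  rw [← norm_neg, neg_sub]
  linarith

/-- comparison of two laws through one hop along the ray `w` -/
theorem hop_law (hF : Facts M d p) {Y Z : R → ℝ} (hY : p.Adm Y) (hZ : p.Adm Z)
    {w : R} (hYZ : Y w ≤ Z w) (h0 : 0 ≤ Y w) {σ : Equiv.Perm R} {θ θ' : E} {n u : N} {τ τ' : ℝ}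
    (hu : u ∈ d.U w (Z w)) (hn : Good M d τ Y σ θ n) (hn' : Good M d τ' Z σ θ' (n * u)) :
    ‖θ' - θ‖ ≤ M.κ * (Z w - Y w) + p.ε + τ + τ' := by
  have h1 := hF.lip n w (Z w) (Y w) ⟨Z, hZ, rfl⟩ ⟨Y, hY, rfl⟩ hYZ u hu
  have h2 := hn w (Y w) h0 le_rfl
  have h3 := hn' w (Y w) h0 hYZ
  have h4 : θ' - θ = (d.f (n * u) w (Y w) - d.f n w (Y w)) +
      (d.f n w (Y w) - θ - Y w • M.e (σ w)) -
      (d.f (n * u) w (Y w) - θ' - Y w • M.e (σ w)) := by abel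
  rw [h4]
  have h5 := norm_sub_le ((d.f (n * u) w (Y w) - d.f n w (Y w)) +
      (d.f n w (Y w) - θ - Y w • M.e (σ w))) (d.f (n * u) w (Y w) - θ' - Y w • M.e (σ w))
  have h6 := norm_add_le (d.f (n * u) w (Y w) - d.f n w (Y w))
      (d.f n w (Y w) - θ - Y w • M.e (σ w))
  linarith

/-- the walk through the levels -/
theorem walk_prod (hF : Facts M d p) (hs : Small M p m) {Y : R → ℝ} (hY : p.Adm Y) {w : R}
    (K : ℕ) (Z : ℕ → R → ℝ) (hZ : ∀ j ≤ K, p.Adm (Z j)) (hZY : ∀ j ≤ K, Y w ≤ Z j w)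
    {ι : ℝ} (hmono : ∀ j < K, Z j w ≤ Z (j + 1) w) (hι : ∀ j < K, Z (j + 1) w ≤ Z j w + ι)
    (s : N) (hsD : s ∈ d.Dom) (v : ℕ → N) (hv : ∀ j ≤ K, v j ∈ d.V w (Z j w))
    (hvD : ∀ j ≤ K, s * v j ∈ d.Dom) (X : R → ℝ)
    (hX0 : ∀ r, ⟪M.e r, d.f s w (Y w)⟫ + M.κ * (Z 0 w - Y w) + p.ε ≤ X r) (hι0 : 0 ≤ ι)
    (hX : ∀ j ≤ K, ∀ r, ∀ s', 0 ≤ s' → s' ≤ Z j w →
      ⟪M.e r, d.f (s * v j) w s'⟫ + M.κ * ι + p.ε ≤ X r) :
    ∀ k ≤ K, ∃ L : List Q, L.length = 5 * k + 1 ∧ (∀ y ∈ L, y ∈ d.Bx p.ε X) ∧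
      (d.g s w (Y w))⁻¹ * d.g (s * v k) w (Y w) = L.prod := by
  have hκ := M.one_le_κ
  have hκι : 0 ≤ M.κ * ι := by positivity
  have hN := hF.adm Y hY
  have hY0 : 0 ≤ Y w := by linarith [NR.half hs hN w]
  have h2 : ∀ j ≤ K, Z j w ≤ 2 := fun j hj => by
    linarith [NR.le hs (hF.adm _ (hZ j hj)) w, hs.ω_le_half]
  intro k
  induction k with
  | zero =>
    intro _
    refine ⟨[(d.g s w (Y w))⁻¹ * d.g (s * v 0) w (Y w)], by simp, ?_, by simp⟩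
    intro y hy
    rw [List.mem_singleton] at hy
    subst hy
    exact hF.hop s hsD w (Z 0 w) (Y w) ⟨_, hZ 0 (Nat.zero_le _), rfl⟩ ⟨Y, hY, rfl⟩
      (hZY 0 (Nat.zero_le _)) _ (hF.V_U w _ ⟨_, hZ 0 (Nat.zero_le _), rfl⟩ _
        (hv 0 (Nat.zero_le _))) (hvD 0 (Nat.zero_le _)) _ le_rfl _ hX0
  | succ k ih =>
    intro hk
    obtain ⟨L, hL1, hL2, hL3⟩ := ih (by omega)
    have hk' : k ≤ K := by omega
    have hlk : k < K := by omega
    have hlen : ∀ j ≤ K, ∀ s', 0 ≤ s' → s' ≤ Z j w →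
        (d.g (s * v j) w 0)⁻¹ * d.g (s * v j) w s' ∈ d.Bx p.ε X := by
      intro j hj s' h0' h1'
      refine hF.line _ (hvD j hj) _ _ h0' (h1'.trans (h2 j hj)) _ le_rfl _ fun s'' h0'' h1'' r => ?_
      have := hX j hj r s'' h0'' (h1''.trans h1')
      linarith
    have hZk0 : 0 ≤ Z k w := hY0.trans (hZY k hk')
    have ha1 := hlen k hk' (Y w) hY0 (hZY k hk')
    have ha2 := hlen k hk' (Z k w) hZk0 le_rfl
    have ha4 := hlen (k + 1) hk (Z k w) hZk0 (hmono k hlk)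
    have ha5 := hlen (k + 1) hk (Y w) hY0 (hZY _ hk)
    have ha3 : (d.g (s * v k) w (Z k w))⁻¹ * d.g (s * v (k + 1)) w (Z k w) ∈ d.Bx p.ε X := by
      have h3 : s * v (k + 1) = s * v k * ((v k)⁻¹ * v (k + 1)) := by group
      rw [h3]
      refine hF.hop _ (hvD k hk') w (Z (k + 1) w) (Z k w) ⟨_, hZ _ hk, rfl⟩ ⟨_, hZ _ hk', rfl⟩
        (hmono k hlk) _ (hF.V_VU w _ _ ⟨_, hZ _ hk', rfl⟩ ⟨_, hZ _ hk, rfl⟩ (hmono k hlk) _
        (hv k hk') _ (hv _ hk)) (by rw [← h3]; exact hvD _ hk) _ le_rfl _ fun r => ?_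
      have h4 := hX k hk' r (Z k w) hZk0 le_rfl
      have h5 : M.κ * (Z (k + 1) w - Z k w) ≤ M.κ * ι :=
        mul_le_mul_of_nonneg_left (by linarith [hι k hlk]) (by linarith)
      linarith
    refine ⟨L ++ [((d.g (s * v k) w 0)⁻¹ * d.g (s * v k) w (Y w))⁻¹,
      (d.g (s * v k) w 0)⁻¹ * d.g (s * v k) w (Z k w),
      (d.g (s * v k) w (Z k w))⁻¹ * d.g (s * v (k + 1)) w (Z k w),
      ((d.g (s * v (k + 1)) w 0)⁻¹ * d.g (s * v (k + 1)) w (Z k w))⁻¹,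
      (d.g (s * v (k + 1)) w 0)⁻¹ * d.g (s * v (k + 1)) w (Y w)], ?_, ?_, ?_⟩
    · simp only [List.length_append, hL1, List.length_cons, List.length_nil]; ring
    · intro y hy
      simp only [List.mem_append, List.mem_cons, List.not_mem_nil, or_false] at hy
      rcases hy with hy | rfl | rfl | rfl | rfl | rfl
      · exact hL2 y hy
      · exact hF.Bx_inv _ _ _ ha1
      · exact ha2
      · exact ha3
      · exact hF.Bx_inv _ _ _ ha4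
      · exact ha5
    · rw [List.prod_append, ← hL3]
      simp only [List.prod_cons, List.prod_nil]
      group

end Crest.Agent.R182.El
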