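/-
R182, module HOLE / EL_K (helper656): the enlargement lemma at one point.
-/
import Mathlib
import Crest.Agent.R182.ElWalk
import Crest.Agent.R182.ElVol

set_option autoImplicit false
set_option linter.unusedSectionVars false

open MeasureTheory Set
open scoped Pointwise RealInnerProductSpace ENNReal

namespace Crest.Agent.R182.El

variable {R E N Q : Type*} [Fintype R] [DecidableEq R] [NormedAddCommGroup E]
  [InnerProductSpace ℝ E]
  [Group N] [MeasurableSpace N] [MeasurableMul₂ N] [MeasurableInv N]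
  [Group Q] [MeasurableSpace Q] [MeasurableMul₂ Q] [MeasurableInv Q]
  {M : Mdl R E} {d : Data R E N Q} {p : Par R} {m : ℝ}

/-- the levels -/
noncomputable def lev (Y : R → ℝ) (w : R) (ι : ℝ) (j : ℕ) : R → ℝ :=
  Function.update Y w (Y w + j * ι)

@[simp] theorem lev_self (Y : R → ℝ) (w : R) (ι : ℝ) (j : ℕ) : lev Y w ι j w = Y w + j * ι := by
  simp [lev]

theorem lev_ne (Y : R → ℝ) {w r : R} (h : r ≠ w) (ι : ℝ) (j : ℕ) : lev Y w ι j r = Y r := by
  simp [lev, h]

@[simp] theorem lev_zero (Y : R → ℝ) (w : R) (ι : ℝ) : lev Y w ι 0 = Y := by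
  simp [lev]

/-- everything that is known at a fine point `n₁` -/
structure Pt (M : Mdl R E) (d : Data R E N Q) (p : Par R) (Y : R → ℝ) (w : R) (ι : ℝ) (K : ℕ)
    (n₁ : N) (σ : Equiv.Perm R) (θ : E) (ν : Q) (θs : ℕ → E) : Prop where
  round : ∀ r r', Y r = Y r'
  adm : ∀ j ≤ K, p.Adm (lev Y w ι j)
  hA : ∀ j ≤ K, d.A Y ⊆ d.A (lev Y w ι j)
  box : IsBox M d p Y w (Y w) n₁ σ θ ν
  law : ∀ j ≤ K, IsLaw M d p (lev Y w ι j) n₁ σ (θs j)
  dom : ∀ a ∈ d.A Y, n₁ * a ∈ d.Dom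
  dom_V : ∀ j ≤ K, ∀ a ∈ d.A Y, ∀ v ∈ d.V w (lev Y w ι j w), ∀ x ∈ d.Ah (lev Y w ι j),
    n₁ * a * v * x ∈ d.Dom
  good : Few d.μ (d.A Y) (ENNReal.ofReal (1 / 4) * d.μ (d.A Y)) (fun a =>
      (Good M d p.ε Y σ θ (n₁ * a) ∧
        ν⁻¹ * d.g (n₁ * a) w (Y w) ∈ d.Bx (2 * p.ε) (XX M Y σ θ (3 * p.ε))) ∧
      ∀ j ≤ K, d.lam w (lev Y w ι j w) {v | ¬ Typ M d p (lev Y w ι j) w (Y w) (n₁ * a * v)} ≤
        d.lam w (lev Y w ι j w) univ / 2)

theorem exists_typ (hF : Facts M d p) {w : R} {t : ℝ} (ht : p.AdmT w t) {P : N → Prop}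
    (h : d.lam w t {v | ¬ P v} ≤ d.lam w t univ / 2) : ∃ v ∈ d.V w t, P v := by
  by_contra hcon
  push Not at hcon
  have h1 : (univ : Set N) ⊆ (d.V w t)ᶜ ∪ {v | ¬ P v} := by
    intro v _
    by_cases hv : v ∈ d.V w t
    · exact Or.inr (hcon v hv)
    · exact Or.inl hv
  have h2 := (measure_mono (μ := d.lam w t) h1).trans (measure_union_le _ _)
  rw [hF.lam_compl w t ht, zero_add] at h2
  have h3 := h2.trans h
  exact absurd h3 (not_le.2 (ENNReal.half_lt_self (hF.lam_ne w t ht) (hF.lam_fin w t ht)))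

theorem one_mem_Ah (hF : Facts M d p) {Z : R → ℝ} (hZ : p.Adm Z) : (1 : N) ∈ d.Ah Z :=
  hF.A_pow Z hZ (mem_Ah hF hZ (hF.A_one Z hZ) (by norm_num))

/-- the box of radius `τ` around the image box -/
noncomputable def stickX (X : R → ℝ) (w : R) (κ b : ℝ) : R → ℝ :=
  fun r => X r + (if r = w then b else - (κ * b))

theorem vol_step [Nonempty R] (hF : Facts M d p) (hs : Small M p m) {Y : R → ℝ} {w : R} {ι : ℝ}
    {K : ℕ} {n₁ : N} {σ : Equiv.Perm R} {θ : E} {ν : Q} {θs : ℕ → E}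
    (hpt : Pt M d p Y w ι K n₁ σ θ ν θs) (hι : 0 ≤ ι) (hq : 5 * K + 1 ≤ p.q) {e2 β : ℝ}
    (he2 : 0 ≤ e2) (hβ : 0 ≤ β) (h1 : ⟪M.e (σ w), θs K - θ⟫ ≤ e2)
    (h2 : ∀ j ≤ K, ⟪M.e (σ w), θs j - θ⟫ + j * ι ≤ β) (hω1 : β + M.κ * ι ≤ p.ω)
    (hω2 : e2 + 10 * p.ε ≤ p.ω)
    (hm : M.κ * (K * ι) + M.κ * ι + M.κ * (β + M.κ * ι) + 14 * p.ε ≤ m - 2 * p.ω) :
    M.D w * (K * ι) ≤ M.D (σ w) * (β + M.κ * ι) + M.κ * (e2 + 10 * p.ε) + 2 * M.κ * p.ε
      + 4 * p.ε := by
  have := hF.μ_left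
  have := hF.μ_right
  have := hF.μ_sf
  have hε := hF.ε_pos
  have hκ := M.one_le_κ
  have hY : p.Adm Y := by simpa using hpt.adm 0 (Nat.zero_le _)
  have hN := hF.adm Y hY
  have hY0 : 0 ≤ Y w := by linarith [NR.half hs hN w]
  have hY2 : Y w ≤ 2 := by linarith [NR.le hs hN w, hs.ω_le_half]
  have hAK := hpt.adm K le_rfl
  have hTK : p.AdmT w (Y w + K * ι) := ⟨_, hAK, lev_self _ _ _ _⟩
  have hκι : 0 ≤ M.κ * ι := by positivity
  have hjι : ∀ j ≤ K, (j : ℝ) * ι ≤ K * ι := fun j hj =>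
    mul_le_mul_of_nonneg_right (by exact_mod_cast hj) hι
  set τ := e2 + 10 * p.ε with hτ
  have hτ0 : 0 ≤ τ := by rw [hτ]; linarith
  set b' := β + M.κ * ι with hb'
  have hb'0 : 0 ≤ b' := by rw [hb']; linarith
  set X := XX M Y σ θ τ with hX
  set X'' := stickX X (σ w) M.κ b' with hX''
  set T : Set N := {n | n ∈ d.Dom ∧ d.g n w (Y w) ∈ ν • (d.Bx (2 * p.ε) X * d.Bx (2 * p.ε) X'') ∧
        (∀ r', ⟪M.e r', d.f n w (Y w)⟫ ≤ X r') ∧
        (∀ r', r' ≠ σ w → ⟪M.e r', d.f n w (Y w)⟫ + M.κ * b' ≤ X r')} with hT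
  have hXr : ∀ r, |X r - ⟪M.e r, θ⟫ - 1| ≤ 2 * p.ω := by
    intro r
    have h3 := abs_le.1 (hN (σ.symm r))
    simp only [hX, XX]
    rw [abs_le]
    constructor <;> linarith [hs.ω_pos]
  have hstick := hF.stick w (Y w) hY0 hY2 (2 * p.ε) (by linarith)
    (by have := hs.ε_le; have := hs.m_le; linarith) X X'' ν θ (σ w) b' hXr hb'0 hω1
    (fun r hr => by simp only [hX'', stickX, if_neg hr]; linarith)
    (by simp only [hX'', stickX, if_true]; linarith)
  -- distance of the laws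
  have hdist : ∀ a ∈ d.A Y, Good M d p.ε Y σ θ (n₁ * a) → ∀ j ≤ K,
      ∀ v ∈ d.V w (lev Y w ι j w), Typ M d p (lev Y w ι j) w (Y w) (n₁ * a * v) →
      Good M d (5 * p.ε) (lev Y w ι j) σ (θs j) (n₁ * a * v) ∧
        ‖θs j - θ‖ ≤ M.κ * (K * ι) + 7 * p.ε := by
    intro a ha hg j hj v hv ht
    have hZ := hpt.adm j hj
    have hYZ : Y w ≤ lev Y w ι j w := by rw [lev_self]; nlinarith [Nat.cast_nonneg (α := ℝ) j]
    have hk : a * v ∈ (d.A (lev Y w ι j)) ^ 2 :=
      pow_mem_add (i := 1) (j := 1) (by rw [pow_one]; exact hpt.hA j hj ha)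
        (by rw [pow_one]; exact hF.V_sub _ hZ w hv)
    have hg' : Good M d (5 * p.ε) (lev Y w ι j) σ (θs j) (n₁ * (a * v)) := by
      refine typ_good hF hs hZ hY0 hYZ
        (pow_mono_of_one (hF.A_one _ hZ) (by norm_num : 2 ≤ 9) hk) ?_ (hpt.law j hj) ?_
      · intro x hx; rw [← mul_assoc n₁]; exact hpt.dom_V j hj a ha v hv x hx
      · rw [← mul_assoc]; exact ht
    rw [← mul_assoc] at hg'
    refine ⟨hg', ?_⟩
    have h3 := hop_law hF hY hZ hYZ hY0 (hF.V_U w _ ⟨_, hZ, rfl⟩ v hv) hg hg'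
    rw [lev_self] at h3
    have h4 : M.κ * (Y w + j * ι - Y w) ≤ M.κ * (K * ι) :=
      mul_le_mul_of_nonneg_left (by linarith [hjι j hj]) (by linarith)
    linarith
  obtain ⟨mm, hmm0, hmm1, hmm2⟩ := hF.lam_vol Y hY w (K * ι) (by positivity) hAK
  have : IsFiniteMeasure (d.lam w (Y w + K * ι)) := ⟨lt_top_iff_ne_top.2 (hF.lam_fin w _ hTK)⟩
  have hAm : MeasurableSet (d.A Y) := by
    have := hF.A_meas Y hY 1 (by norm_num)
    rwa [pow_one] at this
  have key := vol_count (μ := d.μ) (lam := d.lam w (Y w + K * ι)) (A := d.A Y) (T := T) hAm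
    (hF.A_ne Y hY) (hF.A_fin Y hY) n₁ hmm0 hmm1 (hF.lam_ne w _ hTK) (S := p.S) (ε := p.ε)
    (Db := M.D w * (K * ι)) (GY := M.G Y)
    (a := M.G X + M.D (σ w) * b' + M.κ * (2 * p.ε) + p.ε) hF.S_large hε hmm2 (hF.A_vol Y hY)
    hstick (by
      have h3 : d.μ (d.A Y) / 4 = ENNReal.ofReal (1 / 4) * d.μ (d.A Y) := by
        rw [ENNReal.div_eq_inv_mul, one_div, ENNReal.ofReal_inv_of_pos (by norm_num)]
        norm_num
      rw [h3]
      refine Few.mono hpt.good le_rfl le_rfl ?_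
      rintro a ha ⟨⟨hg, hbx⟩, htyp⟩
      -- typical moves on all levels
      have hex : ∀ j, ∃ v, j ≤ K → v ∈ d.V w (lev Y w ι j w) ∧
          Typ M d p (lev Y w ι j) w (Y w) (n₁ * a * v) := by
        intro j
        by_cases hj : j ≤ K
        · obtain ⟨v, hv, ht⟩ := exists_typ hF ⟨_, hpt.adm j hj, rfl⟩ (htyp j hj)
          exact ⟨v, fun _ => ⟨hv, ht⟩⟩
        · exact ⟨1, fun h => absurd h hj⟩
      choose v₀ hv₀ using hex
      have hK := htyp K le_rfl
      rw [lev_self] at hK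
      have hsub : {v | n₁ * a * v ∉ T} ⊆ (d.V w (Y w + K * ι))ᶜ ∪
          {v | ¬ Typ M d p (lev Y w ι K) w (Y w) (n₁ * a * v)} := by
        intro v hv
        by_contra hcon
        rw [mem_union, not_or, mem_compl_iff, not_not, Set.mem_ofPred_eq, not_not] at hcon
        obtain ⟨hvV, hvT⟩ := hcon
        apply hv
        -- the walk
        set v' : ℕ → N := fun j => if j = K then v else v₀ j with hv'
        have hv'K : v' K = v := by simp [hv']
        have hvj : ∀ j ≤ K, v' j ∈ d.V w (lev Y w ι j w) ∧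
            Typ M d p (lev Y w ι j) w (Y w) (n₁ * a * v' j) := by
          intro j hj
          by_cases hjK : j = K
          · subst hjK
            rw [hv'K, lev_self]
            exact ⟨hvV, hvT⟩
          · simp only [hv', if_neg hjK]; exact hv₀ j hj
        have hvD : ∀ j ≤ K, n₁ * a * v' j ∈ d.Dom := fun j hj => by
          have := hpt.dom_V j hj a ha _ (hvj j hj).1 1 (one_mem_Ah hF (hpt.adm j hj))
          rwa [mul_one] at this
        have hw := walk_prod hF hs hY K (lev Y w ι) hpt.adm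
          (fun j _ => by rw [lev_self]; nlinarith [Nat.cast_nonneg (α := ℝ) j]) (ι := ι)
          (fun j _ => by rw [lev_self, lev_self]; push_cast; nlinarith)
          (fun j _ => by rw [lev_self, lev_self]; push_cast; linarith)
          (n₁ * a) (hpt.dom a ha) v' (fun j hj => (hvj j hj).1) hvD (fun r => X'' r - p.ε)
          (by
            intro r
            rw [lev_self]
            by_cases hr : r = σ w
            · subst hr
              have h4 := hg.height hs hN hY0 le_rfl (σ w)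
              simp only [hX'', stickX, hX, if_true, XX, Equiv.symm_apply_apply] at h4 ⊢
              push_cast
              linarith
            · have h4 := hg.height' hs hN hY0 le_rfl hr
              simp only [hX'', stickX, hX, if_neg hr, XX] at h4 ⊢
              push_cast
              have h5 : 0 ≤ M.κ * (K * ι) := by positivity
              linarith)
          hι
          (by
            intro j hj r s' h0' h1'
            obtain ⟨hgj, hθj⟩ := hdist a ha hg j hj _ (hvj j hj).1 (hvj j hj).2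
            have hNj := hF.adm _ (hpt.adm j hj)
            by_cases hr : r = σ w
            · subst hr
              have h4 := hgj.height hs hNj h0' h1' (σ w)
              have h5 := h2 j hj
              rw [inner_sub_right] at h5
              simp only [hX'', stickX, hX, if_true, XX, Equiv.symm_apply_apply, lev_self]
                at h4 ⊢
              linarith
            · have hsw : σ.symm r ≠ w := fun h => hr (by rw [← h, Equiv.apply_symm_apply])
              have h4 := hgj.height' hs hNj h0' h1' hr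
              have h5 := M.toFrame.inner_le_norm r (θs j - θ)
              rw [inner_sub_right] at h5
              simp only [hX'', stickX, hX, if_neg hr, XX, lev_ne Y hsw] at h4 ⊢
              linarith)
          K le_rfl
        obtain ⟨L, hL1, hL2, hL3⟩ := hw
        rw [hv'K] at hL3
        have hL4 : L.prod ∈ d.Bx (2 * p.ε) X'' := by
          have h4 := hF.Bx_prod p.ε (fun r => X'' r - p.ε) le_rfl L (by omega) hL2
          refine hF.Bx_mono _ _ _ _ (by linarith) (fun r => ?_) h4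
          simp
        obtain ⟨hgK, hθK⟩ := hdist a ha hg K le_rfl _ (by rw [lev_self]; exact hvV) hvT
        have hNK := hF.adm _ hAK
        have hYK : Y w ≤ lev Y w ι K w := by rw [lev_self]; nlinarith [Nat.cast_nonneg (α := ℝ) K]
        have hlow : ∀ r, r ≠ σ w → ⟪M.e r, d.f (n₁ * a * v) w (Y w)⟫ + M.κ * b' ≤ X r := by
          intro r hr
          have hsw : σ.symm r ≠ w := fun h => hr (by rw [← h, Equiv.apply_symm_apply])
          have h4 := hgK.height' hs hNK hY0 hYK hr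
          have h5 := M.toFrame.inner_le_norm r (θs K - θ)
          rw [inner_sub_right] at h5
          simp only [hX, XX, lev_ne Y hsw] at h4 ⊢
          linarith
        refine ⟨?_, ?_, ?_, hlow⟩
        · have := hvD K le_rfl
          rwa [hv'K] at this
        · rw [Set.mem_smul_set_iff_inv_smul_mem, smul_eq_mul]
          refine Set.mem_mul.2 ⟨ν⁻¹ * d.g (n₁ * a) w (Y w),
            hF.Bx_mono _ _ _ _ le_rfl (XX_mono _ _ _ _ (by rw [sub_self, norm_zero]; linarith)) hbx,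
            L.prod, hL4, ?_⟩
          rw [← hL3]; group
        · intro r
          by_cases hr : r = σ w
          · subst hr
            have h4 := hgK w (Y w) hY0 hYK
            have h5 : ⟪M.e (σ w), d.f (n₁ * a * v) w (Y w)⟫ =
                ⟪M.e (σ w), d.f (n₁ * a * v) w (Y w) - θs K - Y w • M.e (σ w)⟫ +
                ⟪M.e (σ w), θs K - θ⟫ + ⟪M.e (σ w), θ⟫ + Y w := by
              rw [inner_sub_right, inner_sub_right, inner_sub_right, real_inner_smul_right,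
                M.toFrame.inner_self]; ring
            have h6 := (M.toFrame.inner_le_norm (σ w) _).trans h4
            simp only [hX, XX, Equiv.symm_apply_apply]
            rw [h5]; linarith
          · have h6 : 0 ≤ M.κ * b' := by positivity
            linarith [hlow r hr]
      refine (measure_mono hsub).trans ((measure_union_le _ _).trans ?_)
      rw [hF.lam_compl w _ hTK, zero_add]
      exact hK)
  have h5 := G_XX (M := M) (Z := Y) (σ := σ) hpt.round θ hτ0
  linarith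

/-- numerical conditions: `t` = slab parameter, `B` = constant of the sum rule -/
structure Num (M : Mdl R E) (p : Par R) (m B t ι : ℝ) (K : ℕ) : Prop where
  B_one : 1 ≤ B
  sum : ∀ (w : R) (θ : E) (t : ℝ), 0 ≤ t → (∀ r, r ≠ w → -t ≤ ⟪M.e r, θ⟫) →
    ⟪M.e w, θ⟫ ≤ B * t
  t0 : 0 ≤ t
  t1 : t ≤ 1
  tc : 8 * M.κ * p.ε ≤ M.c0 * t
  ω3 : 3 * p.ε ≤ p.ω
  ι0 : 0 < ι
  hq : 5 * K + 1 ≤ p.q
  m1 : M.κ * (K * ι) + t + 2 * p.ε ≤ m - 2 * p.ω
  ω1 : B * (t + 12 * p.ε) + K * ι + M.κ * ι ≤ p.ω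
  ω2 : B * (t + 12 * p.ε) + 10 * p.ε ≤ p.ω
  m2 : M.κ * (K * ι) + M.κ * ι + M.κ * (B * (t + 12 * p.ε) + K * ι + M.κ * ι) + 14 * p.ε ≤
    m - 2 * p.ω

section pt

variable {Y : R → ℝ} {w : R} {ι : ℝ} {K : ℕ} {n₁ : N} {σ : Equiv.Perm R} {θ : E} {ν : Q}
  {θs : ℕ → E} {B t : ℝ}

theorem Pt.admY (hpt : Pt M d p Y w ι K n₁ σ θ ν θs) : p.Adm Y := by
  simpa using hpt.adm 0 (Nat.zero_le _)

theorem Pt.good_half (hF : Facts M d p) (hpt : Pt M d p Y w ι K n₁ σ θ ν θs) {j : ℕ}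
    (hj : j ≤ K) : Few d.μ (d.A Y) (ENNReal.ofReal (1 / 2) * d.μ (d.A Y)) (fun a =>
      (Good M d p.ε Y σ θ (n₁ * a) ∧
        ν⁻¹ * d.g (n₁ * a) w (Y w) ∈ d.Bx (2 * p.ε) (XX M Y σ θ (3 * p.ε))) ∧
      ∃ v ∈ d.V w (lev Y w ι j w), Typ M d p (lev Y w ι j) w (Y w) (n₁ * a * v)) := by
  refine hpt.good.mono le_rfl ?_ ?_
  · gcongr; norm_num
  · rintro a _ ⟨h1, h2⟩
    exact ⟨h1, exists_typ hF ⟨_, hpt.adm j hj, rfl⟩ (h2 j hj)⟩

theorem Pt.lower [Nonempty R] (hF : Facts M d p) (hs : Small M p m) (hn : Num M p m B t ι K)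
    (hpt : Pt M d p Y w ι K n₁ σ θ ν θs) {j : ℕ} (hj : j ≤ K) {r : R} (hr : r ≠ σ w) :
    -(t + 12 * p.ε) ≤ ⟪M.e r, θs j - θ⟫ := by
  have hι := hn.ι0
  have hj' : (j : ℝ) * ι ≤ K * ι := mul_le_mul_of_nonneg_right (by exact_mod_cast hj) hι.le
  have hκ := M.one_le_κ
  have h1 := ineq_I hF hs hpt.admY hpt.round (hpt.adm j hj) (hpt.hA j hj)
    (by rw [lev_self]; nlinarith [Nat.cast_nonneg (α := ℝ) j])
    (fun r hr => lev_ne Y hr ι j) hpt.box (hpt.law j hj) hpt.dom (hpt.dom_V j hj)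
    (hpt.good_half hF hj) hr hn.t0 hn.t1 hn.tc hn.ω3
    (by
      rw [lev_self]
      have := hn.m1
      have h3 : M.κ * (Y w + j * ι - Y w) ≤ M.κ * (K * ι) :=
        mul_le_mul_of_nonneg_left (by linarith) (by linarith)
      linarith)
  rw [inner_sub_right]
  linarith

theorem Num.te (hF : Facts M d p) (hn : Num M p m B t ι K) : 0 ≤ t + 12 * p.ε := by
  have := hF.ε_pos; have := hn.t0; linarith

theorem Pt.upper [Nonempty R] (hF : Facts M d p) (hs : Small M p m) (hn : Num M p m B t ι K)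
    (hpt : Pt M d p Y w ι K n₁ σ θ ν θs) {j : ℕ} (hj : j ≤ K) :
    ⟪M.e (σ w), θs j - θ⟫ ≤ B * (t + 12 * p.ε) :=
  hn.sum _ _ _ (hn.te hF) fun _ hr => hpt.lower hF hs hn hj hr

/-- error of the volume inequality -/
noncomputable def err (M : Mdl R E) (p : Par R) (B t : ℝ) : ℝ :=
  M.κ * (B * (t + 12 * p.ε) + 10 * p.ε) + 2 * M.κ * p.ε + 4 * p.ε

theorem Pt.D_le [Nonempty R] (hF : Facts M d p) (hs : Small M p m) (hn : Num M p m B t ι K)
    (hpt : Pt M d p Y w ι K n₁ σ θ ν θs) :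
    M.D w * (K * ι) ≤ M.D (σ w) * (K * ι) +
      (M.D (σ w) * (B * (t + 12 * p.ε) + M.κ * ι) + err M p B t) := by
  have hι := hn.ι0
  have hB := hn.B_one
  have hte := hn.te hF
  have hκ := M.one_le_κ
  have h1 := vol_step hF hs hpt hι.le hn.hq (e2 := B * (t + 12 * p.ε))
    (β := B * (t + 12 * p.ε) + K * ι) (by positivity) (by positivity)
    (hpt.upper hF hs hn le_rfl) (fun j hj => by
      have := hpt.upper hF hs hn hj
      have hj' : (j : ℝ) * ι ≤ K * ι := mul_le_mul_of_nonneg_right (by exact_mod_cast hj) hι.le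
      linarith) (by linarith [hn.ω1]) (by linarith [hn.ω2]) (by linarith [hn.m2])
  simp only [err]
  nlinarith

/-- distance of the laws of two levels -/
theorem Pt.dist_levels [Nonempty R] (hF : Facts M d p) (hs : Small M p m)
    (hn : Num M p m B t ι K) (hpt : Pt M d p Y w ι K n₁ σ θ ν θs) {j : ℕ} (hj : j ≤ K) :
    ‖θs K - θs j‖ ≤ M.κ * (K * ι - j * ι) + 11 * p.ε := by
  have hY := hpt.admY
  have hN := hF.adm Y hY
  have hY0 : 0 ≤ Y w := by linarith [NR.half hs hN w]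
  have hι := hn.ι0
  have hj' : (j : ℝ) * ι ≤ K * ι := mul_le_mul_of_nonneg_right (by exact_mod_cast hj) hι.le
  have hjn : (0 : ℝ) ≤ j * ι := by positivity
  obtain ⟨a, ha, -, htyp⟩ := hpt.good.exists (by
    calc ENNReal.ofReal (1 / 4) * d.μ (d.A Y) < 1 * d.μ (d.A Y) :=
          ENNReal.mul_lt_mul_left (hF.A_ne Y hY) (hF.A_fin Y hY)
            (ENNReal.ofReal_lt_one.2 (by norm_num))
      _ = d.μ (d.A Y) := one_mul _)
  have hgd : ∀ i ≤ K, ∃ v ∈ d.V w (lev Y w ι i w),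
      Good M d (5 * p.ε) (lev Y w ι i) σ (θs i) (n₁ * a * v) := by
    intro i hi
    have hZ := hpt.adm i hi
    obtain ⟨v, hv, ht⟩ := exists_typ hF ⟨_, hZ, rfl⟩ (htyp i hi)
    refine ⟨v, hv, ?_⟩
    have hk : a * v ∈ (d.A (lev Y w ι i)) ^ 2 :=
      pow_mem_add (i := 1) (j := 1) (by rw [pow_one]; exact hpt.hA i hi ha)
        (by rw [pow_one]; exact hF.V_sub _ hZ w hv)
    have := typ_good hF hs hZ hY0 (by rw [lev_self]; nlinarith [Nat.cast_nonneg (α := ℝ) i])
      (pow_mono_of_one (hF.A_one _ hZ) (by norm_num : 2 ≤ 9) hk)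
      (fun x hx => by rw [← mul_assoc n₁]; exact hpt.dom_V i hi a ha v hv x hx) (hpt.law i hi)
      (by rw [← mul_assoc]; exact ht)
    rwa [← mul_assoc] at this
  obtain ⟨v, hv, hg⟩ := hgd j hj
  obtain ⟨v', hv', hg'⟩ := hgd K le_rfl
  have hjK : lev Y w ι j w ≤ lev Y w ι K w := by rw [lev_self, lev_self]; linarith
  have hu := hF.V_VU w _ _ ⟨_, hpt.adm j hj, rfl⟩ ⟨_, hpt.adm K le_rfl, rfl⟩ hjK v hv v' hv'
  have h3 := hop_law hF (hpt.adm j hj) (hpt.adm K le_rfl) hjK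
    (by rw [lev_self]; linarith) hu hg (n := n₁ * a * v) (τ' := 5 * p.ε) (θ' := θs K) (by
      have : n₁ * a * v * (v⁻¹ * v') = n₁ * a * v' := by group
      rw [this]; exact hg')
  rw [lev_self, lev_self] at h3
  have h4 : Y w + K * ι - (Y w + j * ι) = K * ι - j * ι := by ring
  rw [h4] at h3
  linarith

/-- **the enlargement lemma at one point**, given `D (σ w) = D w` -/
theorem Pt.sharp [Nonempty R] (hF : Facts M d p) (hs : Small M p m) (hn : Num M p m B t ι K)
    (hpt : Pt M d p Y w ι K n₁ σ θ ν θs) (hD : M.D (σ w) = M.D w) {e' : ℝ}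
    (he' : M.κ * ι + err M p B t / M.D w ≤ e') (hK : e' < K * ι) {B₂ : ℝ}
    (hB₂ : ∀ (θ : E) (t : ℝ), 0 ≤ t → (∀ r, ⟪M.e r, θ⟫ ≤ t) → ‖θ‖ ≤ B₂ * t) :
    ‖θ - θs K‖ ≤ B₂ * (e' + M.κ * (e' + B * (t + 12 * p.ε)) + 11 * p.ε) := by
  have hι := hn.ι0
  have hB := hn.B_one
  have hte := hn.te hF
  have hκ := M.one_le_κ
  have hε := hF.ε_pos
  have hD0 := M.D_pos w
  have herr : 0 ≤ err M p B t := by simp only [err]; positivity
  have he0 : 0 ≤ e' := le_trans (by positivity) he'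
  -- the best level
  set φ : ℕ → ℝ := fun j => ⟪M.e (σ w), θs j - θ⟫ + j * ι with hφ
  obtain ⟨j, hjm, hj⟩ := Finset.exists_max_image (Finset.range (K + 1)) φ ⟨0, by simp⟩
  have hjK : j ≤ K := by rw [Finset.mem_range] at hjm; omega
  have hφj : ∀ i ≤ K, φ i ≤ max 0 (φ j) := fun i hi =>
    (hj i (Finset.mem_range.2 (by omega))).trans (le_max_right _ _)
  have hφup : max 0 (φ j) ≤ B * (t + 12 * p.ε) + K * ι := by
    refine max_le (by positivity) ?_
    have := hpt.upper hF hs hn hjK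
    have hj' : (j : ℝ) * ι ≤ K * ι := mul_le_mul_of_nonneg_right (by exact_mod_cast hjK) hι.le
    simp only [hφ]; linarith
  have h1 := vol_step hF hs hpt hι.le hn.hq (e2 := B * (t + 12 * p.ε))
    (β := max 0 (φ j)) (by positivity) (le_max_left _ _)
    (hpt.upper hF hs hn le_rfl) (fun i hi => hφj i hi) (by linarith [hn.ω1])
    (by linarith [hn.ω2]) (by nlinarith [hn.m2])
  rw [hD] at h1
  have h2 : K * ι ≤ max 0 (φ j) + e' := by
    have h3 : M.D w * (K * ι) ≤ M.D w * (max 0 (φ j) + M.κ * ι) + err M p B t := by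
      simp only [err]; linarith
    have h4 : M.D w * (K * ι) ≤ M.D w * (max 0 (φ j) + M.κ * ι + err M p B t / M.D w) := by
      rw [mul_add (M.D w) _ (err M p B t / M.D w), mul_div_cancel₀ _ hD0.ne']
      exact h3
    have h5 := le_of_mul_le_mul_left h4 hD0
    linarith
  have h3 : 0 < φ j := by
    by_contra hcon
    rw [max_eq_left (not_lt.1 hcon)] at h2
    linarith
  rw [max_eq_right h3.le] at h2
  have h4 := hpt.upper hF hs hn hjK
  have hj' : (j : ℝ) * ι ≤ K * ι := mul_le_mul_of_nonneg_right (by exact_mod_cast hjK) hι.le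
  have h5 : K * ι - j * ι ≤ e' + B * (t + 12 * p.ε) := by simp only [hφ] at h2; linarith
  have h6 : -e' ≤ ⟪M.e (σ w), θs j - θ⟫ := by simp only [hφ] at h2; linarith
  have h7 := hpt.dist_levels hF hs hn hjK
  have h8 : M.κ * (K * ι - j * ι) ≤ M.κ * (e' + B * (t + 12 * p.ε)) :=
    mul_le_mul_of_nonneg_left h5 (by linarith)
  refine hB₂ _ _ (by positivity) fun r => ?_
  by_cases hr : r = σ w
  · subst hr
    have h9 := M.toFrame.inner_le_norm (σ w) (θs j - θs K)
    rw [← norm_neg, neg_sub] at h9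
    have h10 : ⟪M.e (σ w), θ - θs K⟫ = ⟪M.e (σ w), θs j - θs K⟫ - ⟪M.e (σ w), θs j - θ⟫ := by
      rw [inner_sub_right, inner_sub_right, inner_sub_right]; ring
    rw [h10]
    linarith
  · have h9 := hpt.lower hF hs hn (le_refl K) hr
    rw [inner_sub_right] at h9 ⊢
    have h10 : t + 12 * p.ε ≤ M.κ * (e' + B * (t + 12 * p.ε)) := by
      have : t + 12 * p.ε ≤ B * (t + 12 * p.ε) := by nlinarith
      nlinarith
    linarith

end pt

theorem perm_D_eq {D : R → ℝ} {σ : Equiv.Perm R} (h : ∀ w, D w ≤ D (σ w)) (w : R) :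
    D (σ w) = D w := by
  have h1 : ∑ w, D w = ∑ w, D (σ w) := (Equiv.sum_comp σ D).symm
  have h2 := (Finset.sum_eq_sum_iff_of_le (s := Finset.univ) (fun i _ => h i)).1 h1
  exact (h2 w (Finset.mem_univ _)).symm

end Crest.Agent.R182.El
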