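/-
R182, module HOLE / EL_K (helper656): averaging over `K`, and the enlargement lemma.
-/
import Mathlib
import Crest.Agent.R182.ElPoint

set_option autoImplicit false
set_option linter.unusedSectionVars false

open MeasureTheory Set
open scoped Pointwise RealInnerProductSpace ENNReal

namespace Crest.Agent.R182.El

variable {R E N Q : Type*} [Fintype R] [DecidableEq R] [NormedAddCommGroup E]
  [InnerProductSpace ℝ E]
  [Group N] [MeasurableSpace N] [MeasurableMul₂ N] [MeasurableInv N]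
  [Group Q] [MeasurableSpace Q] [MeasurableMul₂ Q] [MeasurableInv Q]
  {M : Mdl R E} {d : Data R E N Q} {p : Par R} {m : ℝ}

/-- most moves on all levels along the ray `w` lead to typical points -/
def Nice (M : Mdl R E) (d : Data R E N Q) (p : Par R) (Y : R → ℝ) (ι : ℝ) (w : R) (j : ℕ)
    (n : N) : Prop :=
  d.lam w (lev Y w ι j w) {v | ¬ Typ M d p (lev Y w ι j) w (Y w) (n * v)} ≤
    d.lam w (lev Y w ι j w) univ / 2

/-- fine points: most points of the box are nice -/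
def Fine (M : Mdl R E) (d : Data R E N Q) (p : Par R) (Y : R → ℝ) (ι : ℝ) (L : ℕ) (n : N) : Prop :=
  ∀ w, Few d.μ (d.A Y) (ENNReal.ofReal (1 / 8) * d.μ (d.A Y))
    (fun a => ∀ j ≤ L, Nice M d p Y ι w j (n * a))

/-- admissible set-up: levels `j ι`, `j ≤ L`, `L ι = b` -/
structure Lev (M : Mdl R E) (d : Data R E N Q) (p : Par R) (Y : R → ℝ) (b ι : ℝ) (L : ℕ) :
    Prop where
  round : ∀ r r', Y r = Y r'
  L_pos : 0 < L
  Lι : L * ι = b
  ι_ge : p.ε ≤ ι
  adm : ∀ w, ∀ j ≤ L, p.Adm (lev Y w ι j)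

section lev

variable {Y : R → ℝ} {b ι : ℝ} {L : ℕ} {K : Set N}

theorem Lev.cond (hl : Lev M d p Y b ι L) (hF : Facts M d p) {j : ℕ} (hj : j ≤ L) :
    ((j : ℝ) * ι = 0 ∨ p.ε ≤ j * ι) ∧ ((j : ℝ) * ι = b ∨ j * ι + p.ε ≤ b) := by
  have hε := hF.ε_pos
  have hι := hl.ι_ge
  constructor
  · rcases Nat.eq_zero_or_pos j with h | h
    · left; rw [h]; simp
    · right
      have : (1 : ℝ) ≤ j := by exact_mod_cast h
      nlinarith
  · rcases hj.eq_or_lt with h | h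
    · left; rw [h]; exact hl.Lι
    · right
      have h1 : (j : ℝ) + 1 ≤ L := by exact_mod_cast h
      rw [← hl.Lι]; nlinarith

theorem Lev.A_sub (hl : Lev M d p Y b ι L) (hF : Facts M d p) (w : R) {j : ℕ} (hj : j ≤ L) :
    d.A Y ⊆ d.A (lev Y w ι j) := by
  refine hF.A_mono Y _ (by simpa using hl.adm w 0 (Nat.zero_le _)) (hl.adm w j hj) fun r => ?_
  by_cases hr : r = w
  · subst hr
    rw [lev_self]
    rcases (hl.cond hF hj).1 with h | h
    · left; rw [h, add_zero]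
    · right; linarith
  · left; rw [lev_ne Y hr]

/-- at most points of `K A` most moves are good -/
theorem nice_few [Nonempty R] (hF : Facts M d p) (hs : Small M p m) (hl : Lev M d p Y b ι L)
    (hK : KFacts M d p Y b K) (w : R) {j : ℕ} (hj : j ≤ L) :
    d.μ {n | n ∈ K * d.A Y ∧ ¬ Nice M d p Y ι w j n} ≤
      ENNReal.ofReal (2 * ((M.J + 2) * M.C * p.δ) * M.C) * d.μ K := by
  have := hF.μ_left
  have := hF.μ_right
  have := hF.μ_sf
  have hY : p.Adm Y := by simpa using hl.adm w 0 (Nat.zero_le _)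
  have hN := hF.adm Y hY
  have hY0 : 0 ≤ Y w := by linarith [NR.half hs hN w]
  have hι : 0 < ι := hF.ε_pos.trans_le hl.ι_ge
  have hjι : (0 : ℝ) ≤ j * ι := by positivity
  have hZ := hl.adm w j hj
  have hT : p.AdmT w (Y w + j * ι) := ⟨_, hZ, lev_self _ _ _ _⟩
  obtain ⟨c1, c2⟩ := hl.cond hF hj
  obtain ⟨mm, hm0, hm1, hm2⟩ := hK.mul_V w (j * ι) c1 c2 hZ
  have hdom := hK.dom_V w (j * ι) c1 c2 hZ
  have : IsFiniteMeasure (d.lam w (Y w + j * ι)) := ⟨lt_top_iff_ne_top.2 (hF.lam_fin w _ hT)⟩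
  set T : Set N := K * d.A Y * d.V w (Y w + j * ι) with hTdef
  set Z := lev Y w ι j with hZdef
  have hZe : d.A (Function.update Y w (Y w + j * ι)) = d.A Z := rfl
  have hAm : MeasurableSet (d.A Z) := by
    have := hF.A_meas Z hZ 1 (by norm_num)
    rwa [pow_one] at this
  have hlt : ENNReal.ofReal M.C * d.μ K * d.lam w (Y w + j * ι) univ ≠ ⊤ :=
    ENNReal.mul_ne_top (ENNReal.mul_ne_top ENNReal.ofReal_ne_top hK.fin) (hF.lam_fin w _ hT)
  have hm2' : mm * d.μ (T * d.A Z) ≤ ENNReal.ofReal M.C * d.μ K * d.lam w (Y w + j * ι) univ := hm2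
  have hfin : d.μ (T * d.A Z) ≠ ⊤ := by
    intro h
    rw [h, ENNReal.mul_top hm0] at hm2'
    exact hlt (top_le_iff.1 hm2')
  set Bad : Set N := {t | t ∈ T ∧ ¬ Typ M d p Z w (Y w) t} with hBad
  have h1 : d.μ Bad ≤ ENNReal.ofReal ((M.J + 2) * M.C * p.δ) * d.μ (T * d.A Z) := by
    refine cover_le hAm (hF.A_ne Z hZ) (hF.A_one Z hZ) (hF.A_inv Z hZ) hfin _ _ fun n₀ hn₀ => ?_
    exact typ_few hF hs hZ hY0 (by rw [hZdef, lev_self]; linarith) n₀
      (fun a ha => hdom (Set.mul_mem_mul hn₀ ha))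
  have h2 := lam_markov (μ := d.μ) (d.lam w (Y w + j * ι)) hK.meas_A Bad mm hm1
    (d.lam w (Y w + j * ι) univ / 2)
  have h3 : {n | n ∈ K * d.A Y ∧ ¬ Nice M d p Y ι w j n} ⊆
      {n | n ∈ K * d.A Y ∧ d.lam w (Y w + j * ι) univ / 2 ≤
        d.lam w (Y w + j * ι) {v | n * v ∈ Bad}} := by
    rintro n ⟨hn, hnn⟩
    refine ⟨hn, ?_⟩
    rw [Nice, lev_self, not_le] at hnn
    refine hnn.le.trans ?_
    have h4 : {v | ¬ Typ M d p (lev Y w ι j) w (Y w) (n * v)} ⊆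
        (d.V w (Y w + j * ι))ᶜ ∪ {v | n * v ∈ Bad} := by
      intro v hv
      by_cases hvV : v ∈ d.V w (Y w + j * ι)
      · exact Or.inr ⟨Set.mul_mem_mul hn hvV, hv⟩
      · exact Or.inl hvV
    refine (measure_mono h4).trans ((measure_union_le _ _).trans ?_)
    rw [hF.lam_compl w _ hT, zero_add]
  have h5 : d.μ {n | n ∈ K * d.A Y ∧ ¬ Nice M d p Y ι w j n} *
      (d.lam w (Y w + j * ι) univ / 2) ≤
      (ENNReal.ofReal (2 * ((M.J + 2) * M.C * p.δ) * M.C) * d.μ K) *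
      (d.lam w (Y w + j * ι) univ / 2) := by
    calc _ ≤ d.μ {n | n ∈ K * d.A Y ∧ d.lam w (Y w + j * ι) univ / 2 ≤
          d.lam w (Y w + j * ι) {v | n * v ∈ Bad}} * (d.lam w (Y w + j * ι) univ / 2) :=
            mul_le_mul_left (measure_mono h3) _
      _ ≤ mm * d.μ Bad := h2
      _ ≤ mm * (ENNReal.ofReal ((M.J + 2) * M.C * p.δ) * d.μ (T * d.A Z)) :=
            mul_le_mul_right h1 _
      _ = ENNReal.ofReal ((M.J + 2) * M.C * p.δ) * (mm * d.μ (T * d.A Z)) := by ring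
      _ ≤ ENNReal.ofReal ((M.J + 2) * M.C * p.δ) *
          (ENNReal.ofReal M.C * d.μ K * d.lam w (Y w + j * ι) univ) :=
            mul_le_mul_right hm2' _
      _ = _ := by
        have hC : (0:ℝ) ≤ M.C := by linarith [M.one_le_C]
        have hJ : (0:ℝ) ≤ (M.J + 2) * M.C * p.δ := by
          have := hF.δ_pos; positivity
        have h8 : ENNReal.ofReal (2 * ((M.J + 2) * M.C * p.δ) * M.C) =
            2 * ENNReal.ofReal ((M.J + 2) * M.C * p.δ) * ENNReal.ofReal M.C := by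
          rw [ENNReal.ofReal_mul (by positivity), ENNReal.ofReal_mul (by norm_num : (0:ℝ) ≤ 2)]
          norm_num
        rw [h8, ENNReal.div_eq_inv_mul]
        have h7 : (2 : ℝ≥0∞) * 2⁻¹ = 1 := ENNReal.mul_inv_cancel (by norm_num) (by norm_num)
        calc ENNReal.ofReal ((M.J + 2) * M.C * p.δ) *
            (ENNReal.ofReal M.C * d.μ K * d.lam w (Y w + j * ι) univ)
            = (2 * 2⁻¹) * (ENNReal.ofReal ((M.J + 2) * M.C * p.δ) *
            (ENNReal.ofReal M.C * d.μ K * d.lam w (Y w + j * ι) univ)) := by rw [h7, one_mul]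
          _ = _ := by ring
  have hl0 : d.lam w (Y w + j * ι) univ / 2 ≠ 0 :=
    (ENNReal.half_pos (hF.lam_ne w _ hT)).ne'
  have hlt' : d.lam w (Y w + j * ι) univ / 2 ≠ ⊤ :=
    ne_top_of_le_ne_top (hF.lam_fin w _ hT) ENNReal.half_le_self
  exact (ENNReal.mul_le_mul_iff_left hl0 hlt').1 h5

/-- **most points of `K` are fine** -/
theorem fine_few [Nonempty R] (hF : Facts M d p) (hs : Small M p m) (hl : Lev M d p Y b ι L)
    (hK : KFacts M d p Y b K) :
    d.μ {n | n ∈ K ∧ ¬ Fine M d p Y ι L n} ≤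
      ENNReal.ofReal (16 * (Fintype.card R * (L + 1)) * ((M.J + 2) * M.C * p.δ) * M.C) * d.μ K := by
  have := hF.μ_left
  have := hF.μ_right
  have := hF.μ_sf
  obtain ⟨w₀⟩ := ‹Nonempty R›
  have hne : Nonempty R := ⟨w₀⟩
  have hY : p.Adm Y := by simpa using hl.adm w₀ 0 (Nat.zero_le _)
  have hAm : MeasurableSet (d.A Y) := by
    have := hF.A_meas Y hY 1 (by norm_num)
    rwa [pow_one] at this
  have hC : (0:ℝ) ≤ M.C := by linarith [M.one_le_C]
  have hδ := hF.δ_pos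
  set β₀ : ℝ := 2 * ((M.J + 2) * M.C * p.δ) * M.C with hβ₀
  have hβ₀0 : 0 ≤ β₀ := by rw [hβ₀]; positivity
  set Bad : Set N := ⋃ w : R, ⋃ j ∈ Finset.range (L + 1),
    {n | n ∈ K * d.A Y ∧ ¬ Nice M d p Y ι w j n} with hBad
  have h1 : d.μ Bad ≤ ENNReal.ofReal (Fintype.card R * (L + 1) * β₀) * d.μ K := by
    calc d.μ Bad ≤ ∑ w : R, d.μ (⋃ j ∈ Finset.range (L + 1),
          {n | n ∈ K * d.A Y ∧ ¬ Nice M d p Y ι w j n}) := by
          rw [hBad]; exact (measure_iUnion_fintype_le _ _)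
      _ ≤ ∑ w : R, ∑ j ∈ Finset.range (L + 1), ENNReal.ofReal β₀ * d.μ K := by
          refine Finset.sum_le_sum fun w _ => ?_
          refine (measure_biUnion_finset_le _ _).trans ?_
          refine Finset.sum_le_sum fun j hj => ?_
          exact nice_few hF hs hl hK w (by rw [Finset.mem_range] at hj; omega)
      _ = _ := by
          have h9 : ENNReal.ofReal (Fintype.card R * (L + 1) * β₀) =
              (Fintype.card R : ℝ≥0∞) * ((L + 1 : ℕ) : ℝ≥0∞) * ENNReal.ofReal β₀ := by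
            rw [ENNReal.ofReal_mul (by positivity : (0:ℝ) ≤ Fintype.card R * (L + 1)),
              ENNReal.ofReal_mul (by positivity : (0:ℝ) ≤ Fintype.card R), ENNReal.ofReal_natCast]
            have : ENNReal.ofReal ((L : ℝ) + 1) = ((L + 1 : ℕ) : ℝ≥0∞) := by
              rw [← Nat.cast_succ, ENNReal.ofReal_natCast]
            rw [this]
          rw [Finset.sum_const, Finset.sum_const, Finset.card_range, Finset.card_univ,
            nsmul_eq_mul, nsmul_eq_mul, h9]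
          ring
  set c := ENNReal.ofReal (1 / 8) * d.μ (d.A Y) with hc
  have h2 := mul_markov (μ := d.μ) hK.meas hAm Bad c
  have h3 : {n | n ∈ K ∧ ¬ Fine M d p Y ι L n} ⊆
      {n | n ∈ K ∧ c ≤ d.μ {a | a ∈ d.A Y ∧ n * a ∈ Bad}} := by
    rintro n ⟨hn, hnf⟩
    refine ⟨hn, ?_⟩
    rw [Fine] at hnf
    push Not at hnf
    obtain ⟨w, hw⟩ := hnf
    rw [Few, not_le] at hw
    refine hw.le.trans (measure_mono ?_)
    rintro a ⟨ha, hna⟩
    push Not at hna
    obtain ⟨j, hj, hnj⟩ := hna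
    refine ⟨ha, ?_⟩
    rw [hBad]
    simp only [Set.mem_iUnion]
    exact ⟨w, j, Finset.mem_range.2 (by omega), Set.mul_mem_mul hn ha, hnj⟩
  have h4 : d.μ {n | n ∈ K ∧ ¬ Fine M d p Y ι L n} * c ≤
      (ENNReal.ofReal (16 * (Fintype.card R * (L + 1)) * ((M.J + 2) * M.C * p.δ) * M.C) * d.μ K)
        * c := by
    calc _ ≤ d.μ {n | n ∈ K ∧ c ≤ d.μ {a | a ∈ d.A Y ∧ n * a ∈ Bad}} * c :=
            mul_le_mul_left (measure_mono h3) _
      _ ≤ d.μ (d.A Y) * d.μ (Bad ∩ (K * d.A Y)) := h2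
      _ ≤ d.μ (d.A Y) * (ENNReal.ofReal (Fintype.card R * (L + 1) * β₀) * d.μ K) :=
            mul_le_mul_right ((measure_mono Set.inter_subset_left).trans h1) _
      _ = _ := by
        have h5 : (16 * (Fintype.card R * (L + 1)) * ((M.J + 2) * M.C * p.δ) * M.C : ℝ) =
            8 * (Fintype.card R * (L + 1) * β₀) := by rw [hβ₀]; ring
        rw [h5, ENNReal.ofReal_mul (by norm_num : (0:ℝ) ≤ 8), hc, one_div,
          ENNReal.ofReal_inv_of_pos (by norm_num)]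
        have h6 : ENNReal.ofReal 8 = 8 := by norm_num
        rw [h6]
        have h7 : (8 : ℝ≥0∞) * 8⁻¹ = 1 := ENNReal.mul_inv_cancel (by norm_num) (by norm_num)
        calc d.μ (d.A Y) * (ENNReal.ofReal (Fintype.card R * (L + 1) * β₀) * d.μ K)
            = (8 * 8⁻¹) * (d.μ (d.A Y) *
              (ENNReal.ofReal (Fintype.card R * (L + 1) * β₀) * d.μ K)) := by rw [h7, one_mul]
          _ = _ := by ring
  have hc0 : c ≠ 0 := by
    rw [hc]
    exact mul_ne_zero (ENNReal.ofReal_pos.2 (by norm_num)).ne' (hF.A_ne Y hY)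
  have hct : c ≠ ⊤ := ENNReal.mul_ne_top ENNReal.ofReal_ne_top (hF.A_fin Y hY)
  exact (ENNReal.mul_le_mul_iff_left hc0 hct).1 h4

/-- at a fine point everything is known -/
theorem Fine.pt [Nonempty R] (hF : Facts M d p) (hs : Small M p m) (hl : Lev M d p Y b ι L)
    (hK : KFacts M d p Y b K) (hδ : 8 * (((M.J : ℝ) + 2) * M.C * p.δ) ≤ 1) {n : N} (hn : n ∈ K)
    (hf : Fine M d p Y ι L n) (w : R) :
    ∃ σ θ ν θs, Pt M d p Y w ι L n σ θ ν θs := by
  have hY : p.Adm Y := by simpa using hl.adm w 0 (Nat.zero_le _)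
  have hN := hF.adm Y hY
  have hY0 : 0 ≤ Y w := by linarith [NR.half hs hN w]
  have hAY := hF.A_one Y hY
  have hdomA : ∀ a ∈ d.Ah Y, n * a ∈ d.Dom := by
    intro a ha
    have h1 : n * 1 * a ∈ K * d.A Y * d.Ah Y :=
      Set.mul_mem_mul (Set.mul_mem_mul hn hAY) ha
    rw [mul_one] at h1
    exact hK.dom h1
  obtain ⟨σ, θ, ν, hb⟩ := exists_isBox hF hs hY hY0 le_rfl n hdomA
  have hex : ∀ j, ∃ θ', j ≤ L → IsLaw M d p (lev Y w ι j) n σ θ' := by
    intro j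
    by_cases hj : j ≤ L
    · obtain ⟨σa, θ', h1⟩ := hF.box _ (hl.adm w j hj) n
      have h2 : IsLaw M d p (lev Y w ι j) n σa θ' := h1
      have h3 : Y ≤ lev Y w ι j := by
        intro r
        by_cases hr : r = w
        · subst hr
          rw [lev_self]
          have : (0:ℝ) ≤ j * ι := by have := hF.ε_pos.trans_le hl.ι_ge; positivity
          linarith
        · rw [lev_ne Y hr]
      have h4 := type_shape hF hs hY (hl.adm w j hj) h3 (hl.A_sub hF w hj) hb.law h2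
      exact ⟨θ', fun _ => by rw [h4]; exact h2⟩
    · exact ⟨0, fun h => absurd h hj⟩
  choose θs hθs using hex
  refine ⟨σ, θ, ν, θs, hl.round, fun j hj => hl.adm w j hj, fun j hj => hl.A_sub hF w hj, hb,
    fun j hj => hθs j hj, ?_, ?_, ?_⟩
  · intro a ha
    exact hdomA a (hF.A_pow Y hY (mem_Ah hF hY ha (by norm_num)))
  · intro j hj a ha v hv x hx
    obtain ⟨c1, c2⟩ := hl.cond hF hj
    rw [lev_self] at hv
    exact hK.dom_V w (j * ι) c1 c2 (hl.adm w j hj)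
      (Set.mul_mem_mul (Set.mul_mem_mul (Set.mul_mem_mul hn ha) hv) hx)
  · have h1 := hb.law.few hF (B := d.A Y) (m := 1) (fun a ha => by
      rw [one_mul]; exact hF.A_pow Y hY (mem_Ah hF hY ha (by norm_num)))
    have h2 := hb.box.mono (B' := d.A Y) (P' := fun a => ν⁻¹ * d.g (n * a) w (Y w) ∈
      d.Bx (2 * p.ε) (XX M Y σ θ (3 * p.ε))) (fun a ha => mem_Ah hF hY ha (by norm_num)) le_rfl
      (fun _ _ h => h)
    refine ((h1.and h2).and (hf w)).mono le_rfl ?_ ?_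
    · rw [← add_mul, ← add_mul]
      gcongr
      have hC := M.one_le_C
      have hδ0 := hF.δ_pos
      have hJ : (0:ℝ) ≤ M.J := Nat.cast_nonneg _
      rw [← ENNReal.ofReal_add hδ0.le (by positivity),
        ← ENNReal.ofReal_add (by positivity) (by norm_num)]
      refine ENNReal.ofReal_le_ofReal ?_
      nlinarith
    · rintro a _ ⟨⟨hg, hbx⟩, hnice⟩
      rw [mul_one] at hg
      exact ⟨⟨hg, hbx⟩, hnice⟩

/-- numerical conditions for the sharp form -/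
structure Num' (M : Mdl R E) (p : Par R) (B B₂ t ι b g Dm e' η : ℝ) : Prop where
  norm : ∀ (θ : E) (t : ℝ), 0 ≤ t → (∀ r, ⟪M.e r, θ⟫ ≤ t) → ‖θ‖ ≤ B₂ * t
  gap : ∀ w w', M.D w' < M.D w → M.D w' + g ≤ M.D w
  Dm_le : ∀ w, M.D w ≤ Dm
  h1 : Dm * (B * (t + 12 * p.ε) + M.κ * ι) + err M p B t < g * b
  h2 : ∀ w, M.κ * ι + err M p B t / M.D w ≤ e'
  h3 : e' < b
  h4 : B₂ * (e' + M.κ * (e' + B * (t + 12 * p.ε)) + 11 * p.ε) + 4 * p.ε ≤ η

/-- the laws of `Y` and of `Y + b e_w` agree at fine points -/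
theorem Fine.laws [Nonempty R] (hF : Facts M d p) (hs : Small M p m) (hl : Lev M d p Y b ι L)
    (hK : KFacts M d p Y b K) (hδ : 8 * (((M.J : ℝ) + 2) * M.C * p.δ) ≤ 1) {B B₂ t g Dm e' η : ℝ}
    (hn : Num M p m B t ι L) (hn' : Num' M p B B₂ t ι b g Dm e' η) {n : N} (hnK : n ∈ K)
    (hf : Fine M d p Y ι L n) (w : R) {σ σ' : Equiv.Perm R} {θ θ' : E}
    (h : IsLaw M d p Y n σ θ) (h' : IsLaw M d p (lev Y w ι L) n σ' θ') :
    σ = σ' ∧ ‖θ - θ'‖ ≤ η := by
  have hY : p.Adm Y := by simpa using hl.adm w 0 (Nat.zero_le _)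
  have hN := hF.adm Y hY
  have hZ := hl.adm w L le_rfl
  have hte := hn.te hF
  have hB := hn.B_one
  have hκ := M.one_le_κ
  have hε := hF.ε_pos
  have hι := hn.ι0
  have hLι := hl.Lι
  -- `σ` preserves `D`
  have hD : ∀ w, M.D w ≤ M.D (σ w) := by
    intro w
    obtain ⟨σ₁, θ₁, ν, θs, hpt⟩ := Fine.pt hF hs hl hK hδ hnK hf w
    obtain rfl : σ = σ₁ := type_const hF hs hY h hpt.box.law
    by_contra hcon
    rw [not_le] at hcon
    have h1 := hn'.gap _ _ hcon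
    have h2 := hpt.D_le hF hs hn
    have h3 : M.D (σ w) * (B * (t + 12 * p.ε) + M.κ * ι) ≤ Dm * (B * (t + 12 * p.ε) + M.κ * ι) :=
      mul_le_mul_of_nonneg_right (hn'.Dm_le _) (by positivity)
    have h4 := hn'.h1
    rw [hLι] at h2
    have hb : 0 ≤ b := by
      rw [← hLι]; positivity
    nlinarith
  have hDw := perm_D_eq hD w
  obtain ⟨σ₁, θ₁, ν, θs, hpt⟩ := Fine.pt hF hs hl hK hδ hnK hf w
  obtain rfl : σ = σ₁ := type_const hF hs hY h hpt.box.law
  have h1 := hpt.sharp hF hs hn hDw (hn'.h2 w) (by rw [hLι]; exact hn'.h3) hn'.norm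
  -- compare with the given laws
  have h2 := law_compare hF hs hY (n₀ := n) (k := 1) (mem_Ah hF hY (hF.A_one Y hY) (by norm_num)) h
    (by rw [mul_one]; exact hpt.box.law)
  have h3 := law_compare hF hs hZ (n₀ := n) (k := 1) (mem_Ah hF hZ (hF.A_one _ hZ) (by norm_num))
    (hpt.law L le_rfl) (by rw [mul_one]; exact h')
  refine ⟨h3.1, ?_⟩
  have h4 : θ - θ' = (θ - θ₁) + (θ₁ - θs L) + (θs L - θ') := by abel
  rw [h4]
  refine (norm_add₃_le).trans ?_
  have h5 := hn'.h4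
  linarith [h2.2, h3.2]

end lev

set_option maxHeartbeats 1600000 in
/-- **EL_K, the enlargement lemma.** -/
theorem el_K.{u, v} {R E : Type*} [Fintype R] [DecidableEq R] [Nonempty R] [NormedAddCommGroup E]
    [InnerProductSpace ℝ E] (M : Mdl R E) :
    ∃ ω0 : ℝ, 0 < ω0 ∧ ∀ ω : ℝ, 0 < ω → ω ≤ ω0 → ∃ b0 : ℝ, 0 < b0 ∧ ∀ b : ℝ, 0 < b → b ≤ b0 →
    ∀ η : ℝ, 0 < η → ∀ β : ℝ, 0 < β → ∃ L : ℕ, 0 < L ∧ ∃ ε1 : ℝ, 0 < ε1 ∧ ∃ δ1 : ℝ, 0 < δ1 ∧
    ∃ q0 : ℕ, ∀ (N : Type u) (Q : Type v) [Group N] [MeasurableSpace N] [MeasurableMul₂ N]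
      [MeasurableInv N] [Group Q] [MeasurableSpace Q] [MeasurableMul₂ Q] [MeasurableInv Q]
      (d : Data R E N Q) (p : Par R), Facts M d p → p.ω = ω → p.ε ≤ ε1 → p.δ ≤ δ1 → q0 ≤ p.q →
    ∀ (Y : R → ℝ) (K : Set N), (∀ r r', Y r = Y r') →
      (∀ w, ∀ j ≤ L, p.Adm (lev Y w (b / L) j)) → KFacts M d p Y b K →
      d.μ {n | n ∈ K ∧ ∃ (w : R) (σ σ' : Equiv.Perm R) (θ θ' : E), IsLaw M d p Y n σ θ ∧
        IsLaw M d p (Function.update Y w (Y w + b)) n σ' θ' ∧ ¬ (σ = σ' ∧ ‖θ - θ'‖ ≤ η)} ≤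
      ENNReal.ofReal β * d.μ K := by
  obtain ⟨m, hm0, hm1, hsep⟩ := M.toFrame.exists_sep
  obtain ⟨B, hB1, hB⟩ := M.toFrame.exists_sum_bound
  obtain ⟨B₂, hB₂0, hB₂⟩ := M.toFrame.exists_norm_bound'
  have hκ := M.one_le_κ
  have hκ0 : 0 < M.κ := by linarith
  have hC := M.one_le_C
  have hc0 := M.c0_pos
  have hJ : (0:ℝ) ≤ M.J := Nat.cast_nonneg _
  -- the gap of the dimensions
  obtain ⟨g, hg0, hg⟩ : ∃ g : ℝ, 0 < g ∧ ∀ w w', M.D w' < M.D w → M.D w' + g ≤ M.D w := by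
    obtain ⟨g, hg0, hg⟩ : ∃ g : ℝ, 0 < g ∧ ∀ x : R × R, M.D x.2 < M.D x.1 →
        g ≤ M.D x.1 - M.D x.2 := by
      set s : Finset (R × R) := Finset.univ.filter fun x => M.D x.2 < M.D x.1 with hs
      rcases s.eq_empty_or_nonempty with h | h
      · refine ⟨1, one_pos, fun x hx => ?_⟩
        have : x ∈ s := by rw [hs, Finset.mem_filter]; exact ⟨Finset.mem_univ _, hx⟩
        rw [h] at this
        exact absurd this (Finset.notMem_empty _)
      · obtain ⟨y, hy, hmin⟩ := Finset.exists_min_image s (fun x => M.D x.1 - M.D x.2) h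
        rw [hs, Finset.mem_filter] at hy
        refine ⟨M.D y.1 - M.D y.2, by linarith [hy.2], fun x hx => hmin x ?_⟩
        rw [hs, Finset.mem_filter]; exact ⟨Finset.mem_univ _, hx⟩
    exact ⟨g, hg0, fun w w' h => by have := hg (w, w') h; linarith⟩
  obtain ⟨w1, -, hw1⟩ := Finset.exists_max_image Finset.univ M.D Finset.univ_nonempty
  obtain ⟨w2, -, hw2⟩ := Finset.exists_min_image Finset.univ M.D Finset.univ_nonempty
  obtain ⟨Dm, hDm⟩ : ∃ Dm, Dm = M.D w1 := ⟨_, rfl⟩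
  obtain ⟨Dn, hDn⟩ : ∃ Dn, Dn = M.D w2 := ⟨_, rfl⟩
  rw [← hDm] at hw1
  rw [← hDn] at hw2
  have hDm0 : 0 < Dm := hDm ▸ M.D_pos _
  have hDn0 : 0 < Dn := hDn ▸ M.D_pos _
  -- constants: `t + 12 ε = T0 ε`, `err = E0 ε`
  obtain ⟨T0, hT0⟩ : ∃ T0 : ℝ, T0 = 8 * M.κ / M.c0 + 12 := ⟨_, rfl⟩
  have hT00 : 0 < T0 := by rw [hT0]; positivity
  obtain ⟨E0, hE0⟩ : ∃ E0 : ℝ, E0 = M.κ * (B * T0 + 10) + 2 * M.κ + 4 := ⟨_, rfl⟩
  have hE00 : 0 < E0 := by rw [hE0]; positivity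
  obtain ⟨H, hH⟩ : ∃ H : ℝ, H = 32 + T0 + B * T0 + E0 + E0 / Dn := ⟨_, rfl⟩
  have hH0 : 0 < H := by rw [hH]; positivity
  refine ⟨m / 8, by positivity, fun ω hω hωm => ⟨min (ω / 2) (m / (8 * M.κ)), by positivity,
    fun b hb hb0 η hη β hβ => ?_⟩⟩
  have hb1 : b ≤ ω / 2 := hb0.trans (min_le_left _ _)
  have hb2 : M.κ * b ≤ m / 8 := by
    have h1 := hb0.trans (min_le_right _ _)
    rw [le_div_iff₀ (by positivity)] at h1
    linarith
  obtain ⟨ζ, hζ0, hζ1, hζ2, hζ3, hζ4, hζ5⟩ : ∃ ζ : ℝ, 0 < ζ ∧ M.κ * ζ ≤ m / 16 ∧ ζ ≤ ω / 8 ∧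
      (2 * Dm + 1) * ζ ≤ g * b / 2 ∧ ζ ≤ b / 4 ∧ (B₂ * (3 + 3 * M.κ) + 1) * ζ ≤ η := by
    refine ⟨min (m / 16 / M.κ) (min (ω / 8) (min (g * b / 2 / (2 * Dm + 1))
      (min (b / 4) (η / (B₂ * (3 + 3 * M.κ) + 1))))), ?_, ?_, ?_, ?_, ?_, ?_⟩
    · refine lt_min (by positivity) (lt_min (by positivity) (lt_min (by positivity)
        (lt_min (by positivity) (by positivity))))
    · have h := min_le_left (m / 16 / M.κ) (min (ω / 8) (min (g * b / 2 / (2 * Dm + 1))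
        (min (b / 4) (η / (B₂ * (3 + 3 * M.κ) + 1)))))
      rw [le_div_iff₀ hκ0] at h
      linarith
    · exact (min_le_right _ _).trans (min_le_left _ _)
    · have h := (min_le_right (m / 16 / M.κ) (min (ω / 8) (min (g * b / 2 / (2 * Dm + 1))
        (min (b / 4) (η / (B₂ * (3 + 3 * M.κ) + 1)))))).trans ((min_le_right _ _).trans
        (min_le_left _ _))
      rw [le_div_iff₀ (by positivity)] at h
      linarith
    · exact (min_le_right _ _).trans ((min_le_right _ _).trans ((min_le_right _ _).trans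
        (min_le_left _ _)))
    · have h := (min_le_right (m / 16 / M.κ) (min (ω / 8) (min (g * b / 2 / (2 * Dm + 1))
        (min (b / 4) (η / (B₂ * (3 + 3 * M.κ) + 1)))))).trans ((min_le_right _ _).trans
        ((min_le_right _ _).trans (min_le_right _ _)))
      rw [le_div_iff₀ (by positivity)] at h
      linarith
  obtain ⟨L, hL⟩ := exists_nat_gt (M.κ * b / ζ)
  have hL0 : (0:ℝ) < L := lt_of_le_of_lt (by positivity) hL
  have hLpos : 0 < L := by exact_mod_cast hL0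
  have hLb : (L : ℝ) * (b / L) = b := by field_simp
  have hι0 : 0 < b / L := by positivity
  have hκι : M.κ * (b / L) ≤ ζ := by
    rw [div_lt_iff₀ hζ0] at hL
    rw [← mul_div_assoc, div_le_iff₀ hL0]
    linarith
  obtain ⟨F, hFF⟩ : ∃ F : ℝ, F = 16 * (Fintype.card R * (L + 1)) * ((M.J + 2) * M.C) * M.C :=
    ⟨_, rfl⟩
  have hFF0 : 0 ≤ F := by rw [hFF]; positivity
  refine ⟨L, hLpos, min (ζ / H) (b / L), by positivity,
    min (1 / (8 * ((M.J + 2) * M.C))) (β / (F + 1)), by positivity,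
    3 * M.J + 4 + (5 * L + 1), ?_⟩
  intro N Q _ _ _ _ _ _ _ _ d p hF hpω hpε hpδ hpq Y K hround hadm hK
  have hε := hF.ε_pos
  have hδ := hF.δ_pos
  have hι_ge : p.ε ≤ b / L := hpε.trans (min_le_right _ _)
  have hHε : H * p.ε ≤ ζ := by
    have h := hpε.trans (min_le_left _ _)
    rw [le_div_iff₀ hH0] at h
    linarith
  have hx1 : 0 ≤ T0 * p.ε := by positivity
  have hx2 : 0 ≤ B * T0 * p.ε := by positivity
  have hx3 : 0 ≤ E0 * p.ε := by positivity
  have hx4 : 0 ≤ E0 / Dn * p.ε := by positivity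
  have hHe : H * p.ε = 32 * p.ε + T0 * p.ε + B * T0 * p.ε + E0 * p.ε + E0 / Dn * p.ε := by
    rw [hH]; ring
  rw [hHe] at hHε
  have hζm : ζ ≤ m / 16 := by
    have : ζ ≤ M.κ * ζ := by nlinarith
    linarith
  have hJCδ : 8 * (((M.J : ℝ) + 2) * M.C * p.δ) ≤ 1 := by
    have h := hpδ.trans (min_le_left _ _)
    rw [le_div_iff₀ (by positivity)] at h
    linarith
  have hFδ : F * p.δ ≤ β := by
    have h := hpδ.trans (min_le_right _ _)
    rw [le_div_iff₀ (by positivity)] at h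
    have h2 : p.δ * (F + 1) = F * p.δ + p.δ := by ring
    linarith
  have hs : Small M p m := by
    refine ⟨hm0, hm1, hsep, by rw [hpω]; exact hω, by rw [hpω]; linarith, by linarith, ?_, by omega⟩
    have : (0:ℝ) ≤ ((M.J : ℝ) + 2) * M.C * p.δ := by positivity
    linarith
  obtain ⟨t, ht⟩ : ∃ t : ℝ, t = 8 * M.κ * p.ε / M.c0 := ⟨_, rfl⟩
  have ht0 : 0 ≤ t := by rw [ht]; positivity
  have hte : t + 12 * p.ε = T0 * p.ε := by rw [ht, hT0]; ring
  have herr : err M p B t = E0 * p.ε := by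
    rw [err, hte, hE0]; ring
  have hBte : B * (t + 12 * p.ε) = B * T0 * p.ε := by rw [hte]; ring
  have hl : Lev M d p Y b (b / L) L := ⟨hround, hLpos, hLb, hι_ge, hadm⟩
  have hn : Num M p m B t (b / L) L := by
    refine ⟨hB1, hB, ht0, ?_, ?_, ?_, hι0, by omega, ?_, ?_, ?_, ?_⟩
    · linarith
    · rw [ht]; field_simp; exact le_rfl
    · rw [hpω]; linarith
    · rw [hpω, hLb]; linarith
    · rw [hpω, hBte, hLb]; linarith
    · rw [hpω, hBte]; linarith
    · rw [hpω, hBte, hLb]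
      have h1 : M.κ * (B * T0 * p.ε + b + M.κ * (b / L)) ≤ M.κ * (ζ + b + ζ) :=
        mul_le_mul_of_nonneg_left (by linarith) hκ0.le
      have h2 : M.κ * (ζ + b + ζ) = M.κ * ζ + M.κ * b + M.κ * ζ := by ring
      linarith
  have hn' : Num' M p B B₂ t (b / L) b g Dm (2 * ζ) η := by
    refine ⟨hB₂, hg, fun w => hw1 w (Finset.mem_univ _), ?_, ?_, by linarith, ?_⟩
    · rw [herr, hBte]
      have h1 : Dm * (B * T0 * p.ε + M.κ * (b / L)) ≤ Dm * (ζ + ζ) :=
        mul_le_mul_of_nonneg_left (by linarith) hDm0.le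
      have h2 : 0 < g * b := by positivity
      have h3 : Dm * (ζ + ζ) + ζ = (2 * Dm + 1) * ζ := by ring
      linarith
    · intro w
      rw [herr]
      have h1 : E0 * p.ε / M.D w ≤ E0 * p.ε / Dn :=
        div_le_div_of_nonneg_left hx3 hDn0 (hw2 w (Finset.mem_univ _))
      have h2 : E0 * p.ε / Dn = E0 / Dn * p.ε := by ring
      linarith
    · rw [hBte]
      have h1 : M.κ * (2 * ζ + B * T0 * p.ε) ≤ M.κ * (3 * ζ) :=
        mul_le_mul_of_nonneg_left (by linarith) hκ0.le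
      have h2 : B₂ * (2 * ζ + M.κ * (2 * ζ + B * T0 * p.ε) + 11 * p.ε) ≤
          B₂ * (2 * ζ + M.κ * (3 * ζ) + ζ) :=
        mul_le_mul_of_nonneg_left (by linarith) hB₂0
      have h3 : B₂ * (2 * ζ + M.κ * (3 * ζ) + ζ) + ζ = (B₂ * (3 + 3 * M.κ) + 1) * ζ := by ring
      linarith
  have h1 := fine_few hF hs hl hK
  refine le_trans (measure_mono ?_) (h1.trans ?_)
  · rintro n ⟨hnK, w, σ, σ', θ, θ', h, h', hne⟩
    refine ⟨hnK, fun hf => hne ?_⟩
    refine Fine.laws hF hs hl hK hJCδ hn hn' hnK hf w h ?_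
    have : lev Y w (b / L) L = Function.update Y w (Y w + b) := by rw [lev, hLb]
    rw [this]; exact h'
  · gcongr
    rw [hFF] at hFδ
    linarith

end Crest.Agent.R182.El
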