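/-
R182, module ELINST (helper468): `El.KFacts` for the set `K = NB (fm (Y + b)) (A2 e^{-l0 (b - τ') S})`.
-/
import Mathlib
import Crest.Agent.R182.ElA
import Crest.Agent.R182.ElV
import Crest.Agent.R182.BoxKCore

set_option autoImplicit false
set_option linter.unusedSectionVars false

open MeasureTheory Set
open scoped Pointwise RealInnerProductSpace ENNReal

namespace Crest.Agent.R182.ElI

open Crest.GroupTheory Crest.Geometry Crest.Agent.R182.QI Crest.Agent.R182.Core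
  Crest.Agent.R182.Nb Crest.Agent.R182.Gen

variable {Γ : Type*} [Group Γ] {k : ℕ} {S : Set Γ} {π : Γ →* Multiplicative (Fin k → ℤ)}
variable {M : BModel S π}

section leg

variable {E : Type*} [NormedAddCommGroup E] [InnerProductSpace ℝ E]

/-- the legs: heights and growth of the adjoint action, up to `e^{δ S}` -/
def LegOK (G : Geo M E) (δ Sc τ : ℝ) (u : G.R → M.G) : Prop :=
  ∀ r : G.R, ∀ n : ℕ, n * τ ≤ 2 → leg u τ r (n * τ) ∈ M.C ∧
    ‖G.T (M.h (leg u τ r (n * τ))) - (n * τ * Sc) • (r : E)‖ ≤ δ * Sc ∧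
    BoxVol.Grow M (M.Ad (leg u τ r (n * τ)) : M.L →ₗ[ℝ] M.L) (Real.exp (δ * Sc))
      (M.h (leg u τ r (n * τ))) ∧
    BoxVol.Grow M (M.Ad (leg u τ r (n * τ))⁻¹ : M.L →ₗ[ℝ] M.L) (Real.exp (δ * Sc))
      (M.h (leg u τ r (n * τ))⁻¹)

theorem Grow.mono {T : M.L →ₗ[ℝ] M.L} {Λ Λ' : ℝ} {v : Fin k → ℝ} (h : BoxVol.Grow M T Λ v)
    (hΛ : Λ ≤ Λ') : BoxVol.Grow M T Λ' v := fun i j =>
  ⟨(h i j).1.trans (mul_le_mul_of_nonneg_right hΛ (Real.exp_pos _).le), (h i j).2⟩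

theorem ev_legOK (G : Geo M E) {δ : ℝ} (hδ : 0 < δ) (RC Cb : ℝ) :
    Ev G RC Cb fun Sc τ u => LegOK G δ Sc τ u := by
  obtain ⟨A, hA, h⟩ := BoxVol.exists_grow_Ad M RC
  refine ⟨1, one_pos, fun τ hτ _ => ?_⟩
  obtain ⟨S0, hS0, h1⟩ := exists_poly_le A (2 * |Cb|) M.d hδ
  refine ⟨δ / 2, by positivity, S0, fun Sc hSc un r n hn => ?_⟩
  have hSc0 : 0 < Sc := by linarith
  have hlen : ((un.wl r (num τ (n * τ))).length : ℝ) ≤ 2 * |Cb| * Sc := by
    refine (un.wl_len_leg r hτ hSc0 (by positivity)).trans ?_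
    calc Cb * (n * τ) * Sc ≤ |Cb| * (n * τ) * Sc := by
          gcongr
          exact le_abs_self _
      _ ≤ |Cb| * 2 * Sc := by gcongr
      _ = _ := by ring
  have hpoly : A * (1 + ((un.wl r (num τ (n * τ))).length : ℝ)) ^ M.d ≤ Real.exp (δ * Sc) := by
    refine le_trans ?_ (h1 Sc hSc)
    gcongr
  refine ⟨un.leg_mem_C r _, ?_, ?_, ?_⟩
  · refine (un.height_leg' r hτ n).trans ?_
    calc δ / 2 * (n * τ) * Sc ≤ δ / 2 * 2 * Sc := by gcongr
      _ = δ * Sc := by ring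
  · have h2 := h (un.wl r (num τ (n * τ))) (un.wl_mem r _)
    rw [un.wl_prod_leg] at h2
    exact Grow.mono h2 hpoly
  · set l := ((un.wl r (num τ (n * τ))).map fun x => x⁻¹).reverse with hl
    have h2 := h l (by
      intro s hs
      rw [hl, List.mem_reverse, List.mem_map] at hs
      obtain ⟨x, hx, rfl⟩ := hs
      have := un.wl_mem r _ x hx
      exact ⟨M.C.inv_mem this.1, by rw [M.isLen.inv]; exact this.2⟩)
    have e1 : l.prod = (leg un.u τ r (n * τ))⁻¹ := by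
      rw [← un.wl_prod_leg, List.prod_inv_reverse]
    have e2 : l.length = (un.wl r (num τ (n * τ))).length := by
      rw [hl, List.length_reverse, List.length_map]
    rw [e1, e2] at h2
    exact Grow.mono h2 hpoly

/-- **near-roundness** at the end of a leg -/
theorem nearRound_of (G : Geo M E) {γ : ℝ} (hγ : Gap G γ) {l0 l1 : ℝ} (hl0 : 0 < l0)
    (hl : ∀ i, l0 ≤ G.RS.lam i ∧ G.RS.lam i ≤ l1) {ω δ Sc : ℝ} (hSc : 0 ≤ Sc)
    (hω : (1 + (M.c : ℝ)) * l1 * (16 * ω) ≤ γ * l0) (hδ : (1 + (M.c : ℝ)) * l1 * (16 * δ) ≤ γ * l0)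
    (hω1 : ω ≤ 1 / 16) (hδ0 : 0 ≤ δ) {Z : G.R → ℝ}
    (hZ : ∀ r, |Z r - 1| ≤ ω) (w : G.R) {v : Fin k → ℝ}
    (hv : ‖G.T v - (Z w * Sc) • (w : E)‖ ≤ δ * Sc) :
    BoxVol.NearRound M (fun i => G.ray i = w) (sd G Sc Z) v (γ * l0 / 2 * Sc) := by
  intro κ κ' hne hκ hlen hlen' hκ' hsum
  have hω0 : 0 ≤ ω := (abs_nonneg _).trans (hZ w)
  have hl1 : 0 < l1 := by
    have hex : ∃ i : GI M, i ∈ κ := List.exists_mem_of_ne_nil κ hne
    obtain ⟨i, _⟩ := hex
    linarith [(hl i).1, (hl i).2]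
  set Λ : ℝ := (κ.map G.RS.lam).sum with hΛ
  -- the height of the pure word
  have h1 : (κ.map (wg M)).sum v = Λ * ⟪(w : E), G.T v⟫ := sum_wg_ray G w κ hκ v
  have h2 : ⟪(w : E), G.T v⟫ ≤ (Z w + δ) * Sc := by
    have e1 : ⟪(w : E), G.T v⟫ = ⟪(w : E), G.T v - (Z w * Sc) • (w : E)⟫ + Z w * Sc := by
      rw [inner_sub_right, inner_smul_right, real_inner_self_eq_norm_sq, G.norm_ray]; ring
    have e2 : ⟪(w : E), G.T v - (Z w * Sc) • (w : E)⟫ ≤ δ * Sc := by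
      refine (real_inner_le_norm _ _).trans ?_
      rw [G.norm_ray, one_mul]; exact hv
    rw [e1]; linarith
  have hΛ0 : 0 ≤ Λ := List.sum_nonneg fun x hx => by
    obtain ⟨j, _, rfl⟩ := List.mem_map.1 hx
    exact G.RS.lam_nonneg j
  have hΛc : Λ ≤ M.c * l1 := by
    have aux : ∀ κ : List (GI M), (κ.map G.RS.lam).sum ≤ κ.length * l1 := by
      intro κ
      induction κ with
      | nil => simp
      | cons i κ ih =>
        rw [List.map_cons, List.sum_cons, List.length_cons]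
        push_cast
        linarith [(hl i).2]
    refine (aux κ).trans ?_
    gcongr
  -- comparison with the mixed word
  have h3 : Λ = (κ'.map fun i => G.RS.lam i * ⟪(G.ray i : E), (w : E)⟫).sum := by
    have e1 := LinearMap.congr_fun hsum (G.T.symm (w : E))
    rw [sum_wg_ray G w κ hκ, LinearEquiv.apply_symm_apply, real_inner_self_eq_norm_sq,
      G.norm_ray, one_pow, mul_one] at e1
    rw [hΛ, e1, M.sum_wt_apply]
    congr 1
    refine List.map_congr_left fun i _ => ?_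
    rw [G.wg_ray, LinearEquiv.apply_symm_apply]
  have hin : ∀ i : GI M, ⟪(G.ray i : E), (w : E)⟫ ≤ 1 := fun i => by
    refine (real_inner_le_norm _ _).trans ?_
    rw [G.norm_ray, G.norm_ray, one_mul]
  have h4 : Λ + γ * l0 ≤ (κ'.map G.RS.lam).sum := by
    rw [h3]
    clear h3 hsum hlen'
    induction κ' with
    | nil => exact absurd (by simp) hκ'
    | cons i κ' ih =>
      rw [List.map_cons, List.sum_cons, List.map_cons, List.sum_cons]
      have h5 : ∀ κ' : List (GI M), (κ'.map fun i => G.RS.lam i * ⟪(G.ray i : E), (w : E)⟫).sum ≤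
          (κ'.map G.RS.lam).sum := by
        intro κ'
        refine List.sum_le_sum fun j _ => ?_
        have := hin j
        nlinarith [G.lam_pos j]
      by_cases hi : G.ray i = w
      · have h6 := ih fun h => hκ' (List.forall_mem_cons.2 ⟨hi, h⟩)
        have h7 : G.RS.lam i * ⟪(G.ray i : E), (w : E)⟫ ≤ G.RS.lam i := by
          have := hin i
          nlinarith [G.lam_pos i]
        linarith
      · have h6 := h5 κ'
        have h7 := hγ.2.2 (G.ray i) w hi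
        have h8 : G.RS.lam i * ⟪(G.ray i : E), (w : E)⟫ + γ * l0 ≤ G.RS.lam i := by
          have h9 := mul_le_mul_of_nonneg_left h7 (G.lam_pos i).le
          have h10 := mul_le_mul_of_nonneg_left (hl i).1 hγ.1.le
          linarith
        linarith
  have h5 : (1 - ω) * Sc * (κ'.map G.RS.lam).sum ≤ (κ'.map (sd G Sc Z)).sum := by
    rw [← List.sum_map_mul_left]
    refine List.sum_le_sum fun j _ => ?_
    unfold sd
    have h6 := (abs_le.1 (hZ (G.ray j))).1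
    have h7 : 0 ≤ Sc * G.RS.lam j := mul_nonneg hSc (G.lam_pos j).le
    nlinarith
  rw [h1]
  have hZw := (abs_le.1 (hZ w)).2
  have h6 : Λ * ⟪(w : E), G.T v⟫ ≤ Λ * ((1 + ω + δ) * Sc) := by
    refine mul_le_mul_of_nonneg_left (h2.trans ?_) hΛ0
    gcongr
    linarith
  have h7 : (1 - ω) * Sc * (Λ + γ * l0) ≤ (1 - ω) * Sc * (κ'.map G.RS.lam).sum := by
    have : 0 ≤ (1 - ω) * Sc := mul_nonneg (by linarith) hSc
    gcongr
  have h8 : Λ * (2 * ω + δ) ≤ 3 / 16 * (γ * l0) := by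
    have hc0 : (0:ℝ) ≤ M.c := Nat.cast_nonneg _
    have e1 : Λ ≤ (1 + (M.c : ℝ)) * l1 := by nlinarith
    have e2 : Λ * (2 * ω + δ) ≤ (1 + (M.c : ℝ)) * l1 * (2 * ω + δ) := by gcongr
    linarith
  have h9 : ω * (γ * l0) ≤ 1 / 16 * (γ * l0) := by
    have := hγ.1
    gcongr
  have h10 : 0 ≤ γ * l0 := by
    have := hγ.1
    positivity
  have h11 : Λ * (1 + ω + δ) + γ * l0 / 2 ≤ (1 - ω) * (Λ + γ * l0) := by nlinarith
  have h12 := mul_le_mul_of_nonneg_right h11 hSc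
  linarith

end leg

/-- pure relations are as small as one wants in near-round boxes -/
theorem exists_nr_small (M : BModel S π) (w : GI M → Prop) [DecidablePred w] (A₁ : ℝ)
    (hA₁ : 0 ≤ A₁) : ∃ C : ℝ, 1 ≤ C ∧ ∀ (fam : GI M → M.L) (Y : GI M → ℝ) (Λ : ℝ), 1 ≤ Λ →
      (∀ i, Real.exp (Y i) • eg M i ∈ Bx M.c fam Λ) →
      ∀ (T : M.L →ₗ[ℝ] M.L) (Λ' : ℝ) (v : Fin k → ℝ), BoxVol.IsLie T → 1 ≤ Λ' →
      BoxVol.Grow M T Λ' v → ∀ μ : ℝ, 0 ≤ μ →
      BoxVol.NearRound M w Y v (Real.log (C * Λ ^ M.c * Λ') + M.c * (M.c * μ)) →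
      ∀ x ∈ BoxVol.Mw M w, x ∈ Bx M.c (rst (fun i => T (eg M i)) w) A₁ →
        x ∈ Bx M.c fam (Real.exp (-μ)) := by
  obtain ⟨C, hC, h⟩ := BoxVol.exists_nearRound M w A₁ hA₁
  refine ⟨C, hC, ?_⟩
  intro fam Y Λ hΛ hfam T Λ' v hT hΛ' hG μ hμ hNR x hxM hx
  have he0 : 0 < Real.exp (-μ) := Real.exp_pos _
  have he1 : Real.exp (-μ) ≤ 1 := Real.exp_le_one_iff.2 (by linarith)
  have hμc : 0 ≤ (M.c : ℝ) * μ := by positivity
  have h1 := h (fun i => Real.exp (-μ) • fam i) Y (Λ * Real.exp (M.c * μ))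
    (by
      have : 1 ≤ Real.exp (M.c * μ) := Real.one_le_exp hμc
      nlinarith)
    (fun i => by
      refine Bx_small_fam he0 he1 (by positivity) ?_
      refine Bx_mono (le_of_eq ?_) (hfam i)
      rw [← Real.exp_nat_mul, mul_left_comm, ← Real.exp_add]
      have : (M.c : ℝ) * -μ + M.c * μ = 0 := by ring
      rw [this, Real.exp_zero, mul_one])
    T Λ' v hT hΛ' hG (by
      have e1 : Real.log (C * (Λ * Real.exp (M.c * μ)) ^ M.c * Λ') =
          Real.log (C * Λ ^ M.c * Λ') + M.c * (M.c * μ) := by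
        have e2 : C * (Λ * Real.exp (M.c * μ)) ^ M.c * Λ' =
            (C * Λ ^ M.c * Λ') * Real.exp (M.c * (M.c * μ)) := by
          rw [mul_pow, ← Real.exp_nat_mul]; ring
        rw [e2, Real.log_mul (by positivity) (Real.exp_pos _).ne', Real.log_exp]
      rw [e1]
      exact hNR) x hxM hx
  have h2 := Bx_of_small_fam he0 he1 zero_le_one h1
  rwa [mul_one] at h2

section dom

variable {E : Type*} [NormedAddCommGroup E] [InnerProductSpace ℝ E]

/-- boxes of near-round shapes lie in the domain -/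
theorem exists_dom (G : Geo M E) {l1 : ℝ} (hl1 : 1 ≤ l1) (hl : ∀ i, G.RS.lam i ≤ l1) (Ad : ℝ)
    (hAd : 0 ≤ Ad) : ∃ S0 : ℝ, 1 ≤ S0 ∧ ∀ Sc, S0 ≤ Sc → ∀ (u : G.R → M.G) (τ : ℝ) (Z : G.R → ℝ),
      (∀ r, 0 ≤ Z r) → (∀ r, Z r ≤ 2) →
      (∀ i, fm G u τ Z i ∈ Bx M.c (gZ (eg M) (sd G Sc Z)) (Real.exp (1 * Sc))) →
      M.NB (fm G u τ Z) Ad ⊆ {n | ‖n‖ ≤ Real.exp ((M.c * (2 * l1) + M.c + 1) * Sc)} := by
  classical
  set B : ℝ := ∑ κ ∈ KL (GI M) M.c, ∑ j, |M.bas.repr (mon (eg M) κ) j| with hB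
  have hB0 : 0 ≤ B := by positivity
  set D : ℝ := (KL (GI M) M.c).card * brC (GI M) M.c ^ M.c with hD
  have hbr := brC_pos (GI M) M.c
  have hD0 : 0 ≤ D := by positivity
  obtain ⟨S0, hS0, h⟩ := exists_poly_le (Ad * D * B) 0 0 one_pos
  refine ⟨S0, hS0, fun Sc hSc u τ Z hZ0 hZ2 hfm n hn => ?_⟩
  have hSc0 : 0 ≤ Sc := by linarith
  have h1 := h Sc hSc
  rw [pow_zero, mul_one] at h1
  have h2 := Bx_comp_poly (M.nilC.nil (gZ (eg M) (sd G Sc Z)))
    (Real.one_le_exp (by linarith : 0 ≤ 1 * Sc)) hfm (show M.E n ∈ Bx M.c (fm G u τ Z) Ad from hn)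
  refine (pi_norm_le_iff_of_nonneg (x := (n : Fin M.r → ℝ)) (Real.exp_pos _).le).2 fun i => ?_
  have hrep : |M.bas.repr (M.E n) i| ≤ Real.exp ((M.c * (2 * l1) + M.c + 1) * Sc) → 
      ‖(n : Fin M.r → ℝ) i‖ ≤ Real.exp ((M.c * (2 * l1) + M.c + 1) * Sc) := by
    rw [M.repr_E n i]; exact id
  refine hrep ?_
  obtain ⟨a, ha, hx⟩ := h2
  rw [hx, map_sum, Finsupp.finsetSum_apply]
  refine (Finset.abs_sum_le_sum_abs _ _).trans ?_
  have h3 : ∀ κ ∈ KL (GI M) M.c, |M.bas.repr (a κ • mon (gZ (eg M) (sd G Sc Z)) κ) i| ≤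
      (∑ j, |M.bas.repr (mon (eg M) κ) j|) *
        (Ad * (D * Real.exp (1 * Sc) ^ M.c) * Real.exp (M.c * (2 * l1) * Sc)) := by
    intro κ hκ
    rw [mem_KL] at hκ
    rw [mon_gZ, map_smul, map_smul, Finsupp.smul_apply, Finsupp.smul_apply, smul_eq_mul,
      smul_eq_mul, abs_mul, abs_mul, abs_of_pos (Real.exp_pos _)]
    have h4 : (κ.map (sd G Sc Z)).sum ≤ M.c * (2 * l1) * Sc := by
      have h5 : ∀ κ : List (GI M), (κ.map (sd G Sc Z)).sum ≤ κ.length * (2 * l1 * Sc) := by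
        intro κ
        induction κ with
        | nil => simp
        | cons j κ ih =>
          rw [List.map_cons, List.sum_cons, List.length_cons]
          push_cast
          have h6 : sd G Sc Z j ≤ 2 * l1 * Sc := by
            unfold sd
            have h7 : G.RS.lam j * Z (G.ray j) ≤ l1 * 2 :=
              mul_le_mul (hl j) (hZ2 _) (hZ0 _) (by linarith)
            nlinarith
          linarith
      refine (h5 κ).trans ?_
      have : (κ.length : ℝ) ≤ M.c := by exact_mod_cast hκ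
      have h8 : 0 ≤ 2 * l1 * Sc := by positivity
      nlinarith
    have h5 : |M.bas.repr (mon (eg M) κ) i| ≤ ∑ j, |M.bas.repr (mon (eg M) κ) j| :=
      Finset.single_le_sum (f := fun j => |M.bas.repr (mon (eg M) κ) j|)
        (fun _ _ => abs_nonneg _) (Finset.mem_univ i)
    have h6 := ha κ
    have h7 : 0 ≤ Ad * (D * Real.exp (1 * Sc) ^ M.c) := (abs_nonneg _).trans h6
    calc |a κ| * (Real.exp ((κ.map (sd G Sc Z)).sum) * |M.bas.repr (mon (eg M) κ) i|)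
        ≤ (Ad * (D * Real.exp (1 * Sc) ^ M.c)) * (Real.exp (M.c * (2 * l1) * Sc) *
          ∑ j, |M.bas.repr (mon (eg M) κ) j|) := by
          refine mul_le_mul h6 ?_ (by positivity) h7
          exact mul_le_mul (Real.exp_le_exp.2 h4) h5 (abs_nonneg _) (Real.exp_pos _).le
      _ = _ := by ring
  refine (Finset.sum_le_sum h3).trans ?_
  rw [← Finset.sum_mul, ← hB]
  calc B * (Ad * (D * Real.exp (1 * Sc) ^ M.c) * Real.exp (M.c * (2 * l1) * Sc))
      = (Ad * D * B) * Real.exp (M.c * Sc) * Real.exp (M.c * (2 * l1) * Sc) := by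
        rw [← Real.exp_nat_mul, one_mul]; ring
    _ ≤ Real.exp (1 * Sc) * Real.exp (M.c * Sc) * Real.exp (M.c * (2 * l1) * Sc) := by gcongr
    _ = _ := by rw [← Real.exp_add, ← Real.exp_add]; congr 1; ring

end dom

theorem exists_KYY (M : BModel S π) (σ : Type*) [Fintype σ] (A2 : ℝ) (hA2 : 1 ≤ A2) :
    ∃ Ad : ℝ, 0 ≤ Ad ∧ ∀ (g gY : σ → M.L) (e : ℝ), 0 < e → e ≤ 1 → (∀ i, gY i ∈ Bx M.c g e) →
      M.NB g (A2 * e) * M.NB gY 1 * M.NB gY 1 ⊆ M.NB g Ad := by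
  obtain ⟨a₁, ha₁, h₁⟩ := exists_Bx_small M.c σ σ
  obtain ⟨B₀, H₀⟩ := M.star.exists_famConst M.c σ (A2 + a₁) (by linarith)
  have hB₀ := H₀.one_le
  set a₂ : ℝ := B₀ * (A2 + a₁) with ha₂
  have ha₂1 : 1 ≤ a₂ := by nlinarith
  obtain ⟨B₂, H₂⟩ := M.star.exists_famConst M.c σ (a₂ + a₁) (by linarith)
  have hB₂ := H₂.one_le
  refine ⟨B₂ * (a₂ + a₁), by positivity, ?_⟩
  intro g gY e he he1 hgY
  have hYg : M.NB gY 1 ⊆ M.NB g a₁ := by
    intro x hx
    have := h₁ g gY (M.nilC.nil g) e he.le he1 hgY 1 zero_le_one hx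
    refine BModel.NB_mono ?_ this
    nlinarith
  have hKY : M.NB g (A2 * e) * M.NB gY 1 ⊆ M.NB g a₂ := by
    refine (Set.mul_subset_mul_left hYg).trans ((BoxVol.NB_mul_subset H₀ g (by positivity)
      (by nlinarith) (by linarith) (by linarith)).trans (BModel.NB_mono ?_))
    rw [ha₂]
    refine mul_le_mul_of_nonneg_left (max_le ?_ ?_) (by linarith)
    · nlinarith
    · linarith
  refine (Set.mul_subset_mul hKY hYg).trans ((BoxVol.NB_mul_subset H₂ g (by linarith)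
    (by linarith) (by linarith) (by linarith)).trans (BModel.NB_mono ?_))
  refine mul_le_mul_of_nonneg_left (max_le ?_ ?_) (by linarith)
  · linarith
  · linarith

section main

variable {E : Type} [NormedAddCommGroup E] [InnerProductSpace ℝ E]

theorem leg_split {G : Geo M E} (u : G.R → M.G) {τ : ℝ} (hτ : 0 < τ) (w : G.R) {m n : ℕ}
    (h : m ≤ n) : leg u τ w (m * τ) = leg u τ w (n * τ) * (leg u τ w ((n - m : ℕ) * τ))⁻¹ := by
  unfold leg
  rw [num_mul hτ, num_mul hτ, num_mul hτ, eq_mul_inv_iff_mul_eq, ← pow_add,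
    Nat.add_sub_cancel' h]

theorem Mw_Ad (G : Geo M E) (w : G.R) (R : BoxVol.RayQ M fun i => G.ray i = w) {g : M.G}
    (hg : g ∈ M.C) : ∀ x ∈ BoxVol.Mw M (fun i => G.ray i = w),
      (M.Ad g : M.L →ₗ[ℝ] M.L) x ∈ BoxVol.Mw M fun i => G.ray i = w := by
  classical
  intro x hx
  rw [← R.ker] at hx ⊢
  exact BoxVol.RayQ.pres_Ad R (isRay G w) hg x hx

/-- **letters of the moves**: pure part and small mixed part. -/
theorem pk_of (G : Geo M E) {γ : ℝ} (hγ : Gap G γ) {l0 l1 : ℝ} (hl0 : 0 < l0)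
    (hl : ∀ i, l0 ≤ G.RS.lam i ∧ G.RS.lam i ≤ l1) (w : G.R)
    [DecidablePred fun i : GI M => G.ray i = w]
    (R : BoxVol.RayQ M fun i => G.ray i = w) {C₁ : ℝ} (hC₁ : 1 ≤ C₁)
    (hPM : ∀ (fam : GI M → M.L) (Y : GI M → ℝ) (Λ : ℝ), 1 ≤ Λ →
      (∀ i, Real.exp (Y i) • eg M i ∈ Bx M.c fam Λ) →
      ∀ (T : M.L →ₗ[ℝ] M.L) (Λ' : ℝ) (v : Fin k → ℝ), BoxVol.IsLie T →
      (∀ x ∈ BoxVol.Mw M (fun i => G.ray i = w), T x ∈ BoxVol.Mw M fun i => G.ray i = w) →
      1 ≤ Λ' → BoxVol.Grow M T Λ' v → ∀ T₁ : M.L →ₗ[ℝ] M.L, ∀ μ : ℝ,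
      BoxVol.NearRound M (fun i => G.ray i = w) Y v (Real.log (C₁ * Λ ^ M.c * Λ') + μ) →
      ∀ i, G.ray i = w → (∀ j, |M.bas.repr (T₁ (eg M i)) j| ≤ 1 ∧
        (M.bas.repr (T₁ (eg M i)) j ≠ 0 → M.wt j = wg M i)) →
      ∃ p ∈ Bx M.c (rst (fun i => T (eg M i)) fun i => G.ray i = w) C₁,
        ∃ x ∈ Bx M.c fam (Real.exp (-μ)), T (T₁ (eg M i)) = p + x)
    {ω δ Sc τ ε μ : ℝ} (hSc : 0 < Sc) (hτ : 0 < τ)
    (hω : (1 + (M.c : ℝ)) * l1 * (16 * ω) ≤ γ * l0) (hδ : (1 + (M.c : ℝ)) * l1 * (16 * δ) ≤ γ * l0)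
    (hω1 : ω ≤ 1 / 16) (hδ0 : 0 < δ) (hδε : δ ≤ l0 * ε / 4) (hδε' : δ ≤ ε / 2) (hε : 0 < ε)
    {u : G.R → M.G} (hleg : LegOK G δ Sc τ u) {Z : G.R → ℝ} (hZ : adm τ ω Z)
    (hZ2 : ∀ r, Z r ≤ 2)
    (hg2 : ∀ i, gZ (eg M) (sd G Sc Z) i ∈ Bx M.c (fm G u τ Z) (Real.exp (δ * Sc)))
    (hμ : Real.log (C₁ * Real.exp (δ * Sc) ^ M.c * Real.exp (δ * Sc)) + μ ≤ γ * l0 / 2 * Sc)
    {m : ℕ} (hm : m * τ = Z w ∨ m * τ + ε ≤ Z w) :
    ∀ i, G.ray i = w → ∃ p ∈ Bx M.c (rst (fm G u τ Z) fun i => G.ray i = w) C₁,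
      ∃ x ∈ Bx M.c (fm G u τ Z) (Real.exp (-μ)),
        (M.Ad (leg u τ w (m * τ)) : M.L →ₗ[ℝ] M.L) (eg M i) = p + x := by
  intro i hi
  obtain ⟨⟨n, hn⟩, hNR⟩ := hZ
  have hmn : m ≤ n w := by
    have : (m : ℝ) * τ ≤ n w * τ := by
      rw [← hn]
      rcases hm with h | h
      · exact h.le
      · linarith
    exact_mod_cast le_of_mul_le_mul_right this hτ
  have hnw := hleg w (n w) (by rw [← hn]; exact hZ2 w)
  obtain ⟨hC, hht, hG, -⟩ := hnw
  have hgeq : rst (fun i => (M.Ad (leg u τ w (Z w)) : M.L →ₗ[ℝ] M.L) (eg M i))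
      (fun i => G.ray i = w) = rst (fm G u τ Z) fun i => G.ray i = w :=
    rst_congr' fun j hj => (fm_w u Z w j hj).symm
  have hge1 : 1 ≤ Real.exp (δ * Sc) := Real.one_le_exp (by positivity)
  have key := hPM (fm G u τ Z) (sd G Sc Z) (Real.exp (δ * Sc)) hge1 (fun j => hg2 j)
    (M.Ad (leg u τ w (Z w)) : M.L →ₗ[ℝ] M.L) (Real.exp (δ * Sc)) (M.h (leg u τ w (Z w)))
    (BoxVol.RayQ.isLie_Ad _) (Mw_Ad G w R (by rw [hn]; exact hC)) hge1 (by rw [hn]; exact hG)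
    (M.Ad (leg u τ w ((n w - m : ℕ) * τ))⁻¹ : M.L →ₗ[ℝ] M.L) μ
    (by
      have h1 := nearRound_of G hγ hl0 hl hSc.le hω hδ hω1 hδ0.le hNR w
        (v := M.h (leg u τ w (Z w))) (by
          have := hht
          rw [← hn] at this
          exact this)
      intro κ κ' k1 k2 k3 k4 k5 k6
      exact le_trans (by linarith) (h1 κ κ' k1 k2 k3 k4 k5 k6))
    i hi ?_
  · rw [hgeq] at key
    have hsplit : (M.Ad (leg u τ w (m * τ)) : M.L →ₗ[ℝ] M.L) (eg M i) =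
        (M.Ad (leg u τ w (Z w)) : M.L →ₗ[ℝ] M.L)
          ((M.Ad (leg u τ w ((n w - m : ℕ) * τ))⁻¹ : M.L →ₗ[ℝ] M.L) (eg M i)) := by
      rw [hn w, leg_split u hτ w hmn]
      change M.Ad (_ * _) (eg M i) = M.Ad _ (M.Ad _ (eg M i))
      rw [map_mul]; rfl
    rw [hsplit]
    exact key
  · -- the contracting vertical
    intro j
    rcases hm with hm | hm
    · have hmn' : n w - m = 0 := by
        have : (m : ℝ) * τ = n w * τ := by rw [← hn]; exact hm
        have := mul_right_cancel₀ hτ.ne' this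
        have : m = n w := by exact_mod_cast this
        omega
      rw [hmn', Nat.cast_zero, zero_mul, leg_zero, inv_one, map_one]
      change |M.bas.repr (eg M i) j| ≤ 1 ∧ (M.bas.repr (eg M i) j ≠ 0 → _)
      rw [eg, M.bas.repr_self, Finsupp.single_apply]
      split_ifs with h
      · refine ⟨by rw [abs_one], fun _ => ?_⟩
        rw [← h]; rfl
      · exact ⟨by rw [abs_zero]; exact zero_le_one, fun h => absurd rfl h⟩
    · have hsub : ((n w - m : ℕ) : ℝ) * τ = Z w - m * τ := by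
        rw [Nat.cast_sub hmn, sub_mul, hn]
      have h2 : ((n w - m : ℕ) : ℝ) * τ ≤ 2 := by
        rw [hsub]
        have : 0 ≤ (m : ℝ) * τ := by positivity
        linarith [hZ2 w]
      obtain ⟨hC', hht', -, hG'⟩ := hleg w (n w - m) h2
      have h3 := hG' j i
      refine ⟨?_, fun h => h3.2 h⟩
      by_cases h0 : M.bas.repr ((M.Ad (leg u τ w ((n w - m : ℕ) * τ))⁻¹ : M.L →ₗ[ℝ] M.L)
          (eg M i)) j = 0
      · rw [h0, abs_zero]; exact zero_le_one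
      · refine h3.1.trans ?_
        rw [← Real.exp_add]
        refine Real.exp_le_one_iff.2 ?_
        have hwt : M.wt j = M.wt i := h3.2 h0
        rw [hwt, M.h_inv, map_neg]
        have h4 : wg M i (M.h (leg u τ w ((n w - m : ℕ) * τ))) =
            G.RS.lam i * ⟪(w : E), G.T (M.h (leg u τ w ((n w - m : ℕ) * τ)))⟫ := by
          rw [G.wg_ray, hi]
        have h5 : ((n w - m : ℕ) * τ) * Sc - δ * Sc ≤
            ⟪(w : E), G.T (M.h (leg u τ w ((n w - m : ℕ) * τ)))⟫ := by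
          have e1 : ⟪(w : E), G.T (M.h (leg u τ w ((n w - m : ℕ) * τ)))⟫ =
              ⟪(w : E), G.T (M.h (leg u τ w ((n w - m : ℕ) * τ))) -
                ((n w - m : ℕ) * τ * Sc) • (w : E)⟫ + (n w - m : ℕ) * τ * Sc := by
            rw [inner_sub_right, inner_smul_right, real_inner_self_eq_norm_sq, G.norm_ray]; ring
          have e2 := (abs_le.1 (abs_real_inner_le_norm (w : E)
            (G.T (M.h (leg u τ w ((n w - m : ℕ) * τ))) -
                ((n w - m : ℕ) * τ * Sc) • (w : E)))).1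
          rw [G.norm_ray, one_mul] at e2
          rw [e1]
          linarith
        have h6 : ε / 2 * Sc ≤ ⟪(w : E), G.T (M.h (leg u τ w ((n w - m : ℕ) * τ)))⟫ := by
          refine le_trans ?_ h5
          rw [hsub, ← sub_mul]
          refine mul_le_mul_of_nonneg_right ?_ hSc.le
          linarith
        have h7 : l0 * (ε / 2 * Sc) ≤ wg M i (M.h (leg u τ w ((n w - m : ℕ) * τ))) := by
          rw [h4]
          exact mul_le_mul (hl i).1 h6 (by positivity) (G.lam_pos i).le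
        have h8 : δ * Sc ≤ l0 * ε / 4 * Sc := by gcongr
        have h9 : 0 ≤ l0 * ε * Sc := by positivity
        change δ * Sc + -(wg M i (M.h (leg u τ w ((n w - m : ℕ) * τ)))) ≤ 0
        linarith

end main

end Crest.Agent.R182.ElI
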