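/-
R182, module ELINST (helper468): `El.KFacts` for the set `K = NB (fm (Y + b)) (A2 e^{-l0 (b - τ') S})`,
final assembly.
-/
import Mathlib
import Crest.Agent.R182.ElK

set_option autoImplicit false
set_option linter.unusedSectionVars false

open MeasureTheory Set
open scoped Pointwise RealInnerProductSpace ENNReal

namespace Crest.Agent.R182.ElI

open Crest.GroupTheory Crest.Geometry Crest.Agent.R182.QI Crest.Agent.R182.Core
  Crest.Agent.R182.Nb Crest.Agent.R182.Gen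

variable {Γ : Type*} [Group Γ] {k : ℕ} {S : Set Γ} {π : Γ →* Multiplicative (Fin k → ℤ)}
variable {M : BModel S π} {E : Type} [NormedAddCommGroup E] [InnerProductSpace ℝ E]

/-- pure relations are small -/
theorem h2_of (G : Geo M E) {γ : ℝ} (hγ : Gap G γ) {l0 l1 : ℝ} (hl0 : 0 < l0)
    (hl : ∀ i, l0 ≤ G.RS.lam i ∧ G.RS.lam i ≤ l1) (w : G.R)
    [DecidablePred fun i : GI M => G.ray i = w]
    (R : BoxVol.RayQ M fun i => G.ray i = w) {Cn A₁ : ℝ}
    (hNS : ∀ (fam : GI M → M.L) (Y : GI M → ℝ) (Λ : ℝ), 1 ≤ Λ →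
      (∀ i, Real.exp (Y i) • eg M i ∈ Bx M.c fam Λ) →
      ∀ (T : M.L →ₗ[ℝ] M.L) (Λ' : ℝ) (v : Fin k → ℝ), BoxVol.IsLie T → 1 ≤ Λ' →
      BoxVol.Grow M T Λ' v → ∀ μ : ℝ, 0 ≤ μ →
      BoxVol.NearRound M (fun i => G.ray i = w) Y v
        (Real.log (Cn * Λ ^ M.c * Λ') + M.c * (M.c * μ)) →
      ∀ x ∈ BoxVol.Mw M (fun i => G.ray i = w),
        x ∈ Bx M.c (rst (fun i => T (eg M i)) fun i => G.ray i = w) A₁ →
        x ∈ Bx M.c fam (Real.exp (-μ)))
    {ω δ Sc τ μ : ℝ} (hSc : 0 < Sc)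
    (hω : (1 + (M.c : ℝ)) * l1 * (16 * ω) ≤ γ * l0) (hδ : (1 + (M.c : ℝ)) * l1 * (16 * δ) ≤ γ * l0)
    (hω1 : ω ≤ 1 / 16) (hδ0 : 0 < δ) (hμ0 : 0 ≤ μ)
    {u : G.R → M.G} (hleg : LegOK G δ Sc τ u) {Z : G.R → ℝ} (hZ : adm τ ω Z)
    (hZ2 : ∀ r, Z r ≤ 2)
    (hg2 : ∀ i, gZ (eg M) (sd G Sc Z) i ∈ Bx M.c (fm G u τ Z) (Real.exp (δ * Sc)))
    (hμ : Real.log (Cn * Real.exp (δ * Sc) ^ M.c * Real.exp (δ * Sc)) + M.c * (M.c * μ) ≤
      γ * l0 / 2 * Sc) :
    ∀ x, R.D.P x = 0 → x ∈ Bx M.c (rst (fm G u τ Z) fun i => G.ray i = w) A₁ →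
      x ∈ Bx M.c (fm G u τ Z) (Real.exp (-μ)) := by
  intro x hx hxA
  obtain ⟨⟨n, hn⟩, hNR⟩ := hZ
  have hnw := hleg w (n w) (by rw [← hn]; exact hZ2 w)
  obtain ⟨hC, hht, hG, -⟩ := hnw
  have hgeq : rst (fun i => (M.Ad (leg u τ w (Z w)) : M.L →ₗ[ℝ] M.L) (eg M i))
      (fun i => G.ray i = w) = rst (fm G u τ Z) fun i => G.ray i = w :=
    rst_congr' fun j hj => (fm_w u Z w j hj).symm
  have hge1 : 1 ≤ Real.exp (δ * Sc) := Real.one_le_exp (by positivity)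
  refine hNS (fm G u τ Z) (sd G Sc Z) (Real.exp (δ * Sc)) hge1 (fun j => hg2 j)
    (M.Ad (leg u τ w (Z w)) : M.L →ₗ[ℝ] M.L) (Real.exp (δ * Sc)) (M.h (leg u τ w (Z w)))
    (BoxVol.RayQ.isLie_Ad _) hge1 (by rw [hn]; exact hG) μ hμ0 ?_ x ((R.ker x).1 hx)
    (by rw [hgeq]; exact hxA)
  have h1 := nearRound_of G hγ hl0 hl hSc.le hω hδ hω1 hδ0.le hNR w
    (v := M.h (leg u τ w (Z w))) (by
      have := hht
      rw [← hn] at this
      exact this)
  intro κ κ' k1 k2 k3 k4 k5 k6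
  exact le_trans (by linarith) (h1 κ κ' k1 k2 k3 k4 k5 k6)

/-- the letters of `Y` are small in the box of `Y + b` -/
theorem tiny_of (G : Geo M E) {γ : ℝ} (hγ : Gap G γ) {l0 : ℝ} (hl0 : 0 < l0)
    (hl : ∀ i, l0 ≤ G.RS.lam i) {ω δ Sc τ b τ' : ℝ} (hSc : 0 < Sc) (hωγ : ω ≤ γ / 16)
    (hb : 0 < b) (hτ' : 0 < τ') (hτb : τ' < b) (hδ : δ ≤ l0 * τ')
    {u : G.R → M.G} {Y : G.R → ℝ} (hY : adm τ ω Y)
    (h5 : ∀ r : G.R, ∀ m : ℕ, m * τ ≤ 2 → ∀ μ, 0 ≤ μ →
        (∀ i, Sc * (G.RS.lam i * (⟪(G.ray i : E), (r : E)⟫ * (m * τ))) + μ + δ * Sc ≤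
          sd G Sc (fun r => Y r + b) i) →
          Sm M (fm G u τ fun r => Y r + b) (Real.exp (-μ)) (leg u τ r (m * τ))) (i : GI M) :
    fm G u τ Y i ∈ Bx M.c (fm G u τ fun r => Y r + b) (Real.exp (-(l0 * (b - τ') * Sc))) := by
  obtain ⟨⟨n, hn⟩, hNR⟩ := hY
  have hω1 : ω ≤ 1 / 16 := by linarith [hγ.2.1]
  have hYb : ∀ r, 1 - ω ≤ Y r ∧ Y r ≤ 1 + ω := fun r => by
    have := abs_le.1 (hNR r)
    constructor <;> linarith [this.1, this.2]
  have hγ0 := hγ.1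
  have hω0 : 0 ≤ ω := (abs_nonneg _).trans (hNR (G.ray i))
  set r := G.ray i with hr
  have hbτ : 0 < b - τ' := by linarith
  have h6 := h5 r (n r) (by rw [← hn]; linarith [(hYb r).2]) (l0 * (b - τ') * Sc) (by positivity)
    ?_ i
  · rw [← hn] at h6
    exact h6
  · intro j
    rw [← hn]
    have hlj := G.lam_pos j
    have key : G.RS.lam j * (⟪(G.ray j : E), (r : E)⟫ * Y r) + l0 * b ≤
        G.RS.lam j * (Y (G.ray j) + b) := by
      have h7 : l0 * b ≤ G.RS.lam j * b := mul_le_mul_of_nonneg_right (hl j) hb.le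
      by_cases hj : G.ray j = r
      · rw [hj, real_inner_self_eq_norm_sq, G.norm_ray, one_pow, one_mul]
        linarith
      · have h8 := hγ.2.2 (G.ray j) r hj
        have h9 : ⟪(G.ray j : E), (r : E)⟫ * Y r ≤ (1 - γ) * (1 + ω) := by
          calc ⟪(G.ray j : E), (r : E)⟫ * Y r ≤ (1 - γ) * Y r := by
                gcongr
                linarith [(hYb r).1]
            _ ≤ (1 - γ) * (1 + ω) := by
                have : 0 ≤ 1 - γ := by linarith [hγ.2.1]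
                gcongr
                exact (hYb r).2
        have h10 : (1 - γ) * (1 + ω) ≤ Y (G.ray j) := by
          have h11 := (hYb (G.ray j)).1
          have h12 := mul_nonneg hγ0.le hω0
          have h13 : (1 - γ) * (1 + ω) = 1 + ω - γ - γ * ω := by ring
          linarith
        have h11 := mul_le_mul_of_nonneg_left (h9.trans h10) hlj.le
        linarith
    have h12 := mul_le_mul_of_nonneg_left key hSc.le
    unfold sd
    have h13 : δ * Sc ≤ l0 * τ' * Sc := by gcongr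
    have h14 : Sc * (G.RS.lam j * (⟪(G.ray j : E), (r : E)⟫ * Y r) + l0 * b) =
        Sc * (G.RS.lam j * (⟪(G.ray j : E), (r : E)⟫ * Y r)) + l0 * (b - τ') * Sc +
          l0 * τ' * Sc := by ring
    linarith

/-- logarithmic bookkeeping -/
theorem log_bd {C δ Sc : ℝ} (c : ℕ) (hC : 1 ≤ C) :
    Real.log (C * Real.exp (δ * Sc) ^ c * Real.exp (δ * Sc)) = Real.log C + (c + 1) * (δ * Sc) := by
  rw [← Real.exp_nat_mul, mul_assoc, ← Real.exp_add, Real.log_mul (by linarith)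
    (Real.exp_pos _).ne', Real.log_exp]
  ring

set_option maxHeartbeats 1600000 in
/-- **`KFacts`** for `K = NB (fm (Y + b)) (A2 e^{-l0 (b - τ') S})`. -/
theorem kfacts_ev (G : Geo M E) [FiniteDimensional ℝ E] [DecidableEq G.R] {l0 : ℝ} (hl0 : 0 < l0)
    (hl : ∀ i, l0 ≤ G.RS.lam i) :
    ∃ κD0 ω0 b0 : ℝ, 0 ≤ κD0 ∧ 0 < ω0 ∧ 0 < b0 ∧ ∀ (cs : Cst G) (J : ℕ), C1ok M J cs.c1 →
      0 < cs.ρV → cs.ρV ≤ 1 → κD0 ≤ cs.κD → ∀ A2 : ℝ, 1 ≤ A2 → ∃ CK : ℝ, 1 ≤ CK ∧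
      ∀ (κ C c0 : ℝ) (J' : ℕ) (hκ : 1 ≤ κ) (hκ' : G.RS.Gt G.RS.lam ≤ κ) (hC : 1 ≤ C)
        (hc0 : 0 < c0), CK ≤ C → ∀ ω, ω ≤ ω0 → ∀ b, 0 < b → b ≤ b0 → ∀ τ', 0 < τ' → τ' < b →
      ∀ ε, 0 < ε → ε ≤ b → ∀ (δ : ℝ) (q : ℕ) (RC Cb : ℝ),
      Ev G RC Cb fun Sc τ u => ∀ Y : G.R → ℝ, adm τ ω Y → adm τ ω (fun r => Y r + b) →
        ∀ (Ψ : Γ → Γ) (x : M.G),
        El.KFacts (mdl cs κ C c0 J' hκ hκ' hC hc0) (data G cs Ψ x Sc τ u) (par Sc ε δ ω q τ) Y b
          (M.NB (fm G u τ fun r => Y r + b) (A2 * Real.exp (-(l0 * (b - τ') * Sc)))) := by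
  obtain ⟨γ, hγ⟩ := exists_gap G
  obtain ⟨_, l1, _, _, hl1, hlb⟩ := exists_lam G
  have hlu : ∀ i, G.RS.lam i ≤ l1 := fun i => (hlb i).2
  have hlc : ∀ i, l0 ≤ G.RS.lam i ∧ G.RS.lam i ≤ l1 := fun i => ⟨hl i, hlu i⟩
  have hγ0 := hγ.1
  set c : ℝ := (M.c : ℝ) with hc
  have hc0' : 0 ≤ c := Nat.cast_nonneg _
  set W : ℝ := γ * l0 / (16 * ((1 + c) * l1)) with hW
  have hW0 : 0 < W := by positivity
  have hWle : ∀ y, y ≤ W → (1 + c) * l1 * (16 * y) ≤ γ * l0 := by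
    intro y hy
    have h1 : W * (16 * ((1 + c) * l1)) = γ * l0 := div_mul_cancel₀ _ (by positivity)
    have h2 : y * (16 * ((1 + c) * l1)) ≤ W * (16 * ((1 + c) * l1)) := by gcongr
    linarith
  refine ⟨c * (2 * l1) + c + 1, min (γ / 16) W, γ / (8 * (1 + c) ^ 2), by positivity,
    lt_min (by positivity) hW0, by positivity, ?_⟩
  intro cs J hcJ hρ hρ1 hκD A2 hA2
  have hPM := fun w : G.R => BoxVol.exists_pure_mixed M (fun i => G.ray i = w)
  choose C₁ hC₁ hPM using hPM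
  have hCore := fun w : G.R => BoxVol.exists_K_core M (fun i => G.ray i = w) (cs.RQ w) A2 (C₁ w)
    hA2 (hC₁ w) cs.ρV hρ hρ1
  choose A₁ hA₁ CC hCC Ad hAd hCore using hCore
  have hNS := fun w : G.R => exists_nr_small M (fun i => G.ray i = w) (A₁ w) (by linarith [hA₁ w])
  choose Cn hCn hNS using hNS
  obtain ⟨Ad0, hAd0, hKYY⟩ := exists_KYY M (GI M) A2 hA2
  obtain ⟨CK, hCK1, hCK⟩ := exists_ge fun w : G.R => CC w / (2 * cs.ρV) ^ (cs.RQ w).n
  obtain ⟨AdM, hAdM1, hAdM⟩ := exists_ge Ad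
  have hAdT0 : 0 ≤ max Ad0 AdM := le_max_of_le_left hAd0
  obtain ⟨S1, hS1, hdom⟩ := exists_dom G hl1 hlu (max Ad0 AdM) hAdT0
  obtain ⟨L₁, hL₁, hL⟩ := exists_ge fun w : G.R => |Real.log (C₁ w)| + |Real.log (Cn w)|
  refine ⟨CK, hCK1, ?_⟩
  intro κ C c0 J' hκ hκ' hC hc0 hCKC ω hω b hb hbb τ' hτ' hτb ε hε hεb δ q RC Cb
  have hωγ : ω ≤ γ / 16 := hω.trans (min_le_left _ _)
  have hωW : ω ≤ W := hω.trans (min_le_right _ _)
  have hω1 : ω ≤ 1 / 16 := by linarith [hγ.2.1]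
  set δ₀ : ℝ := min (min W (l0 * τ')) (min (l0 * ε / 4) (min (ε / 2) 1)) with hδ₀
  have hδ₀0 : 0 < δ₀ := by positivity
  have hδW : δ₀ ≤ W := (min_le_left _ _).trans (min_le_left _ _)
  have hδτ : δ₀ ≤ l0 * τ' := (min_le_left _ _).trans (min_le_right _ _)
  have hδε : δ₀ ≤ l0 * ε / 4 := (min_le_right _ _).trans (min_le_left _ _)
  have hδε' : δ₀ ≤ ε / 2 := ((min_le_right _ _).trans (min_le_right _ _)).trans (min_le_left _ _)
  have hδ1 : δ₀ ≤ 1 := ((min_le_right _ _).trans (min_le_right _ _)).trans (min_le_right _ _)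
  refine (((ev_geo G hγ hδ₀0 0 RC Cb).and (ev_legOK G hδ₀0 RC Cb)).and
    (Ev.scale (max S1 (L₁ * 8 / (γ * l0))))).mono ?_
  rintro Sc τ u hτ hSc ⟨⟨hgeo, hleg⟩, hS⟩ Y hY hYb Ψ x
  have hSc1 : S1 ≤ Sc := (le_max_left _ _).trans hS
  have hScL : L₁ ≤ γ * l0 / 8 * Sc := by
    have h1 := (le_max_right _ _).trans hS
    rw [div_le_iff₀ (by positivity)] at h1
    linarith
  obtain ⟨-, g2, g3, -, g5⟩ := hgeo ω hωγ _ hYb
  have hY2 : ∀ r, Y r ≤ 2 := hY.le_two hω1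
  have hY0 : ∀ r, 0 ≤ Y r := hY.nonneg hω1
  have hYb2 : ∀ r, (fun r => Y r + b) r ≤ 2 := hYb.le_two hω1
  have hYb0 : ∀ r, 0 ≤ (fun r => Y r + b) r := hYb.nonneg hω1
  set g : GI M → M.L := fm G u τ fun r => Y r + b with hg
  set μ : ℝ := l0 * (b - τ') * Sc with hμ
  have hbτ : 0 < b - τ' := by linarith
  have hμ0 : 0 ≤ μ := by positivity
  set e : ℝ := Real.exp (-μ) with he
  have he0 : 0 < e := Real.exp_pos _
  have he1 : e ≤ 1 := Real.exp_le_one_iff.2 (by linarith)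
  have hgY : ∀ i, fm G u τ Y i ∈ Bx M.c g e :=
    tiny_of G hγ hl0 hl hSc hωγ hb hτ' hτb hδτ hY g5
  have hspan := fm_span g2
  have hNilg : Nil M.c g := M.nilC.nil g
  -- the small boxes
  have hAY : ∀ Z : G.R → ℝ, adm τ ω Z → M.NB (fm G u τ Z) (cs.c1 * rho G Z) ⊆
      M.NB (fm G u τ Z) 1 := fun Z hZ => (A_sub G hcJ u hω1 hZ).trans (BModel.NB_mono hcJ.2.1)
  -- the domain
  have hdom' : M.NB g (max Ad0 AdM) ⊆ {n | ‖n‖ ≤ Real.exp (cs.κD * Sc)} := by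
    refine (hdom Sc hSc1 u τ _ hYb0 hYb2 (fun i => Bx_mono ?_ (g3 i))).trans fun n hn => ?_
    · exact Real.exp_le_exp.2 (mul_le_mul_of_nonneg_right hδ1 hSc.le)
    · exact le_trans hn (Real.exp_le_exp.2 (mul_le_mul_of_nonneg_right hκD hSc.le))
  -- bounds for the logarithms
  have hlog : ∀ C' : ℝ, 1 ≤ C' → Real.log C' ≤ L₁ →
      Real.log (C' * Real.exp (δ₀ * Sc) ^ M.c * Real.exp (δ₀ * Sc)) ≤ γ * l0 / 4 * Sc := by
    intro C' hC' hC'L
    rw [log_bd M.c hC']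
    have h1 := hWle δ₀ hδW
    have h2 : (1 + c) * δ₀ ≤ γ * l0 / 16 := by
      have h3 : (1 + c) * 1 * (16 * δ₀) ≤ (1 + c) * l1 * (16 * δ₀) := by gcongr
      linarith
    have h3 : (1 + c) * δ₀ * Sc ≤ γ * l0 / 16 * Sc := by gcongr
    have h4 : ((M.c : ℝ) + 1) * (δ₀ * Sc) = (1 + c) * δ₀ * Sc := by rw [hc]; ring
    rw [h4]
    have h5 : 0 ≤ γ * l0 * Sc := by positivity
    linarith
  have hμb : c * (c * μ) ≤ γ * l0 / 8 * Sc ∧ μ ≤ γ * l0 / 8 * Sc := by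
    have h1 : b * (8 * (1 + c) ^ 2) ≤ γ := by
      have := hbb
      rwa [le_div_iff₀ (by positivity)] at this
    have h2 : (b - τ') ≤ b := by linarith
    have h3 : μ ≤ l0 * b * Sc := by rw [hμ]; gcongr
    have h4 : c * c ≤ (1 + c) ^ 2 := by nlinarith
    have h5 : (1:ℝ) ≤ (1 + c) ^ 2 := by nlinarith
    constructor
    · calc c * (c * μ) = c * c * μ := by ring
        _ ≤ (1 + c) ^ 2 * (l0 * b * Sc) := by gcongr
        _ = (b * (8 * (1 + c) ^ 2)) * (l0 / 8 * Sc) := by ring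
        _ ≤ γ * (l0 / 8 * Sc) := by gcongr
        _ = _ := by ring
    · calc μ ≤ 1 * (l0 * b * Sc) := by linarith
        _ ≤ (1 + c) ^ 2 * (l0 * b * Sc) := by gcongr
        _ = (b * (8 * (1 + c) ^ 2)) * (l0 / 8 * Sc) := by ring
        _ ≤ γ * (l0 / 8 * Sc) := by gcongr
        _ = _ := by ring
  have hLC : ∀ w, Real.log (C₁ w) ≤ L₁ := fun w => by
    have h1 := hL w
    have h2 := le_abs_self (Real.log (C₁ w))
    have h3 := abs_nonneg (Real.log (Cn w))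
    beta_reduce at h1
    linarith
  have hLN : ∀ w, Real.log (Cn w) ≤ L₁ := fun w => by
    have h1 := hL w
    have h2 := le_abs_self (Real.log (Cn w))
    have h3 := abs_nonneg (Real.log (C₁ w))
    beta_reduce at h1
    linarith
  -- the core statement
  have core : ∀ (w : G.R) (t : ℝ), t = 0 ∨ ε ≤ t → t = b ∨ t + ε ≤ b →
      adm τ ω (Function.update Y w (Y w + t)) →
      (M.NB g (A2 * e) * M.NB (fm G u τ Y) 1 *
        BoxVol.mvs (cs.RQ w).D cs.ρV (M.Ad (leg u τ w (Y w + t)) : M.L →ₗ[ℝ] M.L) *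
        M.NB (fm G u τ (Function.update Y w (Y w + t))) 1 ⊆ M.NB g (Ad w)) ∧
      ∃ m : ℝ≥0∞, m ≠ 0 ∧
          (∀ y : M.NN, BoxVol.lamV (cs.RQ w).D cs.ρV
            (M.Ad (leg u τ w (Y w + t)) : M.L →ₗ[ℝ] M.L)
            {v | y * v⁻¹ ∈ M.NB g (A2 * e) * M.NB (fm G u τ Y) 1} ≤ m) ∧
          m * volume (M.NB g (A2 * e) * M.NB (fm G u τ Y) 1 *
            BoxVol.mvs (cs.RQ w).D cs.ρV (M.Ad (leg u τ w (Y w + t)) : M.L →ₗ[ℝ] M.L) *
            M.NB (fm G u τ (Function.update Y w (Y w + t))) 1) ≤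
            ENNReal.ofReal (CC w) * volume (M.NB g (A2 * e)) := by
    intro w t ht0 htb hadm
    obtain ⟨n, hn⟩ := hadm.1
    have hnw : (n w : ℝ) * τ = Y w + t := by
      have := hn w
      rw [Function.update_self] at this
      exact this.symm
    have hlegC : leg u τ w (Y w + t) ∈ M.C := by
      rw [← hnw]
      refine (hleg w (n w) ?_).1
      have := hadm.le_two hω1 w
      rw [Function.update_self] at this
      rw [hnw]; exact this
    have hm : (n w : ℝ) * τ = (fun r => Y r + b) w ∨ n w * τ + ε ≤ (fun r => Y r + b) w := by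
      rw [hnw]
      rcases htb with h | h
      · left; rw [h]
      · right
        change Y w + t + ε ≤ Y w + b
        linarith
    have hpk := pk_of G hγ hl0 hlc w (cs.RQ w) (hC₁ w) (hPM w) hSc hτ (hWle ω hωW)
      (hWle δ₀ hδW) hω1 hδ₀0 hδε hδε' hε hleg hYb hYb2 g2 (μ := μ)
      (by
        have h1 := hlog (C₁ w) (hC₁ w) (hLC w)
        have h2 := hμb.2
        have h3 : 0 ≤ γ * l0 * Sc := by positivity
        linarith) (m := n w) hm
    rw [hnw] at hpk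
    have hh2 := h2_of G hγ hl0 hlc w (cs.RQ w) (hNS w) hSc (hWle ω hωW)
      (hWle δ₀ hδW) hω1 hδ₀0 hμ0 hleg hYb hYb2 g2
      (by
        have h1 := hlog (Cn w) (hCn w) (hLN w)
        have h2 := hμb.1
        have h3 : 0 ≤ γ * l0 * Sc := by positivity
        linarith)
    have hres := hCore w g (fm G u τ Y) (fm G u τ (Function.update Y w (Y w + t)))
      (M.Ad (leg u τ w (Y w + t)) : M.L →ₗ[ℝ] M.L) (BoxVol.RayQ.isLie_Ad _)
      (BoxVol.RayQ.pres_Ad (cs.RQ w) (isRay G w) hlegC)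
      (by
        rw [BoxVol.RayQ.qdet_Ad (cs.RQ w) (isRay G w) hlegC]
        exact (Real.exp_pos _).ne')
      (fun i hi => by
        obtain ⟨n', hn'⟩ := hYb.1
        have hC' : leg u τ (G.ray i) ((fun r => Y r + b) (G.ray i)) ∈ M.C := by
          rw [hn']
          refine (hleg (G.ray i) (n' (G.ray i)) ?_).1
          rw [← hn']; exact hYb2 _
        exact BoxVol.RayQ.pres_Ad (cs.RQ w) (isRay G w) hC' (eg M i)
          (BoxVol.RayQ.P_eg (cs.RQ w) hi))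
      hspan e he0 he1 hgY
      (fun i hi => by
        rw [fm_w u _ w i hi, Function.update_self])
      (fun i hi => by
        have e1 : fm G u τ (Function.update Y w (Y w + t)) i = fm G u τ Y i := by
          change M.Ad (leg u τ (G.ray i) (Function.update Y w (Y w + t) (G.ray i))) (M.bas i) =
            M.Ad (leg u τ (G.ray i) (Y (G.ray i))) (M.bas i)
          rw [Function.update_of_ne hi]
        rw [e1]; exact hgY i)
      hpk
    exact ⟨hres.2.1, hres.2.2 hh2⟩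
  refine ⟨M.measurableSet_NB _ _, ?_, (M.volume_NB_lt_top _ _).ne, ?_, ?_, ?_, ?_⟩
  · exact (BModel.volume_NB_pos hNilg hspan (by positivity)).ne'
  · exact ((BModel.isCompact_NB M _ _).mul (BModel.isCompact_NB M _ _)).measurableSet
  · refine subset_trans ?_ (((hKYY g (fm G u τ Y) e he0 he1 hgY).trans
      (BModel.NB_mono (le_max_left _ _))).trans hdom')
    exact Set.mul_subset_mul (Set.mul_subset_mul subset_rfl (hAY Y hY)) subset_rfl
  · intro w t ht0 htb hadm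
    refine subset_trans ?_ (((core w t ht0 htb hadm).1.trans
      (BModel.NB_mono ((hAdM w).trans (le_max_right _ _)))).trans hdom')
    exact Set.mul_subset_mul (Set.mul_subset_mul (Set.mul_subset_mul subset_rfl (hAY Y hY))
      subset_rfl) subset_rfl
  · intro w t ht0 htb hadm
    obtain ⟨m, hm0, hm1, hm2⟩ := (core w t ht0 htb hadm).2
    refine ⟨m, hm0, fun y => (measure_mono ?_).trans (hm1 y), ?_⟩
    · intro v hv
      exact Set.mul_subset_mul subset_rfl (hAY Y hY) hv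
    · have h1 : CC w ≤ C * (2 * cs.ρV) ^ (cs.RQ w).n := by
        have h2 := (hCK w).trans hCKC
        beta_reduce at h2
        rwa [div_le_iff₀ (by positivity)] at h2
      have hvol : volume (M.NB g (A2 * e) * M.NB (fm G u τ Y) (cs.c1 * rho G Y) *
            BoxVol.mvs (cs.RQ w).D cs.ρV (M.Ad (leg u τ w (Y w + t)) : M.L →ₗ[ℝ] M.L) *
            M.NB (fm G u τ (Function.update Y w (Y w + t)))
              (cs.c1 * rho G (Function.update Y w (Y w + t)))) ≤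
          volume (M.NB g (A2 * e) * M.NB (fm G u τ Y) 1 *
            BoxVol.mvs (cs.RQ w).D cs.ρV (M.Ad (leg u τ w (Y w + t)) : M.L →ₗ[ℝ] M.L) *
            M.NB (fm G u τ (Function.update Y w (Y w + t))) 1) :=
        measure_mono (Set.mul_subset_mul (Set.mul_subset_mul
          (Set.mul_subset_mul subset_rfl (hAY Y hY)) subset_rfl) (hAY _ hadm))
      have hlam : (data G cs Ψ x Sc τ u).lam w (Y w + t) univ =
          ENNReal.ofReal ((2 * cs.ρV) ^ (cs.RQ w).n) := by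
        have := BoxVol.lamV_univ (cs.RQ w).D hρ.le
          (M.Ad (leg u τ w (Y w + t)) : M.L →ₗ[ℝ] M.L)
        rw [Fintype.card_fin] at this
        exact this
      rw [hlam]
      calc m * volume (M.NB g (A2 * e) * M.NB (fm G u τ Y) (cs.c1 * rho G Y) *
            BoxVol.mvs (cs.RQ w).D cs.ρV (M.Ad (leg u τ w (Y w + t)) : M.L →ₗ[ℝ] M.L) *
            M.NB (fm G u τ (Function.update Y w (Y w + t)))
              (cs.c1 * rho G (Function.update Y w (Y w + t))))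
          ≤ ENNReal.ofReal (CC w) * volume (M.NB g (A2 * e)) :=
            (mul_le_mul_right hvol m).trans hm2
        _ ≤ ENNReal.ofReal (C * (2 * cs.ρV) ^ (cs.RQ w).n) * volume (M.NB g (A2 * e)) := by
            gcongr
        _ = ENNReal.ofReal C * volume (M.NB g (A2 * e)) *
            ENNReal.ofReal ((2 * cs.ρV) ^ (cs.RQ w).n) := by
            rw [ENNReal.ofReal_mul (by linarith)]; ring

end Crest.Agent.R182.ElI
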