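/-
R182, module ELINST (helper88): the field `slab` of `El.Facts`.
-/
import Mathlib
import Crest.Agent.R182.ElStick

set_option autoImplicit false
set_option linter.unusedSectionVars false

open MeasureTheory Set
open scoped Pointwise RealInnerProductSpace ENNReal

namespace Crest.Agent.R182.ElI

open Crest.GroupTheory Crest.Geometry Crest.Agent.R182.QI Crest.Agent.R182.Core
  Crest.Agent.R182.Nb Crest.Agent.R182.Gen

variable {Γ : Type*} [Group Γ] {k : ℕ} {S : Set Γ} {π : Γ →* Multiplicative (Fin k → ℤ)}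
variable {M : BModel S π} {E : Type*} [NormedAddCommGroup E] [InnerProductSpace ℝ E]

theorem convex_NB' (M : BModel S π) {σ : Type*} [Fintype σ] (fam : σ → M.L) (s : ℝ) :
    Convex ℝ (M.NB fam s) := by
  intro x hx y hy a b ha hb hab
  rw [BModel.mem_NB] at hx hy ⊢
  obtain ⟨p, hp, hx⟩ := hx
  obtain ⟨q, hq, hy⟩ := hy
  refine ⟨fun κ => a * p κ + b * q κ, fun κ => ?_, ?_⟩
  · refine (abs_add_le _ _).trans ?_
    rw [abs_mul, abs_mul, abs_of_nonneg ha, abs_of_nonneg hb]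
    have h1 := mul_le_mul_of_nonneg_left (hp κ) ha
    have h2 := mul_le_mul_of_nonneg_left (hq κ) hb
    calc _ ≤ a * s + b * s := add_le_add h1 h2
      _ = s := by rw [← add_mul, hab, one_mul]
  · rw [map_add, map_smul, map_smul, hx, hy, Finset.smul_sum, Finset.smul_sum,
      ← Finset.sum_add_distrib]
    exact Finset.sum_congr rfl fun κ _ => by rw [add_smul, smul_smul, smul_smul]

/-- a slab of a target box -/
theorem slab_tBx (G : Geo M E) (Sc : ℝ) (X : G.R → ℝ) (i : GI M) {η : ℝ} (hη : 0 < η) :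
    volume {n | n ∈ tBx G Sc X ∧ |n (i : Fin M.r)| ≤
      η * Real.exp (Sc * (G.RS.lam i * X (G.ray i)))} ≤
      ENNReal.ofReal (4 * 2 ^ M.r * η) * volume (tBx G Sc X) := by
  set H := Real.exp (Sc * (G.RS.lam i * X (G.ray i))) with hH
  have hH0 : 0 < H := Real.exp_pos _
  let ℓ : M.NN →ₗ[ℝ] ℝ :=
    { toFun := fun n => n (i : Fin M.r)
      map_add' := fun _ _ => rfl
      map_smul' := fun _ _ => rfl }
  set x₀ : M.NN := M.E.symm (H • eg M i) with hx₀
  have h1 : x₀ ∈ tBx G Sc X := by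
    unfold tBx
    rw [BModel.mem_NB, hx₀, LinearEquiv.apply_symm_apply]
    exact gen_mem_Bx (M.nilC.nil (gZ (eg M) fun i => Sc * (G.RS.lam i * X (G.ray i)))) i
  have h2 : ℓ x₀ = H := by
    change x₀ (i : Fin M.r) = H
    rw [hx₀, M.E_symm_apply, map_smul, Finsupp.smul_apply, eg, Module.Basis.repr_self,
      Finsupp.single_eq_same, smul_eq_mul, mul_one]
  have h3 := BoxVol.slab_le (volume : Measure M.NN) (convex_NB' M _ _)
    (BModel.NB_one_mem (fam := gZ (eg M) fun i => Sc * (G.RS.lam i * X (G.ray i)))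
      zero_le_one) (tBx_meas G Sc X) ℓ h1 hH0 h2.ge hη
  rw [BModel.finrank_NN] at h3
  exact h3

/-- **field `slab`** -/
theorem exists_slab_ev (hS : S.Finite) (hcl : Subgroup.closure S = ⊤) (hG : M.CGrowth)
    (G : Geo M E) (cs : Cst G) (hκD : 0 ≤ cs.κD) (K : ℕ) (RC Cb : ℝ) {c0 : ℝ}
    (hc0 : ∀ i, c0 ≤ G.RS.lam i) {κ : ℝ} (hκ : 0 ≤ κ) {ε : ℝ} (hε : 0 < ε) :
      Ev G RC Cb fun Sc τ u => ∀ Ψ : Γ → Γ, QIMap S S Ψ K → ∀ x : M.G, ∀ (r : G.R) (s : ℝ), 0 ≤ s →
        s ≤ 2 → ∀ z : ℝ, 0 ≤ z → z ≤ 1 → ∀ (X : G.R → ℝ) (y y' : M.NN) (r' : G.R) (t : ℝ),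
        0 ≤ t →
        volume {n | n ∈ (data G cs Ψ x Sc τ u).Dom ∧
          (data G cs Ψ x Sc τ u).g n r s ∈ y • (data G cs Ψ x Sc τ u).Bx z X ∧
          (data G cs Ψ x Sc τ u).g n r s ∈ y' • (data G cs Ψ x Sc τ u).Ds r' (X r' - t) ∧
          (∀ r' : G.R, ⟪(r' : E), (data G cs Ψ x Sc τ u).f n r s⟫ ≤ X r') ∧
          ⟪(r' : E), (data G cs Ψ x Sc τ u).f n r s⟫ + t ≤ X r'} ≤
        ENNReal.ofReal (Real.exp (Sc * (GG G X - c0 * t + κ * z + ε))) := by
  classical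
  obtain ⟨A, D, hA, hcount⟩ := exists_count hS hcl hG K
  obtain ⟨Bc, hBc, hlen⟩ := exists_len_pnt G K hκD RC Cb
  obtain ⟨C₀, hC₀, hvol⟩ := BoxVol.exists_vol_le M
  set L : ℝ := |G.RS.Gt G.RS.lam| + 1 with hL
  have hL0 : 0 < L := by positivity
  set ε' : ℝ := ε / (8 * L) with hε'
  have hε'0 : 0 < ε' := by positivity
  obtain ⟨S1, hS1, hprod⟩ := exists_tBx_prod G 4 ε' hε'0
  obtain ⟨S2, hS2, habs⟩ := exists_tBx_poly G A Bc D ε' hε'0
  obtain ⟨S3, hS3, hpoly⟩ := exists_poly_le (16 * 2 ^ M.r * Real.exp C₀ * A ^ 2) Bc (2 * D)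
    (δ := ε / 4) (by positivity)
  refine ⟨1, one_pos, fun τ hτ _ => ⟨1, one_pos, max S1 (max S2 S3), fun Sc hSc un => ?_⟩⟩
  have hScS1 : S1 ≤ Sc := (le_max_left _ _).trans hSc
  have hScS2 : S2 ≤ Sc := (le_max_left _ _).trans ((le_max_right _ _).trans hSc)
  have hScS3 : S3 ≤ Sc := (le_max_right _ _).trans ((le_max_right _ _).trans hSc)
  have hSc1 : 1 ≤ Sc := hS1.trans hScS1
  have hSc0 : 0 < Sc := by linarith
  intro Ψ hΨ x r s hs hs2 z hz0 _ X y y' r' t ht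
  obtain ⟨i, hi⟩ := G.ray_surj r'
  subst hi
  set P : ℝ := A * (Bc * Sc) ^ D with hP
  have hBS : 1 ≤ Bc * Sc := by nlinarith
  have hP1 : 1 ≤ P := by
    have := one_le_pow₀ (n := D) hBS
    nlinarith
  set X₂ : G.R → ℝ := fun r => if r = G.ray i then X (G.ray i) - t else X r with hX₂
  have hX₂X : X₂ ≤ X := by
    intro r
    rw [hX₂]
    beta_reduce
    split_ifs with h
    · rw [h]; linarith
    · exact le_rfl
  set Xp : G.R → ℝ := fun r => X r + ε' with hXp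
  set Xpp : G.R → ℝ := fun r => Xp r + ε' with hXpp
  set Z : GI M → ℝ := fun i => Sc * (G.RS.lam i * X₂ (G.ray i)) with hZ
  set B : Set M.NN := (y • tBx G Sc X) ∩ (y' • tDs G Sc (G.ray i) (X (G.ray i) - t)) with hB
  have h1 := hcount Ψ hΨ x (leg un.u τ r s) B Z (Bc * Sc) hBS
  have hsub : {n | n ∈ (data G cs Ψ x Sc τ un.u).Dom ∧
          (data G cs Ψ x Sc τ un.u).g n r s ∈ y • (data G cs Ψ x Sc τ un.u).Bx z X ∧
          (data G cs Ψ x Sc τ un.u).g n r s ∈
            y' • (data G cs Ψ x Sc τ un.u).Ds (G.ray i) (X (G.ray i) - t) ∧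
          (∀ r' : G.R, ⟪(r' : E), (data G cs Ψ x Sc τ un.u).f n r s⟫ ≤ X r') ∧
          ⟪(G.ray i : E), (data G cs Ψ x Sc τ un.u).f n r s⟫ + t ≤ X (G.ray i)} ⊆
      {n : M.NN | up M ((M.ext Ψ x)⁻¹ * M.ext Ψ (x * M.toG n * leg un.u τ r s)) ∈ B ∧
        M.len ((M.ext Ψ x)⁻¹ * M.ext Ψ (x * M.toG n * leg un.u τ r s)) ≤ Bc * Sc ∧
        ∀ i, wg M i (M.h ((M.ext Ψ x)⁻¹ * M.ext Ψ (x * M.toG n * leg un.u τ r s))) ≤ Z i} := by
    rintro n ⟨hn, hg, hg', hf1, hf2⟩
    refine ⟨⟨hg, hg'⟩, hlen Sc τ 1 hSc1 hτ un Ψ hΨ x n hn r s hs hs2, fun j => ?_⟩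
    have hf : ⟪(G.ray j : E), (data G cs Ψ x Sc τ un.u).f n r s⟫ ≤ X₂ (G.ray j) := by
      rw [hX₂]
      beta_reduce
      split_ifs with h
      · rw [h]; linarith
      · exact hf1 _
    change ⟪(G.ray j : E), Sc⁻¹ • G.T (M.h (pnt Ψ x un.u τ n r s))⟫ ≤ _ at hf
    rw [real_inner_smul_right, inv_mul_le_iff₀ hSc0] at hf
    change wg M j (M.h (pnt Ψ x un.u τ n r s)) ≤ Z j
    rw [G.wg_ray, hZ]
    have h3 := mul_le_mul_of_nonneg_left hf (G.lam_pos j).le
    beta_reduce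
    linarith
  -- the enlarged set
  set T : Set M.NN := B * M.NB (gZ (eg M) Z) P with hT
  set e₁ : ℝ := Real.exp (Sc * (G.RS.lam i * (X (G.ray i) - t))) with he₁
  have he₁0 : 0 < e₁ := Real.exp_pos _
  have hTp : ∀ n ∈ T, ∃ p ∈ tBx G Sc Xp, ∃ v ∈ tBx G Sc Xp, n = y * (p * v) ∧
      |n (i : Fin M.r) - y' (i : Fin M.r)| ≤ 2 * P * e₁ := by
    rintro _ ⟨_, ⟨⟨p, hp, rfl⟩, ⟨q, hq, hqe⟩⟩, v, hv, rfl⟩
    have hv' : v ∈ M.NB (gZ (eg M) fun i => Sc * (G.RS.lam i * X₂ (G.ray i)))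
        (A * (1 + Bc * Sc) ^ D) := by
      refine BModel.NB_mono ?_ hv
      rw [hP]
      gcongr
      linarith
    refine ⟨p, tBx_mono hSc0.le (fun r => ?_) hp, v,
      tBx_mono hSc0.le (fun r => ?_) (habs Sc hScS2 X₂ hv'), ?_, ?_⟩
    · rw [hXp]; beta_reduce; linarith
    · rw [hXp]; beta_reduce; linarith [hX₂X r]
    · simp only [smul_eq_mul, mul_assoc]
    · have h3 : (y • p : M.NN) = y' * q := hqe.symm
      beta_reduce
      rw [h3, mul_apply_gen, mul_apply_gen]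
      have h4 : |q (i : Fin M.r)| ≤ e₁ := hq i rfl
      have h5 : |v (i : Fin M.r)| ≤ P * e₁ := by
        have h6 := NB_apply_le (X := X₂) G hv i
        have h7 : X₂ (G.ray i) = X (G.ray i) - t := if_pos rfl
        rwa [h7] at h6
      have h6 : y' (i : Fin M.r) + q (i : Fin M.r) + v (i : Fin M.r) - y' (i : Fin M.r) =
          q (i : Fin M.r) + v (i : Fin M.r) := by ring
      rw [h6]
      refine (abs_add_le _ _).trans ?_
      nlinarith
  -- volume of the enlarged set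
  set η : ℝ := 4 * P * Real.exp (-(Sc * (G.RS.lam i * t))) with hη
  have hη0 : 0 < η := by positivity
  have hTvol : volume T ≤ ENNReal.ofReal (4 * 2 ^ M.r * η) * volume (tBx G Sc Xpp) := by
    by_cases hTe : T = ∅
    · rw [hTe, measure_empty]; exact zero_le
    obtain ⟨n₀, hn₀⟩ := Set.nonempty_iff_ne_empty.2 hTe
    obtain ⟨p₀, hp₀, v₀, hv₀, hn₀e, hn₀i⟩ := hTp n₀ hn₀
    refine le_trans ?_ (slab_tBx G Sc Xpp i hη0)
    have h3 : T ⊆ n₀ • {n | n ∈ tBx G Sc Xpp ∧ |n (i : Fin M.r)| ≤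
        η * Real.exp (Sc * (G.RS.lam i * Xpp (G.ray i)))} := by
      intro n hn
      obtain ⟨p, hp, v, hv, hne, hni⟩ := hTp n hn
      rw [Set.mem_smul_set_iff_inv_smul_mem]
      constructor
      · have h4 : (n₀⁻¹ • n : M.NN) = [v₀⁻¹, p₀⁻¹, p, v].prod := by
          rw [hne, hn₀e]
          simp only [smul_eq_mul, List.prod_cons, List.prod_nil, mul_one]
          group
        rw [h4]
        refine hprod Sc hScS1 Xp _ (by simp) ?_
        intro a ha
        simp only [List.mem_cons, List.not_mem_nil, or_false] at ha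
        rcases ha with rfl | rfl | rfl | rfl
        · exact tBx_inv hv₀
        · exact tBx_inv hp₀
        · exact hp
        · exact hv
      · rw [smul_eq_mul, mul_apply_gen, inv_apply]
        have h4 : -n₀ (i : Fin M.r) + n (i : Fin M.r) =
            (n (i : Fin M.r) - y' (i : Fin M.r)) - (n₀ (i : Fin M.r) - y' (i : Fin M.r)) := by ring
        rw [h4]
        refine (abs_sub _ _).trans ?_
        have h5 : 4 * P * e₁ ≤ η * Real.exp (Sc * (G.RS.lam i * Xpp (G.ray i))) := by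
          rw [hη, mul_assoc (4 * P), ← Real.exp_add]
          refine mul_le_mul_of_nonneg_left (Real.exp_le_exp.2 ?_) (by positivity)
          have h6 : Xpp (G.ray i) = X (G.ray i) + ε' + ε' := rfl
          rw [h6]
          have h7 : 0 ≤ Sc * (G.RS.lam i * (ε' + ε')) := by
            have := G.lam_pos i
            positivity
          nlinarith
        linarith
    refine (measure_mono h3).trans (le_of_eq ?_)
    rw [volume_smul_set]
  have h2 := hvol (tY G Sc Xpp) 0 le_rfl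
  rw [Real.exp_zero, gsys_Gt_tY G hSc0.le, mul_zero, add_zero] at h2
  refine (measure_mono hsub).trans (h1.trans ?_)
  refine (mul_le_mul_right (hTvol.trans (mul_le_mul_right h2 _)) _).trans ?_
  rw [← ENNReal.ofReal_mul (by positivity), ← ENNReal.ofReal_mul (by positivity)]
  refine ENNReal.ofReal_le_ofReal ?_
  have h4 : GG G Xpp ≤ GG G X + L * ε' + L * ε' := by
    have hLe : G.RS.Gt G.RS.lam ≤ L := by rw [hL]; linarith [le_abs_self (G.RS.Gt G.RS.lam)]
    have h5 := GG_shift G Xp ε' hε'0.le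
    have h6 := GG_shift G X ε' hε'0.le
    have h7 : G.RS.Gt G.RS.lam * ε' ≤ L * ε' := by gcongr
    linarith
  have hLε : L * ε' = ε / 8 := by rw [hε']; field_simp
  have h5 : Real.exp (-(Sc * (G.RS.lam i * t))) ≤ Real.exp (-(Sc * (c0 * t))) := by
    refine Real.exp_le_exp.2 (neg_le_neg ?_)
    have := hc0 i
    gcongr
  have h6 : P * (4 * 2 ^ M.r * (4 * P)) * Real.exp C₀ ≤ Real.exp (ε / 4 * Sc) := by
    refine le_trans (le_of_eq ?_) ((mul_le_mul_of_nonneg_left (?_ : (Bc * Sc) ^ (2 * D) ≤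
      (1 + Bc * Sc) ^ (2 * D)) (by positivity)).trans (hpoly Sc hScS3))
    · rw [hP, pow_mul']; ring
    · gcongr; linarith
  calc P * (4 * 2 ^ M.r * η * Real.exp (Sc * GG G Xpp + C₀))
      = (P * (4 * 2 ^ M.r * (4 * P)) * Real.exp C₀) * Real.exp (-(Sc * (G.RS.lam i * t))) *
          Real.exp (Sc * GG G Xpp) := by rw [hη, Real.exp_add]; ring
    _ ≤ Real.exp (ε / 4 * Sc) * Real.exp (-(Sc * (c0 * t))) * Real.exp (Sc * GG G Xpp) := by
        gcongr
    _ = Real.exp (ε / 4 * Sc + -(Sc * (c0 * t)) + Sc * GG G Xpp) := by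
        rw [Real.exp_add, Real.exp_add]
    _ ≤ _ := by
        refine Real.exp_le_exp.2 ?_
        have h7 : Sc * GG G Xpp ≤ Sc * (GG G X + ε / 4) := by
          gcongr
          linarith
        have h8 : 0 ≤ Sc * (κ * z) := by positivity
        have h9 : 0 ≤ ε * Sc := by positivity
        nlinarith

end Crest.Agent.R182.ElI
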