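/-
R182, module ELINST (helper656): the enlargement lemma for a `BModel`.
-/
import Mathlib
import Crest.Agent.R182.ElFacts
import Crest.Agent.R182.ElSlab
import Crest.Agent.R182.ElStick
import Crest.Agent.R182.ElFinal

set_option autoImplicit false
set_option linter.unusedSectionVars false

open MeasureTheory Set
open scoped Pointwise RealInnerProductSpace ENNReal

namespace Crest.Agent.R182.ElI

open Crest.GroupTheory Crest.Geometry Crest.Agent.R182.QI Crest.Agent.R182.Core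
  Crest.Agent.R182.Nb Crest.Agent.R182.Gen

variable {Γ : Type*} [Group Γ] {k : ℕ} {S : Set Γ} {π : Γ →* Multiplicative (Fin k → ℤ)}
variable {M : BModel S π} {E : Type} [NormedAddCommGroup E] [InnerProductSpace ℝ E]

/-- the facts about the set `K` for the data of a model -/
def KEv [FiniteDimensional ℝ E] (G : Geo M E) [DecidableEq G.R] (cs : Cst G) (RC Cb CK ω b ε : ℝ)
    (KS : ℝ → ℝ → (G.R → M.G) → Set M.NN) : Prop :=
  Ev G RC Cb fun Sc τ u => ∀ (Ψ : Γ → Γ) (x : M.G) (κ C c0 : ℝ) (J' : ℕ) (hκ : 1 ≤ κ)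
    (hκ' : G.RS.Gt G.RS.lam ≤ κ) (hC : 1 ≤ C) (hc0 : 0 < c0) (δ : ℝ) (q : ℕ), CK ≤ C →
    El.KFacts (mdl cs κ C c0 J' hκ hκ' hC hc0) (data G cs Ψ x Sc τ u) (par Sc ε δ ω q τ)
      (fun _ => 1) b (KS Sc τ u)

theorem adm_one {R : Type*} {τ ω : ℝ} (hω : 0 ≤ ω) (h : ∃ n : ℕ, (1 : ℝ) = n * τ) :
    adm τ ω (fun _ : R => (1 : ℝ)) := by
  obtain ⟨n, hn⟩ := h
  exact ⟨⟨fun _ => n, fun _ => hn⟩, fun _ => by rw [sub_self, abs_zero]; exact hω⟩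

theorem adm_lev {R : Type*} [Fintype R] [DecidableEq R] {τ ω ι : ℝ} {L : ℕ} (hι : 0 ≤ ι)
    (h : ∃ n : ℕ, (1 : ℝ) = n * τ) (h' : ∃ n : ℕ, ι = n * τ) (hL : L * ι ≤ ω) (w : R) {j : ℕ}
    (hj : j ≤ L) : adm τ ω (El.lev (fun _ : R => (1 : ℝ)) w ι j) := by
  obtain ⟨n, hn⟩ := h
  obtain ⟨n', hn'⟩ := h'
  refine ⟨⟨fun r => if r = w then n + j * n' else n, fun r => ?_⟩, fun r => ?_⟩
  · by_cases hr : r = w
    · subst hr
      rw [El.lev_self]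
      simp only [if_true]
      push_cast
      rw [add_mul, mul_assoc, ← hn, ← hn']
    · rw [El.lev_ne _ hr]
      simp only [if_neg hr]
      exact hn
  · by_cases hr : r = w
    · subst hr
      rw [El.lev_self, add_sub_cancel_left, abs_of_nonneg (by positivity)]
      refine le_trans ?_ hL
      exact mul_le_mul_of_nonneg_right (by exact_mod_cast hj) hι
    · rw [El.lev_ne _ hr, sub_self, abs_zero]
      exact le_trans (by positivity) hL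

/-- **the enlargement lemma for a model**, `K` arbitrary -/
theorem el_K_model (hS : S.Finite) (hcl : Subgroup.closure S = ⊤) [FiniteDimensional ℝ E]
    (G : Geo M E) [DecidableEq G.R] [Nonempty G.R] (hD : CDist M) (K : ℕ) (RC Cb κD0 : ℝ)  :
    ∃ cs : Cst G, C1ok M (exists_C1ok M).choose cs.c1 ∧ 0 < cs.ρV ∧ cs.ρV ≤ cs.c1 ∧ 1 ≤ cs.TU ∧
      κD0 ≤ cs.κD ∧ 0 ≤ cs.κD ∧ ∀ CK : ℝ,
    ∃ ω0 : ℝ, 0 < ω0 ∧ ∀ ω : ℝ, 0 < ω → ω ≤ ω0 → ∃ b0 : ℝ, 0 < b0 ∧ b0 ≤ ω ∧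
    ∀ b : ℝ, 0 < b → b ≤ b0 → ∀ η : ℝ, 0 < η → ∀ β : ℝ, 0 < β → ∃ L : ℕ, 0 < L ∧
    ∃ ε1 : ℝ, 0 < ε1 ∧ ∃ δ1 : ℝ, 0 < δ1 ∧ ∀ KS : ℝ → ℝ → (G.R → M.G) → Set M.NN,
    KEv G cs RC Cb CK ω b ε1 KS →
    Ev G RC Cb fun Sc τ u => (∃ n : ℕ, (1 : ℝ) = n * τ) → (∃ n : ℕ, b / L = n * τ) →
      ∀ Ψ : Γ → Γ, QIMap S S Ψ K → ∀ x : M.G, BoxAt G cs Ψ x Sc τ u ω ε1 δ1 →
      volume {n : M.NN | n ∈ KS Sc τ u ∧ ∃ (w : G.R) (σ σ' : Equiv.Perm G.R) (θ θ' : E),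
        LawAt G cs Ψ x Sc τ u ε1 δ1 (fun _ => 1) n σ θ ∧
        LawAt G cs Ψ x Sc τ u ε1 δ1 (Function.update (fun _ => 1) w (1 + b)) n σ' θ' ∧
        ¬ (σ = σ' ∧ ‖θ - θ'‖ ≤ η)} ≤ ENNReal.ofReal β * volume (KS Sc τ u) := by
  classical
  have hcount : Countable Γ := countable_of_closure hS hcl
  obtain ⟨CV, hCV, hfacts⟩ := exists_facts (S := S) (π := π) G
    (fun w => (BoxVol.exists_rayQ M (fun i => G.ray i = w)).some) hD K RC Cb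
  obtain ⟨c1, hc1⟩ := (exists_C1ok M).choose_spec
  have hc10 := hc1.1
  set cs : Cst G :=
    { c1 := c1, ρV := min c1 (1 / CV), TU := 1, κD := max κD0 0,
      RQ := fun w => (BoxVol.exists_rayQ M (fun i => G.ray i = w)).some } with hcs
  have hCV0 : 0 < CV := by linarith
  have hρ1 : CV * cs.ρV ≤ 1 := by
    have h1 : cs.ρV ≤ 1 / CV := min_le_right _ _
    calc CV * cs.ρV ≤ CV * (1 / CV) := mul_le_mul_of_nonneg_left h1 hCV0.le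
      _ = 1 := by field_simp
  have hρ0 : 0 < cs.ρV := lt_min hc10 (by positivity)
  have hok : CstOk cs (exists_C1ok M).choose CV :=
    ⟨hc1, hρ0, min_le_left _ _, hρ1, hρ1, le_rfl, le_max_right _ _⟩
  refine ⟨cs, hc1, hρ0, min_le_left _ _, le_rfl, le_max_left _ _, le_max_right _ _, fun CK => ?_⟩
  obtain ⟨κ1, hκ1, hκG, hF⟩ := hfacts cs _ rfl hok
  obtain ⟨ω₀, hω₀, κ₀, hκ₀, hstick⟩ := exists_stick_ev hS hcl M.C_growth G cs hok.κD K RC Cb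
  obtain ⟨l0, l1, hl0, -, -, hl⟩ := exists_lam G
  have hslab := fun {κ : ℝ} (hκ : 0 ≤ κ) {ε : ℝ} (hε : 0 < ε) =>
    exists_slab_ev hS hcl M.C_growth G cs hok.κD K RC Cb (fun i => (hl i).1) hκ hε
  obtain ⟨γ, hγ⟩ := exists_gap G
  have hγ0 := hγ.1
  have hκm1 : κ1 ≤ max κ1 κ₀ := le_max_left _ _
  have hκ : 1 ≤ max κ1 κ₀ := hκ1.trans hκm1
  have hκ' : G.RS.Gt G.RS.lam ≤ max κ1 κ₀ := hκG.trans hκm1
  have hC : 1 ≤ max 1 (max CK (CA M cs.c1)) := le_max_left _ _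
  have hCA : CA M cs.c1 ≤ max 1 (max CK (CA M cs.c1)) := le_max_of_le_right (le_max_right _ _)
  have hCK : CK ≤ max 1 (max CK (CA M cs.c1)) := le_max_of_le_right (le_max_left _ _)
  obtain ⟨ω1, hω1, hel⟩ := El.el_K.{0, 0} (mdl cs (max κ1 κ₀) (max 1 (max CK (CA M cs.c1))) l0
    (exists_C1ok M).choose hκ hκ' hC hl0)
  refine ⟨min ω1 (min ω₀ (γ / 16)), by positivity, fun ω hω hωm => ?_⟩
  have hωω1 : ω ≤ ω1 := hωm.trans (min_le_left _ _)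
  have hωω₀ : ω ≤ ω₀ := hωm.trans ((min_le_right _ _).trans (min_le_left _ _))
  have hωγ : ω ≤ γ / 16 := hωm.trans ((min_le_right _ _).trans (min_le_right _ _))
  obtain ⟨b0, hb0, helb⟩ := hel ω hω hωω1
  refine ⟨min b0 ω, lt_min hb0 hω, min_le_right _ _, fun b hb hbb η hη β hβ => ?_⟩
  obtain ⟨L, hL, ε1, hε1, δ1, hδ1, q0, hel3⟩ := helb b hb (hbb.trans (min_le_left _ _)) η hη β hβ
  refine ⟨L, hL, ε1, hε1, δ1, hδ1, fun KS hKS => ?_⟩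
  have hE1 := hF (max κ1 κ₀) (max 1 (max CK (CA M cs.c1))) l0 (exists_C1ok M).choose hκm1 hκ hκ' hC
    hCA hl0 le_rfl γ hγ ω hω hωγ ε1 hε1 δ1 hδ1 q0
    ((hslab (by linarith : (0:ℝ) ≤ max κ1 κ₀) hε1).mono
      fun Sc τ u _ _ h Ψ hΨ x r s h0 h1 z hz0 hz1 X y y' _ r' t _ ht0 _ =>
        h Ψ hΨ x r s h0 h1 z hz0 hz1 X y y' r' t ht0)
    (hstick ω hωω₀ _ (le_max_right _ _) ε1 hε1)
  refine (hE1.and hKS).mono ?_
  rintro Sc τ u hτ hSc ⟨h1, h2⟩ hone hb' Ψ hΨ x hbox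
  have hFacts := h1 Ψ hΨ x hbox
  have hKF := h2 Ψ x (max κ1 κ₀) (max 1 (max CK (CA M cs.c1))) l0 (exists_C1ok M).choose hκ hκ' hC
    hl0 δ1 q0 hCK
  have hLpos : (0:ℝ) < L := by exact_mod_cast hL
  have h3 := hel3 M.NN M.NN (data G cs Ψ x Sc τ u) (par Sc ε1 δ1 ω q0 τ) hFacts rfl le_rfl le_rfl
    le_rfl (fun _ => 1) (KS Sc τ u) (fun _ _ => rfl)
    (fun w j hj => adm_lev (by positivity) hone hb' (by
      have : (L : ℝ) * (b / L) = b := by field_simp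
      rw [this]; exact hbb.trans (min_le_right _ _)) w hj) hKF
  exact h3

end Crest.Agent.R182.ElI
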