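/-
R182, module ELINST (helper656): the enlargement lemma for a `BModel`, final form.
-/
import Mathlib
import Crest.Agent.R182.ElMainInst
import Crest.Agent.R182.ElK2

set_option autoImplicit false
set_option linter.unusedSectionVars false

open MeasureTheory Set
open scoped Pointwise RealInnerProductSpace ENNReal

namespace Crest.Agent.R182.ElI

open Crest.GroupTheory Crest.Geometry Crest.Agent.R182.QI Crest.Agent.R182.Core
  Crest.Agent.R182.Nb Crest.Agent.R182.Gen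

variable {Γ : Type*} [Group Γ] {k : ℕ} {S : Set Γ} {π : Γ →* Multiplicative (Fin k → ℤ)}
variable {M : BModel S π} {E : Type} [NormedAddCommGroup E] [InnerProductSpace ℝ E]

/-- the thin set `K_b` for the round shape `1`, enlarged by `A2` -/
def thin (G : Geo M E) (u : G.R → M.G) (τ Sc l0 b τ' A2 : ℝ) : Set M.NN :=
  M.NB (fm G u τ fun _ => 1 + b) (A2 * Real.exp (-(l0 * (b - τ') * Sc)))

/-- **the enlargement lemma for a model** -/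
theorem el_hole (hS : S.Finite) (hcl : Subgroup.closure S = ⊤) [FiniteDimensional ℝ E]
    (G : Geo M E) [DecidableEq G.R] [Nonempty G.R] (hD : CDist M) (K : ℕ) (RC Cb : ℝ)
    {A2 : ℝ} (hA2 : 1 ≤ A2) {l0 : ℝ} (hl0 : 0 < l0) (hl : ∀ i, l0 ≤ G.RS.lam i) :
    ∃ cs : Cst G, 0 < cs.c1 ∧ 2 * cs.c1 ≤ 1 ∧
    ∃ ω0 : ℝ, 0 < ω0 ∧ ∀ ω : ℝ, 0 < ω → ω ≤ ω0 → ∃ b0 : ℝ, 0 < b0 ∧ b0 ≤ ω ∧
    ∀ b : ℝ, 0 < b → b ≤ b0 → ∀ τ' : ℝ, 0 < τ' → τ' < b →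
    ∀ η : ℝ, 0 < η → ∀ β : ℝ, 0 < β → ∃ L : ℕ, 0 < L ∧ ∃ ε1 : ℝ, 0 < ε1 ∧ ∃ δ1 : ℝ, 0 < δ1 ∧
    Ev G RC Cb fun Sc τ u => (∃ n : ℕ, (1 : ℝ) = n * τ) → (∃ n : ℕ, b / L = n * τ) →
      ∀ Ψ : Γ → Γ, QIMap S S Ψ K → ∀ x : M.G, BoxAt G cs Ψ x Sc τ u ω ε1 δ1 →
      volume {n : M.NN | n ∈ thin G u τ Sc l0 b τ' A2 ∧
        ∃ (w : G.R) (σ σ' : Equiv.Perm G.R) (θ θ' : E),
        LawAt G cs Ψ x Sc τ u ε1 δ1 (fun _ => 1) n σ θ ∧
        LawAt G cs Ψ x Sc τ u ε1 δ1 (Function.update (fun _ => 1) w (1 + b)) n σ' θ' ∧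
        ¬ (σ = σ' ∧ ‖θ - θ'‖ ≤ η)} ≤ ENNReal.ofReal β * volume (thin G u τ Sc l0 b τ' A2) := by
  classical
  have hcount : Countable Γ := countable_of_closure hS hcl
  obtain ⟨CV, hCV, hfacts⟩ := exists_facts (S := S) (π := π) G
    (fun w => (BoxVol.exists_rayQ M (fun i => G.ray i = w)).some) hD K RC Cb
  obtain ⟨κD0, ωK, bK, hκD0, hωK, hbK, hkf⟩ := kfacts_ev G hl0 hl
  obtain ⟨c1, hc1⟩ := (exists_C1ok M).choose_spec
  have hc10 := hc1.1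
  set cs : Cst G :=
    { c1 := c1, ρV := min c1 (1 / CV), TU := 1, κD := κD0,
      RQ := fun w => (BoxVol.exists_rayQ M (fun i => G.ray i = w)).some } with hcs
  have hCV0 : 0 < CV := by linarith
  have hρ1 : CV * cs.ρV ≤ 1 := by
    have h1 : cs.ρV ≤ 1 / CV := min_le_right _ _
    calc CV * cs.ρV ≤ CV * (1 / CV) := mul_le_mul_of_nonneg_left h1 hCV0.le
      _ = 1 := by field_simp
  have hρ0 : 0 < cs.ρV := lt_min hc10 (by positivity)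
  have hok : CstOk cs (exists_C1ok M).choose CV :=
    ⟨hc1, hρ0, min_le_left _ _, hρ1, hρ1, le_rfl, hκD0⟩
  have hρ1' : cs.ρV ≤ 1 := (min_le_left c1 (1 / CV)).trans (by linarith [hc1.2.1])
  obtain ⟨CK, hCK1, hkf2⟩ := hkf cs _ hc1 hρ0 hρ1' le_rfl A2 hA2
  refine ⟨cs, hc10, hc1.2.1, ?_⟩
  obtain ⟨κ1, hκ1, hκG, hF⟩ := hfacts cs _ rfl hok
  obtain ⟨ω₀, hω₀, κ₀, hκ₀, hstick⟩ := exists_stick_ev hS hcl M.C_growth G cs hok.κD K RC Cb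
  have hslab := fun {κ : ℝ} (hκ : 0 ≤ κ) {ε : ℝ} (hε : 0 < ε) =>
    exists_slab_ev hS hcl M.C_growth G cs hok.κD K RC Cb hl hκ hε
  obtain ⟨γ, hγ⟩ := exists_gap G
  have hγ0 := hγ.1
  have hκm1 : κ1 ≤ max κ1 κ₀ := le_max_left _ _
  have hκ : 1 ≤ max κ1 κ₀ := hκ1.trans hκm1
  have hκ' : G.RS.Gt G.RS.lam ≤ max κ1 κ₀ := hκG.trans hκm1
  have hC : 1 ≤ max 1 (max CK (CA M cs.c1)) := le_max_left _ _
  have hCA : CA M cs.c1 ≤ max 1 (max CK (CA M cs.c1)) := le_max_of_le_right (le_max_right _ _)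
  have hCK : CK ≤ max 1 (max CK (CA M cs.c1)) := le_max_of_le_right (le_max_left _ _)
  obtain ⟨ω1, hω1, hel⟩ := El.el_K.{0, 0} (mdl cs (max κ1 κ₀) (max 1 (max CK (CA M cs.c1))) l0
    (exists_C1ok M).choose hκ hκ' hC hl0)
  refine ⟨min (min ω1 ωK) (min ω₀ (γ / 16)), by positivity, fun ω hω hωm => ?_⟩
  have hωω1 : ω ≤ ω1 := hωm.trans ((min_le_left _ _).trans (min_le_left _ _))
  have hωK' : ω ≤ ωK := hωm.trans ((min_le_left _ _).trans (min_le_right _ _))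
  have hωω₀ : ω ≤ ω₀ := hωm.trans ((min_le_right _ _).trans (min_le_left _ _))
  have hωγ : ω ≤ γ / 16 := hωm.trans ((min_le_right _ _).trans (min_le_right _ _))
  obtain ⟨b0, hb0, helb⟩ := hel ω hω hωω1
  refine ⟨min (min b0 bK) ω, lt_min (lt_min hb0 hbK) hω, min_le_right _ _,
    fun b hb hbb τ' hτ' hτb η hη β hβ => ?_⟩
  have hbb0 : b ≤ b0 := hbb.trans ((min_le_left _ _).trans (min_le_left _ _))
  have hbbK : b ≤ bK := hbb.trans ((min_le_left _ _).trans (min_le_right _ _))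
  have hbω : b ≤ ω := hbb.trans (min_le_right _ _)
  obtain ⟨L, hL, ε1, hε1, δ1, hδ1, q0, hel3⟩ := helb b hb hbb0 η hη β hβ
  have hε1' : 0 < min ε1 b := lt_min hε1 hb
  refine ⟨L, hL, min ε1 b, hε1', δ1, hδ1, ?_⟩
  have hE1 := hF (max κ1 κ₀) (max 1 (max CK (CA M cs.c1))) l0 (exists_C1ok M).choose hκm1 hκ hκ' hC
    hCA hl0 le_rfl γ hγ ω hω hωγ (min ε1 b) hε1' δ1 hδ1 q0
    ((hslab (by linarith : (0:ℝ) ≤ max κ1 κ₀) hε1').mono
      fun Sc τ u _ _ h Ψ hΨ x r s h0 h1 z hz0 hz1 X y y' _ r' t _ ht0 _ =>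
        h Ψ hΨ x r s h0 h1 z hz0 hz1 X y y' r' t ht0)
    (hstick ω hωω₀ _ (le_max_right _ _) (min ε1 b) hε1')
  have hE2 := hkf2 (max κ1 κ₀) (max 1 (max CK (CA M cs.c1))) l0 (exists_C1ok M).choose hκ hκ' hC
    hl0 hCK ω hωK' b hb hbbK τ' hτ' hτb (min ε1 b) hε1' (min_le_right _ _) δ1 q0 RC Cb
  refine (hE1.and hE2).mono ?_
  rintro Sc τ u hτ hSc ⟨h1, h2⟩ hone hb' Ψ hΨ x hbox
  have hFacts := h1 Ψ hΨ x hbox
  have hLpos : (0:ℝ) < L := by exact_mod_cast hL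
  have hLb : (L : ℝ) * (b / L) = b := by field_simp
  have hAdm1 : adm τ ω (fun _ : G.R => (1:ℝ)) := adm_one hω.le hone
  have hAdm2 : adm τ ω (fun _ : G.R => (1:ℝ) + b) := by
    obtain ⟨n, hn⟩ := hone
    obtain ⟨n', hn'⟩ := hb'
    refine ⟨⟨fun _ => n + L * n', fun _ => ?_⟩, fun _ => ?_⟩
    · push_cast
      rw [add_mul, mul_assoc, ← hn, ← hn', hLb]
    · rw [add_sub_cancel_left, abs_of_pos hb]; exact hbω
  have hKF := h2 (fun _ => 1) hAdm1 hAdm2 Ψ x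
  exact hel3 M.NN M.NN (data G cs Ψ x Sc τ u) (par Sc (min ε1 b) δ1 ω q0 τ) hFacts rfl
    (min_le_left _ _) le_rfl le_rfl (fun _ => 1) (thin G u τ Sc l0 b τ' A2) (fun _ _ => rfl)
    (fun w j hj => adm_lev (by positivity) hone hb' (by rw [hLb]; exact hbω) w hj) hKF

end Crest.Agent.R182.ElI
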