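/-
R182, module ELINST (helper88): the fields `slab` and `stick` in the form of `ElFacts`.
-/
import Mathlib
import Crest.Agent.R182.ElFacts
import Crest.Agent.R182.ElSlab

set_option autoImplicit false
set_option linter.unusedSectionVars false

open MeasureTheory Set
open scoped Pointwise RealInnerProductSpace ENNReal

namespace Crest.Agent.R182.ElI

open Crest.GroupTheory Crest.Geometry Crest.Agent.R182.QI Crest.Agent.R182.Core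
  Crest.Agent.R182.Nb Crest.Agent.R182.Gen

variable {Γ : Type*} [Group Γ] {k : ℕ} {S : Set Γ} {π : Γ →* Multiplicative (Fin k → ℤ)}
variable {M : BModel S π} {E : Type} [NormedAddCommGroup E] [InnerProductSpace ℝ E]

/-- field `slab` -/
theorem slab_ev (hS : S.Finite) (hcl : Subgroup.closure S = ⊤) (G : Geo M E) (cs : Cst G)
    (hκD : 0 ≤ cs.κD) (K : ℕ) (RC Cb : ℝ) :
    ∃ c0 : ℝ, 0 < c0 ∧ ∀ κ, 0 ≤ κ → ∀ ω ε : ℝ, 0 < ε → SlabEv G cs K RC Cb κ c0 ω ε := by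
  obtain ⟨l0, l1, hl0, -, -, hl⟩ := exists_lam G
  refine ⟨l0, hl0, fun κ hκ ω ε hε => ?_⟩
  refine (exists_slab_ev hS hcl M.C_growth G cs hκD K RC Cb (fun i => (hl i).1) hκ hε).mono ?_
  intro Sc τ u _ _ h Ψ hΨ x r s hs hs2 z hz hz1 X y y' θ r' t _ ht _
  exact h Ψ hΨ x r s hs hs2 z hz hz1 X y y' r' t ht

/-- field `stick` -/
theorem stick_ev (hS : S.Finite) (hcl : Subgroup.closure S = ⊤) (G : Geo M E) (cs : Cst G)
    (hκD : 0 ≤ cs.κD) (K : ℕ) (RC Cb : ℝ) :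
    ∃ ω₀ : ℝ, 0 < ω₀ ∧ ∃ κ1 : ℝ, 1 ≤ κ1 ∧ ∀ κ, κ1 ≤ κ → ∀ ω, ω ≤ ω₀ → ∀ ε : ℝ, 0 < ε →
      StickEv G cs K RC Cb κ ω ε := by
  obtain ⟨ω₀, hω₀, κ₀, hκ₀, h⟩ := exists_stick_ev hS hcl M.C_growth G cs hκD K RC Cb
  exact ⟨ω₀, hω₀, κ₀, hκ₀, fun κ hκ ω hω ε hε => h ω hω κ hκ ε hε⟩

end Crest.Agent.R182.ElI
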