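/-
R182, module GROMOV: word length of a finite generating set, as a length function whose balls
are the powers of the symmetrised set.
-/
import Mathlib
import Crest.Agent.R182.GromovDefs

set_option autoImplicit false
open scoped Pointwise

namespace Crest.Agent.R182.Gromov.Word

variable {K : Type*} [Group K]

/-- symmetrised generating set, with the identity -/
def sym (T : Set K) : Set K := insert 1 (T ∪ T⁻¹)

theorem one_mem_sym (T : Set K) : (1 : K) ∈ sym T := Set.mem_insert _ _

theorem subset_sym (T : Set K) : T ⊆ sym T :=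
  fun _ hx => Set.mem_insert_of_mem _ (Or.inl hx)

theorem inv_mem_sym {T : Set K} {g : K} (h : g ∈ sym T) : g⁻¹ ∈ sym T := by
  rcases h with h | h | h
  · left; simp [h]
  · right; right; simpa using h
  · right; left; simpa using h

theorem sym_finite {T : Set K} (hT : T.Finite) : (sym T).Finite :=
  (hT.union hT.inv).insert 1

theorem pow_mono (T : Set K) {m n : ℕ} (h : m ≤ n) : sym T ^ m ⊆ sym T ^ n :=
  Set.pow_subset_pow_right (one_mem_sym T) h

theorem one_mem_pow (T : Set K) (n : ℕ) : (1 : K) ∈ sym T ^ n :=
  pow_mono T (Nat.zero_le n) (by simp)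

theorem inv_mem_pow {T : Set K} {n : ℕ} {g : K} (h : g ∈ sym T ^ n) : g⁻¹ ∈ sym T ^ n := by
  induction n generalizing g with
  | zero => simpa using h
  | succ n ih =>
    rw [pow_succ] at h
    obtain ⟨a, ha, b, hb, rfl⟩ := Set.mem_mul.1 h
    rw [mul_inv_rev, pow_succ']
    exact Set.mul_mem_mul (inv_mem_sym hb) (ih ha)

theorem exists_mem_pow {T : Set K} (hT : Subgroup.closure T = ⊤) (g : K) :
    ∃ n, g ∈ sym T ^ n := by
  have hg : g ∈ Subgroup.closure T := by rw [hT]; trivial
  induction hg using Subgroup.closure_induction with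
  | mem x hx => exact ⟨1, by rw [pow_one]; exact subset_sym T hx⟩
  | one => exact ⟨0, by simp⟩
  | mul x y _ _ hx hy =>
    obtain ⟨m, hm⟩ := hx
    obtain ⟨n, hn⟩ := hy
    exact ⟨m + n, by rw [pow_add]; exact Set.mul_mem_mul hm hn⟩
  | inv x _ hx =>
    obtain ⟨m, hm⟩ := hx
    exact ⟨m, inv_mem_pow hm⟩

/-- word length -/
noncomputable def len (T : Set K) (g : K) : ℕ := sInf {n | g ∈ sym T ^ n}

theorem len_le_iff {T : Set K} (hT : Subgroup.closure T = ⊤) (g : K) (n : ℕ) :
    len T g ≤ n ↔ g ∈ sym T ^ n := by
  constructor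
  · intro h
    have : g ∈ sym T ^ (len T g) := Nat.sInf_mem (s := {n | g ∈ sym T ^ n}) (exists_mem_pow hT g)
    exact pow_mono T h this
  · intro h
    exact Nat.sInf_le h

theorem ball_eq {T : Set K} (hT : Subgroup.closure T = ⊤) (n : ℕ) :
    {g | len T g ≤ n} = sym T ^ n := by
  ext g; exact len_le_iff hT g n

theorem pow_finite {T : Set K} (hT : T.Finite) (n : ℕ) : (sym T ^ n).Finite := by
  induction n with
  | zero => simp
  | succ n ih => rw [pow_succ]; exact ih.mul (sym_finite hT)

/-- the word length of a finite generating set is a polynomial length as soon as the powers of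
the symmetrised set grow polynomially -/
theorem polyLen {T : Set K} (hT : Subgroup.closure T = ⊤) (hfin : T.Finite) {C d : ℕ}
    (h : ∀ n, (sym T ^ n).ncard ≤ C * (n + 1) ^ d) : PolyLen (len T) C d where
  one := by
    have := (len_le_iff hT (1 : K) 0).2 (one_mem_pow T 0)
    omega
  mul g k := by
    rw [len_le_iff hT, pow_add]
    exact Set.mul_mem_mul ((len_le_iff hT g _).1 le_rfl) ((len_le_iff hT k _).1 le_rfl)
  inv g := by
    apply le_antisymm
    · rw [len_le_iff hT]; exact inv_mem_pow ((len_le_iff hT g _).1 le_rfl)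
    · rw [len_le_iff hT]
      have := inv_mem_pow ((len_le_iff hT g⁻¹ _).1 le_rfl)
      simpa using this
  fin n := by rw [ball_eq hT]; exact pow_finite hfin n
  card n := by rw [ball_eq hT]; exact h n

end Crest.Agent.R182.Gromov.Word
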