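/-
R182, module HOLE (helper710): bounded vertical elements conjugated by powers of verticals.
-/
import Mathlib
import Crest.Agent.R182.CoreX
import Crest.Agent.R182.OneScale

set_option autoImplicit false

namespace Crest.Agent.R182.HoleOne

open Crest.GroupTheory Crest.Geometry Crest.Agent.R182.QI Crest.Agent.R182.FinPath
  Crest.Agent.R182.FinRed Crest.Agent.R182.Bnd Crest.Agent.R182.Core Crest.Agent.R182.OneScale

variable {Γ : Type*} [Group Γ] {k : ℕ} {S : Set Γ} {π : Γ →* Multiplicative (Fin k → ℤ)}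

theorem len_list_le (M : BModel S π) {R : ℝ} (l : List M.G) (h : ∀ s ∈ l, M.len s ≤ R) :
    M.len l.prod ≤ l.length * R := by
  induction l with
  | nil => simp [M.isLen.one]
  | cons s l ih =>
    rw [List.prod_cons, List.length_cons]
    refine (M.isLen.mul _ _).trans ?_
    have h1 := h s List.mem_cons_self
    have h2 := ih fun t ht => h t (List.mem_cons_of_mem _ ht)
    push_cast
    linarith

/-- one vertical -/
theorem conj_len_one (M : BModel S π) (hX : XModel M) {b : M.G} (hb : b ∈ M.CN) (R C : ℝ) {δ : ℝ}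
    (hδ : 0 < δ) : ∃ N0 : ℕ, ∀ N : ℕ, N0 ≤ N → ∀ j : ℕ, (j : ℝ) ≤ C * N → ∀ y ∈ M.C,
      M.len y ≤ R → M.len ((b ^ j)⁻¹ * y * b ^ j) ≤ δ * N := by
  obtain ⟨R₀, hR₀⟩ := hX.sub_conj
  set C' : ℕ := ⌈C⌉₊ + 1 with hC'
  have hC'1 : (1 : ℝ) ≤ C' := by rw [hC']; push_cast; linarith [Nat.cast_nonneg (α := ℝ) ⌈C⌉₊]
  have hCC' : C ≤ C' := by
    rw [hC']; push_cast
    have := Nat.le_ceil C
    linarith
  set δ' : ℝ := δ / (C' * (|R₀| + 1)) with hδ'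
  have hR0p : 0 < |R₀| + 1 := by positivity
  have hδ'p : 0 < δ' := by rw [hδ']; positivity
  obtain ⟨N₀, hN₀⟩ := hR₀ b⁻¹ (M.CN.inv_mem hb) R δ' hδ'p
  refine ⟨N₀, fun N hN j hj y hy hyR => ?_⟩
  have hNn : (0 : ℝ) ≤ N := Nat.cast_nonneg N
  have hN' : N₀ ≤ C' * N := by
    have : 1 ≤ C' := by rw [hC']; omega
    calc N₀ ≤ N := hN
      _ = 1 * N := (one_mul N).symm
      _ ≤ C' * N := Nat.mul_le_mul_right N this
  have hj' : j ≤ C' * N := by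
    have h1 : (j : ℝ) ≤ ((C' * N : ℕ) : ℝ) := by
      push_cast
      exact hj.trans (mul_le_mul_of_nonneg_right hCC' hNn)
    exact_mod_cast h1
  obtain ⟨l, hl1, hl2, hl3⟩ := hN₀ (C' * N) hN' j hj' y hy hyR
  have e1 : (b ^ j)⁻¹ * y * b ^ j = l.prod := by
    rw [← hl1, inv_pow, inv_inv]
  rw [e1]
  have h2 := len_list_le M l (R := |R₀| + 1) fun s hs =>
    ((hl3 s hs).2.trans (le_abs_self _)).trans (by linarith)
  refine h2.trans ?_
  push_cast at hl2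
  calc (l.length : ℝ) * (|R₀| + 1) ≤ (δ' * (C' * N)) * (|R₀| + 1) := by gcongr
    _ = δ * N := by rw [hδ']; field_simp

/-- finitely many verticals -/
theorem exists_conj_len (M : BModel S π) (hX : XModel M) (B : Finset M.G)
    (hB : ∀ b ∈ B, b ∈ M.CN) (R C : ℝ) {δ : ℝ} (hδ : 0 < δ) :
    ∃ N0 : ℕ, ∀ N : ℕ, N0 ≤ N → ∀ b ∈ B, ∀ j : ℕ, (j : ℝ) ≤ C * N → ∀ y ∈ M.C,
      M.len y ≤ R → M.len ((b ^ j)⁻¹ * y * b ^ j) ≤ δ * N := by
  classical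
  have h : ∀ b : B, ∃ N0 : ℕ, ∀ N : ℕ, N0 ≤ N → ∀ j : ℕ, (j : ℝ) ≤ C * N → ∀ y ∈ M.C,
      M.len y ≤ R → M.len (((b : M.G) ^ j)⁻¹ * y * (b : M.G) ^ j) ≤ δ * N :=
    fun b => conj_len_one M hX (hB b b.2) R C hδ
  choose N0 hN0 using h
  refine ⟨Finset.univ.sup N0, fun N hN b hb j hj y hy hyR => ?_⟩
  exact hN0 ⟨b, hb⟩ N ((Finset.le_sup (f := N0) (Finset.mem_univ _)).trans hN) j hj y hy hyR

/-- **the heights of the images** of `z b^j` and `z y b^j` are close, for bounded `y ∈ C`. -/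
theorem exists_conj_fh (M : BModel S π) (hX : XModel M) (K : ℕ) (B : Finset M.G)
    (hB : ∀ b ∈ B, b ∈ M.CN) (R C : ℝ) {δ : ℝ} (hδ : 0 < δ) :
    ∃ N0 : ℕ, ∀ N : ℕ, N0 ≤ N → ∀ b ∈ B, ∀ j : ℕ, (j : ℝ) ≤ C * N → ∀ y ∈ M.C,
      M.len y ≤ R → ∀ Ψ : Γ → Γ, QIMap S S Ψ K → ∀ (z : M.G) (i : Fin k),
        |fh M Ψ (z * (y * b ^ j)) i - fh M Ψ (z * b ^ j) i| ≤ δ * N := by
  obtain ⟨c, hc, hlip⟩ := fh_lip M K
  obtain ⟨N1, hN1⟩ := exists_conj_len M hX B hB R C (δ := δ / (2 * (c + 1))) (by positivity)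
  obtain ⟨N2, hN2⟩ := exists_nat_ge (2 * c / δ)
  refine ⟨max N1 N2, fun N hN b hb j hj y hy hyR Ψ hΨ z i => ?_⟩
  have h1 := hN1 N (le_of_max_le_left hN) b hb j hj y hy hyR
  have h2 : (N2 : ℝ) ≤ N := by exact_mod_cast le_of_max_le_right hN
  have hNn : (0 : ℝ) ≤ N := Nat.cast_nonneg N
  have h3 := hlip Ψ hΨ (z * b ^ j) ((b ^ j)⁻¹ * y * b ^ j) i
  have e1 : z * b ^ j * ((b ^ j)⁻¹ * y * b ^ j) = z * (y * b ^ j) := by group
  rw [e1] at h3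
  refine h3.trans ?_
  have h4 : c ≤ δ / 2 * N := by
    have h5 := hN2.trans h2
    rw [div_le_iff₀ hδ] at h5
    linarith
  have h5 : c * (δ / (2 * (c + 1)) * N) ≤ δ / 2 * N := by
    have h6 : c * (δ / (2 * (c + 1))) ≤ δ / 2 := by
      rw [mul_div_assoc', div_le_div_iff₀ (by positivity) (by norm_num)]
      nlinarith
    calc c * (δ / (2 * (c + 1)) * N) = (c * (δ / (2 * (c + 1)))) * N := by ring
      _ ≤ δ / 2 * N := mul_le_mul_of_nonneg_right h6 hNn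
  have h6 : c * M.len ((b ^ j)⁻¹ * y * b ^ j) ≤ c * (δ / (2 * (c + 1)) * N) :=
    mul_le_mul_of_nonneg_left h1 hc
  calc c * (M.len ((b ^ j)⁻¹ * y * b ^ j) + 1) = c * M.len ((b ^ j)⁻¹ * y * b ^ j) + c := by ring
    _ ≤ δ / 2 * N + δ / 2 * N := by linarith
    _ = δ * N := by ring

end Crest.Agent.R182.HoleOne
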