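/-
R182, module HOLE (helper823): one scale: laws of all shapes + the enlargement estimates + the
geometry ⇒ the law of the middle shape follows the verticals.
-/
import Mathlib
import Crest.Agent.R182.HoleScale
import Crest.Agent.R182.HoleEnd
import Crest.Agent.R182.HoleDict

set_option autoImplicit false
set_option linter.unusedSectionVars false

open MeasureTheory Set
open scoped ENNReal

namespace Crest.Agent.R182.HoleOne

open Crest.GroupTheory Crest.Geometry Crest.Agent.R182.QI Crest.Agent.R182.Core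
  Crest.Agent.R182.Core.BModel Crest.Agent.R182.Nb Crest.Agent.R182.HoleNil
  Crest.Agent.R182.OneScale Crest.Agent.R182.HoleGeo Crest.Agent.R182.ElI

variable {Γ : Type*} [Group Γ] {k : ℕ} {S : Set Γ} {π : Γ →* Multiplicative (Fin k → ℤ)}
  {M : BModel S π} {E : Type} [NormedAddCommGroup E] [InnerProductSpace ℝ E]
  [FiniteDimensional ℝ E]

theorem Clr_mono_R {R R' : ℝ} (h : R ≤ R') {m : ℕ} {g : M.G} (hg : g ∈ Clr M R m) :
    g ∈ Clr M R' m := by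
  obtain ⟨l, hl, h1, h2⟩ := hg
  exact ⟨l, hl, h1, fun s hs => ⟨(h2 s hs).1, (h2 s hs).2.trans h⟩⟩

theorem legB_mono_R {ρ : Type} {ray : M.gen → ρ} {x : ρ → M.G} {N : ℕ} {R R' μ₁ μ₂ : ℝ}
    (h : LegB ray x N R μ₁ μ₂) (hR : R ≤ R') : LegB ray x N R' μ₁ μ₂ :=
  ⟨h.pos, h.le, h.lower, h.upper, fun r => Clr_mono_R hR (h.one r)⟩

/-- the constants of the measure estimates -/
theorem exists_δε (gc : GC) (r : ℕ) (hc1 : 0 < gc.c1) (hA3 : 1 ≤ gc.A3) : ∃ δ ε : ℝ, 0 < δ ∧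
    0 < ε ∧ ∃ C : ℝ≥0∞, ENNReal.ofReal (gc.A3 ^ r) ≤ C ∧ ENNReal.ofReal ((gc.c1⁻¹) ^ r) ≤ C ∧
    2 * ENNReal.ofReal δ < 1 ∧
    (gc.J + 1) * (4 * (4 * ENNReal.ofReal δ * C + ENNReal.ofReal ε) + ENNReal.ofReal δ) +
      (gc.J + 1) * (4 * (4 * ENNReal.ofReal δ * C + ENNReal.ofReal ε) + ENNReal.ofReal δ) * C <
      1 := by
  obtain ⟨C, hC⟩ : ∃ C : ℝ, C = gc.A3 ^ r + (gc.c1⁻¹) ^ r := ⟨_, rfl⟩
  have h1 : 0 ≤ gc.A3 ^ r := by positivity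
  have h2 : 0 ≤ (gc.c1⁻¹) ^ r := by positivity
  have hC0 : 0 ≤ C := by rw [hC]; positivity
  obtain ⟨δ, hδ⟩ : ∃ δ : ℝ, δ = 1 / (2 * ((gc.J + 1) * (16 * C + 5) * (1 + C) + 1)) := ⟨_, rfl⟩
  have hden : 0 < 2 * (((gc.J : ℝ) + 1) * (16 * C + 5) * (1 + C) + 1) := by positivity
  have hδ0 : 0 < δ := by rw [hδ]; positivity
  have hJ : ((gc.J : ℝ≥0∞) + 1) = ENNReal.ofReal (gc.J + 1) := by
    rw [ENNReal.ofReal_add (Nat.cast_nonneg _) zero_le_one, ENNReal.ofReal_natCast,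
      ENNReal.ofReal_one]
  have h4 : (4 : ℝ≥0∞) = ENNReal.ofReal 4 := by norm_num
  refine ⟨δ, δ, hδ0, hδ0, ENNReal.ofReal C, ENNReal.ofReal_le_ofReal (by rw [hC]; linarith),
    ENNReal.ofReal_le_ofReal (by rw [hC]; linarith), ?_, ?_⟩
  · have h5 : (2 : ℝ≥0∞) = ENNReal.ofReal 2 := by norm_num
    rw [h5, ← ENNReal.ofReal_mul (by norm_num), ← ENNReal.ofReal_one]
    refine (ENNReal.ofReal_lt_ofReal_iff one_pos).2 ?_
    rw [hδ, mul_one_div, div_lt_one hden]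
    have : 0 ≤ ((gc.J : ℝ) + 1) * (16 * C + 5) * (1 + C) := by positivity
    have h6 : (1 : ℝ) * 5 * 1 ≤ ((gc.J : ℝ) + 1) * (16 * C + 5) * (1 + C) := by
      have hJ0 : (0:ℝ) ≤ gc.J := Nat.cast_nonneg _
      gcongr <;> linarith
    linarith
  · rw [hJ, h4, ← ENNReal.ofReal_mul (by norm_num), ← ENNReal.ofReal_mul (by positivity),
      ← ENNReal.ofReal_add (by positivity) hδ0.le, ← ENNReal.ofReal_mul (by norm_num),
      ← ENNReal.ofReal_add (by positivity) hδ0.le, ← ENNReal.ofReal_mul (by positivity),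
      ← ENNReal.ofReal_mul (by positivity), ← ENNReal.ofReal_add (by positivity) (by positivity),
      ← ENNReal.ofReal_one]
    refine (ENNReal.ofReal_lt_ofReal_iff one_pos).2 ?_
    have h5 : ((gc.J : ℝ) + 1) * (4 * (4 * δ * C + δ) + δ) +
        (gc.J + 1) * (4 * (4 * δ * C + δ) + δ) * C =
        (gc.J + 1) * (16 * C + 5) * (1 + C) * δ := by ring
    rw [h5, hδ, mul_one_div, div_lt_one hden]
    have : 0 ≤ ((gc.J : ℝ) + 1) * (16 * C + 5) * (1 + C) := by positivity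
    linarith

/-- the conditions on the measure constants -/
structure DE (gc : GC) (r : ℕ) (δ ε : ℝ) (C : ℝ≥0∞) : Prop where
  hC1 : ENNReal.ofReal (gc.A3 ^ r) ≤ C
  hC2 : ENNReal.ofReal ((gc.c1⁻¹) ^ r) ≤ C
  hδ : 2 * ENNReal.ofReal δ < 1
  hε : (gc.J + 1) * (4 * (4 * ENNReal.ofReal δ * C + ENNReal.ofReal ε) + ENNReal.ofReal δ) +
      (gc.J + 1) * (4 * (4 * ENNReal.ofReal δ * C + ENNReal.ofReal ε) + ENNReal.ofReal δ) * C < 1

/-- the enlargement estimate for the increment `q`, at one scale -/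
def ElAt (G : Geo M E) [DecidableEq G.R] (gc : GC) (Ψ : Γ → Γ) (u : G.R → M.G) (p q J : ℕ)
    (e τ η δ ε : ℝ) : Prop :=
  ∀ (y : M.G) (r : G.R), volume {n : M.NN |
      n ∈ M.NB (F G.ray u fun _ => p + q) (gc.A2 * e) ∧ ∃ Λ Λ',
      LawB M Ψ G.ray u gc.c1 (ww' G u J) τ (ENNReal.ofReal δ) (y * M.toG n) (fun _ => p) Λ ∧
      LawB M Ψ G.ray u gc.c1 (ww' G u J) τ (ENNReal.ofReal δ) (y * M.toG n)
        (Function.update (fun _ => p) r (p + q)) Λ' ∧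
      η < dist Λ Λ'} ≤ ENNReal.ofReal ε * volume (M.NB (F G.ray u fun _ => p + q) e)

/-- **One scale.** -/
theorem exists_core [Countable Γ] (G : Geo M E) [DecidableEq G.R] {gc : GC}
    (hgc : gc.Ok M M.gen) (RC T : ℝ) (hT : 0 ≤ T) :
    ∃ (R' s2 e1 P₀ : ℝ) (D₀ : ℕ), 0 ≤ R' ∧ 0 < s2 ∧ 0 < e1 ∧ 1 ≤ P₀ ∧ ∀ K : ℕ, ∃ cK : ℝ,
    ∀ (u : G.R → M.G) (N : ℕ) (μ₁ μ₂ : ℝ), 1 ≤ N → LegB G.ray u N RC μ₁ μ₂ →
    ∀ (p q₁ q₂ d J : ℕ) (a₁ a₂ a : ℝ), 1 ≤ J → J ≤ q₁ → q₁ + 2 * d = q₂ → J ≤ 2 * d →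
    (M.c + 1) * J * μ₂ + J * μ₁ ≤ a₁ → a₁ + J * μ₁ ≤ q₁ * μ₁ →
    (M.c + 1) * (2 * d + J) * μ₂ + J * μ₁ ≤ a₂ → a₂ + J * μ₁ ≤ q₂ * μ₁ →
    a₂ + J * μ₁ ≤ a₁ + 2 * d * μ₁ → J * μ₂ + J * μ₁ ≤ d * μ₁ →
    (∀ m : G.R → ℕ, (∀ r, p ≤ m r) → (∀ r, m r ≤ p + q₂) → Tch G.ray u T m) →
    P₀ * (1 + ((p + q₂) * N : ℕ)) ^ D₀ * Real.exp (-(J * μ₁)) ≤ 1 →
    0 < a → (∀ e, ‖G.T (M.h (u e ^ J)) - a • (e : E)‖ ≤ e1 * a) →
    ∃ D : ℝ, ∀ (Ψ : Γ → Γ), QIMap S S Ψ K → ∀ (τ τ' η δ ε : ℝ) (C : ℝ≥0∞), 0 ≤ τ → 0 ≤ τ' →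
      0 ≤ η → DE gc M.r δ ε C →
      (∀ m : G.R → ℕ, (∀ r, p ≤ m r) → (∀ r, m r ≤ p + q₂) → ∀ y, ∃ L ∈ LLV G, ∃ θ,
        LawB M Ψ G.ray u gc.c1 (ww' G u J) τ (ENNReal.ofReal δ) y m (pr M (ww' G u J) L θ)) →
      ElAt G gc Ψ u p q₁ J (Real.exp (-a₁)) τ η δ ε →
      ElAt G gc Ψ u p q₂ J (Real.exp (-a₂)) τ η δ ε →
      (∀ c ∈ M.C, M.len c ≤ R' → ∀ z o, dist (fh M Ψ (z * (c * ww G u J o)))
        (fh M Ψ (z * ww G u J o)) ≤ τ') →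
      2 * (4 * τ + τ' + (2 * gc.J + 4) * (8 * τ + 2 * η)) ≤ s2 * a →
      ∃ (θ : M.G → Fin k → ℝ) (Lx : M.G → (Fin k → ℝ) →ₗ[ℝ] (Fin k → ℝ)),
        (∀ g, Lx g ∈ LLV G) ∧
        (∀ g i, |θ g i - fh M Ψ g i| ≤ cK * (D + 1) + τ) ∧
        (∀ g s, M.len s ≤ M.a → Lx (g * s) = Lx g) ∧
        ∀ g e, ∀ j ≤ J, ∀ i, |θ (g * u e ^ j) i - θ g i - Lx g (M.h (u e ^ j)) i| ≤
          2 * (4 * τ + τ' + (2 * gc.J + 4) * (8 * τ + 2 * η)) := by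
  obtain ⟨R', hR', s2, hs2, e1, he1, hend⟩ := end_scale G
  obtain ⟨P₁, D₁, hP₁, hgeo⟩ := HoleGeo.exists_geo gc hgc (Gen.spans M) (max RC R') T hT
  obtain ⟨P₂, D₂, hP₂, hsets⟩ := exists_end_geo gc hgc (Gen.spans M) (max RC R') R' T
    (le_max_right _ _) hT
  refine ⟨R', s2, e1, max P₁ P₂, max D₁ D₂, hR', hs2, he1, hP₁.trans (le_max_left _ _),
    fun K => ?_⟩
  obtain ⟨cK, hcK, hend⟩ := hend K
  refine ⟨cK, ?_⟩
  intro u N μ₁ μ₂ hN hL0 p q₁ q₂ d J a₁ a₂ a hJ hJq hd hJd h1 h1' h2 h2' h2'' h3 hT' hP ha hacc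
  have hL := legB_mono_R hL0 (le_max_left RC R')
  have hμ := hL.pos
  have hbase : 1 ≤ (1 : ℝ) + (((p + q₂) * N : ℕ) : ℝ) := le_add_of_nonneg_right (Nat.cast_nonneg _)
  have hPi : ∀ (P : ℝ) (D : ℕ), 0 ≤ P → P ≤ max P₁ P₂ → D ≤ max D₁ D₂ →
      P * (1 + (((p + q₂) * N : ℕ) : ℝ)) ^ D * Real.exp (-(J * μ₁)) ≤ 1 := by
    intro P D hP0 hPm hDm
    refine le_trans ?_ hP
    gcongr
  have hdr : (q₂ : ℝ) - q₁ = 2 * d := by
    rw [← hd]; push_cast; ring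
  obtain ⟨D, hD⟩ := exists_len_NB M (F G.ray u fun _ => p + (q₁ - J) + d) gc.c1
  refine ⟨D, ?_⟩
  intro Ψ hΨ τ τ' η δ ε C hτ hτ' hη hDE hlaw el₁ el₂ hC hsm
  have hup : ∀ (r r' : G.R) (q : ℕ), q ≤ q₂ →
      p ≤ Function.update (fun _ : G.R => p) r (p + q) r' ∧
      Function.update (fun _ : G.R => p) r (p + q) r' ≤ p + q₂ := by
    intro r r' q hq
    by_cases h : r' = r
    · subst h
      rw [Function.update_self]; omega
    · rw [Function.update_of_ne h]; omega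
  have hq12 : q₁ ≤ q₂ := by omega
  have hcl : ∀ m : G.R → ℕ, (∀ r, m r ≤ p + q₂) → ∀ r, u r ^ m r ∈
      Clr M (max RC R') ((p + q₂) * N) := fun m hm r =>
    Clr_mono (Clr_pow (hL.one r) _) (Nat.mul_le_mul_right _ (hm r))
  have hz : ∀ m : G.R → ℕ, (∀ r, p ≤ m r) → (∀ r, m r ≤ p + q₂) → ∀ s : ℝ, 0 < s →
      volume (M.NB (F G.ray u m) s) ≠ 0 := fun m hm hm' s hs =>
    volume_fam_ne_zero (Gen.spans M) hT (hcl m hm') (hT' m hm hm') hs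
  have hc1 := hgc.c1_pos
  have hc1' := hgc.c1_le
  obtain ⟨g1, g2, g3, g4⟩ := hgeo G.ray u N μ₁ μ₂ hL (p + q₂) (fun _ => p) q₁ q₂ J a₁ a₂
    (fun _ => le_rfl) hJq (by omega) h1 h1' (by rw [hdr]; exact h2) h2' (by rw [hdr]; exact h2'')
    (hT' _ (fun _ => le_rfl) fun _ => by omega) (hT' _ (fun _ => by omega) fun _ => by omega)
    (hT' _ (fun _ => by omega) fun _ => by omega) (hT' _ (fun _ => by omega) fun _ => by omega)
    (hT' _ (fun _ => by omega) fun _ => by omega)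
    (fun r => hT' _ (fun r' => (hup r r' q₁ hq12).1) fun r' => (hup r r' q₁ hq12).2)
    (fun r => hT' _ (fun r' => (hup r r' q₂ le_rfl).1) fun r' => (hup r r' q₂ le_rfl).2)
    (hPi P₁ D₁ (by linarith) (le_max_left _ _) (le_max_left _ _))
  have ex : ∀ {m : G.R → ℕ}, (∀ r, p ≤ m r) → (∀ r, m r ≤ p + q₂) → ∀ y, ∃ Λ,
      LawB M Ψ G.ray u gc.c1 (ww' G u J) τ (ENNReal.ofReal δ) y m Λ := by
    intro m hm hm' y
    obtain ⟨L, -, θ, h⟩ := hlaw m hm hm' y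
    exact ⟨_, h⟩
  have hole : ∀ y Λ Λ', LawB M Ψ G.ray u gc.c1 (ww' G u J) τ (ENNReal.ofReal δ) y
      (fun _ => p + (q₁ - J)) Λ → LawB M Ψ G.ray u gc.c1 (ww' G u J) τ (ENNReal.ofReal δ) y
      (fun _ => p + (q₂ - J)) Λ' → dist Λ Λ' ≤ (2 * gc.J + 4) * (8 * τ + 2 * η) := by
    intro y Λ Λ' hΛ hΛ'
    exact hole_scale hgc (m := fun _ => p) (q₁ := q₁) (q₂ := q₂) (t := J) (e₁ := Real.exp (-a₁))
      (e₂ := Real.exp (-a₂)) (Real.exp_pos _) (Real.exp_pos _) (Real.exp_le_one_iff.2 (by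
        have hμ2 := hμ.trans_le hL.le
        have : 0 ≤ ((M.c : ℝ) + 1) * (2 * d + J) * μ₂ + J * μ₁ := by positivity
        linarith)) (hz _ (fun _ => le_rfl) (fun _ => by omega) _ hc1)
      (fun r => hz _ (fun r' => (hup r r' q₁ hq12).1) (fun r' => (hup r r' q₁ hq12).2) _ hc1)
      (fun r => hz _ (fun r' => (hup r r' q₂ le_rfl).1) (fun r' => (hup r r' q₂ le_rfl).2) _ hc1)
      (hz _ (fun _ => by omega) (fun _ => by omega) _ (mul_pos hc1 (Real.exp_pos _)))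
      g1 g2 g3 g4 hτ hη (fun y => ex (fun _ => le_rfl) (fun _ => by omega) y)
      (fun y r => ex (fun r' => (hup r r' q₁ hq12).1) (fun r' => (hup r r' q₁ hq12).2) y)
      (fun y r => ex (fun r' => (hup r r' q₂ le_rfl).1) (fun r' => (hup r r' q₂ le_rfl).2) y)
      (fun y => ex (fun _ => by omega) (fun _ => by omega) y)
      (fun y => ex (fun _ => by omega) (fun _ => by omega) y) el₁ el₂ hDE.hC1 hDE.hC2 hDE.hδ
      hDE.hε hΛ hΛ'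
  have h12 : ((p + (q₁ - J) + d : ℕ) : ℝ) - ((p + (q₁ - J) : ℕ) : ℝ) = d := by push_cast; ring
  have e3 : p + (q₂ - J) = p + (q₁ - J) + d + d := by omega
  have h23 : ((p + (q₂ - J) : ℕ) : ℝ) - ((p + (q₁ - J) + d : ℕ) : ℝ) = d := by
    rw [e3]; push_cast; ring
  obtain ⟨s1, s3⟩ := hsets G.ray u N μ₁ μ₂ hN hL (p + q₂) (fun _ => p + (q₁ - J))
    (fun _ => p + (q₁ - J) + d) (fun _ => p + (q₂ - J)) J (J * μ₁) (by positivity) (by omega)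
    (by omega) (fun _ => by omega) (fun _ => by omega) (fun _ => by omega)
    (fun _ => by rw [h12]; exact h3) (fun _ => by rw [h23]; exact h3) (fun _ => by
      refine mul_le_mul_of_nonneg_right ?_ hμ.le
      exact_mod_cast (by omega : J ≤ p + (q₂ - J))) (fun _ => by omega) (fun _ => by omega)
    (hT' _ (fun _ => by omega) fun _ => by omega) (hT' _ (fun _ => by omega) fun _ => by omega)
    (hPi P₂ D₂ (by linarith) (le_max_right _ _) (le_max_right _ _))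
  refine hend hΨ ha hacc (measurableSet_NB M _ _) (measurableSet_NB M _ _)
    (measurableSet_NB M _ _) hτ hτ' (by positivity) (hz (fun _ => p + (q₁ - J)) (fun _ => by omega)
    (fun _ => by omega) _ hc1) (volume_NB_lt_top M _ _).ne (hz (fun _ => p + (q₁ - J) + d)
    (fun _ => by omega) (fun _ => by omega) _ hc1) (volume_NB_lt_top M _ _).ne
    (hz (fun _ => p + (q₂ - J)) (fun _ => by omega) (fun _ => by omega) _ hc1)
    (volume_NB_lt_top M _ _).ne (NB_mono hc1') (NB_mono hc1') (NB_mono hc1') s1 s3 hD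
    (hlaw _ (fun _ => by omega) fun _ => by omega) (hlaw _ (fun _ => by omega) fun _ => by omega)
    (hlaw _ (fun _ => by omega) fun _ => by omega) hole hC hDE.hδ hsm

end Crest.Agent.R182.HoleOne
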