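/-
R182, module HOLE (helper823): the hypotheses of `exists_core` from the raw box laws and the
enlargement lemma.
-/
import Mathlib
import Crest.Agent.R182.HoleCore
import Crest.Agent.R182.HoleEl
import Crest.Agent.R182.ElUnit

set_option autoImplicit false
set_option linter.unusedSectionVars false

open MeasureTheory Set
open scoped ENNReal

namespace Crest.Agent.R182.HoleOne

open Crest.GroupTheory Crest.Geometry Crest.Agent.R182.QI Crest.Agent.R182.Core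
  Crest.Agent.R182.Core.BModel Crest.Agent.R182.Nb Crest.Agent.R182.HoleNil
  Crest.Agent.R182.OneScale Crest.Agent.R182.HoleGeo Crest.Agent.R182.ElI

variable {Γ : Type*} [Group Γ] {k : ℕ} {S : Set Γ} {π : Γ →* Multiplicative (Fin k → ℤ)}
  {M : BModel S π} {E : Type} [NormedAddCommGroup E] [InnerProductSpace ℝ E]
  [FiniteDimensional ℝ E]

/-- the raw box laws of all shapes near `1`, for one map, at one scale -/
def Raws (G : Geo M E) (Ψ : Γ → Γ) (Sc τ : ℝ) (u : G.R → M.G) (η m0 : ℝ) : Prop :=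
  ∀ m : G.R → ℕ, (∀ e, |(m e : ℝ) * τ - 1| ≤ m0) → ∀ y : M.G, ∃ L ∈ LLE G, ∃ θ : E,
    RawLaw G Ψ Sc τ u η (fun e => m e * τ) y L θ

theorem Raws.near {G : Geo M E} {Ψ : Γ → Γ} {Sc τ η m0 : ℝ} {u : G.R → M.G}
    (h : Raws G Ψ Sc τ u η m0) (hτ : 0 < τ) {p q : ℕ} (hp : (1 : ℝ) = p * τ)
    (hq : (q : ℝ) * τ ≤ m0) {m : G.R → ℕ} (h1 : ∀ r, p ≤ m r) (h2 : ∀ r, m r ≤ p + q) (y : M.G) :
    ∃ L ∈ LLE G, ∃ θ : E, RawLaw G Ψ Sc τ u η (fun e => m e * τ) y L θ := by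
  refine h m (fun r => ?_) y
  have h3 : (p : ℝ) ≤ m r := by exact_mod_cast h1 r
  have h4 : (m r : ℝ) ≤ p + q := by exact_mod_cast h2 r
  have h5 : (1 : ℝ) ≤ m r * τ := by rw [hp]; exact mul_le_mul_of_nonneg_right h3 hτ.le
  have h6 : (m r : ℝ) * τ ≤ 1 + q * τ := by
    calc (m r : ℝ) * τ ≤ (p + q) * τ := mul_le_mul_of_nonneg_right h4 hτ.le
      _ = 1 + q * τ := by rw [add_mul, ← hp]
  rw [abs_of_nonneg (by linarith)]
  linarith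

theorem upd_mem {ρ : Type*} [DecidableEq ρ] {p q q₂ : ℕ} (hq : q ≤ q₂) (r r' : ρ) :
    p ≤ Function.update (fun _ : ρ => p) r (p + q) r' ∧
      Function.update (fun _ : ρ => p) r (p + q) r' ≤ p + q₂ := by
  by_cases h : r' = r
  · subst h
    rw [Function.update_self]; omega
  · rw [Function.update_of_ne h]; omega

/-- **the hypotheses of `exists_core`** -/
theorem exists_laws (G : Geo M E) [DecidableEq G.R] {gc : GC} (hgc : gc.Ok M M.gen) (cs : Cst G)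
    (hcs : 0 < cs.c1) {γ : ℝ} (hγ : Gap G γ) : ∃ CR DR : ℝ, 1 ≤ CR ∧ 1 ≤ DR ∧
    ∀ {Ψ : Γ → Γ} {RC Cb e τ Sc : ℝ} (un : ElI.Unit G RC Cb e τ Sc), 0 < Sc → 0 < τ → 0 ≤ e →
    ∀ {J p q₂ : ℕ}, J * τ ≤ 1 / 4 → (1 : ℝ) = p * τ → ∀ {η₀ ω m0 : ℝ}, 0 ≤ η₀ → 0 < ω →
    ω ≤ γ / 4 → ω ≤ m0 → (q₂ : ℝ) * τ ≤ ω → Raws G Ψ Sc τ un.u η₀ m0 →
    ∀ {δL : ℝ}, η₀ ≤ δL * gc.c1 ^ M.r → 0 ≤ δL → 2 * ENNReal.ofReal δL < 1 →
    (∀ m : G.R → ℕ, (∀ r, p ≤ m r) → (∀ r, m r ≤ p + q₂) →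
      volume (M.NB (F G.ray un.u m) gc.c1) ≠ 0) →
    (∀ m : G.R → ℕ, (∀ r, p ≤ m r) → (∀ r, m r ≤ p + q₂) → ∀ y, ∃ L ∈ LLV G, ∃ θ,
      LawB M Ψ G.ray un.u gc.c1 (ww' G un.u J) (CR * (η₀ + e) * Sc) (ENNReal.ofReal δL) y m
        (pr M (ww' G un.u J) L θ)) ∧
    ∀ (q : ℕ), q ≤ q₂ → ∀ (b : ℝ), b = q * τ → ∀ {ε1 δ1 η' β a : ℝ}, η₀ + τ ≤ ε1 →
      η₀ * CA M cs.c1 ≤ δ1 → 0 ≤ η' →
      (∀ x : M.G, BoxAt G cs Ψ x Sc τ un.u ω ε1 δ1 →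
        volume {n : M.NN | n ∈ M.NB (fm G un.u τ fun _ => 1 + b) (gc.A2 * Real.exp (-a)) ∧
        ∃ (w : G.R) (σ σ' : Equiv.Perm G.R) (θ θ' : E),
        LawAt G cs Ψ x Sc τ un.u ε1 δ1 (fun _ => 1) n σ θ ∧
        LawAt G cs Ψ x Sc τ un.u ε1 δ1 (Function.update (fun _ => 1) w (1 + b)) n σ' θ' ∧
        ¬ (σ = σ' ∧ ‖θ - θ'‖ ≤ η')} ≤ ENNReal.ofReal β *
          volume (M.NB (fm G un.u τ fun _ => 1 + b) (gc.A2 * Real.exp (-a)))) →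
      ElAt G gc Ψ un.u p q J (Real.exp (-a)) (CR * (η₀ + e) * Sc)
        (4 * (CR * (η₀ + e) * Sc) + DR * η' * Sc) δL (β * gc.A2 ^ M.r) := by
  obtain ⟨CR, DR, hCR, hDR, hB, hel⟩ := exists_law_el G
  refine ⟨CR, DR, hCR, hDR, ?_⟩
  intro Ψ RC Cb e τ Sc un hSc hτ he J p q₂ hJ hp η₀ ω m0 hη₀ hω hωγ hωm hq₂ hraws δL hδη hδL hδ z
  have hc1 := hgc.c1_pos
  have hc1' := hgc.c1_le
  have hA2 : 0 < gc.A2 := by linarith [hgc.A1_one, hgc.A12]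
  have hq₂' : (q₂ : ℝ) * τ ≤ m0 := hq₂.trans hωm
  have hδη' : ENNReal.ofReal η₀ ≤ ENNReal.ofReal δL * ENNReal.ofReal (gc.c1 ^ M.r) := by
    rw [← ENNReal.ofReal_mul hδL]
    exact ENNReal.ofReal_le_ofReal hδη
  have hhalf : ∀ m : G.R → ℕ, (∀ r, p ≤ m r) → ∀ r, 1 / 2 ≤ (m r : ℝ) * τ := by
    intro m hm r
    have h3 : (p : ℝ) ≤ m r := by exact_mod_cast hm r
    have h5 : (1 : ℝ) ≤ m r * τ := by rw [hp]; exact mul_le_mul_of_nonneg_right h3 hτ.le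
    linarith
  refine ⟨fun m h1 h2 y => ?_, ?_⟩
  · obtain ⟨L, hL, θ, h⟩ := hraws.near hτ hp hq₂' h1 h2 y
    exact ⟨toV G L, toV_mem hL, _, hB un hSc hτ he hJ (hhalf m h1) hη₀ hL h hc1 hδη'⟩
  · intro q hq b hb ε1 δ1 η' β a hε1 hδ1 hη' hbound
    have hb0 : 0 ≤ b := by rw [hb]; positivity
    have hbω : b ≤ ω := by
      rw [hb]
      refine le_trans (mul_le_mul_of_nonneg_right ?_ hτ.le) hq₂
      exact_mod_cast hq
    have out : ∀ m : G.R → ℕ, (∀ r, p ≤ m r) → (∀ r, m r ≤ p + q₂) →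
        BoxOut G Ψ Sc τ un.u η₀ (fun e => m e * τ) := by
      intro m h1 h2 y
      obtain ⟨L, ⟨σ, hσ⟩, θ, h⟩ := hraws.near hτ hp hq₂' h1 h2 y
      exact ⟨σ, L, θ, hσ, h⟩
    have nr1 : El.NR ω (fun _ : G.R => (1 : ℝ)) := fun r => by
      rw [sub_self, abs_zero]; exact hω.le
    have nr2 : ∀ r : G.R, El.NR ω (Function.update (fun _ : G.R => (1 : ℝ)) r (1 + b)) := by
      intro r r'
      by_cases h : r' = r
      · subst h
        rw [Function.update_self, add_sub_cancel_left, abs_of_nonneg hb0]; exact hbω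
      · rw [Function.update_of_ne h, sub_self, abs_zero]; exact hω.le
    refine hel (cs := cs) (ε1 := ε1) (δ1 := δ1) un hSc hτ he hJ hp hb hη₀ hη' hA2 hc1 hc1' hδη' hδ
      (z _ (fun _ => le_rfl) fun _ => Nat.le_add_right _ _)
      (fun r => z _ (fun r' => (upd_mem hq r r').1) fun r' => (upd_mem hq r r').2) ?_ ?_ ?_ ?_ ?_
    · rw [shape_one hp]
      exact out _ (fun _ => le_rfl) fun _ => Nat.le_add_right _ _
    · intro r
      rw [shape_upd hp hb r]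
      exact out _ (fun r' => (upd_mem hq r r').1) fun r' => (upd_mem hq r r').2
    · exact fun x n σ L θ hL h => lawAt_of_raw cs hcs hγ hω.le hωγ hτ hη₀ hε1 hδ1 nr1 hL h
    · exact fun r x n σ L θ hL h =>
        lawAt_of_raw cs hcs hγ hω.le hωγ hτ hη₀ hε1 hδ1 (nr2 r) hL h
    · intro x
      refine hbound x (boxAt_of_raw cs hcs hγ hω.le hωγ hτ hη₀ hε1 hδ1 ?_ x)
      rintro Z ⟨⟨m, hm⟩, hZ⟩ y
      have hZm : Z = fun e => (m e : ℝ) * τ := funext hm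
      rw [hZm] at hZ ⊢
      exact hraws m (fun e => (hZ e).trans hωm) y

end Crest.Agent.R182.HoleOne
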