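/-
R182, module HOLE (helper860): numerical lemmas for the choice of the constants.
-/
import Mathlib
import Crest.Agent.R182.HoleEnd
import Crest.Agent.R182.HoleConj
import Crest.Agent.R182.ElBase

set_option autoImplicit false
set_option linter.unusedSectionVars false

open MeasureTheory Set
open scoped ENNReal Pointwise RealInnerProductSpace

namespace Crest.Agent.R182.HoleOne

open Crest.GroupTheory Crest.Geometry Crest.Agent.R182.QI Crest.Agent.R182.Core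
  Crest.Agent.R182.Core.BModel Crest.Agent.R182.Nb Crest.Agent.R182.HoleNil
  Crest.Agent.R182.OneScale Crest.Agent.R182.ElI

/-- (n1) exponentials beat polynomials -/
theorem exists_exp_small (P A c : ℝ) (D : ℕ) (hc : 0 < c) : ∃ N0 : ℕ, ∀ N : ℕ, N0 ≤ N →
    P * (1 + A * N) ^ D * Real.exp (-(c * N)) ≤ 1 := by
  obtain ⟨S0, -, h⟩ := ElI.exists_poly_le P A D hc
  refine ⟨⌈S0⌉₊, fun N hN => ?_⟩
  have h1 : S0 ≤ N := (Nat.le_ceil S0).trans (by exact_mod_cast hN)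
  have h2 := mul_le_mul_of_nonneg_right (h N h1) (Real.exp_pos (-(c * N))).le
  rw [← Real.exp_add, add_neg_cancel, Real.exp_zero] at h2
  exact h2

variable {Γ : Type*} [Group Γ] {k : ℕ} {S : Set Γ} {π : Γ →* Multiplicative (Fin k → ℤ)}
  {M : BModel S π} {E : Type*} [NormedAddCommGroup E] [InnerProductSpace ℝ E]

/-- (n2) comparison of norms -/
theorem exists_TD [FiniteDimensional ℝ E] (G : Geo M E) : ∃ D : ℝ, 1 ≤ D ∧
    (∀ v : Fin k → ℝ, ‖G.T v‖ ≤ D * ‖v‖) ∧ ∀ v : Fin k → ℝ, ‖v‖ ≤ D * ‖G.T v‖ := by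
  let f : (Fin k → ℝ) →L[ℝ] E := LinearMap.toContinuousLinearMap (G.T : (Fin k → ℝ) →ₗ[ℝ] E)
  let g : E →L[ℝ] (Fin k → ℝ) := LinearMap.toContinuousLinearMap (G.T.symm : E →ₗ[ℝ] (Fin k → ℝ))
  have hf := norm_nonneg f
  have hg := norm_nonneg g
  refine ⟨‖f‖ + ‖g‖ + 1, by linarith, fun v => ?_, fun v => ?_⟩
  · have h1 : ‖f v‖ ≤ ‖f‖ * ‖v‖ := f.le_opNorm v
    have h2 : f v = G.T v := rfl
    rw [h2] at h1
    have := norm_nonneg v
    nlinarith
  · have h1 : ‖g (G.T v)‖ ≤ ‖g‖ * ‖G.T v‖ := g.le_opNorm _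
    have h2 : g (G.T v) = v := G.T.symm_apply_apply v
    rw [h2] at h1
    have := norm_nonneg (G.T v)
    nlinarith

/-- (n3) the size of unit legs -/
theorem unit_num (G : Geo M E) {RC Cb e₁ τ Sc : ℝ} (un : ElI.Unit G RC Cb e₁ τ Sc) {D : ℝ}
    (hD : 1 ≤ D) (hD1 : ∀ v : Fin k → ℝ, ‖G.T v‖ ≤ D * ‖v‖)
    (hD2 : ∀ v : Fin k → ℝ, ‖v‖ ≤ D * ‖G.T v‖) (hτ : 0 < τ * Sc) (he : e₁ ≤ 1 / 2) (e : G.R) :
    τ * Sc / (2 * D) ≤ ‖M.h (un.u e)‖ ∧ ‖M.h (un.u e)‖ ≤ 2 * D * (τ * Sc) ∧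
      ∀ J : ℕ, ‖G.T (M.h (un.u e ^ J)) - (J * τ * Sc) • (e : E)‖ ≤ e₁ * (J * τ * Sc) := by
  have hacc := un.acc e
  have hn : ‖(τ * Sc) • (e : E)‖ = τ * Sc := by
    rw [norm_smul, G.norm_ray, mul_one, Real.norm_of_nonneg hτ.le]
  have h1 : e₁ * (τ * Sc) ≤ 1 / 2 * (τ * Sc) := mul_le_mul_of_nonneg_right he hτ.le
  have h2 : ‖G.T (M.h (un.u e))‖ ≤ τ * Sc + e₁ * (τ * Sc) := by
    have h3 := norm_le_norm_add_norm_sub' (G.T (M.h (un.u e))) ((τ * Sc) • (e : E))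
    linarith
  have h3 : τ * Sc - e₁ * (τ * Sc) ≤ ‖G.T (M.h (un.u e))‖ := by
    have h4 := norm_le_norm_add_norm_sub ((τ * Sc) • (e : E)) (G.T (M.h (un.u e)))
    have h5 : ‖(τ * Sc) • (e : E) - G.T (M.h (un.u e))‖ =
        ‖G.T (M.h (un.u e)) - (τ * Sc) • (e : E)‖ := norm_sub_rev _ _
    have h6 := norm_sub_norm_le ((τ * Sc) • (e : E)) (G.T (M.h (un.u e)))
    rw [h5] at h6
    linarith
  refine ⟨?_, ?_, fun J => ?_⟩
  · rw [div_le_iff₀ (by positivity)]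
    have h4 := hD1 (M.h (un.u e))
    linarith
  · refine (hD2 _).trans ?_
    calc D * ‖G.T (M.h (un.u e))‖ ≤ D * (2 * (τ * Sc)) :=
          mul_le_mul_of_nonneg_left (by linarith) (by linarith)
      _ = _ := by ring
  · rw [ElI.h_pow, map_smul]
    have h4 : (J : ℝ) • G.T (M.h (un.u e)) - ((J : ℝ) * τ * Sc) • (e : E) =
        (J : ℝ) • (G.T (M.h (un.u e)) - (τ * Sc) • (e : E)) := by
      rw [smul_sub, smul_smul, mul_assoc]
    rw [h4, norm_smul, Real.norm_of_nonneg (Nat.cast_nonneg _)]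
    calc (J : ℝ) * ‖G.T (M.h (un.u e)) - (τ * Sc) • (e : E)‖ ≤ J * (e₁ * (τ * Sc)) :=
          mul_le_mul_of_nonneg_left hacc (Nat.cast_nonneg _)
      _ = e₁ * (J * τ * Sc) := by ring

/-- (n4) conjugation of bounded elements through the comparison words -/
theorem exists_conj_ww (G : Geo M E) (hX : XModel M) (K : ℕ) (b : G.R → M.G)
    (hb : ∀ e, b e ∈ M.CN) (R' Cp : ℝ) (J : ℕ) {δ : ℝ} (hδ : 0 < δ) :
    ∃ N0 : ℕ, ∀ N : ℕ, N0 ≤ N → ∀ p : G.R → ℕ, (∀ e, (p e : ℝ) ≤ Cp * N) → ∀ Ψ : Γ → Γ,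
      QIMap S S Ψ K → ∀ c ∈ M.C, M.len c ≤ R' → ∀ z o,
      dist (fh M Ψ (z * (c * ww G (fun e => b e ^ p e) J o)))
        (fh M Ψ (z * ww G (fun e => b e ^ p e) J o)) ≤ δ * N := by
  classical
  obtain ⟨N0, h⟩ := exists_conj_fh M hX K (insert 1 (Finset.univ.image b)) (by
    intro x hx
    rcases Finset.mem_insert.1 hx with rfl | hx
    · exact M.CN.one_mem
    · obtain ⟨e, -, rfl⟩ := Finset.mem_image.1 hx
      exact hb e) R' (|Cp| * J) hδ
  refine ⟨N0, fun N hN p hp Ψ hΨ c hc hcR z o => ?_⟩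
  rw [dist_pi_le_iff (by positivity)]
  intro i
  rw [Real.dist_eq]
  cases o with
  | none =>
    have h1 := h N hN 1 (Finset.mem_insert_self _ _) 0 (by simp; positivity) c hc hcR Ψ hΨ z i
    simpa [ww] using h1
  | some e =>
    have h1 := h N hN (b e) (Finset.mem_insert_of_mem (Finset.mem_image_of_mem _
      (Finset.mem_univ _))) (p e * J) (by
        push_cast
        have h2 : (p e : ℝ) ≤ |Cp| * N := (hp e).trans
          (mul_le_mul_of_nonneg_right (le_abs_self _) (Nat.cast_nonneg _))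
        have h3 := mul_le_mul_of_nonneg_right h2 (Nat.cast_nonneg (α := ℝ) J)
        linarith) c hc hcR Ψ hΨ z i
    have h2 : ww G (fun e => b e ^ p e) J (some e) = b e ^ (p e * J) := by
      simp only [ww, pow_mul]
    rw [h2]
    exact h1

end Crest.Agent.R182.HoleOne
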