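/-
R182, module HOLE (helper823): the numeric conditions of `exists_core`.
-/
import Mathlib

set_option autoImplicit false

namespace Crest.Agent.R182.HoleOne

theorem le_mul_aux {x a b : ℝ} (hx : 0 ≤ x) (h : 1 ≤ b) (ha : a = x * b) : x ≤ a := by
  rw [ha]; exact le_mul_of_one_le_right hx h

theorem num_aux1 {l0 l1 c s s' e : ℝ} (hl0 : 0 < l0) (hl1 : 0 < l1) (hc : 0 ≤ c) (hs : 1 ≤ s)
    (hs' : 5 ≤ s') (he : 0 ≤ e)
    (h4 : 5 * l0 + (c + 1) * (2 * s + 1) * (2 * l1) ≤ s' * l0) :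
    (c + 1) * (2 * l1) + l0 * (1 - e) ≤ l0 * (2 * s * s' - 2) ∧
    (c + 1) * (2 * s + 1) * (2 * l1) + l0 * (1 - e) ≤ l0 * (2 * s * (s' + 1) - 4) := by
  have hle : 0 ≤ l0 * e := mul_nonneg hl0.le he
  have hss : s' * l0 ≤ s * s' * l0 := by
    have : s' ≤ s * s' := le_mul_of_one_le_left (by linarith) hs
    exact mul_le_mul_of_nonneg_right this hl0.le
  have hx : 0 ≤ (c + 1) * (2 * l1) := by positivity
  have hcc : (c + 1) * (2 * l1) ≤ (c + 1) * (2 * s + 1) * (2 * l1) := by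
    have h1 : (c + 1) * (2 * s + 1) * (2 * l1) = (c + 1) * (2 * l1) * (2 * s + 1) := by ring
    rw [h1]
    exact le_mul_of_one_le_right hx (by linarith)
  have h0 : 0 ≤ s' * l0 := by positivity
  have hls : 0 ≤ l0 * s := by positivity
  constructor
  · have e1 : l0 * (2 * s * s' - 2) = 2 * (s * s' * l0) - 2 * l0 := by ring
    rw [e1]
    linarith
  · have e1 : l0 * (2 * s * (s' + 1) - 4) = 2 * (s * s' * l0) + 2 * (l0 * s) - 4 * l0 := by ring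
    rw [e1]
    linarith

theorem num_aux2 {l0 s s' e : ℝ} (hl0 : 0 < l0) (hs : 1 ≤ s) (hs' : 5 ≤ s') (he0 : 0 ≤ e)
    (he : e * (2 * s * (s' + 1)) ≤ 1) : e * (2 * s * s') ≤ 1 ∧ e * (2 * s) ≤ 1 ∧
    l0 * (e * (2 * s * s')) ≤ l0 ∧ l0 * (e * (2 * s)) ≤ l0 ∧
    l0 * (e * (2 * s * (s' + 1))) ≤ l0 := by
  have hss' : 0 ≤ 2 * s * s' := by positivity
  have h1 : e * (2 * s * s') ≤ e * (2 * s * (s' + 1)) :=
    mul_le_mul_of_nonneg_left (by linarith) he0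
  have h2 : e * (2 * s) ≤ e * (2 * s * (s' + 1)) := by
    refine mul_le_mul_of_nonneg_left ?_ he0
    exact le_mul_of_one_le_right (by linarith) (by linarith)
  refine ⟨h1.trans he, h2.trans he, ?_, ?_, ?_⟩
  · exact mul_le_of_le_one_right hl0.le (h1.trans he)
  · exact mul_le_of_le_one_right hl0.le (h2.trans he)
  · exact mul_le_of_le_one_right hl0.le he

theorem num_aux3 {l0 l1 s e : ℝ} (hl1 : 0 < l1) (he1 : e ≤ 1 / 2)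
    (h3 : l0 + 4 * l1 ≤ s * l0) : 2 * l1 + l0 * (1 - e) ≤ s * (l0 * (1 - e)) := by
  have h5 : (l0 + 4 * l1) * (1 - e) ≤ s * l0 * (1 - e) :=
    mul_le_mul_of_nonneg_right h3 (by linarith)
  have h6 : l1 * e ≤ l1 * (1 / 2) := mul_le_mul_of_nonneg_left he1 hl1.le
  have e1 : (l0 + 4 * l1) * (1 - e) = l0 * (1 - e) + 4 * l1 - 4 * (l1 * e) := by ring
  have e2 : s * l0 * (1 - e) = s * (l0 * (1 - e)) := by ring
  rw [e1, e2] at h5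
  linarith

theorem num_nat {s s' J : ℕ} (hs : 1 ≤ s) (hs' : 5 ≤ s') : J ≤ 2 * s * s' * J ∧
    J ≤ 2 * (s * J) := by
  have h1 : 1 ≤ 2 * s * s' := Nat.succ_le_of_lt (by positivity)
  have h2 : 1 ≤ 2 * s := by omega
  refine ⟨Nat.le_mul_of_pos_left _ h1, ?_⟩
  rw [← mul_assoc]
  exact Nat.le_mul_of_pos_left _ h2

theorem num_lt {s s' v : ℝ} (hs : 1 ≤ s) (hs' : 5 ≤ s') (hv : 0 < v) : 2 * v < 2 * s * s' * v ∧
    4 * v < 2 * s * (s' + 1) * v := by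
  have h1 : 5 ≤ s * s' := by
    calc (5 : ℝ) ≤ s' := hs'
      _ ≤ s * s' := le_mul_of_one_le_left (by linarith) hs
  constructor
  · exact mul_lt_mul_of_pos_right (by linarith) hv
  · exact mul_lt_mul_of_pos_right (by linarith) hv

/-- the numeric conditions -/
theorem exists_nums (c : ℕ) {l0 l1 : ℝ} (hl0 : 0 < l0) (hl : l0 ≤ l1) : ∃ s s' : ℕ, 1 ≤ s ∧
    5 ≤ s' ∧ ∀ (J : ℕ) (e τ Sc : ℝ), 1 ≤ J → 0 ≤ e → e ≤ 1 / 2 → e * (2 * s * (s' + 1)) ≤ 1 →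
    0 < τ → 0 < Sc → ∀ q₁ q₂ d : ℕ, q₁ = 2 * s * s' * J → q₂ = 2 * s * (s' + 1) * J → d = s * J →
    ∀ μ₁ μ₂ a₁ a₂ : ℝ, μ₁ = l0 * ((1 - e) * (τ * Sc)) → μ₂ = l1 * (2 * (τ * Sc)) →
    a₁ = l0 * (q₁ * τ - 2 * (J * τ)) * Sc → a₂ = l0 * (q₂ * τ - 4 * (J * τ)) * Sc →
    J ≤ q₁ ∧ q₁ + 2 * d = q₂ ∧ J ≤ 2 * d ∧
    (c + 1) * J * μ₂ + J * μ₁ ≤ a₁ ∧ a₁ + J * μ₁ ≤ q₁ * μ₁ ∧
    (c + 1) * (2 * d + J) * μ₂ + J * μ₁ ≤ a₂ ∧ a₂ + J * μ₁ ≤ q₂ * μ₁ ∧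
    a₂ + J * μ₁ ≤ a₁ + 2 * d * μ₁ ∧ J * μ₂ + J * μ₁ ≤ d * μ₁ ∧
    2 * ((J : ℝ) * τ) < q₁ * τ ∧ 4 * ((J : ℝ) * τ) < q₂ * τ := by
  have hl1 : 0 < l1 := hl0.trans_le hl
  obtain ⟨s, hs⟩ := exists_nat_ge (1 + 4 * l1 / l0)
  obtain ⟨s', hs'⟩ := exists_nat_ge (5 + (c + 1) * (2 * s + 1) * (2 * l1) / l0)
  have hs0 : (1 : ℝ) ≤ s := by
    have : 0 ≤ 4 * l1 / l0 := by positivity
    linarith
  have hs'0 : (5 : ℝ) ≤ s' := by
    have : 0 ≤ ((c : ℝ) + 1) * (2 * s + 1) * (2 * l1) / l0 := by positivity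
    linarith
  have h3 : l0 + 4 * l1 ≤ s * l0 := by
    have h := mul_le_mul_of_nonneg_right hs hl0.le
    rw [add_mul, div_mul_cancel₀ _ hl0.ne', one_mul] at h
    exact h
  have h4 : 5 * l0 + (c + 1) * (2 * s + 1) * (2 * l1) ≤ s' * l0 := by
    have h := mul_le_mul_of_nonneg_right hs' hl0.le
    rw [add_mul, div_mul_cancel₀ _ hl0.ne'] at h
    exact h
  refine ⟨s, s', by exact_mod_cast hs0, by exact_mod_cast hs'0, ?_⟩
  intro J e τ Sc hJ he0 he1 he hτ hSc q₁ q₂ d hq₁ hq₂ hd μ₁ μ₂ a₁ a₂ hμ₁ hμ₂ ha₁ ha₂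
  have hs1 : 1 ≤ s := by exact_mod_cast hs0
  have hs5 : 5 ≤ s' := by exact_mod_cast hs'0
  have hJr : (1 : ℝ) ≤ J := by exact_mod_cast hJ
  have c1 : (q₁ : ℝ) = 2 * s * s' * J := by rw [hq₁]; push_cast; ring
  have c2 : (q₂ : ℝ) = 2 * s * (s' + 1) * J := by rw [hq₂]; push_cast; ring
  have c3 : (d : ℝ) = s * J := by rw [hd]; push_cast; ring
  have hv : 0 ≤ (J : ℝ) * (τ * Sc) := by positivity
  obtain ⟨n1, n2, n3, n4, n5⟩ := num_aux2 hl0 hs0 hs'0 he0 he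
  obtain ⟨k1, k2⟩ := num_aux1 hl0 hl1 (Nat.cast_nonneg c) hs0 hs'0 he0 h4
  have k3 := num_aux3 hl1 he1 h3
  obtain ⟨j1, j2⟩ := num_nat (J := J) hs1 hs5
  obtain ⟨i1, i2⟩ := num_lt (v := J * τ) hs0 hs'0 (by positivity)
  have hle : 0 ≤ l0 * e := mul_nonneg hl0.le he0
  clear h3 h4 hs hs' he0 he1
  refine ⟨?_, ?_, ?_, ?_, ?_, ?_, ?_, ?_, ?_, ?_, ?_⟩
  · rw [hq₁]; exact j1
  · rw [hq₁, hq₂, hd]; ring
  · rw [hd]; exact j2
  · have := mul_le_mul_of_nonneg_right k1 hv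
    rw [hμ₁, hμ₂, ha₁, c1]
    linarith
  · have K : l0 * (2 * s * s' - 2) + l0 * (1 - e) ≤ 2 * s * s' * (l0 * (1 - e)) := by
      linarith
    have := mul_le_mul_of_nonneg_right K hv
    rw [hμ₁, ha₁, c1]
    linarith
  · have := mul_le_mul_of_nonneg_right k2 hv
    rw [hμ₁, hμ₂, ha₂, c2, c3]
    linarith
  · have K : l0 * (2 * s * (s' + 1) - 4) + l0 * (1 - e) ≤ 2 * s * (s' + 1) * (l0 * (1 - e)) := by
      linarith
    have := mul_le_mul_of_nonneg_right K hv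
    rw [hμ₁, ha₂, c2]
    linarith
  · have K : l0 * (2 * s * (s' + 1) - 4) + l0 * (1 - e) ≤
        l0 * (2 * s * s' - 2) + 2 * s * (l0 * (1 - e)) := by
      linarith
    have := mul_le_mul_of_nonneg_right K hv
    rw [hμ₁, ha₁, ha₂, c1, c2, c3]
    linarith
  · have := mul_le_mul_of_nonneg_right k3 hv
    rw [hμ₁, hμ₂, c3]
    linarith
  · rw [c1]
    have e1 : 2 * (s : ℝ) * s' * J * τ = 2 * s * s' * (J * τ) := by ring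
    rw [e1]; exact i1
  · rw [c2]
    have e1 : 2 * (s : ℝ) * (s' + 1) * J * τ = 2 * s * (s' + 1) * (J * τ) := by ring
    rw [e1]; exact i2

/-- the increments -/
theorem num_A {s s' : ℕ} (hs : 1 ≤ s) (hs' : 5 ≤ s') {b0 : ℝ} (hb0 : 0 < b0) :
    ∃ (n : ℕ) (a0 : ℝ), 1 ≤ n ∧ 0 < a0 ∧ (n : ℝ) * (2 * s * (s' + 1) * a0) = 1 ∧
      2 * s * (s' + 1) * a0 ≤ b0 ∧ 0 < 2 * s * s' * a0 ∧
      2 * s * s' * a0 ≤ 2 * s * (s' + 1) * a0 ∧ 10 * a0 ≤ 2 * s * s' * a0 ∧ a0 ≤ 1 / 4 := by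
  obtain ⟨n, hn⟩ := exists_nat_gt (1 / b0)
  have hn0 : (0 : ℝ) < n := lt_trans (by positivity) hn
  have hn1 : (1 : ℝ) ≤ n := by
    have : 0 < n := by exact_mod_cast hn0
    exact_mod_cast this
  have hsr : (1 : ℝ) ≤ s := by exact_mod_cast hs
  have hs'r : (5 : ℝ) ≤ s' := by exact_mod_cast hs'
  obtain ⟨b, hb⟩ : ∃ b : ℝ, b = 2 * s * (s' + 1) := ⟨_, rfl⟩
  have hbp : 0 < b := by rw [hb]; positivity
  have h5 : 5 ≤ (s : ℝ) * s' := by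
    calc (5 : ℝ) ≤ s' := hs'r
      _ ≤ s * s' := le_mul_of_one_le_left (by linarith) hsr
  have hb12 : 12 ≤ b := by
    have : b = 2 * (s * s') + 2 * s := by rw [hb]; ring
    rw [this]; linarith
  have e1 : (n : ℝ) * (b * (1 / (b * n))) = 1 := by field_simp
  refine ⟨n, 1 / (b * n), by exact_mod_cast hn1, by positivity, by rw [← hb]; exact e1, ?_, ?_, ?_,
    ?_, ?_⟩
  · rw [← hb]
    rw [div_lt_iff₀ hb0] at hn
    have h1 : b * (1 / (b * n)) * n ≤ b0 * n := by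
      have : b * (1 / (b * n)) * n = 1 := by field_simp
      rw [this]; linarith
    exact le_of_mul_le_mul_right h1 hn0
  · positivity
  · rw [← hb]
    refine mul_le_mul_of_nonneg_right ?_ (by positivity)
    rw [hb]
    linarith
  · refine mul_le_mul_of_nonneg_right ?_ (by positivity)
    linarith
  · rw [div_le_div_iff₀ (by positivity) (by norm_num), one_mul, one_mul]
    calc (4 : ℝ) ≤ b * 1 := by linarith
      _ ≤ b * n := mul_le_mul_of_nonneg_left hn1 hbp.le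

/-- the unit of length -/
theorem num_B {a0 κ : ℝ} (ha0 : 0 < a0) (hκ : 0 < κ) {L₁ L₂ : ℕ} (hL₁ : 0 < L₁) (hL₂ : 0 < L₂) :
    ∃ (J p' : ℕ) (τ : ℝ), J = L₁ * L₂ * p' ∧ 1 ≤ J ∧ 0 < τ ∧ (J : ℝ) * τ = a0 ∧ τ ≤ κ := by
  obtain ⟨p', hp'⟩ := exists_nat_gt (a0 / κ)
  have hp'0 : (0 : ℝ) < p' := lt_trans (by positivity) hp'
  have hp'1 : 0 < p' := by exact_mod_cast hp'0
  have hJ1 : 1 ≤ L₁ * L₂ * p' := Nat.succ_le_of_lt (by positivity)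
  have hJr : (0 : ℝ) < ((L₁ * L₂ * p' : ℕ) : ℝ) := by exact_mod_cast hJ1
  have hJp' : (p' : ℝ) ≤ ((L₁ * L₂ * p' : ℕ) : ℝ) := by
    exact_mod_cast Nat.le_mul_of_pos_left _ (Nat.mul_pos hL₁ hL₂)
  refine ⟨L₁ * L₂ * p', p', a0 / ((L₁ * L₂ * p' : ℕ) : ℝ), rfl, hJ1, by positivity, ?_, ?_⟩
  · field_simp
  · rw [div_lt_iff₀ hκ] at hp'
    rw [div_le_iff₀ hJr]
    have : κ * p' ≤ κ * ((L₁ * L₂ * p' : ℕ) : ℝ) := mul_le_mul_of_nonneg_left hJp' hκ.le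
    linarith

/-- the lattice conditions -/
theorem num_B2 {a0 τ : ℝ} {L₁ L₂ J p' s s' n : ℕ} (hL₁ : 0 < L₁) (hL₂ : 0 < L₂)
    (hJ : J = L₁ * L₂ * p') (hJτ : (J : ℝ) * τ = a0) (hn : (n : ℝ) * (2 * s * (s' + 1) * a0) = 1) :
    (1 : ℝ) = ((n * (2 * s * (s' + 1) * J) : ℕ) : ℝ) * τ ∧
    2 * s * s' * a0 = ((2 * s * s' * J : ℕ) : ℝ) * τ ∧
    2 * s * (s' + 1) * a0 = ((2 * s * (s' + 1) * J : ℕ) : ℝ) * τ ∧
    (∃ m : ℕ, 2 * s * s' * a0 / L₁ = m * τ) ∧ ∃ m : ℕ, 2 * s * (s' + 1) * a0 / L₂ = m * τ := by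
  have hL₁r : (L₁ : ℝ) ≠ 0 := by positivity
  have hL₂r : (L₂ : ℝ) ≠ 0 := by positivity
  have hJr : (J : ℝ) = L₁ * L₂ * p' := by rw [hJ]; push_cast; ring
  refine ⟨?_, ?_, ?_, ⟨2 * s * s' * (L₂ * p'), ?_⟩, ⟨2 * s * (s' + 1) * (L₁ * p'), ?_⟩⟩
  · rw [← hn, ← hJτ]; push_cast; ring
  · rw [← hJτ]; push_cast; ring
  · rw [← hJτ]; push_cast; ring
  · rw [← hJτ, hJr]; push_cast; field_simp
  · rw [← hJτ, hJr]; push_cast; field_simp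

/-- the tolerances -/
theorem num_C {ζ JJ CR DR : ℝ} (hζ : 0 < ζ) (hJJ : 0 < JJ) (hCR : 1 ≤ CR) (hDR : 1 ≤ DR) :
    ∃ η' tol δc : ℝ, 0 < η' ∧ 0 < tol ∧ 0 < δc ∧ ∀ x Sc : ℝ, x ≤ tol → 0 < Sc →
      2 * (4 * (CR * x * Sc) + δc * Sc +
        JJ * (8 * (CR * x * Sc) + 2 * (4 * (CR * x * Sc) + DR * η' * Sc))) ≤ ζ * Sc := by
  have hCR0 : 0 < CR := by linarith
  have hDR0 : 0 < DR := by linarith
  refine ⟨ζ / (12 * JJ * DR), ζ / (6 * (4 + 16 * JJ) * CR), ζ / 6, by positivity, by positivity,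
    by positivity, fun x Sc hx hSc => ?_⟩
  rw [le_div_iff₀ (by positivity)] at hx
  have h1 : DR * (ζ / (12 * JJ * DR)) * JJ = ζ / 12 := by field_simp
  have h2 : 2 * (4 * (CR * x * Sc) + ζ / 6 * Sc +
        JJ * (8 * (CR * x * Sc) + 2 * (4 * (CR * x * Sc) + DR * (ζ / (12 * JJ * DR)) * Sc))) =
      (x * (6 * (4 + 16 * JJ) * CR)) * Sc / 3 + ζ / 3 * Sc +
        4 * (DR * (ζ / (12 * JJ * DR)) * JJ) * Sc := by ring
  rw [h2, h1]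
  have h3 := mul_le_mul_of_nonneg_right hx hSc.le
  linarith

/-- the number of steps -/
theorem num_D {a0 DT τ N h : ℝ} {j J : ℕ} (hDT : 0 < DT) (hτ : 0 < τ) (hN : 0 < N)
    (hJτ : (J : ℝ) * τ = a0) (h1 : τ * N / (2 * DT) ≤ h) (h2 : j * h ≤ a0 / (2 * DT) * N) :
    j ≤ J := by
  have h3 : (j : ℝ) * (τ * N / (2 * DT)) ≤ a0 / (2 * DT) * N :=
    (mul_le_mul_of_nonneg_left h1 (Nat.cast_nonneg _)).trans h2
  have hv : 0 < τ * N / (2 * DT) := by positivity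
  have h4 : a0 / (2 * DT) * N = J * (τ * N / (2 * DT)) := by rw [← hJτ]; ring
  rw [h4] at h3
  exact_mod_cast le_of_mul_le_mul_right h3 hv

theorem num_E {a0 DT τ N : ℝ} (hDT : 0 < DT) (hτ : τ ≤ a0 / (4 * DT * DT)) (hN : 0 < N) :
    2 * DT * (τ * N) ≤ a0 / (2 * DT) * N := by
  have h1 : τ * N ≤ a0 / (4 * DT * DT) * N := mul_le_mul_of_nonneg_right hτ hN.le
  have h2 : 2 * DT * (a0 / (4 * DT * DT) * N) = a0 / (2 * DT) * N := by field_simp; ring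
  rw [← h2]
  exact mul_le_mul_of_nonneg_left h1 (by positivity)

end Crest.Agent.R182.HoleOne
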