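/-
R182, module HOLE (helper823): the one-scale law of a model from the box theorem at frequent scales.
-/
import Mathlib
import Crest.Agent.R182.HoleLaws
import Crest.Agent.R182.HoleNum
import Crest.Agent.R182.HoleNums
import Crest.Agent.R182.ElHole

set_option autoImplicit false
set_option linter.unusedSectionVars false

open MeasureTheory Set
open scoped ENNReal

namespace Crest.Agent.R182.HoleOne

open Crest.GroupTheory Crest.Geometry Crest.Agent.R182.QI Crest.Agent.R182.Core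
  Crest.Agent.R182.Core.BModel Crest.Agent.R182.Nb Crest.Agent.R182.HoleNil
  Crest.Agent.R182.OneScale Crest.Agent.R182.HoleGeo Crest.Agent.R182.ElI

variable {Γ : Type*} [Group Γ] {k : ℕ} {S : Set Γ} {π : Γ →* Multiplicative (Fin k → ℤ)}
  {M : BModel S π} {E : Type} [NormedAddCommGroup E] [InnerProductSpace ℝ E]

/-- the box theorem at frequent scales (the raw laws of all shapes near `1`) -/
def Freq (G : Geo M E) (K : ℕ) : Prop :=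
  ∃ m0 : ℝ, 0 < m0 ∧ ∃ RC Cb : ℝ, ∀ η : ℝ, 0 < η → ∀ τ : ℝ, 0 < τ → ∀ e0 : ℝ, 0 < e0 →
    ∃ (b : G.R → M.G) (Cp : ℝ), (∀ e, b e ∈ M.CN) ∧ ∀ N1 : ℕ, ∃ N : ℕ, N1 ≤ N ∧
      ∃ (un : ElI.Unit G RC Cb e0 τ N) (p : G.R → ℕ), (∀ e, un.u e = b e ^ p e) ∧
        (∀ e, (p e : ℝ) ≤ Cp * N) ∧ ∀ Ψ : Γ → Γ, QIMap S S Ψ K → Raws G Ψ N τ un.u η m0

variable [FiniteDimensional ℝ E]

theorem clr_shape {G : Geo M E} {u : G.R → M.G} {N : ℕ} {R μ₁ μ₂ : ℝ}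
    (hL : LegB G.ray u N R μ₁ μ₂) {Q : ℕ} {m : G.R → ℕ} (hm : ∀ r, m r ≤ Q) (r : G.R) :
    u r ^ m r ∈ Clr M R (Q * N) :=
  Clr_mono (Clr_pow (hL.one r) _) (Nat.mul_le_mul_right _ (hm r))

theorem near_shape {p q m : ℕ} {τ ω : ℝ} (hτ : 0 < τ) (hp : (1 : ℝ) = p * τ)
    (hq : (q : ℝ) * τ ≤ ω) (h1 : p ≤ m) (h2 : m ≤ p + q) : |(m : ℝ) * τ - 1| ≤ ω := by
  have h3 : (p : ℝ) ≤ m := by exact_mod_cast h1
  have h4 : (m : ℝ) ≤ p + q := by exact_mod_cast h2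
  have h5 : (1 : ℝ) ≤ m * τ := by rw [hp]; exact mul_le_mul_of_nonneg_right h3 hτ.le
  have h6 : (m : ℝ) * τ ≤ 1 + q * τ := by
    calc (m : ℝ) * τ ≤ (p + q) * τ := mul_le_mul_of_nonneg_right h4 hτ.le
      _ = 1 + q * τ := by rw [add_mul, ← hp]
  rw [abs_of_nonneg (by linarith)]
  linarith

/-- **the one-scale law** -/
theorem oneScaleLaw_of (hS : S.Finite) (hcl : Subgroup.closure S = ⊤) (hX : XModel M)
    (G : Geo M E) [Nonempty G.R] (K : ℕ) (hfreq : Freq G K) :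
    ∃ c0 : ℝ, 0 < c0 ∧ OneScaleLaw M (LLV G) c0 K := by
  classical
  have hcount : Countable Γ := countable_of_closure hS hcl
  obtain ⟨m0, hm0, RC, Cb, hfreq⟩ := hfreq
  obtain ⟨gc, hgc⟩ := exists_GC M M.gen M.star_cj
  obtain ⟨l0, l1, hl0, hl01, hl11, hl⟩ := exists_lam G
  obtain ⟨γ, hγ⟩ := exists_gap G
  obtain ⟨T, hT, htch⟩ := exists_tch G hγ RC Cb
  have hA2 : 1 ≤ gc.A2 := hgc.A1_one.trans hgc.A12
  obtain ⟨cs, hcs0, -, ω0, hω0, hel⟩ := el_hole hS hcl G hX.C_dist K RC Cb hA2 hl0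
    (fun i => (hl i).1)
  obtain ⟨R', s2, e1, P₀, D₀, -, hs2, he1, hP₀, hcore⟩ := exists_core G hgc RC T hT
  obtain ⟨cK, hcore⟩ := hcore K
  obtain ⟨CR, DR, hCR, hDR, hlaws⟩ := exists_laws G hgc cs hcs0 hγ
  obtain ⟨δL, εL, hδL, hεL, CL, hDE1, hDE2, hDE3, hDE4⟩ := exists_δε gc M.r hgc.c1_pos
    (hA2.trans hgc.A23)
  obtain ⟨c0, ε₀, hc0, hε₀, hverts⟩ := exists_verts_unit G
  obtain ⟨DT, hDT, hT1, hT2⟩ := exists_TD G
  obtain ⟨s, s', hs, hs', hnums⟩ := exists_nums M.c hl0 (hl01.trans hl11)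
  -- the near-roundness and the increments
  obtain ⟨ω, hω⟩ : ∃ ω : ℝ, ω = min ω0 (min m0 (γ / 16)) := ⟨_, rfl⟩
  have hγ0 := hγ.1
  have hωp : 0 < ω := by rw [hω]; exact lt_min hω0 (lt_min hm0 (by positivity))
  have hω1 : ω ≤ ω0 := by rw [hω]; exact min_le_left _ _
  have hω2 : ω ≤ m0 := by rw [hω]; exact (min_le_right _ _).trans (min_le_left _ _)
  have hω3 : ω ≤ γ / 16 := by rw [hω]; exact (min_le_right _ _).trans (min_le_right _ _)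
  clear hω
  obtain ⟨b0, hb0, hb0ω, hel⟩ := hel ω hωp hω1
  obtain ⟨n, a0, hn1, ha0, hna, hb₂b0, hb₁p, hb₁₂, h10, ha04⟩ := num_A hs hs' hb0
  refine ⟨c0, hc0, a0 / (2 * DT), by positivity, fun η hη => ?_⟩
  -- tolerances
  obtain ⟨η', tol, δc, hη', htol, hδc, htolC⟩ := num_C (ζ := min η (s2 * a0))
    (JJ := 2 * (gc.J : ℝ) + 4) (by positivity) (by positivity) hCR hDR
  obtain ⟨L₁, hL₁, ε11, hε11, δ11, hδ11, hEv1⟩ := hel _ hb₁p (hb₁₂.trans hb₂b0) (2 * a0)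
    (by positivity) (by linarith) η' hη' (εL / gc.A2 ^ M.r) (by positivity)
  obtain ⟨L₂, hL₂, ε12, hε12, δ12, hδ12, hEv2⟩ := hel _ (hb₁p.trans_le hb₁₂) hb₂b0 (4 * a0)
    (by positivity) (by linarith) η' hη' (εL / gc.A2 ^ M.r) (by positivity)
  obtain ⟨τ0, hτ0, hEv⟩ := (hEv1.and hEv2).and htch
  clear hEv1 hEv2 htch hel
  -- the unit of length
  obtain ⟨κ, hκ⟩ : ∃ κ : ℝ, κ = min τ0 (min (ε11 / 2) (min (ε12 / 2) (a0 / (4 * DT * DT)))) :=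
    ⟨_, rfl⟩
  have hκp : 0 < κ := by rw [hκ]; positivity
  have hκ1 : κ ≤ τ0 := by rw [hκ]; exact min_le_left _ _
  have hκ2 : κ ≤ ε11 / 2 := by rw [hκ]; exact (min_le_right _ _).trans (min_le_left _ _)
  have hκ3 : κ ≤ ε12 / 2 := by
    rw [hκ]; exact (min_le_right _ _).trans ((min_le_right _ _).trans (min_le_left _ _))
  have hκ4 : κ ≤ a0 / (4 * DT * DT) := by
    rw [hκ]; exact (min_le_right _ _).trans ((min_le_right _ _).trans (min_le_right _ _))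
  clear hκ
  obtain ⟨J, p', τ, hJ, hJ1, hτ, hJτ, hτκ⟩ := num_B ha0 hκp hL₁ hL₂
  obtain ⟨hp1, hb1, hb2, hbL1, hbL2⟩ := num_B2 (s := s) (s' := s') hL₁ hL₂ hJ hJτ hna
  obtain ⟨e0, he0, S0, hSc⟩ := hEv τ hτ (hτκ.trans hκ1)
  clear hEv
  -- the accuracies
  obtain ⟨e, he⟩ : ∃ e : ℝ, e = min (min e0 (1 / 2)) (min (min (1 / (2 * s * (s' + 1))) e1)
    (min ε₀ (tol / 2))) := ⟨_, rfl⟩
  have hsp : (0 : ℝ) < 2 * s * (s' + 1) := by positivity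
  have hep : 0 < e := by rw [he]; positivity
  have he_0 : e ≤ e0 := by rw [he]; exact (min_le_left _ _).trans (min_le_left _ _)
  have he_h : e ≤ 1 / 2 := by rw [he]; exact (min_le_left _ _).trans (min_le_right _ _)
  have he_s : e ≤ 1 / (2 * s * (s' + 1)) := by
    rw [he]; exact (min_le_right _ _).trans ((min_le_left _ _).trans (min_le_left _ _))
  have he_1 : e ≤ e1 := by
    rw [he]; exact (min_le_right _ _).trans ((min_le_left _ _).trans (min_le_right _ _))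
  have he_ε : e ≤ ε₀ := by
    rw [he]; exact (min_le_right _ _).trans ((min_le_right _ _).trans (min_le_left _ _))
  have he_t : e ≤ tol / 2 := by
    rw [he]; exact (min_le_right _ _).trans ((min_le_right _ _).trans (min_le_right _ _))
  clear he
  have he_s' : e * (2 * s * (s' + 1)) ≤ 1 := by rwa [le_div_iff₀ hsp] at he_s
  have hCA : 0 < CA M cs.c1 := by unfold CA; positivity
  have hc1r : 0 < gc.c1 ^ M.r := pow_pos hgc.c1_pos _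
  obtain ⟨η₀, hη₀⟩ : ∃ η₀ : ℝ, η₀ = min (min (ε11 / 2) (ε12 / 2))
    (min (min (δ11 / CA M cs.c1) (δ12 / CA M cs.c1)) (min (δL * gc.c1 ^ M.r) (tol / 2))) :=
    ⟨_, rfl⟩
  have hη₀p : 0 < η₀ := by rw [hη₀]; positivity
  have hη1 : η₀ ≤ ε11 / 2 := by rw [hη₀]; exact (min_le_left _ _).trans (min_le_left _ _)
  have hη2 : η₀ ≤ ε12 / 2 := by rw [hη₀]; exact (min_le_left _ _).trans (min_le_right _ _)
  have hη3 : η₀ * CA M cs.c1 ≤ δ11 := by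
    rw [← le_div_iff₀ hCA, hη₀]
    exact (min_le_right _ _).trans ((min_le_left _ _).trans (min_le_left _ _))
  have hη4 : η₀ * CA M cs.c1 ≤ δ12 := by
    rw [← le_div_iff₀ hCA, hη₀]
    exact (min_le_right _ _).trans ((min_le_left _ _).trans (min_le_right _ _))
  have hη5 : η₀ ≤ δL * gc.c1 ^ M.r := by
    rw [hη₀]; exact (min_le_right _ _).trans ((min_le_right _ _).trans (min_le_left _ _))
  have hη6 : η₀ ≤ tol / 2 := by
    rw [hη₀]; exact (min_le_right _ _).trans ((min_le_right _ _).trans (min_le_right _ _))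
  clear hη₀
  obtain ⟨b, Cp, hbCN, hN⟩ := hfreq η₀ hη₀p τ hτ e hep
  obtain ⟨N2, hconj⟩ := exists_conj_ww G hX K b hbCN R' Cp J hδc
  obtain ⟨p, hp⟩ : ∃ p : ℕ, p = n * (2 * s * (s' + 1) * J) := ⟨_, rfl⟩
  obtain ⟨q₁, hq₁⟩ : ∃ q₁ : ℕ, q₁ = 2 * s * s' * J := ⟨_, rfl⟩
  obtain ⟨q₂, hq₂⟩ : ∃ q₂ : ℕ, q₂ = 2 * s * (s' + 1) * J := ⟨_, rfl⟩
  obtain ⟨d, hd⟩ : ∃ d : ℕ, d = s * J := ⟨_, rfl⟩
  rw [← hp] at hp1
  rw [← hq₁] at hb1
  rw [← hq₂] at hb2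
  obtain ⟨NL, hNL⟩ : ∃ NL : ℕ, NL = ⌈Cb * τ⌉₊ + 1 := ⟨_, rfl⟩
  obtain ⟨N3, hexp⟩ := exists_exp_small P₀ (((p + q₂) * NL : ℕ) : ℝ) (l0 * a0 / 2) D₀
    (by positivity)
  obtain ⟨N, hN1, un, pp, hu, hpp, hraws⟩ := hN (max (max N2 N3) (max ⌈S0⌉₊ 1))
  have hN_2 : N2 ≤ N := ((le_max_left _ _).trans (le_max_left _ _)).trans hN1
  have hN_3 : N3 ≤ N := ((le_max_right _ _).trans (le_max_left _ _)).trans hN1
  have hN_S : S0 ≤ (N : ℝ) := (Nat.le_ceil S0).trans (by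
    exact_mod_cast ((le_max_left _ _).trans (le_max_right _ _)).trans hN1)
  have hN_1 : 1 ≤ N := ((le_max_right _ _).trans (le_max_right _ _)).trans hN1
  clear hN1 hN
  have hNr : (1 : ℝ) ≤ N := by exact_mod_cast hN_1
  have hNp : (0 : ℝ) < N := by linarith
  have hτN : 0 < τ * (N : ℝ) := by positivity
  obtain ⟨⟨hE1, hE2⟩, hE3⟩ := hSc N hN_S (un.mono he_0 hτN.le)
  clear hSc hN_S
  have hNL' : Cb * (τ * N) ≤ ((NL * N : ℕ) : ℝ) := by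
    have h1 : Cb * τ ≤ (NL : ℝ) := by
      rw [hNL]; push_cast
      linarith [Nat.le_ceil (Cb * τ)]
    have h2 := mul_le_mul_of_nonneg_right h1 hNp.le
    push_cast
    rw [← mul_assoc]
    exact h2
  have hNL1 : 1 ≤ NL * N := by
    rw [hNL]
    exact Nat.succ_le_of_lt (Nat.mul_pos (Nat.succ_pos _) hN_1)
  have hL := legB_of_unit G hl0 hl (hl01.trans hl11) un hep.le he_h hτN hNL'
  obtain ⟨μ₁, hμ₁⟩ : ∃ μ₁ : ℝ, μ₁ = l0 * ((1 - e) * (τ * N)) := ⟨_, rfl⟩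
  obtain ⟨μ₂, hμ₂⟩ : ∃ μ₂ : ℝ, μ₂ = l1 * (2 * (τ * N)) := ⟨_, rfl⟩
  rw [← hμ₁, ← hμ₂] at hL
  obtain ⟨a₁, ha₁⟩ : ∃ a₁ : ℝ, a₁ = l0 * (q₁ * τ - 2 * (J * τ)) * N := ⟨_, rfl⟩
  obtain ⟨a₂, ha₂⟩ : ∃ a₂ : ℝ, a₂ = l0 * (q₂ * τ - 4 * (J * τ)) * N := ⟨_, rfl⟩
  obtain ⟨c1, c2, c3, c4, c5, c6, c7, c8, c9, -, -⟩ := hnums J e τ N hJ1 hep.le he_h he_s' hτ hNp
    q₁ q₂ d hq₁ hq₂ hd μ₁ μ₂ a₁ a₂ hμ₁ hμ₂ ha₁ ha₂
  clear hnums
  have ha₁' : a₁ = l0 * (2 * s * s' * a0 - 2 * a0) * N := by rw [ha₁, ← hb1, hJτ]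
  have ha₂' : a₂ = l0 * (2 * s * (s' + 1) * a0 - 4 * a0) * N := by rw [ha₂, ← hb2, hJτ]
  have hb2ω : (q₂ : ℝ) * τ ≤ ω := by rw [← hb2]; exact hb₂b0.trans hb0ω
  have hTch : ∀ m : G.R → ℕ, (∀ r, p ≤ m r) → (∀ r, m r ≤ p + q₂) → Tch G.ray un.u T m := by
    intro m h1 h2
    refine hE3 ω hω3 m fun r => ?_
    exact near_shape hτ hp1 hb2ω (h1 r) (h2 r)
  have hz : ∀ m : G.R → ℕ, (∀ r, p ≤ m r) → (∀ r, m r ≤ p + q₂) →
      volume (M.NB (F G.ray un.u m) gc.c1) ≠ 0 := fun m h1 h2 =>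
    volume_fam_ne_zero (Gen.spans M) hT (clr_shape hL h2) (hTch m h1 h2) hgc.c1_pos
  have hexp' : P₀ * (1 + (((p + q₂) * (NL * N) : ℕ) : ℝ)) ^ D₀ * Real.exp (-(J * μ₁)) ≤ 1 := by
    refine le_trans ?_ (hexp N hN_3)
    have h1 : l0 * a0 / 2 * N ≤ J * μ₁ := by
      have h2 : (J : ℝ) * μ₁ = l0 * (1 - e) * (J * τ) * N := by rw [hμ₁]; ring
      rw [h2, hJτ]
      have h3 : l0 * a0 * (1 / 2) ≤ l0 * a0 * (1 - e) :=
        mul_le_mul_of_nonneg_left (by linarith) (by positivity)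
      have h4 := mul_le_mul_of_nonneg_right h3 hNp.le
      linarith
    have h5 : (((p + q₂) * (NL * N) : ℕ) : ℝ) = (((p + q₂) * NL : ℕ) : ℝ) * N := by
      push_cast; ring
    rw [h5]
    refine mul_le_mul_of_nonneg_left (Real.exp_le_exp.2 (neg_le_neg h1)) ?_
    have : 0 ≤ P₀ := by linarith
    positivity
  have hacc : ∀ r, ‖G.T (M.h (un.u r ^ J)) - (a0 * N) • (r : E)‖ ≤ e1 * (a0 * N) := by
    intro r
    have h1 := (unit_num G un hDT hT1 hT2 hτN he_h r).2.2 J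
    rw [hJτ] at h1
    exact h1.trans (mul_le_mul_of_nonneg_right he_1 (by positivity))
  obtain ⟨D, hD⟩ := hcore un.u (NL * N) μ₁ μ₂ hNL1 hL p q₁ q₂ d J a₁ a₂ (a0 * N) hJ1 c1 c2 c3 c4 c5
    c6 c7 c8 c9 hTch hexp' (by positivity) hacc
  clear hcore
  refine ⟨Set.range un.u, hverts RC Cb e τ N he_ε hτ hNp un, N, cK * (D + 1) + CR * (η₀ + e) * N,
    ?_, fun Ψ hΨ => ?_⟩
  · rintro _ ⟨r, rfl⟩
    refine (unit_num G un hDT hT1 hT2 hτN he_h r).2.1.trans ?_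
    exact num_E (by linarith) (hτκ.trans hκ4) hNp
  · obtain ⟨hlaw, hel⟩ := hlaws un hNp hτ hep.le (J := J) (p := p) (q₂ := q₂)
      (by rw [hJτ]; exact ha04) hp1 hη₀p.le hωp (by linarith) hω2 hb2ω (hraws Ψ hΨ) hη5 hδL.le
      hDE3 hz
    have hβ : εL / gc.A2 ^ M.r * gc.A2 ^ M.r = εL := div_mul_cancel₀ _ (by positivity)
    have hel1 : ElAt G gc Ψ un.u p q₁ J (Real.exp (-a₁)) (CR * (η₀ + e) * N)
        (4 * (CR * (η₀ + e) * N) + DR * η' * N) δL εL := by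
      have h1 := hel q₁ (by omega) _ hb1 (ε1 := ε11) (δ1 := δ11) (η' := η')
        (β := εL / gc.A2 ^ M.r) (a := a₁) (by linarith) hη3 hη'.le (fun x hx => by
          rw [ha₁']
          exact hE1 ⟨p, hp1⟩ hbL1 Ψ hΨ x hx)
      rwa [hβ] at h1
    have hel2 : ElAt G gc Ψ un.u p q₂ J (Real.exp (-a₂)) (CR * (η₀ + e) * N)
        (4 * (CR * (η₀ + e) * N) + DR * η' * N) δL εL := by
      have h1 := hel q₂ le_rfl _ hb2 (ε1 := ε12) (δ1 := δ12) (η' := η')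
        (β := εL / gc.A2 ^ M.r) (a := a₂) (by linarith) hη4 hη'.le (fun x hx => by
          rw [ha₂']
          exact hE2 ⟨p, hp1⟩ hbL2 Ψ hΨ x hx)
      rwa [hβ] at h1
    have hu' : un.u = fun r => b r ^ pp r := funext hu
    have htol' := htolC (η₀ + e) N (by linarith) hNp
    have htol1 : min η (s2 * a0) * N ≤ s2 * (a0 * N) := by
      rw [← mul_assoc]
      exact mul_le_mul_of_nonneg_right (min_le_right _ _) hNp.le
    have htol2 : min η (s2 * a0) * N ≤ η * N :=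
      mul_le_mul_of_nonneg_right (min_le_left _ _) hNp.le
    have hCR0 : 0 < CR := by linarith
    have hDR0 : 0 < DR := by linarith
    obtain ⟨θ, Lx, t1, t2, t3, t4⟩ := hD Ψ hΨ (CR * (η₀ + e) * N) (δc * N)
      (4 * (CR * (η₀ + e) * N) + DR * η' * N) δL εL CL (by positivity) (by positivity)
      (by positivity) ⟨hDE1, hDE2, hDE3, hDE4⟩ hlaw hel1 hel2 (fun c hc hcl z o => by
        rw [hu']
        exact hconj N hN_2 pp hpp Ψ hΨ c hc hcl z o) (htol'.trans htol1)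
    refine ⟨θ, Lx, t1, t2, t3, ?_⟩
    rintro g _ ⟨r, rfl⟩ j hj i
    have hjJ : j ≤ J := num_D (by linarith) hτ hNp hJτ
      (unit_num G un hDT hT1 hT2 hτN he_h r).1 hj
    exact (t4 g r j hjJ i).trans (htol'.trans htol2)

end Crest.Agent.R182.HoleOne
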