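/-
R182 (helper848): the trivial case `k = 0` of the one-scale law.
-/
import Mathlib
import Crest.Agent.R182.OneScaleTiny

set_option autoImplicit false

namespace Crest.Agent.R182.OneScale

open Crest.GroupTheory Crest.Geometry Crest.Agent.R182.QI Crest.Agent.R182.FinPath
  Crest.Agent.R182.FinRed Crest.Agent.R182.Bnd Crest.Agent.R182.Core

variable {Γ : Type*} [Group Γ] {k : ℕ} {S : Set Γ} {π : Γ →* Multiplicative (Fin k → ℤ)}

/-- the one-scale law for `k = 0`. -/
theorem scale_zero (M : BModel S π) (hk : k = 0) (K : ℕ) :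
    ∃ (LL : Set ((Fin k → ℝ) →ₗ[ℝ] (Fin k → ℝ))) (c0 : ℝ), 0 < c0 ∧ LL.Finite ∧
      (∀ L ∈ LL, Function.Injective L) ∧ OneScaleLaw M LL c0 K := by
  subst hk
  refine ⟨{LinearMap.id}, 1, one_pos, Set.finite_singleton _, ?_, 1, one_pos, fun η _ => ?_⟩
  · rintro L rfl
    exact Function.injective_id
  · refine ⟨∅, ⟨Set.finite_empty, fun b hb => hb.elim, fun b hb => hb.elim, fun ν hν => ?_⟩, 0, 0,
      fun b hb => hb.elim, fun Ψ _ => ⟨fun _ => 0, fun _ => LinearMap.id, fun g => rfl,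
        fun g i => i.elim0, fun _ _ _ => rfl, fun g b hb => hb.elim⟩⟩
    exact absurd (LinearMap.ext fun v => by rw [Subsingleton.elim v 0, map_zero, map_zero]) hν

end Crest.Agent.R182.OneScale
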