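/-
R182, module HOLE (helper860): choice of all constants: `BoxFreq` ⇒ one-scale law.
-/
import Mathlib
import Crest.Agent.R182.HoleCore
import Crest.Agent.R182.HoleEl
import Crest.Agent.R182.HoleNum
import Crest.Agent.R182.ElHole
import Crest.Agent.R182.ElUnit
import Crest.Agent.R182.BoxFreq
import Crest.Agent.R182.BoxTop
import Crest.Agent.R182.ScaleZero
import Crest.Agent.R182.Asm3

set_option autoImplicit false
set_option linter.unusedSectionVars false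

open MeasureTheory Set
open scoped ENNReal Pointwise RealInnerProductSpace

namespace Crest.Agent.R182.HoleOneB

open Crest.GroupTheory Crest.Geometry Crest.Agent.R182.QI Crest.Agent.R182.Core
  Crest.Agent.R182.Core.BModel Crest.Agent.R182.Nb Crest.Agent.R182.HoleNil
  Crest.Agent.R182.HoleGeo Crest.Agent.R182.OneScale Crest.Agent.R182.ElI
  Crest.Agent.R182.HoleOne

/-- the numeric inequalities of the geometry, `Y = J τ Sc` -/
theorem num_geo {c Λ : ℕ} {l0 l1 e Y : ℝ} (hΛ : 1 ≤ Λ) (hl0 : 0 < l0) (hl1 : 0 < l1)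
    (hl : l1 ≤ Λ * l0) (hY : 0 ≤ Y) (he0 : 0 ≤ e) {Q₁ Q₂ : ℝ}
    (hQ₁ : Q₁ = 5 + 26 * (c + 1) * (Λ : ℝ) ^ 2) (hQ₂ : Q₂ = Q₁ + 12 * Λ) (heQ : Q₂ * e ≤ 1) :
    (c + 1) * (l1 * (2 * Y)) + l0 * ((1 - e) * Y) ≤ l0 * (Q₁ - 2) * Y ∧
    l0 * (Q₁ - 2) * Y + l0 * ((1 - e) * Y) ≤ Q₁ * (l0 * ((1 - e) * Y)) ∧
    (c + 1) * (2 * (6 * Λ) + 1) * (l1 * (2 * Y)) + l0 * ((1 - e) * Y) ≤ l0 * (Q₂ - 4) * Y ∧
    l0 * (Q₂ - 4) * Y + l0 * ((1 - e) * Y) ≤ Q₂ * (l0 * ((1 - e) * Y)) ∧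
    l0 * (Q₂ - 4) * Y + l0 * ((1 - e) * Y) ≤
      l0 * (Q₁ - 2) * Y + 2 * (6 * Λ) * (l0 * ((1 - e) * Y)) ∧
    l1 * (2 * Y) + l0 * ((1 - e) * Y) ≤ 6 * Λ * (l0 * ((1 - e) * Y)) := by
  have hc : (0:ℝ) ≤ c := Nat.cast_nonneg _
  have hΛ1 : (1:ℝ) ≤ Λ := by exact_mod_cast hΛ
  have hΛ2 : (Λ : ℝ) ≤ (Λ : ℝ) ^ 2 := by nlinarith
  have h1 : 0 ≤ l0 * Y := by positivity
  have h2 : l1 * Y ≤ Λ * (l0 * Y) := by
    have := mul_le_mul_of_nonneg_right hl hY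
    linarith
  have hl1Y : 0 ≤ l1 * Y := by positivity
  have hQ1p : 0 ≤ Q₁ := by rw [hQ₁]; positivity
  have he12 : 12 * Λ * e ≤ 1 := by nlinarith
  have heQ1 : Q₁ * e ≤ 1 := by nlinarith
  have he1 : e ≤ 1 := by nlinarith
  have hcΛ : 0 ≤ (c:ℝ) * (Λ:ℝ) ^ 2 := by positivity
  have hcΛ1 : (c:ℝ) * Λ ≤ (c:ℝ) * (Λ:ℝ) ^ 2 := mul_le_mul_of_nonneg_left hΛ2 hc
  refine ⟨?_, ?_, ?_, ?_, ?_, ?_⟩
  · have h3 : (c + 1) * (l1 * (2 * Y)) ≤ 2 * (c + 1) * Λ * (l0 * Y) := by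
      have h4 : (0:ℝ) ≤ 2 * (c + 1) := by positivity
      have := mul_le_mul_of_nonneg_left h2 h4
      linarith
    have h5 : 2 * (c + 1) * Λ + 1 ≤ Q₁ - 2 := by rw [hQ₁]; nlinarith
    have h6 := mul_le_mul_of_nonneg_right h5 h1
    nlinarith [mul_nonneg he0 h1]
  · have h3 : Q₁ * e * (l0 * Y) ≤ 1 * (l0 * Y) := mul_le_mul_of_nonneg_right heQ1 h1
    nlinarith [mul_nonneg he0 h1]
  · have h3 : (c + 1) * (2 * (6 * Λ) + 1) * (l1 * (2 * Y)) ≤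
        (2 * (c + 1) * (12 * Λ + 1) * Λ) * (l0 * Y) := by
      have h4 : (0:ℝ) ≤ 2 * (c + 1) * (12 * Λ + 1) := by positivity
      have := mul_le_mul_of_nonneg_left h2 h4
      linarith
    have h5 : 2 * (c + 1) * (12 * Λ + 1) * (Λ:ℝ) + 1 ≤ Q₂ - 4 := by
      rw [hQ₂, hQ₁]
      have h6 : 2 * (c + 1) * (12 * Λ + 1) * (Λ:ℝ) ≤ 26 * (c + 1) * (Λ:ℝ) ^ 2 := by
        have h7 : (12 * Λ + 1) * (Λ:ℝ) ≤ 13 * (Λ:ℝ) ^ 2 := by nlinarith
        have h8 : (0:ℝ) ≤ 2 * (c + 1) := by positivity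
        have := mul_le_mul_of_nonneg_left h7 h8
        linarith
      linarith
    have h6 := mul_le_mul_of_nonneg_right h5 h1
    nlinarith [mul_nonneg he0 h1]
  · have h3 : Q₂ * e * (l0 * Y) ≤ 1 * (l0 * Y) := mul_le_mul_of_nonneg_right heQ h1
    nlinarith [mul_nonneg he0 h1]
  · have h3 : 12 * Λ * e * (l0 * Y) ≤ 1 * (l0 * Y) := mul_le_mul_of_nonneg_right he12 h1
    rw [hQ₂]
    nlinarith [mul_nonneg he0 h1]
  · have h3 : 6 * Λ * e * (l0 * Y) ≤ 1 / 2 * (l0 * Y) :=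
      mul_le_mul_of_nonneg_right (by linarith) h1
    have h4 : 1 * (l0 * Y) ≤ Λ * (l0 * Y) := mul_le_mul_of_nonneg_right hΛ1 h1
    nlinarith [mul_nonneg he0 h1]

variable {Γ : Type*} [Group Γ] {k : ℕ} {S : Finset Γ} {π : Γ →* Multiplicative (Fin k → ℤ)}
  {M : BModel (S : Set Γ) π} {E : Type} [NormedAddCommGroup E] [InnerProductSpace ℝ E]
  [FiniteDimensional ℝ E]

set_option maxHeartbeats 1000000 in
theorem scale_of_freq (hcl : Subgroup.closure (S : Set Γ) = ⊤) (hX : XModel M) (G : Geo M E)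
    [Nonempty G.R] (K : ℕ) (hF : BoxFreq G K) :
    ∃ (LL : Set ((Fin k → ℝ) →ₗ[ℝ] (Fin k → ℝ))) (c0 : ℝ), 0 < c0 ∧
      LL.Finite ∧ (∀ L ∈ LL, Function.Injective L) ∧ OneScaleLaw M LL c0 K := by
  classical
  have hcount : Countable Γ := countable_of_closure S.finite_toSet hcl
  obtain ⟨c0, εv, hc0, hεv, hverts⟩ := exists_verts_unit G
  refine ⟨LLV G, c0, hc0, finite_LLV G, injective_LLV G, ?_⟩
  obtain ⟨m0, hm0, RC, Cb, hfreq⟩ := hF
  obtain ⟨gc, hgc⟩ := exists_GC (M := M) (σ := M.gen) (bch1 M)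
  obtain ⟨l0, l1, hl0, hl01, hl1, hl⟩ := exists_lam G
  obtain ⟨γ, hγ⟩ := exists_gap G
  have hγ0 := hγ.1
  have hγ1 := hγ.2.1
  obtain ⟨T, hT, hEvT⟩ := exists_tch G hγ RC Cb
  obtain ⟨D, hD, hD1, hD2⟩ := exists_TD G
  obtain ⟨R', s2, e1, P₀, D₀, hR', hs2, he1, hP₀, hcore⟩ := exists_core G hgc RC T hT
  obtain ⟨cK, hcore⟩ := hcore K
  obtain ⟨CR, DD, hCR, hDD, hlawB, hel⟩ := exists_law_el G
  have hgc1 := hgc.c1_pos
  have hA2 : 1 ≤ gc.A2 := hgc.A1_one.trans hgc.A12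
  have hA3 : 1 ≤ gc.A3 := hA2.trans hgc.A23
  obtain ⟨δg, εg, hδg, hεg, Cg, hCg1, hCg2, hCg3, hCg4⟩ := exists_δε gc M.r hgc1 hA3
  have hDE : DE gc M.r δg εg Cg := ⟨hCg1, hCg2, hCg3, hCg4⟩
  obtain ⟨cs, hcs0, hcs1, ω0, hω0, hω⟩ := el_hole S.finite_toSet hcl G hX.C_dist K RC Cb hA2 hl0
    (fun i => (hl i).1)
  set ω : ℝ := min ω0 (min m0 (γ / 16)) with hωdef
  have hωpos : 0 < ω := by positivity
  have hωm0 : ω ≤ m0 := (min_le_right _ _).trans (min_le_left _ _)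
  have hωγ : ω ≤ γ / 16 := (min_le_right _ _).trans (min_le_right _ _)
  obtain ⟨b0, hb0, hb0ω, hb⟩ := hω ω hωpos (min_le_left _ _)
  -- the combinatorial constants
  obtain ⟨Λ, hΛ1, hΛl⟩ : ∃ Λ : ℕ, 1 ≤ Λ ∧ l1 ≤ Λ * l0 := by
    refine ⟨⌈l1 / l0⌉₊ + 1, by omega, ?_⟩
    have h1 : l1 / l0 ≤ ⌈l1 / l0⌉₊ := Nat.le_ceil _
    rw [div_le_iff₀ hl0] at h1
    push_cast
    nlinarith
  set c : ℕ := M.c with hc
  set Q₁ : ℕ := 5 + 26 * (c + 1) * Λ ^ 2 with hQ₁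
  set Q₂ : ℕ := Q₁ + 12 * Λ with hQ₂
  have hQ₂pos : (0:ℝ) < Q₂ := by exact_mod_cast (by omega : 0 < Q₂)
  set B : ℕ := max 4 ⌈(Q₂ : ℝ) / b0⌉₊ with hB
  have hB4 : 4 ≤ B := le_max_left _ _
  have hB0 : (0:ℝ) < B := by exact_mod_cast (by omega : 0 < B)
  have hBb : (Q₂ : ℝ) / B ≤ b0 := by
    have h1 : (Q₂ : ℝ) / b0 ≤ B := (Nat.le_ceil _).trans (by exact_mod_cast le_max_right _ _)
    rw [div_le_iff₀ hb0] at h1
    rw [div_le_iff₀ hB0]
    linarith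
  have hQ12 : (Q₁ : ℝ) ≤ Q₂ := by exact_mod_cast (by omega : Q₁ ≤ Q₂)
  have hQ₁5 : (5 : ℝ) ≤ Q₁ := by exact_mod_cast (by omega : 5 ≤ Q₁)
  set b₁ : ℝ := Q₁ / B with hb₁
  set b₂ : ℝ := Q₂ / B with hb₂
  have hb₁p : 0 < b₁ := by positivity
  have hb₂p : 0 < b₂ := by positivity
  have hb₁b : b₁ ≤ b0 := (div_le_div_of_nonneg_right hQ12 hB0.le).trans hBb
  have ht₁ : (2:ℝ) / B < b₁ := div_lt_div_of_pos_right (by linarith) hB0
  have ht₂ : (4:ℝ) / B < b₂ := div_lt_div_of_pos_right (by linarith) hB0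
  -- the scale constant
  refine ⟨1 / (2 * D * B), by positivity, fun η hη => ?_⟩
  set m : ℝ := min (s2 / B) η with hm
  have hmpos : 0 < m := by positivity
  set J0 : ℝ := 2 * gc.J + 4 with hJ0
  have hJ0p : 0 < J0 := by positivity
  set W : ℝ := 8 + 32 * J0 with hW
  have hWp : 0 < W := by positivity
  set V : ℝ := 4 * J0 * DD with hV
  have hVp : 0 < V := by positivity
  set η' : ℝ := m / (4 * V) with hη'
  have hη'p : 0 < η' := by positivity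
  set δc : ℝ := m / 8 with hδc
  have hδcp : 0 < δc := by positivity
  set β : ℝ := εg / gc.A2 ^ M.r with hβ
  have hA2r : 0 < gc.A2 ^ M.r := by positivity
  have hβp : 0 < β := by positivity
  obtain ⟨L₁, hL₁, ε₁, hε₁, δ₁, hδ₁, Ev₁⟩ := hb b₁ hb₁p hb₁b (2 / B) (by positivity) ht₁ η' hη'p β
    hβp
  obtain ⟨L₂, hL₂, ε₂, hε₂, δ₂, hδ₂, Ev₂⟩ := hb b₂ hb₂p hBb (4 / B) (by positivity) ht₂ η' hη'p β
    hβp
  have hCA : 0 < CA M cs.c1 := by unfold CA; positivity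
  set η₀ : ℝ := min (m / (8 * W * CR)) (min (min (ε₁ / 2) (ε₂ / 2))
    (min (min (δ₁ / CA M cs.c1) (δ₂ / CA M cs.c1)) (δg * gc.c1 ^ M.r))) with hη₀
  have hη₀p : 0 < η₀ := by positivity
  have hη₀1 : η₀ ≤ m / (8 * W * CR) := min_le_left _ _
  have hη₀2 : η₀ ≤ ε₁ / 2 := (min_le_right _ _).trans ((min_le_left _ _).trans (min_le_left _ _))
  have hη₀3 : η₀ ≤ ε₂ / 2 := (min_le_right _ _).trans ((min_le_left _ _).trans (min_le_right _ _))
  have hη₀4 : η₀ ≤ δ₁ / CA M cs.c1 := (min_le_right _ _).trans ((min_le_right _ _).trans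
    ((min_le_left _ _).trans (min_le_left _ _)))
  have hη₀5 : η₀ ≤ δ₂ / CA M cs.c1 := (min_le_right _ _).trans ((min_le_right _ _).trans
    ((min_le_left _ _).trans (min_le_right _ _)))
  have hη₀6 : η₀ ≤ δg * gc.c1 ^ M.r := (min_le_right _ _).trans ((min_le_right _ _).trans
    (min_le_right _ _))
  obtain ⟨τ0, hτ0, hEv⟩ := (Ev₁.and Ev₂).and hEvT
  -- the unit of time
  set t0 : ℝ := min τ0 (min (min (ε₁ / 2) (ε₂ / 2)) (1 / (2 * D * B) / (2 * D))) with ht0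
  have ht0p : 0 < t0 := by positivity
  obtain ⟨n0, hn0⟩ := exists_nat_gt (1 / t0)
  have hn0p : (0:ℝ) < n0 := lt_trans (by positivity) hn0
  have hn01 : 1 ≤ n0 := by exact_mod_cast hn0p
  set J : ℕ := L₁ * L₂ * n0 with hJ
  have hJ1 : 1 ≤ J := Nat.mul_pos (Nat.mul_pos hL₁ hL₂) hn01
  have hJp : (0:ℝ) < J := by exact_mod_cast hJ1
  set τ : ℝ := 1 / (B * J) with hτ
  have hτp : 0 < τ := by positivity
  have hτt0 : τ ≤ t0 := by
    rw [hτ, div_le_iff₀ (by positivity)]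
    have h1 : 1 < t0 * n0 := by
      rw [div_lt_iff₀ ht0p] at hn0; linarith
    have h2 : (n0 : ℝ) ≤ B * J := by
      have h3 : n0 ≤ B * J := by
        rw [hJ]
        calc n0 = 1 * (1 * 1 * n0) := by ring
          _ ≤ B * (L₁ * L₂ * n0) := by
            refine Nat.mul_le_mul (by omega) (Nat.mul_le_mul (Nat.mul_le_mul hL₁ hL₂) le_rfl)
      exact_mod_cast h3
    have h4 := mul_le_mul_of_nonneg_left h2 ht0p.le
    linarith
  have hττ0 : τ ≤ τ0 := hτt0.trans (min_le_left _ _)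
  have hτε₁ : τ ≤ ε₁ / 2 := hτt0.trans ((min_le_right _ _).trans ((min_le_left _ _).trans
    (min_le_left _ _)))
  have hτε₂ : τ ≤ ε₂ / 2 := hτt0.trans ((min_le_right _ _).trans ((min_le_left _ _).trans
    (min_le_right _ _)))
  have hτD : τ ≤ 1 / (2 * D * B) / (2 * D) := hτt0.trans ((min_le_right _ _).trans
    (min_le_right _ _))
  have hJτ : (J : ℝ) * τ = 1 / B := by rw [hτ]; field_simp
  have hp1 : (1 : ℝ) = ((B * J : ℕ) : ℝ) * τ := by rw [hτ]; push_cast; field_simp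
  have hq1 : b₁ = ((Q₁ * J : ℕ) : ℝ) * τ := by
    push_cast; rw [mul_assoc, hJτ, hb₁]; ring
  have hq2 : b₂ = ((Q₂ * J : ℕ) : ℝ) * τ := by
    push_cast; rw [mul_assoc, hJτ, hb₂]; ring
  have hL₁0 : (0:ℝ) < L₁ := by exact_mod_cast hL₁
  have hL₂0 : (0:ℝ) < L₂ := by exact_mod_cast hL₂
  have hbL1 : b₁ / L₁ = ((Q₁ * (L₂ * n0) : ℕ) : ℝ) * τ := by
    rw [hq1, hJ]; push_cast; field_simp
  have hbL2 : b₂ / L₂ = ((Q₂ * (L₁ * n0) : ℕ) : ℝ) * τ := by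
    rw [hq2, hJ]; push_cast; field_simp
  obtain ⟨e0, he0, S0, hS0⟩ := hEv τ hτp hττ0
  set e : ℝ := min (min e0 e1) (min (min (1 / 4) (1 / Q₂)) (min (m / (8 * W * CR)) εv)) with he
  have hep : 0 < e := by positivity
  have hee0 : e ≤ e0 := (min_le_left _ _).trans (min_le_left _ _)
  have hee1 : e ≤ e1 := (min_le_left _ _).trans (min_le_right _ _)
  have he4 : e ≤ 1 / 4 := (min_le_right _ _).trans ((min_le_left _ _).trans (min_le_left _ _))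
  have heQ : e ≤ 1 / Q₂ := (min_le_right _ _).trans ((min_le_left _ _).trans (min_le_right _ _))
  have hem : e ≤ m / (8 * W * CR) := (min_le_right _ _).trans ((min_le_right _ _).trans
    (min_le_left _ _))
  have heεv : e ≤ εv := (min_le_right _ _).trans ((min_le_right _ _).trans (min_le_right _ _))
  have he2 : e ≤ 1 / 2 := by linarith
  have heQ' : (Q₂ : ℝ) * e ≤ 1 := by
    rw [le_div_iff₀ hQ₂pos] at heQ; linarith
  obtain ⟨b, Cp, hbCN, hfreq2⟩ := hfreq η₀ hη₀p τ hτp e hep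
  obtain ⟨Nc, hNc⟩ := exists_conj_ww G hX K b hbCN R' Cp J hδcp
  set Cn : ℕ := ⌈|Cb| * τ⌉₊ + 1 with hCn
  have hCnb : Cb * τ ≤ Cn := by
    have h1 : |Cb| * τ ≤ ⌈|Cb| * τ⌉₊ := Nat.le_ceil _
    have h2 : Cb * τ ≤ |Cb| * τ := mul_le_mul_of_nonneg_right (le_abs_self _) hτp.le
    rw [hCn]; push_cast; linarith
  set p : ℕ := B * J with hp
  set q₁ : ℕ := Q₁ * J with hq₁
  set q₂ : ℕ := Q₂ * J with hq₂
  obtain ⟨Ne, hNe⟩ := exists_exp_small P₀ (((p + q₂) * Cn : ℕ) : ℝ) (l0 / (2 * B)) D₀ (by positivity)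
  obtain ⟨N, hN, un, pe, hup, hpe, hraw⟩ := hfreq2 (max (max Nc Ne) (max ⌈S0⌉₊ 1))
  have hNc' : Nc ≤ N := (le_max_left _ _).trans ((le_max_left _ _).trans hN)
  have hNe' : Ne ≤ N := (le_max_right _ _).trans ((le_max_left _ _).trans hN)
  have hNS : S0 ≤ N := by
    have h1 : ⌈S0⌉₊ ≤ N := (le_max_left _ _).trans ((le_max_right _ _).trans hN)
    exact (Nat.le_ceil _).trans (by exact_mod_cast h1)
  have hN1 : 1 ≤ N := (le_max_right _ _).trans ((le_max_right _ _).trans hN)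
  have hN0 : (0:ℝ) < N := by exact_mod_cast hN1
  have hτN : 0 < τ * N := by positivity
  obtain ⟨⟨hE1, hE2⟩, hTch⟩ := hS0 N hNS (un.mono hee0 hτN.le)
  change _ at hE1
  have hQ₁r : (Q₁ : ℝ) = 5 + 26 * (c + 1) * (Λ : ℝ) ^ 2 := by rw [hQ₁]; push_cast; ring
  have hQ₂r : (Q₂ : ℝ) = Q₁ + 12 * Λ := by rw [hQ₂]; push_cast; ring
  set Y : ℝ := J * (τ * N) with hY
  have hYB : Y = N / B := by rw [hY, ← mul_assoc, hJτ]; ring
  have hYp : 0 < Y := by positivity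
  obtain ⟨n1, n2, n3, n4, n5, n6⟩ := num_geo (c := c) hΛ1 hl0 (by linarith) hΛl hYp.le hep.le hQ₁r
    hQ₂r heQ'
  set μ₁ : ℝ := l0 * ((1 - e) * (τ * N)) with hμ₁
  set μ₂ : ℝ := l1 * (2 * (τ * N)) with hμ₂
  have hJμ₁ : J * μ₁ = l0 * ((1 - e) * Y) := by rw [hμ₁, hY]; ring
  have hJμ₂ : J * μ₂ = l1 * (2 * Y) := by rw [hμ₂, hY]; ring
  have hLegB : LegB G.ray un.u (Cn * N) RC μ₁ μ₂ := by
    refine legB_of_unit G hl0 hl (by linarith) un hep.le he2 hτN ?_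
    push_cast
    calc Cb * (τ * N) = (Cb * τ) * N := by ring
      _ ≤ Cn * N := mul_le_mul_of_nonneg_right hCnb hN0.le
  set a₁ : ℝ := l0 * (b₁ - 2 / B) * N with ha₁
  set a₂ : ℝ := l0 * (b₂ - 4 / B) * N with ha₂
  have ha₁Y : a₁ = l0 * (Q₁ - 2) * Y := by rw [ha₁, hb₁, hYB]; ring
  have ha₂Y : a₂ = l0 * (Q₂ - 4) * Y := by rw [ha₂, hb₂, hYB]; ring
  -- near-round shapes
  have hNR : ∀ m : G.R → ℕ, (∀ r, p ≤ m r) → (∀ r, m r ≤ p + q₂) →
      ∀ r, |(m r : ℝ) * τ - 1| ≤ ω := by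
    intro m h1 h2 r
    have h3 : (p : ℝ) * τ ≤ m r * τ := mul_le_mul_of_nonneg_right (by exact_mod_cast h1 r) hτp.le
    have h4 : (m r : ℝ) * τ ≤ ((p + q₂ : ℕ) : ℝ) * τ :=
      mul_le_mul_of_nonneg_right (by exact_mod_cast h2 r) hτp.le
    push_cast at h4
    rw [← hp1] at h3
    rw [add_mul, ← hp1, ← hq2] at h4
    rw [abs_of_nonneg (by linarith)]
    linarith [hBb.trans hb0ω]
  have hJB : (J : ℝ) * τ * N = N / B := by rw [hJτ]; ring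
  obtain ⟨Dd, hDd⟩ := hcore un.u (Cn * N) μ₁ μ₂ (Nat.mul_pos (by omega) hN1) hLegB p q₁ q₂
    (6 * Λ * J) J a₁ a₂ (J * τ * N) hJ1 (by rw [hq₁]; exact Nat.le_mul_of_pos_left _ (by omega))
    (by rw [hq₁, hq₂, hQ₂]; ring)
    (by
      calc J = 1 * J := (one_mul _).symm
        _ ≤ 12 * Λ * J := Nat.mul_le_mul_right _ (by omega)
        _ = 2 * (6 * Λ * J) := by ring)
    (by
      have e1 : (c + 1 : ℝ) * J * μ₂ + J * μ₁ = (c + 1) * (J * μ₂) + J * μ₁ := by ring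
      rw [e1, hJμ₁, hJμ₂, ha₁Y]; exact n1)
    (by
      have e1 : ((q₁ : ℕ) : ℝ) * μ₁ = Q₁ * (J * μ₁) := by rw [hq₁]; push_cast; ring
      rw [e1, hJμ₁, ha₁Y]; exact n2)
    (by
      have e1 : (c + 1 : ℝ) * (2 * ((6 * Λ * J : ℕ) : ℝ) + J) * μ₂ + J * μ₁ =
        (c + 1) * (2 * (6 * Λ) + 1) * (J * μ₂) + J * μ₁ := by push_cast; ring
      rw [e1, hJμ₁, hJμ₂, ha₂Y]; exact n3)
    (by
      have e1 : ((q₂ : ℕ) : ℝ) * μ₁ = Q₂ * (J * μ₁) := by rw [hq₂]; push_cast; ring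
      rw [e1, hJμ₁, ha₂Y]; exact n4)
    (by
      have e1 : 2 * ((6 * Λ * J : ℕ) : ℝ) * μ₁ = 2 * (6 * Λ) * (J * μ₁) := by push_cast; ring
      rw [e1, hJμ₁, ha₂Y, ha₁Y]; exact n5)
    (by
      have e1 : ((6 * Λ * J : ℕ) : ℝ) * μ₁ = 6 * Λ * (J * μ₁) := by push_cast; ring
      rw [e1, hJμ₁, hJμ₂]; exact n6)
    (fun m h1 h2 => hTch ω hωγ m (hNR m h1 h2))
    (by
      have h1 := hNe N hNe'
      refine le_trans ?_ h1
      have h2 : (((p + q₂) * (Cn * N) : ℕ) : ℝ) = (((p + q₂) * Cn : ℕ) : ℝ) * N := by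
        push_cast; ring
      rw [h2, hJμ₁, hYB]
      refine mul_le_mul_of_nonneg_left (Real.exp_le_exp.2 ?_) (by positivity)
      have h3 : l0 / (2 * B) * N = l0 * (1 / 2 * (N / B)) := by field_simp
      rw [h3]
      have h4 : 1 / 2 * ((N:ℝ) / B) ≤ (1 - e) * (N / B) :=
        mul_le_mul_of_nonneg_right (by linarith) (by positivity)
      have h5 := mul_le_mul_of_nonneg_left h4 hl0.le
      linarith)
    (by positivity)
    (fun r => by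
      refine ((unit_num G un hD hD1 hD2 hτN he2 r).2.2 J).trans ?_
      exact mul_le_mul_of_nonneg_right hee1 (by positivity))
  -- the error
  set τL : ℝ := CR * (η₀ + e) * N with hτL
  have hτL0 : 0 ≤ τL := by positivity
  set ηL : ℝ := 4 * τL + DD * η' * N with hηL
  have hηL0 : 0 ≤ ηL := by positivity
  have herr : 2 * (4 * τL + δc * N + J0 * (8 * τL + 2 * ηL)) ≤ m * N := by
    have h1 : CR * (η₀ + e) ≤ m / (4 * W) := by
      have h2 : η₀ + e ≤ m / (8 * W * CR) + m / (8 * W * CR) := add_le_add hη₀1 hem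
      calc CR * (η₀ + e) ≤ CR * (m / (8 * W * CR) + m / (8 * W * CR)) :=
            mul_le_mul_of_nonneg_left h2 (by linarith)
        _ = m / (4 * W) := by field_simp; ring
    have h3 : W * τL ≤ m / 4 * N := by
      calc W * τL = W * (CR * (η₀ + e)) * N := by rw [hτL]; ring
        _ ≤ W * (m / (4 * W)) * N := by gcongr
        _ = m / 4 * N := by field_simp
    have h4 : V * (η' * N) = m / 4 * N := by rw [hη']; field_simp
    have h5 : 2 * (4 * τL + δc * N + J0 * (8 * τL + 2 * ηL)) = W * τL + 2 * (δc * N) +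
        V * (η' * N) := by rw [hηL, hW, hV]; ring
    rw [h5, h4, hδc]
    have h6 : 0 ≤ m * N := by positivity
    linarith
  refine ⟨Set.range un.u, hverts RC Cb e τ N heεv hτp hN0 un, N, cK * (Dd + 1) + τL, ?_,
    fun Ψ hΨ => ?_⟩
  · rintro _ ⟨r, rfl⟩
    refine (unit_num G un hD hD1 hD2 hτN he2 r).2.1.trans ?_
    have h1 : 2 * D * τ ≤ 1 / (2 * D * B) := by
      have h2 := hτD
      rw [le_div_iff₀ (by positivity)] at h2
      linarith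
    have h3 := mul_le_mul_of_nonneg_right h1 hN0.le
    linarith
  -- the raw laws
  have hrawm : ∀ m : G.R → ℕ, (∀ r, |(m r : ℝ) * τ - 1| ≤ ω) → ∀ y : M.G,
      ∃ L ∈ LLE G, ∃ θ : E, RawLaw G Ψ N τ un.u η₀ (fun e => m e * τ) y L θ :=
    fun m hm y => hraw Ψ hΨ m (fun r => (hm r).trans hωm0) y
  have hboxAt : ∀ ε δ : ℝ, τ ≤ ε / 2 → η₀ ≤ ε / 2 → η₀ ≤ δ / CA M cs.c1 → ∀ x : M.G,
      BoxAt G cs Ψ x N τ un.u ω ε δ := by
    intro ε δ h1 h2 h3 x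
    refine boxAt_of_raw cs hcs0 hγ hωpos.le (by linarith) hτp hη₀p.le (by linarith) ?_ ?_ x
    · rw [le_div_iff₀ hCA] at h3; exact h3
    · rintro Z ⟨⟨m, hm⟩, hZ⟩ y
      have hZm : Z = fun e => (m e : ℝ) * τ := funext hm
      subst hZm
      exact hrawm m hZ y
  have hrawAt : ∀ ε δ : ℝ, τ ≤ ε / 2 → η₀ ≤ ε / 2 → η₀ ≤ δ / CA M cs.c1 → ∀ m : G.R → ℕ,
      (∀ r, |(m r : ℝ) * τ - 1| ≤ ω) → RawAt G cs Ψ N τ un.u η₀ ε δ (fun r => m r * τ) := by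
    intro ε δ h1 h2 h3 m hm x n σ L θ hL hr
    refine lawAt_of_raw cs hcs0 hγ hωpos.le (by linarith) hτp hη₀p.le (by linarith) ?_ hm hL hr
    rw [le_div_iff₀ hCA] at h3; exact h3
  have hboxOut : ∀ m : G.R → ℕ, (∀ r, |(m r : ℝ) * τ - 1| ≤ ω) →
      BoxOut G Ψ N τ un.u η₀ (fun r => m r * τ) := by
    intro m hm y
    obtain ⟨L, ⟨σ, hL⟩, θ, hr⟩ := hrawm m hm y
    exact ⟨σ, L, θ, hL, hr⟩
  have hδη : ENNReal.ofReal η₀ ≤ ENNReal.ofReal δg * ENNReal.ofReal (gc.c1 ^ M.r) := by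
    rw [← ENNReal.ofReal_mul hδg.le]
    exact ENNReal.ofReal_le_ofReal hη₀6
  have hJτ4 : (J : ℝ) * τ ≤ 1 / 4 := by
    rw [hJτ]
    exact one_div_le_one_div_of_le (by norm_num) (by exact_mod_cast hB4)
  have hNRp : ∀ r : G.R, |(((fun _ => p) r : ℕ) : ℝ) * τ - 1| ≤ ω :=
    hNR (fun _ => p) (fun _ => le_rfl) (fun _ => Nat.le_add_right _ _)
  have hNRu : ∀ q, q ≤ q₂ → ∀ r r' : G.R,
      |((Function.update (fun _ => p) r (p + q) r' : ℕ) : ℝ) * τ - 1| ≤ ω := by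
    intro q hq r
    refine hNR _ (fun r' => ?_) (fun r' => ?_)
    · by_cases h : r' = r
      · subst h; rw [Function.update_self]; omega
      · rw [Function.update_of_ne h]
    · by_cases h : r' = r
      · subst h; rw [Function.update_self]; omega
      · rw [Function.update_of_ne h]; omega
  have hvol : ∀ m : G.R → ℕ, (∀ r, p ≤ m r) → (∀ r, m r ≤ p + q₂) →
      volume (M.NB (F G.ray un.u m) gc.c1) ≠ 0 := by
    intro m h1 h2
    exact volume_fam_ne_zero (Gen.spans M) hT (g := fun r => un.u r ^ m r)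
      (N := (p + q₂) * (Cn * N)) (fun r => hLegB.mem G.ray un.u h2 r)
      (hTch ω hωγ m (hNR m h1 h2)) hgc1
  have hbounds : ∀ q, q ≤ q₂ → ∀ r : G.R, (∀ r', p ≤ Function.update (fun _ => p) r (p + q) r') ∧
      ∀ r', Function.update (fun _ => p) r (p + q) r' ≤ p + q₂ := by
    intro q hq r
    refine ⟨fun r' => ?_, fun r' => ?_⟩
    · by_cases h : r' = r
      · subst h; rw [Function.update_self]; omega
      · rw [Function.update_of_ne h]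
    · by_cases h : r' = r
      · subst h; rw [Function.update_self]; omega
      · rw [Function.update_of_ne h]; omega
  have hβA : β * gc.A2 ^ M.r = εg := by rw [hβ]; field_simp
  have helAt : ∀ (q : ℕ) (bb ε δ a : ℝ), q ≤ q₂ → bb = q * τ → τ ≤ ε / 2 → η₀ ≤ ε / 2 →
      η₀ ≤ δ / CA M cs.c1 →
      ElOut G cs Ψ N τ un.u ε δ η' β bb
        (M.NB (fm G un.u τ fun _ => 1 + bb) (gc.A2 * Real.exp (-a))) →
      ElAt G gc Ψ un.u p q J (Real.exp (-a)) τL ηL δg εg := by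
    intro q bb ε δ a hq hbb h1 h2 h3 helo y r
    have h4 := hel (cs := cs) (ε1 := ε) (δ1 := δ) (η₀ := η₀) (η' := η') (β := β) (A2 := gc.A2)
      (e := Real.exp (-a)) (c1 := gc.c1) (δL := ENNReal.ofReal δg) un hN0 hτp hep.le hJτ4 hp1 hbb
      hη₀p.le hη'p.le (by linarith) hgc1 hgc.c1_le hδη hCg3
      (hvol _ (fun _ => le_rfl) (fun _ => Nat.le_add_right _ _))
      (fun r => hvol _ (hbounds q hq r).1 (hbounds q hq r).2)
      (by rw [shape_one hp1]; exact hboxOut _ hNRp)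
      (fun r => by rw [shape_upd hp1 hbb r]; exact hboxOut _ (hNRu q hq r))
      (by rw [shape_one hp1]; exact hrawAt ε δ h1 h2 h3 _ hNRp)
      (fun r => by rw [shape_upd hp1 hbb r]; exact hrawAt ε δ h1 h2 h3 _ (hNRu q hq r)) helo y r
    rw [hβA] at h4
    exact h4
  have hun : un.u = fun e => b e ^ pe e := funext hup
  obtain ⟨θ, Lx, k1, k2, k3, k4⟩ := hDd Ψ hΨ τL (δc * N) ηL δg εg Cg hτL0 (by positivity) hηL0 hDE
    (fun m h1 h2 y => by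
      obtain ⟨L, hL, θ, hr⟩ := hrawm m (hNR m h1 h2) y
      have h3 : ∀ r, 1 / 2 ≤ (m r : ℝ) * τ := by
        intro r
        have := (abs_le.1 (hNR m h1 h2 r)).1
        linarith
      exact ⟨toV G L, toV_mem hL, _, hlawB un hN0 hτp hep.le hJτ4 h3 hη₀p.le hL hr hgc1 hδη⟩)
    (helAt q₁ b₁ ε₁ δ₁ a₁ (by rw [hq₁, hq₂]; exact Nat.mul_le_mul_right _ (by omega)) hq1 hτε₁
      hη₀2 hη₀4 (fun x => hE1 ⟨_, hp1⟩ ⟨_, hbL1⟩ Ψ hΨ x (hboxAt ε₁ δ₁ hτε₁ hη₀2 hη₀4 x)))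
    (helAt q₂ b₂ ε₂ δ₂ a₂ le_rfl hq2 hτε₂ hη₀3 hη₀5
      (fun x => hE2 ⟨_, hp1⟩ ⟨_, hbL2⟩ Ψ hΨ x (hboxAt ε₂ δ₂ hτε₂ hη₀3 hη₀5 x)))
    (fun c hc hcR z o => by
      have h1 := hNc N hNc' pe hpe Ψ hΨ c hc hcR z o
      rw [hun]; exact h1)
    (by
      refine herr.trans ?_
      have h1 : m ≤ s2 / B := min_le_left _ _
      calc m * N ≤ s2 / B * N := mul_le_mul_of_nonneg_right h1 hN0.le
        _ = s2 * (J * τ * N) := by rw [hJB]; ring)
  refine ⟨θ, Lx, k1, k2, k3, ?_⟩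
  rintro g _ ⟨r, rfl⟩ j hj i
  have hjJ : j ≤ J := by
    have h1 := (unit_num G un hD hD1 hD2 hτN he2 r).1
    have h2 : (j : ℝ) * (τ * N / (2 * D)) ≤ 1 / (2 * D * B) * N :=
      (mul_le_mul_of_nonneg_left h1 (Nat.cast_nonneg j)).trans hj
    have h3 : (j : ℝ) * τ ≤ J * τ := by
      rw [hJτ]
      have h4 : (j : ℝ) * (τ * N / (2 * D)) = (j * τ) * (N / (2 * D)) := by ring
      have h5 : 1 / (2 * D * B) * (N:ℝ) = (1 / B) * (N / (2 * D)) := by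
        have hD0 : (0:ℝ) < D := by linarith
        field_simp
      rw [h4, h5] at h2
      exact le_of_mul_le_mul_right h2 (by positivity)
    have h6 : (j : ℝ) ≤ J := le_of_mul_le_mul_right h3 hτp
    exact_mod_cast h6
  refine (k4 g r j hjJ i).trans (herr.trans ?_)
  exact mul_le_mul_of_nonneg_right (min_le_right _ _) hN0.le

/-- **the one-scale law of every real model** -/
theorem hasScale {Γ : Type*} [Group Γ] (D : Polyc.RootData Γ) : Asm3.HasScale Γ D := by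
  intro S hS M hX K
  obtain ⟨G, hG⟩ := exists_geo_boxFreq D hS M hX
  rcases isEmpty_or_nonempty G.R with hR | hR
  · refine OneScale.scale_zero M ?_ K
    by_contra hk
    have h1 : (fun _ : Fin D.k => (1:ℝ)) = 0 :=
      M.sep _ fun i hi => (hR.false (G.ray ⟨i, hi⟩)).elim
    have h2 := congrFun h1 ⟨0, Nat.pos_of_ne_zero hk⟩
    simp at h2
  · exact scale_of_freq hS hX G K (hG K)

end Crest.Agent.R182.HoleOneB
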