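/-
R182, module MODEL (M1b): homomorphisms `N → ℂ` and functionals on `𝔫/[𝔫,𝔫]`, crossed
homomorphisms on `G1`, first length bounds.
-/
import Mathlib
import Crest.Agent.R182.ModelBCH
import Crest.Agent.R182.ModelGroup

set_option autoImplicit false
set_option linter.unusedSectionVars false

namespace Crest.Agent.R182.Model

open Polyc Crest.GroupTheory Crest.Geometry

section

variable {Γ : Type*} [Group Γ] {N : Subgroup Γ} (D : EmbData Γ N)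

/-- density for complex functionals -/
theorem linear_eq_of_int {σ : Type*} {n : ℕ} {F G : Matrix (Fin n) (Fin n) ℝ →ₗ[ℝ] ℂ}
    {f g : (σ → ℝ) → Matrix (Fin n) (Fin n) ℝ} (hf : IsPolyM f) (hg : IsPolyM g)
    (h : ∀ z : σ → ℤ, F (f (fun i => (z i : ℝ))) = G (g (fun i => (z i : ℝ)))) (x : σ → ℝ) :
    F (f x) = G (g x) := by
  apply Complex.ext
  · exact (hf.linear (Complex.reLm ∘ₗ F)).eq_of_int (hg.linear (Complex.reLm ∘ₗ G))
      (fun z => congrArg Complex.re (h z)) x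
  · exact (hf.linear (Complex.imLm ∘ₗ F)).eq_of_int (hg.linear (Complex.imLm ∘ₗ G))
      (fun z => congrArg Complex.im (h z)) x

/-- the linear functional attached to values on the Mal'cev basis -/
noncomputable def Lm (ℓ : N → ℂ) : Matrix (Fin D.n) (Fin D.n) ℝ →ₗ[ℝ] ℂ :=
  ∑ j, (D.cR j).smulRight (ℓ ⟨D.a j, D.mem j⟩)

theorem Lm_apply (ℓ : N → ℂ) (M : Matrix (Fin D.n) (Fin D.n) ℝ) :
    Lm D ℓ M = ∑ j, D.cR j M • ℓ ⟨D.a j, D.mem j⟩ := by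
  simp [Lm, LinearMap.sum_apply]

variable {D}

section hom

variable {ℓ : N → ℂ} (hℓ : ∀ a b, ℓ (a * b) = ℓ a + ℓ b)

include hℓ

theorem hom_one : ℓ 1 = 0 := by
  have := hℓ 1 1
  rw [mul_one] at this
  simpa using this

theorem hom_inv (a : N) : ℓ a⁻¹ = - ℓ a := by
  have := hℓ a a⁻¹
  rw [mul_inv_cancel, hom_one hℓ] at this
  linear_combination -this

theorem hom_pow (a : N) (k : ℕ) : ℓ (a ^ k) = k * ℓ a := by
  induction k with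
  | zero => simp [hom_one hℓ]
  | succ k ih => rw [pow_succ, hℓ, ih]; push_cast; ring

theorem hom_zpow (a : N) (k : ℤ) : ℓ (a ^ k) = k * ℓ a := by
  obtain ⟨m, rfl | rfl⟩ := k.eq_nat_or_neg
  · rw [zpow_natCast, hom_pow hℓ]; simp
  · rw [zpow_neg, zpow_natCast, hom_inv hℓ, hom_pow hℓ]; push_cast; ring

theorem hom_list (l : List N) : ℓ l.prod = (l.map ℓ).sum := by
  induction l with
  | nil => simp [hom_one hℓ]
  | cons a l ih => rw [List.prod_cons, hℓ, ih, List.map_cons, List.sum_cons]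

/-- the functional restricts to the homomorphism -/
theorem Lm_ρu (n : N) : Lm D ℓ (D.ρu n : Matrix (Fin D.n) (Fin D.n) ℝ) = ℓ n := by
  obtain ⟨e, he⟩ := D.surj n n.2
  have h1 : n = (List.ofFn fun i => (⟨D.a i, D.mem i⟩ : N) ^ e i).prod := by
    apply Subtype.ext
    rw [he, prodE, ← N.coe_subtype, map_list_prod, List.map_ofFn]
    rfl
  have h2 : ℓ n = ∑ i, (e i : ℂ) * ℓ ⟨D.a i, D.mem i⟩ := by
    conv_lhs => rw [h1]
    rw [hom_list hℓ, List.map_ofFn, List.sum_ofFn]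
    refine Finset.sum_congr rfl fun i _ => ?_
    simp only [Function.comp]
    exact hom_zpow hℓ _ _
  rw [h2, Lm_apply]
  refine Finset.sum_congr rfl fun i _ => ?_
  have h3 : D.cR i (D.ρu n : Matrix (Fin D.n) (Fin D.n) ℝ) = (e i : ℝ) := by
    have h4 := D.crd_ρu n i
    rw [he, D.coord_spec] at h4
    rw [he]
    exact h4
  rw [h3, Complex.real_smul]
  norm_num

theorem Lm_mul {g h : (Matrix (Fin D.n) (Fin D.n) ℝ)ˣ} (hg : g ∈ D.NR) (hh : h ∈ D.NR) :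
    Lm D ℓ ((g : Matrix (Fin D.n) (Fin D.n) ℝ) * h) =
      Lm D ℓ (g : Matrix (Fin D.n) (Fin D.n) ℝ) + Lm D ℓ (h : Matrix (Fin D.n) (Fin D.n) ℝ) := by
  obtain ⟨x, rfl⟩ := hg
  obtain ⟨y, rfl⟩ := hh
  rw [← map_add]
  have p1 := D.isPolyU_Eu.comp (g := fun (z : Fin D.r ⊕ Fin D.r → ℝ) i => z (Sum.inl i))
    fun i => IsPoly.coord _
  have p2 := D.isPolyU_Eu.comp (g := fun (z : Fin D.r ⊕ Fin D.r → ℝ) i => z (Sum.inr i))
    fun i => IsPoly.coord _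
  have h1 := linear_eq_of_int (F := Lm D ℓ) (G := Lm D ℓ) (p1.1.mul p2.1) (p1.1.add p2.1)
    (fun z => ?_) (Sum.elim x y)
  · simpa only [Sum.elim_inl, Sum.elim_inr] using h1
  · have e1 : D.Eu (fun i => (z (Sum.inl i) : ℝ)) = D.ρu (prodE D.a (fun i => z (Sum.inl i))) :=
      D.Eu_int (fun i => z (Sum.inl i))
    have e2 : D.Eu (fun i => (z (Sum.inr i) : ℝ)) = D.ρu (prodE D.a (fun i => z (Sum.inr i))) :=
      D.Eu_int (fun i => z (Sum.inr i))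
    simp only [e1, e2, map_add]
    rw [← Units.val_mul, ← map_mul]
    have m1 := D.prodE_mem (fun i => z (Sum.inl i))
    have m2 := D.prodE_mem (fun i => z (Sum.inr i))
    have h3 := Lm_ρu (D := D) hℓ (⟨_, m1⟩ * ⟨_, m2⟩)
    have h4 := Lm_ρu (D := D) hℓ ⟨_, m1⟩
    have h5 := Lm_ρu (D := D) hℓ ⟨_, m2⟩
    simp only [Subgroup.coe_mul] at h3
    rw [h3, h4, h5, hℓ]

theorem Lm_one : Lm D ℓ 1 = 0 := by
  have := Lm_ρu (D := D) hℓ 1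
  rwa [hom_one hℓ, Subgroup.coe_one, map_one, Units.val_one] at this

theorem Lm_inv {g : (Matrix (Fin D.n) (Fin D.n) ℝ)ˣ} (hg : g ∈ D.NR) :
    Lm D ℓ ((g⁻¹ : (Matrix (Fin D.n) (Fin D.n) ℝ)ˣ) : Matrix (Fin D.n) (Fin D.n) ℝ) =
      - Lm D ℓ (g : Matrix (Fin D.n) (Fin D.n) ℝ) := by
  have h1 := Lm_mul (D := D) hℓ hg (D.NR.inv_mem hg)
  rw [Units.mul_inv, Lm_one hℓ] at h1
  exact (eq_neg_of_add_eq_zero_right h1.symm)

end hom

/-- a linear functional which is additive on `N_ℝ`: `F (ex X) = F X` on `𝔫`. -/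
theorem real_ex {F : Matrix (Fin D.n) (Fin D.n) ℝ →ₗ[ℝ] ℝ}
    (hF : ∀ g ∈ D.NR, ∀ h ∈ D.NR, F ((g : Matrix (Fin D.n) (Fin D.n) ℝ) * h) =
      F (g : Matrix (Fin D.n) (Fin D.n) ℝ) + F (h : Matrix (Fin D.n) (Fin D.n) ℝ))
    {X : Matrix (Fin D.n) (Fin D.n) ℝ} (hX : X ∈ lie D) : F (ex X) = F X := by
  have hXn := lie_pow_zero D hX
  have h1 : F 1 = 0 := by
    have := hF 1 D.NR.one_mem 1 D.NR.one_mem
    rw [Units.val_one, mul_one] at this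
    linarith
  have h2 : ∀ m : ℕ, F (ex ((m : ℝ) • X)) = m * F (ex X) := by
    intro m
    induction m with
    | zero => simp [ex_zero, h1]
    | succ m ih =>
      have h3 := hF _ (exU_mem_of_lie D ((lie D).smul_mem (m : ℝ) hX)) _ (exU_mem_of_lie D hX)
      change F (ex ((m : ℝ) • X) * ex X) = F (ex ((m : ℝ) • X)) + F (ex X) at h3
      rw [Nat.cast_succ, ex_add_smul hXn, one_smul, h3, ih]; ring
  have h3 : ∀ t : ℝ, F (ex (t • X)) - t * F (ex X) = 0 := by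
    have hp : PC1 (fun t => F (ex (t • X)) - t * F (ex X)) :=
      ((isPolyM_ex (IsPolyM.smul (IsPoly.coord 0) (IsPolyM.const X))).linear F).sub
        ((IsPoly.coord 0).mul (Polyc.IsPoly.const _))
    refine hp.eq_zero ?_
    intro k
    have := h2 (k + 1)
    push_cast at this
    rw [this]; ring
  have h4 : HasDerivAt (fun t : ℝ => F (ex (t • X))) (F (X * ex ((0 : ℝ) • X))) 0 :=
    (hdm_ex_smul hXn 0).linear F
  have h5 : HasDerivAt (fun t : ℝ => F (ex (t • X))) (1 * F (ex X)) 0 := by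
    have : (fun t : ℝ => F (ex (t • X))) = fun t => t * F (ex X) := by
      funext t; linarith [h3 t]
    rw [this]
    exact (hasDerivAt_id (0 : ℝ)).mul_const _
  have h6 := h4.unique h5
  rw [zero_smul, ex_zero, mul_one, one_mul] at h6
  exact h6.symm

theorem real_bracket {F : Matrix (Fin D.n) (Fin D.n) ℝ →ₗ[ℝ] ℝ}
    (hF : ∀ g ∈ D.NR, ∀ h ∈ D.NR, F ((g : Matrix (Fin D.n) (Fin D.n) ℝ) * h) =
      F (g : Matrix (Fin D.n) (Fin D.n) ℝ) + F (h : Matrix (Fin D.n) (Fin D.n) ℝ))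
    {X Y : Matrix (Fin D.n) (Fin D.n) ℝ} (hX : X ∈ lie D) (hY : Y ∈ lie D) :
    F (X * Y - Y * X) = 0 := by
  have hXn := lie_pow_zero D hX
  have hXn' : (-X) ^ D.n = 0 := lie_pow_zero D ((lie D).neg_mem hX)
  have h0 : F 1 = 0 := by
    have := hF 1 D.NR.one_mem 1 D.NR.one_mem
    rw [Units.val_one, mul_one] at this
    linarith
  have hinv : ∀ g ∈ D.NR, F ((g⁻¹ : (Matrix (Fin D.n) (Fin D.n) ℝ)ˣ) :
      Matrix (Fin D.n) (Fin D.n) ℝ) = - F (g : Matrix (Fin D.n) (Fin D.n) ℝ) := by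
    intro g hg
    have := hF g hg g⁻¹ (D.NR.inv_mem hg)
    rw [Units.mul_inv, h0] at this
    linarith
  have hAd : ∀ t : ℝ, F (ex (t • X) * Y * ex (t • -X)) = F Y := by
    intro t
    have hg := exU_mem_of_lie D ((lie D).smul_mem t hX)
    have hconj : ∀ g ∈ D.NR, exU (t • X) (lie_pow_zero D ((lie D).smul_mem t hX)) * g *
        (exU (t • X) (lie_pow_zero D ((lie D).smul_mem t hX)))⁻¹ ∈ D.NR := fun g hg' =>
      D.NR.mul_mem (D.NR.mul_mem hg hg') (D.NR.inv_mem hg)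
    have h1 : ex (t • X) * Y * ex (t • -X) ∈ lie D := by
      have := conj_mem_lie D hconj hY
      change ex (t • X) * Y * ex (-(t • X)) ∈ lie D at this
      rwa [← smul_neg] at this
    rw [← real_ex hF h1, ← real_ex hF hY]
    have hAB : ex (t • X) * ex (t • -X) = 1 := by
      rw [smul_neg]; exact ex_mul_ex_neg (smul_pow_zero hXn t)
    have hBA : ex (t • -X) * ex (t • X) = 1 := by
      rw [smul_neg]; exact ex_neg_mul_ex (smul_pow_zero hXn t)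
    rw [ex_conj hAB hBA]
    have hY' := exU_mem_of_lie D hY
    have e1 := hF _ (D.NR.mul_mem hg hY') _ (D.NR.inv_mem hg)
    have e2 := hF _ hg _ hY'
    have e3 := hinv _ hg
    have e4 : (((exU (t • X) (lie_pow_zero D ((lie D).smul_mem t hX)))⁻¹ :
        (Matrix (Fin D.n) (Fin D.n) ℝ)ˣ) : Matrix (Fin D.n) (Fin D.n) ℝ) = ex (t • -X) := by
      change ex (-(t • X)) = _
      rw [smul_neg]
    rw [Units.val_mul, e2, e3, e4] at e1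
    change F (ex (t • X) * ex Y * ex (t • -X)) = F (ex (t • X)) + F (ex Y) + -F (ex (t • X)) at e1
    rw [e1]; ring
  have h1 : HasDerivAt (fun t : ℝ => F (ex (t • X) * Y * ex (t • -X)))
      (F ((X * ex ((0 : ℝ) • X) * Y) * ex ((0 : ℝ) • -X) +
        ex ((0 : ℝ) • X) * Y * (-X * ex ((0 : ℝ) • -X)))) 0 :=
    (((hdm_ex_smul hXn 0).mul_const Y).mul (hdm_ex_smul hXn' 0)).linear F
  have h2 : HasDerivAt (fun t : ℝ => F (ex (t • X) * Y * ex (t • -X))) 0 0 := by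
    have : (fun t : ℝ => F (ex (t • X) * Y * ex (t • -X))) = fun _ => F Y := funext hAd
    rw [this]
    exact hasDerivAt_const _ _
  have h3 := h1.unique h2
  rw [zero_smul, zero_smul, ex_zero, mul_one, mul_one, one_mul, mul_one] at h3
  rw [← h3]
  congr 1
  rw [mul_neg, sub_eq_add_neg]

section hom

variable {ℓ : N → ℂ} (hℓ : ∀ a b, ℓ (a * b) = ℓ a + ℓ b)

include hℓ

theorem Lm_ex {X : Matrix (Fin D.n) (Fin D.n) ℝ} (hX : X ∈ lie D) :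
    Lm D ℓ (ex X) = Lm D ℓ X := by
  apply Complex.ext
  · exact real_ex (F := Complex.reLm ∘ₗ Lm D ℓ)
      (fun g hg h hh => congrArg Complex.re (Lm_mul hℓ hg hh)) hX
  · exact real_ex (F := Complex.imLm ∘ₗ Lm D ℓ)
      (fun g hg h hh => congrArg Complex.im (Lm_mul hℓ hg hh)) hX

theorem Lm_bracket {X Y : Matrix (Fin D.n) (Fin D.n) ℝ} (hX : X ∈ lie D) (hY : Y ∈ lie D) :
    Lm D ℓ (X * Y - Y * X) = 0 := by
  apply Complex.ext
  · exact real_bracket (F := Complex.reLm ∘ₗ Lm D ℓ)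
      (fun g hg h hh => congrArg Complex.re (Lm_mul hℓ hg hh)) hX hY
  · exact real_bracket (F := Complex.imLm ∘ₗ Lm D ℓ)
      (fun g hg h hh => congrArg Complex.im (Lm_mul hℓ hg hh)) hX hY

theorem Lm_lg {g : (Matrix (Fin D.n) (Fin D.n) ℝ)ˣ} (hg : g ∈ D.NR) :
    Lm D ℓ (lg (g : Matrix (Fin D.n) (Fin D.n) ℝ)) = Lm D ℓ (g : Matrix (Fin D.n) (Fin D.n) ℝ) := by
  rw [← Lm_ex hℓ (lg_mem_lie D hg), ex_lg (D.unip_NR hg)]

/-- equivariance under `Γ` -/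
theorem Lm_conj [hN : N.Normal] {χ : Γ → ℂ}
    (heq : ∀ (γ : Γ) (n : N), ℓ ⟨γ * n * γ⁻¹, hN.conj_mem n n.2 γ⟩ = χ γ * ℓ n)
    (γ : Γ) {g : (Matrix (Fin D.n) (Fin D.n) ℝ)ˣ} (hg : g ∈ D.NR) :
    Lm D ℓ ((D.ρu γ : Matrix (Fin D.n) (Fin D.n) ℝ) * g *
      (((D.ρu γ)⁻¹ : (Matrix (Fin D.n) (Fin D.n) ℝ)ˣ) : Matrix (Fin D.n) (Fin D.n) ℝ)) =
      χ γ * Lm D ℓ (g : Matrix (Fin D.n) (Fin D.n) ℝ) := by
  obtain ⟨x, rfl⟩ := hg
  have h1 := linear_eq_of_int (F := Lm D ℓ) (G := LinearMap.mulLeft ℝ (χ γ) ∘ₗ Lm D ℓ)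
    (((IsPolyM.const (D.ρu γ : Matrix (Fin D.n) (Fin D.n) ℝ)).mul D.isPolyU_Eu.1).mul
      (IsPolyM.const (((D.ρu γ)⁻¹ : (Matrix (Fin D.n) (Fin D.n) ℝ)ˣ) :
        Matrix (Fin D.n) (Fin D.n) ℝ))) D.isPolyU_Eu.1 (fun z => ?_) x
  · simpa using h1
  · have e1 : D.Eu (fun i => (z i : ℝ)) = D.ρu (prodE D.a z) := D.Eu_int z
    simp only [e1]
    rw [← Units.val_mul, ← Units.val_mul, ← map_inv, ← map_mul, ← map_mul]
    have m1 := D.prodE_mem z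
    have h3 := Lm_ρu (D := D) hℓ ⟨γ * (⟨_, m1⟩ : N) * γ⁻¹, hN.conj_mem _ m1 γ⟩
    have h4 := Lm_ρu (D := D) hℓ ⟨_, m1⟩
    simp only at h3 h4
    rw [LinearMap.comp_apply, h3, h4]
    exact heq γ ⟨_, m1⟩

/-- equivariance under `G1` -/
theorem Lm_conj_G1 [hN : N.Normal] {χ : Γ →* ℂˣ} (hχ : ∀ n ∈ N, χ n = 1)
    (heq : ∀ (γ : Γ) (n : N), ℓ ⟨γ * n * γ⁻¹, hN.conj_mem n n.2 γ⟩ = χ γ * ℓ n)
    (g : G1 D) {u : (Matrix (Fin D.n) (Fin D.n) ℝ)ˣ} (hu : u ∈ D.NR) :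
    Lm D ℓ (((g : (Matrix (Fin D.n) (Fin D.n) ℝ)ˣ) : Matrix (Fin D.n) (Fin D.n) ℝ) * u *
      (((g : (Matrix (Fin D.n) (Fin D.n) ℝ)ˣ)⁻¹ : (Matrix (Fin D.n) (Fin D.n) ℝ)ˣ) :
        Matrix (Fin D.n) (Fin D.n) ℝ)) =
      (lift D χ hχ g : ℂˣ) * Lm D ℓ (u : Matrix (Fin D.n) (Fin D.n) ℝ) := by
  obtain ⟨v, hv, hg⟩ := rep_spec D g
  rw [lift_eq hv hg, hg]
  have h1 := D.conj_mem_NR (rep D g) hu
  have e1 : (((v * D.ρu (rep D g) : (Matrix (Fin D.n) (Fin D.n) ℝ)ˣ)) :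
      Matrix (Fin D.n) (Fin D.n) ℝ) * u *
      (((v * D.ρu (rep D g))⁻¹ : (Matrix (Fin D.n) (Fin D.n) ℝ)ˣ) :
        Matrix (Fin D.n) (Fin D.n) ℝ) =
      ((v * (D.ρu (rep D g) * u * (D.ρu (rep D g))⁻¹) : (Matrix (Fin D.n) (Fin D.n) ℝ)ˣ) :
        Matrix (Fin D.n) (Fin D.n) ℝ) *
      ((v⁻¹ : (Matrix (Fin D.n) (Fin D.n) ℝ)ˣ) : Matrix (Fin D.n) (Fin D.n) ℝ) := by
    rw [← Units.val_mul, ← Units.val_mul, ← Units.val_mul]
    congr 1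
    group
  rw [e1, Lm_mul hℓ (D.NR.mul_mem hv h1) (D.NR.inv_mem hv), Units.val_mul, Lm_mul hℓ hv h1,
    Lm_inv hℓ hv, Units.val_mul, Units.val_mul, Lm_conj hℓ heq _ hu]
  ring

/-- equivariance on the Lie algebra -/
theorem Lm_Ad [hN : N.Normal] {χ : Γ →* ℂˣ} (hχ : ∀ n ∈ N, χ n = 1)
    (heq : ∀ (γ : Γ) (n : N), ℓ ⟨γ * n * γ⁻¹, hN.conj_mem n n.2 γ⟩ = χ γ * ℓ n)
    (g : G1 D) {X : Matrix (Fin D.n) (Fin D.n) ℝ} (hX : X ∈ lie D) :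
    Lm D ℓ (((g : (Matrix (Fin D.n) (Fin D.n) ℝ)ˣ) : Matrix (Fin D.n) (Fin D.n) ℝ) * X *
      (((g : (Matrix (Fin D.n) (Fin D.n) ℝ)ˣ)⁻¹ : (Matrix (Fin D.n) (Fin D.n) ℝ)ˣ) :
        Matrix (Fin D.n) (Fin D.n) ℝ)) =
      (lift D χ hχ g : ℂˣ) * Lm D ℓ X := by
  have h1 := conj_mem_lie D (u := (g : (Matrix (Fin D.n) (Fin D.n) ℝ)ˣ))
    (fun u hu => conj_NR g.2 hu) hX
  rw [← Lm_ex hℓ h1, ← Lm_ex hℓ hX, ex_conj (Units.mul_inv _) (Units.inv_mul _)]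
  exact Lm_conj_G1 hℓ hχ heq g (exU_mem_of_lie D hX)

end hom

/-- conversely, a functional on `𝔫` killing the brackets is a homomorphism on `N_ℝ`. -/
theorem lg_hom {E : Type*} [AddCommGroup E] [Module ℝ E]
    (F : Matrix (Fin D.n) (Fin D.n) ℝ →ₗ[ℝ] E)
    (hF : ∀ X ∈ lie D, ∀ Y ∈ lie D, F (X * Y - Y * X) = 0)
    {g h : (Matrix (Fin D.n) (Fin D.n) ℝ)ˣ} (hg : g ∈ D.NR) (hh : h ∈ D.NR) :
    F (lg ((g : Matrix (Fin D.n) (Fin D.n) ℝ) * h)) =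
      F (lg (g : Matrix (Fin D.n) (Fin D.n) ℝ)) + F (lg (h : Matrix (Fin D.n) (Fin D.n) ℝ)) := by
  have h1 := (isSub_lie D).lg_mul (L := lie D ⊓ LinearMap.ker F) inf_le_left
    (fun X hX Y hY => ⟨bracket_mem D hX hY, hF X hX Y hY⟩) (lg_mem_lie D hg) (lg_mem_lie D hh)
  rw [ex_lg (D.unip_NR hg), ex_lg (D.unip_NR hh)] at h1
  have h2 := LinearMap.mem_ker.mp h1.2
  rw [map_sub, map_add, sub_eq_zero] at h2
  exact h2

/-! ### crossed homomorphisms on `G1` -/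

section crossed

variable [hN : N.Normal] {ℓ : N → ℂ} (hℓ : ∀ a b, ℓ (a * b) = ℓ a + ℓ b)
  {χ : Γ →* ℂˣ} (hχ : ∀ n ∈ N, χ n = 1)
  (heq : ∀ (γ : Γ) (n : N), ℓ ⟨γ * n * γ⁻¹, hN.conj_mem n n.2 γ⟩ = χ γ * ℓ n)
  {δ : Γ → ℂ} (hδ : ∀ g h, δ (g * h) = δ g + χ g * δ h) (hδℓ : ∀ n : N, δ n = ℓ n)

variable (D) in
/-- the extension of a crossed homomorphism to `G1` -/
noncomputable def ext1 (ℓ : N → ℂ) (δ : Γ → ℂ) (g : G1 D) : ℂ :=
  Lm D ℓ ((((g : (Matrix (Fin D.n) (Fin D.n) ℝ)ˣ) * (D.ρu (rep D g))⁻¹ :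
    (Matrix (Fin D.n) (Fin D.n) ℝ)ˣ)) : Matrix (Fin D.n) (Fin D.n) ℝ) + δ (rep D g)

include hℓ hχ heq hδ hδℓ

theorem ext1_eq {g : G1 D} {u : (Matrix (Fin D.n) (Fin D.n) ℝ)ˣ} (hu : u ∈ D.NR) {γ : Γ}
    (h : (g : (Matrix (Fin D.n) (Fin D.n) ℝ)ˣ) = u * D.ρu γ) :
    ext1 D ℓ δ g = Lm D ℓ (u : Matrix (Fin D.n) (Fin D.n) ℝ) + δ γ := by
  obtain ⟨v, hv, h2⟩ := rep_spec D g
  have e1 : (g : (Matrix (Fin D.n) (Fin D.n) ℝ)ˣ) * (D.ρu (rep D g))⁻¹ = v := by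
    rw [h2]; group
  rw [ext1, e1]
  have h3 : v * D.ρu (rep D g) = u * D.ρu γ := by rw [← h2, h]
  have h4 := mem_N_of_eq hv hu h3
  have h5 : D.ρu (rep D g * γ⁻¹) = v⁻¹ * u := by
    rw [map_mul, map_inv, mul_inv_eq_iff_eq_mul, mul_assoc, ← h3]; group
  have h6 := Lm_ρu (D := D) hℓ ⟨_, h4⟩
  simp only at h6
  rw [h5, Units.val_mul, Lm_mul hℓ (D.NR.inv_mem hv) hu, Lm_inv hℓ hv] at h6
  have h7 := hδ (rep D g * γ⁻¹) γ
  rw [inv_mul_cancel_right] at h7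
  have h8 := hδℓ ⟨_, h4⟩
  simp only at h8
  rw [hχ _ h4, h8, ← h6, Units.val_one, one_mul] at h7
  rw [h7]
  ring

theorem ext1_mul (g h : G1 D) :
    ext1 D ℓ δ (g * h) = ext1 D ℓ δ g + (lift D χ hχ g : ℂˣ) * ext1 D ℓ δ h := by
  obtain ⟨u, hu, hg⟩ := rep_spec D g
  obtain ⟨v, hv, hh⟩ := rep_spec D h
  have h1 := D.conj_mem_NR (rep D g) hv
  rw [ext1_eq hℓ hχ heq hδ hδℓ hu hg, ext1_eq hℓ hχ heq hδ hδℓ hv hh, lift_eq hu hg,
    ext1_eq hℓ hχ heq hδ hδℓ (g := g * h) (D.NR.mul_mem hu h1) (γ := rep D g * rep D h) (by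
      rw [Subgroup.coe_mul, hg, hh, map_mul]
      group), hδ, Units.val_mul, Lm_mul hℓ hu h1, Units.val_mul, Units.val_mul,
    Lm_conj hℓ heq _ hv]
  ring

theorem ext1_inΓ (γ : Γ) : ext1 D ℓ δ (inΓ D γ) = δ γ := by
  rw [ext1_eq hℓ hχ heq hδ hδℓ D.NR.one_mem (γ := γ) (by rw [one_mul]; rfl), Units.val_one,
    Lm_one hℓ, zero_add]

theorem ext1_NR {g : G1 D} (hg : g ∈ NR1 D) : ext1 D ℓ δ g =
    Lm D ℓ ((g : (Matrix (Fin D.n) (Fin D.n) ℝ)ˣ) : Matrix (Fin D.n) (Fin D.n) ℝ) := by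
  have h1 : δ 1 = 0 := by
    have := hδℓ 1
    rw [Subgroup.coe_one, hom_one hℓ] at this
    exact this
  rw [ext1_eq hℓ hχ heq hδ hδℓ hg (γ := 1) (by rw [map_one, mul_one]; rfl), h1, add_zero]
  rfl

end crossed

/-- continuity of complex functionals -/
theorem exists_norm_le {n : ℕ} (F : Matrix (Fin n) (Fin n) ℝ →ₗ[ℝ] ℂ) :
    ∃ A : ℝ, 0 ≤ A ∧ ∀ M, ‖F M‖ ≤ A * nrm M := by
  refine ⟨∑ i, ∑ j, ‖F (Matrix.single i j 1)‖, Finset.sum_nonneg fun _ _ =>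
    Finset.sum_nonneg fun _ _ => norm_nonneg _, fun M => ?_⟩
  have h1 : F M = ∑ i, ∑ j, M i j • F (Matrix.single i j 1) := by
    conv_lhs => rw [Matrix.matrix_eq_sum_single M]
    rw [map_sum]
    refine Finset.sum_congr rfl fun i _ => ?_
    rw [map_sum]
    refine Finset.sum_congr rfl fun j _ => ?_
    have : Matrix.single i j (M i j) = M i j • Matrix.single i j (1 : ℝ) := by
      rw [Matrix.smul_single, smul_eq_mul, mul_one]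
    rw [this, map_smul]
  rw [h1]
  refine (norm_sum_le _ _).trans ?_
  rw [Finset.sum_mul]
  refine Finset.sum_le_sum fun i _ => ?_
  refine (norm_sum_le _ _).trans ?_
  rw [Finset.sum_mul]
  refine Finset.sum_le_sum fun j _ => ?_
  rw [norm_smul, mul_comm]
  exact mul_le_mul_of_nonneg_left (abs_le_nrm M i j) (norm_nonneg _)

end

end Crest.Agent.R182.Model
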