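/-
R182, module MODEL: heights, crossed homomorphisms and linear length bounds on `G1`.
-/
import Mathlib
import Crest.Agent.R182.ModelAb
import Crest.Agent.R182.PolycRoot

set_option autoImplicit false
set_option linter.unusedSectionVars false

namespace Crest.Agent.R182.Model

open Polyc Crest.GroupTheory Crest.Geometry

/-! ### length of exponentials -/

section

variable {Γ : Type*} [Group Γ] {N : Subgroup Γ} [hN : N.Normal] {D : EmbData Γ N}
  {S : Set Γ} {C : ℝ}

/-- crude bound for the exponential -/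
theorem nrm_ex_le {n : ℕ} (X : Matrix (Fin n) (Fin n) ℝ) :
    nrm (ex X) ≤ n * ((n + 1) * (1 + nrm X) ^ n) := by
  have h1 : nrm (ex X) ≤ ∑ _k ∈ Finset.range n, ((n + 1) * (1 + nrm X) ^ n) := by
    refine (nrm_sum _ _).trans (Finset.sum_le_sum fun k hk => ?_)
    rw [nrm_smul]
    have h2 : |((k.factorial : ℝ)⁻¹)| ≤ 1 := by
      rw [abs_of_nonneg (by positivity)]
      exact inv_le_one_of_one_le₀ (by exact_mod_cast Nat.one_le_iff_ne_zero.mpr k.factorial_ne_zero)
    have h3 := nrm_pow X k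
    have h4 : nrm X ^ k ≤ (1 + nrm X) ^ n := by
      have h5 := nrm_nonneg X
      calc nrm X ^ k ≤ (1 + nrm X) ^ k := pow_le_pow_left₀ h5 (by linarith) k
        _ ≤ (1 + nrm X) ^ n := pow_le_pow_right₀ (by linarith) (Finset.mem_range.mp hk).le
    calc |((k.factorial : ℝ)⁻¹)| * nrm (X ^ k) ≤ 1 * nrm (X ^ k) :=
          mul_le_mul_of_nonneg_right h2 (nrm_nonneg _)
      _ = nrm (X ^ k) := one_mul _
      _ ≤ (n + 1) * nrm X ^ k := h3
      _ ≤ _ := mul_le_mul_of_nonneg_left h4 (by positivity)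
  refine h1.trans_eq ?_
  rw [Finset.sum_const, Finset.card_range, nsmul_eq_mul]

theorem sz_exU_le {n : ℕ} {X : Matrix (Fin n) (Fin n) ℝ} (hX : X ^ n = 0) :
    sz (exU X hX) ≤ 1 + 2 * (n * ((n + 1) * (1 + nrm X) ^ n)) := by
  have h1 := nrm_ex_le X
  have h2 := nrm_ex_le (-X)
  rw [nrm_neg] at h2
  change 1 + nrm (ex X) + nrm (ex (-X)) ≤ _
  linarith

/-- exponential of an element of `𝔫` as an element of `G1` -/
noncomputable def exG (D : EmbData Γ N) (X : Matrix (Fin D.n) (Fin D.n) ℝ) (hX : X ∈ lie D) :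
    G1 D :=
  ⟨exU X (lie_pow_zero D hX), NR_le D (exU_mem_of_lie D hX)⟩

theorem coe_exG (X : Matrix (Fin D.n) (Fin D.n) ℝ) (hX : X ∈ lie D) :
    (((exG D X hX : G1 D) : (Matrix (Fin D.n) (Fin D.n) ℝ)ˣ) : Matrix (Fin D.n) (Fin D.n) ℝ) =
      ex X := rfl

theorem exG_mem (X : Matrix (Fin D.n) (Fin D.n) ℝ) (hX : X ∈ lie D) : exG D X hX ∈ NR1 D :=
  exU_mem_of_lie D hX

/-- bounded exponentials have bounded length -/
theorem Big.len_exG_of_le (h : Big D S C) (R : ℝ) : ∃ K : ℕ, ∀ X (hX : X ∈ lie D),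
    nrm X ≤ R → len D C (exG D X hX) ≤ K := by
  obtain ⟨K, hK⟩ := h.len_le_of_sz (1 + 2 * (D.n * ((D.n + 1) * (1 + R) ^ D.n)))
  refine ⟨K, fun X hX hR => hK _ ?_⟩
  refine (sz_exU_le (lie_pow_zero D hX)).trans ?_
  have h0 := nrm_nonneg X
  have : (1 + nrm X) ^ D.n ≤ (1 + R) ^ D.n := pow_le_pow_left₀ (by linarith) (by linarith) _
  gcongr

/-- linear bound for the length of exponentials -/
theorem Big.len_exG (h : Big D S C) : ∃ K : ℝ, 0 ≤ K ∧ ∀ X (hX : X ∈ lie D),
    (len D C (exG D X hX) : ℝ) ≤ K * (1 + nrm X) := by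
  obtain ⟨K, hK⟩ := h.len_exG_of_le 1
  refine ⟨K, Nat.cast_nonneg _, fun X hX => ?_⟩
  set m : ℕ := ⌈nrm X⌉₊ with hm
  rcases Nat.eq_zero_or_pos m with h0 | h0
  · have h1 : nrm X ≤ 0 := by
      have := Nat.le_ceil (nrm X)
      rw [← hm, h0, Nat.cast_zero] at this
      exact this
    have h2 := hK X hX (h1.trans zero_le_one)
    have h3 := nrm_nonneg X
    calc (len D C (exG D X hX) : ℝ) ≤ K := by exact_mod_cast h2
      _ ≤ K * (1 + nrm X) := le_mul_of_one_le_right (Nat.cast_nonneg _) (by linarith)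
  · have hm' : (m : ℝ) ≠ 0 := by exact_mod_cast h0.ne'
    have hY : ((m : ℝ)⁻¹) • X ∈ lie D := (lie D).smul_mem _ hX
    have h1 : exG D X hX = exG D _ hY ^ m := by
      apply Subtype.ext
      apply Units.ext
      change ex X = (((exU (((m : ℝ)⁻¹) • X) (lie_pow_zero D hY)) ^ m :
        (Matrix (Fin D.n) (Fin D.n) ℝ)ˣ) : Matrix (Fin D.n) (Fin D.n) ℝ)
      rw [Units.val_pow_eq_pow_val]
      change ex X = ex (((m : ℝ)⁻¹) • X) ^ m
      rw [← ex_nat (lie_pow_zero D hY), smul_smul, mul_inv_cancel₀ hm', one_smul]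
    have h2 : nrm (((m : ℝ)⁻¹) • X) ≤ 1 := by
      rw [nrm_smul, abs_of_nonneg (by positivity), inv_mul_le_iff₀ (by positivity), mul_one]
      exact Nat.le_ceil _
    have h3 := hK _ hY h2
    have h4 := h.len_pow (exG D _ hY) m
    rw [h1]
    have h5 : (m : ℝ) ≤ 1 + nrm X := by
      have := Nat.ceil_lt_add_one (nrm_nonneg X)
      rw [← hm] at this
      linarith
    calc (len D C (exG D _ hY ^ m) : ℝ) ≤ (m * len D C (exG D _ hY) : ℕ) := by exact_mod_cast h4
      _ ≤ (m * K : ℕ) := by exact_mod_cast Nat.mul_le_mul_left m h3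
      _ = K * m := by push_cast; ring
      _ ≤ K * (1 + nrm X) := mul_le_mul_of_nonneg_left h5 (Nat.cast_nonneg _)

/-- crude polynomial bound for the logarithm -/
theorem nrm_lg_le {n : ℕ} (g : Matrix (Fin n) (Fin n) ℝ) :
    nrm (lg g) ≤ n * ((n + 1) * (1 + n + nrm g) ^ n) := by
  have h1 : nrm (lg g) ≤ ∑ _k ∈ Finset.range n, ((n + 1) * (1 + n + nrm g) ^ n) := by
    refine (nrm_sum _ _).trans (Finset.sum_le_sum fun k hk => ?_)
    rw [nrm_smul]
    have h2 : |lc k| ≤ 1 := by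
      rw [lc]
      split_ifs with h
      · simp
      · rw [abs_div, abs_pow, abs_neg, abs_one, one_pow, Nat.abs_cast]
        exact div_le_one_of_le₀ (by exact_mod_cast Nat.one_le_iff_ne_zero.mpr h)
          (Nat.cast_nonneg _)
    have h3 := nrm_pow (g - 1) k
    have h0 := nrm_nonneg g
    have h4 : nrm (g - 1) ^ k ≤ (1 + n + nrm g) ^ n := by
      have h5 : nrm (g - 1) ≤ 1 + n + nrm g := by
        have := nrm_sub g 1
        rw [nrm_one] at this
        linarith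
      calc nrm (g - 1) ^ k ≤ (1 + n + nrm g) ^ k := pow_le_pow_left₀ (nrm_nonneg _) h5 k
        _ ≤ (1 + n + nrm g) ^ n := pow_le_pow_right₀ (by
            have : (0 : ℝ) ≤ n := Nat.cast_nonneg _
            linarith) (Finset.mem_range.mp hk).le
    calc |lc k| * nrm ((g - 1) ^ k) ≤ 1 * nrm ((g - 1) ^ k) :=
          mul_le_mul_of_nonneg_right h2 (nrm_nonneg _)
      _ = nrm ((g - 1) ^ k) := one_mul _
      _ ≤ (n + 1) * nrm (g - 1) ^ k := h3
      _ ≤ _ := mul_le_mul_of_nonneg_left h4 (by positivity)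
  refine h1.trans_eq ?_
  rw [Finset.sum_const, Finset.card_range, nsmul_eq_mul]

/-- `a function on `G1` which is subadditive up to factors is controlled by the length -/
theorem Big.letter (h : Big D S C) {g : G1 D} (hg : g ∈ gens D C) :
    ∃ (γ : Γ) (b : G1 D), g = inΓ D γ * b ∧ b ∈ NR1 D ∧ b ∈ gens D C ∧ sz (D.ρu γ) ≤ C * C := by
  obtain ⟨γ, b, hgb, hb, hbC⟩ := h.round g
  refine ⟨γ, b, hgb, hb, hbC, ?_⟩
  have h2 : D.ρu γ = (g : (Matrix (Fin D.n) (Fin D.n) ℝ)ˣ) *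
      (b : (Matrix (Fin D.n) (Fin D.n) ℝ)ˣ)⁻¹ := by
    rw [hgb]
    simp
  rw [h2]
  refine (sz_mul _ _).trans ?_
  rw [sz_inv]
  have h3 : sz (b : (Matrix (Fin D.n) (Fin D.n) ℝ)ˣ) ≤ C := hbC
  have h4 := one_le_sz (b : (Matrix (Fin D.n) (Fin D.n) ℝ)ˣ)
  exact mul_le_mul hg h3 (by linarith) (by linarith [h.one_le])

end

/-! ### heights -/

section

variable {Γ : Type*} [Group Γ] (R : RootData Γ) (D : EmbData Γ R.N)

instance : R.N.Normal := R.normal

/-- the height homomorphism on `G1` -/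
noncomputable def π1 : G1 D →* Multiplicative (Fin R.k → ℤ) :=
  lift D R.π fun n hn => (R.mem_N n).mpr hn

/-- real height -/
noncomputable def hgt (g : G1 D) : Fin R.k → ℝ :=
  fun j => ((Multiplicative.toAdd (π1 R D g) j : ℤ) : ℝ)

theorem hgt_mul (g g' : G1 D) : hgt R D (g * g') = hgt R D g + hgt R D g' := by
  funext j
  simp only [hgt, map_mul, toAdd_mul, Pi.add_apply]
  push_cast
  rfl

theorem hgt_one : hgt R D 1 = 0 := by
  have := hgt_mul R D 1 1
  rw [mul_one] at this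
  simpa using this

theorem hgt_inv (g : G1 D) : hgt R D g⁻¹ = - hgt R D g := by
  have := hgt_mul R D g g⁻¹
  rw [mul_inv_cancel, hgt_one] at this
  exact (neg_eq_of_add_eq_zero_right this.symm).symm

theorem hgt_inΓ (γ : Γ) : hgt R D (inΓ D γ) =
    fun j => ((Multiplicative.toAdd (R.π γ) j : ℤ) : ℝ) := by
  funext j
  rw [hgt, π1, lift_inΓ]

theorem hgt_eq_zero_iff (g : G1 D) : hgt R D g = 0 ↔ g ∈ NR1 D := by
  rw [← lift_eq_one_iff (D := D) R.π (fun n => (R.mem_N n).symm) g]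
  constructor
  · intro h
    apply Multiplicative.toAdd.injective
    funext j
    have := congrFun h j
    simp only [hgt, Pi.zero_apply, Int.cast_eq_zero] at this
    exact this
  · intro h
    funext j
    change ((Multiplicative.toAdd (lift D R.π _ g) j : ℤ) : ℝ) = 0
    rw [h]
    simp

/-- the `i`-th character on `G1` -/
noncomputable def χ1 (i : Fin R.m) : G1 D →* ℂˣ := lift D (R.χ i) (R.χ_N i)

theorem χ1_one (i : Fin R.m) {g : G1 D} (hg : hgt R D g = 0) : χ1 R D i g = 1 :=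
  lift_NR _ _ ((hgt_eq_zero_iff R D g).mp hg)

theorem log_χ1 (i : Fin R.m) (g : G1 D) :
    Real.log ‖((χ1 R D i g : ℂˣ) : ℂ)‖ = R.Λ i (hgt R D g) := by
  obtain ⟨u, hu, hg⟩ := rep_spec D g
  have h1 : hgt R D g = fun j => ((Multiplicative.toAdd (R.π (rep D g)) j : ℤ) : ℝ) := by
    funext j
    rw [hgt, π1, lift_eq hu hg]
  rw [h1, χ1, lift_eq hu hg, R.log_χ]

theorem norm_χ1 (i : Fin R.m) (g : G1 D) :
    ‖((χ1 R D i g : ℂˣ) : ℂ)‖ = Real.exp (R.Λ i (hgt R D g)) := by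
  rw [← log_χ1, Real.exp_log]
  exact norm_pos_iff.mpr (Units.ne_zero _)

variable {R D}
variable {S : Set Γ} {C : ℝ}

theorem Big.hgt_le (h : Big D S C) : ∃ a : ℝ, 0 ≤ a ∧ ∀ g i, |hgt R D g i| ≤ a * len D C g := by
  classical
  obtain ⟨a, ha⟩ := ((finite_sz (D := D) (C * C)).image
    (fun γ => ∑ j, |((Multiplicative.toAdd (R.π γ) j : ℤ) : ℝ)|)).bddAbove
  have hletter : ∀ g ∈ gens D C, ∀ i, |hgt R D g i| ≤ max a 0 := by
    intro g hg i
    obtain ⟨γ, b, rfl, hb, -, hγ⟩ := h.letter hg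
    rw [hgt_mul, (hgt_eq_zero_iff R D b).mpr hb, add_zero, hgt_inΓ]
    refine le_trans ?_ ((ha ⟨γ, hγ, rfl⟩).trans (le_max_left _ _))
    exact Finset.single_le_sum (f := fun j => |((Multiplicative.toAdd (R.π γ) j : ℤ) : ℝ)|)
      (fun j _ => abs_nonneg _) (Finset.mem_univ i)
  refine ⟨max a 0, le_max_right _ _, fun g i => ?_⟩
  obtain ⟨l, hl, hw, rfl⟩ := QI.wordLength_spec h.closure g
  rw [len, ← hl]
  clear hl
  induction l with
  | nil => simp [hgt_one]
  | cons x l ih =>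
    rw [List.prod_cons, hgt_mul, List.length_cons]
    have h1 := ih fun y hy => hw y (by simp [hy])
    have h2 : |hgt R D x i| ≤ max a 0 := by
      rcases hw x (by simp) with h2 | h2
      · exact hletter x h2 i
      · have h3 := hletter _ h2 i
        rwa [hgt_inv, Pi.neg_apply, abs_neg] at h3
    rw [Pi.add_apply]
    push_cast
    calc |hgt R D x i + hgt R D l.prod i| ≤ |hgt R D x i| + |hgt R D l.prod i| := abs_add_le _ _
      _ ≤ max a 0 + max a 0 * l.length := add_le_add h2 h1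
      _ = _ := by ring

/-- linear functionals of the height -/
theorem Big.lin_hgt_le (h : Big D S C) (w : (Fin R.k → ℝ) →ₗ[ℝ] ℝ) :
    ∃ c : ℝ, 0 ≤ c ∧ ∀ g, |w (hgt R D g)| ≤ c * len D C g := by
  obtain ⟨a, ha, h1⟩ := h.hgt_le
  refine ⟨∑ i, |w (Pi.single i 1)| * a, Finset.sum_nonneg fun i _ =>
    mul_nonneg (abs_nonneg _) ha, fun g => ?_⟩
  have h2 : w (hgt R D g) = ∑ i, hgt R D g i * w (Pi.single i 1) := by
    conv_lhs => rw [← Finset.univ_sum_single (hgt R D g)]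
    rw [map_sum]
    refine Finset.sum_congr rfl fun i _ => ?_
    have : Pi.single i (hgt R D g i) = hgt R D g i • (Pi.single i (1 : ℝ) : Fin R.k → ℝ) := by
      rw [← Pi.single_smul, smul_eq_mul, mul_one]
    rw [this, map_smul, smul_eq_mul]
  rw [h2]
  refine (Finset.abs_sum_le_sum_abs _ _).trans ?_
  rw [Finset.sum_mul]
  refine Finset.sum_le_sum fun i _ => ?_
  rw [abs_mul, mul_comm, mul_assoc]
  exact mul_le_mul_of_nonneg_left (h1 g i) (abs_nonneg _)

/-- **crossed homomorphisms on `G1`** for the nonzero roots -/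
theorem Big.exists_crossed (h : Big D S C) (i : Fin R.m) (hi : R.Λ i ≠ 0) :
    ∃ (δ : G1 D → ℂ) (c B : ℝ), Bnd.Crossed (fun g => (len D C g : ℝ))
      (fun g => R.Λ i (hgt R D g)) (fun g => ((χ1 R D i g : ℂˣ) : ℂ)) δ c B ∧
      (∃ n, hgt R D n = 0 ∧ δ n ≠ 0) ∧
      (∀ g ∈ NR1 D, δ g = Lm D (R.ℓ i)
        ((g : (Matrix (Fin D.n) (Fin D.n) ℝ)ˣ) : Matrix (Fin D.n) (Fin D.n) ℝ)) := by
  classical
  have hab : ∀ g h : Γ, g * h * g⁻¹ * h⁻¹ ∈ R.N := by
    intro g h
    rw [← R.mem_N, map_mul, map_mul, map_mul, map_inv, map_inv, mul_comm (R.π g) (R.π h)]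
    group
  -- an element with nontrivial character
  obtain ⟨t, ht⟩ : ∃ t, R.χ i t ≠ 1 := by
    by_contra hcon
    push Not at hcon
    apply hi
    have h1 : ∀ v : Fin R.k → ℤ, R.Λ i (fun j => (v j : ℝ)) = 0 := by
      intro v
      obtain ⟨g, hg⟩ := R.surj (Multiplicative.ofAdd v)
      have h2 := R.log_χ i g
      rw [hcon g, hg, Units.val_one, norm_one, Real.log_one] at h2
      exact h2.symm
    apply LinearMap.pi_ext'
    intro j
    apply LinearMap.ext_ring
    have h2 := h1 (Pi.single j 1)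
    have h3 : (fun j' => ((Pi.single j 1 : Fin R.k → ℤ) j' : ℝ)) =
        (Pi.single j (1 : ℝ) : Fin R.k → ℝ) := by
      funext j'
      by_cases hj : j' = j
      · subst hj; simp
      · simp [Pi.single_eq_of_ne hj]
    rw [h3] at h2
    simpa using h2
  obtain ⟨δ, hδ, hδℓ, -⟩ := Polyc.exists_crossed hab R.normal (R.χ i) (R.ℓ i) (R.ℓ_mul i)
    (fun g n => R.ℓ_conj i g n) t ht
  have hmul := ext1_mul (D := D) (R.ℓ_mul i) (R.χ_N i) (fun γ n => R.ℓ_conj i γ n) hδ hδℓ
  have hNR : ∀ g ∈ NR1 D, ext1 D (R.ℓ i) δ g = Lm D (R.ℓ i)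
        ((g : (Matrix (Fin D.n) (Fin D.n) ℝ)ˣ) : Matrix (Fin D.n) (Fin D.n) ℝ) := fun g hg =>
    ext1_NR (D := D) (R.ℓ_mul i) (R.χ_N i) (fun γ n => R.ℓ_conj i γ n) hδ hδℓ hg
  obtain ⟨c, hc, hω⟩ := h.lin_hgt_le (R.Λ i)
  -- bound on letters
  obtain ⟨A, hA, hLm⟩ := exists_norm_le (Lm D (R.ℓ i))
  obtain ⟨a, ha⟩ := ((finite_sz (D := D) (C * C)).image
    (fun γ => ‖δ γ‖ + ‖((R.χ i γ : ℂˣ) : ℂ)‖ * (A * C))).bddAbove
  have hone : ext1 D (R.ℓ i) δ 1 = 0 := by
    have := hmul 1 1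
    rw [mul_one, map_one, Units.val_one, one_mul] at this
    simpa using this
  have hletter : ∀ g ∈ gens D C, ‖ext1 D (R.ℓ i) δ g‖ ≤ max a 0 := by
    intro g hg
    obtain ⟨γ, b, rfl, hb, hbC, hγ⟩ := h.letter hg
    refine le_trans ?_ ((ha ⟨γ, hγ, rfl⟩).trans (le_max_left _ _))
    rw [hmul, hNR b hb, lift_inΓ,
      ext1_inΓ (D := D) (R.ℓ_mul i) (R.χ_N i) (fun γ n => R.ℓ_conj i γ n) hδ hδℓ]
    refine (norm_add_le _ _).trans ?_
    rw [norm_mul]
    refine add_le_add le_rfl (mul_le_mul_of_nonneg_left ?_ (norm_nonneg _))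
    refine (hLm _).trans (mul_le_mul_of_nonneg_left ?_ hA)
    exact (nrm_le_sz _).trans hbC
  have hinv : ∀ g, ext1 D (R.ℓ i) δ g⁻¹ =
      - ((lift D (R.χ i) (R.χ_N i) g⁻¹ : ℂˣ) : ℂ) * ext1 D (R.ℓ i) δ g := by
    intro g
    have := hmul g⁻¹ g
    rw [inv_mul_cancel, hone] at this
    linear_combination -this
  have hχn : ∀ g, ‖((lift D (R.χ i) (R.χ_N i) g : ℂˣ) : ℂ)‖ = Real.exp (R.Λ i (hgt R D g)) :=
    fun g => norm_χ1 R D i g
  have hχle : ∀ g, ‖((lift D (R.χ i) (R.χ_N i) g : ℂˣ) : ℂ)‖ ≤ Real.exp (c * len D C g) :=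
    fun g => (hχn g).le.trans (Real.exp_le_exp.mpr ((le_abs_self _).trans (hω g)))
  set M : ℝ := max a 0 * Real.exp c with hM
  have hM0 : 0 ≤ M := mul_nonneg (le_max_right _ _) (Real.exp_pos _).le
  have hgrow : ∀ g, ‖ext1 D (R.ℓ i) δ g‖ ≤ M * Real.exp ((c + 1) * len D C g) := by
    intro g
    obtain ⟨l, hl, hw, rfl⟩ := QI.wordLength_spec h.closure g
    rw [len, ← hl]
    clear hl
    have key : ‖ext1 D (R.ℓ i) δ l.prod‖ ≤ M * (l.length * Real.exp (c * l.length)) := by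
      induction l with
      | nil => simp [hone]
      | cons x l ih =>
        rw [List.prod_cons, hmul, List.length_cons]
        have h1 := ih fun y hy => hw y (by simp [hy])
        have hx1 : len D C x ≤ 1 := by
          rcases hw x (by simp) with h2 | h2
          · exact h.len_letter h2
          · rw [← h.len_inv]; exact h.len_letter h2
        have hx1' : (len D C x : ℝ) ≤ 1 := by exact_mod_cast hx1
        have hχx : ∀ y : G1 D, len D C y ≤ 1 →
            ‖((lift D (R.χ i) (R.χ_N i) y : ℂˣ) : ℂ)‖ ≤ Real.exp c := by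
          intro y hy
          refine (hχle y).trans (Real.exp_le_exp.mpr ?_)
          have : (len D C y : ℝ) ≤ 1 := by exact_mod_cast hy
          nlinarith
        have hx : ‖ext1 D (R.ℓ i) δ x‖ ≤ M := by
          rcases hw x (by simp) with h2 | h2
          · refine (hletter x h2).trans ?_
            exact le_mul_of_one_le_right (le_max_right _ _) (Real.one_le_exp hc)
          · have h3 := hinv x⁻¹
            rw [inv_inv] at h3
            rw [h3, norm_mul, norm_neg, hM, mul_comm]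
            exact mul_le_mul (hletter _ h2) (hχx x hx1) (norm_nonneg _) (le_max_right _ _)
        refine (norm_add_le _ _).trans ?_
        rw [norm_mul]
        push_cast
        have e1 : Real.exp (c * (l.length + 1)) = Real.exp c * Real.exp (c * l.length) := by
          rw [← Real.exp_add]; ring_nf
        have e2 : 1 ≤ Real.exp (c * (l.length + 1)) := Real.one_le_exp (by positivity)
        calc ‖ext1 D (R.ℓ i) δ x‖ + ‖((lift D (R.χ i) (R.χ_N i) x : ℂˣ) : ℂ)‖ *
              ‖ext1 D (R.ℓ i) δ l.prod‖ ≤ M + Real.exp c * (M * (l.length * Real.exp (c * l.length))) :=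
              add_le_add hx (mul_le_mul (hχx x hx1) h1 (norm_nonneg _) (Real.exp_pos _).le)
          _ = M * (1 + l.length * Real.exp (c * (l.length + 1))) := by rw [e1]; ring
          _ ≤ M * (Real.exp (c * (l.length + 1)) + l.length * Real.exp (c * (l.length + 1))) :=
              mul_le_mul_of_nonneg_left (by linarith) hM0
          _ = _ := by ring
    refine key.trans (mul_le_mul_of_nonneg_left ?_ hM0)
    have e1 : Real.exp ((c + 1) * l.length) = Real.exp (l.length : ℝ) * Real.exp (c * l.length) := by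
      rw [← Real.exp_add]; ring_nf
    rw [e1]
    refine mul_le_mul_of_nonneg_right ?_ (Real.exp_pos _).le
    have := Real.add_one_le_exp (l.length : ℝ)
    linarith
  refine ⟨ext1 D (R.ℓ i) δ, c + 1, M, ⟨by linarith, hM0, ?_, ?_, ?_, ?_, hgrow⟩, ?_, hNR⟩
  · intro g g'
    rw [hgt_mul, map_add]
  · intro g
    exact hχn g
  · intro g g'
    exact hmul g g'
  · intro g
    refine (hω g).trans ?_
    have : (0 : ℝ) ≤ len D C g := Nat.cast_nonneg _
    nlinarith
  · obtain ⟨n, hn⟩ := R.ℓ_ne i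
    refine ⟨inΓ D n, ?_, ?_⟩
    · rw [hgt_eq_zero_iff, inΓ_mem_NR1]
      exact n.2
    · rw [ext1_inΓ (D := D) (R.ℓ_mul i) (R.χ_N i) (fun γ n => R.ℓ_conj i γ n) hδ hδℓ, hδℓ]
      exact hn

end

end Crest.Agent.R182.Model
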