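/-
R182, module MODEL (assembly of `BModel`), part 1: coarse geometry of `G1`: measurable rounding to
the lattice, words, verticals.
-/
import Mathlib
import Crest.Agent.R182.ModelCross
import Crest.Agent.R182.FinRed

set_option autoImplicit false
set_option linter.unusedSectionVars false

namespace Crest.Agent.R182.Model

open Polyc Crest.GroupTheory Crest.Geometry Crest.Agent.R182.FinPath Crest.Agent.R182.FinRed

section rounding

variable {Γ : Type*} [Group Γ] {N : Subgroup Γ} [N.Normal] {D : EmbData Γ N} {S : Set Γ} {C : ℝ}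

theorem countable_Γ (D : EmbData Γ N) : Countable Γ := by
  rw [← Set.countable_univ_iff]
  have h1 : (Set.univ : Set Γ) = ⋃ R : ℕ, {γ : Γ | sz (D.ρu γ) ≤ (R : ℝ)} := by
    symm
    rw [Set.eq_univ_iff_forall]
    intro γ
    obtain ⟨R, hR⟩ := exists_nat_ge (sz (D.ρu γ))
    exact Set.mem_iUnion.mpr ⟨R, hR⟩
  rw [h1]
  exact Set.countable_iUnion fun R => (finite_sz (D := D) R).countable

/-- an enumeration of `Γ` -/
noncomputable def enum (D : EmbData Γ N) : ℕ → Γ :=
  letI := countable_Γ D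
  (exists_surjective_nat Γ).choose

theorem enum_surjective (D : EmbData Γ N) : Function.Surjective (enum D) := by
  have := countable_Γ D
  exact (exists_surjective_nat Γ).choose_spec

theorem Big.exists_enum (h : Big D S C) (g : G1 D) :
    ∃ k : ℕ, (inΓ D (enum D k))⁻¹ * g ∈ gens D C := by
  obtain ⟨γ, b, hg, -, hb⟩ := h.round g
  obtain ⟨k, rfl⟩ := enum_surjective D γ
  refine ⟨k, ?_⟩
  rw [hg, inv_mul_cancel_left]
  exact hb

open Classical in
/-- rounding to the lattice -/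
noncomputable def rnd (D : EmbData Γ N) (C : ℝ) (g : G1 D) : Γ :=
  if h : ∃ k : ℕ, (inΓ D (enum D k))⁻¹ * g ∈ gens D C then enum D (Nat.find h) else 1

theorem Big.rnd_mem (h : Big D S C) (g : G1 D) : (inΓ D (rnd D C g))⁻¹ * g ∈ gens D C := by
  classical
  have h1 := h.exists_enum g
  rw [rnd, dif_pos h1]
  exact Nat.find_spec h1

theorem Big.rnd_eq_iff (h : Big D S C) (g : G1 D) (γ : Γ) : rnd D C g = γ ↔
    ∃ k : ℕ, enum D k = γ ∧ (inΓ D (enum D k))⁻¹ * g ∈ gens D C ∧
      ∀ j < k, (inΓ D (enum D j))⁻¹ * g ∉ gens D C := by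
  classical
  have h1 := h.exists_enum g
  rw [rnd, dif_pos h1]
  constructor
  · intro h2
    exact ⟨Nat.find h1, h2, Nat.find_spec h1, fun j hj => Nat.find_min h1 hj⟩
  · rintro ⟨k, hk, h2, h3⟩
    have : Nat.find h1 = k := (Nat.find_eq_iff h1).mpr ⟨h2, h3⟩
    rw [this, hk]

theorem Big.measurableSet_rnd (h : Big D S C) {X : Type*} [MeasurableSpace X] (F : X → G1 D)
    (hF : ∀ γ : Γ, MeasurableSet {x | (inΓ D γ)⁻¹ * F x ∈ gens D C}) (γ : Γ) :
    MeasurableSet {x | rnd D C (F x) = γ} := by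
  have h1 : {x | rnd D C (F x) = γ} = ⋃ k : ℕ, ({_x : X | enum D k = γ} ∩
      ({x | (inΓ D (enum D k))⁻¹ * F x ∈ gens D C} ∩
      ⋂ j : ℕ, ⋂ _ : j < k, {x | (inΓ D (enum D j))⁻¹ * F x ∈ gens D C}ᶜ)) := by
    ext x
    simp only [Set.mem_ofPred_eq, h.rnd_eq_iff, Set.mem_iUnion, Set.mem_inter_iff, Set.mem_iInter,
      Set.mem_compl_iff]
  rw [h1]
  refine MeasurableSet.iUnion fun k => (MeasurableSet.const _).inter ((hF _).inter ?_)
  exact MeasurableSet.iInter fun j => MeasurableSet.iInter fun _ => (hF _).compl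

end rounding

/-! ### continuity -/

section cont

variable {n : ℕ}

theorem continuous_nrm : Continuous (nrm : Matrix (Fin n) (Fin n) ℝ → ℝ) := by
  refine continuous_finsetSum _ fun i _ => continuous_finsetSum _ fun j _ => ?_
  exact (continuous_id.matrix_elem i j).abs

theorem continuous_ex : Continuous (ex : Matrix (Fin n) (Fin n) ℝ → Matrix (Fin n) (Fin n) ℝ) := by
  unfold ex
  refine continuous_finsetSum _ fun k _ => ?_
  exact Continuous.smul (f := fun _ : Matrix (Fin n) (Fin n) ℝ => ((k.factorial : ℝ))⁻¹)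
    continuous_const (continuous_pow k)

theorem continuous_sz {X : Type*} [TopologicalSpace X] (F : X → (Matrix (Fin n) (Fin n) ℝ)ˣ)
    (h1 : Continuous fun x => (F x : Matrix (Fin n) (Fin n) ℝ))
    (h2 : Continuous fun x => ((F x)⁻¹ : (Matrix (Fin n) (Fin n) ℝ)ˣ).val) :
    Continuous fun x => sz (F x) := by
  unfold sz
  exact ((continuous_const.add (continuous_nrm.comp h1)).add (continuous_nrm.comp h2))

theorem continuous_sz_exU {X : Type*} [TopologicalSpace X] (A B : (Matrix (Fin n) (Fin n) ℝ)ˣ)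
    (f : X → Matrix (Fin n) (Fin n) ℝ) (hf : Continuous f) (h0 : ∀ x, f x ^ n = 0) :
    Continuous fun x => sz (A * exU (f x) (h0 x) * B) := by
  refine continuous_sz _ ?_ ?_
  · have : (fun x => ((A * exU (f x) (h0 x) * B : (Matrix (Fin n) (Fin n) ℝ)ˣ) :
        Matrix (Fin n) (Fin n) ℝ)) = fun x => (A : Matrix (Fin n) (Fin n) ℝ) * ex (f x) * B := rfl
    rw [this]
    exact (continuous_const.mul (continuous_ex.comp hf)).mul continuous_const
  · have : (fun x => ((A * exU (f x) (h0 x) * B)⁻¹ : (Matrix (Fin n) (Fin n) ℝ)ˣ).val) =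
        fun x => ((B⁻¹ : (Matrix (Fin n) (Fin n) ℝ)ˣ) : Matrix (Fin n) (Fin n) ℝ) *
          (ex (-(f x)) * ((A⁻¹ : (Matrix (Fin n) (Fin n) ℝ)ˣ) : Matrix (Fin n) (Fin n) ℝ)) := by
      funext x
      rw [mul_inv_rev, mul_inv_rev]
      rfl
    rw [this]
    exact continuous_const.mul ((continuous_ex.comp hf.neg).mul continuous_const)

end cont

section rounding2

variable {Γ : Type*} [Group Γ] {N : Subgroup Γ} [N.Normal] {D : EmbData Γ N} {S : Set Γ} {C : ℝ}

/-- **measurability of the rounding** along exponentials -/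
theorem Big.measurableSet_rnd_exG (h : Big D S C) {X : Type*} [TopologicalSpace X]
    [MeasurableSpace X] [OpensMeasurableSpace X] (f : X → Matrix (Fin D.n) (Fin D.n) ℝ)
    (hf : Continuous f) (hL : ∀ x, f x ∈ lie D) (g g' : G1 D) (γ : Γ) :
    MeasurableSet {x | rnd D C (g * exG D (f x) (hL x) * g') = γ} := by
  refine h.measurableSet_rnd _ (fun γ => ?_) γ
  have h1 : {x | (inΓ D γ)⁻¹ * (g * exG D (f x) (hL x) * g') ∈ gens D C} =
      {x | sz ((((inΓ D γ)⁻¹ * g : G1 D) : (Matrix (Fin D.n) (Fin D.n) ℝ)ˣ) *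
        exU (f x) (lie_pow_zero D (hL x)) * (g' : (Matrix (Fin D.n) (Fin D.n) ℝ)ˣ)) ≤ C} := by
    ext x
    simp only [Set.mem_ofPred_eq]
    have h2 : (((inΓ D γ)⁻¹ * (g * exG D (f x) (hL x) * g') : G1 D) :
        (Matrix (Fin D.n) (Fin D.n) ℝ)ˣ) =
        (((inΓ D γ)⁻¹ * g : G1 D) : (Matrix (Fin D.n) (Fin D.n) ℝ)ˣ) *
        exU (f x) (lie_pow_zero D (hL x)) * (g' : (Matrix (Fin D.n) (Fin D.n) ℝ)ˣ) := by
      rw [← mul_assoc, ← mul_assoc]
      rfl
    change sz (((inΓ D γ)⁻¹ * (g * exG D (f x) (hL x) * g') : G1 D) :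
        (Matrix (Fin D.n) (Fin D.n) ℝ)ˣ) ≤ C ↔ _
    rw [h2]
  rw [h1]
  exact (isClosed_le (continuous_sz_exU _ _ f hf fun x => lie_pow_zero D (hL x))
    continuous_const).measurableSet

/-- every element of `G1` is a product of `len g` letters. -/
theorem Big.letters (h : Big D S C) (g : G1 D) : ∃ l : List (G1 D), g = l.prod ∧
    l.length = len D C g ∧ ∀ s ∈ l, len D C s ≤ 1 := by
  obtain ⟨l, hl, hw, hg⟩ := QI.wordLength_spec h.closure g
  refine ⟨l, hg.symm, hl, fun s hs => ?_⟩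
  rcases hw s hs with h1 | h1
  · exact h.len_letter h1
  · rw [← h.len_inv]; exact h.len_letter h1

end rounding2

/-! ### verticals -/

section vert

variable {Γ : Type*} [Group Γ] (R : RootData Γ) (D : EmbData Γ R.N)

/-- product of integral powers of a family (in the order of `Fin k`) -/
noncomputable def vert {G : Type*} [Group G] {k : ℕ} (c : Fin k → G) (v : Fin k → ℤ) : G :=
  (List.ofFn fun i => c i ^ v i).prod

theorem exists_vert_list {G : Type*} [Group G] {k : ℕ} (c : Fin k → G) (v : Fin k → ℤ)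
    (P : G → Prop) (hP : ∀ i, P (c i) ∧ P (c i)⁻¹) : ∃ l : List G, vert c v = l.prod ∧
      l.length = n1 v ∧ ∀ s ∈ l, P s := by
  refine ⟨(List.ofFn fun i => List.replicate (v i).natAbs (if 0 ≤ v i then c i else (c i)⁻¹)).flatten,
    ?_, ?_, ?_⟩
  · rw [vert, List.prod_flatten, List.map_ofFn]
    congr 2
    funext i
    simp only [Function.comp, List.prod_replicate]
    split_ifs with h
    · conv_lhs => rw [← Int.natAbs_of_nonneg h]
      rw [zpow_natCast]
    · have h1 : v i = -((v i).natAbs : ℤ) := by omega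
      conv_lhs => rw [h1]
      rw [zpow_neg, zpow_natCast, inv_pow]
  · rw [List.length_flatten, List.map_ofFn, List.sum_ofFn]
    simp only [Function.comp, List.length_replicate]
    rfl
  · intro s hs
    rw [List.mem_flatten] at hs
    obtain ⟨l, hl, hs⟩ := hs
    rw [List.mem_ofFn] at hl
    obtain ⟨i, rfl⟩ := hl
    have := List.eq_of_mem_replicate hs
    subst this
    split_ifs
    · exact (hP i).1
    · exact (hP i).2

theorem toAdd_vert {G : Type*} [Group G] {k : ℕ} (f : G →* Multiplicative (Fin k → ℤ))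
    (c : Fin k → G) (hc : ∀ i, Multiplicative.toAdd (f (c i)) = Pi.single i 1) (v : Fin k → ℤ) :
    Multiplicative.toAdd (f (vert c v)) = v := by
  rw [vert, map_list_prod, List.map_ofFn, List.prod_ofFn, toAdd_prod]
  simp only [Function.comp, map_zpow, toAdd_zpow, hc]
  funext j
  rw [Finset.sum_apply, Finset.sum_eq_single j]
  · simp
  · intro i _ hij
    simp [Pi.single_eq_of_ne hij.symm]
  · intro h; exact absurd (Finset.mem_univ j) h

theorem hgt_eq_of_toAdd {g : G1 D} {v : Fin R.k → ℤ} (h : Multiplicative.toAdd (π1 R D g) = v)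
    (i : Fin R.k) : hgt R D g i = v i := by
  rw [hgt, h]

/-- verticals with bounded letters -/
theorem exists_vert {S : Set Γ} {C : ℝ} (h : Big D S C) (𝒱 : Subgroup (G1 D))
    (hV : ∀ g : G1 D, ∃ u ∈ NR1 D, ∃ c ∈ 𝒱, g = u * c) :
    ∃ (t : (Fin R.k → ℤ) → G1 D) (a : ℝ), (∀ v i, hgt R D (t v) i = v i) ∧
      ∀ v, ∃ l : List (G1 D), t v = l.prod ∧ l.length = n1 v ∧
        ∀ s ∈ l, s ∈ 𝒱 ∧ (len D C s : ℝ) ≤ a := by
  have h1 : ∀ i : Fin R.k, ∃ c ∈ 𝒱, Multiplicative.toAdd (π1 R D c) = Pi.single i 1 := by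
    intro i
    obtain ⟨γ, hγ⟩ := R.surj (Multiplicative.ofAdd (Pi.single i 1))
    obtain ⟨u, hu, c, hc, hg⟩ := hV (inΓ D γ)
    refine ⟨c, hc, ?_⟩
    have h2 : π1 R D (inΓ D γ) = π1 R D u * π1 R D c := by rw [hg, map_mul]
    have h3 : π1 R D u = 1 :=
      lift_NR (D := D) R.π (fun n hn => (R.mem_N n).mpr hn) hu
    rw [h3, one_mul, π1, lift_inΓ, hγ] at h2
    rw [π1, ← h2]
    rfl
  choose c hc hπ using h1
  obtain ⟨a, ha⟩ := (Set.finite_range fun i => (len D C (c i) : ℝ)).bddAbove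
  refine ⟨vert c, a, fun v i => hgt_eq_of_toAdd R D (toAdd_vert _ c hπ v) i, fun v => ?_⟩
  refine exists_vert_list c v (fun s => s ∈ 𝒱 ∧ (len D C s : ℝ) ≤ a) fun i => ?_
  refine ⟨⟨hc i, ha ⟨i, rfl⟩⟩, 𝒱.inv_mem (hc i), ?_⟩
  rw [h.len_inv]
  exact ha ⟨i, rfl⟩

end vert

end Crest.Agent.R182.Model
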