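/-
R182, module MODEL (assembly of `BModel`), part 2: subdivision of unipotents, solvability, crossed
homomorphisms.
-/
import Mathlib
import Crest.Agent.R182.ModelInst1
import Crest.Agent.R182.ModelCartan2
import Crest.Agent.R182.ModelWt2

set_option autoImplicit false
set_option linter.unusedSectionVars false

namespace Crest.Agent.R182.Model

open Polyc ModelWt Crest.GroupTheory Crest.Geometry

section tiny

variable {Γ : Type*} [Group Γ] {N : Subgroup Γ} [N.Normal] {D : EmbData Γ N} {S : Set Γ} {C : ℝ}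

theorem Big.sz_le_of_len (h : Big D S C) {g : G1 D} {n : ℝ} (hg : (len D C g : ℝ) ≤ n) :
    sz (g : (Matrix (Fin D.n) (Fin D.n) ℝ)ˣ) ≤ (1 + 2 * D.n) * Real.exp (Real.log C * n) := by
  refine (h.sz_le_exp g).trans ?_
  refine mul_le_mul_of_nonneg_left ?_ (by positivity)
  exact Real.exp_le_exp.mpr (mul_le_mul_of_nonneg_left hg (Real.log_nonneg h.one_le))

/-- conjugates of exponentials -/
theorem conj_exG (g : G1 D) {X : Matrix (Fin D.n) (Fin D.n) ℝ} (hX : X ∈ lie D) :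
    g * exG D X hX * g⁻¹ =
      exG D (cj (g : (Matrix (Fin D.n) (Fin D.n) ℝ)ˣ) X) (cj_mem_lie D g.2 hX) :=
  Subtype.ext (conj_eU g.2 hX)

theorem exG_pow {X : Matrix (Fin D.n) (Fin D.n) ℝ} (hX : X ∈ lie D) (m : ℕ) :
    exG D ((m : ℝ) • X) ((lie D).smul_mem _ hX) = exG D X hX ^ m :=
  Subtype.ext (exU_nat (lie_pow_zero D hX) m)

theorem exG_lg {u : G1 D} (hu : u ∈ NR1 D) :
    exG D (lg ((u : (Matrix (Fin D.n) (Fin D.n) ℝ)ˣ) : Matrix (Fin D.n) (Fin D.n) ℝ))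
      (lg_mem_lie D hu) = u := Subtype.ext (eU_lg hu)

theorem exG_congr {X Y : Matrix (Fin D.n) (Fin D.n) ℝ} (hX : X ∈ lie D) (hY : Y ∈ lie D)
    (h : X = Y) : exG D X hX = exG D Y hY := by
  subst h; rfl

/-- **(C2')** every element of height zero is a product of elements which stay bounded under
conjugation by the elements of a ball. -/
theorem Big.exists_tiny (h : Big D S C) : ∃ K : ℕ, ∀ (n : ℝ) (u : G1 D), u ∈ NR1 D →
    ∃ l : List (G1 D), u = l.prod ∧ ∀ r ∈ l, r ∈ NR1 D ∧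
      ∀ g : G1 D, (len D C g : ℝ) ≤ n → len D C (g⁻¹ * r * g) ≤ K := by
  obtain ⟨K, hK⟩ := h.len_exG_of_le 1
  refine ⟨K, fun n u hu => ?_⟩
  set X := lg ((u : (Matrix (Fin D.n) (Fin D.n) ℝ)ˣ) : Matrix (Fin D.n) (Fin D.n) ℝ) with hXdef
  have hX : X ∈ lie D := lg_mem_lie D hu
  set B : ℝ := (1 + 2 * D.n) * Real.exp (Real.log C * n) with hB
  have hB0 : 0 ≤ B := by positivity
  obtain ⟨m, hm⟩ := exists_nat_ge (max 1 (B * B * nrm X))
  have hm1 : (1 : ℝ) ≤ m := (le_max_left _ _).trans hm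
  have hm0 : (m : ℝ) ≠ 0 := by positivity
  have hY : (m : ℝ)⁻¹ • X ∈ lie D := (lie D).smul_mem _ hX
  refine ⟨List.replicate m (exG D ((m : ℝ)⁻¹ • X) hY), ?_, ?_⟩
  · rw [List.prod_replicate, ← exG_pow]
    conv_lhs => rw [← exG_lg hu]
    refine exG_congr _ _ ?_
    rw [smul_smul, mul_inv_cancel₀ hm0, one_smul]
  · intro r hr
    have := List.eq_of_mem_replicate hr
    subst this
    refine ⟨exG_mem _ _, fun g hg => ?_⟩
    have e : g⁻¹ * exG D ((m : ℝ)⁻¹ • X) hY * g = g⁻¹ * exG D ((m : ℝ)⁻¹ • X) hY * (g⁻¹)⁻¹ := by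
      rw [inv_inv]
    rw [e, conj_exG]
    refine hK _ _ ?_
    rw [map_smul, nrm_smul, abs_of_nonneg (by positivity)]
    have h1 := nrm_cj_le ((g⁻¹ : G1 D) : (Matrix (Fin D.n) (Fin D.n) ℝ)ˣ) X
    have h2 : sz ((g⁻¹ : G1 D) : (Matrix (Fin D.n) (Fin D.n) ℝ)ˣ) ≤ B := by
      have : ((g⁻¹ : G1 D) : (Matrix (Fin D.n) (Fin D.n) ℝ)ˣ) =
        (g : (Matrix (Fin D.n) (Fin D.n) ℝ)ˣ)⁻¹ := rfl
      rw [this, sz_inv]
      exact h.sz_le_of_len hg
    have h3 := one_le_sz ((g⁻¹ : G1 D) : (Matrix (Fin D.n) (Fin D.n) ℝ)ˣ)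
    have h4 := nrm_nonneg X
    have h5 : nrm (cj ((g⁻¹ : G1 D) : (Matrix (Fin D.n) (Fin D.n) ℝ)ˣ) X) ≤ m := by
      refine h1.trans (le_trans ?_ ((le_max_right _ _).trans hm))
      refine mul_le_mul_of_nonneg_right ?_ h4
      exact mul_le_mul h2 h2 (by linarith) hB0
    rw [inv_mul_le_iff₀ (by positivity), mul_one]
    exact h5

end tiny

/-! ### solvability -/

section solv

variable {Γ : Type*} [Group Γ] {N : Subgroup Γ} [hN : N.Normal] (D : EmbData Γ N)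

/-- `N_ℝ` is nilpotent -/
theorem isNilpotent_NR1 : Group.IsNilpotent (NR1 D) := by
  have hsub : ∀ j, IsSub D (lcs D j) := fun j => isSub_lcs j
  let H : ℕ → Subgroup (NR1 D) := fun j =>
    ((expG (hsub j)).comap ((G1 D).subtype.comp (NR1 D).subtype))
  have hH : ∀ j (g : NR1 D), g ∈ H j ↔
      ((g : G1 D) : (Matrix (Fin D.n) (Fin D.n) ℝ)ˣ) ∈ D.NR ∧
      lg (((g : G1 D) : (Matrix (Fin D.n) (Fin D.n) ℝ)ˣ) : Matrix (Fin D.n) (Fin D.n) ℝ) ∈
        lcs D j := fun j g => Iff.rfl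
  obtain ⟨K, hK⟩ := exists_lcs_eq_bot D
  rw [Subgroup.nilpotent_iff_finite_descending_central_series]
  refine ⟨K, H, ⟨?_, ?_⟩, ?_⟩
  · rw [eq_top_iff]
    rintro g -
    exact (hH 0 g).2 ⟨g.2, lg_mem_lie D g.2⟩
  · intro x j hx g
    change x * g * x⁻¹ * g⁻¹ ∈ H (j + 1)
    rw [hH] at hx ⊢
    obtain ⟨hxN, hxF⟩ := hx
    set X := lg (((x : G1 D) : (Matrix (Fin D.n) (Fin D.n) ℝ)ˣ) :
      Matrix (Fin D.n) (Fin D.n) ℝ) with hXdef
    have hXl : X ∈ lie D := lg_mem_lie D hxN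
    have hgX : cj ((g : G1 D) : (Matrix (Fin D.n) (Fin D.n) ℝ)ˣ) X - X ∈ lcs D (j + 1) :=
      cj_sub_mem_lcs g.2 hxF
    have hgX' : cj ((g : G1 D) : (Matrix (Fin D.n) (Fin D.n) ℝ)ˣ) X ∈ lcs D j :=
      cj_mem_lcs D (g : G1 D).2 j hxF
    have hgXl := lcs_le_lie D j hgX'
    have e : (((x * g * x⁻¹ * g⁻¹ : NR1 D) : G1 D) : (Matrix (Fin D.n) (Fin D.n) ℝ)ˣ) =
        ModelWt.eU X hXl * ModelWt.eU (-cj ((g : G1 D) : (Matrix (Fin D.n) (Fin D.n) ℝ)ˣ) X)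
          ((lie D).neg_mem hgXl) := by
      rw [eU_neg hgXl, ← conj_eU (g : G1 D).2 hXl]
      have hx' : ModelWt.eU X hXl = ((x : G1 D) : (Matrix (Fin D.n) (Fin D.n) ℝ)ˣ) := eU_lg hxN
      rw [hx']
      simp only [Subgroup.coe_mul, InvMemClass.coe_inv]
      group
    refine ⟨?_, ?_⟩
    · rw [e]
      exact D.NR.mul_mem (eU_mem _) (eU_mem _)
    · rw [e, Units.val_mul, coe_eU, coe_eU]
      have hbr : ∀ A ∈ lcs D j, ∀ B ∈ lcs D j, A * B - B * A ∈ lcs D (j + 1) := fun A hA B hB =>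
        bracket_mem_lcs D (lcs_le_lie D j hA) hB
      have h1 := (hsub j).lg_mul (lcs_succ_le D j) hbr hxF ((lcs D j).neg_mem hgX')
      have h2 : lg (ex X * ex (-cj ((g : G1 D) : (Matrix (Fin D.n) (Fin D.n) ℝ)ˣ) X)) =
          (lg (ex X * ex (-cj ((g : G1 D) : (Matrix (Fin D.n) (Fin D.n) ℝ)ˣ) X)) -
            (X + -cj ((g : G1 D) : (Matrix (Fin D.n) (Fin D.n) ℝ)ˣ) X)) -
            (cj ((g : G1 D) : (Matrix (Fin D.n) (Fin D.n) ℝ)ˣ) X - X) := by abel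
      rw [h2]
      exact (lcs D (j + 1)).sub_mem h1 hgX
  · rw [eq_bot_iff]
    intro g hg
    rw [hH, hK, Submodule.mem_bot] at hg
    have h1 : ((g : G1 D) : (Matrix (Fin D.n) (Fin D.n) ℝ)ˣ) = 1 := by
      rw [← eU_lg hg.1]
      apply Units.ext
      rw [coe_eU, hg.2, ex_zero, Units.val_one]
    rw [Subgroup.mem_bot]
    exact Subtype.ext (Subtype.ext h1)

/-- `G1` is solvable as soon as `G1/N_ℝ` is abelian -/
theorem isSolvable_G1 {A : Type*} [CommGroup A] (f : G1 D →* A) (hf : ∀ g, f g = 1 ↔ g ∈ NR1 D) :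
    Group.IsSolvable (G1 D) := by
  have h1 : Group.IsNilpotent (NR1 D) := isNilpotent_NR1 D
  have h2 : Group.IsSolvable (NR1 D) := inferInstance
  refine Group.isSolvable_of_ker_le_range (NR1 D).subtype f ?_
  intro g hg
  rw [MonoidHom.mem_ker] at hg
  exact ⟨⟨g, (hf g).1 hg⟩, rfl⟩

end solv

/-! ### crossed homomorphisms for the nonzero roots -/

section crossed

variable {Γ : Type*} [Group Γ] (R : RootData Γ) {D : EmbData Γ R.N} {S : Set Γ} {C : ℝ}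

/-- number of nonzero roots -/
noncomputable def m1 : ℕ := by
  classical
  exact Fintype.card {j : Fin R.m // R.Λ j ≠ 0}

/-- enumeration of the nonzero roots -/
noncomputable def e1 : Fin (m1 R) ≃ {j : Fin R.m // R.Λ j ≠ 0} := by
  classical
  exact (Fintype.equivFin _).symm

/-- the nonzero roots -/
noncomputable def Λ1 (j : Fin (m1 R)) : (Fin R.k → ℝ) →ₗ[ℝ] ℝ := R.Λ (e1 R j)

theorem Λ1_ne (j : Fin (m1 R)) : Λ1 R j ≠ 0 := (e1 R j).2

theorem exists_Λ1 {i : Fin R.m} (hi : R.Λ i ≠ 0) : ∃ j, Λ1 R j = R.Λ i :=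
  ⟨(e1 R).symm ⟨i, hi⟩, by rw [Λ1, Equiv.apply_symm_apply]⟩

variable {R}

/-- **(H)** -/
theorem Big.exists_crossed1 (h : Big D S C) : ∃ δ : Fin (m1 R) → G1 D → ℂ,
    (∀ j, ∃ c B, Bnd.Crossed (fun g => (len D C g : ℝ)) (fun g => Λ1 R j (hgt R D g))
      (fun g => ((χ1 R D (e1 R j) g : ℂˣ) : ℂ)) (δ j) c B) ∧
    (∀ j, ∃ n, hgt R D n = 0 ∧ δ j n ≠ 0) ∧
    (∀ j X (hX : X ∈ lie D), δ j (exG D X hX) = Lm D (R.ℓ (e1 R j)) X) := by
  choose δ c B h1 h2 h3 using fun j : Fin (m1 R) => h.exists_crossed (e1 R j) (e1 R j).2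
  refine ⟨δ, fun j => ⟨c j, B j, h1 j⟩, h2, fun j X hX => ?_⟩
  rw [h3 j _ (exG_mem X hX), coe_exG, Lm_ex (R.ℓ_mul _) hX]

end crossed

end Crest.Agent.R182.Model
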