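/-
R182, module MODEL (helper936): basis of `𝔢` adapted to the weight spaces and to `[𝔢, 𝔢]`.
-/
import Mathlib
import Crest.Agent.R182.ModelIde

set_option autoImplicit false
set_option linter.unusedSectionVars false

namespace Crest.Agent.R182.ModelWt

open Module LinMod Polyc Model

section cartan

attribute [local instance] Matrix.linftyOpNormedRing Matrix.linftyOpNormedAlgebra
attribute [local instance 100] LieRing.ofAssociativeRing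

variable {Γ : Type*} [Group Γ] {N : Subgroup Γ} [hN : N.Normal]
  {D : EmbData Γ N} {k : ℕ} {π₁ : G1 D →* Multiplicative (Fin k → ℤ)}

/-- Basis of `𝔢` adapted to the weight spaces and to `[𝔢, 𝔢]`. -/
structure AdBas (𝒞 : Cartan D π₁) where
  r : ℕ
  bas : Basis (Fin r) ℝ 𝒞.eA
  wt : Fin r → ((Fin k → ℝ) →ₗ[ℝ] ℝ)
  gen : Finset (Fin r)
  mem : ∀ i, ((bas i : 𝒞.eA) : Matrix (Fin D.n) (Fin D.n) ℝ) ∈ 𝒞.nw (wt i)
  mem_one : ∀ i ∉ gen, ((bas i : 𝒞.eA) : Matrix (Fin D.n) (Fin D.n) ℝ) ∈ 𝒞.eN 1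
  repr_one : ∀ X : 𝒞.eA, (X : Matrix (Fin D.n) (Fin D.n) ℝ) ∈ 𝒞.eN 1 →
    ∀ i ∈ gen, bas.repr X i = 0
  repr_nw : ∀ μ, ∀ X : 𝒞.eA, (X : Matrix (Fin D.n) (Fin D.n) ℝ) ∈ 𝒞.nw μ →
    ∀ i, bas.repr X i ≠ 0 → wt i = μ
  sum_wt : ∑ i, wt i = ∑ μ ∈ 𝒞.wts, (finrank ℝ (𝒞.nw μ)) • μ

namespace Cartan

variable (𝒞 : Cartan D π₁)

/-- the coercion as a linear map -/
noncomputable def ξ : 𝒞.eA →ₗ[ℝ] Matrix (Fin D.n) (Fin D.n) ℝ where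
  toFun x := x
  map_add' _ _ := rfl
  map_smul' _ _ := rfl

theorem ξ_apply (x : 𝒞.eA) : 𝒞.ξ x = (x : Matrix (Fin D.n) (Fin D.n) ℝ) := rfl

/-- weight spaces of `𝔢` -/
noncomputable def ew (μ : (Fin k → ℝ) →ₗ[ℝ] ℝ) : Submodule ℝ (Matrix (Fin D.n) (Fin D.n) ℝ) :=
  𝒞.nw μ ⊓ 𝒞.eN 0

theorem ew_eq {μ : (Fin k → ℝ) →ₗ[ℝ] ℝ} (hμ : μ ≠ 0) : 𝒞.ew μ = 𝒞.nw μ :=
  inf_eq_left.2 (𝒞.nw_le_eN hμ)

theorem exists_compl (μ : (Fin k → ℝ) →ₗ[ℝ] ℝ) :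
    ∃ G : Submodule ℝ (Matrix (Fin D.n) (Fin D.n) ℝ), G ≤ 𝒞.ew μ ∧
      (∀ X ∈ 𝒞.ew μ, ∃ a ∈ G, ∃ b ∈ 𝒞.ew μ ⊓ 𝒞.eN 1, X = a + b) ∧
      finrank ℝ G + finrank ℝ (𝒞.ew μ ⊓ 𝒞.eN 1 : Submodule ℝ (Matrix (Fin D.n) (Fin D.n) ℝ)) =
        finrank ℝ (𝒞.ew μ) ∧ G ⊓ 𝒞.eN 1 = ⊥ := by
  obtain ⟨Q, hQ⟩ := Submodule.exists_isCompl ((𝒞.eN 1).comap (𝒞.ew μ).subtype)
  refine ⟨Q.map (𝒞.ew μ).subtype, Submodule.map_subtype_le _ _, ?_, ?_, ?_⟩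
  · intro X hX
    obtain ⟨b, hb, a, ha, hab⟩ := Submodule.mem_sup.1
      (show (⟨X, hX⟩ : 𝒞.ew μ) ∈ (𝒞.eN 1).comap (𝒞.ew μ).subtype ⊔ Q by
        rw [hQ.sup_eq_top]; trivial)
    refine ⟨a, ⟨a, ha, rfl⟩, b, ⟨b.2, hb⟩, ?_⟩
    have := congrArg Subtype.val hab
    rw [add_comm]
    exact this.symm
  · have h1 := Submodule.finrank_add_eq_of_isCompl hQ
    rw [Submodule.finrank_map_subtype_eq, ← h1, add_comm]
    congr 1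
    have e : (𝒞.ew μ ⊓ 𝒞.eN 1 : Submodule ℝ (Matrix (Fin D.n) (Fin D.n) ℝ)) =
        ((𝒞.eN 1).comap (𝒞.ew μ).subtype).map (𝒞.ew μ).subtype := by
      rw [Submodule.map_comap_subtype]
    rw [e, Submodule.finrank_map_subtype_eq]
  · rw [eq_bot_iff]
    rintro X ⟨⟨Y, hY, rfl⟩, hX⟩
    have h1 : Y ∈ (𝒞.eN 1).comap (𝒞.ew μ).subtype ⊓ Q := ⟨hX, hY⟩
    rw [hQ.inf_eq_bot, Submodule.mem_bot] at h1
    rw [h1, map_zero]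
    exact Submodule.zero_mem _

theorem cmp_mem_ew (μ : (Fin k → ℝ) →ₗ[ℝ] ℝ) {X : Matrix (Fin D.n) (Fin D.n) ℝ}
    (hX : X ∈ 𝒞.eN 0) : 𝒞.cmp μ X ∈ 𝒞.ew μ :=
  ⟨𝒞.cmp_mem μ (𝒞.eN_le 0 hX), 𝒞.cmp_mem_eN μ 0 hX⟩

/-- Existence of an adapted basis. -/
theorem exists_adBas : Nonempty (AdBas 𝒞) := by
  classical
  choose G hG1 hG2 hG3 hG4 using 𝒞.exists_compl
  let H : ((Fin k → ℝ) →ₗ[ℝ] ℝ) → Submodule ℝ (Matrix (Fin D.n) (Fin D.n) ℝ) :=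
    fun μ => 𝒞.ew μ ⊓ 𝒞.eN 1
  let I := Σ μ : {μ // μ ∈ 𝒞.wts}, (Fin (finrank ℝ (G μ)) ⊕ Fin (finrank ℝ (H μ)))
  let w : I → Matrix (Fin D.n) (Fin D.n) ℝ := fun p => match p with
    | ⟨μ, Sum.inl a⟩ => (finBasis ℝ (G μ) a : Matrix (Fin D.n) (Fin D.n) ℝ)
    | ⟨μ, Sum.inr b⟩ => (finBasis ℝ (H μ) b : Matrix (Fin D.n) (Fin D.n) ℝ)
  have hw : ∀ p : I, w p ∈ 𝒞.ew p.1 := by
    rintro ⟨μ, a | b⟩
    · exact hG1 μ (Submodule.coe_mem _)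
    · exact (Submodule.coe_mem (finBasis ℝ (H μ) b)).1
  let v : I → 𝒞.eA := fun p => ⟨w p, (hw p).2⟩
  have hspanG : ∀ (μ : {μ // μ ∈ 𝒞.wts}), ∀ X ∈ G μ, ∀ P : Submodule ℝ
      (Matrix (Fin D.n) (Fin D.n) ℝ), (∀ a, w ⟨μ, Sum.inl a⟩ ∈ P) → X ∈ P := by
    intro μ X hX P hP
    have h1 := congrArg Subtype.val ((finBasis ℝ (G μ)).sum_repr ⟨X, hX⟩)
    rw [Submodule.coe_sum] at h1
    rw [← show _ = X from h1]
    exact Submodule.sum_mem _ fun a _ => P.smul_mem _ (hP a)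
  have hspanH : ∀ (μ : {μ // μ ∈ 𝒞.wts}), ∀ X ∈ H μ, ∀ P : Submodule ℝ
      (Matrix (Fin D.n) (Fin D.n) ℝ), (∀ b, w ⟨μ, Sum.inr b⟩ ∈ P) → X ∈ P := by
    intro μ X hX P hP
    have h1 := congrArg Subtype.val ((finBasis ℝ (H μ)).sum_repr ⟨X, hX⟩)
    rw [Submodule.coe_sum] at h1
    rw [← show _ = X from h1]
    exact Submodule.sum_mem _ fun a _ => P.smul_mem _ (hP a)
  -- linear independence
  have hli : LinearIndependent ℝ v := by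
    rw [Fintype.linearIndependent_iff]
    intro g hg
    have hg' : ∑ p, g p • w p = 0 := by
      have := congrArg 𝒞.ξ hg
      rw [map_sum, map_zero] at this
      rw [← this]
      exact Finset.sum_congr rfl fun p _ => by rw [map_smul]; rfl
    -- components
    let A : {μ // μ ∈ 𝒞.wts} → Matrix (Fin D.n) (Fin D.n) ℝ := fun μ =>
      ∑ a, g ⟨μ, Sum.inl a⟩ • w ⟨μ, Sum.inl a⟩
    let B : {μ // μ ∈ 𝒞.wts} → Matrix (Fin D.n) (Fin D.n) ℝ := fun μ =>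
      ∑ b, g ⟨μ, Sum.inr b⟩ • w ⟨μ, Sum.inr b⟩
    have hA : ∀ μ : {μ // μ ∈ 𝒞.wts}, A μ ∈ G μ := fun μ =>
      Submodule.sum_mem _ fun a _ => Submodule.smul_mem _ _ (Submodule.coe_mem _)
    have hB : ∀ μ : {μ // μ ∈ 𝒞.wts}, B μ ∈ H μ := fun μ =>
      Submodule.sum_mem _ fun a _ => Submodule.smul_mem _ _ (Submodule.coe_mem _)
    have hsum : ∑ μ : {μ // μ ∈ 𝒞.wts}, (A μ + B μ) = 0 := by
      rw [← hg', Fintype.sum_sigma]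
      refine Finset.sum_congr rfl fun μ _ => ?_
      rw [Fintype.sum_sum_type]
    have hAB : ∀ μ : {μ // μ ∈ 𝒞.wts}, A μ + B μ = 0 := by
      intro μ
      have h1 := congrArg (𝒞.cmp μ) hsum
      rw [map_sum, map_zero, Finset.sum_eq_single μ] at h1
      · rwa [𝒞.cmp_of_mem (Submodule.add_mem _ (hG1 μ (hA μ)).1 (hB μ).1.1)] at h1
      · intro ν _ hne
        exact 𝒞.cmp_of_mem_ne (fun h => hne (Subtype.ext h))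
          (Submodule.add_mem _ (hG1 ν (hA ν)).1 (hB ν).1.1)
      · intro h; exact absurd (Finset.mem_univ _) h
    have hA0 : ∀ μ : {μ // μ ∈ 𝒞.wts}, A μ = 0 := by
      intro μ
      have h1 : A μ ∈ G μ ⊓ 𝒞.eN 1 := by
        refine ⟨hA μ, ?_⟩
        rw [eq_neg_of_add_eq_zero_left (hAB μ)]
        exact Submodule.neg_mem _ (hB μ).2
      rwa [hG4, Submodule.mem_bot] at h1
    have hB0 : ∀ μ : {μ // μ ∈ 𝒞.wts}, B μ = 0 := fun μ => by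
      have := hAB μ
      rwa [hA0, zero_add] at this
    rintro ⟨μ, a | b⟩
    · have h1 : ∑ a, g ⟨μ, Sum.inl a⟩ • finBasis ℝ (G μ) a = 0 := by
        apply Subtype.ext
        rw [Submodule.coe_sum]
        exact hA0 μ
      exact Fintype.linearIndependent_iff.1 (finBasis ℝ (G μ)).linearIndependent _ h1 a
    · have h1 : ∑ b, g ⟨μ, Sum.inr b⟩ • finBasis ℝ (H μ) b = 0 := by
        apply Subtype.ext
        rw [Submodule.coe_sum]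
        exact hB0 μ
      exact Fintype.linearIndependent_iff.1 (finBasis ℝ (H μ)).linearIndependent _ h1 b
  have hspan : ⊤ ≤ Submodule.span ℝ (Set.range v) := by
    rintro X -
    have h1 : (X : Matrix (Fin D.n) (Fin D.n) ℝ) ∈
        (Submodule.span ℝ (Set.range v)).map 𝒞.ξ := by
      have hv : ∀ p, w p ∈ (Submodule.span ℝ (Set.range v)).map 𝒞.ξ := fun p =>
        ⟨v p, Submodule.subset_span ⟨p, rfl⟩, rfl⟩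
      rw [← 𝒞.sum_cmp (𝒞.eA_mem_lie X)]
      refine Submodule.sum_mem _ fun μ hμ => ?_
      obtain ⟨a, ha, b, hb, hab⟩ := hG2 μ _ (𝒞.cmp_mem_ew μ X.2)
      rw [hab]
      exact Submodule.add_mem _ (hspanG ⟨μ, hμ⟩ a ha _ fun a => hv ⟨⟨μ, hμ⟩, Sum.inl a⟩)
        (hspanH ⟨μ, hμ⟩ b hb _ fun b => hv ⟨⟨μ, hμ⟩, Sum.inr b⟩)
    obtain ⟨Y, hY, hYX⟩ := h1
    have h3 : Y = X := Subtype.ext hYX
    rw [← h3]; exact hY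
  let B : Basis I ℝ 𝒞.eA := Basis.mk hli hspan
  have hB : ∀ p, B p = v p := fun p => by rw [Basis.mk_apply]
  let e : I ≃ Fin (Fintype.card I) := Fintype.equivFin I
  have hbe : ∀ i, (B.reindex e) i = v (e.symm i) := fun i => by
    rw [Basis.reindex_apply, hB]
  have hrep : ∀ X i, (B.reindex e).repr X i = B.repr X (e.symm i) := fun X i => by
    rw [Basis.repr_reindex_apply]
  have hker : ∀ q p : I, p ≠ q → w p ∈ (LinearMap.ker (B.coord q)).map 𝒞.ξ := by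
    intro q p hp
    refine ⟨v p, ?_, rfl⟩
    change v p ∈ LinearMap.ker (B.coord q)
    rw [LinearMap.mem_ker, Basis.coord_apply, ← hB, B.repr_self,
      Finsupp.single_eq_of_ne hp.symm]
  have hker' : ∀ (q : I) (X : 𝒞.eA), (X : Matrix (Fin D.n) (Fin D.n) ℝ) ∈
      (LinearMap.ker (B.coord q)).map 𝒞.ξ → B.repr X q = 0 := by
    intro q X hX
    obtain ⟨Y, hY, hYX⟩ := hX
    have h3 : Y = X := Subtype.ext hYX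
    rw [← h3]
    exact hY
  refine ⟨{
    r := Fintype.card I
    bas := B.reindex e
    wt := fun i => (e.symm i).1
    gen := Finset.univ.filter fun i => ∃ a, (e.symm i).2 = Sum.inl a
    mem := fun i => by rw [hbe]; exact (hw _).1
    mem_one := ?_
    repr_one := ?_
    repr_nw := ?_
    sum_wt := ?_ }⟩
  · intro i hi
    rw [hbe]
    change w (e.symm i) ∈ 𝒞.eN 1
    have h1 : ¬ ∃ a, (e.symm i).2 = Sum.inl a := fun h =>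
      hi (Finset.mem_filter.2 ⟨Finset.mem_univ _, h⟩)
    generalize e.symm i = p at h1
    obtain ⟨μ, a | b⟩ := p
    · exact absurd ⟨a, rfl⟩ h1
    · exact (Submodule.coe_mem (finBasis ℝ (H μ) b)).2
  · intro X hX i hi
    obtain ⟨-, a₀, ha₀⟩ := Finset.mem_filter.1 hi
    rw [hrep]
    refine hker' _ _ ?_
    rw [← 𝒞.sum_cmp (𝒞.eA_mem_lie X)]
    refine Submodule.sum_mem _ fun μ hμ => ?_
    refine hspanH ⟨μ, hμ⟩ _ ⟨𝒞.cmp_mem_ew μ X.2, 𝒞.cmp_mem_eN μ 1 hX⟩ _ fun b =>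
      hker _ ⟨⟨μ, hμ⟩, Sum.inr b⟩ ?_
    intro h
    have h5 : (fun p : I => ∃ a, p.2 = Sum.inl a) ⟨⟨μ, hμ⟩, Sum.inr b⟩ := by
      rw [h]; exact ⟨a₀, ha₀⟩
    obtain ⟨a, ha⟩ := h5
    cases ha
  · intro μ X hX i hi
    by_contra hne
    apply hi
    rw [hrep]
    by_cases hμ : μ ∈ 𝒞.wts
    swap
    · rw [𝒞.nw_of_notMem hμ, Submodule.mem_bot] at hX
      have : X = 0 := Subtype.ext hX
      rw [this, map_zero]; rfl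
    refine hker' _ _ ?_
    obtain ⟨a, ha, b, hb, hab⟩ := hG2 μ _ ⟨hX, X.2⟩
    rw [hab]
    refine Submodule.add_mem _ (hspanG ⟨μ, hμ⟩ a ha _ fun a =>
      hker _ ⟨⟨μ, hμ⟩, Sum.inl a⟩ ?_) (hspanH ⟨μ, hμ⟩ b hb _ fun b =>
      hker _ ⟨⟨μ, hμ⟩, Sum.inr b⟩ ?_)
    · intro h
      exact hne (by rw [← h])
    · intro h
      exact hne (by rw [← h])
  · rw [← e.sum_comp]
    simp only [Equiv.symm_apply_apply]
    rw [Fintype.sum_sigma, ← Finset.sum_coe_sort 𝒞.wts (fun μ => (finrank ℝ (𝒞.nw μ)) • μ)]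
    refine Finset.sum_congr rfl fun μ _ => ?_
    change ∑ _y : (Fin (finrank ℝ (G μ)) ⊕ Fin (finrank ℝ (H μ))),
      (μ : (Fin k → ℝ) →ₗ[ℝ] ℝ) = _
    rw [Finset.sum_const, Finset.card_univ, Fintype.card_sum, Fintype.card_fin, Fintype.card_fin]
    by_cases hμ : (μ : (Fin k → ℝ) →ₗ[ℝ] ℝ) = 0
    · rw [hμ, smul_zero, smul_zero]
    · congr 1
      rw [← 𝒞.ew_eq hμ]
      exact hG3 μ

end Cartan

namespace AdBas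

variable {𝒞 : Cartan D π₁} (𝒷 : AdBas 𝒞)

theorem lie_wt (i j l : Fin 𝒷.r) (h : 𝒷.bas.repr ⁅𝒷.bas i, 𝒷.bas j⁆ l ≠ 0) :
    𝒷.wt l = 𝒷.wt i + 𝒷.wt j := by
  refine 𝒷.repr_nw _ _ ?_ l h
  rw [Cartan.coe_bracket]
  exact 𝒞.bracket_mem_nw (𝒷.mem i) (𝒷.mem j)

theorem lie_gen (x y : 𝒞.eA) (i : Fin 𝒷.r) (hi : i ∈ 𝒷.gen) : 𝒷.bas.repr ⁅x, y⁆ i = 0 := by
  refine 𝒷.repr_one _ ?_ i hi
  rw [Cartan.coe_bracket]
  exact 𝒞.br_eN (i := 0) (j := 0) x.2 y.2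

theorem mem_span_of_mem_one {x : 𝒞.eA} (h : (x : Matrix (Fin D.n) (Fin D.n) ℝ) ∈ 𝒞.eN 1) :
    x ∈ Submodule.span ℝ {z | ∃ x y : 𝒞.eA, z = ⁅x, y⁆} := by
  have h1 : 𝒞.eN 1 ≤ (Submodule.span ℝ {z | ∃ x y : 𝒞.eA, z = ⁅x, y⁆}).map 𝒞.ξ := by
    rw [𝒞.eN_one_eq]
    refine Submodule.span_le.2 ?_
    rintro Z ⟨X, hX, Y, hY, rfl⟩
    exact ⟨⁅(⟨X, hX⟩ : 𝒞.eA), (⟨Y, hY⟩ : 𝒞.eA)⁆, Submodule.subset_span ⟨_, _, rfl⟩, rfl⟩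
  obtain ⟨y, hy, hyx⟩ := h1 h
  have h3 : y = x := Subtype.ext hyx
  rw [← h3]; exact hy

theorem gen_span (i : Fin 𝒷.r) (hi : i ∉ 𝒷.gen) :
    𝒷.bas i ∈ Submodule.span ℝ {z | ∃ x y : 𝒞.eA, z = ⁅x, y⁆} :=
  mem_span_of_mem_one (𝒷.mem_one i hi)

theorem notMem_one {i : Fin 𝒷.r} (hi : i ∈ 𝒷.gen) :
    ((𝒷.bas i : 𝒞.eA) : Matrix (Fin D.n) (Fin D.n) ℝ) ∉ 𝒞.eN 1 := by
  intro h
  have h1 := 𝒷.repr_one _ h i hi
  rw [𝒷.bas.repr_self, Finsupp.single_eq_same] at h1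
  exact one_ne_zero h1

theorem wt_gen_ne (i : Fin 𝒷.r) (hi : i ∈ 𝒷.gen) : 𝒷.wt i ≠ 0 := by
  intro h
  refine 𝒷.notMem_one hi (𝒞.nw_zero_inf_le ⟨?_, (𝒷.bas i).2⟩)
  rw [← h]
  exact 𝒷.mem i

theorem bas_ne_zero (i : Fin 𝒷.r) : ((𝒷.bas i : 𝒞.eA) : Matrix (Fin D.n) (Fin D.n) ℝ) ≠ 0 :=
  fun h => 𝒷.bas.ne_zero i (Subtype.ext h)

theorem wt_mem (i : Fin 𝒷.r) : 𝒷.wt i ∈ 𝒞.wts := by
  by_contra h
  have h1 := 𝒷.mem i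
  rw [𝒞.nw_of_notMem h, Submodule.mem_bot] at h1
  exact 𝒷.bas_ne_zero i h1

theorem wt_mem_gwts (i : Fin 𝒷.r) (hi : i ∈ 𝒷.gen) : 𝒷.wt i ∈ 𝒞.gwts :=
  𝒞.mem_gwts.2 ⟨𝒷.wt_mem i, fun h => 𝒷.notMem_one hi (𝒞.nw_le_eN_one_of h (𝒷.mem i))⟩

theorem tr (hs : ∀ v : Fin k → ℤ, ∃ γ : Γ, Multiplicative.toAdd (π₁ (inΓ D γ)) = v) :
    ∑ i, 𝒷.wt i = 0 := by
  rw [𝒷.sum_wt, 𝒞.sum_wts_eq_zero hs]

/-- every nonzero weight is the weight of a basis vector -/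
theorem exists_of_mem {μ : (Fin k → ℝ) →ₗ[ℝ] ℝ} (hμ : μ ∈ 𝒞.wts) (h0 : μ ≠ 0) :
    ∃ i, 𝒷.wt i = μ := by
  obtain ⟨X, hX, hX0⟩ := Submodule.exists_mem_ne_zero_of_ne_bot (𝒞.nw_ne_bot hμ)
  let x : 𝒞.eA := ⟨X, 𝒞.nw_le_eN h0 hX⟩
  have hx : x ≠ 0 := fun h => hX0 (congrArg Subtype.val h)
  have h1 : 𝒷.bas.repr x ≠ 0 := fun h => hx (by simpa using h)
  obtain ⟨i, hi⟩ := Finsupp.ne_iff.1 h1
  exact ⟨i, 𝒷.repr_nw μ x hX i hi⟩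

/-- nonzero weights with `𝔫_μ ⊄ [𝔢, 𝔢]` are generating weights -/
theorem exists_gen_of {μ : (Fin k → ℝ) →ₗ[ℝ] ℝ} (h0 : μ ≠ 0) (h : ¬ 𝒞.nw μ ≤ 𝒞.eN 1) :
    ∃ i ∈ 𝒷.gen, 𝒷.wt i = μ := by
  obtain ⟨X, hX, hX1⟩ := Set.not_subset.1 h
  let x : 𝒞.eA := ⟨X, 𝒞.nw_le_eN h0 hX⟩
  by_contra hcon
  push Not at hcon
  apply hX1
  have h2 : (x : Matrix (Fin D.n) (Fin D.n) ℝ) =
      ∑ i, 𝒷.bas.repr x i • ((𝒷.bas i : 𝒞.eA) : Matrix (Fin D.n) (Fin D.n) ℝ) := by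
    have := congrArg 𝒞.ξ (𝒷.bas.sum_repr x)
    rw [map_sum] at this
    rw [← Cartan.ξ_apply, ← this]
    exact Finset.sum_congr rfl fun i _ => by rw [map_smul]; rfl
  change (x : Matrix (Fin D.n) (Fin D.n) ℝ) ∈ 𝒞.eN 1
  rw [h2]
  refine Submodule.sum_mem _ fun i _ => ?_
  by_cases hi : i ∈ 𝒷.gen
  · have h3 : 𝒷.bas.repr x i = 0 := by
      by_contra hne
      exact hcon i hi (𝒷.repr_nw μ x hX i hne)
    rw [h3, zero_smul]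
    exact Submodule.zero_mem _
  · exact Submodule.smul_mem _ _ (𝒷.mem_one i hi)

theorem exists_gen_of_gwts {μ : (Fin k → ℝ) →ₗ[ℝ] ℝ} (h0 : μ ≠ 0) (h : μ ∈ 𝒞.gwts) :
    ∃ i ∈ 𝒷.gen, 𝒷.wt i = μ := by
  refine 𝒷.exists_gen_of h0 fun hle => (𝒞.mem_gwts.1 h).2 (hle.trans ?_)
  exact 𝒞.wtsD.eN_le_lcs 1

/-- `C` preserves the weight spaces -/
theorem Ad_C (g : G1 D) (hg : g ∈ 𝒞.C) (i j : Fin 𝒷.r)
    (h : 𝒷.bas.repr (𝒞.AdE g (𝒷.bas j)) i ≠ 0) : 𝒷.wt i = 𝒷.wt j := by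
  refine 𝒷.repr_nw _ _ ?_ i h
  rw [Cartan.coe_AdE]
  exact 𝒞.cj_mem_nw hg (𝒷.mem j)

/-- comparison of the norms -/
theorem exists_repr_le : ∃ B : ℝ, 0 ≤ B ∧ ∀ (x : 𝒞.eA) (i : Fin 𝒷.r),
    |𝒷.bas.repr x i| ≤ B * nrm (x : Matrix (Fin D.n) (Fin D.n) ℝ) := by
  -- extend the coordinates to all matrices
  have h1 : ∀ i : Fin 𝒷.r, ∃ f : Matrix (Fin D.n) (Fin D.n) ℝ →ₗ[ℝ] ℝ,
      ∀ x : 𝒞.eA, f x = 𝒷.bas.repr x i := by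
    intro i
    obtain ⟨g, hg⟩ := LinearMap.exists_leftInverse_of_injective 𝒞.ξ (by
      rw [LinearMap.ker_eq_bot]
      intro x y h
      exact Subtype.ext h)
    refine ⟨(𝒷.bas.coord i) ∘ₗ g, fun x => ?_⟩
    have h2 : g (𝒞.ξ x) = x := by
      have := LinearMap.congr_fun hg x
      exact this
    rw [LinearMap.comp_apply, ← Cartan.ξ_apply, h2]
    rfl
  choose f hf using h1
  have h2 : ∀ i, ∃ B : ℝ, 0 ≤ B ∧ ∀ X, |f i X| ≤ B * nrm X := by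
    intro i
    obtain ⟨B₁, hB₁, h3⟩ := exists_bound_of_real_linear (f i)
    obtain ⟨B₂, hB₂, h4⟩ := exists_norm_le_nrm (n := D.n)
    refine ⟨B₁ * B₂, by positivity, fun X => ?_⟩
    calc |f i X| = ‖f i X‖ := rfl
      _ ≤ B₁ * ‖X‖ := h3 X
      _ ≤ B₁ * (B₂ * nrm X) := mul_le_mul_of_nonneg_left (h4 X) hB₁
      _ = _ := by ring
  choose B hB0 hB using h2
  refine ⟨∑ i, B i, Finset.sum_nonneg fun i _ => hB0 i, fun x i => ?_⟩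
  rw [← hf i x]
  refine (hB i _).trans (mul_le_mul_of_nonneg_right ?_ (nrm_nonneg _))
  exact Finset.single_le_sum (fun i _ => hB0 i) (Finset.mem_univ i)

theorem exists_nrm_le_repr : ∃ B : ℝ, 0 ≤ B ∧ ∀ (x : 𝒞.eA),
    nrm (x : Matrix (Fin D.n) (Fin D.n) ℝ) ≤ B * ‖𝒷.bas.equivFun x‖ := by
  refine ⟨∑ i, nrm ((𝒷.bas i : 𝒞.eA) : Matrix (Fin D.n) (Fin D.n) ℝ),
    Finset.sum_nonneg fun i _ => nrm_nonneg _, fun x => ?_⟩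
  have h2 : (x : Matrix (Fin D.n) (Fin D.n) ℝ) =
      ∑ i, 𝒷.bas.equivFun x i • ((𝒷.bas i : 𝒞.eA) : Matrix (Fin D.n) (Fin D.n) ℝ) := by
    have := congrArg 𝒞.ξ (𝒷.bas.sum_equivFun x)
    rw [map_sum] at this
    rw [← Cartan.ξ_apply]
    conv_lhs => rw [← this]
    exact Finset.sum_congr rfl fun i _ => by rw [map_smul]; rfl
  rw [h2, Finset.sum_mul]
  refine (nrm_sum _ _).trans (Finset.sum_le_sum fun i _ => ?_)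
  rw [nrm_smul, mul_comm]
  refine mul_le_mul_of_nonneg_left ?_ (nrm_nonneg _)
  exact norm_le_pi_norm (𝒷.bas.equivFun x) i

end AdBas

end cartan

end Crest.Agent.R182.ModelWt
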