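/-
R182, module MODEL (helper936): growth on the weight spaces with an exponent which does not depend on
the bounded set of letters.
-/
import Mathlib
import Crest.Agent.R182.ModelWt2

set_option autoImplicit false
set_option linter.unusedSectionVars false

namespace Crest.Agent.R182.ModelWt

open Module LinMod Polyc Model

universe v w

section lin

/-- **Growth with uniform exponent**: the exponent does not depend on the bounded set `S`. -/
theorem lin_growth {V : Type v} [NormedAddCommGroup V] [NormedSpace ℂ V] [FiniteDimensional ℂ V]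
    {G : Type w} [Group G] (N : Subgroup G) [N.Normal]
    (hab : ∀ g h : G, g * h * g⁻¹ * h⁻¹ ∈ N) (ρ : Representation ℂ G V)
    (hρ : ∀ n ∈ N, ∃ d : ℕ, (ρ n - 1) ^ d = 0) (ω : G → ℝ) (hω : ∀ g h, ω (g * h) = ω g + ω h)
    (hspec : ∀ g, ∀ z ∈ (LinearMap.charpoly (ρ g)).roots, ‖z‖ ≤ Real.exp (ω g)) :
    ∃ D : ℕ, ∀ (S : Set G) (A : ℝ), (∀ s ∈ S, |ω s| ≤ A) → (∀ s ∈ S, ∀ v, ‖ρ s v‖ ≤ A * ‖v‖) →
      ∃ C : ℝ, 0 ≤ C ∧ ∀ l : List G, (∀ s ∈ l, s ∈ S) → ∀ v,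
        ‖ρ l.prod v‖ ≤ C * (1 + l.length : ℝ) ^ D * Real.exp (ω l.prod) * ‖v‖ := by
  classical
  obtain ⟨n, b, χ, htri, hdiag, hchar⟩ : ∃ (n : ℕ) (b : Basis (Fin n) ℂ V)
      (χ : Fin n → G →* ℂˣ), (∀ g : G, (LinearMap.toMatrix b b (ρ g)).IsUpperTriangular) ∧
      (∀ (g : G) i, LinearMap.toMatrix b b (ρ g) i i = χ i g) ∧
      (∀ g : G, LinearMap.charpoly (ρ g) =
          ∏ i, (Polynomial.X - Polynomial.C ((χ i g : ℂˣ) : ℂ))) := by
    obtain ⟨b, χ, -, htri, hdiag, hchar, -⟩ := LinUni.exists_triangular N hab ρ hρ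
    exact ⟨_, b, χ, htri, hdiag, hchar⟩
  -- the norm of `χ`
  have hχ : ∀ g i, ‖(χ i g : ℂ)‖ ≤ Real.exp (ω g) := by
    intro g i
    refine hspec g _ ?_
    rw [hchar g, Polynomial.roots_prod _ _
      (Finset.prod_ne_zero_iff.2 fun i _ => Polynomial.X_sub_C_ne_zero _)]
    rw [Multiset.mem_bind]
    exact ⟨i, Finset.mem_univ i, by rw [Polynomial.roots_X_sub_C]; exact Multiset.mem_singleton_self _⟩
  -- constants
  have hcoord : ∃ c : ℝ, 0 ≤ c ∧ ∀ i v, ‖b.repr v i‖ ≤ c * ‖v‖ := by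
    let φ : V →L[ℂ] (Fin n → ℂ) := LinearMap.toContinuousLinearMap b.equivFun.toLinearMap
    refine ⟨‖φ‖, norm_nonneg _, fun i v => ?_⟩
    have h1 : ‖φ v i‖ ≤ ‖φ v‖ := norm_le_pi_norm _ i
    exact h1.trans (φ.le_opNorm v)
  obtain ⟨c, hc0, hc⟩ := hcoord
  set B : ℝ := ∑ i, ‖b i‖ with hB
  have hB0 : 0 ≤ B := Finset.sum_nonneg fun i _ => norm_nonneg _
  have hBi : ∀ i, ‖b i‖ ≤ B := fun i =>
    Finset.single_le_sum (f := fun i => ‖b i‖) (fun _ _ => norm_nonneg _) (Finset.mem_univ i)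
  -- scaled matrices
  have hw1 : ω 1 = 0 := by
    have := hω 1 1
    rw [mul_one] at this
    linarith
  let M : G →* Matrix (Fin n) (Fin n) ℂ :=
    { toFun := fun g => (Real.exp (-ω g) : ℂ) • LinearMap.toMatrix b b (ρ g)
      map_one' := by
        rw [hw1, neg_zero, Real.exp_zero, map_one, LinearMap.toMatrix_one]
        simp
      map_mul' := fun g h => by
        rw [hω, neg_add, Real.exp_add, map_mul, LinearMap.toMatrix_mul, Matrix.smul_mul,
          Matrix.mul_smul, smul_smul]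
        push_cast
        rfl }
  have hM : ∀ g i j, ‖M g i j‖ = Real.exp (-ω g) * ‖LinearMap.toMatrix b b (ρ g) i j‖ := by
    intro g i j
    show ‖((Real.exp (-ω g) : ℂ) • LinearMap.toMatrix b b (ρ g)) i j‖ = _
    rw [Matrix.smul_apply, smul_eq_mul, norm_mul, Complex.norm_real, Real.norm_eq_abs,
      abs_of_pos (Real.exp_pos _)]
  refine ⟨n, fun S A hA hS => ?_⟩
  set A' : ℝ := Real.exp A * (c * (|A| * B)) with hA'
  have hA'0 : 0 ≤ A' := by positivity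
  have hentry : ∀ g ∈ S, (M g).IsUpperTriangular ∧ (∀ i, ‖M g i i‖ ≤ 1) ∧
      ∀ i j, ‖M g i j‖ ≤ A' := by
    intro g hg
    refine ⟨?_, ?_, ?_⟩
    · intro i j hij
      show ((Real.exp (-ω g) : ℂ) • LinearMap.toMatrix b b (ρ g)) i j = 0
      rw [Matrix.smul_apply, htri g hij, smul_zero]
    · intro i
      rw [hM, hdiag]
      calc Real.exp (-ω g) * ‖(χ i g : ℂ)‖ ≤ Real.exp (-ω g) * Real.exp (ω g) :=
            mul_le_mul_of_nonneg_left (hχ g i) (Real.exp_pos _).le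
        _ = 1 := by rw [← Real.exp_add]; simp
    · intro i j
      rw [hM, LinearMap.toMatrix_apply]
      refine mul_le_mul (Real.exp_le_exp.2 ((neg_le_abs _).trans (hA g hg))) ?_
        (norm_nonneg _) (Real.exp_pos _).le
      refine (hc i _).trans (mul_le_mul_of_nonneg_left ?_ hc0)
      refine (hS g hg _).trans ?_
      exact mul_le_mul (le_abs_self A) (hBi j) (norm_nonneg _) (abs_nonneg _)
  refine ⟨n * (n * (c * (Real.exp (n * A') * B))), by positivity, fun l hl v => ?_⟩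
  have h1 : M l.prod = (l.map M).prod := map_list_prod M l
  have h2 : ∀ i j, ‖LinearMap.toMatrix b b (ρ l.prod) i j‖ ≤
      Real.exp (ω l.prod) * (Real.exp (n * A') * (1 + l.length : ℝ) ^ n) := by
    intro i j
    have h3 := LinUni.tri_prod_bound hA'0 (l.map M) (by
      intro M' hM'
      rw [List.mem_map] at hM'
      obtain ⟨g, hg, rfl⟩ := hM'
      exact hentry g (hl g hg)) i j
    rw [← h1, hM, List.length_map] at h3
    have h4 : ‖LinearMap.toMatrix b b (ρ l.prod) i j‖ = Real.exp (ω l.prod) *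
        (Real.exp (-ω l.prod) * ‖LinearMap.toMatrix b b (ρ l.prod) i j‖) := by
      rw [← mul_assoc, ← Real.exp_add]; simp
    rw [h4]
    exact mul_le_mul_of_nonneg_left h3 (Real.exp_pos _).le
  set Q : ℝ := Real.exp (ω l.prod) * (Real.exp (n * A') * (1 + l.length : ℝ) ^ n) with hQ
  have hQ0 : 0 ≤ Q := by positivity
  have h3 : ρ l.prod v = ∑ i, (∑ j, LinearMap.toMatrix b b (ρ l.prod) i j * b.repr v j) • b i := by
    conv_lhs => rw [← b.sum_repr (ρ l.prod v)]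
    refine Finset.sum_congr rfl fun i _ => ?_
    congr 1
    have := LinearMap.toMatrix_mulVec_repr b b (ρ l.prod) v
    rw [← this]; rfl
  rw [h3]
  calc ‖∑ i, (∑ j, LinearMap.toMatrix b b (ρ l.prod) i j * b.repr v j) • b i‖
      ≤ ∑ i, ‖(∑ j, LinearMap.toMatrix b b (ρ l.prod) i j * b.repr v j) • b i‖ :=
        norm_sum_le _ _
    _ ≤ ∑ _i : Fin n, (n * (Q * (c * ‖v‖))) * B := by
        refine Finset.sum_le_sum fun i _ => ?_
        rw [norm_smul]
        refine mul_le_mul ?_ (hBi i) (norm_nonneg _) (by positivity)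
        calc ‖∑ j, LinearMap.toMatrix b b (ρ l.prod) i j * b.repr v j‖
            ≤ ∑ j, ‖LinearMap.toMatrix b b (ρ l.prod) i j * b.repr v j‖ := norm_sum_le _ _
          _ ≤ ∑ _j : Fin n, Q * (c * ‖v‖) := by
              refine Finset.sum_le_sum fun j _ => ?_
              rw [norm_mul]
              exact mul_le_mul (h2 i j) (hc j v) (norm_nonneg _) hQ0
          _ = n * (Q * (c * ‖v‖)) := by
              rw [Finset.sum_const, Finset.card_univ, Fintype.card_fin, nsmul_eq_mul]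
    _ = n * (n * (c * (Real.exp (n * A') * B))) * (1 + l.length : ℝ) ^ n *
          Real.exp (ω l.prod) * ‖v‖ := by
        rw [Finset.sum_const, Finset.card_univ, Fintype.card_fin, nsmul_eq_mul, hQ]
        ring

end lin

section wt

variable {G : Type*} [Group G] {V : Type*} [NormedAddCommGroup V] [NormedSpace ℝ V]
  [FiniteDimensional ℝ V] {ρ : G →* (V ≃ₗ[ℝ] V)} {k : ℕ} {π : G →* Multiplicative (Fin k → ℤ)}

/-- Uniform growth of products of elements of bounded subsets of a group preserving a growth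
space, with a uniform exponent. -/
theorem wt_growth (W : WtData ρ π) {t : G} {s : ℝ} {μ : (Fin k → ℝ) →ₗ[ℝ] ℝ}
    (hμ : ∀ i, W.M i (hv π t) = s → W.M i = μ)
    (hunip : ∀ g, π g = 1 → ∃ d : ℕ, ((ρ g : V →ₗ[ℝ] V) - 1) ^ d = 0)
    (C : Subgroup G) (hC : ∀ g ∈ C, ∀ v ∈ growSpace (ρ t) s, ρ g v ∈ growSpace (ρ t) s) :
    ∃ D : ℕ, ∀ (S : Set G), (∀ g ∈ S, g ∈ C) → ∀ (A : ℝ), (∀ g ∈ S, |μ (hv π g)| ≤ A) →
    (∀ g ∈ S, ∀ v, ‖ρ g v‖ ≤ A * ‖v‖) →
    ∃ K : ℝ, 0 ≤ K ∧ ∀ l : List G, (∀ g ∈ l, g ∈ S) → ∀ v ∈ growSpace (ρ t) s,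
      ‖ρ l.prod v‖ ≤ K * (1 + l.length : ℝ) ^ D * Real.exp (μ (hv π l.prod)) * ‖v‖ := by
  classical
  let P : Submodule ℂ (Fin (finrank ℝ V) → ℂ) := growSpace (cplx (ρ t)) s
  have hP : ∀ g ∈ C, ∀ w ∈ P, cRep ρ g w ∈ P := fun g hg w hw =>
    cRep_mem_growSpace (hC g hg) hw
  let σ : Representation ℂ C P :=
    { toFun := fun g => (cRep ρ (g : G)).restrict (hP g g.2)
      map_one' := by
        ext x
        simp [LinearMap.restrict_apply]
      map_mul' := fun g h => by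
        ext x
        simp [LinearMap.restrict_apply] }
  have hσ : ∀ (g : C) (x : P), ((σ g x : P) : Fin (finrank ℝ V) → ℂ) = cRep ρ (g : G) x :=
    fun g x => rfl
  let N : Subgroup C := (π.comp C.subtype).ker
  have hNmem : ∀ g : C, g ∈ N ↔ π (g : G) = 1 := fun g => Iff.rfl
  obtain ⟨B₀, hB₀, hcb⟩ := exists_cplx_bound V
  obtain ⟨D, h⟩ := lin_growth N (by
    intro g h
    rw [hNmem]
    change π ((g : G) * h * (g : G)⁻¹ * (h : G)⁻¹) = 1
    rw [map_mul, map_mul, map_mul, map_inv, map_inv, mul_comm (π (g : G)) (π (h : G))]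
    group) σ (by
    intro n hn
    obtain ⟨d, hd⟩ := hunip (n : G) ((hNmem n).1 hn)
    refine ⟨d, ?_⟩
    have h1 := cRep_unip ρ hd
    have h2 : ∀ (d : ℕ) (x : P), ((((σ n - 1) ^ d) x : P) : Fin (finrank ℝ V) → ℂ) =
        ((cRep ρ (n : G) - 1) ^ d) x := by
      intro d
      induction d with
      | zero => intro x; rfl
      | succ d ih =>
        intro x
        rw [pow_succ, pow_succ, Module.End.mul_apply, Module.End.mul_apply, ih]
        rfl
    ext x : 1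
    apply Subtype.ext
    rw [h2, h1]; rfl) (fun g => μ (hv π (g : G))) (by
    intro g h
    rw [Subgroup.coe_mul, hv_mul, map_add]) (by
    intro g z hz
    have hz' : (LinearMap.charpoly (σ g)).IsRoot z := Polynomial.isRoot_of_mem_roots hz
    rw [← End.hasEigenvalue_iff_isRoot_charpoly] at hz'
    obtain ⟨w, hw⟩ := hz'.exists_hasEigenvector
    have hw0 : (w : Fin (finrank ℝ V) → ℂ) ≠ 0 := by
      intro h; exact hw.2 (Subtype.ext h)
    have hw1 : cRep ρ (g : G) w = z • (w : Fin (finrank ℝ V) → ℂ) := by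
      rw [← hσ, hw.apply_eq_smul]; rfl
    obtain ⟨i, hi, hi2⟩ := W.exists_of_eigen hw0 w.2 hw1
    rw [hi, ← hμ i hi2, ← W.log_χ, Real.exp_log (norm_pos_iff.2 (Units.ne_zero _))])
  refine ⟨D, fun S hS A hA hA' => ?_⟩
  obtain ⟨K, hK0, hK⟩ := h ({g : C | (g : G) ∈ S}) (max A (B₀ * |A|)) (by
    intro g hg
    exact (hA g hg).trans (le_max_left _ _)) (by
    intro g hg x
    refine le_trans ?_ (mul_le_mul_of_nonneg_right (le_max_right _ _) (norm_nonneg _))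
    change ‖cRep ρ (g : G) x‖ ≤ _
    rw [cRep_apply]
    exact hcb _ A (hA' g hg) _)
  obtain ⟨B₁, h1, hB₁⟩ := exists_bound_of_real_linear (coordC V)
  obtain ⟨B₂, h2, hB₂⟩ := exists_bound_of_real_linear (reC V)
  refine ⟨B₂ * (K * B₁), by positivity, fun l hl v hv' => ?_⟩
  let l' : List C := l.attach.map fun x => ⟨x.1, hS _ (hl x.1 x.2)⟩
  have hl'1 : l'.map C.subtype = l := by
    rw [List.map_map]
    have : (C.subtype ∘ fun x : {x // x ∈ l} => (⟨x.1, hS _ (hl x.1 x.2)⟩ : C)) = Subtype.val := by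
      funext x; rfl
    rw [this, List.attach_map_subtype_val]
  have hl'2 : ((l'.prod : C) : G) = l.prod := by
    have := map_list_prod C.subtype l'
    rw [hl'1] at this
    exact this
  have hl'3 : l'.length = l.length := by simp [l']
  have h3 := hK l' (by
    intro g hg
    obtain ⟨x, -, rfl⟩ := List.mem_map.1 hg
    exact hl x.1 x.2) ⟨coordC V v, coordC_mem_growSpace hv'⟩
  rw [hl'3] at h3
  have h4 : ‖cRep ρ l.prod (coordC V v)‖ ≤
      K * (1 + l.length : ℝ) ^ D * Real.exp (μ (hv π l.prod)) * ‖coordC V v‖ := by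
    have := h3
    simp only [hl'2] at this
    rw [← hl'2]
    rw [← hl'2] at this
    exact this
  have hE : 0 ≤ K * (1 + l.length : ℝ) ^ D * Real.exp (μ (hv π l.prod)) := by positivity
  calc ‖ρ l.prod v‖ = ‖reC V (coordC V (ρ l.prod v))‖ := by rw [reC_coordC]
    _ ≤ B₂ * ‖coordC V (ρ l.prod v)‖ := hB₂ _
    _ = B₂ * ‖cRep ρ l.prod (coordC V v)‖ := by rw [cRep_coordC]
    _ ≤ B₂ * (K * (1 + l.length : ℝ) ^ D * Real.exp (μ (hv π l.prod)) * (B₁ * ‖v‖)) := by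
        refine mul_le_mul_of_nonneg_left (h4.trans ?_) h2
        exact mul_le_mul_of_nonneg_left (hB₁ v) hE
    _ = _ := by ring

end wt

section cartan

attribute [local instance] Matrix.linftyOpNormedRing Matrix.linftyOpNormedAlgebra

variable {Γ : Type*} [Group Γ] {N : Subgroup Γ} [hN : N.Normal]
  {D : EmbData Γ N} {k : ℕ} {π₁ : G1 D →* Multiplicative (Fin k → ℤ)}

namespace Cartan

variable (𝒞 : Cartan D π₁)

/-- **Growth on the weight spaces**: products of elements of bounded subsets of `C`, with a uniform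
exponent. -/
theorem growth_unif : ∃ E : ℕ, ∀ (S : Set (G1 D)), (∀ g ∈ S, g ∈ 𝒞.C) → ∀ (A : ℝ),
    (∀ g ∈ S, sz (g : (Matrix (Fin D.n) (Fin D.n) ℝ)ˣ) ≤ A) →
    (∀ g ∈ S, ∀ i, |hv π₁ g i| ≤ A) →
    ∃ K : ℝ, 0 ≤ K ∧ ∀ μ, ∀ l : List (G1 D), (∀ g ∈ l, g ∈ S) → ∀ X ∈ 𝒞.nw μ,
      nrm (cj (l.prod : (Matrix (Fin D.n) (Fin D.n) ℝ)ˣ) X) ≤
        K * (1 + l.length : ℝ) ^ E * Real.exp (μ (hv π₁ l.prod)) * nrm X := by
  classical
  obtain ⟨B₁, hB₁, h1⟩ := exists_nrm_le (n := D.n)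
  obtain ⟨B₂, hB₂, h2⟩ := exists_norm_le_nrm (n := D.n)
  -- one weight
  have key : ∀ μ, ∃ E : ℕ, ∀ (S : Set (G1 D)), (∀ g ∈ S, g ∈ 𝒞.C) → ∀ (A : ℝ),
      (∀ g ∈ S, sz (g : (Matrix (Fin D.n) (Fin D.n) ℝ)ˣ) ≤ A) →
      (∀ g ∈ S, ∀ i, |hv π₁ g i| ≤ A) → ∃ K : ℝ, 0 ≤ K ∧ ∀ l : List (G1 D), (∀ g ∈ l, g ∈ S) →
      ∀ X ∈ 𝒞.nw μ, nrm (cj (l.prod : (Matrix (Fin D.n) (Fin D.n) ℝ)ˣ) X) ≤
        K * (1 + l.length : ℝ) ^ E * Real.exp (μ (hv π₁ l.prod)) * nrm X := by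
    intro μ
    by_cases hμ : μ ∈ 𝒞.wts
    swap
    · refine ⟨0, fun S hS A hA hA' => ⟨0, le_rfl, fun l _ X hX => ?_⟩⟩
      rw [𝒞.nw_of_notMem hμ, Submodule.mem_bot] at hX
      rw [hX, map_zero, nrm_zero, mul_zero]
    obtain ⟨i, hi⟩ := 𝒞.mem_wts.1 hμ
    have hC : ∀ g ∈ 𝒞.C, ∀ v ∈ growSpace (adE D 𝒞.t) (μ (hv π₁ 𝒞.t)),
        adE D g v ∈ growSpace (adE D 𝒞.t) (μ (hv π₁ 𝒞.t)) := by
      intro g hg v hv
      rw [← coe_mem_gm_iff]
      exact (InC.cj_mem hg ⟨v.2, (coe_mem_gm_iff D 𝒞.t _ v).2 hv⟩).2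
    obtain ⟨b, hb0, hb⟩ : ∃ b : ℝ, 0 ≤ b ∧ ∀ v : Fin k → ℝ, |μ v| ≤ b * ‖v‖ :=
      exists_bound_of_real_linear μ
    obtain ⟨E, h'⟩ := wt_growth 𝒞.W (t := 𝒞.t) (s := μ (hv π₁ 𝒞.t)) (μ := μ)
      (fun j hj => by rw [← hi]; exact 𝒞.gen.1 j i (by rw [hj, hi]))
      (fun g hg => 𝒞.unip hg) 𝒞.C hC
    refine ⟨E, fun S hS A hA hA' => ?_⟩
    obtain ⟨K, hK, h⟩ := h' S hS (max (b * |A|) (B₂ * (|A| * |A|) * B₁)) (by
        intro g hg
        refine (hb _).trans (le_trans ?_ (le_max_left _ _))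
        refine mul_le_mul_of_nonneg_left ?_ hb0
        rw [pi_norm_le_iff_of_nonneg (abs_nonneg A)]
        intro j
        exact (hA' g hg j).trans (le_abs_self A)) (by
        intro g hg v
        refine le_trans ?_ (mul_le_mul_of_nonneg_right (le_max_right _ _) (norm_nonneg _))
        change ‖cj (g : (Matrix (Fin D.n) (Fin D.n) ℝ)ˣ) (v : Matrix (Fin D.n) (Fin D.n) ℝ)‖ ≤
          B₂ * (|A| * |A|) * B₁ * ‖(v : Matrix (Fin D.n) (Fin D.n) ℝ)‖
        have h3 := one_le_sz (g : (Matrix (Fin D.n) (Fin D.n) ℝ)ˣ)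
        have h4 := (hA g hg).trans (le_abs_self A)
        calc _ ≤ B₂ * nrm (cj (g : (Matrix (Fin D.n) (Fin D.n) ℝ)ˣ) v) := h2 _
          _ ≤ B₂ * (|A| * |A| * (B₁ * ‖(v : Matrix (Fin D.n) (Fin D.n) ℝ)‖)) := by
              refine mul_le_mul_of_nonneg_left ((nrm_cj_le _ _).trans ?_) hB₂
              refine mul_le_mul (mul_le_mul h4 h4 (by linarith) (abs_nonneg A)) (h1 _)
                (nrm_nonneg _) (by positivity)
          _ = _ := by ring)
    refine ⟨B₁ * (K * B₂), by positivity, fun l hl X hX => ?_⟩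
    rw [𝒞.nw_of_mem hμ] at hX
    have h5 := h l hl ⟨X, hX.1⟩ (𝒞.mem_growSpace_of_mem_gs hX)
    have h6 : ‖cj (l.prod : (Matrix (Fin D.n) (Fin D.n) ℝ)ˣ) X‖ ≤
        K * (1 + l.length : ℝ) ^ E * Real.exp (μ (hv π₁ l.prod)) * ‖X‖ := h5
    calc nrm (cj (l.prod : (Matrix (Fin D.n) (Fin D.n) ℝ)ˣ) X) ≤
          B₁ * ‖cj (l.prod : (Matrix (Fin D.n) (Fin D.n) ℝ)ˣ) X‖ := h1 _
      _ ≤ B₁ * (K * (1 + l.length : ℝ) ^ E * Real.exp (μ (hv π₁ l.prod)) * (B₂ * nrm X)) := by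
          refine mul_le_mul_of_nonneg_left (h6.trans ?_) hB₁
          exact mul_le_mul_of_nonneg_left (h2 X) (by positivity)
      _ = _ := by ring
  choose E h' using key
  refine ⟨𝒞.wts.sup E, fun S hS A hA hA' => ?_⟩
  choose K hK h using fun μ => h' μ S hS A hA hA'
  refine ⟨∑ μ ∈ 𝒞.wts, K μ, Finset.sum_nonneg fun μ _ => hK μ,
    fun μ l hl X hX => ?_⟩
  by_cases hμ : μ ∈ 𝒞.wts
  · refine (h μ l hl X hX).trans ?_
    have h3 : (1 + l.length : ℝ) ^ E μ ≤ (1 + l.length : ℝ) ^ (𝒞.wts.sup E) :=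
      pow_le_pow_right₀ (by
        have : (0 : ℝ) ≤ l.length := Nat.cast_nonneg _
        linarith) (Finset.le_sup hμ)
    have h4 : K μ ≤ ∑ μ ∈ 𝒞.wts, K μ := Finset.single_le_sum (fun μ _ => hK μ) hμ
    have h5 := nrm_nonneg X
    have h6 := hK μ
    have h7 := h6.trans h4
    gcongr
  · rw [𝒞.nw_of_notMem hμ, Submodule.mem_bot] at hX
    rw [hX, map_zero, nrm_zero, mul_zero]

end Cartan

end cartan

end Crest.Agent.R182.ModelWt
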