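/-
R182, module MODEL (helper936): bounds for the adjoint action on `𝔢`, eigenfunctionals, generating
weights = nonzero roots, determinant.
-/
import Mathlib
import Crest.Agent.R182.ModelBas
import Crest.Agent.R182.ModelGr
import Crest.Agent.R182.ModelRoots

set_option autoImplicit false
set_option linter.unusedSectionVars false

namespace Crest.Agent.R182.ModelWt

open Module LinMod Polyc Model

section general

attribute [local instance] Matrix.linftyOpNormedRing Matrix.linftyOpNormedAlgebra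

variable {Γ : Type*} [Group Γ] {N : Subgroup Γ} [hN : N.Normal]
  {D : EmbData Γ N} {k : ℕ} {π₁ : G1 D →* Multiplicative (Fin k → ℤ)}

/-- two linear forms which agree on the integer vectors are equal -/
theorem form_ext {k : ℕ} {μ ν : (Fin k → ℝ) →ₗ[ℝ] ℝ}
    (h : ∀ v : Fin k → ℤ, μ (fun i => (v i : ℝ)) = ν (fun i => (v i : ℝ))) : μ = ν := by
  apply LinearMap.pi_ext'
  intro j
  apply LinearMap.ext_ring
  have h3 : (fun j' => ((Pi.single j 1 : Fin k → ℤ) j' : ℝ)) =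
      (Pi.single j (1 : ℝ) : Fin k → ℝ) := by
    funext j'
    by_cases hj : j' = j
    · subst hj; simp
    · simp [Pi.single_eq_of_ne hj]
  have h4 := h (Pi.single j 1)
  rw [h3] at h4
  exact h4

namespace Cartan

variable (𝒞 : Cartan D π₁)

/-- heights of elements of `C` -/
theorem exists_C_height (hs : ∀ v : Fin k → ℤ, ∃ γ : Γ, Multiplicative.toAdd (π₁ (inΓ D γ)) = v)
    (v : Fin k → ℤ) : ∃ c ∈ 𝒞.C, Multiplicative.toAdd (π₁ c) = v := by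
  obtain ⟨γ, hγ⟩ := hs v
  obtain ⟨u, hu, c, hc, h⟩ := 𝒞.exists_mul (inΓ D γ)
  refine ⟨c, hc, ?_⟩
  rw [← hγ, h, map_mul, (𝒞.ker u).2 hu, one_mul]

/-- the growth rate of an eigenfunctional which is nonzero on `𝔫_μ` -/
theorem log_norm_eq {c : G1 D} (hc : c ∈ 𝒞.C) {μ : (Fin k → ℝ) →ₗ[ℝ] ℝ}
    (F : Matrix (Fin D.n) (Fin D.n) ℝ →ₗ[ℝ] ℂ) {z : ℂ} (hz : z ≠ 0)
    (hF : ∀ X ∈ lie D, F (cj (c : (Matrix (Fin D.n) (Fin D.n) ℝ)ˣ) X) = z * F X)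
    {X : Matrix (Fin D.n) (Fin D.n) ℝ} (hX : X ∈ 𝒞.nw μ) (hFX : F X ≠ 0) :
    Real.log ‖z‖ = μ (hv π₁ c) := by
  obtain ⟨A, hA, hFn⟩ := Model.exists_norm_le F
  obtain ⟨K, E, hK, h⟩ := 𝒞.growth_zpow hc
  have hz0 : 0 < ‖z‖ := norm_pos_iff.2 hz
  have hXl := 𝒞.nw_le μ hX
  -- powers
  have hinv : ∀ X ∈ lie D, F (cj (c : (Matrix (Fin D.n) (Fin D.n) ℝ)ˣ)⁻¹ X) = z⁻¹ * F X := by
    intro X hX
    have h1 := hF _ (cj_mem_lie D ((G1 D).inv_mem c.2) hX)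
    rw [cj_cj_inv] at h1
    rw [h1, inv_mul_cancel_left₀ hz]
  have hpow : ∀ j : ℕ, F (cj ((c ^ (j : ℤ) : G1 D) : (Matrix (Fin D.n) (Fin D.n) ℝ)ˣ) X) =
      z ^ j * F X := by
    intro j
    induction j with
    | zero => rw [Nat.cast_zero, zpow_zero, Subgroup.coe_one, cj_one, pow_zero, one_mul]
    | succ j ih =>
      have e : (c ^ ((j + 1 : ℕ) : ℤ) : G1 D) = c * c ^ (j : ℤ) := by
        push_cast
        rw [zpow_add, zpow_one, zpow_natCast, ← pow_succ, ← pow_succ']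
      rw [e, Subgroup.coe_mul, cj_mul, hF _ (cj_mem_lie D (Subtype.coe_prop _) hXl), ih, pow_succ]
      ring
  have hpow' : ∀ j : ℕ, F (cj ((c ^ (-(j : ℤ)) : G1 D) : (Matrix (Fin D.n) (Fin D.n) ℝ)ˣ) X) =
      z⁻¹ ^ j * F X := by
    intro j
    induction j with
    | zero => rw [Nat.cast_zero, neg_zero, zpow_zero, Subgroup.coe_one, cj_one, pow_zero, one_mul]
    | succ j ih =>
      have e : (c ^ (-((j + 1 : ℕ) : ℤ)) : G1 D) = c⁻¹ * c ^ (-(j : ℤ)) := by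
        push_cast
        rw [neg_add, add_comm, zpow_add, zpow_neg_one]
      rw [e, Subgroup.coe_mul, Subgroup.coe_inv, cj_mul,
        hinv _ (cj_mem_lie D (Subtype.coe_prop _) hXl), ih, pow_succ]
      ring
  have hFX0 : 0 < ‖F X‖ := norm_pos_iff.2 hFX
  have hb : ∀ j : ℤ, ‖F (cj ((c ^ j : G1 D) : (Matrix (Fin D.n) (Fin D.n) ℝ)ˣ) X)‖ ≤
      (A * K * nrm X) * (1 + |(j : ℝ)|) ^ E * Real.exp (j * μ (hv π₁ c)) := by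
    intro j
    refine (hFn _).trans ?_
    calc A * nrm (cj ((c ^ j : G1 D) : (Matrix (Fin D.n) (Fin D.n) ℝ)ˣ) X) ≤
        A * (K * (1 + |(j : ℝ)|) ^ E * Real.exp (j * μ (hv π₁ c)) * nrm X) :=
          mul_le_mul_of_nonneg_left (h μ j X hX) hA
      _ = _ := by ring
  apply le_antisymm
  · have h1 := exp_growth_le (a := Real.log ‖z‖ - μ (hv π₁ c)) (x := ‖F X‖)
      (C := A * K * nrm X) (D := E) hFX0 (by have := nrm_nonneg X; positivity) (by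
        intro j
        have h2 := hb j
        rw [hpow, norm_mul, norm_pow, Int.cast_natCast, Nat.abs_cast] at h2
        have h3 : Real.exp ((Real.log ‖z‖ - μ (hv π₁ c)) * j) =
            ‖z‖ ^ j * Real.exp (-(j * μ (hv π₁ c))) := by
          rw [← Real.exp_log hz0, ← Real.exp_nat_mul, ← Real.exp_add, Real.log_exp]
          congr 1
          ring
        rw [h3]
        calc ‖z‖ ^ j * Real.exp (-(j * μ (hv π₁ c))) * ‖F X‖ =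
            (‖z‖ ^ j * ‖F X‖) * Real.exp (-(j * μ (hv π₁ c))) := by ring
          _ ≤ ((A * K * nrm X) * (1 + (j : ℝ)) ^ E * Real.exp (j * μ (hv π₁ c))) *
              Real.exp (-(j * μ (hv π₁ c))) :=
              mul_le_mul_of_nonneg_right h2 (Real.exp_pos _).le
          _ = (A * K * nrm X) * (1 + (j : ℝ)) ^ E := by
              rw [mul_assoc _ (Real.exp _), ← Real.exp_add, add_neg_cancel, Real.exp_zero,
                mul_one])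
    linarith
  · have h1 := exp_growth_le (a := μ (hv π₁ c) - Real.log ‖z‖) (x := ‖F X‖)
      (C := A * K * nrm X) (D := E) hFX0 (by have := nrm_nonneg X; positivity) (by
        intro j
        have h2 := hb (-(j : ℤ))
        rw [hpow', norm_mul, norm_pow, norm_inv, Int.cast_neg, abs_neg, Int.cast_natCast,
          Nat.abs_cast] at h2
        have h3 : Real.exp ((μ (hv π₁ c) - Real.log ‖z‖) * j) =
            ‖z‖⁻¹ ^ j * Real.exp (j * μ (hv π₁ c)) := by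
          rw [← Real.exp_log hz0, ← Real.exp_neg, ← Real.exp_nat_mul, ← Real.exp_add,
            Real.log_exp]
          congr 1
          ring
        rw [h3]
        calc ‖z‖⁻¹ ^ j * Real.exp (j * μ (hv π₁ c)) * ‖F X‖ =
            (‖z‖⁻¹ ^ j * ‖F X‖) * Real.exp (j * μ (hv π₁ c)) := by ring
          _ ≤ ((A * K * nrm X) * (1 + (j : ℝ)) ^ E * Real.exp (-j * μ (hv π₁ c))) *
              Real.exp (j * μ (hv π₁ c)) :=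
              mul_le_mul_of_nonneg_right h2 (Real.exp_pos _).le
          _ = (A * K * nrm X) * (1 + (j : ℝ)) ^ E := by
              rw [mul_assoc _ (Real.exp _), ← Real.exp_add]
              have : -(j : ℝ) * μ (hv π₁ c) + j * μ (hv π₁ c) = 0 := by ring
              rw [this, Real.exp_zero, mul_one])
    linarith

end Cartan

namespace AdBas

variable {𝒞 : Cartan D π₁} (𝒷 : AdBas 𝒞)

theorem list_prod_mem_C (l : List (G1 D)) (hl : ∀ s ∈ l, s ∈ 𝒞.C) : l.prod ∈ 𝒞.C :=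
  𝒞.C.list_prod_mem hl

/-- general form of `Ad_C_le` -/
theorem Ad_C_le_sz : ∃ d : ℕ, ∀ (S : Set (G1 D)), (∀ g ∈ S, g ∈ 𝒞.C) → ∀ A₀ : ℝ,
    (∀ g ∈ S, sz (g : (Matrix (Fin D.n) (Fin D.n) ℝ)ˣ) ≤ A₀) →
    (∀ g ∈ S, ∀ i, |hv π₁ g i| ≤ A₀) → ∃ A : ℝ, 0 ≤ A ∧ ∀ l : List (G1 D),
    (∀ s ∈ l, s ∈ S) → ∀ i j, |𝒷.bas.repr (𝒞.AdE l.prod (𝒷.bas j)) i| ≤
      A * (1 + l.length) ^ d * Real.exp (𝒷.wt i (hv π₁ l.prod)) := by
  obtain ⟨E, hE⟩ := 𝒞.growth_unif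
  obtain ⟨B, hB0, hB⟩ := 𝒷.exists_repr_le
  refine ⟨E, fun S hS A₀ h1 h2 => ?_⟩
  obtain ⟨K, hK, h⟩ := hE S hS A₀ h1 h2
  refine ⟨B * (K * ∑ j, nrm ((𝒷.bas j : 𝒞.eA) : Matrix (Fin D.n) (Fin D.n) ℝ)),
    mul_nonneg hB0 (mul_nonneg hK (Finset.sum_nonneg fun j _ => nrm_nonneg _)),
    fun l hl i j => ?_⟩
  by_cases hij : 𝒷.wt i = 𝒷.wt j
  · rw [hij]
    refine (hB _ _).trans ?_
    rw [Cartan.coe_AdE]
    have h3 := h (𝒷.wt j) l hl _ (𝒷.mem j)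
    have h4 : nrm ((𝒷.bas j : 𝒞.eA) : Matrix (Fin D.n) (Fin D.n) ℝ) ≤
        ∑ j, nrm ((𝒷.bas j : 𝒞.eA) : Matrix (Fin D.n) (Fin D.n) ℝ) :=
      Finset.single_le_sum (f := fun j => nrm ((𝒷.bas j : 𝒞.eA) : Matrix (Fin D.n) (Fin D.n) ℝ))
        (fun j _ => nrm_nonneg _) (Finset.mem_univ j)
    calc B * nrm (cj (l.prod : (Matrix (Fin D.n) (Fin D.n) ℝ)ˣ) (𝒷.bas j : 𝒞.eA)) ≤
        B * (K * (1 + l.length : ℝ) ^ E * Real.exp (𝒷.wt j (hv π₁ l.prod)) *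
          ∑ j, nrm ((𝒷.bas j : 𝒞.eA) : Matrix (Fin D.n) (Fin D.n) ℝ)) := by
          refine mul_le_mul_of_nonneg_left (h3.trans ?_) hB0
          exact mul_le_mul_of_nonneg_left h4 (by positivity)
      _ = _ := by ring
  · have h0 : 𝒷.bas.repr (𝒞.AdE l.prod (𝒷.bas j)) i = 0 := by
      by_contra hne
      exact hij (𝒷.Ad_C l.prod (list_prod_mem_C l fun s hs => hS s (hl s hs)) i j hne)
    rw [h0, abs_zero]
    have : 0 ≤ ∑ j, nrm ((𝒷.bas j : 𝒞.eA) : Matrix (Fin D.n) (Fin D.n) ℝ) :=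
      Finset.sum_nonneg fun j _ => nrm_nonneg _
    positivity

/-- crude bound of the adjoint action -/
theorem Ad_le_sz : ∃ A : ℝ, 0 ≤ A ∧ ∀ (g : G1 D) i j, |𝒷.bas.repr (𝒞.AdE g (𝒷.bas j)) i| ≤
    A * (sz (g : (Matrix (Fin D.n) (Fin D.n) ℝ)ˣ)) ^ 2 := by
  obtain ⟨B, hB0, hB⟩ := 𝒷.exists_repr_le
  refine ⟨B * ∑ j, nrm ((𝒷.bas j : 𝒞.eA) : Matrix (Fin D.n) (Fin D.n) ℝ),
    mul_nonneg hB0 (Finset.sum_nonneg fun j _ => nrm_nonneg _), fun g i j => ?_⟩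
  refine (hB _ _).trans ?_
  rw [Cartan.coe_AdE, mul_assoc]
  refine mul_le_mul_of_nonneg_left ?_ hB0
  have h4 : nrm ((𝒷.bas j : 𝒞.eA) : Matrix (Fin D.n) (Fin D.n) ℝ) ≤
      ∑ j, nrm ((𝒷.bas j : 𝒞.eA) : Matrix (Fin D.n) (Fin D.n) ℝ) :=
    Finset.single_le_sum (f := fun j => nrm ((𝒷.bas j : 𝒞.eA) : Matrix (Fin D.n) (Fin D.n) ℝ))
      (fun j _ => nrm_nonneg _) (Finset.mem_univ j)
  refine (nrm_cj_le _ _).trans ?_
  have h5 := one_le_sz (g : (Matrix (Fin D.n) (Fin D.n) ℝ)ˣ)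
  calc _ ≤ sz (g : (Matrix (Fin D.n) (Fin D.n) ℝ)ˣ) * sz (g : (Matrix (Fin D.n) (Fin D.n) ℝ)ˣ) *
        ∑ j, nrm ((𝒷.bas j : 𝒞.eA) : Matrix (Fin D.n) (Fin D.n) ℝ) :=
        mul_le_mul_of_nonneg_left h4 (by nlinarith)
    _ = _ := by ring

/-! #### the determinant -/

theorem det_aux {g : G1 D} {A : ℝ} {d : ℕ} (hA : 0 ≤ A) (h : ∀ m : ℕ,
    |LinearMap.det ((𝒞.AdE (g ^ m) : 𝒞.eA ≃ₗ[ℝ] 𝒞.eA) : 𝒞.eA →ₗ[ℝ] 𝒞.eA)| ≤
      A * (1 + (m : ℝ)) ^ d) :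
    |LinearMap.det ((𝒞.AdE g : 𝒞.eA ≃ₗ[ℝ] 𝒞.eA) : 𝒞.eA →ₗ[ℝ] 𝒞.eA)| ≤ 1 := by
  set x := |LinearMap.det ((𝒞.AdE g : 𝒞.eA ≃ₗ[ℝ] 𝒞.eA) : 𝒞.eA →ₗ[ℝ] 𝒞.eA)| with hx
  have hx0 : 0 < x := by
    rw [hx, abs_pos]
    exact ((𝒞.AdE g).isUnit_det'.ne_zero)
  have hpow : ∀ m : ℕ, |LinearMap.det ((𝒞.AdE (g ^ m) : 𝒞.eA ≃ₗ[ℝ] 𝒞.eA) :
      𝒞.eA →ₗ[ℝ] 𝒞.eA)| = x ^ m := by
    intro m
    rw [hx, ← abs_pow]
    congr 1
    induction m with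
    | zero =>
      rw [pow_zero, pow_zero, map_one]
      exact LinearMap.det_id
    | succ m ih =>
      rw [pow_succ, pow_succ, map_mul, ← ih, ← LinearMap.det_comp]
      rfl
  have h1 := exp_growth_le (a := Real.log x) (x := 1) (C := A) (D := d) one_pos hA (by
    intro j
    have h2 := h j
    rw [hpow] at h2
    rw [mul_one]
    have h3 : Real.exp (Real.log x * j) = x ^ j := by
      rw [mul_comm, Real.exp_nat_mul, Real.exp_log hx0]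
    rw [h3]; exact h2)
  have h2 := Real.log_nonpos_iff hx0.le
  exact h2.1 h1

theorem det_le_of_repr {g : G1 D} {f : Fin 𝒷.r → ℝ} {q : ℝ} (hq : 0 ≤ q)
    (h0 : ∀ i j, 𝒷.bas.repr (𝒞.AdE g (𝒷.bas j)) i ≠ 0 →
      |𝒷.bas.repr (𝒞.AdE g (𝒷.bas j)) i| ≤ q * Real.exp (f i)) (hf : ∑ i, f i = 0) :
    |LinearMap.det ((𝒞.AdE g : 𝒞.eA ≃ₗ[ℝ] 𝒞.eA) : 𝒞.eA →ₗ[ℝ] 𝒞.eA)| ≤
      (𝒷.r.factorial : ℝ) * q ^ 𝒷.r := by
  classical
  rw [← LinearMap.det_toMatrix 𝒷.bas, Matrix.det_apply]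
  refine (Finset.abs_sum_le_sum_abs _ _).trans ?_
  have h1 : ∀ σ : Equiv.Perm (Fin 𝒷.r), |Equiv.Perm.sign σ •
      ∏ i, (LinearMap.toMatrix 𝒷.bas 𝒷.bas ((𝒞.AdE g : 𝒞.eA ≃ₗ[ℝ] 𝒞.eA) :
        𝒞.eA →ₗ[ℝ] 𝒞.eA)) (σ i) i| ≤ q ^ 𝒷.r := by
    intro σ
    have h2 : |Equiv.Perm.sign σ •
      ∏ i, (LinearMap.toMatrix 𝒷.bas 𝒷.bas ((𝒞.AdE g : 𝒞.eA ≃ₗ[ℝ] 𝒞.eA) :
        𝒞.eA →ₗ[ℝ] 𝒞.eA)) (σ i) i| = ∏ i, |𝒷.bas.repr (𝒞.AdE g (𝒷.bas i)) (σ i)| := by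
      rw [← Finset.abs_prod]
      rcases Int.units_eq_one_or (Equiv.Perm.sign σ) with h | h
      · rw [h, one_smul]
        simp only [LinearMap.toMatrix_apply]
        rfl
      · rw [h, Units.neg_smul, one_smul, abs_neg]
        simp only [LinearMap.toMatrix_apply]
        rfl
    rw [h2]
    calc ∏ i, |𝒷.bas.repr (𝒞.AdE g (𝒷.bas i)) (σ i)| ≤ ∏ i, (q * Real.exp (f (σ i))) := by
          refine Finset.prod_le_prod (fun i _ => abs_nonneg _) fun i _ => ?_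
          by_cases hne : 𝒷.bas.repr (𝒞.AdE g (𝒷.bas i)) (σ i) = 0
          · rw [hne, abs_zero]; positivity
          · exact h0 _ _ hne
      _ = q ^ 𝒷.r := by
          rw [Finset.prod_mul_distrib, Finset.prod_const, Finset.card_univ, Fintype.card_fin,
            ← Real.exp_sum, Equiv.sum_comp σ f, hf, Real.exp_zero, mul_one]
  refine (Finset.sum_le_sum fun σ _ => h1 σ).trans ?_
  rw [Finset.sum_const, Finset.card_univ, Fintype.card_perm, Fintype.card_fin, nsmul_eq_mul]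

include 𝒷 in
theorem det_C_le (hs : ∀ v : Fin k → ℤ, ∃ γ : Γ, Multiplicative.toAdd (π₁ (inΓ D γ)) = v)
    {c : G1 D} (hc : c ∈ 𝒞.C) :
    |LinearMap.det ((𝒞.AdE c : 𝒞.eA ≃ₗ[ℝ] 𝒞.eA) : 𝒞.eA →ₗ[ℝ] 𝒞.eA)| ≤ 1 := by
  obtain ⟨d, hd⟩ := 𝒷.Ad_C_le_sz
  obtain ⟨A, hA, h⟩ := hd {c} (by rintro g rfl; exact hc)
    (max (sz (c : (Matrix (Fin D.n) (Fin D.n) ℝ)ˣ)) (‖hv π₁ c‖))
    (by rintro g rfl; exact le_max_left _ _)
    (by rintro g rfl; exact fun i => (norm_le_pi_norm (hv π₁ g) i).trans (le_max_right _ _))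
  refine det_aux (𝒞 := 𝒞) (A := (𝒷.r.factorial : ℝ) * A ^ 𝒷.r) (d := d * 𝒷.r) (by positivity)
    fun m => ?_
  have h1 : c ^ m = (List.replicate m c).prod := by rw [List.prod_replicate]
  have h2 := 𝒷.det_le_of_repr (g := c ^ m) (f := fun i => 𝒷.wt i (hv π₁ (c ^ m)))
    (q := A * (1 + (m : ℝ)) ^ d) (by positivity) (by
      intro i j _
      have h3 := h (List.replicate m c) (fun s hs => List.eq_of_mem_replicate hs) i j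
      rw [List.length_replicate, ← h1] at h3
      exact h3) (by
      rw [← LinearMap.sum_apply, 𝒷.tr hs, LinearMap.zero_apply])
  refine h2.trans_eq ?_
  rw [mul_pow, ← pow_mul, mul_assoc]

include 𝒷 in
theorem det_NR_le {u : G1 D} (hu : u ∈ NR1 D) :
    |LinearMap.det ((𝒞.AdE u : 𝒞.eA ≃ₗ[ℝ] 𝒞.eA) : 𝒞.eA →ₗ[ℝ] 𝒞.eA)| ≤ 1 := by
  obtain ⟨A, hA, h⟩ := 𝒷.Ad_le_sz
  set X := lg ((u : (Matrix (Fin D.n) (Fin D.n) ℝ)ˣ) : Matrix (Fin D.n) (Fin D.n) ℝ) with hX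
  have hXl : X ∈ lie D := lg_mem_lie D hu
  set b : ℝ := 1 + 2 * (D.n * ((D.n + 1) * (1 + nrm X) ^ D.n)) with hb
  have hb1 : 0 ≤ b := by
    have := nrm_nonneg X
    positivity
  -- sizes of the powers
  have hsz : ∀ m : ℕ, sz ((u ^ m : G1 D) : (Matrix (Fin D.n) (Fin D.n) ℝ)ˣ) ≤
      b * (1 + (m : ℝ)) ^ D.n := by
    intro m
    have h1 : ((u ^ m : G1 D) : (Matrix (Fin D.n) (Fin D.n) ℝ)ˣ) =
        exU ((m : ℝ) • X) (lie_pow_zero D ((lie D).smul_mem _ hXl)) := by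
      rw [Subgroup.coe_pow]
      induction m with
      | zero =>
        rw [pow_zero]
        apply Units.ext
        change (1 : Matrix (Fin D.n) (Fin D.n) ℝ) = ex (((0 : ℕ) : ℝ) • X)
        rw [Nat.cast_zero, zero_smul, ex_zero]
      | succ m ih =>
        rw [pow_succ, ih]
        apply Units.ext
        change ex ((m : ℝ) • X) * ((u : (Matrix (Fin D.n) (Fin D.n) ℝ)ˣ) :
          Matrix (Fin D.n) (Fin D.n) ℝ) = ex (((m + 1 : ℕ) : ℝ) • X)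
        have h2 : ((u : (Matrix (Fin D.n) (Fin D.n) ℝ)ˣ) : Matrix (Fin D.n) (Fin D.n) ℝ) =
            ex ((1 : ℝ) • X) := by
          rw [one_smul]
          exact (ex_lg (D.unip_NR hu)).symm
        rw [h2, ← ex_add_smul (lie_pow_zero D hXl)]
        push_cast
        rfl
    rw [h1]
    refine (sz_exU_le _).trans ?_
    have h3 : nrm ((m : ℝ) • X) = m * nrm X := by rw [nrm_smul, Nat.abs_cast]
    rw [h3]
    have h4 := nrm_nonneg X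
    have h5 : (0 : ℝ) ≤ m := Nat.cast_nonneg _
    have h6 : (1 + m * nrm X) ^ D.n ≤ (1 + nrm X) ^ D.n * (1 + (m : ℝ)) ^ D.n := by
      rw [← mul_pow]
      refine pow_le_pow_left₀ (by positivity) ?_ _
      nlinarith
    have h7 : (1 : ℝ) ≤ (1 + (m : ℝ)) ^ D.n := one_le_pow₀ (by linarith)
    calc 1 + 2 * (D.n * ((D.n + 1) * (1 + m * nrm X) ^ D.n)) ≤
        1 * (1 + (m : ℝ)) ^ D.n + 2 * (D.n * ((D.n + 1) * ((1 + nrm X) ^ D.n *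
          (1 + (m : ℝ)) ^ D.n))) := by
          refine add_le_add (by linarith) ?_
          gcongr
      _ = b * (1 + (m : ℝ)) ^ D.n := by rw [hb]; ring
  refine det_aux (𝒞 := 𝒞) (A := (𝒷.r.factorial : ℝ) * (A * b ^ 2) ^ 𝒷.r)
    (d := D.n * 2 * 𝒷.r) (by positivity) fun m => ?_
  have h2 := 𝒷.det_le_of_repr (g := u ^ m) (f := fun i => 0)
    (q := A * (b * (1 + (m : ℝ)) ^ D.n) ^ 2) (by positivity) (by
      intro i j _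
      rw [Real.exp_zero, mul_one]
      refine (h _ i j).trans ?_
      refine mul_le_mul_of_nonneg_left ?_ hA
      exact pow_le_pow_left₀ (by linarith [one_le_sz ((u ^ m : G1 D) :
        (Matrix (Fin D.n) (Fin D.n) ℝ)ˣ)]) (hsz m) 2) (by simp)
  refine h2.trans_eq ?_
  rw [mul_pow b, ← pow_mul, ← mul_assoc A, mul_pow (A * b ^ 2), ← pow_mul, ← mul_assoc]

include 𝒷 in
/-- **unimodularity**: `|det Ad(g)|𝔢| = 1` for all `g ∈ G1` -/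
theorem abs_det_AdE (hs : ∀ v : Fin k → ℤ, ∃ γ : Γ, Multiplicative.toAdd (π₁ (inΓ D γ)) = v)
    (g : G1 D) : |LinearMap.det ((𝒞.AdE g : 𝒞.eA ≃ₗ[ℝ] 𝒞.eA) : 𝒞.eA →ₗ[ℝ] 𝒞.eA)| = 1 := by
  have hmul : ∀ a b : G1 D,
      |LinearMap.det ((𝒞.AdE (a * b) : 𝒞.eA ≃ₗ[ℝ] 𝒞.eA) : 𝒞.eA →ₗ[ℝ] 𝒞.eA)| =
      |LinearMap.det ((𝒞.AdE a : 𝒞.eA ≃ₗ[ℝ] 𝒞.eA) : 𝒞.eA →ₗ[ℝ] 𝒞.eA)| *
      |LinearMap.det ((𝒞.AdE b : 𝒞.eA ≃ₗ[ℝ] 𝒞.eA) : 𝒞.eA →ₗ[ℝ] 𝒞.eA)| := by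
    intro a b
    rw [map_mul, ← abs_mul, ← LinearMap.det_comp]
    rfl
  have hone : |LinearMap.det ((𝒞.AdE (1 : G1 D) : 𝒞.eA ≃ₗ[ℝ] 𝒞.eA) : 𝒞.eA →ₗ[ℝ] 𝒞.eA)| = 1 := by
    rw [map_one]
    have : LinearMap.det (((1 : 𝒞.eA ≃ₗ[ℝ] 𝒞.eA)) : 𝒞.eA →ₗ[ℝ] 𝒞.eA) = 1 := LinearMap.det_id
    rw [this, abs_one]
  have key : ∀ S : Subgroup (G1 D), (∀ g ∈ S,
      |LinearMap.det ((𝒞.AdE g : 𝒞.eA ≃ₗ[ℝ] 𝒞.eA) : 𝒞.eA →ₗ[ℝ] 𝒞.eA)| ≤ 1) → ∀ g ∈ S,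
      |LinearMap.det ((𝒞.AdE g : 𝒞.eA ≃ₗ[ℝ] 𝒞.eA) : 𝒞.eA →ₗ[ℝ] 𝒞.eA)| = 1 := by
    intro S hS g hg
    have h1 := hS g hg
    have h2 := hS g⁻¹ (S.inv_mem hg)
    have h3 := hmul g g⁻¹
    rw [mul_inv_cancel, hone] at h3
    have h4 := abs_nonneg (LinearMap.det ((𝒞.AdE g : 𝒞.eA ≃ₗ[ℝ] 𝒞.eA) : 𝒞.eA →ₗ[ℝ] 𝒞.eA))
    nlinarith
  obtain ⟨u, hu, c, hc, h⟩ := 𝒞.exists_mul g
  rw [h, hmul, key (NR1 D) (fun g hg => 𝒷.det_NR_le hg) u hu,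
    key 𝒞.C (fun g hg => 𝒷.det_C_le hs hg) c hc, mul_one]

end AdBas

end general

section roots

attribute [local instance] Matrix.linftyOpNormedRing Matrix.linftyOpNormedAlgebra

variable {Γ : Type*} [Group Γ] {R : RootData Γ} {D : EmbData Γ R.N}

theorem hs_π1 (R : RootData Γ) (D : EmbData Γ R.N) (v : Fin R.k → ℤ) :
    ∃ γ : Γ, Multiplicative.toAdd (π1 R D (inΓ D γ)) = v := by
  obtain ⟨γ, hγ⟩ := R.surj (Multiplicative.ofAdd v)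
  refine ⟨γ, ?_⟩
  rw [π1, lift_inΓ, hγ]
  rfl

theorem ker_π1 (R : RootData Γ) (D : EmbData Γ R.N) (g : G1 D) : π1 R D g = 1 ↔ g ∈ NR1 D :=
  lift_eq_one_iff (D := D) R.π (fun n => (R.mem_N n).symm) g

/-- existence of the Cartan data with an integral base point -/
theorem exists_cartan_π1 (R : RootData Γ) (D : EmbData Γ R.N) :
    ∃ 𝒞 : Cartan D (π1 R D), ∃ γ : Γ, 𝒞.t = inΓ D γ := exists_cartan (ker_π1 R D) (hs_π1 R D)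

/-- the eigenfunctional `ℓ_j` on matrices -/
noncomputable def Lj (R : RootData Γ) (D : EmbData Γ R.N) (j : Fin R.m) :
    Matrix (Fin D.n) (Fin D.n) ℝ →ₗ[ℝ] ℂ := Lm D (R.ℓ j)

theorem Lj_Ad (j : Fin R.m) (g : G1 D) {X : Matrix (Fin D.n) (Fin D.n) ℝ} (hX : X ∈ lie D) :
    Lj R D j (cj (g : (Matrix (Fin D.n) (Fin D.n) ℝ)ˣ) X) =
      ((χ1 R D j g : ℂˣ) : ℂ) * Lj R D j X :=
  Lm_Ad (R.ℓ_mul j) (R.χ_N j) (fun γ n => R.ℓ_conj j γ n) g hX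

theorem Lj_lcs (j : Fin R.m) {X : Matrix (Fin D.n) (Fin D.n) ℝ} (hX : X ∈ lcs D 1) :
    Lj R D j X = 0 := by
  have h1 : lcs D 1 ≤ LinearMap.ker (Lj R D j) := by
    refine Submodule.span_le.2 ?_
    rintro _ ⟨X, hX, Y, hY, rfl⟩
    exact Lm_bracket (R.ℓ_mul j) hX hY
  exact h1 hX

theorem exists_Lj_ne (j : Fin R.m) : ∃ X ∈ lie D, Lj R D j X ≠ 0 := by
  obtain ⟨n, hn⟩ := R.ℓ_ne j
  have hmem : D.ρu n ∈ D.NR := (D.ρu_mem_NR_iff _).mpr n.2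
  refine ⟨lg (D.ρu n : Matrix (Fin D.n) (Fin D.n) ℝ), lg_mem_lie D hmem, ?_⟩
  have h1 : Lj R D j (lg (D.ρu n : Matrix (Fin D.n) (Fin D.n) ℝ)) = R.ℓ j n := by
    change Lm D (R.ℓ j) _ = _
    rw [Lm_lg (R.ℓ_mul j) hmem, Lm_ρu (D := D) (R.ℓ_mul j) n]
  rw [h1]; exact hn

namespace Cartan

variable (𝒞 : Cartan D (π1 R D))

/-- an eigenfunctional which is nonzero on `𝔫_μ` has root `μ` -/
theorem eq_of_Lj_ne {j : Fin R.m} {μ : (Fin R.k → ℝ) →ₗ[ℝ] ℝ}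
    {X : Matrix (Fin D.n) (Fin D.n) ℝ} (hX : X ∈ 𝒞.nw μ) (h : Lj R D j X ≠ 0) :
    μ = R.Λ j := by
  apply form_ext
  intro v
  obtain ⟨c, hc, hcv⟩ := 𝒞.exists_C_height (hs_π1 R D) v
  have h1 := 𝒞.log_norm_eq hc (Lj R D j) (z := ((χ1 R D j c : ℂˣ) : ℂ)) (Units.ne_zero _)
    (fun X hX => Lj_Ad j c hX) hX h
  rw [log_χ1] at h1
  have h2 : hv (π1 R D) c = fun i => (v i : ℝ) := by
    funext i
    rw [hv, hcv]
  have h3 : hgt R D c = fun i => (v i : ℝ) := h2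
  rw [h2, h3] at h1
  exact h1.symm

/-- `Λ_j` is a weight with `𝔫_{Λ_j} ⊄ [𝔫,𝔫]` -/
theorem Λ_mem_gwts (j : Fin R.m) : R.Λ j ∈ 𝒞.gwts ∧
    ∃ X ∈ 𝒞.nw (R.Λ j), Lj R D j X ≠ 0 := by
  obtain ⟨X, hX, hXj⟩ := exists_Lj_ne (D := D) j
  obtain ⟨μ, hμ, hne⟩ : ∃ μ ∈ 𝒞.wts, Lj R D j (𝒞.cmp μ X) ≠ 0 := by
    by_contra hcon
    push Not at hcon
    apply hXj
    rw [← 𝒞.sum_cmp hX, map_sum]
    exact Finset.sum_eq_zero hcon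
  have h1 := 𝒞.cmp_mem μ hX
  have h2 := 𝒞.eq_of_Lj_ne h1 hne
  rw [h2] at h1 hμ hne
  exact ⟨𝒞.mem_gwts.2 ⟨hμ, fun hle => hne (Lj_lcs j (hle h1))⟩, _, h1, hne⟩

/-- every weight of `𝔫/[𝔫,𝔫]` is a root -/
theorem exists_Λ_of_gwts (ht : ∃ γ : Γ, 𝒞.t = inΓ D γ) {μ : (Fin R.k → ℝ) →ₗ[ℝ] ℝ}
    (hμ : μ ∈ 𝒞.gwts) : ∃ j, R.Λ j = μ := by
  classical
  obtain ⟨γ, hγ⟩ := ht
  have hγm : D.ρu γ = 𝒞.tm := by
    have := congrArg (fun g : G1 D => (g : (Matrix (Fin D.n) (Fin D.n) ℝ)ˣ)) hγ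
    exact this.symm
  obtain ⟨hμw, hμl⟩ := 𝒞.mem_gwts.1 hμ
  -- the invariant subspace of `𝔫`
  let U : Submodule ℝ (lie D) :=
    { carrier := {X | 𝒞.cmp μ X ∈ lcs D 1}
      add_mem' := fun {a b} ha hb => by
        change 𝒞.cmp μ ((a : Matrix (Fin D.n) (Fin D.n) ℝ) + b) ∈ lcs D 1
        rw [map_add]; exact Submodule.add_mem _ ha hb
      zero_mem' := by
        change 𝒞.cmp μ (0 : Matrix (Fin D.n) (Fin D.n) ℝ) ∈ lcs D 1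
        rw [map_zero]; exact Submodule.zero_mem _
      smul_mem' := fun c a ha => by
        change 𝒞.cmp μ (c • (a : Matrix (Fin D.n) (Fin D.n) ℝ)) ∈ lcs D 1
        rw [map_smul]; exact Submodule.smul_mem _ _ ha }
  have hcomm : ∀ X ∈ lie D, 𝒞.cmp μ (cj 𝒞.tm X) = cj 𝒞.tm (𝒞.cmp μ X) := by
    intro X hX
    have h1 : cj 𝒞.tm X = ∑ ν ∈ 𝒞.wts, cj 𝒞.tm (𝒞.cmp ν X) := by
      conv_lhs => rw [← 𝒞.sum_cmp hX]
      rw [map_sum]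
    have h2 : ∀ ν, cj 𝒞.tm (𝒞.cmp ν X) ∈ 𝒞.nw ν := fun ν =>
      𝒞.cj_mem_nw 𝒞.t_mem_C (𝒞.cmp_mem ν hX)
    rw [h1, map_sum, Finset.sum_eq_single μ]
    · rw [𝒞.cmp_of_mem (h2 μ)]
    · intro ν _ hne
      exact 𝒞.cmp_of_mem_ne hne (h2 ν)
    · intro h; exact absurd hμw h
  have hUT : U ≤ U.comap (Tk D γ 0) := by
    intro X hX
    change 𝒞.cmp μ (cj (D.ρu γ) (X : Matrix (Fin D.n) (Fin D.n) ℝ)) ∈ lcs D 1
    rw [hγm, hcomm _ X.2]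
    exact cj_mem_lcs D 𝒞.tm_mem 1 hX
  have hU1 : U ≠ ⊤ := by
    intro h
    apply hμl
    intro X hX
    have h1 : (⟨X, 𝒞.nw_le μ hX⟩ : lie D) ∈ U := by rw [h]; trivial
    have h2 : 𝒞.cmp μ X ∈ lcs D 1 := h1
    rwa [𝒞.cmp_of_mem hX] at h2
  let T : (lie D ⧸ U) →ₗ[ℝ] (lie D ⧸ U) := U.mapQ U (Tk D γ 0) hUT
  have hnt : Nontrivial (lie D ⧸ U) := Submodule.Quotient.nontrivial_iff.2 hU1
  obtain ⟨z, hz⟩ : ∃ z : ℂ, (T.charpoly.map (algebraMap ℝ ℂ)).IsRoot z := by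
    apply IsAlgClosed.exists_root
    rw [Polynomial.degree_map]
    have : 0 < finrank ℝ (lie D ⧸ U) := finrank_pos
    intro h
    have h1 : T.charpoly.natDegree = 0 := Polynomial.natDegree_eq_of_degree_eq_some h
    rw [LinearMap.charpoly_natDegree] at h1
    omega
  obtain ⟨φ₀, hφ₀, hφT⟩ := exists_functional T hz
  let φ : lie D →ₗ[ℝ] ℂ := φ₀ ∘ₗ U.mkQ
  have hφne : φ ≠ 0 := by
    intro h
    apply hφ₀
    apply LinearMap.ext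
    intro y
    obtain ⟨X, rfl⟩ := U.mkQ_surjective y
    exact LinearMap.congr_fun h X
  have hφU : ∀ X ∈ U, φ X = 0 := by
    intro X hX
    change φ₀ (U.mkQ X) = 0
    rw [(Submodule.Quotient.mk_eq_zero U).2 hX |> fun h => show U.mkQ X = 0 from h, map_zero]
  have hφz : ∀ X : lie D, φ (Tk D γ 0 X) = z * φ X := by
    intro X
    exact hφT (U.mkQ X)
  obtain ⟨j, hj⟩ := eig_zero γ φ hφne (by
    intro X hX
    refine hφU X ?_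
    exact 𝒞.cmp_mem_lcs μ 1 hX) z hφz
  refine ⟨j, ?_⟩
  -- `φ ≠ 0` on `𝔫_μ`
  obtain ⟨F, hF⟩ := LinearMap.exists_extend φ
  have hF' : ∀ X (hX : X ∈ lie D), F X = φ ⟨X, hX⟩ := fun X hX => by
    have := LinearMap.congr_fun hF ⟨X, hX⟩
    exact this
  obtain ⟨X, hX⟩ : ∃ X, φ X ≠ 0 := by
    by_contra hcon
    push Not at hcon
    exact hφne (LinearMap.ext hcon)
  have hXμ : F (𝒞.cmp μ X) ≠ 0 := by
    have h1 : X - ⟨𝒞.cmp μ X, 𝒞.cmp_mem_lie μ X.2⟩ ∈ U := by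
      change 𝒞.cmp μ ((X : Matrix (Fin D.n) (Fin D.n) ℝ) - 𝒞.cmp μ X) ∈ lcs D 1
      rw [map_sub, 𝒞.cmp_of_mem (𝒞.cmp_mem μ X.2), sub_self]
      exact Submodule.zero_mem _
    have h2 := hφU _ h1
    rw [map_sub, sub_eq_zero] at h2
    rw [hF' _ (𝒞.cmp_mem_lie μ X.2), ← h2]
    exact hX
  have hz0 : z ≠ 0 := by rw [hj]; exact Units.ne_zero _
  have h1 := 𝒞.log_norm_eq 𝒞.t_mem_C F hz0 (by
    intro X hX
    rw [hF' X hX, ← hφz ⟨X, hX⟩, hF' _ (cj_mem_lie D 𝒞.t.2 hX)]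
    congr 1
    apply Subtype.ext
    change cj 𝒞.tm X = cj (D.ρu γ) X
    rw [hγm]) (𝒞.cmp_mem μ X.2) hXμ
  -- compare the values at `t`
  have h2 : Real.log ‖z‖ = R.Λ j (hv (π1 R D) 𝒞.t) := by
    have h3 := log_χ1 R D j (inΓ D γ)
    rw [χ1, lift_inΓ, ← hj] at h3
    rw [h3, hγ]
    rfl
  obtain ⟨i₁, hi₁⟩ := 𝒞.mem_wts.1 (𝒞.mem_gwts.1 (𝒞.Λ_mem_gwts j).1).1
  obtain ⟨i₂, hi₂⟩ := 𝒞.mem_wts.1 hμw
  rw [← hi₁, ← hi₂]
  apply 𝒞.gen.1 i₁ i₂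
  rw [hi₁, hi₂, ← h2, h1]

end Cartan

namespace AdBas

variable {𝒞 : Cartan D (π1 R D)} (𝒷 : AdBas 𝒞)

/-- the eigenfunctionals on `𝔢` -/
noncomputable def lδ (_𝒷 : AdBas 𝒞) (j : Fin R.m) : 𝒞.eA →ₗ[ℝ] ℂ := Lj R D j ∘ₗ 𝒞.ξ

theorem lδ_apply (j : Fin R.m) (x : 𝒞.eA) :
    𝒷.lδ j x = Lj R D j (x : Matrix (Fin D.n) (Fin D.n) ℝ) := rfl

theorem lδ_supp (j : Fin R.m) (i : Fin 𝒷.r) (h : 𝒷.lδ j (𝒷.bas i) ≠ 0) :
    i ∈ 𝒷.gen ∧ 𝒷.wt i = R.Λ j := by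
  refine ⟨?_, 𝒞.eq_of_Lj_ne (𝒷.mem i) h⟩
  by_contra hi
  exact h (Lj_lcs j (𝒞.wtsD.eN_le_lcs 1 (𝒷.mem_one i hi)))

theorem lδ_ne (j : Fin R.m) (hj : R.Λ j ≠ 0) : ∃ i, 𝒷.lδ j (𝒷.bas i) ≠ 0 := by
  obtain ⟨-, X, hX, hXj⟩ := 𝒞.Λ_mem_gwts j
  by_contra hcon
  push Not at hcon
  apply hXj
  have h1 : 𝒷.lδ j = 0 := 𝒷.bas.ext fun i => by rw [hcon i]; rfl
  exact LinearMap.congr_fun h1 ⟨X, 𝒞.nw_le_eN hj hX⟩

/-- every generating weight of `𝔢` is a root -/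
theorem Λ_surj (ht : ∃ γ : Γ, 𝒞.t = inΓ D γ) (i : Fin 𝒷.r) (hi : i ∈ 𝒷.gen) :
    ∃ j, R.Λ j = 𝒷.wt i := 𝒞.exists_Λ_of_gwts ht (𝒷.wt_mem_gwts i hi)

/-- every nonzero root is a generating weight of `𝔢` -/
theorem exists_gen_Λ (j : Fin R.m) (hj : R.Λ j ≠ 0) : ∃ i ∈ 𝒷.gen, 𝒷.wt i = R.Λ j :=
  𝒷.exists_gen_of_gwts hj (𝒞.Λ_mem_gwts j).1

theorem sep (v : Fin R.k → ℝ) (h : ∀ i ∈ 𝒷.gen, 𝒷.wt i v = 0) : v = 0 := by
  refine R.Λ_inj v fun j => ?_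
  by_cases hj : R.Λ j = 0
  · rw [hj, LinearMap.zero_apply]
  · obtain ⟨i, hi, hij⟩ := 𝒷.exists_gen_Λ j hj
    rw [← hij]; exact h i hi

end AdBas

end roots

end Crest.Agent.R182.ModelWt
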