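/-
R182, module MODEL (helper936): `G1 = E · C` with bounds, `E ∩ C`, and the length versions of the
bounds for the adjoint action.
-/
import Mathlib
import Crest.Agent.R182.ModelBas2

set_option autoImplicit false
set_option linter.unusedSectionVars false

namespace Crest.Agent.R182.ModelWt

open Module LinMod Polyc Model

section general

attribute [local instance] Matrix.linftyOpNormedRing Matrix.linftyOpNormedAlgebra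

variable {Γ : Type*} [Group Γ] {N : Subgroup Γ} [hN : N.Normal]
  {D : EmbData Γ N} {k : ℕ} {π₁ : G1 D →* Multiplicative (Fin k → ℤ)}

theorem sz_eU_le {X : Matrix (Fin D.n) (Fin D.n) ℝ} (hX : X ∈ lie D) {B : ℝ} (hB : nrm X ≤ B) :
    sz (eU X hX) ≤ 1 + 2 * (D.n * ((D.n + 1) * (1 + B) ^ D.n)) := by
  refine (sz_exU_le (lie_pow_zero D hX)).trans ?_
  have h1 := nrm_nonneg X
  have h2 : (1 + nrm X) ^ D.n ≤ (1 + B) ^ D.n := pow_le_pow_left₀ (by linarith) (by linarith) _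
  gcongr

theorem nrm_lg_le_sz {g : (Matrix (Fin D.n) (Fin D.n) ℝ)ˣ} {B : ℝ} (hB : sz g ≤ B) :
    nrm (lg (g : Matrix (Fin D.n) (Fin D.n) ℝ)) ≤ D.n * ((D.n + 1) * (1 + D.n + B) ^ D.n) := by
  refine (nrm_lg_le _).trans ?_
  have h1 := nrm_nonneg (g : Matrix (Fin D.n) (Fin D.n) ℝ)
  have h2 := nrm_le_sz g
  have h3 : (1 + D.n + nrm (g : Matrix (Fin D.n) (Fin D.n) ℝ)) ^ D.n ≤ (1 + D.n + B) ^ D.n :=
    pow_le_pow_left₀ (by positivity) (by linarith) _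
  gcongr

namespace Cartan

variable (𝒞 : Cartan D π₁)

/-- the subgroup `E = exp 𝔢` -/
noncomputable def EE : Subgroup (Matrix (Fin D.n) (Fin D.n) ℝ)ˣ := expG (𝒞.isSub_eN 0)

theorem mem_EE {g : (Matrix (Fin D.n) (Fin D.n) ℝ)ˣ} : g ∈ 𝒞.EE ↔ g ∈ D.NR ∧
    lg (g : Matrix (Fin D.n) (Fin D.n) ℝ) ∈ 𝒞.eN 0 := Iff.rfl

theorem eU_mem_EE {X : Matrix (Fin D.n) (Fin D.n) ℝ} (hX : X ∈ lie D) (h : X ∈ 𝒞.eN 0) :
    eU X hX ∈ 𝒞.EE := 𝒞.mem_EE.2 ⟨eU_mem hX, by rw [lg_eU]; exact h⟩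

/-- `X - X_0 ∈ 𝔢` -/
theorem sub_cmp_zero_mem {X : Matrix (Fin D.n) (Fin D.n) ℝ} (hX : X ∈ lie D) :
    X - 𝒞.cmp 0 X ∈ 𝒞.eN 0 := by
  classical
  by_cases h0 : (0 : (Fin k → ℝ) →ₗ[ℝ] ℝ) ∈ 𝒞.wts
  · have h1 : X - 𝒞.cmp 0 X = ∑ μ ∈ 𝒞.wts.erase 0, 𝒞.cmp μ X := by
      rw [sub_eq_iff_eq_add, Finset.sum_erase_add _ _ h0, 𝒞.sum_cmp hX]
    rw [h1]
    exact Submodule.sum_mem _ fun μ hμ =>
      𝒞.nw_le_eN (Finset.ne_of_mem_erase hμ) (𝒞.cmp_mem μ hX)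
  · have h1 : 𝒞.cmp 0 X = 0 := by
      have := 𝒞.cmp_mem 0 hX
      rwa [𝒞.nw_of_notMem h0, Submodule.mem_bot] at this
    rw [h1, sub_zero, ← 𝒞.sum_cmp hX]
    exact Submodule.sum_mem _ fun μ hμ =>
      𝒞.nw_le_eN (fun h => h0 (h ▸ hμ)) (𝒞.cmp_mem μ hX)

/-- **`N_ℝ = E · exp 𝔫_0`** with bounds -/
theorem exists_NR_dec (A : ℝ) : ∃ B : ℝ, ∀ n ∈ D.NR, sz n ≤ A → ∃ e ∈ 𝒞.EE, ∃ u ∈ E0 D 𝒞.tm,
    n = e * u ∧ sz e ≤ B ∧ sz u ≤ B := by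
  obtain ⟨B₀, hB₀0, hB₀⟩ := 𝒞.exists_cmp_le
  have hcmp : ∀ X ∈ lie D, nrm (𝒞.cmp 0 X) ≤ B₀ * nrm X := by
    intro X hX
    rcases hB₀ 0 X with h | h
    · exact h
    · have h1 := 𝒞.cmp_mem 0 hX
      rw [𝒞.nw_of_notMem h, Submodule.mem_bot] at h1
      rw [h1, nrm_zero]
      exact mul_nonneg hB₀0 (nrm_nonneg _)
  have key : ∀ k, ∀ A : ℝ, ∃ B : ℝ, 0 ≤ B ∧ ∀ n ∈ D.NR, sz n ≤ A → ∃ e ∈ 𝒞.EE, ∃ w ∈ D.NR,
      lg (w : Matrix (Fin D.n) (Fin D.n) ℝ) ∈ lcs D k ∧ ∃ u ∈ E0 D 𝒞.tm,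
      n = e * w * u ∧ sz e ≤ B ∧ sz w ≤ B ∧ sz u ≤ B := by
    intro k A
    induction k with
    | zero =>
      refine ⟨max |A| (sz (1 : (Matrix (Fin D.n) (Fin D.n) ℝ)ˣ)),
        (abs_nonneg A).trans (le_max_left _ _), fun n hn hA => ⟨1, 𝒞.EE.one_mem, n, hn,
        lg_mem_lie D hn, 1, (E0 D 𝒞.tm).one_mem, by rw [one_mul, mul_one], le_max_right _ _,
        hA.trans ((le_abs_self A).trans (le_max_left _ _)), le_max_right _ _⟩⟩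
    | succ k ih =>
      obtain ⟨B, hB0, hB⟩ := ih
      -- the constants
      set b₁ : ℝ := D.n * ((D.n + 1) * (1 + D.n + B) ^ D.n) with hb₁
      have hb₁0 : 0 ≤ b₁ := by positivity
      set b₂ : ℝ := (1 + B₀) * b₁ with hb₂
      have hb₂0 : 0 ≤ b₂ := by positivity
      set b₃ : ℝ := 1 + 2 * (D.n * ((D.n + 1) * (1 + b₂) ^ D.n)) with hb₃
      have hb₃1 : 1 ≤ b₃ := by
        rw [hb₃]
        have : 0 ≤ 2 * ((D.n : ℝ) * ((D.n + 1) * (1 + b₂) ^ D.n)) := by positivity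
        linarith
      refine ⟨b₃ * (1 + B) * b₃, by positivity, fun n hn hA => ?_⟩
      obtain ⟨e, he, w, hw, hwk, u, hu, hn, h1, h2, h3⟩ := hB n hn hA
      set W := lg (w : Matrix (Fin D.n) (Fin D.n) ℝ) with hW
      have hWl : W ∈ lie D := lcs_le_lie D k hwk
      have hW0k : 𝒞.cmp 0 W ∈ lcs D k := 𝒞.cmp_mem_lcs 0 k hwk
      have hW0l : 𝒞.cmp 0 W ∈ lie D := lcs_le_lie D k hW0k
      have hWEk : W - 𝒞.cmp 0 W ∈ lcs D k := Submodule.sub_mem _ hwk hW0k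
      have hWEl : W - 𝒞.cmp 0 W ∈ lie D := lcs_le_lie D k hWEk
      have hWb : nrm W ≤ b₁ := nrm_lg_le_sz h2
      have hW0b : nrm (𝒞.cmp 0 W) ≤ b₂ := by
        refine (hcmp W hWl).trans ?_
        rw [hb₂]
        nlinarith [nrm_nonneg W]
      have hWEb : nrm (W - 𝒞.cmp 0 W) ≤ b₂ := by
        refine (nrm_sub _ _).trans ?_
        have := hcmp W hWl
        rw [hb₂]
        nlinarith [nrm_nonneg W]
      have s0 := sz_eU_le hW0l hW0b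
      have sE := sz_eU_le hWEl hWEb
      rw [← hb₃] at s0 sE
      have s0' : sz (eU (-(𝒞.cmp 0 W)) ((lie D).neg_mem hW0l)) ≤ b₃ := by
        rw [eU_neg hW0l, sz_inv]; exact s0
      have sE' : sz (eU (-(W - 𝒞.cmp 0 W)) ((lie D).neg_mem hWEl)) ≤ b₃ := by
        rw [eU_neg hWEl, sz_inv]; exact sE
      refine ⟨e * eU (W - 𝒞.cmp 0 W) hWEl,
        𝒞.EE.mul_mem he (𝒞.eU_mem_EE hWEl (𝒞.sub_cmp_zero_mem hWl)),
        eU (-(W - 𝒞.cmp 0 W)) ((lie D).neg_mem hWEl) * w *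
          eU (-(𝒞.cmp 0 W)) ((lie D).neg_mem hW0l),
        D.NR.mul_mem (D.NR.mul_mem (eU_mem _) hw) (eU_mem _), ?_,
        eU (𝒞.cmp 0 W) hW0l * u, (E0 D 𝒞.tm).mul_mem (eU_mem_E0 hW0l ?_) hu, ?_, ?_, ?_, ?_⟩
      · have q1 := Q.eU (k := k) ((lcs D k).neg_mem hWEk)
        have q2 := Q.of_mem hw hwk
        have q3 := Q.eU (k := k) ((lcs D k).neg_mem hW0k)
        have q := ((q1.mul q2).mul q3).congr
        have e0 : -(W - 𝒞.cmp 0 W) + lg (w : Matrix (Fin D.n) (Fin D.n) ℝ) + -(𝒞.cmp 0 W) = 0 := by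
          rw [← hW]; abel
        rw [e0, sub_zero] at q
        exact q
      · have := 𝒞.cmp_mem 0 hWl
        rw [𝒞.nw_zero] at this
        exact this.2
      · rw [eU_neg hWEl, eU_neg hW0l, hn]
        group
      · refine (sz_mul _ _).trans ?_
        have := one_le_sz e
        have h5 := one_le_sz (eU (W - 𝒞.cmp 0 W) hWEl)
        calc sz e * sz (eU (W - 𝒞.cmp 0 W) hWEl) ≤ B * b₃ :=
              mul_le_mul h1 sE (by linarith) hB0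
          _ ≤ (b₃ * (1 + B)) * b₃ := by
              refine mul_le_mul_of_nonneg_right ?_ (by linarith)
              nlinarith
      · refine (sz_mul _ _).trans ?_
        have h6 := one_le_sz (eU (-(W - 𝒞.cmp 0 W)) ((lie D).neg_mem hWEl))
        have h7 := one_le_sz w
        have h8 := one_le_sz (eU (-(𝒞.cmp 0 W)) ((lie D).neg_mem hW0l))
        refine mul_le_mul ?_ s0' (by linarith) (by positivity)
        refine (sz_mul _ _).trans ?_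
        exact mul_le_mul sE' (by linarith) (by linarith) (by linarith)
      · refine (sz_mul _ _).trans ?_
        have := one_le_sz u
        calc sz (eU (𝒞.cmp 0 W) hW0l) * sz u ≤ b₃ * B :=
              mul_le_mul s0 h3 (by linarith) (by linarith)
          _ ≤ (b₃ * (1 + B)) * 1 := by nlinarith
          _ ≤ (b₃ * (1 + B)) * b₃ := mul_le_mul_of_nonneg_left hb₃1 (by positivity)
  obtain ⟨K, hK⟩ := exists_lcs_eq_bot D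
  obtain ⟨B, hB0, hB⟩ := key K A
  refine ⟨B, fun n hn hA => ?_⟩
  obtain ⟨e, he, w, hw, hwk, u, hu, hn, h1, h2, h3⟩ := hB n hn hA
  rw [hK, Submodule.mem_bot] at hwk
  have hw1 := eq_one_of_lg hw hwk
  refine ⟨e, he, u, hu, ?_, h1, h3⟩
  rw [hn, hw1, mul_one]

omit hN in
theorem finite_heights {k : ℕ} (A : ℝ) (f : (Fin k → ℤ) → ℝ) :
    ∃ A₁ : ℝ, ∀ v : Fin k → ℤ, (∀ i, |(v i : ℝ)| ≤ A) → f v ≤ A₁ := by
  have hfin : {v : Fin k → ℤ | ∀ i, |(v i : ℝ)| ≤ A}.Finite := by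
    refine (Set.Finite.pi (t := fun _ : Fin k => Set.Icc (-⌈A⌉) ⌈A⌉)
      fun _ => Set.finite_Icc _ _).subset ?_
    intro v hv i _
    have h1 := abs_le.1 (hv i)
    have h2 := Int.le_ceil A
    constructor
    · have : -(⌈A⌉ : ℝ) ≤ v i := by linarith
      exact_mod_cast this
    · have : (v i : ℝ) ≤ ⌈A⌉ := by linarith
      exact_mod_cast this
  obtain ⟨A₁, h⟩ := (hfin.image f).bddAbove
  exact ⟨A₁, fun v hv => h ⟨v, hv, rfl⟩⟩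

theorem exists_exE {e : (Matrix (Fin D.n) (Fin D.n) ℝ)ˣ} (he : e ∈ 𝒞.EE) :
    ∃ x : 𝒞.eA, (x : Matrix (Fin D.n) (Fin D.n) ℝ) = lg (e : Matrix (Fin D.n) (Fin D.n) ℝ) ∧
      𝒞.exE x = ⟨e, NR_le D he.1⟩ := by
  have h0 : lg (e : Matrix (Fin D.n) (Fin D.n) ℝ) ∈ 𝒞.eA := 𝒞.mem_eA.2 he.2
  refine ⟨⟨_, h0⟩, rfl, ?_⟩
  apply Subtype.ext
  rw [coe_exE]
  exact eU_lg he.1

theorem exists_C_of_E0 {u : (Matrix (Fin D.n) (Fin D.n) ℝ)ˣ} (hu : u ∈ E0 D 𝒞.tm) :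
    ∃ u' : G1 D, (u' : (Matrix (Fin D.n) (Fin D.n) ℝ)ˣ) = u ∧ u' ∈ 𝒞.C :=
  ⟨⟨u, NR_le D (E0_le hu)⟩, rfl, ((𝒞.mem_C_NR_iff ⟨u, NR_le D (E0_le hu)⟩).2 hu).1⟩

theorem exists_exE' {e : (Matrix (Fin D.n) (Fin D.n) ℝ)ˣ} (he : e ∈ 𝒞.EE) :
    ∃ x : 𝒞.eA, (x : Matrix (Fin D.n) (Fin D.n) ℝ) = lg (e : Matrix (Fin D.n) (Fin D.n) ℝ) ∧
      (𝒞.exE x : (Matrix (Fin D.n) (Fin D.n) ℝ)ˣ) = e := by
  obtain ⟨x, hx, hxe⟩ := 𝒞.exists_exE he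
  exact ⟨x, hx, by rw [hxe]⟩

/-- one element: `g = ex(x) u c` -/
theorem dec_aux {g c : G1 D} (hc : c ∈ 𝒞.C) {e u : (Matrix (Fin D.n) (Fin D.n) ℝ)ˣ}
    (he : e ∈ 𝒞.EE) (hu : u ∈ E0 D 𝒞.tm)
    (hn : ((g * c⁻¹ : G1 D) : (Matrix (Fin D.n) (Fin D.n) ℝ)ˣ) = e * u) :
    ∃ x : 𝒞.eA, ∃ c' ∈ 𝒞.C, g = 𝒞.exE x * c' ∧
      (x : Matrix (Fin D.n) (Fin D.n) ℝ) = lg (e : Matrix (Fin D.n) (Fin D.n) ℝ) ∧
      (c' : (Matrix (Fin D.n) (Fin D.n) ℝ)ˣ) = u * (c : (Matrix (Fin D.n) (Fin D.n) ℝ)ˣ) := by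
  obtain ⟨u', hu', huC⟩ := 𝒞.exists_C_of_E0 hu
  obtain ⟨x, hx, hxe⟩ := 𝒞.exists_exE' he
  have h4 : g * c⁻¹ = 𝒞.exE x * u' := by
    apply Subtype.ext
    rw [hn, Subgroup.coe_mul, hxe, hu']
  refine ⟨x, u' * c, 𝒞.C.mul_mem huC hc, ?_, hx, ?_⟩
  · rw [← mul_assoc, ← h4, inv_mul_cancel_right]
  · rw [Subgroup.coe_mul, hu']

/-- **`G1 = E · C`** with bounds (sizes of matrices) -/
theorem exists_dec (hs : ∀ v : Fin k → ℤ, ∃ γ : Γ, Multiplicative.toAdd (π₁ (inΓ D γ)) = v)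
    (A : ℝ) : ∃ B : ℝ, ∀ g : G1 D, sz (g : (Matrix (Fin D.n) (Fin D.n) ℝ)ˣ) ≤ A →
    (∀ i, |hv π₁ g i| ≤ A) → ∃ x : 𝒞.eA, ∃ c ∈ 𝒞.C, g = 𝒞.exE x * c ∧
      nrm (x : Matrix (Fin D.n) (Fin D.n) ℝ) ≤ B ∧
      sz (c : (Matrix (Fin D.n) (Fin D.n) ℝ)ˣ) ≤ B := by
  classical
  choose c hcC hcv using 𝒞.exists_C_height hs
  obtain ⟨A₁, hA₁⟩ := finite_heights A fun v => sz (c v : (Matrix (Fin D.n) (Fin D.n) ℝ)ˣ)
  obtain ⟨B, hB⟩ := 𝒞.exists_NR_dec (|A| * |A₁|)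
  refine ⟨max (D.n * ((D.n + 1) * (1 + D.n + B) ^ D.n)) (|B| * |A₁|), fun g hgA hgv => ?_⟩
  have hv1 := hA₁ (Multiplicative.toAdd (π₁ g)) hgv
  have hcg : π₁ g = π₁ (c (Multiplicative.toAdd (π₁ g))) := by
    apply Multiplicative.toAdd.injective
    rw [hcv]
  have hnR : g * (c (Multiplicative.toAdd (π₁ g)))⁻¹ ∈ NR1 D := by
    rw [← 𝒞.ker, map_mul, map_inv, mul_inv_eq_one, ← hcg]
  have h1 := one_le_sz (c (Multiplicative.toAdd (π₁ g)) : (Matrix (Fin D.n) (Fin D.n) ℝ)ˣ)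
  have hsz : sz ((g * (c (Multiplicative.toAdd (π₁ g)))⁻¹ : G1 D) :
      (Matrix (Fin D.n) (Fin D.n) ℝ)ˣ) ≤ |A| * |A₁| := by
    rw [Subgroup.coe_mul]
    refine (sz_mul _ _).trans ?_
    rw [Subgroup.coe_inv, sz_inv]
    exact mul_le_mul (hgA.trans (le_abs_self A)) (hv1.trans (le_abs_self A₁))
      (by linarith) (abs_nonneg A)
  obtain ⟨e, he, u, hu, hn, h3, h4⟩ := hB _ hnR hsz
  obtain ⟨x, c', hc', hgx, hx, hc'u⟩ := 𝒞.dec_aux (hcC _) he hu hn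
  refine ⟨x, c', hc', hgx, ?_, ?_⟩
  · rw [hx]
    exact (nrm_lg_le_sz h3).trans (le_max_left _ _)
  · rw [hc'u]
    refine (sz_mul _ _).trans (le_trans ?_ (le_max_right _ _))
    exact mul_le_mul (h4.trans (le_abs_self B)) (hv1.trans (le_abs_self A₁)) (by linarith)
      (abs_nonneg B)

theorem exE_mem_C_iff (x : 𝒞.eA) : 𝒞.exE x ∈ 𝒞.C ↔
    (x : Matrix (Fin D.n) (Fin D.n) ℝ) ∈ 𝒞.nw 0 := by
  have h1 : 𝒞.exE x ∈ 𝒞.C ↔ (𝒞.exE x : (Matrix (Fin D.n) (Fin D.n) ℝ)ˣ) ∈ E0 D 𝒞.tm := by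
    rw [← 𝒞.mem_C_NR_iff]
    exact ⟨fun h => ⟨h, 𝒞.exE_mem x⟩, fun h => h.1⟩
  rw [h1, mem_E0, coe_exE, lg_eU, 𝒞.nw_zero]
  exact ⟨fun h => h.2, fun h => ⟨eU_mem _, h⟩⟩

end Cartan

namespace AdBas

variable {𝒞 : Cartan D π₁} (𝒷 : AdBas 𝒞)

theorem coe_eq_sum (x : 𝒞.eA) : (x : Matrix (Fin D.n) (Fin D.n) ℝ) =
    ∑ i, 𝒷.bas.repr x i • ((𝒷.bas i : 𝒞.eA) : Matrix (Fin D.n) (Fin D.n) ℝ) := by
  have := congrArg 𝒞.ξ (𝒷.bas.sum_repr x)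
  rw [map_sum] at this
  rw [← Cartan.ξ_apply, ← this]
  exact Finset.sum_congr rfl fun i _ => by rw [map_smul]; rfl

/-- **`E ∩ C = exp 𝔢_0`** -/
theorem ex_mem_C (x : 𝒞.eA) : 𝒞.exE x ∈ 𝒞.C ↔ ∀ i, 𝒷.wt i ≠ 0 → 𝒷.bas.repr x i = 0 := by
  rw [𝒞.exE_mem_C_iff]
  constructor
  · intro h i hi
    by_contra hne
    exact hi (𝒷.repr_nw 0 x h i hne)
  · intro h
    rw [𝒷.coe_eq_sum x]
    refine Submodule.sum_mem _ fun i _ => ?_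
    by_cases hi : 𝒷.wt i = 0
    · have := 𝒷.mem i
      rw [hi] at this
      exact Submodule.smul_mem _ _ this
    · rw [h i hi, zero_smul]
      exact Submodule.zero_mem _

end AdBas

end general

section len

attribute [local instance] Matrix.linftyOpNormedRing Matrix.linftyOpNormedAlgebra

variable {Γ : Type*} [Group Γ] {R : RootData Γ} {D : EmbData Γ R.N} {S : Set Γ} {C₀ : ℝ}

/-- elements of bounded length have bounded size and height -/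
theorem Big_bound (h : Big D S C₀) (Rr : ℝ) : ∃ A : ℝ, 0 ≤ A ∧ ∀ g : G1 D,
    (len D C₀ g : ℝ) ≤ Rr → sz (g : (Matrix (Fin D.n) (Fin D.n) ℝ)ˣ) ≤ A ∧
      ∀ i, |hv (π1 R D) g i| ≤ A := by
  obtain ⟨a, ha, hh⟩ := h.hgt_le
  have hlog : 0 ≤ Real.log C₀ := Real.log_nonneg h.one_le
  refine ⟨max ((1 + 2 * D.n) * Real.exp (Real.log C₀ * |Rr|)) (a * |Rr|),
    (mul_nonneg ha (abs_nonneg _)).trans (le_max_right _ _), fun g hg => ⟨?_, fun i => ?_⟩⟩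
  · refine (h.sz_le_exp g).trans (le_trans ?_ (le_max_left _ _))
    refine mul_le_mul_of_nonneg_left (Real.exp_le_exp.2 ?_) (by positivity)
    exact mul_le_mul_of_nonneg_left (hg.trans (le_abs_self _)) hlog
  · refine (hh g i).trans (le_trans ?_ (le_max_right _ _))
    exact mul_le_mul_of_nonneg_left (hg.trans (le_abs_self _)) ha

namespace AdBas

variable {𝒞 : Cartan D (π1 R D)} (𝒷 : AdBas 𝒞)

/-- field `Ad_C_le` -/
theorem Ad_C_le (h : Big D S C₀) : ∃ d : ℕ, ∀ Rr : ℝ, ∃ A : ℝ, ∀ l : List (G1 D),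
    (∀ s ∈ l, s ∈ 𝒞.C ∧ (len D C₀ s : ℝ) ≤ Rr) → ∀ i j,
    |𝒷.bas.repr (𝒞.AdE l.prod (𝒷.bas j)) i| ≤
      A * (1 + l.length) ^ d * Real.exp (𝒷.wt i (hgt R D l.prod)) := by
  obtain ⟨d, hd⟩ := 𝒷.Ad_C_le_sz
  refine ⟨d, fun Rr => ?_⟩
  obtain ⟨A₀, -, hA₀⟩ := Big_bound h Rr
  obtain ⟨A, -, hA⟩ := hd {s | s ∈ 𝒞.C ∧ (len D C₀ s : ℝ) ≤ Rr} (fun g hg => hg.1) A₀
    (fun g hg => (hA₀ g hg.2).1) (fun g hg => (hA₀ g hg.2).2)
  exact ⟨A, fun l hl i j => hA l hl i j⟩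

/-- field `Ad_le` -/
theorem Ad_le (h : Big D S C₀) : ∃ a : ℝ, 0 ≤ a ∧ ∀ (g : G1 D) i j,
    |𝒷.bas.repr (𝒞.AdE g (𝒷.bas j)) i| ≤ Real.exp (a * len D C₀ g + a) := by
  obtain ⟨A, hA, hAd⟩ := 𝒷.Ad_le_sz
  have hlog : 0 ≤ Real.log C₀ := Real.log_nonneg h.one_le
  set b : ℝ := Real.log (1 + A * (1 + 2 * D.n) ^ 2) with hb
  have hpos : 0 ≤ A * (1 + 2 * (D.n : ℝ)) ^ 2 := by positivity
  have hb0 : 0 ≤ b := Real.log_nonneg (by linarith)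
  refine ⟨2 * Real.log C₀ + b, by positivity, fun g i j => ?_⟩
  refine (hAd g i j).trans ?_
  have h1 := h.sz_le_exp g
  have h2 := one_le_sz (g : (Matrix (Fin D.n) (Fin D.n) ℝ)ˣ)
  have hl : (0 : ℝ) ≤ len D C₀ g := Nat.cast_nonneg _
  calc A * (sz (g : (Matrix (Fin D.n) (Fin D.n) ℝ)ˣ)) ^ 2 ≤
      A * ((1 + 2 * D.n) * Real.exp (Real.log C₀ * len D C₀ g)) ^ 2 := by
        refine mul_le_mul_of_nonneg_left (pow_le_pow_left₀ (by linarith) h1 2) hA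
    _ = (A * (1 + 2 * D.n) ^ 2) * Real.exp (2 * Real.log C₀ * len D C₀ g) := by
        rw [mul_pow, ← Real.exp_nat_mul, mul_assoc]
        congr 3
        push_cast
        ring
    _ ≤ Real.exp b * Real.exp (2 * Real.log C₀ * len D C₀ g) := by
        refine mul_le_mul_of_nonneg_right ?_ (Real.exp_pos _).le
        rw [hb, Real.exp_log (by linarith)]
        linarith
    _ = Real.exp (b + 2 * Real.log C₀ * len D C₀ g) := (Real.exp_add _ _).symm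
    _ ≤ _ := Real.exp_le_exp.2 (by nlinarith)

/-- field `le_len_ex` -/
theorem le_len_ex (h : Big D S C₀) : ∃ a : ℝ, 0 ≤ a ∧ ∀ x : 𝒞.eA,
    ‖𝒷.bas.equivFun x‖ ≤ Real.exp (a * len D C₀ (𝒞.exE x) + a) := by
  obtain ⟨B, hB0, hB⟩ := 𝒷.exists_repr_le
  have hlog : 0 ≤ Real.log C₀ := Real.log_nonneg h.one_le
  set A : ℝ := B * (D.n * ((D.n + 1) * (2 + 3 * D.n) ^ D.n)) with hA
  have hA0 : 0 ≤ A := by positivity
  set b : ℝ := Real.log (1 + A) with hb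
  have hb0 : 0 ≤ b := Real.log_nonneg (by linarith)
  refine ⟨D.n * Real.log C₀ + b, by positivity, fun x => ?_⟩
  set s := 𝒞.exE x with hs
  have hl : (0 : ℝ) ≤ len D C₀ s := Nat.cast_nonneg _
  have h1 := h.sz_le_exp s
  have hlg : lg ((s : (Matrix (Fin D.n) (Fin D.n) ℝ)ˣ) : Matrix (Fin D.n) (Fin D.n) ℝ) = x := by
    rw [hs, Cartan.coe_exE, lg_eU]
  have h2 := nrm_lg_le_sz h1
  rw [hlg] at h2
  set y : ℝ := Real.exp (Real.log C₀ * len D C₀ s) with hy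
  have hy1 : 1 ≤ y := Real.one_le_exp (by positivity)
  have h3 : (1 + D.n + (1 + 2 * D.n) * y) ^ D.n ≤ (2 + 3 * D.n) ^ D.n * y ^ D.n := by
    rw [← mul_pow]
    refine pow_le_pow_left₀ (by positivity) ?_ _
    have : (0 : ℝ) ≤ D.n := Nat.cast_nonneg _
    nlinarith
  have h4 : ‖𝒷.bas.equivFun x‖ ≤ B * nrm (x : Matrix (Fin D.n) (Fin D.n) ℝ) := by
    rw [pi_norm_le_iff_of_nonneg (mul_nonneg hB0 (nrm_nonneg _))]
    exact fun i => hB x i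
  calc ‖𝒷.bas.equivFun x‖ ≤ B * nrm (x : Matrix (Fin D.n) (Fin D.n) ℝ) := h4
    _ ≤ B * (D.n * ((D.n + 1) * ((2 + 3 * D.n) ^ D.n * y ^ D.n))) := by
        refine mul_le_mul_of_nonneg_left (h2.trans ?_) hB0
        gcongr
    _ = A * y ^ D.n := by rw [hA]; ring
    _ ≤ Real.exp b * y ^ D.n := by
        refine mul_le_mul_of_nonneg_right ?_ (by positivity)
        rw [hb, Real.exp_log (by linarith)]
        linarith
    _ = Real.exp (b + D.n * (Real.log C₀ * len D C₀ s)) := by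
        rw [hy, ← Real.exp_nat_mul, ← Real.exp_add]
    _ ≤ _ := Real.exp_le_exp.2 (by nlinarith)

/-- field `dec` -/
theorem dec (h : Big D S C₀) (Rr : ℝ) : ∃ R' : ℝ, ∀ g : G1 D, (len D C₀ g : ℝ) ≤ Rr →
    ∃ x : 𝒞.eA, ∃ c ∈ 𝒞.C, g = 𝒞.exE x * c ∧ ‖𝒷.bas.equivFun x‖ ≤ R' ∧
      (len D C₀ c : ℝ) ≤ R' := by
  obtain ⟨A₀, hA₀0, hA₀⟩ := Big_bound h Rr
  obtain ⟨B₁, hB₁⟩ := 𝒞.exists_dec (hs_π1 R D) A₀
  obtain ⟨B, hB0, hB⟩ := 𝒷.exists_repr_le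
  obtain ⟨K, hK⟩ := h.len_le_of_sz B₁
  refine ⟨max (B * |B₁|) K, fun g hg => ?_⟩
  obtain ⟨x, c, hc, hgx, h1, h2⟩ := hB₁ g (hA₀ g hg).1 (hA₀ g hg).2
  refine ⟨x, c, hc, hgx, ?_, ?_⟩
  · refine le_trans ?_ (le_max_left _ _)
    rw [pi_norm_le_iff_of_nonneg (mul_nonneg hB0 (abs_nonneg _))]
    intro i
    exact (hB x i).trans (mul_le_mul_of_nonneg_left (h1.trans (le_abs_self _)) hB0)
  · refine le_trans ?_ (le_max_right _ _)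
    exact_mod_cast hK c h2

end AdBas

end len

end Crest.Agent.R182.ModelWt
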