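/-
R182, module MODEL (helper936): polynomial growth of `C`: counting.
-/
import Mathlib
import Crest.Agent.R182.ModelDec

set_option autoImplicit false
set_option linter.unusedSectionVars false

namespace Crest.Agent.R182.ModelWt

open Module LinMod Polyc Model

/-- choice of representatives -/
theorem exists_reps {G α : Type*} (B : Set G) (key : G → α) (K : Finset α)
    (hK : ∀ g ∈ B, key g ∈ K) : ∃ F : Finset G, F.card ≤ K.card ∧ (∀ f ∈ F, f ∈ B) ∧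
      ∀ g ∈ B, ∃ f ∈ F, key f = key g := by
  classical
  let K' : Finset α := K.filter fun κ => ∃ g ∈ B, key g = κ
  have h1 : ∀ κ : K', ∃ g ∈ B, key g = κ := fun κ => (Finset.mem_filter.1 κ.2).2
  choose rep hrep hrepk using h1
  refine ⟨Finset.univ.image rep, ?_, ?_, ?_⟩
  · refine Finset.card_image_le.trans ?_
    rw [Finset.card_univ, Fintype.card_coe]
    exact Finset.card_filter_le _ _
  · intro f hf
    obtain ⟨κ, -, rfl⟩ := Finset.mem_image.1 hf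
    exact hrep κ
  · intro g hg
    have h2 : key g ∈ K' := Finset.mem_filter.2 ⟨hK g hg, g, hg, rfl⟩
    exact ⟨rep ⟨_, h2⟩, Finset.mem_image.2 ⟨_, Finset.mem_univ _, rfl⟩, hrepk _⟩

theorem card_box (k M : ℕ) : (Fintype.piFinset fun _ : Fin k =>
    Finset.Icc (-(M : ℤ)) (M : ℤ)).card = (2 * M + 1) ^ k := by
  rw [Fintype.card_piFinset, Finset.prod_const, Finset.card_univ, Fintype.card_fin]
  congr 1
  rw [Int.card_Icc]
  omega

section len

variable {Γ : Type*} [Group Γ] {N : Subgroup Γ} [hN : N.Normal] (D : EmbData Γ N)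

/-- the coordinates of `ν ∈ N` are bounded by the size -/
theorem exists_coord_le : ∃ c : ℝ, 0 ≤ c ∧ ∀ (ν : Γ) (i : Fin D.r),
    |((D.coord i (D.ρ ν) : ℤ) : ℝ)| ≤ c * sz (D.ρu ν) := by
  have h1 : ∀ i, ∃ B : ℝ, 0 ≤ B ∧ ∀ X, |D.cR i X| ≤ B * nrm X := by
    intro i
    obtain ⟨B, hB, h⟩ := Model.exists_norm_le (Complex.ofRealCLM.toLinearMap ∘ₗ D.cR i)
    refine ⟨B, hB, fun X => ?_⟩
    have := h X
    simpa using this
  choose B hB0 hB using h1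
  refine ⟨∑ i, B i, Finset.sum_nonneg fun i _ => hB0 i, fun ν i => ?_⟩
  have h2 : ((D.coord i (D.ρ ν) : ℤ) : ℝ) = D.cR i (D.ρu ν : Matrix (Fin D.n) (Fin D.n) ℝ) :=
    (D.cR_toR i (D.ρ ν)).symm
  rw [h2]
  have h3 := one_le_sz (D.ρu ν)
  calc |D.cR i (D.ρu ν : Matrix (Fin D.n) (Fin D.n) ℝ)| ≤
        B i * nrm (D.ρu ν : Matrix (Fin D.n) (Fin D.n) ℝ) := hB i _
    _ ≤ (∑ i, B i) * sz (D.ρu ν) :=
        mul_le_mul (Finset.single_le_sum (fun i _ => hB0 i) (Finset.mem_univ i)) (nrm_le_sz _)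
          (nrm_nonneg _) (Finset.sum_nonneg fun i _ => hB0 i)

variable {D}

theorem eq_of_coord {ν ν' : Γ} (hν : ν ∈ N) (hν' : ν' ∈ N)
    (h : ∀ i, D.coord i (D.ρ ν) = D.coord i (D.ρ ν')) : ν = ν' := by
  obtain ⟨e, rfl⟩ := D.surj ν hν
  obtain ⟨e', rfl⟩ := D.surj ν' hν'
  have : e = e' := by
    funext i
    have := h i
    rwa [D.coord_spec, D.coord_spec] at this
  rw [this]

end len

section growth

variable {Γ : Type*} [Group Γ] {R : RootData Γ} {D : EmbData Γ R.N} {S : Set Γ} {C₀ : ℝ}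

/-- **counting**: a family of subsets `B n` of `G1` with linear heights and polynomial `N_ℝ`-part is
covered by polynomially many balls of bounded radius. -/
theorem count (h : Big D S C₀) : ∃ K : ℕ, ∀ (B : ℕ → Set (G1 D)) (A₁ A₂ : ℝ) (E : ℕ),
    (∀ n, ∀ g ∈ B n, ∀ i, |hgt R D g i| ≤ A₁ * (1 + n)) →
    (∀ n, ∀ g ∈ B n, ∀ g' ∈ B n, hgt R D g = hgt R D g' →
      sz ((g⁻¹ * g' : G1 D) : (Matrix (Fin D.n) (Fin D.n) ℝ)ˣ) ≤ A₂ * (1 + n) ^ E) →
    ∃ A : ℕ, ∀ n, ∃ F : Finset (G1 D), F.card ≤ A * (1 + n) ^ A ∧ (∀ f ∈ F, f ∈ B n) ∧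
      ∀ g ∈ B n, ∃ f ∈ F, len D C₀ (f⁻¹ * g) ≤ K := by
  classical
  obtain ⟨K, hK⟩ := h.len_le_of_sz (C₀ * C₀)
  obtain ⟨c, hc, hcoord⟩ := exists_coord_le D
  refine ⟨K, fun B A₁ A₂ E h1 h2 => ?_⟩
  have hC₀ := h.one_le
  set M₁ : ℕ := ⌈|A₁|⌉₊ with hM₁
  set M₂ : ℕ := ⌈c * (C₀ * |A₂|)⌉₊ with hM₂
  refine ⟨(2 * M₁ + 1) ^ R.k * (2 * M₂ + 1) ^ D.r + R.k + E * D.r, fun n => ?_⟩
  -- integral heights
  let v : G1 D → (Fin R.k → ℤ) := fun g => Multiplicative.toAdd (π1 R D g)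
  have hv : ∀ g i, hgt R D g i = (v g i : ℝ) := fun g i => rfl
  -- representatives of the heights
  have hrep : ∀ w : Fin R.k → ℤ, ∃ g : G1 D, (∃ g' ∈ B n, v g' = w) → g ∈ B n ∧ v g = w := by
    intro w
    by_cases hw : ∃ g' ∈ B n, v g' = w
    · obtain ⟨g, hg, hgw⟩ := hw
      exact ⟨g, fun _ => ⟨hg, hgw⟩⟩
    · exact ⟨1, fun h => absurd h hw⟩
  choose rep hrep using hrep
  -- the lattice element
  have hlat : ∀ g : G1 D, ∃ ν : Γ, g ∈ B n → ν ∈ R.N ∧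
      sz ((((rep (v g))⁻¹ * g : G1 D) : (Matrix (Fin D.n) (Fin D.n) ℝ)ˣ)⁻¹ * (D.ρu ν)⁻¹) ≤ C₀ := by
    intro g
    by_cases hg : g ∈ B n
    · have h3 := (hrep (v g) ⟨g, hg, rfl⟩).2
      have h4 : (((rep (v g))⁻¹ * g : G1 D) : (Matrix (Fin D.n) (Fin D.n) ℝ)ˣ)⁻¹ ∈ D.NR := by
        refine D.NR.inv_mem ?_
        have h5 : (rep (v g))⁻¹ * g ∈ NR1 D := by
          rw [← ker_π1 R D, map_mul, map_inv, inv_mul_eq_one]
          exact Multiplicative.toAdd.injective h3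
        exact h5
      obtain ⟨ν, hν, hsz⟩ := h.coc _ h4
      exact ⟨ν, fun _ => ⟨hν, hsz⟩⟩
    · exact ⟨1, fun h => absurd h hg⟩
  choose ν hν using hlat
  -- the key
  let key : G1 D → (Fin R.k → ℤ) × (Fin D.r → ℤ) := fun g =>
    (v g, fun i => D.coord i (D.ρ (ν g)))
  let KK : Finset ((Fin R.k → ℤ) × (Fin D.r → ℤ)) :=
    (Fintype.piFinset fun _ : Fin R.k => Finset.Icc (-((M₁ * (1 + n) : ℕ) : ℤ))
      ((M₁ * (1 + n) : ℕ) : ℤ)) ×ˢ
    (Fintype.piFinset fun _ : Fin D.r => Finset.Icc (-((M₂ * (1 + n) ^ E : ℕ) : ℤ))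
      ((M₂ * (1 + n) ^ E : ℕ) : ℤ))
  have hmemIcc : ∀ (x : ℤ) (M : ℕ), |(x : ℝ)| ≤ M → x ∈ Finset.Icc (-(M : ℤ)) (M : ℤ) := by
    intro x M hx
    rw [Finset.mem_Icc]
    have := abs_le.1 hx
    constructor
    · have h5 : -(M : ℝ) ≤ x := this.1
      exact_mod_cast h5
    · have h5 : (x : ℝ) ≤ M := this.2
      exact_mod_cast h5
  have hkey : ∀ g ∈ B n, key g ∈ KK := by
    intro g hg
    have hn0 : (0 : ℝ) ≤ n := Nat.cast_nonneg n
    refine Finset.mem_product.2 ⟨?_, ?_⟩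
    · rw [Fintype.mem_piFinset]
      intro i
      refine hmemIcc _ _ ?_
      have h3 := h1 n g hg i
      rw [hv] at h3
      refine h3.trans ?_
      push_cast
      refine mul_le_mul_of_nonneg_right ?_ (by positivity)
      exact (le_abs_self _).trans (Nat.le_ceil _)
    · rw [Fintype.mem_piFinset]
      intro i
      refine hmemIcc _ _ ?_
      obtain ⟨hg1, hg2⟩ := hrep (v g) ⟨g, hg, rfl⟩
      obtain ⟨-, h3⟩ := hν g hg
      have h4 := h2 n _ hg1 _ hg (by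
        funext i
        rw [hv, hv, hg2])
      have h5 : sz (D.ρu (ν g)) ≤ C₀ * (|A₂| * (1 + n) ^ E) := by
        have e : D.ρu (ν g) =
            ((((rep (v g))⁻¹ * g : G1 D) : (Matrix (Fin D.n) (Fin D.n) ℝ)ˣ)⁻¹ *
              (D.ρu (ν g))⁻¹)⁻¹ *
            (((rep (v g))⁻¹ * g : G1 D) : (Matrix (Fin D.n) (Fin D.n) ℝ)ˣ)⁻¹ := by
          group
        rw [e]
        refine (sz_mul _ _).trans ?_
        rw [sz_inv, sz_inv]
        refine mul_le_mul h3 (h4.trans ?_) (by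
          have := one_le_sz (((rep (v g))⁻¹ * g : G1 D) : (Matrix (Fin D.n) (Fin D.n) ℝ)ˣ)
          linarith) (by linarith)
        exact mul_le_mul_of_nonneg_right (le_abs_self _) (by positivity)
      refine (hcoord (ν g) i).trans ((mul_le_mul_of_nonneg_left h5 hc).trans ?_)
      push_cast
      calc c * (C₀ * (|A₂| * (1 + n) ^ E)) = (c * (C₀ * |A₂|)) * (1 + n) ^ E := by ring
        _ ≤ M₂ * (1 + (n : ℝ)) ^ E :=
            mul_le_mul_of_nonneg_right (Nat.le_ceil _) (by positivity)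
  obtain ⟨F, hFc, hFB, hF⟩ := exists_reps (B n) key KK hkey
  refine ⟨F, hFc.trans ?_, hFB, fun g hg => ?_⟩
  · rw [Finset.card_product, card_box, card_box]
    have hn1 : 1 ≤ 1 + n := by omega
    have e1 : 2 * (M₁ * (1 + n)) + 1 ≤ (2 * M₁ + 1) * (1 + n) := by nlinarith
    have e2 : 2 * (M₂ * (1 + n) ^ E) + 1 ≤ (2 * M₂ + 1) * (1 + n) ^ E := by
      have : 1 ≤ (1 + n) ^ E := Nat.one_le_pow _ _ hn1
      nlinarith
    calc (2 * (M₁ * (1 + n)) + 1) ^ R.k * (2 * (M₂ * (1 + n) ^ E) + 1) ^ D.r ≤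
        ((2 * M₁ + 1) * (1 + n)) ^ R.k * ((2 * M₂ + 1) * (1 + n) ^ E) ^ D.r :=
          Nat.mul_le_mul (Nat.pow_le_pow_left e1 _) (Nat.pow_le_pow_left e2 _)
      _ = ((2 * M₁ + 1) ^ R.k * (2 * M₂ + 1) ^ D.r) * (1 + n) ^ (R.k + E * D.r) := by
          rw [mul_pow, mul_pow, ← pow_mul, pow_add]; ring
      _ ≤ _ := by
          refine Nat.mul_le_mul (by omega) (Nat.pow_le_pow_right hn1 (by omega))
  · obtain ⟨f, hf, hfg⟩ := hF g hg
    refine ⟨f, hf, hK _ ?_⟩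
    have hfB := hFB f hf
    have h3 : v f = v g := congrArg Prod.fst hfg
    have h4 : ν f = ν g := by
      refine eq_of_coord (D := D) (hν f hfB).1 (hν g hg).1 fun i => ?_
      exact congrFun (congrArg Prod.snd hfg) i
    obtain ⟨-, h5⟩ := hν f hfB
    obtain ⟨-, h6⟩ := hν g hg
    rw [h3, h4] at h5
    have e : ((f⁻¹ * g : G1 D) : (Matrix (Fin D.n) (Fin D.n) ℝ)ˣ) =
        ((((rep (v g))⁻¹ * f : G1 D) : (Matrix (Fin D.n) (Fin D.n) ℝ)ˣ)⁻¹ * (D.ρu (ν g))⁻¹) *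
        ((((rep (v g))⁻¹ * g : G1 D) : (Matrix (Fin D.n) (Fin D.n) ℝ)ˣ)⁻¹ *
          (D.ρu (ν g))⁻¹)⁻¹ := by
      simp only [Subgroup.coe_mul, Subgroup.coe_inv]
      group
    rw [e]
    refine (sz_mul _ _).trans ?_
    rw [sz_inv]
    have h7 := one_le_sz ((((rep (v g))⁻¹ * g : G1 D) : (Matrix (Fin D.n) (Fin D.n) ℝ)ˣ)⁻¹ *
          (D.ρu (ν g))⁻¹)
    exact mul_le_mul h5 h6 (by linarith) (by linarith)

/-- the hypothesis on products of height zero -/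
def HGrowth {D : EmbData Γ R.N} (𝒞 : Cartan D (π1 R D)) (C₀ : ℝ) : Prop :=
  ∀ Rr : ℝ, ∃ (A : ℝ) (E : ℕ), 0 ≤ A ∧ ∀ l : List (G1 D),
    (∀ s ∈ l, s ∈ 𝒞.C ∧ (len D C₀ s : ℝ) ≤ Rr) → hgt R D l.prod = 0 →
    sz (l.prod : (Matrix (Fin D.n) (Fin D.n) ℝ)ˣ) ≤ A * (1 + l.length) ^ E

/-- **polynomial growth of `C`** (field `C_growth`; the constant `K` does not depend on `Rr`) -/
theorem C_growth (h : Big D S C₀) (𝒞 : Cartan D (π1 R D)) (hgr : HGrowth 𝒞 C₀) :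
    ∃ K : ℕ, ∀ Rr : ℝ, ∃ A : ℕ, ∀ n : ℕ, ∃ F : Finset (G1 D), F.card ≤ A * (1 + n) ^ A ∧
      ∀ l : List (G1 D), l.length ≤ n → (∀ s ∈ l, s ∈ 𝒞.C ∧ (len D C₀ s : ℝ) ≤ Rr) →
        ∃ f ∈ F, f ∈ 𝒞.C ∧ (len D C₀ (f⁻¹ * l.prod) : ℝ) ≤ K := by
  obtain ⟨K, hK⟩ := count (D := D) (S := S) (C₀ := C₀) (R := R) h
  refine ⟨K, fun Rr => ?_⟩
  obtain ⟨A₂, E, hA₂, hg⟩ := hgr Rr
  obtain ⟨a, ha, hh⟩ := h.hgt_le
  let B : ℕ → Set (G1 D) := fun n => {g | ∃ l : List (G1 D), l.length ≤ n ∧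
    (∀ s ∈ l, s ∈ 𝒞.C ∧ (len D C₀ s : ℝ) ≤ Rr) ∧ l.prod = g}
  have hlen : ∀ l : List (G1 D), (∀ s ∈ l, s ∈ 𝒞.C ∧ (len D C₀ s : ℝ) ≤ Rr) →
      (len D C₀ l.prod : ℝ) ≤ l.length * |Rr| := by
    intro l
    induction l with
    | nil => intro _; rw [List.prod_nil, h.len_one]; simp
    | cons x l ih =>
      intro hl
      rw [List.prod_cons, List.length_cons]
      have h1 : (len D C₀ (x * l.prod) : ℝ) ≤ len D C₀ x + len D C₀ l.prod := by
        exact_mod_cast h.len_mul x l.prod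
      have h2 := ih fun s hs => hl s (by simp [hs])
      have h3 := ((hl x (by simp)).2).trans (le_abs_self Rr)
      push_cast
      linarith
  obtain ⟨A, hA⟩ := hK B (a * |Rr|) (A₂ * 2 ^ E) E (by
    rintro n g ⟨l, hln, hl, rfl⟩ i
    refine (hh _ i).trans ?_
    have h1 := hlen l hl
    have h2 : (l.length : ℝ) ≤ n := by exact_mod_cast hln
    have h3 := abs_nonneg Rr
    calc a * len D C₀ l.prod ≤ a * (l.length * |Rr|) := mul_le_mul_of_nonneg_left h1 ha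
      _ ≤ a * ((1 + n) * |Rr|) := by
          refine mul_le_mul_of_nonneg_left ?_ ha
          exact mul_le_mul_of_nonneg_right (by linarith) h3
      _ = _ := by ring) (by
    rintro n _ ⟨l, hln, hl, rfl⟩ _ ⟨l', hln', hl', rfl⟩ hgg'
    have h1 := hg ((l.map (fun x => x⁻¹)).reverse ++ l') (by
      intro s hs
      rw [List.mem_append, List.mem_reverse, List.mem_map] at hs
      rcases hs with ⟨x, hx, rfl⟩ | hs
      · exact ⟨𝒞.C.inv_mem (hl x hx).1, by rw [h.len_inv]; exact (hl x hx).2⟩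
      · exact hl' s hs) (by
      rw [List.prod_append, ← List.prod_inv_reverse, hgt_mul, hgt_inv, hgg', neg_add_cancel])
    rw [List.prod_append, ← List.prod_inv_reverse] at h1
    refine h1.trans ?_
    rw [List.length_append, List.length_reverse, List.length_map, mul_assoc, ← mul_pow]
    refine mul_le_mul_of_nonneg_left (pow_le_pow_left₀ (by positivity) ?_ _) hA₂
    have e1 : (l.length : ℝ) ≤ n := by exact_mod_cast hln
    have e2 : (l'.length : ℝ) ≤ n := by exact_mod_cast hln'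
    push_cast
    linarith)
  refine ⟨A, fun n => ?_⟩
  obtain ⟨F, hF1, hF2, hF3⟩ := hA n
  refine ⟨F, hF1, fun l hln hl => ?_⟩
  obtain ⟨f, hf, hfl⟩ := hF3 l.prod ⟨l, hln, hl, rfl⟩
  obtain ⟨l', -, hl', rfl⟩ := hF2 f hf
  exact ⟨_, hf, 𝒞.C.list_prod_mem fun s hs => (hl' s hs).1, by exact_mod_cast hfl⟩

end growth

end Crest.Agent.R182.ModelWt
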