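/-
R182, module MODEL (helper936): `C` is generated by its elements of bounded length, with bounds on
the number of letters; decomposition `y = exp Y · t v` of the elements of `C`.
-/
import Mathlib
import Crest.Agent.R182.ModelInst2
import Crest.Agent.R182.ModelDec
import Crest.Agent.R182.ModelCartan2

set_option autoImplicit false
set_option linter.unusedSectionVars false

namespace Crest.Agent.R182.ModelSub

open Crest.Agent.R182.FinPath Crest.Agent.R182.Polyc Crest.Agent.R182.Model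
  Crest.Agent.R182.ModelWt Crest.Agent.R182.ModelCt

/-- replace every letter of a list by a bounded number of letters -/
theorem exists_flatten {G : Type*} [Group G] {P Q : G → Prop} {q : ℕ}
    (h : ∀ s, P s → ∃ l : List G, s = l.prod ∧ l.length ≤ q ∧ ∀ x ∈ l, Q x) (l : List G)
    (hl : ∀ s ∈ l, P s) : ∃ l' : List G, l.prod = l'.prod ∧ l'.length ≤ q * l.length ∧
      ∀ x ∈ l', Q x := by
  induction l with
  | nil => exact ⟨[], rfl, le_refl _, by simp⟩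
  | cons s l ih =>
    obtain ⟨l₁, h1, h2, h3⟩ := ih fun x hx => hl x (List.mem_cons_of_mem _ hx)
    obtain ⟨l₂, h4, h5, h6⟩ := h s (hl s List.mem_cons_self)
    refine ⟨l₂ ++ l₁, ?_, ?_, ?_⟩
    · rw [List.prod_cons, List.prod_append, h1, h4]
    · rw [List.length_append, List.length_cons, Nat.mul_add, Nat.mul_one]
      omega
    · intro x hx
      rcases List.mem_append.1 hx with hx | hx
      · exact h6 x hx
      · exact h3 x hx

section gen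

attribute [local instance] Matrix.linftyOpNormedRing Matrix.linftyOpNormedAlgebra

variable {Γ : Type*} [Group Γ] {R : RootData Γ} {D : EmbData Γ R.N} {S : Set Γ} {C₀ : ℝ}

theorem len_list_le (h : Big D S C₀) (l : List (G1 D)) {a : ℝ}
    (hl : ∀ s ∈ l, (len D C₀ s : ℝ) ≤ a) : (len D C₀ l.prod : ℝ) ≤ l.length * a := by
  induction l with
  | nil =>
    rw [List.prod_nil, h.len_one, List.length_nil, Nat.cast_zero, zero_mul]
  | cons s l ih =>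
    rw [List.prod_cons, List.length_cons]
    have h1 := ih fun x hx => hl x (List.mem_cons_of_mem _ hx)
    have h2 := hl s List.mem_cons_self
    have h3 : (len D C₀ (s * l.prod) : ℝ) ≤ len D C₀ s + len D C₀ l.prod := by
      exact_mod_cast h.len_mul s l.prod
    push_cast
    linarith

/-- the exponential of an element of `𝔫_0` is in `C` -/
theorem exG_mem_C (𝒞 : Cartan D (π1 R D)) {X : Matrix (Fin D.n) (Fin D.n) ℝ}
    (hX : X ∈ 𝒞.nw 0) : exG D X (𝒞.nw_le 0 hX) ∈ 𝒞.C := by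
  refine ((𝒞.mem_C_NR_iff _).2 ?_).1
  have h1 := hX
  rw [𝒞.nw_zero] at h1
  exact eU_mem_E0 (𝒞.nw_le 0 hX) h1.2

/-- elements of `C` of height zero are exponentials of elements of `𝔫_0` -/
theorem exists_exG_of_mem (𝒞 : Cartan D (π1 R D)) {u : G1 D} (hu : u ∈ 𝒞.C)
    (h0 : hgt R D u = 0) : ∃ (X : Matrix (Fin D.n) (Fin D.n) ℝ) (hX : X ∈ 𝒞.nw 0),
      u = exG D X (𝒞.nw_le 0 hX) ∧
      X = lg ((u : (Matrix (Fin D.n) (Fin D.n) ℝ)ˣ) : Matrix (Fin D.n) (Fin D.n) ℝ) := by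
  have hN := (hgt_eq_zero_iff R D u).1 h0
  have h1 := (𝒞.mem_C_NR_iff u).1 ⟨hu, hN⟩
  have h2 : lg ((u : (Matrix (Fin D.n) (Fin D.n) ℝ)ˣ) : Matrix (Fin D.n) (Fin D.n) ℝ) ∈
      𝒞.nw 0 := by
    rw [𝒞.nw_zero]; exact (mem_E0.1 h1).2
  exact ⟨_, h2, (exG_lg hN).symm, rfl⟩

/-- decomposition of bounded elements of `C` -/
theorem exists_dec0 (h : Big D S C₀) (𝒞 : Cartan D (π1 R D))
    {t : (Fin R.k → ℤ) → G1 D} {a : ℝ} (ht : ∀ v i, hgt R D (t v) i = v i)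
    (htl : ∀ v, ∃ l : List (G1 D), t v = l.prod ∧ l.length = n1 v ∧
        ∀ s ∈ l, s ∈ Cf D 𝒞.t ∧ (len D C₀ s : ℝ) ≤ a) (Rr : ℝ) :
    ∃ (B : ℝ) (n₁ : ℕ), 0 ≤ B ∧ ∀ y ∈ 𝒞.C, (len D C₀ y : ℝ) ≤ Rr →
      ∃ (X : Matrix (Fin D.n) (Fin D.n) ℝ) (hX : X ∈ 𝒞.nw 0) (v : Fin R.k → ℤ),
        y = exG D X (𝒞.nw_le 0 hX) * t v ∧ nrm X ≤ B ∧ n1 v ≤ n₁ := by
  obtain ⟨a₂, ha₂0, ha₂⟩ := h.hgt_le (R := R)
  set n₁ : ℕ := R.k * ⌈a₂ * |Rr|⌉₊ with hn₁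
  set R' : ℝ := Rr + n₁ * |a| with hR'
  obtain ⟨A, hA0, hA⟩ := Big_bound h R'
  refine ⟨D.n * ((D.n + 1) * (1 + D.n + A) ^ D.n), n₁, by positivity, fun y hy hyl => ?_⟩
  have htC : ∀ v, t v ∈ 𝒞.C := by
    intro v
    obtain ⟨l, h1, -, h2⟩ := htl v
    rw [h1]
    exact 𝒞.C.list_prod_mem fun s hs => Cf_le 𝒞 (h2 s hs).1
  set v : Fin R.k → ℤ := Multiplicative.toAdd (π1 R D y) with hv
  have hvi : ∀ i, hgt R D y i = v i := fun i => rfl
  have hn : n1 v ≤ n₁ := by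
    have h1 : ∀ i ∈ (Finset.univ : Finset (Fin R.k)), (v i).natAbs ≤ ⌈a₂ * |Rr|⌉₊ := by
      intro i _
      have h2 : ((v i).natAbs : ℝ) ≤ a₂ * |Rr| := by
        rw [Nat.cast_natAbs, Int.cast_abs, ← hvi]
        exact (ha₂ y i).trans (mul_le_mul_of_nonneg_left (hyl.trans (le_abs_self _)) ha₂0)
      exact_mod_cast h2.trans (Nat.le_ceil _)
    have h2 := Finset.sum_le_card_nsmul _ _ _ h1
    rw [Finset.card_univ, Fintype.card_fin, smul_eq_mul] at h2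
    exact h2
  have htlen : (len D C₀ (t v) : ℝ) ≤ n₁ * |a| := by
    obtain ⟨l, h1, h2, h3⟩ := htl v
    rw [h1]
    refine (len_list_le h l (a := |a|) fun s hs => (h3 s hs).2.trans (le_abs_self _)).trans ?_
    refine mul_le_mul_of_nonneg_right ?_ (abs_nonneg _)
    rw [h2]; exact_mod_cast hn
  have hu : y * (t v)⁻¹ ∈ 𝒞.C := 𝒞.C.mul_mem hy (𝒞.C.inv_mem (htC v))
  have h0 : hgt R D (y * (t v)⁻¹) = 0 := by
    rw [Model.hgt_mul, Model.hgt_inv]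
    funext i
    rw [Pi.add_apply, Pi.neg_apply, ht, hvi, Pi.zero_apply, add_neg_cancel]
  obtain ⟨X, hX, h1, h2⟩ := exists_exG_of_mem 𝒞 hu h0
  refine ⟨X, hX, v, ?_, ?_, hn⟩
  · rw [← h1, inv_mul_cancel_right]
  · have h3 : (len D C₀ (y * (t v)⁻¹) : ℝ) ≤ R' := by
      have h4 : (len D C₀ (y * (t v)⁻¹) : ℝ) ≤ len D C₀ y + len D C₀ (t v)⁻¹ := by
        exact_mod_cast h.len_mul y (t v)⁻¹
      rw [h.len_inv] at h4
      linarith
    rw [h2]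
    exact nrm_lg_le_sz (hA _ h3).1

/-- splitting of exponentials into small ones -/
theorem exists_split (h : Big D S C₀) (𝒞 : Cartan D (π1 R D)) : ∃ K : ℕ, ∀ B : ℝ, ∃ q : ℕ,
    ∀ (X : Matrix (Fin D.n) (Fin D.n) ℝ) (hX : X ∈ 𝒞.nw 0), nrm X ≤ B →
      ∃ l : List (G1 D), exG D X (𝒞.nw_le 0 hX) = l.prod ∧ l.length ≤ q ∧
        ∀ s ∈ l, s ∈ 𝒞.C ∧ (len D C₀ s : ℝ) ≤ K := by
  obtain ⟨K, hK⟩ := h.len_exG_of_le 1
  refine ⟨K, fun B => ⟨⌈B⌉₊ + 1, fun X hX hB => ?_⟩⟩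
  set m : ℕ := ⌈B⌉₊ + 1 with hm
  have hm0 : (m : ℝ) ≠ 0 := by positivity
  have hY : ((m : ℝ)⁻¹) • X ∈ 𝒞.nw 0 := (𝒞.nw 0).smul_mem _ hX
  have h1 : exG D X (𝒞.nw_le 0 hX) = exG D _ (𝒞.nw_le 0 hY) ^ m := by
    rw [← exG_pow]
    apply exG_congr
    rw [smul_smul, mul_inv_cancel₀ hm0, one_smul]
  refine ⟨List.replicate m (exG D _ (𝒞.nw_le 0 hY)), ?_, ?_, ?_⟩
  · rw [List.prod_replicate, h1]
  · rw [List.length_replicate]
  · intro s hs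
    rw [List.eq_of_mem_replicate hs]
    refine ⟨exG_mem_C 𝒞 hY, ?_⟩
    have h2 : nrm (((m : ℝ)⁻¹) • X) ≤ 1 := by
      rw [nrm_smul, abs_of_nonneg (by positivity), inv_mul_le_iff₀ (by positivity), mul_one]
      refine hB.trans ((Nat.le_ceil B).trans ?_)
      rw [hm]; push_cast; linarith
    exact_mod_cast hK _ _ h2

/-- **`C` is generated by a ball**, with bounds -/
theorem exists_gen_C (h : Big D S C₀) (𝒞 : Cartan D (π1 R D))
    {t : (Fin R.k → ℤ) → G1 D} {a : ℝ} (ht : ∀ v i, hgt R D (t v) i = v i)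
    (htl : ∀ v, ∃ l : List (G1 D), t v = l.prod ∧ l.length = n1 v ∧
        ∀ s ∈ l, s ∈ Cf D 𝒞.t ∧ (len D C₀ s : ℝ) ≤ a) :
    ∃ R₀ : ℝ, ∀ Rr : ℝ, ∃ q : ℕ, ∀ y : G1 D, (y ∈ 𝒞.C ∧ (len D C₀ y : ℝ) ≤ Rr) →
      ∃ l : List (G1 D), y = l.prod ∧ l.length ≤ q ∧
        ∀ s ∈ l, s ∈ 𝒞.C ∧ (len D C₀ s : ℝ) ≤ R₀ := by
  obtain ⟨K, hK⟩ := exists_split h 𝒞
  refine ⟨max K a, fun Rr => ?_⟩
  obtain ⟨B, n₁, -, h1⟩ := exists_dec0 h 𝒞 ht htl Rr
  obtain ⟨q, hq⟩ := hK B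
  refine ⟨q + n₁, fun y hy => ?_⟩
  obtain ⟨X, hX, v, h2, h3, h4⟩ := h1 y hy.1 hy.2
  obtain ⟨l, h5, h6, h7⟩ := hq X hX h3
  obtain ⟨l', h8, h9, h10⟩ := htl v
  refine ⟨l ++ l', ?_, ?_, ?_⟩
  · rw [List.prod_append, h2, h5, h8]
  · rw [List.length_append, h9]; omega
  · intro s hs
    rcases List.mem_append.1 hs with hs | hs
    · exact ⟨(h7 s hs).1, (h7 s hs).2.trans (le_max_left _ _)⟩
    · exact ⟨Cf_le 𝒞 (h10 s hs).1, (h10 s hs).2.trans (le_max_right _ _)⟩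

end gen

end Crest.Agent.R182.ModelSub
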