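/-
R182, module MODEL (helper936): the word transformation for `sub_conj`.
-/
import Mathlib
import Crest.Agent.R182.ModelSub1
import Crest.Agent.R182.SlowUL

set_option autoImplicit false
set_option linter.unusedSectionVars false

namespace Crest.Agent.R182.ModelSub

open Crest.Agent.R182.FinPath Crest.Agent.R182.Polyc Crest.Agent.R182.Model
  Crest.Agent.R182.ModelWt Crest.Agent.R182.ModelCt

section word

attribute [local instance] Matrix.linftyOpNormedRing Matrix.linftyOpNormedAlgebra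

variable {Γ : Type*} [Group Γ] {R : RootData Γ} {D : EmbData Γ R.N}

/-- conjugates of exponentials by arbitrary matrices -/
theorem coe_exG_cj (g : (Matrix (Fin D.n) (Fin D.n) ℝ)ˣ) {Y : Matrix (Fin D.n) (Fin D.n) ℝ}
    (hY : Y ∈ lie D) (h : cj g Y ∈ lie D) :
    ((exG D (cj g Y) h : G1 D) : (Matrix (Fin D.n) (Fin D.n) ℝ)ˣ) =
      g * ((exG D Y hY : G1 D) : (Matrix (Fin D.n) (Fin D.n) ℝ)ˣ) * g⁻¹ := by
  apply Units.ext
  rw [Units.val_mul, Units.val_mul]
  change ex (cj g Y) = _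
  rw [← cj_ex, cj_apply]
  rfl

theorem exG_neg {Y : Matrix (Fin D.n) (Fin D.n) ℝ} (hY : Y ∈ lie D) :
    exG D (-Y) ((lie D).neg_mem hY) = (exG D Y hY)⁻¹ := Subtype.ext (eU_neg hY)

theorem step_pos {G : Type*} [Group G] {s u b : G} (hb : b = s * u) (hsu : Commute s u)
    (i m : ℤ) (P : G) :
    b * (s ^ (i - 1) * P * s ^ (-(i - 1)) * s ^ m) = s ^ i * (u * P) * s ^ (-i) * s ^ (1 + m) := by
  have h1 : b * s ^ (i - 1) = s ^ i * u := by
    rw [hb, mul_assoc, ((hsu.zpow_left (i - 1)).eq).symm, ← mul_assoc, ← zpow_one_add]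
    congr 2; ring
  have h2 : s ^ (-(i - 1)) * s ^ m = s ^ (-i) * s ^ (1 + m) := by
    rw [← zpow_add, ← zpow_add]; congr 1; ring
  calc b * (s ^ (i - 1) * P * s ^ (-(i - 1)) * s ^ m) =
      (b * s ^ (i - 1)) * P * (s ^ (-(i - 1)) * s ^ m) := by simp only [mul_assoc]
    _ = s ^ i * u * P * (s ^ (-i) * s ^ (1 + m)) := by rw [h1, h2]
    _ = _ := by simp only [mul_assoc]

theorem step_neg {G : Type*} [Group G] {s u b : G} (hb : b = s * u) (hsu : Commute s u)
    (i m : ℤ) (P : G) :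
    b⁻¹ * (s ^ (i + 1) * P * s ^ (-(i + 1)) * s ^ m) =
      s ^ i * (u⁻¹ * P) * s ^ (-i) * s ^ (-1 + m) := by
  have h1 : b⁻¹ * s ^ (i + 1) = s ^ i * u⁻¹ := by
    have h3 : s ^ (i + 1) = b * (s ^ i * u⁻¹) := by
      have h4 : u * s ^ i = s ^ i * u := ((hsu.zpow_left i).eq).symm
      rw [hb, mul_assoc, ← mul_assoc u, h4, mul_inv_cancel_right, ← zpow_one_add, add_comm]
    rw [h3, inv_mul_cancel_left]
  have h2 : s ^ (-(i + 1)) * s ^ m = s ^ (-i) * s ^ (-1 + m) := by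
    rw [← zpow_add, ← zpow_add]; congr 1; ring
  calc b⁻¹ * (s ^ (i + 1) * P * s ^ (-(i + 1)) * s ^ m) =
      (b⁻¹ * s ^ (i + 1)) * P * (s ^ (-(i + 1)) * s ^ m) := by simp only [mul_assoc]
    _ = s ^ i * u⁻¹ * P * (s ^ (-i) * s ^ (-1 + m)) := by rw [h1, h2]
    _ = _ := by simp only [mul_assoc]

/-- the word transformation -/
theorem exists_word {b : G1 D} {s u : (Matrix (Fin D.n) (Fin D.n) ℝ)ˣ}
    (hb : (b : (Matrix (Fin D.n) (Fin D.n) ℝ)ˣ) = s * u) (hsu : Commute s u)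
    {Y : Matrix (Fin D.n) (Fin D.n) ℝ} (hY : Y ∈ lie D) (hYs : ∀ i : ℤ, cj (s ^ i) Y ∈ lie D)
    {gd : G1 D → Prop} (hb1 : gd b) (hb2 : gd b⁻¹)
    (hY1 : ∀ i : ℤ, gd (exG D _ (hYs i))) (hY2 : ∀ i : ℤ, gd (exG D _ (hYs i))⁻¹)
    {U : Subgroup (Matrix (Fin D.n) (Fin D.n) ℝ)ˣ} {x y : U × Multiplicative ℤ}
    (hx1 : (x.1 : (Matrix (Fin D.n) (Fin D.n) ℝ)ˣ) = (exG D Y hY : G1 D)) (hx2 : x.2 = 1)
    (hy1 : (y.1 : (Matrix (Fin D.n) (Fin D.n) ℝ)ˣ) = u) (hy2 : y.2 = Multiplicative.ofAdd 1)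
    (l : List (U × Multiplicative ℤ)) (hl : ∀ z ∈ l, z = x ∨ z = x⁻¹ ∨ z = y ∨ z = y⁻¹) :
    ∀ i : ℤ, ∃ l' : List (G1 D), l'.length = l.length ∧ (∀ g ∈ l', gd g) ∧
      ((l'.prod : G1 D) : (Matrix (Fin D.n) (Fin D.n) ℝ)ˣ) =
        s ^ i * (l.prod.1 : (Matrix (Fin D.n) (Fin D.n) ℝ)ˣ) * s ^ (-i) *
          s ^ (Multiplicative.toAdd l.prod.2) := by
  induction l with
  | nil =>
    intro i
    refine ⟨[], rfl, by simp, ?_⟩
    simp
  | cons z l ih =>
    intro i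
    have ih' := ih fun w hw => hl w (List.mem_cons_of_mem _ hw)
    have key : ∀ (w : U × Multiplicative ℤ) (i : ℤ), ((w * l.prod).1 :
        (Matrix (Fin D.n) (Fin D.n) ℝ)ˣ) = (w.1 : (Matrix (Fin D.n) (Fin D.n) ℝ)ˣ) *
        (l.prod.1 : (Matrix (Fin D.n) (Fin D.n) ℝ)ˣ) := fun w i => rfl
    have key2 : ∀ w : U × Multiplicative ℤ, Multiplicative.toAdd (w * l.prod).2 =
        Multiplicative.toAdd w.2 + Multiplicative.toAdd l.prod.2 := fun w => rfl
    rw [List.prod_cons, key z i, key2, List.length_cons]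
    rcases hl z List.mem_cons_self with rfl | rfl | rfl | rfl
    · obtain ⟨l', h1, h2, h3⟩ := ih' i
      refine ⟨exG D _ (hYs i) :: l', by rw [List.length_cons, h1], ?_, ?_⟩
      · intro g hg
        rcases List.mem_cons.1 hg with rfl | hg
        · exact hY1 i
        · exact h2 g hg
      · rw [List.prod_cons, Subgroup.coe_mul, h3, coe_exG_cj _ hY, hx1, hx2, toAdd_one,
          zero_add]
        simp only [zpow_neg, mul_assoc, inv_mul_cancel_left]
    · obtain ⟨l', h1, h2, h3⟩ := ih' i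
      refine ⟨(exG D _ (hYs i))⁻¹ :: l', by rw [List.length_cons, h1], ?_, ?_⟩
      · intro g hg
        rcases List.mem_cons.1 hg with rfl | hg
        · exact hY2 i
        · exact h2 g hg
      · have e1 : ((x⁻¹).1 : (Matrix (Fin D.n) (Fin D.n) ℝ)ˣ) =
            ((exG D Y hY : G1 D) : (Matrix (Fin D.n) (Fin D.n) ℝ)ˣ)⁻¹ := by
          rw [← hx1]; rfl
        have e2 : Multiplicative.toAdd (x⁻¹).2 = 0 := by
          change Multiplicative.toAdd (x.2)⁻¹ = 0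
          rw [hx2]; rfl
        rw [List.prod_cons, Subgroup.coe_mul, h3, Subgroup.coe_inv, coe_exG_cj _ hY, e1, e2,
          zero_add]
        simp only [zpow_neg, mul_assoc, mul_inv_rev, inv_inv, inv_mul_cancel_left]
    · obtain ⟨l', h1, h2, h3⟩ := ih' (i - 1)
      refine ⟨b :: l', by rw [List.length_cons, h1], ?_, ?_⟩
      · intro g hg
        rcases List.mem_cons.1 hg with rfl | hg
        · exact hb1
        · exact h2 g hg
      · rw [List.prod_cons, Subgroup.coe_mul, h3, step_pos hb hsu, hy1, hy2, toAdd_ofAdd]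
    · obtain ⟨l', h1, h2, h3⟩ := ih' (i + 1)
      refine ⟨b⁻¹ :: l', by rw [List.length_cons, h1], ?_, ?_⟩
      · intro g hg
        rcases List.mem_cons.1 hg with rfl | hg
        · exact hb2
        · exact h2 g hg
      · have e1 : ((y⁻¹).1 : (Matrix (Fin D.n) (Fin D.n) ℝ)ˣ) = u⁻¹ := by
          rw [← hy1]; rfl
        have e2 : Multiplicative.toAdd (y⁻¹).2 = -1 := by
          change Multiplicative.toAdd (y.2)⁻¹ = -1
          rw [hy2]; rfl
        rw [List.prod_cons, Subgroup.coe_mul, h3, Subgroup.coe_inv, step_neg hb hsu, e1, e2]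

end word

end Crest.Agent.R182.ModelSub
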