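/-
R182, module MODEL (helper936): `sub_conj` from the Jordan decomposition.
-/
import Mathlib
import Crest.Agent.R182.ModelSub2

set_option autoImplicit false
set_option linter.unusedSectionVars false

namespace Crest.Agent.R182.ModelSub

open Crest.Agent.R182.FinPath Crest.Agent.R182.Polyc Crest.Agent.R182.Model
  Crest.Agent.R182.ModelWt Crest.Agent.R182.ModelCt

section main

attribute [local instance] Matrix.linftyOpNormedRing Matrix.linftyOpNormedAlgebra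

variable {Γ : Type*} [Group Γ] {R : RootData Γ} {D : EmbData Γ R.N} {S : Set Γ} {C₀ : ℝ}

/-- the input from linear algebra: `b = s u` with `s` power-bounded on `𝔫_0` and `u`, `exp 𝔫_0` in
a nilpotent group. -/
def JN (𝒞 : Cartan D (π1 R D)) (b : G1 D) : Prop :=
  ∃ s u : (Matrix (Fin D.n) (Fin D.n) ℝ)ˣ,
    (b : (Matrix (Fin D.n) (Fin D.n) ℝ)ˣ) = s * u ∧ Commute s u ∧
    (∀ X ∈ 𝒞.nw 0, cj s X ∈ 𝒞.nw 0 ∧ cj s⁻¹ X ∈ 𝒞.nw 0) ∧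
    (∃ A : ℝ, ∀ X ∈ 𝒞.nw 0, ∀ j : ℤ, nrm (cj (s ^ j) X) ≤ A * nrm X) ∧
    ∃ U : Subgroup (Matrix (Fin D.n) (Fin D.n) ℝ)ˣ, u ∈ U ∧
      (∀ X (hX : X ∈ 𝒞.nw 0),
        ((exG D X (𝒞.nw_le 0 hX) : G1 D) : (Matrix (Fin D.n) (Fin D.n) ℝ)ˣ) ∈ U) ∧
      Group.IsNilpotent U

theorem cj_zpow_mem {n : ℕ} {s : (Matrix (Fin n) (Fin n) ℝ)ˣ}
    {W : Submodule ℝ (Matrix (Fin n) (Fin n) ℝ)}
    (h : ∀ X ∈ W, cj s X ∈ W ∧ cj s⁻¹ X ∈ W) (j : ℤ) {X : Matrix (Fin n) (Fin n) ℝ}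
    (hX : X ∈ W) : cj (s ^ j) X ∈ W := by
  induction j using Int.induction_on with
  | zero => rw [zpow_zero, cj_one]; exact hX
  | succ i ih =>
    rw [add_comm, zpow_one_add, cj_mul]
    exact (h _ ih).1
  | pred i ih =>
    have : s ^ (-(i : ℤ) - 1) = s⁻¹ * s ^ (-(i : ℤ)) := by
      rw [sub_eq_add_neg, add_comm, zpow_add, zpow_neg_one]
    rw [this, cj_mul]
    exact (h _ ih).2

/-- the exponential part -/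
theorem exp_part (h : Big D S C₀) {𝒞 : Cartan D (π1 R D)} {b : G1 D} (hb : b ∈ 𝒞.C)
    (hJ : JN 𝒞 b) (B : ℝ) : ∃ R' : ℝ, ∀ δ : ℝ, 0 < δ → ∃ N₀ : ℕ, ∀ N : ℕ, N₀ ≤ N →
    ∀ j : ℕ, j ≤ N → ∀ (X : Matrix (Fin D.n) (Fin D.n) ℝ) (hX : X ∈ 𝒞.nw 0), nrm X ≤ B →
      ∃ l : List (G1 D), b ^ j * exG D X (𝒞.nw_le 0 hX) * (b ^ j)⁻¹ = l.prod ∧
        (l.length : ℝ) ≤ δ * N ∧ ∀ g ∈ l, g ∈ 𝒞.C ∧ (len D C₀ g : ℝ) ≤ R' := by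
  obtain ⟨s, u, hbs, hsu, hW, ⟨A, hA⟩, U, huU, hexU, hU⟩ := hJ
  obtain ⟨c, hc⟩ := Subgroup.nilpotent_iff_lowerCentralSeries.mp
    (inferInstance : Group.IsNilpotent (U × Multiplicative ℤ))
  obtain ⟨K, hK⟩ := h.len_exG_of_le (|A| * |B|)
  refine ⟨max (len D C₀ b) K, fun δ hδ => ?_⟩
  obtain ⟨N₀, hN₀⟩ := Slow.exists_UL.{0} c hδ
  refine ⟨N₀, fun N hN j hj X hX hXB => ?_⟩
  let x : U × Multiplicative ℤ := (⟨_, hexU X hX⟩, 1)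
  let y : U × Multiplicative ℤ := (⟨u, huU⟩, Multiplicative.ofAdd 1)
  obtain ⟨l, hl1, hl2, hl3⟩ := hN₀ (U × Multiplicative ℤ) hc x y N hN j hj
  have hXs : ∀ i : ℤ, cj (s ^ i) X ∈ 𝒞.nw 0 := fun i => cj_zpow_mem hW i hX
  have hlen : ∀ i : ℤ, (len D C₀ (exG D _ (𝒞.nw_le 0 (hXs i))) : ℝ) ≤ K := by
    intro i
    have h1 : nrm (cj (s ^ i) X) ≤ |A| * |B| := by
      refine (hA X hX i).trans ?_
      have h2 := nrm_nonneg X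
      calc A * nrm X ≤ |A| * nrm X := mul_le_mul_of_nonneg_right (le_abs_self _) h2
        _ ≤ |A| * |B| := mul_le_mul_of_nonneg_left (hXB.trans (le_abs_self _)) (abs_nonneg _)
    exact_mod_cast hK _ _ h1
  obtain ⟨l', h1, h2, h3⟩ := exists_word (gd := fun g => g ∈ 𝒞.C ∧ (len D C₀ g : ℝ) ≤
      max (len D C₀ b : ℝ) K) hbs hsu (𝒞.nw_le 0 hX) (fun i => 𝒞.nw_le 0 (hXs i))
    ⟨hb, le_max_left _ _⟩ ⟨𝒞.C.inv_mem hb, by rw [h.len_inv]; exact le_max_left _ _⟩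
    (fun i => ⟨exG_mem_C 𝒞 (hXs i), (hlen i).trans (le_max_right _ _)⟩)
    (fun i => ⟨𝒞.C.inv_mem (exG_mem_C 𝒞 (hXs i)),
      by rw [h.len_inv]; exact (hlen i).trans (le_max_right _ _)⟩)
    (x := x) (y := y) rfl rfl rfl rfl l hl2 j
  refine ⟨l', ?_, by rw [h1]; exact hl1, h2⟩
  apply Subtype.ext
  rw [h3, hl3]
  have e1 : ((y ^ j * x * (y ^ j)⁻¹).1 : (Matrix (Fin D.n) (Fin D.n) ℝ)ˣ) =
      u ^ j * ((exG D X (𝒞.nw_le 0 hX) : G1 D) : (Matrix (Fin D.n) (Fin D.n) ℝ)ˣ) *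
        (u ^ j)⁻¹ := rfl
  have e2 : Multiplicative.toAdd (y ^ j * x * (y ^ j)⁻¹).2 = 0 := by
    have : (y ^ j * x * (y ^ j)⁻¹).2 = y.2 ^ j * x.2 * (y.2 ^ j)⁻¹ := rfl
    rw [this, mul_comm (y.2 ^ j) x.2, mul_inv_cancel_right]
    rfl
  have e3 : ((b ^ j : G1 D) : (Matrix (Fin D.n) (Fin D.n) ℝ)ˣ) = s ^ j * u ^ j := by
    rw [Subgroup.coe_pow, hbs, hsu.mul_pow]
  rw [e1, e2, zpow_zero, mul_one]
  rw [Subgroup.coe_mul, Subgroup.coe_mul, Subgroup.coe_inv, e3, mul_inv_rev, zpow_neg,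
    zpow_natCast]
  simp only [mul_assoc]

/-- the nilpotent part -/
theorem nil_part {𝒞 : Cartan D (π1 R D)} (hχ : ∀ j, 𝒞.W.χ j 𝒞.t = 1 → 𝒞.W.χ j = 1) :
    ∀ δ : ℝ, 0 < δ → ∃ N₀ : ℕ, ∀ N : ℕ, N₀ ≤ N →
    ∀ j : ℕ, j ≤ N → ∀ b ∈ Cf D 𝒞.t, ∀ x ∈ Cf D 𝒞.t,
      ∃ l : List (G1 D), b ^ j * x * (b ^ j)⁻¹ = l.prod ∧ (l.length : ℝ) ≤ δ * N ∧
        ∀ g ∈ l, g = x ∨ g = x⁻¹ ∨ g = b ∨ g = b⁻¹ := by
  intro δ hδ
  obtain ⟨c, hc⟩ := Subgroup.nilpotent_iff_lowerCentralSeries.mp (isNilpotent_Cf 𝒞 hχ)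
  obtain ⟨N₀, hN₀⟩ := Slow.exists_UL.{0} c hδ
  refine ⟨N₀, fun N hN j hj b hb x hx => ?_⟩
  obtain ⟨l, hl1, hl2, hl3⟩ := hN₀ (Cf D 𝒞.t) hc ⟨x, hx⟩ ⟨b, hb⟩ N hN j hj
  refine ⟨l.map (Cf D 𝒞.t).subtype, ?_, by rw [List.length_map]; exact hl1, ?_⟩
  · have h1 := congrArg (Cf D 𝒞.t).subtype hl3
    rw [map_list_prod] at h1
    rw [h1]
    rfl
  · intro g hg
    obtain ⟨z, hz, rfl⟩ := List.mem_map.1 hg
    rcases hl2 z hz with rfl | rfl | rfl | rfl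
    · exact Or.inl rfl
    · exact Or.inr (Or.inl rfl)
    · exact Or.inr (Or.inr (Or.inl rfl))
    · exact Or.inr (Or.inr (Or.inr rfl))

/-- **sub_conj** -/
theorem sub_conj_of (h : Big D S C₀) {𝒞 : Cartan D (π1 R D)}
    (hχ : ∀ j, 𝒞.W.χ j 𝒞.t = 1 → 𝒞.W.χ j = 1) (hJ : ∀ b ∈ 𝒞.C, JN 𝒞 b) :
    ∃ R₀ : ℝ, ∀ b ∈ Cf D 𝒞.t, ∀ Rr δ : ℝ, 0 < δ → ∃ N₀ : ℕ, ∀ N : ℕ, N₀ ≤ N →
      ∀ j : ℕ, j ≤ N → ∀ y ∈ 𝒞.C, (len D C₀ y : ℝ) ≤ Rr →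
        ∃ l : List (G1 D), b ^ j * y * (b ^ j)⁻¹ = l.prod ∧ (l.length : ℝ) ≤ δ * N ∧
          ∀ s ∈ l, s ∈ 𝒞.C ∧ (len D C₀ s : ℝ) ≤ R₀ := by
  obtain ⟨t, a, ht, htl⟩ := exists_vert R D h (Cf D 𝒞.t) (exists_mul_Cf (abQ (D := D)) 𝒞.t)
  obtain ⟨R₀, hR₀⟩ := exists_gen_C h 𝒞 ht htl
  refine ⟨R₀, fun b hb Rr δ hδ => ?_⟩
  obtain ⟨B, n₁, hB, hdec⟩ := exists_dec0 h 𝒞 ht htl Rr
  obtain ⟨R', hR'⟩ := exp_part h (Cf_le 𝒞 hb) (hJ b (Cf_le 𝒞 hb)) B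
  -- length of the letters
  have htC : ∀ v, t v ∈ Cf D 𝒞.t := by
    intro v
    obtain ⟨l, h1, -, h2⟩ := htl v
    rw [h1]
    exact (Cf D 𝒞.t).list_prod_mem fun s hs => (h2 s hs).1
  have htlen : ∀ v, n1 v ≤ n₁ → (len D C₀ (t v) : ℝ) ≤ n₁ * |a| := by
    intro v hv
    obtain ⟨l, h1, h2, h3⟩ := htl v
    rw [h1]
    refine (len_list_le h l (a := |a|) fun s hs => (h3 s hs).2.trans (le_abs_self _)).trans ?_
    refine mul_le_mul_of_nonneg_right ?_ (abs_nonneg _)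
    rw [h2]; exact_mod_cast hv
  obtain ⟨q, hq⟩ := hR₀ (max R' (max (n₁ * |a|) (len D C₀ b)))
  set δ' : ℝ := δ / (2 * (q + 1)) with hδ'
  have hδ'0 : 0 < δ' := by positivity
  obtain ⟨N₁, hN₁⟩ := hR' δ' hδ'0
  obtain ⟨N₂, hN₂⟩ := nil_part hχ δ' hδ'0
  refine ⟨max N₁ N₂, fun N hN j hj y hy hyl => ?_⟩
  obtain ⟨X, hX, v, h1, h2, h3⟩ := hdec y hy hyl
  obtain ⟨l₁, h4, h5, h6⟩ := hN₁ N ((le_max_left _ _).trans hN) j hj X hX h2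
  obtain ⟨l₂, h7, h8, h9⟩ := hN₂ N ((le_max_right _ _).trans hN) j hj b hb (t v) (htC v)
  obtain ⟨l, h10, h11, h12⟩ := exists_flatten (P := fun g => g ∈ 𝒞.C ∧ (len D C₀ g : ℝ) ≤
      max R' (max (n₁ * |a|) (len D C₀ b))) hq (l₁ ++ l₂) (by
    intro g hg
    rcases List.mem_append.1 hg with hg | hg
    · exact ⟨(h6 g hg).1, (h6 g hg).2.trans (le_max_left _ _)⟩
    · have e1 : (len D C₀ (t v) : ℝ) ≤ max R' (max (n₁ * |a|) (len D C₀ b)) :=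
        (htlen v h3).trans ((le_max_left _ _).trans (le_max_right _ _))
      have e2 : (len D C₀ b : ℝ) ≤ max R' (max (n₁ * |a|) (len D C₀ b)) :=
        (le_max_right _ _).trans (le_max_right _ _)
      rcases h9 g hg with rfl | rfl | rfl | rfl
      · exact ⟨Cf_le 𝒞 (htC v), e1⟩
      · exact ⟨𝒞.C.inv_mem (Cf_le 𝒞 (htC v)), by rw [h.len_inv]; exact e1⟩
      · exact ⟨Cf_le 𝒞 hb, e2⟩
      · exact ⟨𝒞.C.inv_mem (Cf_le 𝒞 hb), by rw [h.len_inv]; exact e2⟩)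
  refine ⟨l, ?_, ?_, h12⟩
  · rw [← h10, List.prod_append, ← h4, ← h7, h1]
    group
  · have h13 : (l.length : ℝ) ≤ q * (l₁.length + l₂.length) := by
      have : (l.length : ℝ) ≤ ((q * (l₁ ++ l₂).length : ℕ) : ℝ) := by exact_mod_cast h11
      rw [List.length_append] at this
      push_cast at this
      exact this
    have h14 : (0 : ℝ) ≤ q := Nat.cast_nonneg _
    have h15 : (0 : ℝ) ≤ N := Nat.cast_nonneg _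
    calc (l.length : ℝ) ≤ q * (δ' * N + δ' * N) :=
          h13.trans (mul_le_mul_of_nonneg_left (add_le_add h5 h8) h14)
      _ = (q / (q + 1)) * (δ * N) := by rw [hδ']; field_simp; ring
      _ ≤ 1 * (δ * N) := by
          refine mul_le_mul_of_nonneg_right ?_ (by positivity)
          rw [div_le_one (by positivity)]; linarith
      _ = δ * N := one_mul _

end main

end Crest.Agent.R182.ModelSub
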