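/-
R182, module SUBCONJ (helper595): the Jordan decomposition of an invertible matrix and the boundedness
of the powers of its semisimple part on an invariant subspace of subexponential growth.
-/
import Mathlib
import Crest.Agent.R182.ModelGroup

set_option autoImplicit false
set_option linter.unusedSectionVars false

open Module.End Crest.Agent.R182.Model

namespace Crest.Agent.R182.Sub

section Alg

variable {K : Type*} [Field K] {A : Type*} [Ring A] [Algebra K A]

theorem mulLeft_aeval (x : A) (p : Polynomial K) :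
    Polynomial.aeval (LinearMap.mulLeft K x) p = LinearMap.mulLeft K (Polynomial.aeval x p) := by
  have : LinearMap.mulLeft K x = Algebra.lmul K A x := rfl
  rw [this, Polynomial.aeval_algHom_apply]
  rfl

theorem mulRight_aeval (x : A) (p : Polynomial K) :
    Polynomial.aeval (LinearMap.mulRight K x) p = LinearMap.mulRight K (Polynomial.aeval x p) := by
  induction p using Polynomial.induction_on' with
  | add p q hp hq =>
    rw [map_add, map_add, hp, hq]
    ext y
    simp [mul_add]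
  | monomial n a =>
    rw [Polynomial.aeval_monomial, Polynomial.aeval_monomial]
    ext y
    rw [Module.End.mul_apply, LinearMap.pow_mulRight]
    simp [Algebra.algebraMap_eq_smul_one]

theorem mulLeft_inj {x y : A} (h : LinearMap.mulLeft K x = LinearMap.mulLeft K y) : x = y := by
  have := LinearMap.congr_fun h 1
  simpa using this

theorem invt_of_invt {V : Type*} [AddCommGroup V] [Module K V] [FiniteDimensional K V]
    {f g : Module.End K V} (hgf : g * f = 1) {p : Submodule K V} (hp : ∀ x ∈ p, f x ∈ p) :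
    ∀ x ∈ p, g x ∈ p := by
  intro x hx
  have hgf' : ∀ y, g (f y) = y := fun y => by
    rw [← Module.End.mul_apply, hgf, Module.End.one_apply]
  have hinj : Function.Injective (f.restrict hp) := by
    intro y z hyz
    have h1 : f y = f z := congrArg Subtype.val hyz
    apply Subtype.ext
    rw [← hgf' y, ← hgf' z, h1]
  obtain ⟨y, hy⟩ := (LinearMap.injective_iff_surjective.1 hinj) ⟨x, hx⟩
  have h2 : f y = x := congrArg Subtype.val hy
  rw [← h2, hgf']
  exact y.2

theorem isSemisimple_inv {V : Type*} [AddCommGroup V] [Module K V] [FiniteDimensional K V]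
    {f g : Module.End K V} (hgf : g * f = 1) (hf : f.IsSemisimple) : g.IsSemisimple := by
  have hfg : f * g = 1 := mul_eq_one_comm.1 hgf
  rw [isSemisimple_iff] at hf ⊢
  intro p hp
  obtain ⟨q, hq, hpq⟩ := hf p ((mem_invtSubmodule_iff_forall_mem_of_mem f).2 (invt_of_invt hfg
    ((mem_invtSubmodule_iff_forall_mem_of_mem g).1 hp)))
  exact ⟨q, (mem_invtSubmodule_iff_forall_mem_of_mem g).2 (invt_of_invt hgf
    ((mem_invtSubmodule_iff_forall_mem_of_mem f).1 hq)), hpq⟩

/-- conjugation as a linear map -/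
noncomputable def cj (K : Type*) [Field K] {A : Type*} [Ring A] [Algebra K A] (g : Aˣ) :
    Module.End K A := LinearMap.mulLeft K (g : A) * LinearMap.mulRight K ((g⁻¹ : Aˣ) : A)

theorem cj_apply (g : Aˣ) (x : A) : cj K g x = g * x * (g⁻¹ : Aˣ) := by
  simp [cj, mul_assoc]

theorem cj_mul (g h : Aˣ) : cj K (g * h) = cj K g * cj K h := by
  ext x; simp [cj_apply, mul_assoc]

theorem cj_one : cj K (1 : Aˣ) = 1 := by
  ext x; simp [cj_apply]

theorem cj_pow (g : Aˣ) (j : ℕ) : cj K (g ^ j) = cj K g ^ j := by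
  induction j with
  | zero => rw [pow_zero, pow_zero, cj_one]
  | succ j ih => rw [pow_succ, pow_succ, cj_mul, ih]

theorem cj_inv_mul (g : Aˣ) : cj K g⁻¹ * cj K g = 1 := by
  rw [← cj_mul, inv_mul_cancel, cj_one]

theorem mem_of_mem_adjoin {V : Type*} [AddCommGroup V] [Module K V] {f g : Module.End K V}
    (hg : g ∈ Algebra.adjoin K {f}) {W : Submodule K V} (hW : ∀ x ∈ W, f x ∈ W) :
    ∀ x ∈ W, g x ∈ W := by
  induction hg using Algebra.adjoin_induction with
  | mem a ha => rw [Set.mem_singleton_iff.1 ha]; exact hW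
  | algebraMap r => intro x hx; rw [Module.algebraMap_end_apply]; exact W.smul_mem r hx
  | add a b _ _ ha hb => intro x hx; exact W.add_mem (ha x hx) (hb x hx)
  | mul a b _ _ ha hb => intro x hx; exact ha _ (hb x hx)

variable [FiniteDimensional K A]

/-- multiplicative Jordan decomposition in a finite-dimensional algebra -/
theorem exists_jc [PerfectField K] (b : Aˣ) : ∃ s u : Aˣ, b = s * u ∧ Commute s u ∧
    IsNilpotent ((u : A) - 1) ∧ ∃ p : Polynomial K, Squarefree p ∧ Polynomial.aeval (s : A) p = 0 := by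
  obtain ⟨n', hn', s', hs', hnil, hss, h⟩ :=
    Module.End.exists_isNilpotent_isSemisimple (f := LinearMap.mulLeft K (b : A))
  rw [Algebra.adjoin_singleton_eq_range_aeval] at hn' hs'
  obtain ⟨q₁, rfl⟩ := hn'
  obtain ⟨q₂, rfl⟩ := hs'
  simp only [RingHom.coe_coe, AlgHom.toRingHom_eq_coe] at hnil hss h
  rw [mulLeft_aeval] at hnil hss h
  rw [mulLeft_aeval] at h
  set ν := Polynomial.aeval (b : A) q₁ with hν
  set s₀ := Polynomial.aeval (b : A) q₂ with hs₀
  have hb : (b : A) = ν + s₀ := by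
    apply mulLeft_inj (K := K)
    rw [h]; ext x; simp [add_mul]
  have hνnil : IsNilpotent ν := by
    obtain ⟨k, hk⟩ := hnil
    refine ⟨k, ?_⟩
    rw [LinearMap.pow_mulLeft] at hk
    apply mulLeft_inj (K := K)
    rw [hk]; ext x; simp
  have hp : Polynomial.aeval s₀ (minpoly K (LinearMap.mulLeft K s₀)) = 0 := by
    apply mulLeft_inj (K := K)
    rw [← mulLeft_aeval, minpoly.aeval]; ext x; simp
  have hcb : Commute ν (b : A) := by
    have := (Commute.all q₁ Polynomial.X).map (Polynomial.aeval (R := K) (b : A))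
    rwa [Polynomial.aeval_X, ← hν] at this
  have hcs : Commute ν s₀ := by
    rw [hν, hs₀]
    exact (Commute.all q₁ q₂).map _
  have hs₀' : s₀ = b + -ν := by rw [hb]; abel
  have hunit : IsUnit s₀ := by
    rw [hs₀']
    exact (hνnil.neg).isUnit_add_left_of_commute b.isUnit hcb.neg_left
  refine ⟨hunit.unit, hunit.unit⁻¹ * b, by group, ?_, ?_, _, hss.minpoly_squarefree, ?_⟩
  · have h1 : Commute hunit.unit b := by
      apply Units.ext
      simp only [Units.val_mul, IsUnit.unit_spec]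
      rw [hb]
      exact ((hcs.symm).add_right (Commute.refl s₀)).eq
    exact (Commute.refl _).inv_right.mul_right h1
  · have e1 : ((hunit.unit⁻¹ * b : Aˣ) : A) - 1 = (hunit.unit⁻¹ : Aˣ) * ν := by
      have e2 : (b : A) = ν + s₀ := hb
      have e3 : ((hunit.unit⁻¹ : Aˣ) : A) * s₀ = 1 := by
        have := hunit.unit.inv_mul
        rwa [IsUnit.unit_spec] at this
      rw [Units.val_mul, e2, mul_add, e3, add_sub_cancel_right]
    rw [e1]
    have hc : Commute ((hunit.unit⁻¹ : Aˣ) : A) ν := by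
      have : Commute ((hunit.unit : Aˣ) : A) ν := by
        rw [IsUnit.unit_spec]; exact hcs.symm
      exact this.units_inv_left
    exact hc.isNilpotent_mul_left hνnil
  · rw [IsUnit.unit_spec]; exact hp

theorem isSemisimple_cj [PerfectField K] {s : Aˣ} {p : Polynomial K} (hp : Squarefree p)
    (hps : Polynomial.aeval (s : A) p = 0) : (cj K s).IsSemisimple := by
  have h1 : Module.End.IsSemisimple (LinearMap.mulLeft K (s : A)) := by
    refine isSemisimple_of_squarefree_aeval_eq_zero hp ?_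
    rw [mulLeft_aeval, hps]; ext x; simp
  have h2 : Module.End.IsSemisimple (LinearMap.mulRight K (s : A)) := by
    refine isSemisimple_of_squarefree_aeval_eq_zero hp ?_
    rw [mulRight_aeval, hps]; ext x; simp
  have h3 : Module.End.IsSemisimple (LinearMap.mulRight K ((s⁻¹ : Aˣ) : A)) := by
    refine isSemisimple_inv ?_ h2
    ext x; simp [mul_assoc]
  have hc : Commute (LinearMap.mulLeft K (s : A)) (LinearMap.mulRight K ((s⁻¹ : Aˣ) : A)) := by
    ext x; simp [mul_assoc]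
  exact IsSemisimple.mul_of_commute hc h1 h3

theorem isNilpotent_cj_sub {u : Aˣ} (hu : IsNilpotent ((u : A) - 1)) :
    IsNilpotent (cj K u - 1) := by
  have h1 : IsNilpotent (LinearMap.mulLeft K ((u : A) - 1)) := by
    obtain ⟨k, hk⟩ := hu
    exact ⟨k, by rw [LinearMap.pow_mulLeft, hk]; ext x; simp⟩
  have hu' : IsNilpotent (((u⁻¹ : Aˣ) : A) - 1) := by
    have e : ((u⁻¹ : Aˣ) : A) - 1 = -((u⁻¹ : Aˣ) * ((u : A) - 1)) := by
      rw [mul_sub, Units.inv_mul, mul_one, neg_sub]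
    rw [e]
    refine IsNilpotent.neg (Commute.isNilpotent_mul_left ?_ hu)
    have : Commute (u : A) ((u : A) - 1) := (Commute.refl _).sub_right (Commute.one_right _)
    exact this.units_inv_left
  have h2 : IsNilpotent (LinearMap.mulRight K (((u⁻¹ : Aˣ) : A) - 1)) := by
    obtain ⟨k, hk⟩ := hu'
    exact ⟨k, by rw [LinearMap.pow_mulRight, hk]; ext x; simp⟩
  have hc : Commute (LinearMap.mulLeft K ((u : A) - 1))
      (LinearMap.mulRight K (((u⁻¹ : Aˣ) : A) - 1)) := by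
    ext x; simp [mul_assoc]
  have e : cj K u - 1 = LinearMap.mulLeft K ((u : A) - 1) +
      LinearMap.mulRight K (((u⁻¹ : Aˣ) : A) - 1) +
      LinearMap.mulLeft K ((u : A) - 1) * LinearMap.mulRight K (((u⁻¹ : Aˣ) : A) - 1) := by
    ext x
    simp only [cj, LinearMap.sub_apply, Module.End.mul_apply, LinearMap.mulLeft_apply,
      LinearMap.mulRight_apply, Module.End.one_apply, LinearMap.add_apply]
    noncomm_ring
  rw [e]
  refine Commute.isNilpotent_add ?_ (hc.isNilpotent_add h1 h2) (hc.isNilpotent_mul_right h1)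
  exact ((Commute.refl _).mul_right hc).add_left (hc.symm.mul_right (Commute.refl _))

/-- the conjugation by the semisimple part is a polynomial in the conjugation. -/
theorem cj_mem_adjoin [PerfectField K] {b s u : Aˣ} (hb : b = s * u) (hc : Commute s u)
    (hu : IsNilpotent ((u : A) - 1)) {p : Polynomial K} (hp : Squarefree p)
    (hps : Polynomial.aeval (s : A) p = 0) : cj K s ∈ Algebra.adjoin K {cj K b} := by
  obtain ⟨n', hn', s', hs', hnil, hss, h⟩ := (cj K b).exists_isNilpotent_isSemisimple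
  have hcs : Commute (cj K s) (cj K u) := by
    change cj K s * cj K u = cj K u * cj K s
    rw [← cj_mul, ← cj_mul, hc.eq]
  have h1 : cj K b = cj K s * (cj K u - 1) + cj K s := by
    rw [hb, cj_mul, mul_sub, mul_one, sub_add_cancel]
  have hc1 : Commute (cj K s) (cj K u - 1) := hcs.sub_right (Commute.one_right _)
  have h2 := isNilpotent_isSemisimple_unique (hc1.isNilpotent_mul_left (isNilpotent_cj_sub hu))
    (isSemisimple_cj hp hps) hnil hss ((Commute.refl _).mul_left hc1.symm)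
    (Algebra.commute_of_mem_adjoin_singleton_of_commute hs'
      (Algebra.commute_of_mem_adjoin_singleton_of_commute hn' (Commute.refl _)).symm)
    (h1.symm.trans h)
  rw [h2.2]
  exact hs'

end Alg

section Bdd

variable {n : ℕ}

/-- an exponential which is polynomially bounded -/
theorem le_one_of_pow_le {r c A : ℝ} {d : ℕ} (hc : 0 < c)
    (h : ∀ j : ℕ, r ^ j * c ≤ A * (1 + j) ^ d) : r ≤ 1 := by
  by_contra hr
  push Not at hr
  have h1 : Filter.Tendsto (fun j : ℕ => ((j + 1 : ℕ) : ℝ) ^ d / r ^ (j + 1)) Filter.atTop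
      (nhds 0) :=
    (tendsto_pow_const_div_const_pow_of_one_lt d hr).comp (Filter.tendsto_add_atTop_nat 1)
  have h2 : ∀ j : ℕ, c / (r * (|A| + 1)) ≤ ((j + 1 : ℕ) : ℝ) ^ d / r ^ (j + 1) := by
    intro j
    have h3 := h j
    have hr0 : 0 < r := by linarith
    rw [div_le_div_iff₀ (by positivity) (by positivity)]
    have h4 : A * (1 + j) ^ d ≤ (|A| + 1) * ((j + 1 : ℕ) : ℝ) ^ d := by
      have : ((j + 1 : ℕ) : ℝ) = 1 + j := by push_cast; ring
      rw [this]
      gcongr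
      have := le_abs_self A
      linarith
    calc c * r ^ (j + 1) = (r ^ j * c) * r := by ring
      _ ≤ ((|A| + 1) * ((j + 1 : ℕ) : ℝ) ^ d) * r :=
        mul_le_mul_of_nonneg_right (h3.trans h4) hr0.le
      _ = ((j + 1 : ℕ) : ℝ) ^ d * (r * (|A| + 1)) := by ring
  have h3 := ge_of_tendsto' h1 h2
  have h4 : 0 < c / (r * (|A| + 1)) := by
    have : 0 < r := by linarith
    positivity
  linarith

variable {V : Type*} [AddCommGroup V] [Module ℝ V]

/-- pull back of functionals -/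
noncomputable def pl (f : Module.End ℝ V) : Module.End ℂ (V →ₗ[ℝ] ℂ) where
  toFun φ := φ ∘ₗ f
  map_add' _ _ := LinearMap.add_comp _ _ _
  map_smul' _ _ := LinearMap.smul_comp _ _ _

theorem pl_apply (f : Module.End ℝ V) (φ : V →ₗ[ℝ] ℂ) (x : V) : pl f φ x = φ (f x) := rfl

theorem pl_mul (f g : Module.End ℝ V) : pl (f * g) = pl g * pl f := by
  ext φ x; rfl

theorem pl_one : pl (1 : Module.End ℝ V) = 1 := by
  ext φ x; rfl

theorem pl_pow (f : Module.End ℝ V) (j : ℕ) : pl (f ^ j) = pl f ^ j := by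
  induction j with
  | zero => rw [pow_zero, pow_zero, pl_one]
  | succ j ih => rw [pow_succ, pow_succ', pl_mul, ih]

theorem pl_aeval (f : Module.End ℝ V) (p : Polynomial ℝ) :
    Polynomial.aeval (pl f) (p.map (algebraMap ℝ ℂ)) = pl (Polynomial.aeval f p) := by
  induction p using Polynomial.induction_on' with
  | add p q hp hq =>
    rw [Polynomial.map_add, map_add, map_add, hp, hq]
    ext φ x
    simp [pl_apply]
  | monomial n a =>
    rw [Polynomial.map_monomial, Polynomial.aeval_monomial, Polynomial.aeval_monomial, ← pl_pow]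
    ext φ x
    simp [pl_apply, Algebra.algebraMap_eq_smul_one]

theorem isSemisimple_pl [FiniteDimensional ℝ V] {f : Module.End ℝ V} (hf : f.IsSemisimple) :
    (pl f).IsSemisimple := by
  have h1 : (minpoly ℝ f).Separable :=
    PerfectField.separable_iff_squarefree.2 hf.minpoly_squarefree
  refine isSemisimple_of_squarefree_aeval_eq_zero (h1.map (f := algebraMap ℝ ℂ)).squarefree ?_
  rw [pl_aeval, minpoly.aeval]
  ext φ x
  simp [pl_apply]

theorem isNilpotent_pl {f : Module.End ℝ V} (hf : IsNilpotent (f - 1)) :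
    IsNilpotent (pl f - 1) := by
  obtain ⟨k, hk⟩ := hf
  refine ⟨k, ?_⟩
  have e : pl f - 1 = pl (f - 1) := by
    ext φ x
    simp [pl_apply]
  rw [e, ← pl_pow, hk]
  ext φ x
  simp [pl_apply]

/-- powers of a commuting nilpotent reach a common kernel vector -/
theorem exists_ker {F : Type*} [Field F] {X : Type*} [AddCommGroup X] [Module F X]
    {P : Module.End F X} (hP : IsNilpotent P) {E : Submodule F X} (hE : ∀ x ∈ E, P x ∈ E)
    {x₀ : X} (hx₀ : x₀ ∈ E) (h0 : x₀ ≠ 0) : ∃ x ∈ E, x ≠ 0 ∧ P x = 0 := by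
  obtain ⟨k, hk⟩ := hP
  have key : ∀ m : ℕ, ∀ x ∈ E, x ≠ 0 → (P ^ m) x = 0 → ∃ x ∈ E, x ≠ 0 ∧ P x = 0 := by
    intro m
    induction m with
    | zero => intro x _ hx h; rw [pow_zero, Module.End.one_apply] at h; exact absurd h hx
    | succ m ih =>
      intro x hx hx0 h
      by_cases hPx : P x = 0
      · exact ⟨x, hx, hx0, hPx⟩
      · refine ih (P x) (hE x hx) hPx ?_
        rw [pow_succ, Module.End.mul_apply] at h
        exact h
  exact key k x₀ hx₀ h0 (by rw [hk]; rfl)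

theorem exists_bdd [FiniteDimensional ℝ V] {S S' U B B' : Module.End ℝ V} (hSS' : S * S' = 1)
    (hB : B = S * U) (hBB' : B * B' = 1) (hSU : Commute S U) (hS : S.IsSemisimple)
    (hU : IsNilpotent (U - 1)) {N : V → ℝ} (hN : ∀ φ : V →ₗ[ℝ] ℂ, ∃ C : ℝ, ∀ x, ‖φ x‖ ≤ C * N x)
    (hN0 : ∀ x, 0 ≤ N x)
    (hgr : ∀ x, ∃ (A : ℝ) (d : ℕ), ∀ j : ℕ, N ((B ^ j) x) ≤ A * (1 + j) ^ d ∧
      N ((B' ^ j) x) ≤ A * (1 + j) ^ d) (φ : V →ₗ[ℝ] ℂ) :
    ∃ A : ℝ, ∀ x, ∀ j : ℕ, ‖φ ((S ^ j) x)‖ ≤ A * N x ∧ ‖φ ((S' ^ j) x)‖ ≤ A * N x := by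
  have hfd : FiniteDimensional ℂ (V →ₗ[ℝ] ℂ) := inferInstance
  have htop := (isSemisimple_pl hS).iSup_eigenspace_eq_top
  have hmem : φ ∈ ⨆ μ : ℂ, (pl S).eigenspace μ := by rw [htop]; trivial
  induction hmem using Submodule.iSup_induction' with
  | zero => exact ⟨0, fun x j => by simp⟩
  | add φ ψ _ _ h1 h2 =>
    obtain ⟨A, hA⟩ := h1
    obtain ⟨A', hA'⟩ := h2
    refine ⟨A + A', fun x j => ⟨?_, ?_⟩⟩
    · rw [LinearMap.add_apply, add_mul]
      exact (norm_add_le _ _).trans (add_le_add (hA x j).1 (hA' x j).1)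
    · rw [LinearMap.add_apply, add_mul]
      exact (norm_add_le _ _).trans (add_le_add (hA x j).2 (hA' x j).2)
  | mem μ φ hφ =>
    by_cases hφ0 : φ = 0
    · exact ⟨0, fun x j => by simp [hφ0]⟩
    -- a common eigenvector
    have hcomm : ∀ ψ ∈ (pl S).eigenspace μ, (pl U - 1) ψ ∈ (pl S).eigenspace μ := by
      intro ψ hψ
      rw [mem_eigenspace_iff] at hψ ⊢
      have h1 : pl S (pl U ψ) = pl U (pl S ψ) := by
        rw [← Module.End.mul_apply, ← Module.End.mul_apply, ← pl_mul, ← pl_mul, hSU.eq]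
      rw [LinearMap.sub_apply, map_sub, h1, hψ, map_smul, Module.End.one_apply, smul_sub, hψ]
    obtain ⟨ψ, hψ, hψ0, hψU⟩ := exists_ker (isNilpotent_pl hU) hcomm hφ hφ0
    rw [mem_eigenspace_iff] at hψ hφ
    have hψU' : ∀ x, ψ (U x) = ψ x := by
      intro x
      have := LinearMap.congr_fun hψU x
      simpa [pl_apply, sub_eq_zero] using this
    have hψS : ∀ x, ψ (S x) = μ * ψ x := fun x => by
      have := LinearMap.congr_fun hψ x
      simpa [pl_apply] using this
    have hφS : ∀ x, φ (S x) = μ * φ x := fun x => by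
      have := LinearMap.congr_fun hφ x
      simpa [pl_apply] using this
    have hψB : ∀ x, ψ (B x) = μ * ψ x := by
      intro x
      rw [hB, Module.End.mul_apply, hψS, hψU']
    have hψBj : ∀ (j : ℕ) x, ψ ((B ^ j) x) = μ ^ j * ψ x := by
      intro j
      induction j with
      | zero => intro x; simp
      | succ j ih => intro x; rw [pow_succ, Module.End.mul_apply, ih, hψB]; ring
    have hBB'j : ∀ (j : ℕ) x, (B ^ j) ((B' ^ j) x) = x := by
      intro j
      induction j with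
      | zero => intro x; simp
      | succ j ih =>
        intro x
        rw [pow_succ, pow_succ', Module.End.mul_apply, Module.End.mul_apply,
          ← Module.End.mul_apply B B', hBB', Module.End.one_apply, ih]
    obtain ⟨x, hx⟩ : ∃ x, ψ x ≠ 0 := by
      by_contra hcon
      push Not at hcon
      exact hψ0 (LinearMap.ext hcon)
    obtain ⟨C, hC⟩ := hN ψ
    obtain ⟨A, d, hA⟩ := hgr x
    have hxpos : 0 < ‖ψ x‖ := norm_pos_iff.2 hx
    have hC' : ∀ y, ‖ψ y‖ ≤ |C| * N y := fun y =>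
      (hC y).trans (mul_le_mul_of_nonneg_right (le_abs_self C) (hN0 y))
    have hμ1 : ‖μ‖ ≤ 1 := by
      refine le_one_of_pow_le (A := |C| * A) (d := d) hxpos fun j => ?_
      rw [← norm_pow, ← norm_mul, ← hψBj]
      refine (hC' _).trans ?_
      rw [mul_assoc]
      exact mul_le_mul_of_nonneg_left (hA j).1 (abs_nonneg C)
    have hμ0 : μ ≠ 0 := by
      rintro rfl
      have := hψBj 1 ((B' ^ 1) x)
      rw [hBB'j, pow_one, zero_mul] at this
      exact hx this
    have hμ2 : ‖μ⁻¹‖ ≤ 1 := by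
      refine le_one_of_pow_le (A := |C| * A) (d := d) hxpos fun j => ?_
      have h1 := hψBj j ((B' ^ j) x)
      rw [hBB'j] at h1
      have h2 : μ⁻¹ ^ j * ψ x = ψ ((B' ^ j) x) := by
        rw [h1, ← mul_assoc, ← mul_pow, inv_mul_cancel₀ hμ0, one_pow, one_mul]
      rw [← norm_pow, ← norm_mul, h2]
      refine (hC' _).trans ?_
      rw [mul_assoc]
      exact mul_le_mul_of_nonneg_left (hA j).2 (abs_nonneg C)
    obtain ⟨C₂, hC₂⟩ := hN φ
    have hφS' : ∀ x, φ (S' x) = μ⁻¹ * φ x := by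
      intro x
      have h1 := hφS (S' x)
      rw [← Module.End.mul_apply S S', hSS', Module.End.one_apply] at h1
      rw [h1, ← mul_assoc, inv_mul_cancel₀ hμ0, one_mul]
    refine ⟨C₂, fun x j => ⟨?_, ?_⟩⟩
    · have h1 : φ ((S ^ j) x) = μ ^ j * φ x := by
        induction j generalizing x with
        | zero => simp
        | succ j ih => rw [pow_succ, Module.End.mul_apply, ih, hφS]; ring
      rw [h1, norm_mul, norm_pow]
      exact (mul_le_of_le_one_left (norm_nonneg _) (pow_le_one₀ (norm_nonneg _) hμ1)).trans (hC₂ x)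
    · have h1 : φ ((S' ^ j) x) = μ⁻¹ ^ j * φ x := by
        induction j generalizing x with
        | zero => simp
        | succ j ih => rw [pow_succ, Module.End.mul_apply, ih, hφS']; ring
      rw [h1, norm_mul, norm_pow]
      exact (mul_le_of_le_one_left (norm_nonneg _) (pow_le_one₀ (norm_nonneg _) hμ2)).trans (hC₂ x)

end Bdd

section Final

variable {n : ℕ}

local notation "𝕄" => Matrix (Fin n) (Fin n) ℝ

theorem exists_fun_le (W : Submodule ℝ 𝕄) (φ : W →ₗ[ℝ] ℂ) :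
    ∃ C : ℝ, ∀ X : W, ‖φ X‖ ≤ C * nrm (X : 𝕄) := by
  classical
  obtain ⟨g, hg⟩ := LinearMap.exists_extend φ
  refine ⟨∑ i, ∑ k, ‖g (Matrix.single i k 1)‖, fun X => ?_⟩
  have h1 : φ X = g (X : 𝕄) := by rw [← hg]; rfl
  have h2 : (X : 𝕄) = ∑ i, ∑ k, (X : 𝕄) i k • Matrix.single i k (1 : ℝ) := by
    conv_lhs => rw [Matrix.matrix_eq_sum_single (X : 𝕄)]
    simp
  have h3 : g (X : 𝕄) = ∑ i, ∑ k, (X : 𝕄) i k • g (Matrix.single i k (1 : ℝ)) := by
    conv_lhs => rw [h2]
    rw [map_sum]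
    refine Finset.sum_congr rfl fun i _ => ?_
    rw [map_sum]
    exact Finset.sum_congr rfl fun k _ => by rw [map_smul]
  rw [h1, h3, Finset.sum_mul]
  refine (norm_sum_le _ _).trans (Finset.sum_le_sum fun i _ => ?_)
  rw [Finset.sum_mul]
  refine (norm_sum_le _ _).trans (Finset.sum_le_sum fun k _ => ?_)
  rw [norm_smul, Real.norm_eq_abs, mul_comm]
  exact mul_le_mul_of_nonneg_left (abs_le_nrm _ _ _) (norm_nonneg _)

theorem coe_restrict_pow {K : Type*} [Field K] {X : Type*} [AddCommGroup X] [Module K X]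
    {W : Submodule K X} {f : Module.End K X} (hf : ∀ x ∈ W, f x ∈ W) (j : ℕ) (x : W) :
    (((f.restrict hf) ^ j) x : X) = (f ^ j) x := by
  induction j generalizing x with
  | zero => simp
  | succ j ih => rw [pow_succ, pow_succ, Module.End.mul_apply, Module.End.mul_apply, ih]; rfl

theorem cj_pow_apply (g : 𝕄ˣ) (j : ℕ) (X : 𝕄) :
    (cj ℝ g ^ j) X = ((g ^ j : 𝕄ˣ) : 𝕄) * X * (((g ^ j)⁻¹ : 𝕄ˣ) : 𝕄) := by
  rw [← cj_pow, cj_apply]

/-- **(J)** Jordan decomposition and bounded powers of the semisimple part. -/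
theorem exists_jordan (b : 𝕄ˣ) (W : Submodule ℝ 𝕄)
    (hW : ∀ X ∈ W, (b : 𝕄) * X * ((b⁻¹ : 𝕄ˣ) : 𝕄) ∈ W)
    (hpoly : ∃ (A : ℝ) (E : ℕ), ∀ X ∈ W, ∀ j : ℤ, ∀ i k,
      |(((b ^ j : 𝕄ˣ) : 𝕄) * X * (((b ^ j)⁻¹ : 𝕄ˣ) : 𝕄)) i k| ≤
        A * (1 + |(j : ℝ)|) ^ E * ∑ i, ∑ k, |X i k|) :
    ∃ s u : 𝕄ˣ, b = s * u ∧ Commute s u ∧ IsNilpotent ((u : 𝕄) - 1) ∧
      (∀ X ∈ W, (s : 𝕄) * X * ((s⁻¹ : 𝕄ˣ) : 𝕄) ∈ W ∧ ((s⁻¹ : 𝕄ˣ) : 𝕄) * X * (s : 𝕄) ∈ W ∧
        (u : 𝕄) * X * ((u⁻¹ : 𝕄ˣ) : 𝕄) ∈ W ∧ ((u⁻¹ : 𝕄ˣ) : 𝕄) * X * (u : 𝕄) ∈ W) ∧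
      ∃ A : ℝ, ∀ X ∈ W, ∀ j : ℤ, ∀ i k,
        |(((s ^ j : 𝕄ˣ) : 𝕄) * X * (((s ^ j)⁻¹ : 𝕄ˣ) : 𝕄)) i k| ≤ A * ∑ i, ∑ k, |X i k| := by
  classical
  obtain ⟨s, u, hb, hc, hu, p, hp, hps⟩ := exists_jc (K := ℝ) b
  have hWb : ∀ X ∈ W, cj ℝ b X ∈ W := fun X hX => by rw [cj_apply]; exact hW X hX
  have hWb' : ∀ X ∈ W, cj ℝ b⁻¹ X ∈ W := invt_of_invt (cj_inv_mul b) hWb
  have hWs : ∀ X ∈ W, cj ℝ s X ∈ W := mem_of_mem_adjoin (cj_mem_adjoin hb hc hu hp hps) hWb
  have hWs' : ∀ X ∈ W, cj ℝ s⁻¹ X ∈ W := invt_of_invt (cj_inv_mul s) hWs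
  have hu' : u = s⁻¹ * b := by rw [hb]; group
  have hWu : ∀ X ∈ W, cj ℝ u X ∈ W := by
    intro X hX
    rw [hu', cj_mul, Module.End.mul_apply]
    exact hWs' _ (hWb X hX)
  have hWu' : ∀ X ∈ W, cj ℝ u⁻¹ X ∈ W := invt_of_invt (cj_inv_mul u) hWu
  refine ⟨s, u, hb, hc, hu, fun X hX => ⟨?_, ?_, ?_, ?_⟩, ?_⟩
  · have := hWs X hX
    rwa [cj_apply] at this
  · have := hWs' X hX
    rwa [cj_apply, inv_inv] at this
  · have := hWu X hX
    rwa [cj_apply] at this
  · have := hWu' X hX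
    rwa [cj_apply, inv_inv] at this
  obtain ⟨A₀, E, hA₀⟩ := hpoly
  have hnrm : ∀ X ∈ W, ∀ j : ℤ, nrm (((b ^ j : 𝕄ˣ) : 𝕄) * X * (((b ^ j)⁻¹ : 𝕄ˣ) : 𝕄)) ≤
      n * (n * (A₀ * (1 + |(j : ℝ)|) ^ E * nrm X)) := fun X hX j =>
    nrm_le fun i k => hA₀ X hX j i k
  set S : Module.End ℝ W := (cj ℝ s).restrict hWs with hS
  set S' : Module.End ℝ W := (cj ℝ s⁻¹).restrict hWs' with hS'
  set U : Module.End ℝ W := (cj ℝ u).restrict hWu with hU
  set B : Module.End ℝ W := (cj ℝ b).restrict hWb with hB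
  set B' : Module.End ℝ W := (cj ℝ b⁻¹).restrict hWb' with hB'
  have key := exists_bdd (V := W) (S := S) (S' := S') (U := U) (B := B) (B' := B') ?_ ?_ ?_ ?_ ?_ ?_
    (N := fun X => nrm (X : 𝕄)) (exists_fun_le W) (fun X => nrm_nonneg _) ?_
  · -- conclusion
    let φ : Fin n → Fin n → (W →ₗ[ℝ] ℂ) := fun i k =>
      { toFun := fun X => (((X : 𝕄) i k : ℝ) : ℂ)
        map_add' := fun X Y => by simp
        map_smul' := fun c X => by simp }
    choose A hA using fun i k => key (φ i k)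
    refine ⟨∑ i, ∑ k, |A i k|, fun X hX j i k => ?_⟩
    have hAle : A i k ≤ ∑ i, ∑ k, |A i k| := by
      refine (le_abs_self _).trans ?_
      refine (Finset.single_le_sum (f := fun k => |A i k|) (fun k _ => abs_nonneg _)
        (Finset.mem_univ k)).trans ?_
      exact Finset.single_le_sum (f := fun i => ∑ k, |A i k|)
        (fun i _ => Finset.sum_nonneg fun k _ => abs_nonneg _) (Finset.mem_univ i)
    have hn : A i k * nrm X ≤ (∑ i, ∑ k, |A i k|) * nrm X :=
      mul_le_mul_of_nonneg_right hAle (nrm_nonneg _)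
    obtain ⟨m, rfl | rfl⟩ := Int.eq_nat_or_neg j
    · have h1 := (hA i k ⟨X, hX⟩ m).1
      have h2 : ((S ^ m) ⟨X, hX⟩ : 𝕄) = ((s ^ m : 𝕄ˣ) : 𝕄) * X * (((s ^ m)⁻¹ : 𝕄ˣ) : 𝕄) := by
        rw [hS, coe_restrict_pow, cj_pow_apply]
      have h3 : ‖φ i k ((S ^ m) ⟨X, hX⟩)‖ = |((S ^ m) ⟨X, hX⟩ : 𝕄) i k| := by
        change ‖((((S ^ m) ⟨X, hX⟩ : 𝕄) i k : ℝ) : ℂ)‖ = _
        rw [Complex.norm_real, Real.norm_eq_abs]
      rw [h3, h2] at h1
      rw [zpow_natCast]
      exact h1.trans hn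
    · have h1 := (hA i k ⟨X, hX⟩ m).2
      have h2 : ((S' ^ m) ⟨X, hX⟩ : 𝕄) =
          (((s⁻¹) ^ m : 𝕄ˣ) : 𝕄) * X * ((((s⁻¹) ^ m)⁻¹ : 𝕄ˣ) : 𝕄) := by
        rw [hS', coe_restrict_pow, cj_pow_apply]
      have h3 : ‖φ i k ((S' ^ m) ⟨X, hX⟩)‖ = |((S' ^ m) ⟨X, hX⟩ : 𝕄) i k| := by
        change ‖((((S' ^ m) ⟨X, hX⟩ : 𝕄) i k : ℝ) : ℂ)‖ = _
        rw [Complex.norm_real, Real.norm_eq_abs]
      rw [h3, h2] at h1
      rw [zpow_neg, zpow_natCast, ← inv_pow]
      exact h1.trans hn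
  · ext X : 2
    rw [Module.End.mul_apply, Module.End.one_apply]
    change cj ℝ s (cj ℝ s⁻¹ (X : 𝕄)) = X
    rw [← Module.End.mul_apply, ← cj_mul, mul_inv_cancel, cj_one, Module.End.one_apply]
  · ext X : 2
    rw [Module.End.mul_apply]
    change cj ℝ b (X : 𝕄) = cj ℝ s (cj ℝ u (X : 𝕄))
    rw [← Module.End.mul_apply, ← cj_mul, hb]
  · ext X : 2
    rw [Module.End.mul_apply, Module.End.one_apply]
    change cj ℝ b (cj ℝ b⁻¹ (X : 𝕄)) = X
    rw [← Module.End.mul_apply, ← cj_mul, mul_inv_cancel, cj_one, Module.End.one_apply]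
  · change S * U = U * S
    ext X : 2
    rw [Module.End.mul_apply, Module.End.mul_apply]
    change cj ℝ s (cj ℝ u (X : 𝕄)) = cj ℝ u (cj ℝ s (X : 𝕄))
    rw [← Module.End.mul_apply, ← Module.End.mul_apply, ← cj_mul, ← cj_mul, hc.eq]
  · exact (isSemisimple_cj hp hps).restrict hWs
  · obtain ⟨m, hm⟩ := isNilpotent_cj_sub (K := ℝ) hu
    refine ⟨m, ?_⟩
    have hWu1 : ∀ X ∈ W, (cj ℝ u - 1) X ∈ W := fun X hX => W.sub_mem (hWu X hX) hX
    have e : U - 1 = (cj ℝ u - 1).restrict hWu1 := by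
      ext X : 2; rfl
    rw [e]
    ext X : 2
    rw [coe_restrict_pow, hm]; rfl
  · intro X
    refine ⟨n * (n * (A₀ * nrm (X : 𝕄))), E, fun j => ⟨?_, ?_⟩⟩
    · have h1 := hnrm X X.2 j
      rw [zpow_natCast, ← cj_pow_apply, ← coe_restrict_pow hWb] at h1
      refine h1.trans (le_of_eq ?_)
      rw [Int.cast_natCast, Nat.abs_cast]; ring
    · have h1 := hnrm X X.2 (-j)
      rw [zpow_neg, zpow_natCast, ← inv_pow, ← cj_pow_apply, ← coe_restrict_pow hWb'] at h1
      refine h1.trans (le_of_eq ?_)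
      rw [Int.cast_neg, Int.cast_natCast, abs_neg, Nat.abs_cast]; ring

end Final

end Crest.Agent.R182.Sub
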