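/-
R182, module MODEL (helper936): the Jordan data of the elements of `C` (from helper595's
`SubJC`, `SubNil`).
-/
import Mathlib
import Crest.Agent.R182.ModelSub3
import Crest.Agent.R182.SubJC

set_option autoImplicit false
set_option linter.unusedSectionVars false

namespace Crest.Agent.R182.ModelSub

open Crest.Agent.R182.FinPath Crest.Agent.R182.Polyc Crest.Agent.R182.Model
  Crest.Agent.R182.ModelWt Crest.Agent.R182.ModelCt

theorem ex_sub_one_mem {n : ℕ} {W : Submodule ℝ (Matrix (Fin n) (Fin n) ℝ)}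
    {X : Matrix (Fin n) (Fin n) ℝ} (hX : X ∈ W) :
    ex X - 1 ∈ NonUnitalAlgebra.adjoin ℝ (W : Set (Matrix (Fin n) (Fin n) ℝ)) := by
  set 𝒜 := NonUnitalAlgebra.adjoin ℝ (W : Set (Matrix (Fin n) (Fin n) ℝ)) with h𝒜
  have hX' : X ∈ 𝒜 := NonUnitalAlgebra.subset_adjoin ℝ hX
  rcases Nat.eq_zero_or_pos n with h0 | h0
  · subst h0
    have : ex X - 1 = 0 := by
      ext i; exact i.elim0
    rw [this]; exact zero_mem _
  · obtain ⟨m, rfl⟩ := Nat.exists_eq_succ_of_ne_zero h0.ne'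
    have h1 : ∀ k : ℕ, X ^ (k + 1) ∈ 𝒜 := by
      intro k
      induction k with
      | zero => rw [zero_add, pow_one]; exact hX'
      | succ k ih => rw [pow_succ]; exact mul_mem ih hX'
    have h2 : ex X - 1 = ∑ k ∈ Finset.range m, (((k + 1).factorial : ℝ)⁻¹) • X ^ (k + 1) := by
      rw [ex, Finset.sum_range_succ']
      simp
    rw [h2]
    exact sum_mem fun k _ => SMulMemClass.smul_mem _ (h1 k)

/-- the statement of (N) -/
def ExistsNil : Prop := ∀ (n : ℕ) (W : Submodule ℝ (Matrix (Fin n) (Fin n) ℝ)),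
  (∀ X ∈ W, ∀ Y ∈ W, X * Y - Y * X ∈ W) → (∀ X ∈ W, IsNilpotent X) →
  ∀ u : (Matrix (Fin n) (Fin n) ℝ)ˣ, IsNilpotent ((u : Matrix (Fin n) (Fin n) ℝ) - 1) →
  (∀ X ∈ W, (u : Matrix (Fin n) (Fin n) ℝ) * X *
    ((u⁻¹ : (Matrix (Fin n) (Fin n) ℝ)ˣ) : Matrix (Fin n) (Fin n) ℝ) ∈ W) →
  (∀ X ∈ W, ((u⁻¹ : (Matrix (Fin n) (Fin n) ℝ)ˣ) : Matrix (Fin n) (Fin n) ℝ) * X *
    (u : Matrix (Fin n) (Fin n) ℝ) ∈ W) →
  ∃ (U : Subgroup (Matrix (Fin n) (Fin n) ℝ)ˣ) (c : ℕ), u ∈ U ∧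
    (∀ y : (Matrix (Fin n) (Fin n) ℝ)ˣ, (y : Matrix (Fin n) (Fin n) ℝ) - 1 ∈
      NonUnitalAlgebra.adjoin ℝ (W : Set (Matrix (Fin n) (Fin n) ℝ)) → y ∈ U) ∧
    U.lowerCentralSeries c = ⊥

section main

attribute [local instance] Matrix.linftyOpNormedRing Matrix.linftyOpNormedAlgebra

variable {Γ : Type*} [Group Γ] {R : RootData Γ} {D : EmbData Γ R.N}

theorem jn (hN : ExistsNil) (𝒞 : Cartan D (π1 R D)) {b : G1 D} (hb : b ∈ 𝒞.C) : JN 𝒞 b := by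
  obtain ⟨K, E, hK, hg⟩ := 𝒞.growth_zpow hb
  obtain ⟨s, u, h1, h2, h3, h4, A, h5⟩ := Sub.exists_jordan
    (b : (Matrix (Fin D.n) (Fin D.n) ℝ)ˣ) (𝒞.nw 0) (fun X hX => 𝒞.cj_mem_nw hb hX)
    ⟨K, E, fun X hX j i k => by
      have h := hg 0 j X hX
      rw [LinearMap.zero_apply, mul_zero, Real.exp_zero, mul_one, Subgroup.coe_zpow] at h
      exact (abs_le_nrm _ i k).trans h⟩
  have hlie : ∀ X ∈ 𝒞.nw 0, ∀ Y ∈ 𝒞.nw 0, X * Y - Y * X ∈ 𝒞.nw 0 := by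
    intro X hX Y hY
    have h := 𝒞.bracket_mem_nw hX hY
    rwa [add_zero] at h
  obtain ⟨U, c, h6, h7, h8⟩ := hN D.n (𝒞.nw 0) hlie
    (fun X hX => ⟨D.n, lie_pow_zero D (𝒞.nw_le 0 hX)⟩) u h3
    (fun X hX => (h4 X hX).2.2.1) (fun X hX => (h4 X hX).2.2.2)
  refine ⟨s, u, h1, h2, fun X hX => ⟨(h4 X hX).1, ?_⟩, ⟨(D.n : ℝ) * (D.n * A), ?_⟩, U, h6,
    fun X hX => h7 _ ?_, ?_⟩
  · rw [cj_apply, inv_inv]
    exact (h4 X hX).2.1
  · intro X hX j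
    have := nrm_le (M := cj (s ^ j) X) (C := A * nrm X) fun i k => h5 X hX j i k
    refine this.trans (le_of_eq ?_)
    ring
  · rw [coe_exG]
    exact ex_sub_one_mem hX
  · exact (Subgroup.isNilpotent_iff_lowerCentralSeries U).2 ⟨c, h8⟩

end main

end Crest.Agent.R182.ModelSub
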