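/-
R182, module MODEL (helper860): left and right translations of a nilpotent group law given by a Lie
polynomial preserve Lebesgue measure in linear coordinates; linear automorphisms of determinant
`±1` preserve Lebesgue measure; the fields `vol_left`, `vol_right`, `vol_Ad` of `BModel`.
-/
import Mathlib
import Crest.Agent.R182.ModelHaar
import Crest.Agent.R182.ModelBas2
import Crest.Agent.R182.NbStar

set_option autoImplicit false
set_option linter.unusedSectionVars false

namespace Crest.Agent.R182.ModelVol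

open MvPolynomial MeasureTheory Crest.Agent.R182.Polyc Crest.Agent.R182.ModelCount
  Crest.Agent.R182.Nb

section abstract

variable {L : Type*} [LieRing L] [LieAlgebra ℝ L] {r : ℕ} (bas : Module.Basis (Fin r) ℝ L)
variable {σ τ : Type*}

/-- an `L`-valued function with polynomial coordinates -/
def PL (f : (σ → ℝ) → L) : Prop := ∀ i, IsPoly (fun x => bas.repr (f x) i)

variable {bas}

theorem PL.lie {f g : (σ → ℝ) → L} (hf : PL bas f) (hg : PL bas g) :
    PL bas (fun x => ⁅f x, g x⁆) := by
  intro l
  have key : ∀ x, bas.repr ⁅f x, g x⁆ l = ∑ i ∈ Finset.univ, ∑ j ∈ Finset.univ,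
      bas.repr (f x) i * bas.repr (g x) j * bas.repr ⁅bas i, bas j⁆ l := by
    intro x
    conv_lhs => rw [← bas.sum_repr (f x), ← bas.sum_repr (g x)]
    rw [sum_lie, map_sum, Finsupp.coe_finsetSum, Finset.sum_apply]
    refine Finset.sum_congr rfl fun i _ => ?_
    rw [lie_sum, map_sum, Finsupp.coe_finsetSum, Finset.sum_apply]
    refine Finset.sum_congr rfl fun j _ => ?_
    rw [smul_lie, lie_smul, smul_smul, map_smul, Finsupp.smul_apply, smul_eq_mul]
  simp only [key]
  exact Polyc.IsPoly.sum _ fun i _ => Polyc.IsPoly.sum _ fun j _ =>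
    ((hf i).mul (hg j)).mul (Polyc.IsPoly.const _)

theorem PL.mon {v : (σ → ℝ) → τ → L} (hv : ∀ s, PL bas (fun x => v x s)) (κ : List τ) :
    PL bas (fun x => Nb.mon (v x) κ) := by
  induction κ with
  | nil =>
    intro i
    simp only [Nb.mon_nil, map_zero, Finsupp.coe_zero, Pi.zero_apply]
    exact Polyc.IsPoly.const 0
  | cons i κ ih =>
    by_cases h : κ = []
    · subst h; simp only [Nb.mon_single]; exact hv i
    · simp only [Nb.mon_cons _ i h]
      exact (hv i).lie ih

theorem PL.lp {f : (τ → L) → L} (hf : f ∈ LP τ L) {v : (σ → ℝ) → τ → L}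
    (hv : ∀ s, PL bas (fun x => v x s)) : PL bas (fun x => f (v x)) := by
  induction hf using Submodule.span_induction with
  | mem f hf =>
    obtain ⟨κ, rfl⟩ := hf
    exact PL.mon hv κ
  | zero =>
    intro i
    simp only [Pi.zero_apply, map_zero, Finsupp.coe_zero]
    exact Polyc.IsPoly.const 0
  | add f g _ _ hf hg =>
    intro i
    simp only [Pi.add_apply, map_add, Finsupp.add_apply]
    exact (hf i).add (hg i)
  | smul c f _ hf =>
    intro i
    simp only [Pi.smul_apply, map_smul, Finsupp.smul_apply, smul_eq_mul]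
    exact (Polyc.IsPoly.const c).mul (hf i)

theorem PL.op (S : Nb.Star L) {f g : (σ → ℝ) → L} (hf : PL bas f) (hg : PL bas g) :
    PL bas (fun x => S.op (f x) (g x)) := by
  have := PL.lp (bas := bas) S.lp (v := fun x b => if b = false then f x else g x) (by
    intro s
    cases s
    · simpa using hf
    · simpa using hg)
  simpa using this

theorem PL.neg {f : (σ → ℝ) → L} (hf : PL bas f) : PL bas (fun x => - f x) := by
  intro i
  simp only [map_neg, Finsupp.neg_apply]
  exact (hf i).neg

variable (bas)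

/-- the coordinate map -/
theorem PL.coord (g : Fin r → σ) : PL bas (fun z : σ → ℝ => bas.equivFun.symm fun i => z (g i)) := by
  intro i
  have : (fun z : σ → ℝ => bas.repr (bas.equivFun.symm fun i => z (g i)) i) =
      fun z => z (g i) := by
    funext z
    rw [← Module.Basis.equivFun_apply, LinearEquiv.apply_symm_apply]
  rw [this]
  exact Polyc.IsPoly.coord _

theorem op_neg' (S : Nb.Star L) (x : L) : S.op (-x) x = 0 := by
  have := S.op_neg (-x)
  rwa [neg_neg] at this

theorem isPoly_continuous {f : (σ → ℝ) → (Fin r → ℝ)} (hf : ∀ i, IsPoly (fun x => f x i)) :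
    Continuous f := continuous_pi fun i => (hf i).continuous

/-- a measurable bijection with measurable inverse whose inverse preserves volumes of images -/
theorem mp_of_image {f g : (Fin r → ℝ) → (Fin r → ℝ)} (hf : Continuous f)
    (hgf : ∀ x, g (f x) = x) (hfg : ∀ x, f (g x) = x)
    (hvol : ∀ S : Set (Fin r → ℝ), MeasurableSet S → volume (g '' S) = volume S) :
    MeasurePreserving f volume volume := by
  refine ⟨hf.measurable, Measure.ext fun S hS => ?_⟩
  rw [Measure.map_apply hf.measurable hS]
  have : f ⁻¹' S = g '' S := by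
    ext x
    constructor
    · intro hx
      exact ⟨f x, hx, hgf x⟩
    · rintro ⟨y, hy, rfl⟩
      change f (g y) ∈ S
      rw [hfg]; exact hy
  rw [this, hvol S hS]

/-- left translations -/
theorem measurePreserving_left (S : Nb.Star L) (x : L) :
    MeasurePreserving (fun y : Fin r → ℝ => bas.equivFun (S.op x (bas.equivFun.symm y))) := by
  have hF : ∀ i, IsPoly (fun z : Fin r ⊕ Fin r → ℝ =>
      (bas.equivFun (S.op (bas.equivFun.symm fun a => z (Sum.inl a))
        (bas.equivFun.symm fun b => z (Sum.inr b)))) i) :=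
    fun i => (PL.coord bas Sum.inl).op S (PL.coord bas Sum.inr) i
  have hG : ∀ i, IsPoly (fun z : Fin r ⊕ Fin r → ℝ =>
      (bas.equivFun (S.op (-(bas.equivFun.symm fun a => z (Sum.inl a)))
        (bas.equivFun.symm fun b => z (Sum.inr b)))) i) :=
    fun i => ((PL.coord bas Sum.inl).neg).op S (PL.coord bas Sum.inr) i
  have hvol : ∀ (t : Fin r → ℝ) (A : Set (Fin r → ℝ)), MeasurableSet A →
      volume ((fun y : Fin r → ℝ => bas.equivFun (S.op (bas.equivFun.symm t)
        (bas.equivFun.symm y))) '' A) = volume A := by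
    intro t A hA
    refine volume_image_family
      (F := fun t y => bas.equivFun (S.op (bas.equivFun.symm t) (bas.equivFun.symm y)))
      (G := fun t y => bas.equivFun (S.op (-(bas.equivFun.symm t)) (bas.equivFun.symm y)))
      hF hG ?_ (t₀ := 0) ?_ t hA
    · intro t y
      rw [LinearEquiv.symm_apply_apply, ← S.assoc, op_neg', S.zero_op,
        LinearEquiv.apply_symm_apply]
    · intro y
      rw [map_zero, S.zero_op, LinearEquiv.apply_symm_apply]
  refine mp_of_image (g := fun y => bas.equivFun (S.op (-x) (bas.equivFun.symm y))) ?_ ?_ ?_ ?_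
  · refine isPoly_continuous fun i => ?_
    have hc : PL bas (fun _ : Fin r → ℝ => x) := fun i => Polyc.IsPoly.const _
    exact hc.op S (PL.coord bas id) i
  · intro y
    rw [LinearEquiv.symm_apply_apply, ← S.assoc, op_neg', S.zero_op, LinearEquiv.apply_symm_apply]
  · intro y
    rw [LinearEquiv.symm_apply_apply, ← S.assoc, S.op_neg, S.zero_op, LinearEquiv.apply_symm_apply]
  · intro A hA
    have := hvol (bas.equivFun (-x)) A hA
    rwa [LinearEquiv.symm_apply_apply] at this

/-- right translations -/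
theorem measurePreserving_right (S : Nb.Star L) (x : L) :
    MeasurePreserving (fun y : Fin r → ℝ => bas.equivFun (S.op (bas.equivFun.symm y) x)) := by
  have hF : ∀ i, IsPoly (fun z : Fin r ⊕ Fin r → ℝ =>
      (bas.equivFun (S.op (bas.equivFun.symm fun b => z (Sum.inr b))
        (bas.equivFun.symm fun a => z (Sum.inl a)))) i) :=
    fun i => (PL.coord bas Sum.inr).op S (PL.coord bas Sum.inl) i
  have hG : ∀ i, IsPoly (fun z : Fin r ⊕ Fin r → ℝ =>
      (bas.equivFun (S.op (bas.equivFun.symm fun b => z (Sum.inr b))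
        (-(bas.equivFun.symm fun a => z (Sum.inl a))))) i) :=
    fun i => (PL.coord bas Sum.inr).op S ((PL.coord bas Sum.inl).neg) i
  have hvol : ∀ (t : Fin r → ℝ) (A : Set (Fin r → ℝ)), MeasurableSet A →
      volume ((fun y : Fin r → ℝ => bas.equivFun (S.op (bas.equivFun.symm y)
        (bas.equivFun.symm t))) '' A) = volume A := by
    intro t A hA
    refine volume_image_family
      (F := fun t y => bas.equivFun (S.op (bas.equivFun.symm y) (bas.equivFun.symm t)))
      (G := fun t y => bas.equivFun (S.op (bas.equivFun.symm y) (-(bas.equivFun.symm t))))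
      hF hG ?_ (t₀ := 0) ?_ t hA
    · intro t y
      rw [LinearEquiv.symm_apply_apply, S.assoc, S.op_neg, S.op_zero,
        LinearEquiv.apply_symm_apply]
    · intro y
      rw [map_zero, S.op_zero, LinearEquiv.apply_symm_apply]
  refine mp_of_image (g := fun y => bas.equivFun (S.op (bas.equivFun.symm y) (-x))) ?_ ?_ ?_ ?_
  · refine isPoly_continuous fun i => ?_
    have hc : PL bas (fun _ : Fin r → ℝ => x) := fun i => Polyc.IsPoly.const _
    exact (PL.coord bas id).op S hc i
  · intro y
    rw [LinearEquiv.symm_apply_apply, S.assoc, S.op_neg, S.op_zero, LinearEquiv.apply_symm_apply]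
  · intro y
    rw [LinearEquiv.symm_apply_apply, S.assoc, op_neg', S.op_zero, LinearEquiv.apply_symm_apply]
  · intro A hA
    have := hvol (bas.equivFun (-x)) A hA
    rwa [LinearEquiv.symm_apply_apply] at this

/-- linear automorphisms of determinant `±1` -/
theorem measurePreserving_linear (φ : L ≃ₗ[ℝ] L) (hφ : |LinearMap.det (φ : L →ₗ[ℝ] L)| = 1) :
    MeasurePreserving (fun y : Fin r → ℝ => bas.equivFun (φ (bas.equivFun.symm y))) := by
  set f : (Fin r → ℝ) →ₗ[ℝ] (Fin r → ℝ) :=
    (bas.equivFun : L →ₗ[ℝ] (Fin r → ℝ)) ∘ₗ (φ : L →ₗ[ℝ] L) ∘ₗ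
      (bas.equivFun.symm : (Fin r → ℝ) →ₗ[ℝ] L) with hf
  have hdet : LinearMap.det f = LinearMap.det (φ : L →ₗ[ℝ] L) := by
    rw [hf]; exact LinearMap.det_conj _ _
  have hne : LinearMap.det f ≠ 0 := by
    intro h0
    rw [← hdet, h0, abs_zero] at hφ
    exact zero_ne_one hφ
  have hc : Continuous f := LinearMap.continuous_of_finiteDimensional f
  have hfun : (fun y : Fin r → ℝ => bas.equivFun (φ (bas.equivFun.symm y))) = f := rfl
  rw [hfun]
  refine ⟨hc.measurable, ?_⟩
  rw [Measure.map_linearMap_addHaar_eq_smul_addHaar volume hne, abs_inv, hdet, hφ, inv_one,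
    ENNReal.ofReal_one, one_smul]

end abstract

section instance'

open Crest.Agent.R182.ModelWt Crest.Agent.R182.Model

attribute [local instance] Matrix.linftyOpNormedRing Matrix.linftyOpNormedAlgebra

variable {Γ : Type*} [Group Γ] {N : Subgroup Γ} [hN : N.Normal]
  {D : EmbData Γ N} {k : ℕ} {π₁ : G1 D →* Multiplicative (Fin k → ℤ)} {𝒞 : Cartan D π₁}

theorem vol_left (𝒷 : AdBas 𝒞) (x : 𝒞.eA) : MeasurePreserving
    (fun y : Fin 𝒷.r → ℝ => 𝒷.bas.equivFun (𝒞.starE.op x (𝒷.bas.equivFun.symm y))) :=
  measurePreserving_left 𝒷.bas 𝒞.starE x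

theorem vol_right (𝒷 : AdBas 𝒞) (x : 𝒞.eA) : MeasurePreserving
    (fun y : Fin 𝒷.r → ℝ => 𝒷.bas.equivFun (𝒞.starE.op (𝒷.bas.equivFun.symm y) x)) :=
  measurePreserving_right 𝒷.bas 𝒞.starE x

theorem vol_Ad (𝒷 : AdBas 𝒞)
    (hs : ∀ v : Fin k → ℤ, ∃ γ : Γ, Multiplicative.toAdd (π₁ (inΓ D γ)) = v) (g : G1 D) :
    MeasurePreserving
      (fun y : Fin 𝒷.r → ℝ => 𝒷.bas.equivFun (𝒞.AdE g (𝒷.bas.equivFun.symm y))) :=
  measurePreserving_linear 𝒷.bas (𝒞.AdE g) (AdBas.abs_det_AdE 𝒷 hs g)

end instance'

end Crest.Agent.R182.ModelVol
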