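/-
R182, module MODEL (M5, part 2, helper658): logarithmic length of polynomial maps into the
exponential of the ideal generated by the nonzero weight spaces.
-/
import Mathlib
import Crest.Agent.R182.ModelDist1

set_option autoImplicit false

namespace Crest.Agent.R182.ModelDist

open Polyc Model

variable {Γ : Type*} [Group Γ] {N : Subgroup Γ} {D : EmbData Γ N} {W : Type*} [AddCommGroup W]
  {V : W → Submodule ℝ (Matrix (Fin D.n) (Fin D.n) ℝ)}

/-! ### products modulo the filtration -/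

/-- `g ∈ N_ℝ` with logarithm `≡ Y` modulo the next filtration step. -/
structure Cong (V : W → Submodule ℝ (Matrix (Fin D.n) (Fin D.n) ℝ)) (j : ℕ)
    (g : (Matrix (Fin D.n) (Fin D.n) ℝ)ˣ) (Y : Matrix (Fin D.n) (Fin D.n) ℝ) : Prop where
  mem : g ∈ D.NR
  lg : lg (g : Matrix (Fin D.n) (Fin D.n) ℝ) - Y ∈ eN V (j + 1)
  Y_mem : Y ∈ eN V j

theorem Cong.lg_mem {j : ℕ} {g : (Matrix (Fin D.n) (Fin D.n) ℝ)ˣ}
    {Y : Matrix (Fin D.n) (Fin D.n) ℝ} (h : Cong V j g Y) :
    Model.lg (g : Matrix (Fin D.n) (Fin D.n) ℝ) ∈ eN V j := by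
  have h1 := Submodule.add_mem _ (eN_anti (Nat.le_succ j) h.lg) h.Y_mem
  rwa [sub_add_cancel] at h1

/-- product of elements of `exp(𝔢_j)` modulo `𝔢_{j+1}` and more precisely modulo `𝔢_i` if the
bracket is there. -/
theorem Wts.lg_mul (hV : Wts D V) {i : ℕ} {X Y : Matrix (Fin D.n) (Fin D.n) ℝ} (hX : X ∈ lie D)
    (hY : Y ∈ lie D) (hXY : X * Y - Y * X ∈ eN V i) :
    lg (ex X * ex Y) - (X + Y) ∈ eN V i :=
  lg_mul_ideal (hV.eN_le i) hX hY (fun _ hZ => hV.br_lie hX hZ) (fun _ hZ => hV.br_lie hY hZ)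
    (fun _ hU _ hZ => hV.br_lie (hV.eN_le i hU) hZ) hXY

theorem lg_one : lg (1 : Matrix (Fin D.n) (Fin D.n) ℝ) = 0 := by
  have h0 := lg_ex (lie_pow_zero D (lie D).zero_mem)
  rwa [ex_zero] at h0

theorem Cong.one (j : ℕ) : Cong V j (1 : (Matrix (Fin D.n) (Fin D.n) ℝ)ˣ) 0 where
  mem := D.NR.one_mem
  lg := by rw [Units.val_one, lg_one, sub_zero]; exact Submodule.zero_mem _
  Y_mem := Submodule.zero_mem _

theorem Cong.mul (hV : Wts D V) {j : ℕ} {g g' : (Matrix (Fin D.n) (Fin D.n) ℝ)ˣ}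
    {Y Y' : Matrix (Fin D.n) (Fin D.n) ℝ} (h : Cong V j g Y) (h' : Cong V j g' Y') :
    Cong V j (g * g') (Y + Y') where
  mem := D.NR.mul_mem h.mem h'.mem
  lg := by
    have h1 := hV.lg_mul (i := j + 1) (lg_mem_lie D h.mem) (lg_mem_lie D h'.mem)
      (eN_anti (by omega) (br_eN h.lg_mem h'.lg_mem))
    rw [ex_lg (D.unip_NR h.mem), ex_lg (D.unip_NR h'.mem), ← Units.val_mul] at h1
    have e : Model.lg ((g * g' : (Matrix (Fin D.n) (Fin D.n) ℝ)ˣ) :
        Matrix (Fin D.n) (Fin D.n) ℝ) - (Y + Y') =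
        (Model.lg ((g * g' : (Matrix (Fin D.n) (Fin D.n) ℝ)ˣ) : Matrix (Fin D.n) (Fin D.n) ℝ) -
          (Model.lg (g : Matrix (Fin D.n) (Fin D.n) ℝ) +
            Model.lg (g' : Matrix (Fin D.n) (Fin D.n) ℝ))) +
        ((Model.lg (g : Matrix (Fin D.n) (Fin D.n) ℝ) - Y) +
          (Model.lg (g' : Matrix (Fin D.n) (Fin D.n) ℝ) - Y')) := by abel
    rw [e]
    exact Submodule.add_mem _ h1 (Submodule.add_mem _ h.lg h'.lg)
  Y_mem := Submodule.add_mem _ h.Y_mem h'.Y_mem

theorem lg_inv {g : (Matrix (Fin D.n) (Fin D.n) ℝ)ˣ} (hg : g ∈ D.NR) :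
    lg ((g⁻¹ : (Matrix (Fin D.n) (Fin D.n) ℝ)ˣ) : Matrix (Fin D.n) (Fin D.n) ℝ) =
      -lg (g : Matrix (Fin D.n) (Fin D.n) ℝ) := by
  have h0 := lg_pow_zero (D.unip_NR hg)
  have h1 : ((g⁻¹ : (Matrix (Fin D.n) (Fin D.n) ℝ)ˣ) : Matrix (Fin D.n) (Fin D.n) ℝ) =
      ex (-lg (g : Matrix (Fin D.n) (Fin D.n) ℝ)) := by
    have h2 := ex_neg_mul_ex h0
    rw [ex_lg (D.unip_NR hg)] at h2
    calc ((g⁻¹ : (Matrix (Fin D.n) (Fin D.n) ℝ)ˣ) : Matrix (Fin D.n) (Fin D.n) ℝ) =
        (ex (-lg (g : Matrix (Fin D.n) (Fin D.n) ℝ)) * g) *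
          ((g⁻¹ : (Matrix (Fin D.n) (Fin D.n) ℝ)ˣ) : Matrix (Fin D.n) (Fin D.n) ℝ) := by
          rw [h2, one_mul]
      _ = _ := by rw [mul_assoc, Units.mul_inv, mul_one]
  rw [h1, lg_ex (by rw [neg_pow, h0, mul_zero])]

theorem Cong.inv {j : ℕ} {g : (Matrix (Fin D.n) (Fin D.n) ℝ)ˣ}
    {Y : Matrix (Fin D.n) (Fin D.n) ℝ} (h : Cong V j g Y) : Cong V j g⁻¹ (-Y) where
  mem := D.NR.inv_mem h.mem
  lg := by
    rw [lg_inv h.mem]
    have e : -Model.lg (g : Matrix (Fin D.n) (Fin D.n) ℝ) - -Y =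
      -(Model.lg (g : Matrix (Fin D.n) (Fin D.n) ℝ) - Y) := by abel
    rw [e]
    exact Submodule.neg_mem _ h.lg
  Y_mem := Submodule.neg_mem _ h.Y_mem

theorem Wts.cong_exU (hV : Wts D V) {j : ℕ} {Y : Matrix (Fin D.n) (Fin D.n) ℝ}
    (hY : Y ∈ eN V j) : Cong V j (exU Y (lie_pow_zero D (hV.eN_le j hY))) Y where
  mem := exU_mem_of_lie D (hV.eN_le j hY)
  lg := by
    have h0 := lie_pow_zero D (hV.eN_le j hY)
    show lg (ex Y) - Y ∈ _
    rw [lg_ex h0, sub_self]; exact Submodule.zero_mem _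
  Y_mem := hY

/-- product of a list modulo the filtration -/
theorem Cong.list (hV : Wts D V) {j : ℕ} (l : List ((Matrix (Fin D.n) (Fin D.n) ℝ)ˣ ×
    Matrix (Fin D.n) (Fin D.n) ℝ)) (h : ∀ p ∈ l, Cong V j p.1 p.2) :
    Cong V j (l.map Prod.fst).prod (l.map Prod.snd).sum := by
  induction l with
  | nil => simpa using Cong.one j
  | cons p l ih =>
    simp only [List.map_cons, List.prod_cons, List.sum_cons]
    exact (h p (by simp)).mul hV (ih fun q hq => h q (by simp [hq]))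

/-- the group commutator `(exp a, exp b)` -/
theorem Wts.cong_comm (hV : Wts D V) {a b : Matrix (Fin D.n) (Fin D.n) ℝ} {j : ℕ}
    (ha : a ∈ eN V 0) (hb : b ∈ eN V j) :
    Cong V (j + 1) (exU a (lie_pow_zero D (hV.eN_le 0 ha)) *
      exU b (lie_pow_zero D (hV.eN_le j hb)) * (exU a (lie_pow_zero D (hV.eN_le 0 ha)))⁻¹ *
      (exU b (lie_pow_zero D (hV.eN_le j hb)))⁻¹) (a * b - b * a) where
  mem := by
    have h1 := exU_mem_of_lie D (hV.eN_le 0 ha)
    have h2 := exU_mem_of_lie D (hV.eN_le j hb)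
    exact D.NR.mul_mem (D.NR.mul_mem (D.NR.mul_mem h1 h2) (D.NR.inv_mem h1)) (D.NR.inv_mem h2)
  lg := by
    have han := lie_pow_zero D (hV.eN_le 0 ha)
    have hbn := lie_pow_zero D (hV.eN_le j hb)
    have hc1 := hV.conj_mem ha hb 1
    have hc2 := hV.conj_sub ha hb 1
    have hc3 := hV.conj_sub₂ ha hb 1
    rw [one_smul, one_smul] at hc1 hc2
    rw [one_smul, one_smul, one_smul] at hc3
    set b' := ex a * b * ex (-a) with hb'
    have hval : ((exU a han * exU b hbn * (exU a han)⁻¹ * (exU b hbn)⁻¹ :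
        (Matrix (Fin D.n) (Fin D.n) ℝ)ˣ) : Matrix (Fin D.n) (Fin D.n) ℝ) = ex b' * ex (-b) := by
      have e1 : ex b' = ex a * ex b * ex (-a) :=
        ex_conj (ex_mul_ex_neg han) (ex_neg_mul_ex han)
      rw [e1]
      rfl
    rw [hval]
    have hnb : -b ∈ eN V j := Submodule.neg_mem _ hb
    have h1 := hV.lg_mul (i := j + 1 + 1) (X := b') (Y := -b) (hV.eN_le j hc1) (hV.eN_le j hnb)
      (by
        have h2 := br_eN hc2 hnb
        have e : b' * -b - -b * b' = (b' - b) * -b - -b * (b' - b) := by noncomm_ring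
        rw [e]
        exact eN_anti (by omega) h2)
    have e : lg (ex b' * ex (-b)) - (a * b - b * a) =
        (lg (ex b' * ex (-b)) - (b' + -b)) + (b' - b - (a * b - b * a)) := by abel
    rw [e]
    exact Submodule.add_mem _ h1 hc3
  Y_mem := by
    have := br_eN ha hb
    rwa [Nat.zero_add] at this

/-! ### polynomial growth of polynomial functions -/

theorem poly_bound {σ : Type*} [Fintype σ] {f : (σ → ℝ) → ℝ} (hf : IsPoly f) :
    ∃ (C : ℝ) (d : ℕ), 0 ≤ C ∧ ∀ s, |f s| ≤ C * (2 + ‖s‖) ^ d := by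
  obtain ⟨p, hp⟩ := hf
  refine ⟨∑ m ∈ p.support, |p.coeff m|, p.totalDegree, Finset.sum_nonneg fun _ _ => abs_nonneg _,
    fun s => ?_⟩
  rw [hp, MvPolynomial.eval_eq']
  refine (Finset.abs_sum_le_sum_abs _ _).trans ?_
  rw [Finset.sum_mul]
  refine Finset.sum_le_sum fun m hm => ?_
  rw [abs_mul]
  refine mul_le_mul_of_nonneg_left ?_ (abs_nonneg _)
  rw [Finset.abs_prod]
  have h1 : (1 : ℝ) ≤ 2 + ‖s‖ := by have := norm_nonneg s; linarith
  calc ∏ i, |s i ^ m i| ≤ ∏ i, (2 + ‖s‖) ^ m i := by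
        refine Finset.prod_le_prod (fun _ _ => abs_nonneg _) fun i _ => ?_
        rw [abs_pow]
        refine pow_le_pow_left₀ (abs_nonneg _) ?_ _
        have := norm_le_pi_norm s i
        rw [Real.norm_eq_abs] at this
        linarith
    _ = (2 + ‖s‖) ^ (∑ i, m i) := by rw [Finset.prod_pow_eq_pow_sum]
    _ ≤ (2 + ‖s‖) ^ p.totalDegree := by
        refine pow_le_pow_right₀ h1 ?_
        have := MvPolynomial.le_totalDegree hm
        rwa [Finsupp.sum_fintype _ _ (fun _ => rfl)] at this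

theorem log_poly_bound {σ : Type*} [Fintype σ] {f : (σ → ℝ) → ℝ} (hf : IsPoly f) :
    ∃ C : ℝ, 0 ≤ C ∧ ∀ s, Real.log (2 + |f s|) ≤ C * Real.log (2 + ‖s‖) := by
  obtain ⟨C, d, hC, h⟩ := poly_bound hf
  have hlog2 : 0 < Real.log 2 := Real.log_pos (by norm_num)
  refine ⟨Real.log (2 + C) / Real.log 2 + d, by
    have : 0 ≤ Real.log (2 + C) := Real.log_nonneg (by linarith)
    positivity, fun s => ?_⟩
  have hs : (1 : ℝ) ≤ 2 + ‖s‖ := by have := norm_nonneg s; linarith
  have hpow : (1 : ℝ) ≤ (2 + ‖s‖) ^ d := one_le_pow₀ hs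
  have h1 : 2 + |f s| ≤ (2 + C) * (2 + ‖s‖) ^ d := by
    have := h s
    nlinarith
  have h2 : Real.log (2 + |f s|) ≤ Real.log (2 + C) + d * Real.log (2 + ‖s‖) := by
    rw [← Real.log_pow, ← Real.log_mul (by positivity) (by positivity)]
    exact Real.log_le_log (by positivity) h1
  have h3 : Real.log 2 ≤ Real.log (2 + ‖s‖) :=
    Real.log_le_log (by norm_num) (by have := norm_nonneg s; linarith)
  have h4 : 0 ≤ Real.log (2 + C) := Real.log_nonneg (by linarith)
  have h5 : Real.log (2 + C) ≤ Real.log (2 + C) / Real.log 2 * Real.log (2 + ‖s‖) := by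
    rw [div_mul_eq_mul_div, le_div_iff₀ hlog2]
    exact mul_le_mul_of_nonneg_left h3 h4
  linarith

/-! ### logarithmic length -/

section Len

variable [hN : N.Normal] {S : Set Γ} {C₀ : ℝ}

/-- `g` belongs to `G1` and has length at most `B`. -/
def LL (D : EmbData Γ N) (C₀ : ℝ) (g : (Matrix (Fin D.n) (Fin D.n) ℝ)ˣ) (B : ℝ) : Prop :=
  ∃ h : g ∈ G1 D, (len D C₀ ⟨g, h⟩ : ℝ) ≤ B

omit [AddCommGroup W] in
theorem LL.mono {g : (Matrix (Fin D.n) (Fin D.n) ℝ)ˣ} {B B' : ℝ} (h : LL D C₀ g B)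
    (hB : B ≤ B') : LL D C₀ g B' := ⟨h.1, h.2.trans hB⟩

theorem LL.mul (hS : Big D S C₀) {g g' : (Matrix (Fin D.n) (Fin D.n) ℝ)ˣ} {B B' : ℝ}
    (h : LL D C₀ g B) (h' : LL D C₀ g' B') : LL D C₀ (g * g') (B + B') := by
  refine ⟨(G1 D).mul_mem h.1 h'.1, ?_⟩
  have h1 := hS.isLen.mul ⟨g, h.1⟩ ⟨g', h'.1⟩
  exact h1.trans (add_le_add h.2 h'.2)

theorem LL.inv (hS : Big D S C₀) {g : (Matrix (Fin D.n) (Fin D.n) ℝ)ˣ} {B : ℝ}
    (h : LL D C₀ g B) : LL D C₀ g⁻¹ B := by
  refine ⟨(G1 D).inv_mem h.1, ?_⟩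
  have h1 := hS.isLen.inv ⟨g, h.1⟩
  exact h1.le.trans h.2

theorem LL.one (hS : Big D S C₀) : LL D C₀ 1 0 :=
  ⟨(G1 D).one_mem, hS.isLen.one.le⟩

theorem LL.list (hS : Big D S C₀) (l : List ((Matrix (Fin D.n) (Fin D.n) ℝ)ˣ)) {B : ℝ}
    (h : ∀ g ∈ l, LL D C₀ g B) : LL D C₀ l.prod (l.length * B) := by
  induction l with
  | nil => simpa using LL.one hS
  | cons g l ih =>
    rw [List.prod_cons, List.length_cons]
    refine ((h g (by simp)).mul hS (ih fun g' hg' => h g' (by simp [hg']))).mono ?_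
    push_cast
    linarith

/-- polynomial maps into `exp 𝔢_j` have logarithmic length. -/
theorem loglen (hS : Big D S C₀) (hV : Wts D V)
    (hlog : ∀ X ∈ T0 V, ∃ C : ℝ, 0 ≤ C ∧ ∀ (p : ℝ) (h : (p • X) ^ D.n = 0),
      LL D C₀ (exU (p • X) h) (C * Real.log (2 + |p|)))
    {σ : Type*} [Fintype σ] (d : ℕ) : ∀ j, eN V (j + d) = ⊥ →
    ∀ F : (σ → ℝ) → Matrix (Fin D.n) (Fin D.n) ℝ, IsPolyM F → ∀ hF : (∀ s, F s ∈ eN V j),
      ∃ C : ℝ, 0 ≤ C ∧ ∀ s, LL D C₀ (exU (F s) (lie_pow_zero D (hV.eN_le j (hF s))))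
        (C * Real.log (2 + ‖s‖)) := by
  classical
  induction d with
  | zero =>
    intro j hj F _ hF
    refine ⟨0, le_rfl, fun s => ?_⟩
    have h1 : F s = 0 := by
      have := hF s
      rw [show j = j + 0 by rfl, hj] at this
      simpa using this
    have h2 : exU (F s) (lie_pow_zero D (hV.eN_le j (hF s))) = 1 := by
      apply Units.ext
      show ex (F s) = 1
      rw [h1, ex_zero]
    rw [h2, zero_mul]
    exact LL.one hS
  | succ d ih =>
    intro j hj F hFp hF
    -- a finite spanning subset of `T V j`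
    obtain ⟨t, htT, htspan⟩ : ∃ t : Finset (Matrix (Fin D.n) (Fin D.n) ℝ), (t : Set _) ⊆ T V j ∧
        Submodule.span ℝ (T V j) = Submodule.span ℝ (t : Set _) := by
      have hfg : (Submodule.span ℝ (T V j)).FG := IsNoetherian.noetherian _
      obtain ⟨t, ht1, ht2⟩ := Submodule.fg_span_iff_fg_span_finset_subset (T V j) |>.mp hfg
      exact ⟨t, ht1, ht2⟩
    -- the families
    have hfam : ∀ B ∈ T V j, ∃ g : ℝ → (Matrix (Fin D.n) (Fin D.n) ℝ)ˣ,
        (∀ p, Cong V j (g p) (p • B)) ∧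
        (∀ f : (σ → ℝ) → ℝ, IsPoly f → IsPolyU (fun s => g (f s))) ∧
        ∃ C : ℝ, 0 ≤ C ∧ ∀ p, LL D C₀ (g p) (C * Real.log (2 + |p|)) := by
      have hone : ∀ B ∈ T0 V, B ∈ T V j → ∃ g : ℝ → (Matrix (Fin D.n) (Fin D.n) ℝ)ˣ,
          (∀ p, Cong V j (g p) (p • B)) ∧
          (∀ f : (σ → ℝ) → ℝ, IsPoly f → IsPolyU (fun s => g (f s))) ∧
          ∃ C : ℝ, 0 ≤ C ∧ ∀ p, LL D C₀ (g p) (C * Real.log (2 + |p|)) := by
        intro B hB0 hBj
        have hBe : ∀ p : ℝ, p • B ∈ eN V j := fun p => Submodule.smul_mem _ _ (T_mem_eN hBj)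
        obtain ⟨C, hC, hCl⟩ := hlog B hB0
        refine ⟨fun p => exU (p • B) (lie_pow_zero D (hV.eN_le j (hBe p))),
          fun p => hV.cong_exU (hBe p), fun f hf => ?_, C, hC, fun p => hCl p _⟩
        exact isPolyU_exU D (IsPolyM.smul hf (IsPolyM.const B)) _
      intro B hB
      cases j with
      | zero => exact hone B hB hB
      | succ j =>
        obtain ⟨x, hx, w, hw, rfl⟩ := hB
        by_cases hB0 : x * w - w * x ∈ T0 V
        · exact hone _ hB0 ⟨x, hx, w, hw, rfl⟩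
        -- then `w` has nonzero weight
        have hw0 : w ∈ T0 V := by
          obtain ⟨μ, hμ, hxμ⟩ := hx
          obtain ⟨ν, hwν⟩ := hV.T_hom hw
          have hsum : μ + ν = 0 := by
            by_contra hne
            exact hB0 ⟨μ + ν, hne, hV.br μ ν x hxμ w hwν⟩
          refine ⟨ν, fun hν => ?_, hwν⟩
          rw [hν, add_zero] at hsum
          exact hμ hsum
        have hxe : ∀ p : ℝ, p • x ∈ eN V 0 := fun p =>
          Submodule.smul_mem _ _ (T_mem_eN (j := 0) hx)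
        have hwe : w ∈ eN V j := T_mem_eN hw
        obtain ⟨C, hC, hCl⟩ := hlog x hx
        obtain ⟨C', hC', hCl'⟩ := hlog w hw0
        have hlw : LL D C₀ (exU w (lie_pow_zero D (hV.eN_le j hwe)))
            (C' * Real.log (2 + 1)) := by
          have h1 := hCl' 1 (by rw [one_smul]; exact lie_pow_zero D (hV.eN_le j hwe))
          rw [abs_one] at h1
          have h2 : exU ((1:ℝ) • w) (by rw [one_smul]; exact lie_pow_zero D (hV.eN_le j hwe)) =
              exU w (lie_pow_zero D (hV.eN_le j hwe)) := exU_congr _ _ (one_smul _ _)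
          rwa [h2] at h1
        refine ⟨fun p => exU (p • x) (lie_pow_zero D (hV.eN_le 0 (hxe p))) *
          exU w (lie_pow_zero D (hV.eN_le j hwe)) *
          (exU (p • x) (lie_pow_zero D (hV.eN_le 0 (hxe p))))⁻¹ *
          (exU w (lie_pow_zero D (hV.eN_le j hwe)))⁻¹, fun p => ?_, fun f hf => ?_, ?_⟩
        · have h1 := hV.cong_comm (hxe p) hwe
          have e : p • x * w - w * p • x = p • (x * w - w * x) := by
            rw [smul_mul_assoc, mul_smul_comm, smul_sub]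
          rwa [e] at h1
        · have h1 : IsPolyU (fun s => exU (f s • x) (lie_pow_zero D (hV.eN_le 0 (hxe (f s))))) :=
            isPolyU_exU D (IsPolyM.smul hf (IsPolyM.const x)) _
          exact ((h1.mul (IsPolyU.const _)).mul h1.inv).mul (IsPolyU.const _)
        · have hlog2 : 0 < Real.log 2 := Real.log_pos (by norm_num)
          refine ⟨2 * C + 2 * (C' * Real.log (2 + 1)) / Real.log 2, by
            have : 0 ≤ Real.log (2 + 1 : ℝ) := Real.log_nonneg (by norm_num)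
            positivity, fun p => ?_⟩
          have h1 := hCl p (lie_pow_zero D (hV.eN_le 0 (hxe p)))
          refine ((((h1.mul hS hlw).mul hS (h1.inv hS)).mul hS (hlw.inv hS))).mono ?_
          have h3 : Real.log 2 ≤ Real.log (2 + |p|) :=
            Real.log_le_log (by norm_num) (by have := abs_nonneg p; linarith)
          have h4 : 0 ≤ C' * Real.log (2 + 1) :=
            mul_nonneg hC' (Real.log_nonneg (by norm_num))
          have h5 : 2 * (C' * Real.log (2 + 1)) ≤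
              2 * (C' * Real.log (2 + 1)) / Real.log 2 * Real.log (2 + |p|) := by
            rw [div_mul_eq_mul_div, le_div_iff₀ hlog2]
            exact mul_le_mul_of_nonneg_left h3 (by linarith)
          linarith
    -- linear coefficients
    obtain ⟨c, hc⟩ : ∃ c : Matrix (Fin D.n) (Fin D.n) ℝ →ₗ[ℝ] (t → ℝ),
        ∀ X ∈ eN V j, X - ∑ B : t, c X B • (B : Matrix (Fin D.n) (Fin D.n) ℝ) ∈ eN V (j + 1) := by
      let L : (t → ℝ) →ₗ[ℝ] (Matrix (Fin D.n) (Fin D.n) ℝ ⧸ eN V (j + 1)) :=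
        (eN V (j + 1)).mkQ ∘ₗ (Fintype.linearCombination ℝ
          (fun B : t => (B : Matrix (Fin D.n) (Fin D.n) ℝ)))
      obtain ⟨s, hs⟩ := L.rangeRestrict.exists_rightInverse_of_surjective
        (LinearMap.range_rangeRestrict L)
      obtain ⟨g, hg⟩ := LinearMap.exists_extend s
      refine ⟨g ∘ₗ (eN V (j + 1)).mkQ, fun X hX => ?_⟩
      have hrange : (eN V (j + 1)).mkQ X ∈ L.range := by
        have h1 : eN V j ≤ (L.range).comap (eN V (j + 1)).mkQ := by
          refine Submodule.span_le.mpr ?_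
          rintro Z ⟨r, hr, hZ⟩
          rcases Nat.eq_or_lt_of_le hr with h | h
          · subst h
            have h2 : Z ∈ Submodule.span ℝ (t : Set (Matrix (Fin D.n) (Fin D.n) ℝ)) := by
              rw [← htspan]; exact Submodule.subset_span hZ
            have h3 : Submodule.span ℝ (t : Set (Matrix (Fin D.n) (Fin D.n) ℝ)) ≤
                (L.range).comap (eN V (j + 1)).mkQ := by
              refine Submodule.span_le.mpr ?_
              intro B hB
              refine ⟨Pi.single ⟨B, hB⟩ 1, ?_⟩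
              simp [L, Fintype.linearCombination_apply_single]
            exact h3 h2
          · have h2 : Z ∈ eN V (j + 1) := Submodule.subset_span ⟨r, h, hZ⟩
            show (eN V (j + 1)).mkQ Z ∈ L.range
            have h3 : (eN V (j + 1)).mkQ Z = 0 := by simpa using h2
            rw [h3]
            exact Submodule.zero_mem _
        exact h1 hX
      have h2 : L (g ((eN V (j + 1)).mkQ X)) = (eN V (j + 1)).mkQ X := by
        have h3 : g ((eN V (j + 1)).mkQ X) = s ⟨_, hrange⟩ := by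
          have := LinearMap.congr_fun hg ⟨_, hrange⟩
          simpa using this
        rw [h3]
        have h4 := LinearMap.congr_fun hs ⟨_, hrange⟩
        have h5 := congrArg Subtype.val h4
        simpa using h5
      have h3 : (eN V (j + 1)).mkQ (X - ∑ B : t, (g ∘ₗ (eN V (j + 1)).mkQ) X B •
          (B : Matrix (Fin D.n) (Fin D.n) ℝ)) = 0 := by
        rw [map_sub, sub_eq_zero]
        rw [← h2]
        simp [L, Fintype.linearCombination_apply]
      rw [Submodule.mkQ_apply] at h3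
      exact (Submodule.Quotient.mk_eq_zero _).mp h3
    choose! g hgC hgP K hK0 hgL using hfam
    -- the coefficients are polynomial
    have hcp : ∀ B : t, IsPoly (fun s => c (F s) B) := fun B =>
      hFp.linear ((LinearMap.proj B) ∘ₗ c)
    choose K' hK'0 hK' using fun B : t => log_poly_bound (hcp B)
    -- the product
    let l : List t := Finset.univ.toList
    let P : (σ → ℝ) → (Matrix (Fin D.n) (Fin D.n) ℝ)ˣ := fun s =>
      (l.map fun B : t => g B (c (F s) B)).prod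
    have hPC : ∀ s, Cong V j (P s) (∑ B : t, c (F s) B • (B : Matrix (Fin D.n) (Fin D.n) ℝ)) := by
      intro s
      have h1 := Cong.list hV (j := j) (l.map fun B : t => (g B (c (F s) B),
        c (F s) B • (B : Matrix (Fin D.n) (Fin D.n) ℝ))) (by
          intro p hp
          obtain ⟨B, -, rfl⟩ := List.mem_map.mp hp
          exact hgC B (htT B.2) _)
      rw [List.map_map, List.map_map] at h1
      have e : ((l.map (Prod.snd ∘ fun B : t => (g B (c (F s) B),
          c (F s) B • (B : Matrix (Fin D.n) (Fin D.n) ℝ)))).sum) =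
          ∑ B : t, c (F s) B • (B : Matrix (Fin D.n) (Fin D.n) ℝ) := by
        rw [Finset.sum_eq_multiset_sum, ← Finset.coe_toList, Multiset.map_coe, Multiset.sum_coe]
        rfl
      rw [e] at h1
      exact h1
    have hPP : IsPolyU P := by
      have h1 := IsPolyU.listProd (σ := σ) (l.map fun B : t => fun s => g B (c (F s) B)) (by
        intro f hf
        obtain ⟨B, -, rfl⟩ := List.mem_map.mp hf
        exact hgP B (htT B.2) _ (hcp B))
      have e : (fun x => ((l.map fun B : t => fun s => g B (c (F s) B)).map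
          (fun f => f x)).prod) = P := by
        funext s
        rw [List.map_map]
        rfl
      rwa [e] at h1
    have hPL : ∃ C : ℝ, 0 ≤ C ∧ ∀ s, LL D C₀ (P s) (C * Real.log (2 + ‖s‖)) := by
      refine ⟨l.length * ∑ B : t, K B * K' B, mul_nonneg (Nat.cast_nonneg _)
        (Finset.sum_nonneg fun B _ => mul_nonneg (hK0 B (htT B.2)) (hK'0 B)), fun s => ?_⟩
      have hlogs : 0 ≤ Real.log (2 + ‖s‖) :=
        Real.log_nonneg (by have := norm_nonneg s; linarith)
      have h1 := LL.list (C₀ := C₀) hS (l.map fun B : t => g B (c (F s) B))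
        (B := (∑ B : t, K B * K' B) * Real.log (2 + ‖s‖)) (by
          intro u hu
          obtain ⟨B, -, rfl⟩ := List.mem_map.mp hu
          refine (hgL B (htT B.2) _).mono ?_
          calc K B * Real.log (2 + |c (F s) B|) ≤ K B * (K' B * Real.log (2 + ‖s‖)) :=
                mul_le_mul_of_nonneg_left (hK' B s) (hK0 B (htT B.2))
            _ = (K B * K' B) * Real.log (2 + ‖s‖) := by ring
            _ ≤ _ := mul_le_mul_of_nonneg_right (Finset.single_le_sum
                (f := fun B : t => K B * K' B)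
                (fun B _ => mul_nonneg (hK0 B (htT B.2)) (hK'0 B)) (Finset.mem_univ B)) hlogs)
      rw [List.length_map, ← mul_assoc] at h1
      exact h1
    -- the remainder
    have huC : ∀ s, Cong V j ((P s)⁻¹ * exU (F s) (lie_pow_zero D (hV.eN_le j (hF s))))
        (-(∑ B : t, c (F s) B • (B : Matrix (Fin D.n) (Fin D.n) ℝ)) + F s) := fun s =>
      (hPC s).inv.mul hV (hV.cong_exU (hF s))
    have hulg : ∀ s, lg (((P s)⁻¹ * exU (F s) (lie_pow_zero D (hV.eN_le j (hF s))) :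
        (Matrix (Fin D.n) (Fin D.n) ℝ)ˣ) : Matrix (Fin D.n) (Fin D.n) ℝ) ∈ eN V (j + 1) := by
      intro s
      have h1 := (huC s).lg
      have h2 := hc (F s) (hF s)
      have h3 := Submodule.add_mem _ h1 h2
      have e : ∀ a b f : Matrix (Fin D.n) (Fin D.n) ℝ, a - (-b + f) + (f - b) = a := by
        intro a b f; abel
      rwa [e] at h3
    have huP : IsPolyU (fun s => (P s)⁻¹ *
        exU (F s) (lie_pow_zero D (hV.eN_le j (hF s)))) :=
      hPP.inv.mul (isPolyU_exU D hFp _)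
    obtain ⟨C', hC', hCl'⟩ := ih (j + 1) (by rwa [show j + 1 + d = j + (d + 1) by ring])
      (fun s => lg (((P s)⁻¹ * exU (F s) (lie_pow_zero D (hV.eN_le j (hF s))) :
        (Matrix (Fin D.n) (Fin D.n) ℝ)ˣ) : Matrix (Fin D.n) (Fin D.n) ℝ))
      (isPolyM_lg huP.1) hulg
    obtain ⟨C, hC, hCl⟩ := hPL
    refine ⟨C + C', by positivity, fun s => ?_⟩
    have h1 := (hCl s).mul hS (hCl' s)
    have h2 : exU (lg (((P s)⁻¹ * exU (F s) (lie_pow_zero D (hV.eN_le j (hF s))) :
        (Matrix (Fin D.n) (Fin D.n) ℝ)ˣ) : Matrix (Fin D.n) (Fin D.n) ℝ))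
        (lie_pow_zero D (hV.eN_le (j + 1) (hulg s))) =
        (P s)⁻¹ * exU (F s) (lie_pow_zero D (hV.eN_le j (hF s))) :=
      exU_lg D (huC s).mem
    rw [h2, mul_inv_cancel_left] at h1
    refine h1.mono ?_
    linarith

end Len

end Crest.Agent.R182.ModelDist
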