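/-
R182, module MODEL (helper658): logarithmic length on the ideal `𝔢`.
-/
import Mathlib
import Crest.Agent.R182.ModelBas2
import Crest.Agent.R182.ModelInst2
import Crest.Agent.R182.ModelDist2

set_option autoImplicit false
set_option linter.unusedSectionVars false

namespace Crest.Agent.R182.ModelX

open Module LinMod Polyc Model ModelWt ModelDist

variable {Γ : Type*} [Group Γ] {N : Subgroup Γ} [hN : N.Normal]
  {D : EmbData Γ N} {k : ℕ} {π₁ : G1 D →* Multiplicative (Fin k → ℤ)} {S : Set Γ} {C₀ : ℝ}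

/-- polynomials against exponentials -/
theorem exists_poly_exp (d : ℕ) {c : ℝ} (hc : 0 < c) :
    ∃ B : ℝ, 0 ≤ B ∧ ∀ m : ℕ, (1 + (m : ℝ)) ^ d * Real.exp (-(m * c)) ≤ B := by
  refine ⟨d.factorial / c ^ d * Real.exp c, by positivity, fun m => ?_⟩
  have h1 := Real.pow_div_factorial_le_exp (c * (1 + m)) (by positivity) d
  rw [div_le_iff₀ (by positivity), mul_pow] at h1
  have h2 : (1 + (m : ℝ)) ^ d ≤ d.factorial / c ^ d * Real.exp (c * (1 + m)) := by
    rw [div_mul_eq_mul_div, le_div_iff₀ (by positivity)]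
    linarith
  calc (1 + (m : ℝ)) ^ d * Real.exp (-(m * c))
      ≤ d.factorial / c ^ d * Real.exp (c * (1 + m)) * Real.exp (-(m * c)) :=
        mul_le_mul_of_nonneg_right h2 (Real.exp_pos _).le
    _ = d.factorial / c ^ d * Real.exp c := by
        rw [mul_assoc, ← Real.exp_add]
        congr 2
        ring

/-- an integer vector on which a nonzero functional is positive -/
theorem exists_pos_int {μ : (Fin k → ℝ) →ₗ[ℝ] ℝ} (hμ : μ ≠ 0) :
    ∃ v : Fin k → ℤ, 0 < μ (fun i => (v i : ℝ)) := by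
  by_contra hneg
  push Not at hneg
  apply hμ
  apply form_ext
  intro v
  rw [LinearMap.zero_apply]
  refine le_antisymm (hneg v) ?_
  have h1 := hneg (-v)
  have h2 : (fun i => (((-v) i : ℤ) : ℝ)) = -(fun i => (v i : ℝ)) := by
    funext i; simp
  rw [h2, map_neg] at h1
  linarith

/-- one-parameter groups in the nonzero weight spaces are exponentially distorted -/
theorem base_log (hS : Big D S C₀) (𝒞 : Cartan D π₁)
    (hs : ∀ v : Fin k → ℤ, ∃ γ : Γ, Multiplicative.toAdd (π₁ (inΓ D γ)) = v) :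
    ∀ X ∈ T0 𝒞.nw, ∃ C : ℝ, 0 ≤ C ∧ ∀ (p : ℝ) (h : (p • X) ^ D.n = 0),
      LL D C₀ (exU (p • X) h) (C * Real.log (2 + |p|)) := by
  rintro X ⟨μ, hμ, hX⟩
  obtain ⟨v, hv0⟩ := exists_pos_int hμ
  obtain ⟨c, hc, hcv⟩ := 𝒞.exists_C_height hs v
  have hhv : hv π₁ c = fun i => (v i : ℝ) := by
    funext i; rw [hv, hcv]
  set lam : ℝ := μ (hv π₁ c) with hlam
  have hlam0 : 0 < lam := by rw [hlam, hhv]; exact hv0
  obtain ⟨K, E, hK, hgr⟩ := 𝒞.growth_zpow hc
  obtain ⟨B, hB0, hB⟩ := exists_poly_exp E (c := lam / 2) (by positivity)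
  obtain ⟨K', hK'⟩ := hS.len_exG_of_le (K * B * nrm X)
  have hlog2 : 0 < Real.log 2 := Real.log_pos (by norm_num)
  set lc : ℝ := (len D C₀ c : ℝ) with hlc
  have hlc0 : 0 ≤ lc := Nat.cast_nonneg _
  refine ⟨(2 / lam) * (2 * lc) + (2 * lc + K') / Real.log 2, by positivity, fun p hp => ?_⟩
  have hXl := 𝒞.nw_le μ hX
  have hpX : p • X ∈ 𝒞.nw μ := (𝒞.nw μ).smul_mem p hX
  have hpXl : p • X ∈ lie D := 𝒞.nw_le μ hpX
  set s : ℝ := Real.log (2 + |p|) with hs'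
  have hs2 : Real.log 2 ≤ s := Real.log_le_log (by norm_num) (by have := abs_nonneg p; linarith)
  have hs0 : 0 ≤ s := hlog2.le.trans hs2
  set m : ℕ := ⌈2 / lam * s⌉₊ with hm
  have hm1 : 2 / lam * s ≤ m := Nat.le_ceil _
  have hm2 : (m : ℝ) ≤ 2 / lam * s + 1 := (Nat.ceil_lt_add_one (by positivity)).le
  have hms : s ≤ m * (lam / 2) := by
    rw [div_mul_eq_mul_div, div_le_iff₀ hlam0] at hm1
    linarith
  have hp1 : |p| ≤ Real.exp (m * (lam / 2)) := by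
    have h1 : |p| ≤ Real.exp s := by
      rw [hs', Real.exp_log (by positivity)]
      linarith
    exact h1.trans (Real.exp_le_exp.2 hms)
  -- the conjugate
  set g : G1 D := c ^ (-(m : ℤ)) with hg
  set Y := cj (g : (Matrix (Fin D.n) (Fin D.n) ℝ)ˣ) (p • X) with hY
  have hYl : Y ∈ lie D := cj_mem_lie D g.2 hpXl
  have hYn : nrm Y ≤ K * B * nrm X := by
    have h1 := hgr μ (-(m : ℤ)) (p • X) hpX
    rw [Int.cast_neg, abs_neg, Int.cast_natCast, Nat.abs_cast, nrm_smul] at h1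
    refine h1.trans ?_
    have h0 := nrm_nonneg X
    calc K * (1 + (m : ℝ)) ^ E * Real.exp (-(m : ℝ) * μ (hv π₁ c)) * (|p| * nrm X)
        ≤ K * (1 + (m : ℝ)) ^ E * Real.exp (-(m : ℝ) * μ (hv π₁ c)) *
          (Real.exp (m * (lam / 2)) * nrm X) := by gcongr
      _ = K * ((1 + (m : ℝ)) ^ E * (Real.exp (-(m : ℝ) * lam) * Real.exp (m * (lam / 2)))) *
          nrm X := by ring
      _ = K * ((1 + (m : ℝ)) ^ E * Real.exp (-(m * (lam / 2)))) * nrm X := by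
          rw [← Real.exp_add]
          congr 4
          ring
      _ ≤ K * B * nrm X := by
          have := hB m
          gcongr
  have hlenY := hK' Y hYl hYn
  have hconj : g * exG D (p • X) hpXl * g⁻¹ = exG D Y hYl := conj_exG g hpXl
  have hex : exG D (p • X) hpXl = g⁻¹ * exG D Y hYl * g := by
    rw [← hconj]; group
  have hlen : (len D C₀ (exG D (p • X) hpXl) : ℝ) ≤ m * lc + K' + m * lc := by
    rw [hex]
    have e1 : len D C₀ (g⁻¹ * exG D Y hYl * g) ≤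
        len D C₀ g⁻¹ + len D C₀ (exG D Y hYl) + len D C₀ g :=
      (hS.len_mul _ _).trans (Nat.add_le_add_right (hS.len_mul _ _) _)
    have e2 : len D C₀ g⁻¹ ≤ m * len D C₀ c := by
      have : g⁻¹ = c ^ m := by rw [hg, zpow_neg, inv_inv, zpow_natCast]
      rw [this]; exact hS.len_pow c m
    have e3 : len D C₀ g ≤ m * len D C₀ c := by
      rw [← hS.len_inv]; exact e2
    have e4 : len D C₀ (g⁻¹ * exG D Y hYl * g) ≤ m * len D C₀ c + K' + m * len D C₀ c := by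
      omega
    have e5 : (len D C₀ (g⁻¹ * exG D Y hYl * g) : ℝ) ≤
        m * (len D C₀ c : ℝ) + K' + m * (len D C₀ c : ℝ) := by exact_mod_cast e4
    exact e5
  refine ⟨(exG D (p • X) hpXl).2, ?_⟩
  have hgoal : (⟨exU (p • X) hp, (exG D (p • X) hpXl).2⟩ : G1 D) = exG D (p • X) hpXl := rfl
  rw [hgoal]
  refine hlen.trans ?_
  have h5 : (2 * lc + K') ≤ (2 * lc + K') / Real.log 2 * s := by
    rw [div_mul_eq_mul_div, le_div_iff₀ hlog2]
    exact mul_le_mul_of_nonneg_left hs2 (by positivity)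
  have h6 : (m : ℝ) * lc ≤ (2 / lam * s + 1) * lc := mul_le_mul_of_nonneg_right hm2 hlc0
  nlinarith

/-- **DIST**: the exponential of `𝔢` is exponentially distorted. -/
theorem len_exE_le (hS : Big D S C₀) {𝒞 : Cartan D π₁} (𝒷 : AdBas 𝒞)
    (hs : ∀ v : Fin k → ℤ, ∃ γ : Γ, Multiplicative.toAdd (π₁ (inΓ D γ)) = v) :
    ∃ a : ℝ, 0 ≤ a ∧ ∀ x : 𝒞.eA, (len D C₀ (𝒞.exE x) : ℝ) ≤
      a * Real.log (2 + ‖𝒷.bas.equivFun x‖) := by
  obtain ⟨d, hd⟩ := 𝒞.wtsD.exists_bot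
  let F : (Fin 𝒷.r → ℝ) → Matrix (Fin D.n) (Fin D.n) ℝ := fun s =>
    ∑ i, s i • ((𝒷.bas i : 𝒞.eA) : Matrix (Fin D.n) (Fin D.n) ℝ)
  have hFp : IsPolyM F := IsPolyM.sum _ fun i _ => IsPolyM.smul (IsPoly.coord i) (IsPolyM.const _)
  have hF : ∀ s, F s ∈ ModelDist.eN 𝒞.nw 0 := fun s =>
    Submodule.sum_mem _ fun i _ => Submodule.smul_mem _ _ (𝒷.bas i).2
  obtain ⟨a, ha, h⟩ := loglen hS 𝒞.wtsD (base_log hS 𝒞 hs) d 0 (by rwa [zero_add]) F hFp hF
  refine ⟨a, ha, fun x => ?_⟩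
  obtain ⟨h1, h2⟩ := h (𝒷.bas.equivFun x)
  have hx : F (𝒷.bas.equivFun x) = (x : Matrix (Fin D.n) (Fin D.n) ℝ) := by
    have h3 := congrArg 𝒞.ξ (𝒷.bas.sum_equivFun x)
    rw [map_sum, Cartan.ξ_apply] at h3
    rw [← h3]
    exact Finset.sum_congr rfl fun i _ => by rw [map_smul]; rfl
  refine le_trans (le_of_eq ?_) h2
  congr 2
  apply Subtype.ext
  apply Units.ext
  show ex (x : Matrix (Fin D.n) (Fin D.n) ℝ) = ex (F (𝒷.bas.equivFun x))
  rw [hx]

/-- version with the matrix norm -/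
theorem len_exE_le' (hS : Big D S C₀) (𝒞 : Cartan D π₁)
    (hs : ∀ v : Fin k → ℤ, ∃ γ : Γ, Multiplicative.toAdd (π₁ (inΓ D γ)) = v) :
    ∃ a : ℝ, 0 ≤ a ∧ ∀ X (hX : X ∈ 𝒞.eN 0), (len D C₀ (exG D X (𝒞.eN_le 0 hX)) : ℝ) ≤
      a * Real.log (2 + nrm X) := by
  obtain ⟨𝒷⟩ := 𝒞.exists_adBas
  obtain ⟨a, ha, h⟩ := len_exE_le hS 𝒷 hs
  obtain ⟨B, hB0, hB⟩ := 𝒷.exists_repr_le
  have hlog2 : 0 < Real.log 2 := Real.log_pos (by norm_num)
  refine ⟨a * (Real.log (1 + B) / Real.log 2 + 1), by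
    have : 0 ≤ Real.log (1 + B) := Real.log_nonneg (by linarith)
    positivity, fun X hX => ?_⟩
  have h1 := h ⟨X, hX⟩
  have h2 : 𝒞.exE ⟨X, hX⟩ = exG D X (𝒞.eN_le 0 hX) := rfl
  rw [h2] at h1
  refine h1.trans ?_
  rw [mul_assoc]
  refine mul_le_mul_of_nonneg_left ?_ ha
  have hn := nrm_nonneg X
  have h3 : ‖𝒷.bas.equivFun ⟨X, hX⟩‖ ≤ B * nrm X := by
    refine (pi_norm_le_iff_of_nonneg (by positivity)).2 fun i => ?_
    rw [Real.norm_eq_abs]
    exact hB ⟨X, hX⟩ i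
  have h4 : 2 + ‖𝒷.bas.equivFun ⟨X, hX⟩‖ ≤ (1 + B) * (2 + nrm X) := by nlinarith
  have h5 : Real.log (2 + ‖𝒷.bas.equivFun ⟨X, hX⟩‖) ≤ Real.log (1 + B) + Real.log (2 + nrm X) := by
    rw [← Real.log_mul (by positivity) (by positivity)]
    exact Real.log_le_log (by positivity) h4
  have h6 : Real.log 2 ≤ Real.log (2 + nrm X) := Real.log_le_log (by norm_num) (by linarith)
  have h7 : Real.log (1 + B) ≤ Real.log (1 + B) / Real.log 2 * Real.log (2 + nrm X) := by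
    rw [div_mul_eq_mul_div, le_div_iff₀ hlog2]
    exact mul_le_mul_of_nonneg_left h6 (Real.log_nonneg (by linarith))
  linarith

end Crest.Agent.R182.ModelX
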