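/-
R182, module MODEL (helper658): growth of the matrices themselves along products of elements of `C`
and along products of elements of `N_ℝ`.
-/
import Mathlib
import Crest.Agent.R182.ModelX1

set_option autoImplicit false
set_option linter.unusedSectionVars false

namespace Crest.Agent.R182.ModelX

open Module LinMod Polyc Model ModelWt ModelDist

section lm

attribute [local instance] Matrix.linftyOpNormedRing Matrix.linftyOpNormedAlgebra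

variable {n : ℕ}

/-- left multiplication -/
noncomputable def lmE (g : (Matrix (Fin n) (Fin n) ℝ)ˣ) :
    Matrix (Fin n) (Fin n) ℝ ≃ₗ[ℝ] Matrix (Fin n) (Fin n) ℝ where
  toFun X := (g : Matrix (Fin n) (Fin n) ℝ) * X
  invFun X := ((g⁻¹ : (Matrix (Fin n) (Fin n) ℝ)ˣ) : Matrix (Fin n) (Fin n) ℝ) * X
  map_add' X Y := mul_add _ _ _
  map_smul' c X := by rw [mul_smul_comm]; rfl
  left_inv X := by
    show ((g⁻¹ : (Matrix (Fin n) (Fin n) ℝ)ˣ) : Matrix (Fin n) (Fin n) ℝ) *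
      ((g : Matrix (Fin n) (Fin n) ℝ) * X) = X
    rw [← mul_assoc, Units.inv_mul, one_mul]
  right_inv X := by
    show (g : Matrix (Fin n) (Fin n) ℝ) *
      (((g⁻¹ : (Matrix (Fin n) (Fin n) ℝ)ˣ) : Matrix (Fin n) (Fin n) ℝ) * X) = X
    rw [← mul_assoc, Units.mul_inv, one_mul]

theorem lmE_apply (g : (Matrix (Fin n) (Fin n) ℝ)ˣ) (X : Matrix (Fin n) (Fin n) ℝ) :
    lmE g X = (g : Matrix (Fin n) (Fin n) ℝ) * X := rfl

/-- left multiplication as a homomorphism -/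
noncomputable def lmH : (Matrix (Fin n) (Fin n) ℝ)ˣ →*
    (Matrix (Fin n) (Fin n) ℝ ≃ₗ[ℝ] Matrix (Fin n) (Fin n) ℝ) where
  toFun := lmE
  map_one' := by
    apply LinearEquiv.ext
    intro X
    rw [lmE_apply, Units.val_one, one_mul]; rfl
  map_mul' g h := by
    apply LinearEquiv.ext
    intro X
    rw [lmE_apply, Units.val_mul, mul_assoc]; rfl

theorem lmH_apply (g : (Matrix (Fin n) (Fin n) ℝ)ˣ) (X : Matrix (Fin n) (Fin n) ℝ) :
    lmH g X = (g : Matrix (Fin n) (Fin n) ℝ) * X := rfl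

theorem lm_unip {g : (Matrix (Fin n) (Fin n) ℝ)ˣ} {d : ℕ}
    (h : ((g : Matrix (Fin n) (Fin n) ℝ) - 1) ^ d = 0) :
    ((lmH g : Matrix (Fin n) (Fin n) ℝ →ₗ[ℝ] Matrix (Fin n) (Fin n) ℝ) - 1) ^ d = 0 := by
  have key : ∀ (j : ℕ) (X : Matrix (Fin n) (Fin n) ℝ),
      (((lmH g : Matrix (Fin n) (Fin n) ℝ →ₗ[ℝ] Matrix (Fin n) (Fin n) ℝ) - 1) ^ j) X =
      ((g : Matrix (Fin n) (Fin n) ℝ) - 1) ^ j * X := by
    intro j
    induction j with
    | zero => intro X; rw [pow_zero, pow_zero, one_mul]; rfl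
    | succ j ih =>
      intro X
      rw [pow_succ, Module.End.mul_apply, ih, pow_succ, mul_assoc]
      congr 1
      rw [LinearMap.sub_apply, sub_mul, one_mul]
      rfl
  ext1 X
  rw [key, h, zero_mul]; rfl

theorem lm_norm (g : (Matrix (Fin n) (Fin n) ℝ)ˣ) {B A : ℝ} (hB0 : 0 ≤ B)
    (hB : ∀ X : Matrix (Fin n) (Fin n) ℝ, ‖X‖ ≤ B * nrm X) (hg : sz g ≤ A)
    (X : Matrix (Fin n) (Fin n) ℝ) : ‖lmH g X‖ ≤ B * A * ‖X‖ := by
  rw [lmH_apply]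
  refine (norm_mul_le _ _).trans (mul_le_mul_of_nonneg_right ?_ (norm_nonneg _))
  exact (hB _).trans (mul_le_mul_of_nonneg_left ((nrm_le_sz g).trans hg) hB0)

end lm

section main

attribute [local instance] Matrix.linftyOpNormedRing Matrix.linftyOpNormedAlgebra

variable {Γ : Type*} [Group Γ] {N : Subgroup Γ} [hN : N.Normal]
  {D : EmbData Γ N} {k : ℕ} {π₁ : G1 D →* Multiplicative (Fin k → ℤ)} {S : Set Γ} {C₀ : ℝ}

/-- the representation of `G1` by left multiplication -/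
noncomputable def lmR (D : EmbData Γ N) : G1 D →*
    (Matrix (Fin D.n) (Fin D.n) ℝ ≃ₗ[ℝ] Matrix (Fin D.n) (Fin D.n) ℝ) :=
  lmH.comp (G1 D).subtype

theorem lmR_apply (g : G1 D) (X : Matrix (Fin D.n) (Fin D.n) ℝ) :
    lmR D g X = ((g : (Matrix (Fin D.n) (Fin D.n) ℝ)ˣ) : Matrix (Fin D.n) (Fin D.n) ℝ) * X := rfl

theorem lmR_unip {g : G1 D} (hg : g ∈ NR1 D) :
    ∃ d : ℕ, ((lmR D g : Matrix (Fin D.n) (Fin D.n) ℝ →ₗ[ℝ] Matrix (Fin D.n) (Fin D.n) ℝ) - 1) ^ d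
      = 0 := ⟨D.n, lm_unip (D.unip_NR hg)⟩

/-- products of elements of `N_ℝ` grow polynomially -/
theorem NR_growth (A : ℝ) : ∃ (K : ℝ) (E : ℕ), 0 ≤ K ∧ ∀ l : List (G1 D),
    (∀ s ∈ l, s ∈ NR1 D ∧ sz (s : (Matrix (Fin D.n) (Fin D.n) ℝ)ˣ) ≤ A) →
      nrm ((l.prod : G1 D) : (Matrix (Fin D.n) (Fin D.n) ℝ)ˣ).val ≤ K * (1 + l.length : ℝ) ^ E := by
  classical
  obtain ⟨B₁, hB₁, h1⟩ := exists_nrm_le (n := D.n)
  obtain ⟨B₂, hB₂, h2⟩ := exists_norm_le_nrm (n := D.n)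
  let ρ : NR1 D →* (Matrix (Fin D.n) (Fin D.n) ℝ ≃ₗ[ℝ] Matrix (Fin D.n) (Fin D.n) ℝ) :=
    (lmR D).comp (NR1 D).subtype
  let π0 : NR1 D →* Multiplicative (Fin 0 → ℤ) := 1
  have hunip : ∀ g, π0 g = 1 → ∃ d : ℕ,
      ((ρ g : Matrix (Fin D.n) (Fin D.n) ℝ →ₗ[ℝ] Matrix (Fin D.n) (Fin D.n) ℝ) - 1) ^ d = 0 :=
    fun g _ => lmR_unip g.2
  obtain ⟨W⟩ := exists_wtData ρ π0 (fun v => ⟨1, Subsingleton.elim _ _⟩) hunip
  obtain ⟨K, E, hK, h⟩ := W.growth (t := 1) (s := 0) (μ := 0)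
    (fun i _ => LinearMap.pi_ext' fun j => j.elim0) hunip ⊤
    (fun g _ v _ => mem_growSpace_zero_of_fixed _ (by rw [map_one]; rfl))
    {g : NR1 D | sz ((g : G1 D) : (Matrix (Fin D.n) (Fin D.n) ℝ)ˣ) ≤ A} (fun _ _ => trivial)
    (A := max 0 (B₂ * A)) (fun g _ => by simp)
    (fun g hg v => (lm_norm _ hB₂ h2 hg v).trans
      (mul_le_mul_of_nonneg_right (le_max_right _ _) (norm_nonneg _)))
  refine ⟨B₁ * (K * ‖(1 : Matrix (Fin D.n) (Fin D.n) ℝ)‖), E, by positivity, fun l hl => ?_⟩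
  -- lift the list
  obtain ⟨l', hl'⟩ : ∃ l' : List (NR1 D), l'.map Subtype.val = l :=
    ⟨l.attach.map fun s => ⟨s.1, (hl s.1 s.2).1⟩, by
      rw [List.map_map]
      exact List.attach_map_subtype_val l⟩
  have h3 := h l' (fun g hg => (hl g (by rw [← hl']; exact List.mem_map_of_mem hg)).2) 1
    (mem_growSpace_zero_of_fixed _ (by rw [ρ.map_one]; rfl))
  have h4 : (ρ l'.prod) 1 = ((l.prod : G1 D) : (Matrix (Fin D.n) (Fin D.n) ℝ)ˣ).val := by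
    have h5 : ((l'.prod : NR1 D) : G1 D) = l.prod := by
      rw [← hl']
      exact map_list_prod (NR1 D).subtype l'
    show (((l'.prod : NR1 D) : G1 D) : (Matrix (Fin D.n) (Fin D.n) ℝ)ˣ).val * 1 = _
    rw [h5, mul_one]
  rw [h4, LinearMap.zero_apply, Real.exp_zero, mul_one] at h3
  have h5 : (l'.length : ℝ) = l.length := by rw [← hl', List.length_map]
  rw [h5] at h3
  calc nrm ((l.prod : G1 D) : (Matrix (Fin D.n) (Fin D.n) ℝ)ˣ).val ≤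
        B₁ * ‖((l.prod : G1 D) : (Matrix (Fin D.n) (Fin D.n) ℝ)ˣ).val‖ := h1 _
    _ ≤ B₁ * (K * (1 + l.length : ℝ) ^ E * ‖(1 : Matrix (Fin D.n) (Fin D.n) ℝ)‖) :=
        mul_le_mul_of_nonneg_left h3 hB₁
    _ = _ := by ring

/-- Elements of `𝔫_0` have polynomial growth under `Ad` of every element of `C`. -/
theorem nw_zero_le_gm (𝒞 : Cartan D π₁) {t' : G1 D} (ht' : t' ∈ 𝒞.C) :
    𝒞.nw 0 ≤ gm (t' : (Matrix (Fin D.n) (Fin D.n) ℝ)ˣ) 0 := by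
  intro X hX
  obtain ⟨K, E, hK, h⟩ := 𝒞.growth_zpow ht'
  obtain ⟨B₂, hB₂, h2⟩ := exists_norm_le_nrm (n := D.n)
  refine mem_growSpace.2 ⟨B₂ * (K * nrm X), E, fun j => ?_⟩
  have h3 := h 0 j X hX
  rw [LinearMap.zero_apply, mul_zero, Real.exp_zero, mul_one] at h3
  rw [← cj_zpow, zero_mul, Real.exp_zero, mul_one]
  refine (h2 _).trans ?_
  calc B₂ * nrm (cj ((t' : (Matrix (Fin D.n) (Fin D.n) ℝ)ˣ) ^ j) X) ≤
        B₂ * (K * (1 + |(j : ℝ)|) ^ E * nrm X) := mul_le_mul_of_nonneg_left h3 hB₂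
    _ = _ := by ring

/-- elements of `C ∩ N_ℝ` preserve the growth spaces of `lm t'` -/
theorem lm_mem_of_E0 (𝒞 : Cartan D π₁) {t' u : G1 D} (ht' : t' ∈ 𝒞.C) (hu : u ∈ 𝒞.C)
    (huN : u ∈ NR1 D) {s : ℝ} {Y : Matrix (Fin D.n) (Fin D.n) ℝ}
    (hY : Y ∈ growSpace (lmR D t') s) : lmR D u Y ∈ growSpace (lmR D t') s := by
  have h1 := (𝒞.mem_C_NR_iff u).1 ⟨hu, huN⟩
  have h2 : lg ((u : (Matrix (Fin D.n) (Fin D.n) ℝ)ˣ) : Matrix (Fin D.n) (Fin D.n) ℝ) ∈ 𝒞.nw 0 := by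
    rw [𝒞.nw_zero]; exact (mem_E0.1 h1).2
  have h3 := ex_mem_gm (nw_zero_le_gm 𝒞 ht' h2)
  have h5 : ex (lg ((u : (Matrix (Fin D.n) (Fin D.n) ℝ)ˣ) : Matrix (Fin D.n) (Fin D.n) ℝ)) =
    ((u : (Matrix (Fin D.n) (Fin D.n) ℝ)ˣ) : Matrix (Fin D.n) (Fin D.n) ℝ) :=
    ex_lg (D.unip_NR huN)
  rw [h5] at h3
  have h4 := bilin_mem_growSpace (T := cj (t' : (Matrix (Fin D.n) (Fin D.n) ℝ)ˣ))
    (T' := lmR D t') (T'' := lmR D t') (fun X Y => X * Y) 1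
    (fun X Y => by rw [one_mul]; exact norm_mul_le X Y) (fun X Y => by
      rw [lmR_apply, lmR_apply, cj_apply]
      calc _ = ((t' : (Matrix (Fin D.n) (Fin D.n) ℝ)ˣ) : Matrix (Fin D.n) (Fin D.n) ℝ) * X * 1 * Y := by
            rw [mul_one, mul_assoc]
        _ = _ := by
            rw [← Units.inv_mul (t' : (Matrix (Fin D.n) (Fin D.n) ℝ)ˣ)]
            simp only [mul_assoc]) h3 hY
  rwa [zero_add] at h4

/-- **Growth of products of bounded elements of `C`.** -/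
theorem C_growth (𝒞 : Cartan D π₁)
    (hs : ∀ v : Fin k → ℤ, ∃ γ : Γ, Multiplicative.toAdd (π₁ (inΓ D γ)) = v) (A : ℝ) :
    ∃ (K : ℝ) (E : ℕ) (c : ℝ), 0 ≤ K ∧ 0 ≤ c ∧ ∀ l : List (G1 D),
    (∀ s ∈ l, s ∈ 𝒞.C ∧ sz (s : (Matrix (Fin D.n) (Fin D.n) ℝ)ˣ) ≤ A ∧ ∀ i, |hv π₁ s i| ≤ A) →
      nrm ((l.prod : G1 D) : (Matrix (Fin D.n) (Fin D.n) ℝ)ˣ).val ≤
        K * (1 + l.length : ℝ) ^ E * Real.exp (c * ‖hv π₁ l.prod‖) := by
  classical
  obtain ⟨B₁, hB₁, h1⟩ := exists_nrm_le (n := D.n)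
  obtain ⟨B₂, hB₂, h2⟩ := exists_norm_le_nrm (n := D.n)
  have hsurj : Function.Surjective π₁ := by
    intro v
    obtain ⟨γ, hγ⟩ := hs (Multiplicative.toAdd v)
    exact ⟨inΓ D γ, by rw [← ofAdd_toAdd (π₁ (inΓ D γ)), hγ, ofAdd_toAdd]⟩
  have hunip : ∀ g, π₁ g = 1 → ∃ d : ℕ,
      ((lmR D g : Matrix (Fin D.n) (Fin D.n) ℝ →ₗ[ℝ] Matrix (Fin D.n) (Fin D.n) ℝ) - 1) ^ d = 0 :=
    fun g hg => lmR_unip ((𝒞.ker g).1 hg)
  obtain ⟨W⟩ := exists_wtData (lmR D) π₁ hsurj hunip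
  obtain ⟨v, hgen⟩ := W.exists_generic
  obtain ⟨t', ht', htv⟩ := 𝒞.exists_C_height hs v
  have hhv : hv π₁ t' = fun j => ((v j : ℤ) : ℝ) := by
    funext i; rw [hv, htv]
  rw [← hhv] at hgen
  -- `C` preserves the growth spaces
  have hC : ∀ (s : ℝ), ∀ g ∈ 𝒞.C, ∀ Y ∈ growSpace (lmR D t') s,
      lmR D g Y ∈ growSpace (lmR D t') s := by
    intro s g hg Y hY
    set u : G1 D := g * t' * g⁻¹ * t'⁻¹ with hu
    have huC : u ∈ 𝒞.C := 𝒞.C.mul_mem (𝒞.C.mul_mem (𝒞.C.mul_mem hg ht') (𝒞.C.inv_mem hg))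
      (𝒞.C.inv_mem ht')
    have huN : u ∈ NR1 D := by
      rw [← 𝒞.ker, hu, map_mul, map_mul, map_mul, map_inv, map_inv, mul_comm (π₁ g) (π₁ t')]
      group
    set c : G1 D := g * t' * g⁻¹ with hc
    have hcu : c = u * t' := by rw [hu, hc]; group
    have hhc : hv π₁ c = hv π₁ t' := by rw [hc]; exact hv_conj π₁ g t'
    have heq : growSpace (lmR D c) s = growSpace (lmR D t') s := by
      symm
      refine Submodule.eq_of_le_of_finrank_eq ?_ ?_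
      · by_cases hsr : s ∈ rates (lmR D t')
        · obtain ⟨i, hi⟩ := (W.mem_rates t' s).1 hsr
          intro Z hZ
          have e1 : ∀ Z ∈ growSpace (lmR D t') s, lmR D c Z ∈ growSpace (lmR D t') s := by
            intro Z hZ
            rw [hcu, map_mul]
            exact lm_mem_of_E0 𝒞 ht' huC huN (growSpace_map _ _ hZ)
          have e2 : ∀ Z ∈ growSpace (lmR D t') s, lmR D c⁻¹ Z ∈ growSpace (lmR D t') s := by
            intro Z hZ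
            have e3 : c⁻¹ = t'⁻¹ * u⁻¹ := by rw [hcu, mul_inv_rev]
            rw [e3, map_mul]
            have e4 := lm_mem_of_E0 𝒞 ht' (𝒞.C.inv_mem huC) ((NR1 D).inv_mem huN) hZ
            have e5 := growSpace_map_symm (lmR D t') s e4
            have e6 : (lmR D t'⁻¹ * lmR D u⁻¹) Z = (lmR D t').symm (lmR D u⁻¹ Z) := by
              rw [map_inv]; rfl
            rw [e6]; exact e5
          have h3 := W.mem_growSpace (t := t') (s := s) (μ := W.M i)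
            (fun j hj => hgen.1 j i (by rw [hj, hi])) hunip e1 e2 hZ
          rwa [hhc, hi] at h3
        · rw [growSpace_eq_bot hsr]; exact bot_le
      · rw [W.finrank_growSpace, W.finrank_growSpace, hhc]
    rw [← heq]
    refine map_mem_growSpace (T := lmR D t') (T' := lmR D c)
      ((lmR D g : Matrix (Fin D.n) (Fin D.n) ℝ →ₗ[ℝ] Matrix (Fin D.n) (Fin D.n) ℝ)) ?_ hY
    intro Z
    show lmR D c (lmR D g Z) = lmR D g (lmR D t' Z)
    have e7 : c * g = g * t' := by rw [hc]; group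
    have e8 := congrArg (fun x => lmR D x Z) e7
    simp only [map_mul] at e8
    exact e8
  -- growth on each growth space
  have key : ∀ s : ℝ, ∃ (K : ℝ) (E : ℕ) (c : ℝ), 0 ≤ K ∧ 0 ≤ c ∧ ∀ l : List (G1 D),
      (∀ g ∈ l, g ∈ 𝒞.C ∧ sz (g : (Matrix (Fin D.n) (Fin D.n) ℝ)ˣ) ≤ A ∧
        ∀ i, |hv π₁ g i| ≤ A) → ∀ Y ∈ growSpace (lmR D t') s,
      ‖lmR D l.prod Y‖ ≤ K * (1 + l.length : ℝ) ^ E * Real.exp (c * ‖hv π₁ l.prod‖) * ‖Y‖ := by
    intro s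
    by_cases hsr : s ∈ rates (lmR D t')
    swap
    · refine ⟨0, 0, 0, le_rfl, le_rfl, fun l _ Y hY => ?_⟩
      rw [growSpace_eq_bot hsr, Submodule.mem_bot] at hY
      rw [hY, map_zero, norm_zero]; simp
    obtain ⟨i, hi⟩ := (W.mem_rates t' s).1 hsr
    obtain ⟨b, hb0, hb⟩ : ∃ b : ℝ, 0 ≤ b ∧ ∀ v : Fin k → ℝ, |W.M i v| ≤ b * ‖v‖ :=
      exists_bound_of_real_linear (W.M i)
    obtain ⟨K, E, hK, h⟩ := W.growth (t := t') (s := s) (μ := W.M i)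
      (fun j hj => hgen.1 j i (by rw [hj, hi])) hunip 𝒞.C (hC s)
      {g : G1 D | g ∈ 𝒞.C ∧ sz (g : (Matrix (Fin D.n) (Fin D.n) ℝ)ˣ) ≤ A ∧
        ∀ i, |hv π₁ g i| ≤ A} (fun g hg => hg.1) (A := max (b * |A|) (B₂ * A)) (by
        rintro g ⟨-, -, hg⟩
        refine (hb _).trans (le_trans ?_ (le_max_left _ _))
        refine mul_le_mul_of_nonneg_left ?_ hb0
        rw [pi_norm_le_iff_of_nonneg (abs_nonneg A)]
        intro j
        exact (hg j).trans (le_abs_self A)) (by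
        rintro g ⟨-, hg, -⟩ Y
        exact (lm_norm _ hB₂ h2 hg Y).trans
          (mul_le_mul_of_nonneg_right (le_max_right _ _) (norm_nonneg _)))
    refine ⟨K, E, b, hK, hb0, fun l hl Y hY => (h l hl Y hY).trans ?_⟩
    have h3 : W.M i (hv π₁ l.prod) ≤ b * ‖hv π₁ l.prod‖ := (le_abs_self _).trans (hb _)
    gcongr
  choose K E c hK hc h using key
  set R := rates (lmR D t') with hR
  refine ⟨B₁ * (∑ s ∈ R, K s * ‖pr (lmR D t') s (1 : Matrix (Fin D.n) (Fin D.n) ℝ)‖),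
    R.sup E, ∑ s ∈ R, c s, mul_nonneg hB₁ (Finset.sum_nonneg fun s _ =>
      mul_nonneg (hK s) (norm_nonneg _)), Finset.sum_nonneg fun s _ => hc s, fun l hl => ?_⟩
  have h3 : ((l.prod : G1 D) : (Matrix (Fin D.n) (Fin D.n) ℝ)ˣ).val =
      ∑ s ∈ R, lmR D l.prod (pr (lmR D t') s (1 : Matrix (Fin D.n) (Fin D.n) ℝ)) := by
    rw [← map_sum, sum_pr, lmR_apply, mul_one]
  have hlen : (1 : ℝ) ≤ 1 + l.length := by
    have : (0 : ℝ) ≤ l.length := Nat.cast_nonneg _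
    linarith
  have h4 : ‖((l.prod : G1 D) : (Matrix (Fin D.n) (Fin D.n) ℝ)ˣ).val‖ ≤
      (∑ s ∈ R, K s * ‖pr (lmR D t') s (1 : Matrix (Fin D.n) (Fin D.n) ℝ)‖) *
        ((1 + l.length : ℝ) ^ (R.sup E) * Real.exp ((∑ s ∈ R, c s) * ‖hv π₁ l.prod‖)) := by
    rw [h3, Finset.sum_mul]
    refine (norm_sum_le _ _).trans (Finset.sum_le_sum fun s hs => ?_)
    refine (h s l hl _ (pr_mem _ _ _)).trans ?_
    have e1 : (1 + l.length : ℝ) ^ E s ≤ (1 + l.length : ℝ) ^ (R.sup E) :=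
      pow_le_pow_right₀ hlen (Finset.le_sup hs)
    have e2 : c s ≤ ∑ s ∈ R, c s := Finset.single_le_sum (f := c) (fun s _ => hc s) hs
    have e3 := hK s
    calc K s * (1 + l.length : ℝ) ^ E s * Real.exp (c s * ‖hv π₁ l.prod‖) *
          ‖pr (lmR D t') s (1 : Matrix (Fin D.n) (Fin D.n) ℝ)‖ ≤
          K s * (1 + l.length : ℝ) ^ (R.sup E) * Real.exp ((∑ s ∈ R, c s) * ‖hv π₁ l.prod‖) *
          ‖pr (lmR D t') s (1 : Matrix (Fin D.n) (Fin D.n) ℝ)‖ := by gcongr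
      _ = _ := by ring
  calc nrm ((l.prod : G1 D) : (Matrix (Fin D.n) (Fin D.n) ℝ)ˣ).val ≤
        B₁ * ‖((l.prod : G1 D) : (Matrix (Fin D.n) (Fin D.n) ℝ)ˣ).val‖ := h1 _
    _ ≤ B₁ * ((∑ s ∈ R, K s * ‖pr (lmR D t') s (1 : Matrix (Fin D.n) (Fin D.n) ℝ)‖) *
        ((1 + l.length : ℝ) ^ (R.sup E) * Real.exp ((∑ s ∈ R, c s) * ‖hv π₁ l.prod‖))) :=
        mul_le_mul_of_nonneg_left h4 hB₁
    _ = _ := by ring

end main

end Crest.Agent.R182.ModelX
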