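/-
R182, module MODEL (helper658): growth of the size along products of elements of `C`, in the form
`HGrowth` of helper936 (products of height zero have polynomial size).
-/
import Mathlib
import Crest.Agent.R182.ModelX2
import Crest.Agent.R182.ModelDec

set_option autoImplicit false
set_option linter.unusedSectionVars false

namespace Crest.Agent.R182.ModelX

open Module LinMod Polyc Model ModelWt ModelDist

section main

attribute [local instance] Matrix.linftyOpNormedRing Matrix.linftyOpNormedAlgebra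

variable {Γ : Type*} [Group Γ] {N : Subgroup Γ} [hN : N.Normal] {D : EmbData Γ N} {k : ℕ}
  {π₁ : G1 D →* Multiplicative (Fin k → ℤ)}

theorem coe_prod_inv_list (l : List (G1 D)) :
    (l.prod)⁻¹ = ((l.map fun s => s⁻¹).reverse).prod := List.prod_inv_reverse l

/-- **Growth of the size of products of bounded elements of `C`.** -/
theorem sz_growth (𝒞 : Cartan D π₁)
    (hs : ∀ v : Fin k → ℤ, ∃ γ : Γ, Multiplicative.toAdd (π₁ (inΓ D γ)) = v) (A : ℝ) :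
    ∃ (K : ℝ) (E : ℕ) (c : ℝ), 0 ≤ K ∧ 0 ≤ c ∧ ∀ l : List (G1 D),
    (∀ s ∈ l, s ∈ 𝒞.C ∧ sz (s : (Matrix (Fin D.n) (Fin D.n) ℝ)ˣ) ≤ A ∧ ∀ i, |hv π₁ s i| ≤ A) →
      sz ((l.prod : G1 D) : (Matrix (Fin D.n) (Fin D.n) ℝ)ˣ) ≤
        K * (1 + l.length : ℝ) ^ E * Real.exp (c * ‖hv π₁ l.prod‖) := by
  obtain ⟨K, E, c, hK, hc, h⟩ := C_growth 𝒞 hs A
  refine ⟨1 + 2 * K, E, c, by linarith, hc, fun l hl => ?_⟩
  have h1 := h l hl
  have h2 := h ((l.map fun s => s⁻¹).reverse) (by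
    intro s hs'
    rw [List.mem_reverse, List.mem_map] at hs'
    obtain ⟨x, hx, rfl⟩ := hs'
    obtain ⟨a1, a2, a3⟩ := hl x hx
    refine ⟨𝒞.C.inv_mem a1, ?_, fun i => ?_⟩
    · rw [Subgroup.coe_inv, sz_inv]; exact a2
    · rw [hv_inv, Pi.neg_apply, abs_neg]; exact a3 i)
  rw [← coe_prod_inv_list, hv_inv, norm_neg, List.length_reverse, List.length_map] at h2
  set y : ℝ := (1 + l.length : ℝ) ^ E * Real.exp (c * ‖hv π₁ l.prod‖) with hy
  have hlen : (1 : ℝ) ≤ 1 + l.length := by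
    have : (0 : ℝ) ≤ l.length := Nat.cast_nonneg _
    linarith
  have hy1 : 1 ≤ y := by
    have e1 : (1 : ℝ) ≤ (1 + l.length : ℝ) ^ E := one_le_pow₀ hlen
    have e2 : (1 : ℝ) ≤ Real.exp (c * ‖hv π₁ l.prod‖) := Real.one_le_exp (by positivity)
    calc (1 : ℝ) = 1 * 1 := by ring
      _ ≤ y := mul_le_mul e1 e2 zero_le_one (by positivity)
  have h3 : nrm ((l.prod : G1 D) : (Matrix (Fin D.n) (Fin D.n) ℝ)ˣ).val ≤ K * y := by
    rw [hy, ← mul_assoc]; exact h1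
  have h4 : nrm (((l.prod : G1 D) : (Matrix (Fin D.n) (Fin D.n) ℝ)ˣ)⁻¹).val ≤ K * y := by
    rw [hy, ← mul_assoc]; rw [Subgroup.coe_inv] at h2; exact h2
  have h5 : sz ((l.prod : G1 D) : (Matrix (Fin D.n) (Fin D.n) ℝ)ˣ) ≤ 1 + K * y + K * y := by
    unfold sz
    exact add_le_add (add_le_add le_rfl h3) h4
  calc _ ≤ 1 + K * y + K * y := h5
    _ ≤ (1 + 2 * K) * y := by nlinarith
    _ = _ := by rw [hy]; ring

/-- products of bounded elements of `N_ℝ` have polynomial size -/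
theorem NR_sz_growth (A : ℝ) : ∃ (K : ℝ) (E : ℕ), 0 ≤ K ∧ ∀ l : List (G1 D),
    (∀ s ∈ l, s ∈ NR1 D ∧ sz (s : (Matrix (Fin D.n) (Fin D.n) ℝ)ˣ) ≤ A) →
      sz ((l.prod : G1 D) : (Matrix (Fin D.n) (Fin D.n) ℝ)ˣ) ≤ K * (1 + l.length : ℝ) ^ E := by
  obtain ⟨K, E, hK, h⟩ := NR_growth (D := D) A
  refine ⟨1 + 2 * K, E, by linarith, fun l hl => ?_⟩
  have h1 := h l hl
  have h2 := h ((l.map fun s => s⁻¹).reverse) (by
    intro s hs'
    rw [List.mem_reverse, List.mem_map] at hs'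
    obtain ⟨x, hx, rfl⟩ := hs'
    obtain ⟨a1, a2⟩ := hl x hx
    refine ⟨(NR1 D).inv_mem a1, ?_⟩
    rw [Subgroup.coe_inv, sz_inv]; exact a2)
  rw [← coe_prod_inv_list, List.length_reverse, List.length_map, Subgroup.coe_inv] at h2
  set y : ℝ := (1 + l.length : ℝ) ^ E with hy
  have hlen : (1 : ℝ) ≤ 1 + l.length := by
    have : (0 : ℝ) ≤ l.length := Nat.cast_nonneg _
    linarith
  have hy1 : 1 ≤ y := one_le_pow₀ hlen
  have h5 : sz ((l.prod : G1 D) : (Matrix (Fin D.n) (Fin D.n) ℝ)ˣ) ≤ 1 + K * y + K * y := by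
    unfold sz
    exact add_le_add (add_le_add le_rfl h1) h2
  calc _ ≤ 1 + K * y + K * y := h5
    _ ≤ (1 + 2 * K) * y := by nlinarith

end main

section real

variable {Γ : Type*} [Group Γ] {R : RootData Γ} {D : EmbData Γ R.N} {S : Set Γ} {C₀ : ℝ}

/-- growth of the size of products of elements of `C` of bounded length -/
theorem sz_growth_len (h : Big D S C₀) (𝒞 : Cartan D (π1 R D)) (Rr : ℝ) :
    ∃ (K : ℝ) (E : ℕ) (c : ℝ), 0 ≤ K ∧ 0 ≤ c ∧ ∀ l : List (G1 D),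
    (∀ s ∈ l, s ∈ 𝒞.C ∧ (len D C₀ s : ℝ) ≤ Rr) →
      sz ((l.prod : G1 D) : (Matrix (Fin D.n) (Fin D.n) ℝ)ˣ) ≤
        K * (1 + l.length : ℝ) ^ E * Real.exp (c * ‖hgt R D l.prod‖) := by
  obtain ⟨A, -, hA⟩ := Big_bound h Rr
  obtain ⟨K, E, c, hK, hc, h1⟩ := sz_growth 𝒞 (hs_π1 R D) A
  exact ⟨K, E, c, hK, hc, fun l hl => h1 l fun s hs =>
    ⟨(hl s hs).1, (hA s (hl s hs).2).1, (hA s (hl s hs).2).2⟩⟩

/-- **products of height zero have polynomial size** (`HGrowth` of ModelPg) -/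
theorem hgr (h : Big D S C₀) (𝒞 : Cartan D (π1 R D)) :
    ∀ Rr : ℝ, ∃ (A : ℝ) (E : ℕ), 0 ≤ A ∧ ∀ l : List (G1 D),
    (∀ s ∈ l, s ∈ 𝒞.C ∧ (len D C₀ s : ℝ) ≤ Rr) → hgt R D l.prod = 0 →
    sz (l.prod : (Matrix (Fin D.n) (Fin D.n) ℝ)ˣ) ≤ A * (1 + l.length) ^ E := by
  intro Rr
  obtain ⟨K, E, c, hK, hc, h1⟩ := sz_growth_len h 𝒞 Rr
  refine ⟨K, E, hK, fun l hl h0 => ?_⟩
  have h2 := h1 l hl
  rwa [h0, norm_zero, mul_zero, Real.exp_zero, mul_one] at h2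

end real

end Crest.Agent.R182.ModelX
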