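/-
R182, module MODEL (helper658): `E ∩ C` is polynomially distorted in `C`.
-/
import Mathlib
import Crest.Agent.R182.ModelX3

set_option autoImplicit false
set_option linter.unusedSectionVars false

namespace Crest.Agent.R182.ModelX

open Module LinMod Polyc Model ModelWt ModelDist

section real

variable {Γ : Type*} [Group Γ] {R : RootData Γ} {D : EmbData Γ R.N} {S : Set Γ} {C₀ : ℝ}

/-- **`E ∩ C` is polynomially distorted in `C`** (helper329's `CDist`). -/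
theorem cdist (h : Big D S C₀) {𝒞 : Cartan D (π1 R D)} (𝒷 : AdBas 𝒞) :
    ∀ Rr : ℝ, ∃ A : ℕ, ∀ l : List (G1 D),
    (∀ s ∈ l, s ∈ 𝒞.C ∧ (len D C₀ s : ℝ) ≤ Rr) → ∀ x : 𝒞.eA, 𝒞.exE x = l.prod →
      ‖𝒷.bas.equivFun x‖ ≤ A * (1 + l.length) ^ A := by
  intro Rr
  obtain ⟨A, E, hA, h1⟩ := hgr h 𝒞 Rr
  obtain ⟨B, hB0, hB⟩ := 𝒷.exists_repr_le
  set A' : ℝ := B * (D.n * ((D.n + 1) * (1 + D.n + A) ^ D.n)) with hA'
  have hA'0 : 0 ≤ A' := by positivity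
  refine ⟨max ⌈A'⌉₊ (E * D.n), fun l hl x hx => ?_⟩
  set y : ℝ := (1 + l.length : ℝ) with hy
  have hy1 : 1 ≤ y := by
    have : (0 : ℝ) ≤ l.length := Nat.cast_nonneg _
    rw [hy]; linarith
  have h2 := h1 l hl (by
    rw [← hx]
    exact 𝒞.hv_exE x)
  have h3 := nrm_lg_le_sz h2
  have hlg : lg ((l.prod : G1 D) : (Matrix (Fin D.n) (Fin D.n) ℝ)ˣ).val = x := by
    rw [← hx, Cartan.coe_exE, lg_eU]
  rw [hlg] at h3
  have h4 : ‖𝒷.bas.equivFun x‖ ≤ B * nrm (x : Matrix (Fin D.n) (Fin D.n) ℝ) := by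
    rw [pi_norm_le_iff_of_nonneg (mul_nonneg hB0 (nrm_nonneg _))]
    exact fun i => hB x i
  have h5 : (1 + D.n + A * y ^ E) ^ D.n ≤ (1 + D.n + A) ^ D.n * y ^ (E * D.n) := by
    rw [pow_mul, ← mul_pow]
    refine pow_le_pow_left₀ (by positivity) ?_ _
    have e1 : (1 : ℝ) ≤ y ^ E := one_le_pow₀ hy1
    have e2 : (0 : ℝ) ≤ D.n := Nat.cast_nonneg _
    nlinarith
  calc ‖𝒷.bas.equivFun x‖ ≤ B * nrm (x : Matrix (Fin D.n) (Fin D.n) ℝ) := h4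
    _ ≤ B * (D.n * ((D.n + 1) * ((1 + D.n + A) ^ D.n * y ^ (E * D.n)))) := by
        refine mul_le_mul_of_nonneg_left (h3.trans ?_) hB0
        gcongr
    _ = A' * y ^ (E * D.n) := by rw [hA']; ring
    _ ≤ ((max ⌈A'⌉₊ (E * D.n) : ℕ) : ℝ) * y ^ (max ⌈A'⌉₊ (E * D.n)) := by
        have e1 : A' ≤ ((max ⌈A'⌉₊ (E * D.n) : ℕ) : ℝ) :=
          (Nat.le_ceil A').trans (by exact_mod_cast le_max_left _ _)
        have e2 : y ^ (E * D.n) ≤ y ^ (max ⌈A'⌉₊ (E * D.n)) :=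
          pow_le_pow_right₀ hy1 (le_max_right _ _)
        exact mul_le_mul e1 e2 (by positivity) (by positivity)

end real

end Crest.Agent.R182.ModelX
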