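/-
R182, module MODEL (helper658): elements of height zero of `C` are finely subdivided along powers of
elements of `C`.
-/
import Mathlib
import Crest.Agent.R182.ModelX4
import Crest.Agent.R182.ModelInst2
import Crest.Agent.R182.BndZL2

set_option autoImplicit false
set_option linter.unusedSectionVars false

namespace Crest.Agent.R182.ModelX

open Module LinMod Polyc Model ModelWt ModelDist

section real

variable {Γ : Type*} [Group Γ] {R : RootData Γ} {D : EmbData Γ R.N} {S : Set Γ} {C₀ : ℝ}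

/-- **elements of height zero of `C` are finely subdivided** -/
theorem fine (h : Big D S C₀) (𝒞 : Cartan D (π1 R D)) {b v : G1 D} (hb : b ∈ 𝒞.C) (hv : v ∈ 𝒞.C)
    (hv0 : hgt R D v = 0) : Bnd.Fine (fun g : G1 D => (len D C₀ g : ℝ)) b v := by
  have hvN : v ∈ NR1 D := (hgt_eq_zero_iff R D v).1 hv0
  have h1 := (𝒞.mem_C_NR_iff v).1 ⟨hv, hvN⟩
  set X : Matrix (Fin D.n) (Fin D.n) ℝ :=
    lg ((v : (Matrix (Fin D.n) (Fin D.n) ℝ)ˣ) : Matrix (Fin D.n) (Fin D.n) ℝ) with hXdef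
  have hX0 : X ∈ 𝒞.nw 0 := by
    rw [𝒞.nw_zero]; exact (mem_E0.1 h1).2
  have hX : X ∈ lie D := lg_mem_lie D hvN
  have hvX : exG D X hX = v := exG_lg hvN
  obtain ⟨K, E, hK, hgr⟩ := 𝒞.growth_zpow hb
  obtain ⟨L, hL⟩ := h.len_exG_of_le (max (nrm X) (K * nrm X))
  have hn0 := nrm_nonneg X
  refine ⟨max 1 L, E, fun k => ?_⟩
  set q : ℕ := (1 + k) ^ E with hq
  have hq1 : 1 ≤ q := Nat.one_le_pow _ _ (by omega)
  have hqR : (1 : ℝ) ≤ q := by exact_mod_cast hq1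
  have hq0 : (q : ℝ) ≠ 0 := by positivity
  have hqR' : (q : ℝ) = (1 + (k : ℝ)) ^ E := by rw [hq]; push_cast; ring
  have hY : (q : ℝ)⁻¹ • X ∈ lie D := (lie D).smul_mem _ hX
  set w : G1 D := exG D ((q : ℝ)⁻¹ • X) hY with hw
  have hpow : ∀ i : ℕ, w ^ i = exG D (((i : ℝ) * (q : ℝ)⁻¹) • X) ((lie D).smul_mem _ hX) := by
    intro i
    rw [hw, ← exG_pow hY i]
    exact exG_congr _ _ (by rw [smul_smul])
  refine ⟨List.replicate q w, ?_, ?_, ?_, ?_⟩
  · rw [List.prod_replicate, hpow, ← hvX]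
    exact exG_congr _ _ (by rw [mul_inv_cancel₀ hq0, one_smul])
  · rw [List.length_replicate, hqR']
    have e1 : (0 : ℝ) ≤ (1 + (k : ℝ)) ^ E := by positivity
    calc (1 + (k : ℝ)) ^ E = 1 * (1 + (k : ℝ)) ^ E := by ring
      _ ≤ max 1 (L : ℝ) * (1 + (k : ℝ)) ^ E := mul_le_mul_of_nonneg_right (le_max_left _ _) e1
  · intro i
    rw [List.take_replicate, List.prod_replicate, hpow]
    refine le_trans ?_ (le_max_right _ _)
    have e1 := hL ((((min i q : ℕ) : ℝ) * (q : ℝ)⁻¹) • X) ((lie D).smul_mem _ hX) (by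
      refine le_trans ?_ (le_max_left _ _)
      rw [nrm_smul, abs_of_nonneg (by positivity)]
      have e2 : ((min i q : ℕ) : ℝ) * (q : ℝ)⁻¹ ≤ 1 := by
        rw [← div_eq_mul_inv, div_le_one (by positivity)]
        exact_mod_cast min_le_right _ _
      calc _ ≤ 1 * nrm X := mul_le_mul_of_nonneg_right e2 hn0
        _ = nrm X := one_mul _)
    exact Nat.cast_le.2 e1
  · intro y hy
    rw [List.eq_of_mem_replicate hy]
    refine le_trans ?_ (le_max_right _ _)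
    have e3 : (b ^ k)⁻¹ * w * b ^ k = (b ^ k)⁻¹ * w * ((b ^ k)⁻¹)⁻¹ := by rw [inv_inv]
    rw [e3, hw, conj_exG]
    have e4 : (((b ^ k)⁻¹ : G1 D) : (Matrix (Fin D.n) (Fin D.n) ℝ)ˣ) =
        ((b ^ (-(k : ℤ)) : G1 D) : (Matrix (Fin D.n) (Fin D.n) ℝ)ˣ) := by
      rw [zpow_neg, zpow_natCast]
    have e5 : cj (((b ^ k)⁻¹ : G1 D) : (Matrix (Fin D.n) (Fin D.n) ℝ)ˣ) ((q : ℝ)⁻¹ • X) =
        (q : ℝ)⁻¹ • cj ((b ^ (-(k : ℤ)) : G1 D) : (Matrix (Fin D.n) (Fin D.n) ℝ)ˣ) X := by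
      rw [map_smul, e4]
    have e6 := hgr 0 (-(k : ℤ)) X hX0
    rw [LinearMap.zero_apply, mul_zero, Real.exp_zero, mul_one] at e6
    have e7 : |((-(k : ℤ) : ℤ) : ℝ)| = k := by push_cast; rw [abs_neg, Nat.abs_cast]
    rw [e7, ← hqR'] at e6
    have e8 := hL _ (cj_mem_lie D ((b ^ k)⁻¹ : G1 D).2 hY) (by
      refine le_trans ?_ (le_max_right _ _)
      rw [e5, nrm_smul, abs_of_nonneg (by positivity)]
      calc (q : ℝ)⁻¹ * _ ≤ (q : ℝ)⁻¹ * (K * q * nrm X) :=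
            mul_le_mul_of_nonneg_left e6 (by positivity)
        _ = K * nrm X := by field_simp)
    exact Nat.cast_le.2 e8

end real

end Crest.Agent.R182.ModelX
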