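/-
R182, module POLYC, block PC4, part 1: polynomial functions on nilpotent groups, extension of a
polynomial function through an infinite cyclic extension.
-/
import Mathlib
import Crest.Agent.R182.PolycKron

set_option autoImplicit false
set_option linter.unusedSectionVars false

namespace Crest.Agent.R182.PolycEmb

open Module Crest.Agent.R182.Polyc

variable {K : Type*} [Field K] {G : Type*} [Group G]

/-- right translation representation of `G` on functions. -/
def R : Representation K G (G → K) where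
  toFun g :=
    { toFun := fun f x => f (x * g)
      map_add' := fun _ _ => rfl
      map_smul' := fun _ _ => rfl }
  map_one' := by ext f x; simp
  map_mul' g h := by ext f x; simp [mul_assoc]

@[simp] theorem R_apply (g : G) (f : G → K) (x : G) : R g f x = f (x * g) := rfl

theorem R_mul (g h : G) (f : G → K) : R (g * h) f = R g (R h f) := by
  funext x; simp [mul_assoc]

theorem R_one (f : G → K) : R (1 : G) f = f := by
  funext x; simp

/-- difference operator -/
def D (g : G) : (G → K) →ₗ[K] (G → K) := R g - LinearMap.id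

@[simp] theorem D_apply (g : G) (f : G → K) (x : G) : D g f x = f (x * g) - f x := rfl

theorem D_def (g : G) (f : G → K) : D g f = R g f - f := rfl

theorem D_one (f : G → K) : D (1 : G) f = 0 := by funext x; simp

theorem D_mul (g h : G) (f : G → K) : D (g * h) f = R g (D h f) + D g f := by
  funext x; simp [mul_assoc]

/-- `Pol N d`: functions killed by all products of `d` differences in directions of `N`. -/
def Pol (N : Subgroup G) : ℕ → Submodule K (G → K)
  | 0 => ⊥
  | d + 1 =>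
    { carrier := {f | ∀ n ∈ N, D n f ∈ Pol N d}
      zero_mem' := fun n _ => by rw [map_zero]; exact (Pol N d).zero_mem
      add_mem' := fun {f g} hf hg n hn => by
        rw [map_add]; exact (Pol N d).add_mem (hf n hn) (hg n hn)
      smul_mem' := fun c f hf n hn => by
        rw [map_smul]; exact (Pol N d).smul_mem c (hf n hn) }

theorem mem_Pol_zero {N : Subgroup G} {f : G → K} : f ∈ Pol N 0 ↔ f = 0 := Iff.rfl

theorem mem_Pol_succ {N : Subgroup G} {d : ℕ} {f : G → K} :
    f ∈ Pol N (d + 1) ↔ ∀ n ∈ N, D n f ∈ Pol N d := Iff.rfl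

theorem Pol_le_succ (N : Subgroup G) (d : ℕ) : (Pol N d : Submodule K (G → K)) ≤ Pol N (d + 1) := by
  induction d with
  | zero =>
    intro f hf
    rw [mem_Pol_zero] at hf
    rw [hf]; exact Submodule.zero_mem _
  | succ d ih =>
    intro f hf n hn
    exact ih (hf n hn)

theorem Pol_mono (N : Subgroup G) {d e : ℕ} (h : d ≤ e) :
    (Pol N d : Submodule K (G → K)) ≤ Pol N e :=
  monotone_nat_of_le_succ (Pol_le_succ N) h

theorem R_mem_Pol {N : Subgroup G} {g : G} (hg : ∀ n ∈ N, g⁻¹ * n * g ∈ N) {d : ℕ} :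
    ∀ {f : G → K}, f ∈ Pol N d → R g f ∈ Pol N d := by
  induction d with
  | zero =>
    intro f hf
    rw [mem_Pol_zero] at hf
    rw [hf, map_zero]; exact Submodule.zero_mem _
  | succ d ih =>
    intro f hf n hn
    have h1 : D n (R g f) = R g (D (g⁻¹ * n * g) f) := by
      funext x
      simp only [D_apply, R_apply]
      congr 2
      group
    rw [h1]
    exact ih (hf _ (hg n hn))

theorem D_mem_Pol {N : Subgroup G} {g : G} (hg : ∀ n ∈ N, g⁻¹ * n * g ∈ N) {d : ℕ}
    {f : G → K} (hf : f ∈ Pol N d) : D g f ∈ Pol N d := by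
  rw [D_def]
  exact Submodule.sub_mem _ (R_mem_Pol hg hf) hf

/-- functions supported on the subgroup `L`. -/
def Fs (L : Subgroup G) : Submodule K (G → K) where
  carrier := {f | ∀ x ∉ L, f x = 0}
  zero_mem' := fun _ _ => rfl
  add_mem' := fun {f g} hf hg x hx => by rw [Pi.add_apply, hf x hx, hg x hx, add_zero]
  smul_mem' := fun c f hf x hx => by rw [Pi.smul_apply, hf x hx, smul_zero]

theorem mem_Fs {L : Subgroup G} {f : G → K} : f ∈ Fs L ↔ ∀ x ∉ L, f x = 0 := Iff.rfl

theorem R_mem_Fs {L : Subgroup G} {g : G} (hg : g ∈ L) {f : G → K} (hf : f ∈ Fs L) :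
    R g f ∈ Fs L := by
  intro x hx
  rw [R_apply]
  exact hf _ (fun h => hx (by simpa using L.mul_mem h (L.inv_mem hg)))

theorem D_mem_Fs {L : Subgroup G} {g : G} (hg : g ∈ L) {f : G → K} (hf : f ∈ Fs L) :
    D g f ∈ Fs L := by
  rw [D_def]
  exact Submodule.sub_mem _ (R_mem_Fs hg hf) hf

/-- left `t`-invariant functions -/
def LT (t : G) : Submodule K (G → K) where
  carrier := {f | ∀ x, f (t * x) = f x}
  zero_mem' := fun _ => rfl
  add_mem' := fun {f g} hf hg x => by rw [Pi.add_apply, Pi.add_apply, hf x, hg x]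
  smul_mem' := fun c f hf x => by rw [Pi.smul_apply, Pi.smul_apply, hf x]

theorem mem_LT {t : G} {f : G → K} : f ∈ LT t ↔ ∀ x, f (t * x) = f x := Iff.rfl

theorem LT_zpow {t : G} {f : G → K} (hf : f ∈ LT t) (k : ℤ) (x : G) : f (t ^ k * x) = f x := by
  let S : Subgroup G :=
    { carrier := {g | ∀ x, f (g * x) = f x}
      one_mem' := fun x => by rw [one_mul]
      mul_mem' := fun {a b} ha hb x => by rw [mul_assoc, ha, hb]
      inv_mem' := fun {a} ha x => by
        have := ha (a⁻¹ * x)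
        rw [mul_inv_cancel_left] at this
        exact this.symm }
  have h1 : t ∈ S := hf
  exact S.zpow_mem h1 k x

theorem R_mem_LT {t g : G} {f : G → K} (hf : f ∈ LT t) : R g f ∈ LT t := by
  intro x
  rw [R_apply, R_apply, mul_assoc]
  exact hf _

theorem D_mem_LT {t g : G} {f : G → K} (hf : f ∈ LT t) : D g f ∈ LT t := by
  rw [D_def]
  exact Submodule.sub_mem _ (R_mem_LT hf) hf

section step

variable {L M : Subgroup G} {t : G}

/-- standing hypotheses: `M = ⟨t⟩ L`, `L` normalised by `M`. -/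
structure Ext (L M : Subgroup G) (t : G) : Prop where
  le : L ≤ M
  mem : t ∈ M
  norm : ∀ h ∈ M, ∀ x ∈ L, h⁻¹ * x * h ∈ L
  gen : ∀ x ∈ M, ∃ k : ℤ, ∃ n ∈ L, x = t ^ k * n
  free : ∀ k : ℤ, t ^ k ∈ L → k = 0

/-- the functions on which everything happens -/
def VV (L M : Subgroup G) (t : G) (j : ℕ) : Submodule K (G → K) := Fs M ⊓ LT t ⊓ Pol L j

theorem mem_VV {j : ℕ} {f : G → K} : f ∈ VV L M t j ↔ (f ∈ Fs M ∧ f ∈ LT t) ∧ f ∈ Pol L j :=
  Iff.rfl

theorem R_mem_VV (E : Ext L M t) {g : G} (hg : g ∈ M) {j : ℕ} {f : G → K} (hf : f ∈ VV L M t j) :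
    R g f ∈ VV L M t j :=
  ⟨⟨R_mem_Fs hg hf.1.1, R_mem_LT hf.1.2⟩, R_mem_Pol (E.norm g hg) hf.2⟩

theorem D_mem_VV (E : Ext L M t) {g : G} (hg : g ∈ M) {j : ℕ} {f : G → K} (hf : f ∈ VV L M t j) :
    D g f ∈ VV L M t j := by
  rw [D_def]
  exact Submodule.sub_mem _ (R_mem_VV E hg hf) hf

theorem D_mem_VV_succ (E : Ext L M t) {n : G} (hn : n ∈ L) {j : ℕ} {f : G → K}
    (hf : f ∈ VV L M t (j + 1)) : D n f ∈ VV L M t j :=
  ⟨⟨D_mem_Fs (E.le hn) hf.1.1, D_mem_LT hf.1.2⟩, hf.2 n hn⟩

theorem iter_mem_VV (E : Ext L M t) {j : ℕ} {f : G → K} (hf : f ∈ VV L M t j) (m : ℕ) :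
    ((D t) ^ m) f ∈ VV L M t j := by
  induction m with
  | zero => simpa using hf
  | succ m ih =>
    rw [pow_succ', Module.End.mul_apply]
    exact D_mem_VV E E.mem ih

theorem eq_zero_of (E : Ext L M t) {f : G → K} (hf : f ∈ Fs M ⊓ LT t) (h1 : f 1 = 0)
    (h : ∀ n ∈ L, D n f = 0) : f = 0 := by
  funext x
  by_cases hx : x ∈ M
  · obtain ⟨k, n, hn, rfl⟩ := E.gen x hx
    rw [LT_zpow hf.2]
    have := congrFun (h n hn) 1
    rw [D_apply, one_mul, h1, sub_zero] at this
    exact this
  · exact hf.1 x hx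

theorem D_comm_aux (n t : G) (f : G → K) :
    D n (D t f) = R t (R n (D (n⁻¹ * t⁻¹ * n * t) f)) + D t (D n f) := by
  funext x
  simp only [D_apply, R_apply, Pi.add_apply]
  have : x * t * n * (n⁻¹ * t⁻¹ * n * t) = x * n * t := by group
  rw [this]
  ring

/-- `t` is unipotent on `VV j`. -/
theorem exists_pow_D_eq_zero [Group.IsNilpotent G] (E : Ext L M t) (j : ℕ) :
    ∃ m : ℕ, ∀ f ∈ (VV L M t j : Submodule K (G → K)), ((D t) ^ m) f = 0 := by
  induction j with
  | zero =>
    refine ⟨0, fun f hf => ?_⟩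
    have : f = 0 := hf.2
    rw [this, map_zero]
  | succ j ih =>
    obtain ⟨mj, hmj⟩ := ih
    have claim : ∀ i : ℕ, ∃ m : ℕ, ∀ n ∈ L, n ∈ Subgroup.upperCentralSeries G i →
        ∀ f ∈ (VV L M t (j + 1) : Submodule K (G → K)), D n (((D t) ^ m) f) = 0 := by
      intro i
      induction i with
      | zero =>
        refine ⟨0, fun n _ hn f _ => ?_⟩
        rw [Subgroup.upperCentralSeries_zero, Subgroup.mem_bot] at hn
        rw [hn, D_one]
      | succ i ihi =>
        obtain ⟨m, hm⟩ := ihi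
        refine ⟨mj + m, fun n hnL hn f hf => ?_⟩
        have hu : n⁻¹ * t⁻¹ * n * t ∈ Subgroup.upperCentralSeries G i := by
          have h1 := (Subgroup.mem_upperCentralSeries_succ_iff).1 (Subgroup.inv_mem _ hn) t⁻¹
          simpa [commutatorElement_def] using h1
        have huL : n⁻¹ * t⁻¹ * n * t ∈ L := by
          have h1 := E.norm t E.mem n hnL
          have h2 := L.mul_mem (L.inv_mem hnL) h1
          simpa [mul_assoc] using h2
        have key : ∀ q : ℕ, D n (((D t) ^ q) (((D t) ^ m) f)) =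
            ((D t) ^ q) (D n (((D t) ^ m) f)) := by
          intro q
          induction q with
          | zero => simp
          | succ q ihq =>
            rw [pow_succ', Module.End.mul_apply, Module.End.mul_apply, D_comm_aux, ihq]
            have h3 : D (n⁻¹ * t⁻¹ * n * t) (((D t) ^ q) (((D t) ^ m) f)) = 0 := by
              have h4 := hm _ huL hu _ (iter_mem_VV E hf q)
              rwa [← Module.End.mul_apply (D t ^ m), ← pow_add, add_comm, pow_add,
                Module.End.mul_apply] at h4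
            rw [h3, map_zero, map_zero, zero_add]
        rw [pow_add, Module.End.mul_apply, key]
        exact hmj _ (D_mem_VV_succ E hnL (iter_mem_VV E hf m))
    obtain ⟨c, hc⟩ := Group.IsNilpotent.nilpotent G
    obtain ⟨m, hm⟩ := claim c
    refine ⟨m + 1, fun f hf => ?_⟩
    have hmem := iter_mem_VV E hf (m + 1)
    refine eq_zero_of E hmem.1 ?_ ?_
    · rw [pow_succ', Module.End.mul_apply, D_apply, one_mul]
      have h1 := (iter_mem_VV E hf m).1.2 1
      rw [mul_one] at h1
      rw [h1, sub_self]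
    · intro n hn
      rw [pow_succ, Module.End.mul_apply]
      exact hm n hn (by rw [hc]; trivial) _ (D_mem_VV E E.mem hf)

theorem R_comm_D {a b : G} (h : a * b = b * a) (f : G → K) : R a (D b f) = D b (R a f) := by
  funext x
  simp only [D_apply, R_apply]
  rw [mul_assoc, mul_assoc, h]

theorem R_comm_D_pow {a b : G} (h : a * b = b * a) (l : ℕ) (f : G → K) :
    R a (((D b) ^ l) f) = ((D b) ^ l) (R a f) := by
  induction l with
  | zero => simp
  | succ l ih => rw [pow_succ', Module.End.mul_apply, Module.End.mul_apply, R_comm_D h, ih]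

theorem exists_VV_le_Pol [Group.IsNilpotent G] (E : Ext L M t) (j : ℕ) :
    ∃ d : ℕ, (VV L M t j : Submodule K (G → K)) ≤ Pol M d := by
  induction j with
  | zero =>
    refine ⟨0, fun f hf => ?_⟩
    have : f = 0 := hf.2
    exact this
  | succ j ih =>
    obtain ⟨d, hd⟩ := ih
    obtain ⟨m, hm⟩ := exists_pow_D_eq_zero (K := K) E (j + 1)
    have claim : ∀ l : ℕ, ∀ f ∈ (VV L M t (j + 1) : Submodule K (G → K)),
        ((D t) ^ l) f ∈ VV L M t j → f ∈ Pol M (d + l) := by
      intro l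
      induction l with
      | zero => intro f _ h; exact hd (by simpa using h)
      | succ l ihl =>
        intro f hf h g hg
        obtain ⟨k, n, hn, rfl⟩ := E.gen g hg
        have hk : t ^ k ∈ M := M.zpow_mem E.mem k
        rw [D_mul]
        refine Submodule.add_mem _ ?_ ?_
        · exact Pol_mono M (Nat.le_add_right d l) (hd (R_mem_VV E hk (D_mem_VV_succ E hn hf)))
        · refine ihl _ (D_mem_VV E hk hf) ?_
          -- `D t ^ l (D (t^k) f) ∈ VV j`
          let S : Subgroup G :=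
            { carrier := {g | g ∈ Subgroup.zpowers t ∧ ((D t) ^ l) (D g f) ∈ VV L M t j}
              one_mem' := ⟨Subgroup.one_mem _, by
                rw [D_one, map_zero]; exact Submodule.zero_mem _⟩
              mul_mem' := ?_
              inv_mem' := ?_ }
          · have h1 : t ∈ S := ⟨Subgroup.mem_zpowers t, by
              rw [← Module.End.mul_apply, ← pow_succ]; exact h⟩
            exact (S.zpow_mem h1 k).2
          · rintro a b ⟨ha, ha'⟩ ⟨hb, hb'⟩
            refine ⟨Subgroup.mul_mem _ ha hb, ?_⟩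
            rw [D_mul, map_add]
            refine Submodule.add_mem _ ?_ ha'
            obtain ⟨i, rfl⟩ := Subgroup.mem_zpowers_iff.1 ha
            have hcomm : t ^ i * t = t * t ^ i := by
              rw [← zpow_add_one, ← zpow_one_add, add_comm]
            rw [← R_comm_D_pow hcomm]
            exact R_mem_VV E (M.zpow_mem E.mem i) hb'
          · rintro a ⟨ha, ha'⟩
            refine ⟨Subgroup.inv_mem _ ha, ?_⟩
            have h1 : D a⁻¹ f = - R a⁻¹ (D a f) := by
              funext x; simp [mul_assoc]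
            obtain ⟨i, rfl⟩ := Subgroup.mem_zpowers_iff.1 ha
            have hcomm : (t ^ i)⁻¹ * t = t * (t ^ i)⁻¹ := by
              rw [← zpow_neg, ← zpow_add_one, ← zpow_one_add, add_comm]
            rw [h1, map_neg, ← R_comm_D_pow hcomm]
            exact Submodule.neg_mem _ (R_mem_VV E (M.inv_mem (M.zpow_mem E.mem i)) ha')
    exact ⟨d + m, fun f hf => claim m f hf (by rw [hm f hf]; exact Submodule.zero_mem _)⟩

/-- uniqueness of the exponent -/
theorem Ext.unique (E : Ext L M t) {k l : ℤ} {m n : G} (hm : m ∈ L) (hn : n ∈ L)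
    (h : t ^ k * m = t ^ l * n) : k = l ∧ m = n := by
  have h1 : t ^ (l - k) = m * n⁻¹ := by
    have : m * n⁻¹ = (t ^ k)⁻¹ * (t ^ k * m) * n⁻¹ := by group
    rw [this, h, sub_eq_neg_add, zpow_add, zpow_neg]; group
  have h2 := E.free (l - k) (by rw [h1]; exact L.mul_mem hm (L.inv_mem hn))
  have h3 : k = l := by omega
  subst h3
  exact ⟨rfl, mul_left_cancel h⟩

open Classical in
/-- the left `t`-invariant extension of a function on `L` to `M` -/
noncomputable def ext (L : Subgroup G) (t : G) (f : G → K) (x : G) : K :=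
  if h : ∃ k : ℤ, ∃ n ∈ L, x = t ^ k * n then f h.choose_spec.choose else 0

theorem ext_eq (E : Ext L M t) (f : G → K) (k : ℤ) {n : G} (hn : n ∈ L) :
    ext L t f (t ^ k * n) = f n := by
  have h : ∃ k' : ℤ, ∃ n' ∈ L, t ^ k * n = t ^ k' * n' := ⟨k, n, hn, rfl⟩
  rw [ext, dif_pos h]
  have h1 := h.choose_spec.choose_spec
  rw [(E.unique hn h1.1 h1.2).2.symm]

theorem ext_eq' (E : Ext L M t) (f : G → K) {n : G} (hn : n ∈ L) : ext L t f n = f n := by
  have := ext_eq E f 0 hn
  simpa using this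

theorem ext_of_not_mem (E : Ext L M t) (f : G → K) {x : G} (hx : x ∉ M) : ext L t f x = 0 := by
  rw [ext, dif_neg]
  rintro ⟨k, n, hn, rfl⟩
  exact hx (M.mul_mem (M.zpow_mem E.mem k) (E.le hn))

theorem ext_mem_Fs (E : Ext L M t) (f : G → K) : ext L t f ∈ Fs M :=
  fun _ hx => ext_of_not_mem E f hx

theorem ext_mem_LT (E : Ext L M t) (f : G → K) : ext L t f ∈ LT t := by
  intro x
  by_cases hx : x ∈ M
  · obtain ⟨k, n, hn, rfl⟩ := E.gen x hx
    rw [← mul_assoc, ← zpow_one_add, ext_eq E f _ hn, ext_eq E f _ hn]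
  · rw [ext_of_not_mem E f hx, ext_of_not_mem E f]
    intro h
    apply hx
    have := M.mul_mem (M.inv_mem E.mem) h
    simpa using this

theorem D_ext (E : Ext L M t) (f : G → K) {n : G} (hn : n ∈ L) :
    D n (ext L t f) = ext L t (D n f) := by
  funext x
  by_cases hx : x ∈ M
  · obtain ⟨k, m, hm, rfl⟩ := E.gen x hx
    rw [D_apply, mul_assoc, ext_eq E f _ (L.mul_mem hm hn), ext_eq E f _ hm, ext_eq E _ _ hm,
      D_apply]
  · rw [ext_of_not_mem E _ hx]
    exact D_mem_Fs (E.le hn) (ext_mem_Fs E f) x hx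

theorem ext_zero (E : Ext L M t) {f : G → K} (h : ∀ n ∈ L, f n = 0) : ext L t f = 0 := by
  funext x
  by_cases hx : x ∈ M
  · obtain ⟨k, m, hm, rfl⟩ := E.gen x hx
    rw [ext_eq E f _ hm, h m hm]; rfl
  · rw [ext_of_not_mem E _ hx]; rfl

theorem ext_mem_Pol (E : Ext L M t) {d : ℕ} : ∀ {f : G → K}, f ∈ Pol L d →
    ext L t f ∈ Pol L d := by
  induction d with
  | zero =>
    intro f hf
    rw [mem_Pol_zero] at hf ⊢
    exact ext_zero E (by rw [hf]; intro _ _; rfl)
  | succ d ih =>
    intro f hf n hn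
    rw [D_ext E f hn]
    exact ih (hf n hn)

/-- extension of polynomial functions through an infinite cyclic step -/
theorem exists_ext_mem_Pol [Group.IsNilpotent G] (E : Ext L M t) (d : ℕ) :
    ∃ e : ℕ, ∀ f ∈ (Pol L d : Submodule K (G → K)), ext L t f ∈ Pol M e := by
  obtain ⟨e, he⟩ := exists_VV_le_Pol (K := K) E d
  exact ⟨e, fun f hf => he ⟨⟨ext_mem_Fs E f, ext_mem_LT E f⟩, ext_mem_Pol E hf⟩⟩

open Classical in
/-- the exponent of `t` -/
noncomputable def tc (L : Subgroup G) (t : G) (x : G) : K :=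
  if h : ∃ k : ℤ, ∃ n ∈ L, x = t ^ k * n then ((h.choose : ℤ) : K) else 0

theorem tc_eq (E : Ext L M t) (k : ℤ) {n : G} (hn : n ∈ L) :
    (tc L t (t ^ k * n) : K) = k := by
  have h : ∃ k' : ℤ, ∃ n' ∈ L, t ^ k * n = t ^ k' * n' := ⟨k, n, hn, rfl⟩
  rw [tc, dif_pos h]
  have h1 := h.choose_spec.choose_spec
  rw [← (E.unique hn h1.1 h1.2).1]

theorem tc_of_not_mem (E : Ext L M t) {x : G} (hx : x ∉ M) : (tc L t x : K) = 0 := by
  rw [tc, dif_neg]
  rintro ⟨k, n, hn, rfl⟩
  exact hx (M.mul_mem (M.zpow_mem E.mem k) (E.le hn))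

theorem tc_mem_Fs (E : Ext L M t) : (tc L t : G → K) ∈ Fs M :=
  fun _ hx => tc_of_not_mem E hx

theorem Ext.conj_zpow (E : Ext L M t) (k : ℤ) {n : G} (hn : n ∈ L) :
    (t ^ k)⁻¹ * n * t ^ k ∈ L := E.norm _ (M.zpow_mem E.mem k) n hn

theorem tc_mul (E : Ext L M t) {x y : G} (hx : x ∈ M) (hy : y ∈ M) :
    (tc L t (x * y) : K) = tc L t x + tc L t y := by
  obtain ⟨k, m, hm, rfl⟩ := E.gen x hx
  obtain ⟨l, n, hn, rfl⟩ := E.gen y hy
  have h1 : t ^ k * m * (t ^ l * n) = t ^ (k + l) * ((t ^ l)⁻¹ * m * t ^ l * n) := by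
    rw [zpow_add]; group
  rw [h1, tc_eq E _ (L.mul_mem (E.conj_zpow l hm) hn), tc_eq E _ hm, tc_eq E _ hn]
  push_cast; ring

open Classical in
/-- indicator function of a subgroup -/
noncomputable def ind (M : Subgroup G) (x : G) : K := if x ∈ M then 1 else 0

theorem ind_of_mem {M : Subgroup G} {x : G} (hx : x ∈ M) : (ind M x : K) = 1 := if_pos hx

theorem ind_of_not_mem {M : Subgroup G} {x : G} (hx : x ∉ M) : (ind M x : K) = 0 := if_neg hx

theorem mul_mem_iff {M : Subgroup G} {x g : G} (hg : g ∈ M) : x * g ∈ M ↔ x ∈ M :=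
  ⟨fun h => by simpa using M.mul_mem h (M.inv_mem hg), fun h => M.mul_mem h hg⟩

theorem ind_mem_Pol (M : Subgroup G) : (ind M : G → K) ∈ Pol M 1 := by
  intro g hg
  rw [mem_Pol_zero]
  funext x
  rw [D_apply]
  by_cases hx : x ∈ M
  · rw [ind_of_mem hx, ind_of_mem ((mul_mem_iff hg).2 hx), sub_self]; rfl
  · rw [ind_of_not_mem hx, ind_of_not_mem (fun h => hx ((mul_mem_iff hg).1 h)), sub_self]; rfl

theorem tc_mem_Pol (E : Ext L M t) : (tc L t : G → K) ∈ Pol M 2 := by
  intro g hg
  have h1 : D g (tc L t : G → K) = (tc L t g : K) • (ind M : G → K) := by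
    funext x
    rw [D_apply, Pi.smul_apply]
    by_cases hx : x ∈ M
    · rw [ind_of_mem hx, tc_mul E hx hg, smul_eq_mul]; ring
    · rw [ind_of_not_mem hx, tc_of_not_mem E hx,
        tc_of_not_mem E (fun h => hx ((mul_mem_iff hg).1 h)), smul_zero, sub_self]
  rw [h1]
  exact Submodule.smul_mem _ _ (ind_mem_Pol M)

end step

/-- from a step of the `PZ` series to `Ext` -/
theorem Ext.of_step {N M : Subgroup G} {g : G} (hle : N ≤ M)
    (hnorm : ∀ h ∈ M, ∀ x ∈ N, h * x * h⁻¹ ∈ N) (hg : g ∈ M)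
    (hM : M = N ⊔ Subgroup.zpowers g) (hfree : ∀ k : ℤ, g ^ k ∈ N → k = 0) : Ext N M g where
  le := hle
  mem := hg
  norm h hh x hx := by
    have := hnorm h⁻¹ (M.inv_mem hh) x hx
    simpa using this
  gen x hx := by
    obtain ⟨n, hn, i, rfl⟩ := (mem_of_step hnorm hg hM).1 hx
    refine ⟨i, (g ^ i)⁻¹ * n * g ^ i, ?_, by group⟩
    have := hnorm (g ^ i)⁻¹ (M.inv_mem (M.zpow_mem hg i)) n hn
    simpa using this
  free := hfree

/-- product of powers in order -/
def pw {s : ℕ} (a : Fin s → G) (x : Fin s → ℤ) : G := (List.ofFn fun i => a i ^ x i).prod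

theorem pw_zero (a : Fin 0 → G) (x : Fin 0 → ℤ) : pw a x = 1 := by simp [pw]

theorem pw_cons {s : ℕ} (t : G) (a : Fin s → G) (x : Fin (s + 1) → ℤ) :
    pw (Fin.cons t a) x = t ^ x 0 * pw a (fun i => x i.succ) := by
  simp [pw, List.ofFn_succ]

/-- **Mal'cev coordinates**: a poly-(infinite cyclic) subgroup `L` of a nilpotent group has a
Mal'cev basis for which the coordinates are polynomial functions. -/
theorem exists_coords [Group.IsNilpotent G] {L : Subgroup G} (hL : PZ L) :
    ∃ (s : ℕ) (a : Fin s → G) (e : Fin s → G → K), (∀ i, a i ∈ L) ∧ (∀ x, pw a x ∈ L) ∧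
      (∀ n ∈ L, ∃ x, n = pw a x) ∧ (∀ x i, e i (pw a x) = x i) ∧
      (∀ i, e i ∈ Fs L) ∧ ∃ d, ∀ i, e i ∈ Pol L d := by
  induction hL with
  | bot =>
    refine ⟨0, fun i => i.elim0, fun i => i.elim0, fun i => i.elim0, ?_, ?_,
      fun _ i => i.elim0, fun i => i.elim0, 0, fun i => i.elim0⟩
    · intro x; rw [pw_zero]; exact Subgroup.one_mem _
    · intro n hn
      refine ⟨fun i => i.elim0, ?_⟩
      rw [pw_zero]; exact Subgroup.mem_bot.1 hn
  | @step N M hN hle hnorm g hg hM hfree ih =>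
    have E := Ext.of_step hle hnorm hg hM hfree
    obtain ⟨s, a, e, h0, h1, h2, h3, h4, d, h5⟩ := ih
    obtain ⟨d', hd'⟩ := exists_ext_mem_Pol (K := K) E d
    refine ⟨s + 1, Fin.cons g a, Fin.cons (tc N g) (fun i => ext N g (e i)), ?_, ?_, ?_, ?_, ?_,
      max 2 d', ?_⟩
    · intro i
      refine Fin.cases ?_ (fun i => ?_) i
      · rw [Fin.cons_zero]; exact hg
      · rw [Fin.cons_succ]; exact hle (h0 i)
    · intro x
      rw [pw_cons]
      exact M.mul_mem (M.zpow_mem hg _) (hle (h1 _))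
    · intro n hn
      obtain ⟨k, m, hm, rfl⟩ := E.gen n hn
      obtain ⟨x, rfl⟩ := h2 m hm
      exact ⟨Fin.cons k x, by rw [pw_cons]; simp⟩
    · intro x i
      rw [pw_cons]
      refine Fin.cases ?_ (fun i => ?_) i
      · rw [Fin.cons_zero, tc_eq E _ (h1 _)]
      · rw [Fin.cons_succ, ext_eq E _ _ (h1 _), h3]
    · intro i
      refine Fin.cases ?_ (fun i => ?_) i
      · rw [Fin.cons_zero]; exact tc_mem_Fs E
      · rw [Fin.cons_succ]; exact ext_mem_Fs E _
    · intro i
      refine Fin.cases ?_ (fun i => ?_) i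
      · rw [Fin.cons_zero]; exact Pol_mono M (le_max_left _ _) (tc_mem_Pol E)
      · rw [Fin.cons_succ]; exact Pol_mono M (le_max_right _ _) (hd' _ (h5 i))

end Crest.Agent.R182.PolycEmb
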