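/-
R182, module POLYC, block PC4: central series with infinite cyclic factors in a torsion-free
finitely generated nilpotent group; Mal'cev coordinates adapted to it.
-/
import Mathlib
import Crest.Agent.R182.PolycPol

set_option autoImplicit false
set_option linter.unusedSectionVars false

namespace Crest.Agent.R182.PolycEmb

open Module Crest.Agent.R182.Polyc

variable {K : Type*} [Field K] {G : Type*} [Group G]

/-- central series with infinite cyclic factors -/
inductive CZ {G : Type*} [Group G] : Subgroup G → Prop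
  | bot : CZ ⊥
  | step {N M : Subgroup G} (hN : CZ N) (hle : N ≤ M) (g : G)
      (hM : M = N ⊔ Subgroup.zpowers g) (hcent : ∀ h : G, h * g * h⁻¹ * g⁻¹ ∈ N)
      (hfree : ∀ k : ℤ, g ^ k ∈ N → k = 0) : CZ M

theorem CZ.normal {N : Subgroup G} (h : CZ N) : N.Normal := by
  induction h with
  | bot => infer_instance
  | @step N M hN hle g hM hcent hfree ih =>
    refine ⟨fun x hx h => ?_⟩
    have hNn := ih
    have hgh : ∀ k : ℤ, h * g ^ k * h⁻¹ ∈ M := by
      intro k
      have h1 : h * g * h⁻¹ ∈ M := by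
        have : h * g * h⁻¹ = (h * g * h⁻¹ * g⁻¹) * g := by group
        rw [this, hM]
        exact Subgroup.mul_mem_sup (hcent h) (Subgroup.mem_zpowers g)
      rw [← conj_zpow]
      exact M.zpow_mem h1 k
    have hg1 : ∀ x ∈ N, g * x * g⁻¹ ∈ N := fun x hx => hNn.conj_mem x hx g
    have hg2 : ∀ x ∈ N, g⁻¹ * x * g ∈ N := fun x hx => by
      have := hNn.conj_mem x hx g⁻¹
      simpa using this
    rw [hM] at hx
    obtain ⟨n, hn, k, rfl⟩ := (mem_sup_zpowers hg1 hg2).1 hx
    have h3 : h * (n * g ^ k) * h⁻¹ = (h * n * h⁻¹) * (h * g ^ k * h⁻¹) := by group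
    rw [h3]
    exact M.mul_mem (hle (hNn.conj_mem n hn h)) (hgh k)

theorem CZ.ext {N M : Subgroup G} (hN : CZ N) (hle : N ≤ M) {g : G}
    (hM : M = N ⊔ Subgroup.zpowers g) (hfree : ∀ k : ℤ, g ^ k ∈ N → k = 0) : Ext N M g := by
  refine Ext.of_step hle (fun h _ x hx => hN.normal.conj_mem x hx h) ?_ hM hfree
  rw [hM]; exact Subgroup.mem_sup_right (Subgroup.mem_zpowers g)

/-- torsion-free abelian quotient, finitely generated: coordinates. -/
theorem exists_hom_of_tf {M : Type*} [Group M] [Group.FG M] (N : Subgroup M) [hN : N.Normal]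
    (hab : ∀ x y : M, x * y * x⁻¹ * y⁻¹ ∈ N) (htf : ∀ (x : M) (j : ℤ), j ≠ 0 → x ^ j ∈ N → x ∈ N) :
    ∃ (r : ℕ) (φ : M →* Multiplicative (Fin r → ℤ)), Function.Surjective φ ∧
      ∀ x, φ x = 1 ↔ x ∈ N := by
  let _ : CommGroup (M ⧸ N) :=
    { (inferInstance : Group (M ⧸ N)) with
      mul_comm := by
        intro a b
        induction a using QuotientGroup.induction_on with
        | H x =>
          induction b using QuotientGroup.induction_on with
          | H y =>
            rw [← QuotientGroup.mk_mul, ← QuotientGroup.mk_mul]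
            rw [← mul_inv_eq_one, ← QuotientGroup.mk_inv, ← QuotientGroup.mk_mul,
              QuotientGroup.eq_one_iff]
            have := hab x y
            rwa [show x * y * (y * x)⁻¹ = x * y * x⁻¹ * y⁻¹ by group] }
  have hfgQ : Group.FG (M ⧸ N) := inferInstance
  have hfgA : AddGroup.FG (Additive (M ⧸ N)) := inferInstance
  have hfin : Module.Finite ℤ (Additive (M ⧸ N)) := Module.Finite.iff_addGroup_fg.2 hfgA
  have hmk : ∀ (x : M) (n : ℤ), n • (Additive.ofMul (QuotientGroup.mk x : M ⧸ N)) =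
      Additive.ofMul (QuotientGroup.mk (x ^ n) : M ⧸ N) := by
    intro x n
    rw [← ofMul_zpow]; rfl
  have htf' : Module.IsTorsionFree ℤ (Additive (M ⧸ N)) := by
    rw [Module.isTorsionFree_iff_smul_eq_zero]
    intro n a h
    by_cases hn : n = 0
    · exact Or.inl hn
    · refine Or.inr ?_
      obtain ⟨x, hx⟩ := QuotientGroup.mk_surjective (Additive.toMul a)
      have ha : a = Additive.ofMul (QuotientGroup.mk x : M ⧸ N) := by rw [hx]; rfl
      rw [ha, hmk, ofMul_eq_zero, QuotientGroup.eq_one_iff] at h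
      rw [ha, ofMul_eq_zero, QuotientGroup.eq_one_iff]
      exact htf x n hn h
  have hfree : Module.Free ℤ (Additive (M ⧸ N)) := inferInstance
  let b := Module.finBasis ℤ (Additive (M ⧸ N))
  let ψ : Additive (M ⧸ N) ≃+ (Fin (Module.finrank ℤ (Additive (M ⧸ N))) → ℤ) :=
    b.equivFun.toAddEquiv
  let φ : M →* Multiplicative (Fin (Module.finrank ℤ (Additive (M ⧸ N))) → ℤ) :=
    (AddMonoidHom.toMultiplicativeRight ψ.toAddMonoidHom).comp (QuotientGroup.mk' N)
  refine ⟨_, φ, ?_, ?_⟩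
  · intro v
    obtain ⟨a, ha⟩ := ψ.surjective (Multiplicative.toAdd v)
    obtain ⟨x, hx⟩ := QuotientGroup.mk_surjective (Additive.toMul a)
    refine ⟨x, ?_⟩
    show Multiplicative.ofAdd (ψ (Additive.ofMul (QuotientGroup.mk x : M ⧸ N))) = v
    rw [hx]
    show Multiplicative.ofAdd (ψ a) = v
    rw [ha]; rfl
  · intro x
    show Multiplicative.ofAdd (ψ (Additive.ofMul (QuotientGroup.mk x : M ⧸ N))) = 1 ↔ _
    rw [ofAdd_eq_one, EmbeddingLike.map_eq_zero_iff, ofMul_eq_zero, QuotientGroup.eq_one_iff]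

/-- torsion-free central quotient: extend a `CZ` series. -/
theorem CZ.extend {N M : Subgroup G} (hN : CZ N) (hle : N ≤ M) (hM : M.FG)
    (hcent : ∀ x ∈ M, ∀ h : G, h * x * h⁻¹ * x⁻¹ ∈ N)
    (htf : ∀ x ∈ M, ∀ j : ℤ, j ≠ 0 → x ^ j ∈ N → x ∈ N) : CZ M := by
  have hNn := hN.normal
  have hfg : Group.FG M := (Group.fg_iff_subgroup_fg M).2 hM
  obtain ⟨r, φ, hφ, hker⟩ := exists_hom_of_tf (M := M) (N.subgroupOf M)
    (fun x y => by
      rw [Subgroup.mem_subgroupOf]
      exact hcent y y.2 x)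
    (fun x j hj h => by
      rw [Subgroup.mem_subgroupOf] at h ⊢
      exact htf x x.2 j hj h)
  let L : ℕ → Subgroup G := fun j =>
    { carrier := {x | ∃ hx : x ∈ M, ∀ i : Fin r, j ≤ (i : ℕ) →
        Multiplicative.toAdd (φ ⟨x, hx⟩) i = 0}
      one_mem' := ⟨M.one_mem, fun i _ => by
        rw [show (⟨1, M.one_mem⟩ : M) = 1 from rfl, map_one]; rfl⟩
      mul_mem' := by
        rintro x y ⟨hx, hx'⟩ ⟨hy, hy'⟩
        refine ⟨M.mul_mem hx hy, fun i hi => ?_⟩
        rw [show (⟨x * y, M.mul_mem hx hy⟩ : M) = ⟨x, hx⟩ * ⟨y, hy⟩ from rfl, map_mul, toAdd_mul,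
          Pi.add_apply, hx' i hi, hy' i hi, add_zero]
      inv_mem' := by
        rintro x ⟨hx, hx'⟩
        refine ⟨M.inv_mem hx, fun i hi => ?_⟩
        rw [show (⟨x⁻¹, M.inv_mem hx⟩ : M) = ⟨x, hx⟩⁻¹ from rfl, map_inv, toAdd_inv,
          Pi.neg_apply, hx' i hi, neg_zero] }
  have hL : ∀ j x, x ∈ L j ↔ ∃ hx : x ∈ M, ∀ i : Fin r, j ≤ (i : ℕ) →
        Multiplicative.toAdd (φ ⟨x, hx⟩) i = 0 := fun j x => Iff.rfl
  have hNL : ∀ j, N ≤ L j := by
    intro j x hx
    refine ⟨hle hx, fun i _ => ?_⟩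
    rw [(hker ⟨x, hle hx⟩).2 (Subgroup.mem_subgroupOf.2 hx)]; rfl
  have key : ∀ j : ℕ, j ≤ r → CZ (L j) := by
    intro j
    induction j with
    | zero =>
      intro _
      have : L 0 = N := by
        refine le_antisymm ?_ (hNL 0)
        rintro x ⟨hx, hx'⟩
        have h1 : φ ⟨x, hx⟩ = 1 := by
          apply Multiplicative.toAdd.injective
          funext i
          exact hx' i (Nat.zero_le _)
        exact Subgroup.mem_subgroupOf.1 ((hker _).1 h1)
      rw [this]; exact hN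
    | succ j ih =>
      intro hj
      have ih' := ih (by omega)
      obtain ⟨⟨g, hg⟩, hgφ⟩ := hφ (Multiplicative.ofAdd (Pi.single ⟨j, by omega⟩ 1))
      have hgz : ∀ (k : ℤ) (i : Fin r), Multiplicative.toAdd (φ (⟨g, hg⟩ ^ k)) i =
          k * (Pi.single (M := fun _ => ℤ) ⟨j, by omega⟩ 1 : Fin r → ℤ) i := by
        intro k i
        rw [map_zpow, hgφ, toAdd_zpow, toAdd_ofAdd, Pi.smul_apply, smul_eq_mul]
      have hgL : g ∈ L (j + 1) := by
        refine ⟨hg, fun i hi => ?_⟩
        rw [hgφ, toAdd_ofAdd, Pi.single_eq_of_ne]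
        intro h
        rw [h] at hi
        simp at hi
      have hLL : L j ≤ L (j + 1) := by
        rintro x ⟨hx, hx'⟩
        exact ⟨hx, fun i hi => hx' i (by omega)⟩
      refine CZ.step ih' hLL g ?_ (fun h => hNL j (hcent g hg h)) ?_
      · refine le_antisymm ?_ (sup_le hLL (by rw [Subgroup.zpowers_le]; exact hgL))
        rintro x ⟨hx, hx'⟩
        let k : ℤ := Multiplicative.toAdd (φ ⟨x, hx⟩) ⟨j, by omega⟩
        have h1 : x * (g ^ k)⁻¹ ∈ L j := by
          refine ⟨M.mul_mem hx (M.inv_mem (M.zpow_mem hg k)), fun i hi => ?_⟩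
          have h2 : (⟨x * (g ^ k)⁻¹, M.mul_mem hx (M.inv_mem (M.zpow_mem hg k))⟩ : M) =
              ⟨x, hx⟩ * (⟨g, hg⟩ ^ k)⁻¹ := by
            ext; simp
          rw [h2, map_mul, map_inv, toAdd_mul, toAdd_inv, Pi.add_apply, Pi.neg_apply, hgz]
          rcases Nat.eq_or_lt_of_le hi with h3 | h3
          · have h4 : i = ⟨j, by omega⟩ := Fin.ext h3.symm
            rw [h4, Pi.single_eq_same, mul_one]
            exact add_neg_cancel k
          · rw [hx' i h3, Pi.single_eq_of_ne (by intro h; rw [h] at h3; simp at h3), mul_zero,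
              neg_zero, add_zero]
        have h5 : x = x * (g ^ k)⁻¹ * g ^ k := by group
        rw [h5]
        exact Subgroup.mul_mem_sup h1 (Subgroup.mem_zpowers_iff.2 ⟨k, rfl⟩)
      · rintro k ⟨hk, hk'⟩
        have h1 := hk' ⟨j, by omega⟩ le_rfl
        have h2 : (⟨g ^ k, hk⟩ : M) = ⟨g, hg⟩ ^ k := by ext; simp
        rwa [h2, hgz, Pi.single_eq_same, mul_one] at h1
  have hr : L r = M := by
    refine le_antisymm (fun x hx => hx.1) (fun x hx => ⟨hx, fun i hi => ?_⟩)
    exact absurd i.2 (by omega)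
  rw [← hr]
  exact key r le_rfl

theorem ucs_torsionFree (htf : ∀ (x : G) (j : ℤ), j ≠ 0 → x ^ j = 1 → x = 1) (i : ℕ) :
    ∀ x ∈ Subgroup.upperCentralSeries G (i + 1), ∀ j : ℤ, j ≠ 0 →
      x ^ j ∈ Subgroup.upperCentralSeries G i → x ∈ Subgroup.upperCentralSeries G i := by
  induction i with
  | zero =>
    intro x _ j hj h
    rw [Subgroup.upperCentralSeries_zero, Subgroup.mem_bot] at h ⊢
    exact htf x j hj h
  | succ i ih =>
    intro x hx j hj h
    rw [Subgroup.mem_upperCentralSeries_succ_iff]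
    intro y
    have h1 : x * y * x⁻¹ * y⁻¹ ∈ Subgroup.upperCentralSeries G (i + 1) := by
      have := (Subgroup.mem_upperCentralSeries_succ_iff).1 hx y
      simpa [commutatorElement_def] using this
    have h2 : x ^ j * y * (x ^ j)⁻¹ * y⁻¹ ∈ Subgroup.upperCentralSeries G i := by
      have := (Subgroup.mem_upperCentralSeries_succ_iff).1 h y
      simpa [commutatorElement_def] using this
    -- modulo `Z_i`, the commutator is central: `[x^j, y] = [x, y]^j`
    set Z := Subgroup.upperCentralSeries G i with hZ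
    have hZn : Z.Normal := inferInstance
    let q : G →* G ⧸ Z := QuotientGroup.mk' Z
    have hc : ∀ g : G, q g * q (x * y * x⁻¹ * y⁻¹) = q (x * y * x⁻¹ * y⁻¹) * q g := by
      intro g
      rw [← map_mul, ← map_mul]
      refine (QuotientGroup.eq).2 ?_
      have h3 := (Subgroup.mem_upperCentralSeries_succ_iff).1 (Subgroup.inv_mem _ h1) g⁻¹
      rw [commutatorElement_def] at h3
      have h4 := hZn.conj_mem _ h3 1
      have : (g * (x * y * x⁻¹ * y⁻¹))⁻¹ * (x * y * x⁻¹ * y⁻¹ * g) =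
        (x * y * x⁻¹ * y⁻¹)⁻¹ * g⁻¹ * (x * y * x⁻¹ * y⁻¹)⁻¹⁻¹ * g⁻¹⁻¹ := by group
      rw [this]; simpa using h3
    set c := x * y * x⁻¹ * y⁻¹ with hcdef
    have hconj : q y * q x⁻¹ * q y⁻¹ = q x⁻¹ * q c := by
      rw [← map_mul, ← map_mul, ← map_mul, hcdef]
      congr 1; group
    have hcomm : Commute (q x⁻¹) (q c) := hc x⁻¹
    have h5 : q (x ^ j * y * (x ^ j)⁻¹ * y⁻¹) = q c ^ j := by
      have h6 : x ^ j * y * (x ^ j)⁻¹ * y⁻¹ = x ^ j * (y * x⁻¹ * y⁻¹) ^ j := by
        rw [conj_zpow]; group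
      rw [h6, map_mul, map_zpow q (y * x⁻¹ * y⁻¹), map_mul, map_mul, hconj, hcomm.mul_zpow,
        map_zpow, map_inv, inv_zpow, ← mul_assoc, mul_inv_cancel, one_mul]
    have h7 : c ^ j ∈ Z := by
      rw [← QuotientGroup.eq_one_iff]
      have h8 : q (c ^ j) = 1 := by
        rw [map_zpow, ← h5]
        exact (QuotientGroup.eq_one_iff _).2 h2
      exact h8
    have h9 := ih c h1 j hj h7
    rw [commutatorElement_def]
    exact h9

theorem cz_top [Group.IsNilpotent G] (hG : PZ (⊤ : Subgroup G)) : CZ (⊤ : Subgroup G) := by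
  have htf : ∀ (x : G) (j : ℤ), j ≠ 0 → x ^ j = 1 → x = 1 := fun x j hj h =>
    hG.torsionFree (Subgroup.mem_top x) hj h
  have key : ∀ i, CZ (Subgroup.upperCentralSeries G i) := by
    intro i
    induction i with
    | zero => rw [Subgroup.upperCentralSeries_zero]; exact CZ.bot
    | succ i ih =>
      refine ih.extend (Subgroup.upperCentralSeries_mono G (Nat.le_succ i)) ?_ ?_
        (ucs_torsionFree htf i)
      · exact (hG.mono le_top).pc.fg
      · intro x hx h
        have h1 := (Subgroup.mem_upperCentralSeries_succ_iff).1 (Subgroup.inv_mem _ hx) h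
        rw [commutatorElement_def] at h1
        have h2 := (inferInstance : (Subgroup.upperCentralSeries G i).Normal).conj_mem _ h1 x
        have h3 : x * (x⁻¹ * h * x⁻¹⁻¹ * h⁻¹) * x⁻¹ = h * x * h⁻¹ * x⁻¹ := by group
        rwa [h3] at h2
  obtain ⟨c, hc⟩ := Group.IsNilpotent.nilpotent G
  rw [← hc]; exact key c

/-- **Mal'cev coordinates** adapted to a central series -/
theorem exists_coords_cz [Group.IsNilpotent G] {L : Subgroup G} (hL : CZ L) :
    ∃ (s : ℕ) (a : Fin s → G) (e : Fin s → G → K), (∀ i, a i ∈ L) ∧ (∀ x, pw a x ∈ L) ∧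
      (∀ n ∈ L, ∃ x, n = pw a x) ∧ (∀ x i, e i (pw a x) = x i) ∧
      (∀ i, e i ∈ Fs L) ∧ (∃ d, ∀ i, e i ∈ Pol L d) ∧
      (∀ (j : ℕ) (x : Fin s → ℤ), (∀ i : Fin s, (i : ℕ) < j → x i = 0) →
        ∀ h : G, ∀ i : Fin s, (i : ℕ) < j → e i (h * pw a x * h⁻¹) = 0) := by
  induction hL with
  | bot =>
    refine ⟨0, fun i => i.elim0, fun i => i.elim0, fun i => i.elim0, ?_, ?_,
      fun _ i => i.elim0, fun i => i.elim0, ⟨0, fun i => i.elim0⟩, fun _ _ _ _ i => i.elim0⟩
    · intro x; rw [pw_zero]; exact Subgroup.one_mem _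
    · intro n hn
      refine ⟨fun i => i.elim0, ?_⟩
      rw [pw_zero]; exact Subgroup.mem_bot.1 hn
  | @step N M hN hle g hM hcent hfree ih =>
    have E := hN.ext hle hM hfree
    have hNn := hN.normal
    obtain ⟨s, a, e, h0, h1, h2, h3, h4, ⟨d, h5⟩, h6⟩ := ih
    obtain ⟨d', hd'⟩ := exists_ext_mem_Pol (K := K) E d
    refine ⟨s + 1, Fin.cons g a, Fin.cons (tc N g) (fun i => PolycEmb.ext N g (e i)), ?_, ?_, ?_,
      ?_, ?_, ⟨max 2 d', ?_⟩, ?_⟩
    · intro i
      refine Fin.cases ?_ (fun i => ?_) i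
      · rw [Fin.cons_zero]; exact E.mem
      · rw [Fin.cons_succ]; exact hle (h0 i)
    · intro x
      rw [pw_cons]
      exact M.mul_mem (M.zpow_mem E.mem _) (hle (h1 _))
    · intro n hn
      obtain ⟨k, m, hm, rfl⟩ := E.gen n hn
      obtain ⟨x, rfl⟩ := h2 m hm
      exact ⟨Fin.cons k x, by rw [pw_cons]; simp⟩
    · intro x i
      rw [pw_cons]
      refine Fin.cases ?_ (fun i => ?_) i
      · rw [Fin.cons_zero, tc_eq E _ (h1 _)]
      · rw [Fin.cons_succ, ext_eq E _ _ (h1 _), h3]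
    · intro i
      refine Fin.cases ?_ (fun i => ?_) i
      · rw [Fin.cons_zero]; exact tc_mem_Fs E
      · rw [Fin.cons_succ]; exact ext_mem_Fs E _
    · intro i
      refine Fin.cases ?_ (fun i => ?_) i
      · rw [Fin.cons_zero]; exact Pol_mono M (le_max_left _ _) (tc_mem_Pol E)
      · rw [Fin.cons_succ]; exact Pol_mono M (le_max_right _ _) (hd' _ (h5 i))
    · intro j x hx h i hi
      have hx0 : x 0 = 0 := hx 0 (by have := hi; exact lt_of_le_of_lt (Nat.zero_le _) this)
      have h7 : pw (Fin.cons g a) x = pw a (fun i => x i.succ) := by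
        rw [pw_cons, hx0, zpow_zero, one_mul]
      have h8 : h * pw a (fun i => x i.succ) * h⁻¹ ∈ N := hNn.conj_mem _ (h1 _) h
      rw [h7]
      revert hi
      refine Fin.cases ?_ (fun i => ?_) i
      · intro _
        rw [Fin.cons_zero]
        have := tc_eq (K := K) E 0 h8
        simpa using this
      · intro hi
        rw [Fin.cons_succ, ext_eq' E _ h8]
        refine h6 (j - 1) _ ?_ h i ?_
        · intro i' hi'
          refine hx i'.succ ?_
          rw [Fin.val_succ]; omega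
        · rw [Fin.val_succ] at hi; omega

end Crest.Agent.R182.PolycEmb
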