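/-
R182, module POLYC, block PC4, part 2: a polycyclic group `G` with nilpotent normal subgroup `N`,
`G/N` free abelian, has a faithful finite-dimensional representation (right translations on a
space of functions) in which `N` is unipotent and the Mal'cev coordinates of `N` are matrix
coefficients.
-/
import Mathlib
import Crest.Agent.R182.PolycCZ

set_option autoImplicit false
set_option linter.unusedSectionVars false

namespace Crest.Agent.R182.PolycEmb

open Module Crest.Agent.R182.Polyc Polynomial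

variable {K : Type*} [Field K] {G : Type*} [Group G]

/-- two-sided linear recurrences. -/
def Rec (p : G → K[X]) : Submodule K (G → K) where
  carrier := {f | ∀ a y, aeval (R a : (G → K) →ₗ[K] (G → K)) (p a) (R y f) = 0}
  zero_mem' := fun a y => by rw [map_zero, map_zero]
  add_mem' := fun {f g} hf hg a y => by rw [map_add, map_add, hf, hg, add_zero]
  smul_mem' := fun c f hf a y => by rw [map_smul, map_smul, hf, smul_zero]

theorem mem_Rec {p : G → K[X]} {f : G → K} :
    f ∈ Rec p ↔ ∀ a y, aeval (R a : (G → K) →ₗ[K] (G → K)) (p a) (R y f) = 0 := Iff.rfl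

theorem R_mem_Rec {p : G → K[X]} {f : G → K} (hf : f ∈ Rec p) (g : G) : R g f ∈ Rec p := by
  intro a y
  rw [← R_mul]
  exact hf a (y * g)

theorem R_pow_apply (a : G) (j : ℕ) (f : G → K) (x : G) :
    ((R a : (G → K) →ₗ[K] (G → K)) ^ j) f x = f (x * a ^ j) := by
  rw [← map_pow]; rfl

theorem aeval_R_apply (q : K[X]) (a : G) (f : G → K) (x : G) :
    aeval (R a : (G → K) →ₗ[K] (G → K)) q f x =
      ∑ j ∈ Finset.range (q.natDegree + 1), q.coeff j * f (x * a ^ j) := by
  rw [aeval_eq_sum_range, LinearMap.sum_apply, Finset.sum_apply]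
  refine Finset.sum_congr rfl fun j _ => ?_
  rw [LinearMap.smul_apply, Pi.smul_apply, R_pow_apply, smul_eq_mul]

/-- a two-sided sequence satisfying a linear recurrence and vanishing on a window is zero -/
theorem seq_eq_zero {q : K[X]} (hq : q.Monic) (hq0 : q.coeff 0 ≠ 0) (s : ℤ → K)
    (hrec : ∀ e : ℤ, ∑ j ∈ Finset.range (q.natDegree + 1), q.coeff j * s (e + j) = 0)
    (hwin : ∀ e : ℕ, e < q.natDegree → s e = 0) (e : ℤ) : s e = 0 := by
  rcases Nat.eq_zero_or_pos q.natDegree with hd | hd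
  · have h3 := hrec e
    rw [hd, zero_add, Finset.sum_range_one] at h3
    simpa [hq0] using h3
  have key : ∀ m : ℕ, ∀ e : ℤ, -(m : ℤ) ≤ e → e < (q.natDegree : ℤ) + m → s e = 0 := by
    intro m
    induction m with
    | zero =>
      intro e h1 h2
      obtain ⟨k, rfl⟩ := Int.eq_ofNat_of_zero_le (by simpa using h1 : (0 : ℤ) ≤ e)
      exact hwin k (by simp at h2; exact_mod_cast h2)
    | succ m ih =>
      intro e h1 h2
      rcases lt_trichotomy e (-(m : ℤ)) with h | h | h
      · -- e = -m-1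
        have he : e = -(m : ℤ) - 1 := by push_cast at h1; omega
        have h3 := hrec e
        rw [Finset.sum_range_succ'] at h3
        have h4 : ∑ k ∈ Finset.range q.natDegree, q.coeff (k + 1) * s (e + ((k + 1 : ℕ) : ℤ)) = 0 := by
          refine Finset.sum_eq_zero fun k hk => ?_
          rw [Finset.mem_range] at hk
          rw [ih _ (by push_cast; omega) (by push_cast; omega), mul_zero]
        rw [h4, zero_add] at h3
        simpa [hq0] using h3
      · exact ih e (by omega) (by have := h1; omega)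
      · by_cases h5 : e < (q.natDegree : ℤ) + m
        · exact ih e (by omega) h5
        · have he : e = (q.natDegree : ℤ) + m := by push_cast at h2; omega
          have h3 := hrec m
          rw [Finset.sum_range_succ] at h3
          have h4 : ∑ k ∈ Finset.range q.natDegree, q.coeff k * s ((m : ℤ) + (k : ℤ)) = 0 := by
            refine Finset.sum_eq_zero fun k hk => ?_
            rw [Finset.mem_range] at hk
            rw [ih _ (by omega) (by omega), mul_zero]
          rw [h4, zero_add, Polynomial.Monic.coeff_natDegree hq, one_mul] at h3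
          rw [he, add_comm]; exact h3
  exact key (e.natAbs + 1) e (by omega) (by omega)

theorem exists_finset_of_pc {p : G → K[X]} (hp : ∀ a, (p a).Monic) (hp0 : ∀ a, (p a).coeff 0 ≠ 0)
    {L : Subgroup G} (hL : PC L) :
    ∃ F : Finset G, ∀ f ∈ Rec p, (∀ x ∈ F, f x = 0) → ∀ x ∈ L, f x = 0 := by
  classical
  induction hL with
  | bot =>
    refine ⟨{1}, fun f _ h x hx => ?_⟩
    rw [Subgroup.mem_bot] at hx
    rw [hx]; exact h 1 (by simp)
  | @step N M hN hle hnorm g hg hM ih =>
    obtain ⟨F, hF⟩ := ih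
    refine ⟨(F ×ˢ Finset.range (p g).natDegree).image (fun z => z.1 * g ^ z.2), ?_⟩
    intro f hf h x hx
    obtain ⟨n, hn, i, rfl⟩ := (mem_of_step hnorm hg hM).1 hx
    have h1 : ∀ e : ℕ, e < (p g).natDegree → ∀ y ∈ N, f (y * g ^ e) = 0 := by
      intro e he y hy
      exact hF (R (g ^ e) f) (R_mem_Rec hf _)
        (fun z hz => h _ (Finset.mem_image.2 ⟨(z, e), by simp [hz, he], rfl⟩)) y hy
    have h2 := seq_eq_zero (hp g) (hp0 g) (fun e : ℤ => f (n * g ^ e)) ?_ ?_ i
    · exact h2
    · intro e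
      have h3 := congrFun (hf g 1) (n * g ^ e)
      rw [aeval_R_apply] at h3
      simp only [R_apply, mul_one] at h3
      rw [← Pi.zero_apply (M := fun _ => K) (n * g ^ e), ← h3]
      refine Finset.sum_congr rfl fun j _ => ?_
      rw [zpow_add, zpow_natCast, mul_assoc]
    · intro e he
      have := h1 e he n hn
      simpa using this

theorem finiteDimensional_Rec {p : G → K[X]} (hp : ∀ a, (p a).Monic)
    (hp0 : ∀ a, (p a).coeff 0 ≠ 0) (hG : PC (⊤ : Subgroup G)) :
    FiniteDimensional K (Rec p : Submodule K (G → K)) := by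
  obtain ⟨F, hF⟩ := exists_finset_of_pc hp hp0 hG
  let φ : (Rec p : Submodule K (G → K)) →ₗ[K] (F → K) :=
    { toFun := fun f x => f.1 x
      map_add' := fun _ _ => rfl
      map_smul' := fun _ _ => rfl }
  refine FiniteDimensional.of_injective φ ?_
  rw [← LinearMap.ker_eq_bot, LinearMap.ker_eq_bot']
  intro f hf
  ext x
  exact hF f.1 f.2 (fun y hy => congrFun hf ⟨y, hy⟩) x (Subgroup.mem_top x)

theorem D_pow_eq_zero {d : ℕ} (a : G) : ∀ {f : G → K}, f ∈ Pol (⊤ : Subgroup G) d →
    ((D a : (G → K) →ₗ[K] (G → K)) ^ d) f = 0 := by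
  induction d with
  | zero => intro f hf; rw [mem_Pol_zero] at hf; rw [hf, map_zero]
  | succ d ih =>
    intro f hf
    rw [pow_succ, Module.End.mul_apply]
    exact ih (hf a (Subgroup.mem_top a))

theorem finiteDimensional_Pol (hG : PC (⊤ : Subgroup G)) (d : ℕ) :
    FiniteDimensional K (Pol (⊤ : Subgroup G) d : Submodule K (G → K)) := by
  have h1 : ∀ a : G, ((X - C (1 : K)) ^ d).Monic := fun _ => (monic_X_sub_C 1).pow d
  have h2 : ∀ a : G, ((X - C (1 : K)) ^ d).coeff 0 ≠ 0 := by
    intro a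
    rw [coeff_zero_eq_eval_zero]
    simp
  have h3 := finiteDimensional_Rec (K := K) (p := fun _ : G => (X - C (1 : K)) ^ d) h1 h2 hG
  refine Submodule.finiteDimensional_of_le (S₂ := Rec (fun _ : G => (X - C (1 : K)) ^ d)) ?_
  intro f hf a y
  have h4 : R y f ∈ Pol (⊤ : Subgroup G) d := R_mem_Pol (fun n _ => Subgroup.mem_top _) hf
  have h5 := D_pow_eq_zero a h4
  rw [map_pow, map_sub, aeval_X, aeval_C, map_one]
  exact h5

theorem aeval_R_mem {W : Submodule K (G → K)} {a : G} (h : ∀ f ∈ W, R a f ∈ W) (q : K[X]) :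
    ∀ f ∈ W, aeval (R a : (G → K) →ₗ[K] (G → K)) q f ∈ W := by
  intro f hf
  have hpow : ∀ j : ℕ, ((R a : (G → K) →ₗ[K] (G → K)) ^ j) f ∈ W := by
    intro j
    induction j with
    | zero => simpa using hf
    | succ j ih => rw [pow_succ', Module.End.mul_apply]; exact h _ ih
  rw [aeval_eq_sum_range, LinearMap.sum_apply]
  exact Submodule.sum_mem _ fun j _ => Submodule.smul_mem _ _ (hpow j)

theorem aeval_sub_mem_Pol {N : Subgroup G} [hN : N.Normal] {a u : G} (hu : u ∈ N) (q : K[X])
    {j : ℕ} {f : G → K} (hf : f ∈ Pol N (j + 1)) :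
    aeval (R (a * u) : (G → K) →ₗ[K] (G → K)) q f -
      aeval (R a : (G → K) →ₗ[K] (G → K)) q f ∈ Pol N j := by
  have hinv : ∀ g : G, ∀ n ∈ N, g⁻¹ * n * g ∈ N := fun g n hn => by
    have := hN.conj_mem n hn g⁻¹
    simpa using this
  have hpow : ∀ k : ℕ, ∀ f ∈ (Pol N (j + 1) : Submodule K (G → K)),
      ((R a : (G → K) →ₗ[K] (G → K)) ^ k) f ∈ Pol N (j + 1) := by
    intro k f hf
    rw [← map_pow]
    exact R_mem_Pol (hinv _) hf
  have key : ∀ k : ℕ, ((R (a * u) : (G → K) →ₗ[K] (G → K)) ^ k) f -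
      ((R a : (G → K) →ₗ[K] (G → K)) ^ k) f ∈ Pol N j := by
    intro k
    induction k with
    | zero => simp
    | succ k ih =>
      have h1 : ((R (a * u) : (G → K) →ₗ[K] (G → K)) ^ (k + 1)) f -
          ((R a : (G → K) →ₗ[K] (G → K)) ^ (k + 1)) f =
          R (a * u) (((R (a * u) : (G → K) →ₗ[K] (G → K)) ^ k) f -
            ((R a : (G → K) →ₗ[K] (G → K)) ^ k) f) +
          R a (D u (((R a : (G → K) →ₗ[K] (G → K)) ^ k) f)) := by
        rw [pow_succ', pow_succ', Module.End.mul_apply, Module.End.mul_apply, D_def, map_sub,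
          map_sub, R_mul a u (((R a : (G → K) →ₗ[K] (G → K)) ^ k) f)]
        abel
      rw [h1]
      refine Submodule.add_mem _ (R_mem_Pol (hinv _) ih) (R_mem_Pol (hinv _) ?_)
      exact hpow k f hf u hu
  rw [aeval_eq_sum_range, aeval_eq_sum_range, LinearMap.sum_apply, LinearMap.sum_apply,
    ← Finset.sum_sub_distrib]
  refine Submodule.sum_mem _ fun k _ => ?_
  rw [LinearMap.smul_apply, LinearMap.smul_apply, ← smul_sub]
  exact Submodule.smul_mem _ _ (key k)

theorem aeval_pow_eq_zero {N : Subgroup G} [hN : N.Normal] {W : Submodule K (G → K)}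
    (hinv : ∀ g, ∀ f ∈ W, R g f ∈ W) {a u : G} (hu : u ∈ N) {q : K[X]}
    (hq : ∀ f ∈ W, aeval (R a : (G → K) →ₗ[K] (G → K)) q f = 0) (j : ℕ) :
    ∀ f ∈ W, f ∈ Pol N j → aeval (R (a * u) : (G → K) →ₗ[K] (G → K)) (q ^ j) f = 0 := by
  induction j with
  | zero => intro f _ hf; rw [mem_Pol_zero] at hf; rw [hf, map_zero]
  | succ j ih =>
    intro f hfW hf
    rw [pow_succ, map_mul, Module.End.mul_apply]
    refine ih _ (aeval_R_mem (hinv _) q f hfW) ?_
    have h1 := aeval_sub_mem_Pol (a := a) hu q hf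
    rwa [hq f hfW, sub_zero] at h1

/-- the annihilating polynomial of `R a` on `W` -/
theorem exists_poly (W : Submodule K (G → K)) [FiniteDimensional K W]
    (hinv : ∀ g, ∀ f ∈ W, R g f ∈ W) (a : G) :
    ∃ q : K[X], q.Monic ∧ q.coeff 0 ≠ 0 ∧
      ∀ f ∈ W, aeval (R a : (G → K) →ₗ[K] (G → K)) q f = 0 := by
  let T : W →ₗ[K] W := (R a : (G → K) →ₗ[K] (G → K)).restrict (hinv a)
  let T' : W →ₗ[K] W := (R a⁻¹ : (G → K) →ₗ[K] (G → K)).restrict (hinv a⁻¹)
  have hTT : T * T' = 1 := by
    ext f x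
    show f.1 (x * a * a⁻¹) = f.1 x
    simp
  refine ⟨T.charpoly, LinearMap.charpoly_monic T, ?_, ?_⟩
  · have h1 : IsUnit (LinearMap.det T) := by
      refine IsUnit.of_mul_eq_one (LinearMap.det T') ?_
      rw [← map_mul, hTT, map_one]
    rw [LinearMap.det_eq_sign_charpoly_coeff] at h1
    intro h0
    rw [h0, mul_zero] at h1
    exact not_isUnit_zero h1
  · intro f hf
    have h1 := LinearMap.aeval_self_charpoly T
    have h2 : ∀ (q : K[X]) (f : W), ((aeval T q f : W) : G → K) =
        aeval (R a : (G → K) →ₗ[K] (G → K)) q (f : G → K) := by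
      intro q f
      rw [aeval_eq_sum_range, aeval_eq_sum_range, LinearMap.sum_apply, LinearMap.sum_apply,
        Submodule.coe_sum]
      refine Finset.sum_congr rfl fun j _ => ?_
      rw [LinearMap.smul_apply, LinearMap.smul_apply, Submodule.coe_smul]
      congr 1
      have : ∀ j : ℕ, (((T ^ j) f : W) : G → K) = ((R a : (G → K) →ₗ[K] (G → K)) ^ j) f := by
        intro j
        induction j with
        | zero => rfl
        | succ j ih =>
          rw [pow_succ', pow_succ', Module.End.mul_apply, Module.End.mul_apply, ← ih]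
          rfl
      exact this j
    have h3 := h2 T.charpoly ⟨f, hf⟩
    rw [h1] at h3
    exact h3.symm

section step

variable {H : Subgroup G} {t : G}

open Classical in
/-- extension by zero -/
noncomputable def ez (H : Subgroup G) (f : H → K) (x : G) : K := if h : x ∈ H then f ⟨x, h⟩ else 0

theorem ez_eq (f : H → K) {x : G} (h : x ∈ H) : ez H f x = f ⟨x, h⟩ := dif_pos h

/-- extension of a function on `H` to the whole group -/
noncomputable def eH (t : G) (f : H → K) : G → K := ext H t (ez H f)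

theorem eH_eq (E : Ext H ⊤ t) (f : H → K) (k : ℤ) (x : H) : eH t f (t ^ k * x) = f x := by
  rw [eH, ext_eq E _ _ x.2, ez_eq f x.2]

theorem eH_eq' (E : Ext H ⊤ t) (f : H → K) (x : H) : eH t f (x : G) = f x := by
  have := eH_eq E f 0 x
  simpa using this

theorem eH_mem_LT (E : Ext H ⊤ t) (f : H → K) : eH t f ∈ LT t := ext_mem_LT E _

theorem D_eH (E : Ext H ⊤ t) (f : H → K) (n : H) : D (n : G) (eH t f) = eH t (D n f) := by
  funext x
  obtain ⟨k, m, hm, rfl⟩ := E.gen x (Subgroup.mem_top x)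
  have h1 : t ^ k * m * (n : G) = t ^ k * ((⟨m, hm⟩ * n : H) : G) := by
    rw [Subgroup.coe_mul, mul_assoc]
  have h2 : t ^ k * m = t ^ k * ((⟨m, hm⟩ : H) : G) := rfl
  rw [D_apply, h1, h2, eH_eq E, eH_eq E, eH_eq E, D_apply]

theorem eH_mem_Pol (E : Ext H ⊤ t) {N : Subgroup G} (hNH : N ≤ H) {d : ℕ} :
    ∀ {f : H → K}, f ∈ Pol (N.subgroupOf H) d → eH t f ∈ Pol N d := by
  induction d with
  | zero =>
    intro f hf
    rw [mem_Pol_zero] at hf ⊢
    subst hf
    funext x
    obtain ⟨k, m, hm, rfl⟩ := E.gen x (Subgroup.mem_top x)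
    exact eH_eq E 0 k ⟨m, hm⟩
  | succ d ih =>
    intro f hf n hn
    rw [show n = ((⟨n, hNH hn⟩ : H) : G) from rfl, D_eH E]
    exact ih (hf ⟨n, hNH hn⟩ (Subgroup.mem_subgroupOf.2 hn))

/-- conjugation by `t ^ k` on `H` -/
def cj (E : Ext H ⊤ t) (k : ℤ) : H →* H where
  toFun x := ⟨(t ^ k)⁻¹ * x * t ^ k, E.conj_zpow k x.2⟩
  map_one' := by ext; simp
  map_mul' x y := by ext; simp [mul_assoc]

theorem R_eH (E : Ext H ⊤ t) (f : H → K) (k : ℤ) (h : H) (x : H) :
    R (t ^ k * h) (eH t f) (x : G) = (R h f) (cj E k x) := by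
  have h1 : (x : G) * (t ^ k * h) = t ^ k * ((cj E k x * h : H) : G) := by
    show (x : G) * (t ^ k * h) = t ^ k * ((t ^ k)⁻¹ * x * t ^ k * h)
    group
  rw [R_apply, h1, eH_eq E, R_apply]

theorem R_comp_hom (φ : H →* H) (f : H → K) (y : H) : R y (f ∘ φ) = (R (φ y) f) ∘ φ := by
  funext x
  simp

theorem aeval_comp_hom (φ : H →* H) (f : H → K) (a : H) (q : K[X]) :
    aeval (R a : (H → K) →ₗ[K] (H → K)) q (f ∘ φ) =
      (aeval (R (φ a) : (H → K) →ₗ[K] (H → K)) q f) ∘ φ := by
  funext x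
  rw [aeval_R_apply, Function.comp_apply, aeval_R_apply]
  refine Finset.sum_congr rfl fun j _ => ?_
  rw [Function.comp_apply, map_mul, map_pow]

theorem exists_step (E : Ext H ⊤ t) (N : Subgroup G) [hN : N.Normal] (hNH : N ≤ H)
    (hcomm : ∀ k : ℤ, ∀ h ∈ H, h⁻¹ * ((t ^ k)⁻¹ * h * t ^ k) ∈ N)
    (hPC : PC (⊤ : Subgroup H)) (W' : Submodule K (H → K)) [FiniteDimensional K W']
    (hinv : ∀ g, ∀ f ∈ W', R g f ∈ W') {d : ℕ} (hd : W' ≤ Pol (N.subgroupOf H) d) :
    ∃ W : Submodule K (G → K), FiniteDimensional K W ∧ (∀ g, ∀ f ∈ W, R g f ∈ W) ∧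
      W ≤ Pol N d ∧ ∀ f ∈ W', eH t f ∈ W := by
  have hinvN : ∀ g : G, ∀ n ∈ N, g⁻¹ * n * g ∈ N := fun g n hn => by
    have := hN.conj_mem n hn g⁻¹
    simpa using this
  choose q hq hq0 hqW using exists_poly W' hinv
  have hRec : FiniteDimensional K (Rec (fun a => q a ^ d) : Submodule K (H → K)) := by
    refine finiteDimensional_Rec (fun a => (hq a).pow d) (fun a => ?_) hPC
    rw [coeff_zero_eq_eval_zero, eval_pow, ← coeff_zero_eq_eval_zero]
    exact pow_ne_zero _ (hq0 a)
  let S : Set (G → K) := {F | ∃ g : G, ∃ f ∈ W', F = R g (eH t f)}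
  let W : Submodule K (G → K) := Submodule.span K S
  have hW1 : W ≤ LT t := by
    refine Submodule.span_le.2 ?_
    rintro _ ⟨g, f, _, rfl⟩
    exact R_mem_LT (eH_mem_LT E f)
  let ψ : (G → K) →ₗ[K] (H → K) :=
    { toFun := fun F x => F x
      map_add' := fun _ _ => rfl
      map_smul' := fun _ _ => rfl }
  have hW2 : W ≤ (Rec (fun a => q a ^ d)).comap ψ := by
    refine Submodule.span_le.2 ?_
    rintro _ ⟨g, f, hf, rfl⟩
    obtain ⟨k, h, hh, rfl⟩ := E.gen g (Subgroup.mem_top g)
    have h1 : ψ (R (t ^ k * h) (eH t f)) = (R ⟨h, hh⟩ f) ∘ (cj E k) := by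
      funext x
      exact R_eH E f k ⟨h, hh⟩ x
    show ψ (R (t ^ k * h) (eH t f)) ∈ Rec (fun a => q a ^ d)
    rw [h1]
    intro a y
    rw [R_comp_hom, aeval_comp_hom]
    have h2 : cj E k a = a * (a⁻¹ * cj E k a) := by group
    have h3 : a⁻¹ * cj E k a ∈ N.subgroupOf H := by
      rw [Subgroup.mem_subgroupOf]
      exact hcomm k a a.2
    have hmem : R (cj E k y) (R ⟨h, hh⟩ f) ∈ W' := hinv _ _ (hinv _ _ hf)
    rw [h2, aeval_pow_eq_zero hinv h3 (hqW a) d _ hmem (hd hmem)]
    rfl
  refine ⟨W, ?_, ?_, ?_, ?_⟩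
  · let φ : W →ₗ[K] (Rec (fun a => q a ^ d) : Submodule K (H → K)) :=
      (ψ.comp W.subtype).codRestrict _ (fun F => hW2 F.2)
    refine FiniteDimensional.of_injective φ ?_
    rw [← LinearMap.ker_eq_bot, LinearMap.ker_eq_bot']
    intro F hF
    ext x
    obtain ⟨k, h, hh, rfl⟩ := E.gen x (Subgroup.mem_top x)
    rw [LT_zpow (hW1 F.2)]
    have := congrFun (congrArg Subtype.val hF) ⟨h, hh⟩
    exact this
  · intro g F hF
    have : W ≤ W.comap (R g) := by
      refine Submodule.span_le.2 ?_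
      rintro _ ⟨g', f, hf, rfl⟩
      refine Submodule.subset_span ⟨g * g', f, hf, ?_⟩
      rw [R_mul]
    exact this hF
  · refine Submodule.span_le.2 ?_
    rintro _ ⟨g, f, hf, rfl⟩
    exact R_mem_Pol (hinvN g) (eH_mem_Pol E hNH (hd hf))
  · intro f hf
    refine Submodule.subset_span ⟨1, f, hf, ?_⟩
    rw [R_one]

end step

section final

theorem coe_pw {H : Subgroup G} {s : ℕ} (a : Fin s → H) (x : Fin s → ℤ) :
    ((pw a x : H) : G) = pw (fun i => (a i : G)) x := by
  induction s with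
  | zero => rw [pw_zero, pw_zero]; rfl
  | succ s ih =>
    have h1 := pw_cons (a 0) (fun i => a i.succ) x
    have h2 := pw_cons (a 0 : G) (fun i => (a i.succ : G)) x
    have h3 : (Fin.cons (a 0) (fun i => a i.succ) : Fin (s + 1) → H) = a := by
      funext i; refine Fin.cases ?_ (fun i => ?_) i <;> simp
    have h4 : (Fin.cons (a 0 : G) (fun i => (a i.succ : G)) : Fin (s + 1) → G) =
        fun i => (a i : G) := by
      funext i; refine Fin.cases ?_ (fun i => ?_) i <;> simp
    rw [h3] at h1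
    rw [h4] at h2
    rw [h1, h2, Subgroup.coe_mul, Subgroup.coe_zpow, ih]

universe u v

/-- **Auslander embedding, function form.** -/
theorem exists_repr {K : Type v} [Field K] (k : ℕ) : ∀ (G : Type u) [Group G] (N : Subgroup G)
    [N.Normal] [Group.IsNilpotent N], PZ (⊤ : Subgroup G) →
    ∀ π : G →* Multiplicative (Fin k → ℤ), Function.Surjective π → (∀ g, π g = 1 ↔ g ∈ N) →
    ∃ W : Submodule K (G → K), FiniteDimensional K W ∧ (∀ g, ∀ f ∈ W, R g f ∈ W) ∧
      (∃ d, W ≤ Pol N d) ∧ (fun _ => 1) ∈ W ∧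
      (∀ j, (fun g => ((Multiplicative.toAdd (π g) j : ℤ) : K)) ∈ W) ∧
      ∃ (s : ℕ) (a : Fin s → G) (e : Fin s → G → K), (∀ i, a i ∈ N) ∧
        (∀ n ∈ N, ∃ x, n = pw a x) ∧ (∀ x i, e i (pw a x) = x i) ∧ (∀ i, e i ∈ W) ∧
        (∀ (j : ℕ) (x : Fin s → ℤ), (∀ i : Fin s, (i : ℕ) < j → x i = 0) →
          ∀ h ∈ N, ∀ i : Fin s, (i : ℕ) < j → e i (h * pw a x * h⁻¹) = 0) ∧
        (∀ i, ∀ x, ∃ z : ℤ, e i x = z) := by
  induction k with
  | zero =>
    intro G _ N hN hnil hG π hπ hπN
    have htop : N = ⊤ := by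
      rw [eq_top_iff]
      intro g _
      exact (hπN g).1 (Subsingleton.elim _ _)
    subst htop
    have : Group.IsNilpotent G := Group.isNilpotent_top.1 hnil
    obtain ⟨s, a, e, h0, h1, h2, h3, h4, ⟨d, h5⟩, h6⟩ := exists_coords_cz (K := K) (cz_top hG)
    refine ⟨Pol ⊤ (max d 1), finiteDimensional_Pol hG.pc _, ?_, ⟨_, le_rfl⟩, ?_,
      fun j => j.elim0, s, a, e, h0, fun n hn => h2 n hn, h3, fun i => ?_,
      fun j x hx h _ i hi => h6 j x hx h i hi, fun i x => ?_⟩
    · intro g f hf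
      exact R_mem_Pol (fun n _ => Subgroup.mem_top _) hf
    · refine Pol_mono ⊤ (le_max_right d 1) ?_
      intro n _
      rw [mem_Pol_zero]
      funext x
      simp
    · exact Pol_mono ⊤ (le_max_left d 1) (h5 i)
    · obtain ⟨y, rfl⟩ := h2 x (Subgroup.mem_top x)
      exact ⟨y i, h3 y i⟩
  | succ k ih =>
    intro G _ N hN hnil hG π hπ hπN
    let π₀ : G →* Multiplicative ℤ :=
      { toFun := fun g => Multiplicative.ofAdd (Multiplicative.toAdd (π g) 0)
        map_one' := by rw [map_one]; rfl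
        map_mul' := fun g h => by rw [map_mul]; rfl }
    let H : Subgroup G := π₀.ker
    have hmemH : ∀ g, g ∈ H ↔ Multiplicative.toAdd (π g) 0 = 0 := fun g => by
      rw [MonoidHom.mem_ker]; exact Iff.rfl
    obtain ⟨t, ht⟩ := hπ (Multiplicative.ofAdd (Pi.single 0 1))
    have hπt : ∀ (n : ℤ) (j : Fin (k + 1)), Multiplicative.toAdd (π (t ^ n)) j =
        n * (Pi.single (M := fun _ => ℤ) 0 1 : Fin (k + 1) → ℤ) j := by
      intro n j
      rw [map_zpow, ht, toAdd_zpow, toAdd_ofAdd, Pi.smul_apply, smul_eq_mul]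
    have hNH : N ≤ H := by
      intro n hn
      rw [hmemH, (hπN n).2 hn]; rfl
    have E : Ext H ⊤ t :=
      { le := le_top
        mem := Subgroup.mem_top _
        norm := fun h _ x hx => by
          have := (inferInstance : H.Normal).conj_mem x hx h⁻¹
          simpa using this
        gen := by
          intro x _
          refine ⟨Multiplicative.toAdd (π x) 0,
            (t ^ (Multiplicative.toAdd (π x) 0))⁻¹ * x, ?_, by group⟩
          rw [hmemH, map_mul, map_inv, toAdd_mul, toAdd_inv, Pi.add_apply, Pi.neg_apply, hπt,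
            Pi.single_eq_same]
          ring
        free := by
          intro n hn
          rw [hmemH, hπt, Pi.single_eq_same, mul_one] at hn
          exact hn }
    let π' : H →* Multiplicative (Fin k → ℤ) :=
      { toFun := fun h => Multiplicative.ofAdd fun j => Multiplicative.toAdd (π h) j.succ
        map_one' := by rw [Subgroup.coe_one, map_one]; rfl
        map_mul' := fun g h => by rw [Subgroup.coe_mul, map_mul]; rfl }
    have hπ' : Function.Surjective π' := by
      intro v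
      obtain ⟨g, hg⟩ := hπ (Multiplicative.ofAdd (Fin.cons 0 (Multiplicative.toAdd v)))
      refine ⟨⟨g, ?_⟩, ?_⟩
      · rw [hmemH, hg, toAdd_ofAdd, Fin.cons_zero]
      · apply Multiplicative.toAdd.injective
        funext j
        show Multiplicative.toAdd (π g) j.succ = _
        rw [hg, toAdd_ofAdd, Fin.cons_succ]
    have hπN' : ∀ h : H, π' h = 1 ↔ h ∈ N.subgroupOf H := by
      intro h
      rw [Subgroup.mem_subgroupOf, ← hπN]
      constructor
      · intro h1
        apply Multiplicative.toAdd.injective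
        funext j
        refine Fin.cases ?_ (fun j => ?_) j
        · exact (hmemH h).1 h.2
        · exact congrFun (congrArg Multiplicative.toAdd h1) j
      · intro h1
        apply Multiplicative.toAdd.injective
        funext j
        show Multiplicative.toAdd (π h) j.succ = _
        rw [h1]; rfl
    have hnil' : Group.IsNilpotent (N.subgroupOf H) :=
      Group.nilpotent_of_mulEquiv (Subgroup.subgroupOfEquivOfLe hNH).symm
    have hPZH : PZ (⊤ : Subgroup H) := by
      have := hG.comap_injective H.subtype_injective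
      rwa [Subgroup.comap_top] at this
    obtain ⟨W', hfin, hinv, ⟨d, hd⟩, hone, hπW, s, a, e, h0, h2, h3, h4, h7, h8⟩ :=
      ih H (N.subgroupOf H) hPZH π' hπ' hπN'
    have hcomm : ∀ n : ℤ, ∀ h ∈ H, h⁻¹ * ((t ^ n)⁻¹ * h * t ^ n) ∈ N := by
      intro n h _
      rw [← hπN]
      simp only [map_mul, map_inv, map_zpow]
      rw [mul_comm ((π t ^ n)⁻¹ * π h) (π t ^ n), mul_inv_cancel_left, inv_mul_cancel]
    obtain ⟨W₁, hfin₁, hinv₁, hd₁, hW₁⟩ := exists_step E N hNH hcomm hPZH.pc W' hinv hd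
    let c₀ : G → K := fun g => ((Multiplicative.toAdd (π g) 0 : ℤ) : K)
    have hone₁ : (fun _ => 1 : G → K) ∈ W₁ := by
      have h5 := hW₁ _ hone
      have h6 : eH t (fun _ : H => (1 : K)) = fun _ => 1 := by
        funext x
        obtain ⟨n, h, hh, rfl⟩ := E.gen x (Subgroup.mem_top x)
        exact eH_eq E _ n ⟨h, hh⟩
      rwa [h6] at h5
    have hRc : ∀ g, R g c₀ = c₀ + c₀ g • (fun _ => 1 : G → K) := by
      intro g
      funext x
      show ((Multiplicative.toAdd (π (x * g)) 0 : ℤ) : K) =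
        ((Multiplicative.toAdd (π x) 0 : ℤ) : K) +
          ((Multiplicative.toAdd (π g) 0 : ℤ) : K) * 1
      rw [map_mul, toAdd_mul, Pi.add_apply]
      push_cast; ring
    refine ⟨W₁ ⊔ (K ∙ c₀), inferInstance, ?_, ⟨max d 1, ?_⟩, ?_, ?_, s, fun i => (a i : G),
      fun i => eH t (e i), ?_, ?_, ?_, ?_, ?_, ?_⟩
    · intro g
      have : W₁ ⊔ (K ∙ c₀) ≤ (W₁ ⊔ (K ∙ c₀)).comap (R g) := by
        refine sup_le ?_ ?_
        · intro f hf
          exact Submodule.mem_sup_left (hinv₁ g f hf)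
        · rw [Submodule.span_singleton_le_iff_mem, Submodule.mem_comap, hRc]
          refine Submodule.add_mem _
            (Submodule.mem_sup_right (Submodule.mem_span_singleton_self _)) ?_
          exact Submodule.mem_sup_left (Submodule.smul_mem _ _ hone₁)
      exact fun f hf => this hf
    · refine sup_le (hd₁.trans (Pol_mono N (le_max_left _ _))) ?_
      rw [Submodule.span_singleton_le_iff_mem]
      refine Pol_mono N (le_max_right d 1) ?_
      intro n hn
      rw [mem_Pol_zero, D_def, hRc, add_sub_cancel_left]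
      have : c₀ n = 0 := by
        show ((Multiplicative.toAdd (π n) 0 : ℤ) : K) = 0
        rw [(hπN n).2 hn]; simp
      rw [this, zero_smul]
    · exact Submodule.mem_sup_left hone₁
    · intro j
      refine Fin.cases ?_ (fun j => ?_) j
      · exact Submodule.mem_sup_right (Submodule.mem_span_singleton_self _)
      · refine Submodule.mem_sup_left ?_
        have h5 := hW₁ _ (hπW j)
        have h6 : eH t (fun g : H => ((Multiplicative.toAdd (π' g) j : ℤ) : K)) =
            fun g => ((Multiplicative.toAdd (π g) j.succ : ℤ) : K) := by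
          funext x
          obtain ⟨n, h, hh, rfl⟩ := E.gen x (Subgroup.mem_top x)
          rw [show t ^ n * h = t ^ n * ((⟨h, hh⟩ : H) : G) from rfl, eH_eq E _ n ⟨h, hh⟩]
          show ((Multiplicative.toAdd (π h) j.succ : ℤ) : K) = _
          rw [map_mul, toAdd_mul, Pi.add_apply, hπt,
            Pi.single_eq_of_ne (Fin.succ_ne_zero j), mul_zero, zero_add]
        rwa [h6] at h5
    · intro i
      exact Subgroup.mem_subgroupOf.1 (h0 i)
    · intro n hn
      obtain ⟨x, hx⟩ := h2 ⟨n, hNH hn⟩ (Subgroup.mem_subgroupOf.2 hn)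
      refine ⟨x, ?_⟩
      rw [← coe_pw, ← hx]
    · intro x i
      show eH t (e i) (pw (fun i => (a i : G)) x) = _
      rw [← coe_pw, eH_eq' E, h3]
    · intro i
      exact Submodule.mem_sup_left (hW₁ _ (h4 i))
    · intro j x hx h hh i hi
      have h9 : h * pw (fun i => (a i : G)) x * h⁻¹ =
          ((⟨h, hNH hh⟩ * pw a x * ⟨h, hNH hh⟩⁻¹ : H) : G) := by
        rw [← coe_pw]; rfl
      show eH t (e i) (h * pw (fun i => (a i : G)) x * h⁻¹) = 0
      rw [h9, eH_eq' E]
      exact h7 j x hx _ (Subgroup.mem_subgroupOf.2 hh) i hi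
    · intro i x
      obtain ⟨n, h, hh, rfl⟩ := E.gen x (Subgroup.mem_top x)
      obtain ⟨z, hz⟩ := h8 i ⟨h, hh⟩
      exact ⟨z, (eH_eq E (e i) n ⟨h, hh⟩).trans hz⟩

end final

end Crest.Agent.R182.PolycEmb
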