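/-
R182, module POLYC, block PC4, part 3: integral matrix form of the Auslander embedding.
-/
import Mathlib
import Crest.Agent.R182.PolycEmb
import Crest.Agent.R182.PolycEmbDefs
import Crest.Agent.R182.PolycRoot

set_option autoImplicit false
set_option linter.unusedSectionVars false

namespace Crest.Agent.R182.PolycEmb

open Module Crest.Agent.R182.Polyc Polynomial

variable {G : Type*} [Group G]

theorem matrix_pow_eq_zero {n : ℕ} {A : Matrix (Fin n) (Fin n) ℤ} {d : ℕ} (h : A ^ d = 0) :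
    A ^ n = 0 := by
  have h1 : IsNilpotent A := ⟨d, h⟩
  have h2 := Matrix.isNilpotent_charpoly_sub_pow_of_isNilpotent h1
  have h3 : A.charpoly = X ^ n := by
    have := h2.eq_zero
    rw [sub_eq_zero, Fintype.card_fin] at this
    exact this
  have h4 := Matrix.aeval_self_charpoly A
  rwa [h3, map_pow, aeval_X] at h4

/-- the inverse of an ordered product of powers -/
theorem inv_pw {s : ℕ} (a : Fin s → G) (x : Fin s → ℤ) :
    (pw a x)⁻¹ = prodE (fun i => a (Fin.rev i)) (fun i => - x (Fin.rev i)) := by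
  rw [pw, prodE, List.prod_inv_reverse, List.map_ofFn]
  congr 1
  refine List.ext_getElem (by simp) ?_
  intro n h1 h2
  rw [List.getElem_reverse, List.getElem_ofFn, List.getElem_ofFn, Function.comp_apply, zpow_neg]
  have h3 : n < s := by simpa using h2
  have h4 : (⟨(List.ofFn (Inv.inv ∘ fun i => a i ^ x i)).length - 1 - n, by
      simp; omega⟩ : Fin s) = Fin.rev ⟨n, h3⟩ := by
    ext
    simp [Fin.rev]
    omega
  rw [h4]

theorem inv_prodE {s : ℕ} (a : Fin s → G) (x : Fin s → ℤ) :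
    (prodE (fun i => a (Fin.rev i)) x)⁻¹ = pw a (fun i => - x (Fin.rev i)) := by
  rw [← inv_inv (pw a _), inv_pw]
  congr 2
  funext i
  rw [Fin.rev_rev, neg_neg]

theorem exists_finset_of_fd (n : ℕ) : ∀ (W : Submodule ℚ (G → ℚ)) [FiniteDimensional ℚ W],
    finrank ℚ W = n → ∃ F : Finset G, ∀ f ∈ W, (∀ x ∈ F, f x = 0) → f = 0 := by
  classical
  induction n using Nat.strong_induction_on with
  | _ n ih =>
    intro W _ hW
    by_cases h : W = ⊥
    · exact ⟨∅, fun f hf _ => by rw [h, Submodule.mem_bot] at hf; exact hf⟩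
    · obtain ⟨f, hf, hf0⟩ := Submodule.exists_mem_ne_zero_of_ne_bot h
      obtain ⟨x, hx⟩ : ∃ x, f x ≠ 0 := by
        by_contra hcon
        push Not at hcon
        exact hf0 (funext hcon)
      let ev : (G → ℚ) →ₗ[ℚ] ℚ := LinearMap.proj x
      have hlt : W ⊓ LinearMap.ker ev < W := by
        refine lt_of_le_of_ne inf_le_left ?_
        intro h1
        have h2 : f ∈ W ⊓ LinearMap.ker ev := by rw [h1]; exact hf
        exact hx h2.2
      have hfd : FiniteDimensional ℚ (W ⊓ LinearMap.ker ev : Submodule ℚ (G → ℚ)) :=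
        Submodule.finiteDimensional_of_le inf_le_left
      obtain ⟨F, hF⟩ := ih _ (by rw [← hW]; exact Submodule.finrank_lt_finrank_of_lt hlt)
        (W ⊓ LinearMap.ker ev) rfl
      refine ⟨insert x F, fun g hg hgF => hF g ⟨hg, ?_⟩ fun y hy => ?_⟩
      · exact hgF x (Finset.mem_insert_self _ _)
      · exact hgF y (Finset.mem_insert_of_mem hy)

/-- the lattice of integer valued functions -/
def MZ (W : Submodule ℚ (G → ℚ)) : Submodule ℤ (G → ℤ) where
  carrier := {f | (fun x => (f x : ℚ)) ∈ W}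
  zero_mem' := by
    have h : (fun x => (((0 : G → ℤ) x : ℤ) : ℚ)) = (0 : G → ℚ) := by funext x; simp
    show (fun x => (((0 : G → ℤ) x : ℤ) : ℚ)) ∈ W
    rw [h]; exact W.zero_mem
  add_mem' := by
    intro f g hf hg
    have := W.add_mem hf hg
    show (fun x => ((f x + g x : ℤ) : ℚ)) ∈ W
    convert this using 1
    funext x; simp
  smul_mem' := by
    intro c f hf
    have := W.smul_mem (c : ℚ) hf
    show (fun x => ((c • f x : ℤ) : ℚ)) ∈ W
    convert this using 1
    funext x; simp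

theorem mem_MZ {W : Submodule ℚ (G → ℚ)} {f : G → ℤ} : f ∈ MZ W ↔ (fun x => (f x : ℚ)) ∈ W :=
  Iff.rfl

theorem finite_MZ (W : Submodule ℚ (G → ℚ)) [FiniteDimensional ℚ W] :
    Module.Finite ℤ (MZ W) := by
  obtain ⟨F, hF⟩ := exists_finset_of_fd _ W rfl
  let φ : MZ W →ₗ[ℤ] (F → ℤ) :=
    { toFun := fun f x => f.1 x
      map_add' := fun _ _ => rfl
      map_smul' := fun _ _ => rfl }
  refine Module.Finite.of_injective φ ?_
  rw [← LinearMap.ker_eq_bot, LinearMap.ker_eq_bot']
  intro f hf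
  ext x
  have h1 := hF _ f.2 (fun y hy => by
    have := congrFun hf ⟨y, hy⟩
    show ((f.1 y : ℤ) : ℚ) = 0
    rw [show f.1 y = 0 from this]; simp)
  have h2 : ((f.1 x : ℤ) : ℚ) = 0 := congrFun h1 x
  show f.1 x = 0
  exact_mod_cast h2

/-- the right translation on the lattice -/
def TZ (W : Submodule ℚ (G → ℚ)) (hW : ∀ g, ∀ f ∈ W, R g f ∈ W) (g : G) : MZ W →ₗ[ℤ] MZ W where
  toFun f := ⟨fun x => f.1 (x * g), hW g _ f.2⟩
  map_add' _ _ := rfl
  map_smul' _ _ := rfl

theorem TZ_apply (W : Submodule ℚ (G → ℚ)) (hW : ∀ g, ∀ f ∈ W, R g f ∈ W) (g : G) (f : MZ W)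
    (x : G) : (TZ W hW g f).1 x = f.1 (x * g) := rfl

theorem TZ_mul (W : Submodule ℚ (G → ℚ)) (hW : ∀ g, ∀ f ∈ W, R g f ∈ W) (g h : G) :
    TZ W hW (g * h) = TZ W hW g * TZ W hW h := by
  ext f x
  rw [Module.End.mul_apply, TZ_apply, TZ_apply, TZ_apply, mul_assoc]

theorem TZ_one (W : Submodule ℚ (G → ℚ)) (hW : ∀ g, ∀ f ∈ W, R g f ∈ W) :
    TZ W hW 1 = 1 := by
  ext f x
  rw [TZ_apply, mul_one]; rfl

theorem TZ_unip (W : Submodule ℚ (G → ℚ)) (hW : ∀ g, ∀ f ∈ W, R g f ∈ W) {N : Subgroup G}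
    {d : ℕ} (hd : W ≤ Pol N d) {n : G} (hn : n ∈ N) : (TZ W hW n - 1) ^ d = 0 := by
  have key : ∀ j : ℕ, ∀ f : MZ W, (fun x => (f.1 x : ℚ)) ∈ Pol N j →
      ((TZ W hW n - 1) ^ j) f = 0 := by
    intro j
    induction j with
    | zero =>
      intro f hf
      rw [mem_Pol_zero] at hf
      have : f = 0 := by
        ext x
        have h : ((f.1 x : ℤ) : ℚ) = 0 := congrFun hf x
        show f.1 x = 0
        exact_mod_cast h
      rw [this, map_zero]
    | succ j ih =>
      intro f hf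
      rw [pow_succ, Module.End.mul_apply]
      refine ih _ ?_
      have h1 := hf n hn
      convert h1 using 1
      funext x
      show (((TZ W hW n f - f : MZ W).1 x : ℤ) : ℚ) = _
      rw [D_apply]
      show ((f.1 (x * n) - f.1 x : ℤ) : ℚ) = _
      push_cast; rfl
  ext f x
  rw [key d f (hd f.2)]; rfl

/-- **Auslander embedding, integral matrix form.** -/
theorem exists_embData {k : ℕ} {N : Subgroup G} (hN : N.Normal) (hnil : Group.IsNilpotent N)
    (hG : PZ (⊤ : Subgroup G)) (π : G →* Multiplicative (Fin k → ℤ))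
    (hπ : Function.Surjective π) (hπN : ∀ g, π g = 1 ↔ g ∈ N) : Nonempty (EmbData G N) := by
  obtain ⟨W, hfin, hinv, ⟨d, hd⟩, hone, hπW, s, a, e, h0, h2, h3, h4, h7, h8⟩ :=
    exists_repr (K := ℚ) k G N hG π hπ hπN
  have hfinM := finite_MZ W
  choose ez hez using h8
  have hezW : ∀ i, ez i ∈ MZ W := by
    intro i
    rw [mem_MZ]
    have : (fun x => ((ez i x : ℤ) : ℚ)) = e i := by funext x; exact (hez i x).symm
    rw [this]; exact h4 i
  have hez3 : ∀ x i, ez i (pw a x) = x i := by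
    intro x i
    have := hez i (pw a x)
    rw [h3] at this
    exact_mod_cast this.symm
  let b := Module.finBasis ℤ (MZ W)
  let A : G → Matrix (Fin (finrank ℤ (MZ W))) (Fin (finrank ℤ (MZ W))) ℤ := fun g =>
    LinearMap.toMatrix b b (TZ W hinv g)
  have hA : ∀ g h, A (g * h) = A g * A h := by
    intro g h
    show LinearMap.toMatrix b b _ = LinearMap.toMatrix b b _ * LinearMap.toMatrix b b _
    rw [TZ_mul, LinearMap.toMatrix_mul]
  have hA1 : A 1 = 1 := by
    show LinearMap.toMatrix b b _ = 1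
    rw [TZ_one, LinearMap.toMatrix_one]
  let ρ : G →* Matrix (Fin (finrank ℤ (MZ W))) (Fin (finrank ℤ (MZ W))) ℤ :=
    { toFun := fun g => (A g⁻¹).transpose
      map_one' := by rw [inv_one, hA1, Matrix.transpose_one]
      map_mul' := fun g h => by rw [mul_inv_rev, hA, Matrix.transpose_mul] }
  -- the coordinates of a function
  let c : Fin s → Fin (finrank ℤ (MZ W)) → ℤ := fun i => b.repr ⟨ez i, hezW i⟩
  let L : Fin s → (Matrix (Fin (finrank ℤ (MZ W))) (Fin (finrank ℤ (MZ W))) ℤ →ₗ[ℤ] ℤ) :=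
    fun i =>
      { toFun := fun B => ∑ q, (∑ p, B p q * c i p) * (b q).1 1
        map_add' := by
          intro B C
          rw [← Finset.sum_add_distrib]
          refine Finset.sum_congr rfl fun q _ => ?_
          rw [← add_mul, ← Finset.sum_add_distrib]
          congr 1
          refine Finset.sum_congr rfl fun p _ => ?_
          rw [Matrix.add_apply, add_mul]
        map_smul' := by
          intro z B
          rw [RingHom.id_apply, Finset.smul_sum]
          refine Finset.sum_congr rfl fun q _ => ?_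
          rw [smul_eq_mul, ← mul_assoc, Finset.mul_sum]
          congr 1
          refine Finset.sum_congr rfl fun p _ => ?_
          rw [Matrix.smul_apply, smul_eq_mul, mul_assoc] }
  have hL : ∀ i g, L i (ρ g) = ez i g⁻¹ := by
    intro i g
    have h5 : TZ W hinv g⁻¹ ⟨ez i, hezW i⟩ =
        ∑ q, (∑ p, A g⁻¹ q p * c i p) • b q := by
      have h6 := b.sum_repr (TZ W hinv g⁻¹ ⟨ez i, hezW i⟩)
      rw [← h6]
      refine Finset.sum_congr rfl fun q _ => ?_
      congr 1
      have h9 := LinearMap.toMatrix_mulVec_repr b b (TZ W hinv g⁻¹) ⟨ez i, hezW i⟩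
      rw [← h9]; rfl
    have h6 : ez i g⁻¹ = (TZ W hinv g⁻¹ ⟨ez i, hezW i⟩).1 1 := by
      rw [TZ_apply, one_mul]
    rw [h6, h5]
    have h9 : ((∑ q, (∑ p, A g⁻¹ q p * c i p) • b q : MZ W) : G → ℤ) 1 =
        ∑ q, (∑ p, A g⁻¹ q p * c i p) * (b q).1 1 := by
      rw [Submodule.coe_sum, Finset.sum_apply]
      rfl
    rw [h9]
    rfl
  have hsep : ∀ g h : G, ρ g = ρ h → ∀ f : MZ W, f.1 g⁻¹ = f.1 h⁻¹ ∧
      (TZ W hinv g⁻¹ = TZ W hinv h⁻¹) := by
    intro g h hgh f
    have h1 : A g⁻¹ = A h⁻¹ := Matrix.transpose_injective hgh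
    have h5 : TZ W hinv g⁻¹ = TZ W hinv h⁻¹ := (LinearMap.toMatrix b b).injective h1
    refine ⟨?_, h5⟩
    have h6 := congrArg (fun T : MZ W →ₗ[ℤ] MZ W => (T f).1 1) h5
    simpa [TZ_apply] using h6
  refine ⟨{
    n := finrank ℤ (MZ W)
    ρ := ρ
    inj := ?_
    unip := ?_
    r := s
    a := fun i => (a (Fin.rev i))
    mem := fun i => h0 _
    surj := ?_
    coord := fun i => - L (Fin.rev i)
    coord_spec := ?_
    normal := ?_ }⟩
  · rw [injective_iff_map_eq_one]
    intro g hg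
    rw [← map_one ρ] at hg
    have hgN : g ∈ N := by
      rw [← hπN]
      apply Multiplicative.toAdd.injective
      funext j
      have hmem : (fun g => (Multiplicative.toAdd (π g) j : ℤ)) ∈ MZ W := hπW j
      have h5 := (hsep g 1 hg ⟨_, hmem⟩).1
      simp only [inv_one, map_one, map_inv, toAdd_inv, Pi.neg_apply, toAdd_one,
        Pi.zero_apply] at h5
      rw [toAdd_one, Pi.zero_apply]
      omega
    obtain ⟨x, hx⟩ := h2 g⁻¹ (N.inv_mem hgN)
    have hx0 : x = 0 := by
      funext i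
      have h5 := (hsep g 1 hg ⟨ez i, hezW i⟩).1
      simp only [inv_one] at h5
      rw [hx, hez3] at h5
      have h6 := hez3 0 i
      rw [show pw a 0 = 1 by simp [pw]] at h6
      rw [h5, h6]
    rw [hx0, show pw a 0 = 1 by simp [pw]] at hx
    exact inv_eq_one.1 hx
  · intro x hx
    have h5 : (A x⁻¹ - 1) ^ d = 0 := by
      have h6 := TZ_unip W hinv hd (N.inv_mem hx)
      have h9 := congrArg (LinearMap.toMatrixAlgEquiv b) h6
      rw [map_pow, map_sub, map_one, map_zero] at h9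
      exact h9
    have h6 : (A x⁻¹ - 1) ^ finrank ℤ (MZ W) = 0 := matrix_pow_eq_zero h5
    show ((A x⁻¹).transpose - 1) ^ finrank ℤ (MZ W) = 0
    rw [← Matrix.transpose_one, ← Matrix.transpose_sub, ← Matrix.transpose_pow, h6,
      Matrix.transpose_zero]
  · intro x hx
    obtain ⟨y, hy⟩ := h2 x⁻¹ (N.inv_mem hx)
    refine ⟨fun i => - y (Fin.rev i), ?_⟩
    rw [← inv_pw, ← hy, inv_inv]
  · intro x i
    show - (L (Fin.rev i)) (ρ _) = _
    rw [hL, inv_prodE, hez3, Fin.rev_rev, neg_neg]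
  · intro j x y hx i hi
    show - (L (Fin.rev i)) (ρ _) = _
    rw [hL, neg_eq_zero]
    have h5 : (prodE (fun i => a (Fin.rev i)) y * prodE (fun i => a (Fin.rev i)) x *
        (prodE (fun i => a (Fin.rev i)) y)⁻¹)⁻¹ =
        (pw a (fun i => - y (Fin.rev i)))⁻¹ * pw a (fun i => - x (Fin.rev i)) *
          ((pw a (fun i => - y (Fin.rev i)))⁻¹)⁻¹ := by
      rw [← inv_prodE, ← inv_prodE]; group
    rw [h5]
    have h6 := h7 (s - j) (fun i => - x (Fin.rev i)) (fun i' hi' => by
      rw [hx, neg_zero]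
      rw [Fin.val_rev]; omega) ((pw a (fun i => - y (Fin.rev i)))⁻¹) (by
      refine N.inv_mem ?_
      rw [pw]
      refine Subgroup.list_prod_mem _ ?_
      intro z hz
      rw [List.mem_ofFn] at hz
      obtain ⟨i', rfl⟩ := hz
      exact N.zpow_mem (h0 i') _) (Fin.rev i) (by rw [Fin.val_rev]; omega)
    rw [hez] at h6
    exact_mod_cast h6

theorem exists_embData_of_rootData (D : RootData G) : Nonempty (EmbData G D.N) :=
  exists_embData D.normal D.nilp D.pz D.π D.surj D.mem_N

end Crest.Agent.R182.PolycEmb
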