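/-
R182, module SUBCONJ (helper595): the group generated by a unipotent Lie algebra of matrices and a
unipotent matrix normalising it is nilpotent.
-/
import Mathlib

set_option autoImplicit false
set_option linter.unusedSectionVars false

namespace Crest.Agent.R182.Sub

open Module.End

attribute [local instance 100] LieRing.ofAssociativeRing

section Nil

variable {K : Type*} [Field K] {A : Type*} [Ring A] [Algebra K A]

/-- the Lie algebra of left multiplications -/
def LL (W : Submodule K A) (hbr : ∀ X ∈ W, ∀ Y ∈ W, X * Y - Y * X ∈ W) :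
    LieSubalgebra K (Module.End K A) where
  __ := W.map (Algebra.lmul K A).toLinearMap
  lie_mem' := by
    rintro _ _ ⟨X, hX, rfl⟩ ⟨Y, hY, rfl⟩
    refine ⟨X * Y - Y * X, hbr X hX Y hY, ?_⟩
    ext z
    simp [Ring.lie_def, mul_assoc]

/-- Engel's theorem in associative form -/
theorem engel [FiniteDimensional K A] (W : Submodule K A)
    (hbr : ∀ X ∈ W, ∀ Y ∈ W, X * Y - Y * X ∈ W)
    (hnil : ∀ X ∈ W, IsNilpotent X) : ∃ m : ℕ, W ^ m = ⊥ := by
  have h1 : LieModule.IsNilpotent (LL W hbr) A := by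
    rw [LieModule.isNilpotent_iff_forall' (R := K)]
    rintro ⟨_, X, hX, rfl⟩
    obtain ⟨k, hk⟩ := hnil X hX
    refine ⟨k, ?_⟩
    have e : LieModule.toEnd K (LL W hbr) A ⟨_, X, hX, rfl⟩ = LinearMap.mulLeft K X := by
      ext z; rfl
    rw [e, LinearMap.pow_mulLeft, hk]
    ext z; simp
  obtain ⟨m, hm⟩ := (LieModule.isNilpotent_iff K (LL W hbr) A).1 h1
  have key : ∀ j : ℕ, ∀ x ∈ W ^ j, ∀ y : A,
      x * y ∈ (LieModule.lowerCentralSeries K (LL W hbr) A j : Submodule K A) := by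
    intro j
    induction j with
    | zero => intro x _ y; simp
    | succ j ih =>
      intro x hx y
      rw [pow_succ'] at hx
      induction hx using Submodule.mul_induction_on' with
      | mem_mul_mem a ha b hb =>
        rw [mul_assoc]
        have h2 : (⁅(⟨LinearMap.mulLeft K a, a, ha, rfl⟩ : LL W hbr), b * y⁆ : A) ∈
            LieModule.lowerCentralSeries K (LL W hbr) A (j + 1) := by
          rw [LieModule.lowerCentralSeries_succ]
          exact LieSubmodule.lie_mem_lie (LieSubmodule.mem_top _) (ih b hb y)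
        exact h2
      | add a _ b _ ha hb =>
        rw [add_mul]
        exact Submodule.add_mem _ ha hb
  refine ⟨m, ?_⟩
  rw [eq_bot_iff]
  intro x hx
  have := key m x hx 1
  rw [hm, mul_one] at this
  simpa using this

/-- the associative span of a unipotent Lie algebra and `u - 1` is nilpotent. -/
theorem nil_sup [FiniteDimensional K A] (W : Submodule K A)
    (hbr : ∀ X ∈ W, ∀ Y ∈ W, X * Y - Y * X ∈ W)
    (hnil : ∀ X ∈ W, IsNilpotent X) (u : Aˣ) (hu : IsNilpotent ((u : A) - 1))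
    (h1 : ∀ X ∈ W, (u : A) * X * ((u⁻¹ : Aˣ) : A) ∈ W) :
    ∃ N : ℕ, (W ⊔ Submodule.span K {(u : A) - 1}) ^ N = ⊥ := by
  obtain ⟨m, hm⟩ := engel W hbr hnil
  obtain ⟨q, hq⟩ := hu
  set v : Submodule K A := Submodule.span K {(u : A) - 1} with hv
  set J : Submodule K A := W ⊔ v with hJ
  have hvq : v ^ q = ⊥ := by
    rw [hv, Submodule.span_pow, Set.singleton_pow, hq]
    simp
  -- `v W ≤ W v + W`
  have hvW : v * W ≤ W * v ⊔ W := by
    rw [Submodule.mul_le]
    intro a ha X hX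
    rw [hv, Submodule.mem_span_singleton] at ha
    obtain ⟨c, rfl⟩ := ha
    have e : c • ((u : A) - 1) * X = (c • ((u : A) * X * ((u⁻¹ : Aˣ) : A))) * ((u : A) - 1) +
        c • ((u : A) * X * ((u⁻¹ : Aˣ) : A) - X) := by
      rw [mul_sub, mul_one, smul_mul_assoc, smul_mul_assoc, mul_assoc ((u : A) * X), Units.inv_mul,
        mul_one, sub_mul, one_mul, smul_sub, smul_sub]
      abel
    rw [e]
    refine Submodule.add_mem_sup (Submodule.mul_mem_mul (W.smul_mem _ (h1 X hX))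
      (Submodule.mem_span_singleton_self _)) (W.smul_mem _ (W.sub_mem (h1 X hX) hX))
  -- the decreasing sequence `J ^ i * ⊤`
  let P : ℕ → Submodule K A := fun i => J ^ i * ⊤
  have hPs : ∀ i, P (i + 1) = J * P i := fun i => by
    simp only [P]; rw [pow_succ', mul_assoc]
  have hPanti : ∀ i, P (i + 1) ≤ P i := by
    intro i
    induction i with
    | zero => simp only [P, pow_zero, one_mul]; exact le_top
    | succ i ih =>
      have := mul_le_mul' (le_refl J) ih
      rwa [← hPs, ← hPs] at this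
  obtain ⟨i, hi⟩ := IsArtinian.monotone_stabilizes
    (⟨fun i => OrderDual.toDual (P i), monotone_nat_of_le_succ fun i => hPanti i⟩ :
      ℕ →o (Submodule K A)ᵒᵈ)
  have hi1 : P (i + 1) = P i := (hi (i + 1) (Nat.le_succ i)).symm
  obtain ⟨L, hJL, hL⟩ : ∃ L : Submodule K A, J * L = L ∧ L = P i := ⟨P i, by rw [← hPs, hi1], rfl⟩
  have hWL : W * L ≤ L := by
    conv_rhs => rw [← hJL]
    exact mul_le_mul' le_sup_left le_rfl
  have hvL : v * L ≤ L := by
    conv_rhs => rw [← hJL]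
    exact mul_le_mul' le_sup_right le_rfl
  have hL1 : L ≤ W * L ⊔ v * L := by
    conv_lhs => rw [← hJL]
    rw [hJ, Submodule.sup_mul]
  have key : ∀ k : ℕ, L ≤ W * L ⊔ v ^ k * L := by
    intro k
    induction k with
    | zero => rw [pow_zero, one_mul]; exact le_sup_right
    | succ k ih =>
      refine hL1.trans (sup_le le_sup_left ?_)
      calc v * L ≤ v * (W * L ⊔ v ^ k * L) := mul_le_mul' le_rfl ih
        _ = v * W * L ⊔ v ^ (k + 1) * L := by
          rw [Submodule.mul_sup, ← mul_assoc v W L, ← mul_assoc v (v ^ k) L, pow_succ']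
        _ ≤ W * L ⊔ v ^ (k + 1) * L := by
          refine sup_le_sup_right ?_ _
          calc v * W * L ≤ (W * v ⊔ W) * L := mul_le_mul' hvW le_rfl
            _ = W * (v * L) ⊔ W * L := by rw [Submodule.sup_mul, mul_assoc]
            _ ≤ W * L := sup_le (mul_le_mul' le_rfl hvL) le_rfl
  have hLW : L ≤ W * L := by
    have := key q
    rwa [hvq, Submodule.bot_mul, sup_bot_eq] at this
  have hLWk : ∀ k : ℕ, L ≤ W ^ k * L := by
    intro k
    induction k with
    | zero => rw [pow_zero, one_mul]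
    | succ k ih =>
      calc L ≤ W ^ k * L := ih
        _ ≤ W ^ k * (W * L) := mul_le_mul' le_rfl hLW
        _ = W ^ (k + 1) * L := by rw [← mul_assoc (W ^ k) W L, pow_succ]
  have hL0 : L = ⊥ := by
    have := hLWk m
    rwa [hm, Submodule.bot_mul, le_bot_iff] at this
  refine ⟨i, ?_⟩
  rw [eq_bot_iff]
  intro x hx
  have h2 : x * 1 ∈ L := by rw [hL]; exact Submodule.mul_mem_mul hx Submodule.mem_top
  rw [mul_one, hL0] at h2
  exact h2

section Grp

variable (J : Submodule K A)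

/-- elements which raise the `J`-adic filtration by `k`. -/
def Fil (k : ℕ) : Submodule K A where
  carrier := {x | ∀ i, ∀ y ∈ J ^ i * (⊤ : Submodule K A), x * y ∈ J ^ (i + k) * (⊤ : Submodule K A)}
  add_mem' := by
    intro a b ha hb i y hy
    rw [add_mul]
    exact Submodule.add_mem _ (ha i y hy) (hb i y hy)
  zero_mem' := by
    intro i y _
    rw [zero_mul]
    exact Submodule.zero_mem _
  smul_mem' := by
    intro c a ha i y hy
    rw [smul_mul_assoc]
    exact Submodule.smul_mem _ c (ha i y hy)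

variable {J}

theorem mem_Fil_one {x : A} (hx : x ∈ J) : x ∈ Fil J 1 := by
  intro i y hy
  have e : J ^ (i + 1) * (⊤ : Submodule K A) = J * (J ^ i * ⊤) := by
    rw [pow_succ', mul_assoc]
  rw [e]
  exact Submodule.mul_mem_mul hx hy

theorem mul_mem_Fil {j k : ℕ} {x y : A} (hx : x ∈ Fil J j) (hy : y ∈ Fil J k) :
    x * y ∈ Fil J (j + k) := by
  intro i z hz
  rw [mul_assoc]
  have := hx _ _ (hy i z hz)
  have e : i + k + j = i + (j + k) := by ring
  rwa [e] at this

theorem one_mem_Fil : (1 : A) ∈ Fil J 0 := by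
  intro i y hy
  rw [one_mul]; exact hy

theorem pow_top_anti (i : ℕ) : J ^ (i + 1) * (⊤ : Submodule K A) ≤ J ^ i * ⊤ := by
  rw [pow_succ, mul_assoc]
  exact mul_le_mul' le_rfl le_top

theorem Fil_anti {j k : ℕ} (h : j ≤ k) : Fil J k ≤ Fil J j := by
  have h1 : Antitone fun i => J ^ i * (⊤ : Submodule K A) := antitone_nat_of_succ_le pow_top_anti
  intro x hx i y hy
  exact h1 (by omega : i + j ≤ i + k) (hx i y hy)

theorem Fil_eq_bot {N : ℕ} (hN : J ^ N = ⊥) : Fil J N = ⊥ := by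
  rw [eq_bot_iff]
  intro x hx
  have h1 := hx 0 1 (by rw [pow_zero, one_mul]; exact Submodule.mem_top)
  rw [mul_one, zero_add, hN, Submodule.bot_mul] at h1
  exact h1

/-- inverses -/
theorem inv_mem_Fil {N : ℕ} (hN : J ^ N = ⊥) {y : Aˣ} {k : ℕ} (hk : 1 ≤ k)
    (hy : (y : A) - 1 ∈ Fil J k) : ((y⁻¹ : Aˣ) : A) - 1 ∈ Fil J k := by
  set x := (y : A) - 1 with hx
  set z := ((y⁻¹ : Aˣ) : A) - 1 with hz
  have hz1 : z = -x - x * z := by
    have h1 : (y : A) * ((y⁻¹ : Aˣ) : A) = 1 := Units.mul_inv y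
    have h2 : (y : A) = x + 1 := by rw [hx]; abel
    have h3 : ((y⁻¹ : Aˣ) : A) = z + 1 := by rw [hz]; abel
    rw [h2, h3, add_mul, mul_add, one_mul, mul_one] at h1
    have h4 : x * z + x + z = 0 := by
      have := sub_eq_zero.2 h1
      rw [← this]; abel
    have h5 : z = (x * z + x + z) - x - x * z := by abel
    rw [h4, zero_sub] at h5
    exact h5
  have key : ∀ j : ℕ, ∃ a ∈ Fil J k, ∃ b ∈ Fil J j, z = a + b * z := by
    intro j
    induction j with
    | zero => exact ⟨0, Submodule.zero_mem _, 1, one_mem_Fil, by simp⟩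
    | succ j ih =>
      obtain ⟨a, ha, b, hb, e⟩ := ih
      refine ⟨a - b * x, Submodule.sub_mem _ ha ?_, -(b * x), Submodule.neg_mem _ ?_, ?_⟩
      · exact Fil_anti (Nat.le_add_left k j) (mul_mem_Fil hb hy)
      · exact Fil_anti (by omega) (mul_mem_Fil hb hy)
      · conv_lhs => rw [e, hz1]
        noncomm_ring
  obtain ⟨a, ha, b, hb, e⟩ := key N
  rw [Fil_eq_bot hN, Submodule.mem_bot] at hb
  rw [hb, zero_mul, add_zero] at e
  rw [e]; exact ha

variable (J) in
/-- the congruence subgroups -/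
def Cong (k : ℕ) : Subgroup Aˣ where
  carrier := {g | (g : A) - 1 ∈ Fil J (k + 1) ∧ ((g⁻¹ : Aˣ) : A) - 1 ∈ Fil J (k + 1)}
  one_mem' := by simp
  mul_mem' := by
    have key : ∀ a b : A, a - 1 ∈ Fil J (k + 1) → b - 1 ∈ Fil J (k + 1) →
        a * b - 1 ∈ Fil J (k + 1) := by
      intro a b ha hb
      have e : a * b - 1 = (a - 1) * (b - 1) + (a - 1) + (b - 1) := by noncomm_ring
      rw [e]
      exact Submodule.add_mem _ (Submodule.add_mem _ (Fil_anti (by omega) (mul_mem_Fil ha hb)) ha) hb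
    rintro g h ⟨hg, hg'⟩ ⟨hh, hh'⟩
    refine ⟨?_, ?_⟩
    · rw [Units.val_mul]; exact key _ _ hg hh
    · rw [mul_inv_rev, Units.val_mul]; exact key _ _ hh' hg'
  inv_mem' := by
    rintro g ⟨hg, hg'⟩
    exact ⟨hg', by rwa [inv_inv]⟩

theorem commutator_Cong (k : ℕ) : ⁅Cong J k, Cong J 0⁆ ≤ Cong J (k + 1) := by
  rw [Subgroup.commutator_le]
  have key : ∀ g ∈ Cong J k, ∀ h ∈ Cong J 0, ((g * h * g⁻¹ * h⁻¹ : Aˣ) : A) - 1 ∈ Fil J (k + 2) := by
    rintro g ⟨hg, hg'⟩ h ⟨hh, hh'⟩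
    have e : ((g * h * g⁻¹ * h⁻¹ : Aˣ) : A) - 1 =
        (((g : A) - 1) * ((h : A) - 1) - ((h : A) - 1) * ((g : A) - 1)) *
          (((g⁻¹ : Aˣ) : A) * ((h⁻¹ : Aˣ) : A)) := by
      have e1 : ((g : A) - 1) * ((h : A) - 1) - ((h : A) - 1) * ((g : A) - 1) =
          (g : A) * h - h * g := by noncomm_ring
      have e2 : (h : A) * g * (((g⁻¹ : Aˣ) : A) * ((h⁻¹ : Aˣ) : A)) = 1 := by
        rw [mul_assoc, ← mul_assoc (g : A), Units.mul_inv, one_mul, Units.mul_inv]
      rw [e1, sub_mul, e2]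
      simp only [Units.val_mul, mul_assoc]
    rw [e]
    have h1 : ((g : A) - 1) * ((h : A) - 1) - ((h : A) - 1) * ((g : A) - 1) ∈ Fil J (k + 2) := by
      refine Submodule.sub_mem _ ?_ ?_
      · exact mul_mem_Fil (j := k + 1) (k := 1) hg hh
      · have := mul_mem_Fil (j := 1) (k := k + 1) hh hg
        have e3 : 1 + (k + 1) = k + 2 := by ring
        rwa [e3] at this
    have h2 : ∀ a : A, a - 1 ∈ Fil J 1 → a ∈ Fil J 0 := by
      intro a ha
      have : a = (a - 1) + 1 := by abel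
      rw [this]
      exact Submodule.add_mem _ (Fil_anti (Nat.zero_le 1) ha) one_mem_Fil
    have h3 : ((g⁻¹ : Aˣ) : A) * ((h⁻¹ : Aˣ) : A) ∈ Fil J 0 :=
      mul_mem_Fil (j := 0) (k := 0) (h2 _ (Fil_anti (by omega) hg')) (h2 _ hh')
    exact mul_mem_Fil (j := k + 2) (k := 0) h1 h3
  intro g hg h hh
  refine ⟨?_, ?_⟩
  · exact key g hg h hh
  · have e : (g * h * g⁻¹ * h⁻¹)⁻¹ = h * g * h⁻¹ * g⁻¹ := by group
    change (((g * h * g⁻¹ * h⁻¹)⁻¹ : Aˣ) : A) - 1 ∈ Fil J (k + 2)
    rw [e]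
    have key' : ((h * g * h⁻¹ * g⁻¹ : Aˣ) : A) - 1 ∈ Fil J (k + 2) := by
      have hg1 := hg
      obtain ⟨hg, hg'⟩ := hg
      obtain ⟨hh, hh'⟩ := hh
      have e : ((h * g * h⁻¹ * g⁻¹ : Aˣ) : A) - 1 =
          (((h : A) - 1) * ((g : A) - 1) - ((g : A) - 1) * ((h : A) - 1)) *
            (((h⁻¹ : Aˣ) : A) * ((g⁻¹ : Aˣ) : A)) := by
        have e1 : ((h : A) - 1) * ((g : A) - 1) - ((g : A) - 1) * ((h : A) - 1) =
            (h : A) * g - g * h := by noncomm_ring
        have e2 : (g : A) * h * (((h⁻¹ : Aˣ) : A) * ((g⁻¹ : Aˣ) : A)) = 1 := by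
          rw [mul_assoc, ← mul_assoc (h : A), Units.mul_inv, one_mul, Units.mul_inv]
        rw [e1, sub_mul, e2]
        simp only [Units.val_mul, mul_assoc]
      rw [e]
      have h1 : ((h : A) - 1) * ((g : A) - 1) - ((g : A) - 1) * ((h : A) - 1) ∈ Fil J (k + 2) := by
        refine Submodule.sub_mem _ ?_ ?_
        · have := mul_mem_Fil (j := 1) (k := k + 1) hh hg
          have e3 : 1 + (k + 1) = k + 2 := by ring
          rwa [e3] at this
        · exact mul_mem_Fil (j := k + 1) (k := 1) hg hh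
      have h2 : ∀ a : A, a - 1 ∈ Fil J 1 → a ∈ Fil J 0 := by
        intro a ha
        have : a = (a - 1) + 1 := by abel
        rw [this]
        exact Submodule.add_mem _ (Fil_anti (Nat.zero_le 1) ha) one_mem_Fil
      have h3 : ((h⁻¹ : Aˣ) : A) * ((g⁻¹ : Aˣ) : A) ∈ Fil J 0 :=
        mul_mem_Fil (j := 0) (k := 0) (h2 _ hh') (h2 _ (Fil_anti (by omega) hg'))
      exact mul_mem_Fil (j := k + 2) (k := 0) h1 h3
    exact key'

theorem lcs_Cong (c : ℕ) : (Cong J 0).lowerCentralSeries c ≤ Cong J c := by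
  induction c with
  | zero => exact le_rfl
  | succ c ih =>
    rw [Subgroup.lowerCentralSeries_succ]
    exact (Subgroup.commutator_mono ih le_rfl).trans (commutator_Cong c)

theorem Cong_eq_bot {N : ℕ} (hN : J ^ N = ⊥) : Cong J N = ⊥ := by
  rw [eq_bot_iff]
  rintro g ⟨hg, -⟩
  have h1 := Fil_anti (Nat.le_succ N) hg
  rw [Fil_eq_bot hN, Submodule.mem_bot, sub_eq_zero] at h1
  exact Subgroup.mem_bot.2 (Units.ext h1)

/-- **(N)** -/
theorem exists_nil [FiniteDimensional K A] (W : Submodule K A)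
    (hbr : ∀ X ∈ W, ∀ Y ∈ W, X * Y - Y * X ∈ W)
    (hnil : ∀ X ∈ W, IsNilpotent X) (u : Aˣ) (hu : IsNilpotent ((u : A) - 1))
    (h1 : ∀ X ∈ W, (u : A) * X * ((u⁻¹ : Aˣ) : A) ∈ W) :
    ∃ (U : Subgroup Aˣ) (c : ℕ), u ∈ U ∧
      (∀ y : Aˣ, (y : A) - 1 ∈ NonUnitalAlgebra.adjoin K (W : Set A) → y ∈ U) ∧
      U.lowerCentralSeries c = ⊥ := by
  obtain ⟨N, hN⟩ := nil_sup W hbr hnil u hu h1
  set J := W ⊔ Submodule.span K {(u : A) - 1} with hJ
  refine ⟨Cong J 0, N, ?_, fun y hy => ?_, ?_⟩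
  · have h2 : (u : A) - 1 ∈ Fil J 1 :=
      mem_Fil_one (Submodule.mem_sup_right (Submodule.mem_span_singleton_self _))
    exact ⟨h2, inv_mem_Fil hN le_rfl h2⟩
  · have key : ∀ z ∈ NonUnitalAlgebra.adjoin K (W : Set A), z ∈ Fil J 1 := by
      intro z hz
      induction hz using NonUnitalAlgebra.adjoin_induction with
      | mem x hx => exact mem_Fil_one (Submodule.mem_sup_left hx)
      | add x z _ _ hx hz => exact Submodule.add_mem _ hx hz
      | zero => exact Submodule.zero_mem _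
      | mul x z _ _ hx hz => exact Fil_anti (by omega) (mul_mem_Fil hx hz)
      | smul r x _ hx => exact Submodule.smul_mem _ r hx
    have h2 := key _ hy
    exact ⟨h2, inv_mem_Fil hN le_rfl h2⟩
  · rw [eq_bot_iff, ← Cong_eq_bot hN]
    exact lcs_Cong N

end Grp

end Nil

end Crest.Agent.R182.Sub
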