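/-
R182, module MODEL (helper936): assembly of the real model `BModel` (Core v3) from the landed pieces;
the open pieces are the fields of `Hyp`.
-/
import Mathlib
import Crest.Agent.R182.Core
import Crest.Agent.R182.ModelInst2
import Crest.Agent.R182.ModelPg
import Crest.Agent.R182.BoxBCHE
import Crest.Agent.R182.ModelVol
import Crest.Agent.R182.ModelX1
import Crest.Agent.R182.ModelX3
import Crest.Agent.R182.Asm3
import Crest.Agent.R182.BndExt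
import Crest.Agent.R182.ModelX5
import Crest.Agent.R182.ModelSub4
import Crest.Agent.R182.SubNil
import Crest.Agent.R182.PolycEmbInt

set_option autoImplicit false
set_option linter.unusedSectionVars false

open MeasureTheory

namespace Crest.Agent.R182.ModelAsm

open Crest.GroupTheory Crest.Geometry Crest.Agent.R182.QI Crest.Agent.R182.FinPath
  Crest.Agent.R182.FinRed Crest.Agent.R182.Bnd Crest.Agent.R182.Polyc Crest.Agent.R182.Model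
  Crest.Agent.R182.ModelWt Crest.Agent.R182.ModelCt Crest.Agent.R182.Core

attribute [local instance] Matrix.linftyOpNormedRing Matrix.linftyOpNormedAlgebra
attribute [local instance 100] LieRing.ofAssociativeRing

variable {Γ : Type*} [Group Γ] (R : RootData Γ) (S : Set Γ)

/-- the data from which the model is assembled -/
structure Pre where
  D : EmbData Γ R.N
  C₀ : ℝ
  big : Big D S C₀
  𝒞 : Cartan D (π1 R D)
  ht : ∃ γ : Γ, 𝒞.t = inΓ D γ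
  hχ : ∀ j, 𝒞.W.χ j 𝒞.t = 1 → 𝒞.W.χ j = 1
  𝒷 : AdBas 𝒞

variable {R S}

/-- length -/
noncomputable def Pre.ln (P : Pre R S) (g : G1 P.D) : ℝ := (Model.len P.D P.C₀ g : ℝ)

/-- the fact `XModel.sub_conj` -/
def SubConj (P : Pre R S) : Prop :=
  ∃ R₀ : ℝ, ∀ b ∈ Cf P.D P.𝒞.t, ∀ Rr δ : ℝ, 0 < δ → ∃ N₀ : ℕ, ∀ N : ℕ, N₀ ≤ N →
    ∀ j : ℕ, j ≤ N → ∀ y ∈ P.𝒞.C, (Model.len P.D P.C₀ y : ℝ) ≤ Rr →
      ∃ l : List (G1 P.D), b ^ j * y * (b ^ j)⁻¹ = l.prod ∧ (l.length : ℝ) ≤ δ * N ∧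
        ∀ s ∈ l, s ∈ P.𝒞.C ∧ (Model.len P.D P.C₀ s : ℝ) ≤ R₀

theorem mul_mono {a a' x : ℝ} (h : a ≤ a') (hx : 0 ≤ x) : a * x ≤ a' * x :=
  mul_le_mul_of_nonneg_right h hx

/-- the constants and choices -/
theorem exists_choices (P : Pre R S) : ∃ (a : ℝ) (t : (Fin R.k → ℤ) → G1 P.D),
    1 ≤ a ∧
    (∀ γ, (Model.len P.D P.C₀ (inΓ P.D γ) : ℝ) ≤ a * wordLength S γ) ∧
    (∀ γ : Γ, (wordLength S γ : ℝ) ≤ a * Model.len P.D P.C₀ (inΓ P.D γ) + a) ∧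
    (∀ g i, |hgt R P.D g i| ≤ a * Model.len P.D P.C₀ g) ∧
    (∀ Rr : ℝ, ∃ A : ℕ, ∀ n : ℕ, ∃ F : Finset (G1 P.D), F.card ≤ A * (1 + n) ^ A ∧
      ∀ l : List (G1 P.D), l.length ≤ n →
        (∀ s ∈ l, s ∈ P.𝒞.C ∧ (Model.len P.D P.C₀ s : ℝ) ≤ Rr) →
        ∃ f ∈ F, f ∈ P.𝒞.C ∧ (Model.len P.D P.C₀ (f⁻¹ * l.prod) : ℝ) ≤ a) ∧
    (∀ v i, hgt R P.D (t v) i = v i) ∧
    (∀ v, ∃ l : List (G1 P.D), t v = l.prod ∧ l.length ≤ n1 v ∧
        ∀ s ∈ l, s ∈ Cf P.D P.𝒞.t ∧ (Model.len P.D P.C₀ s : ℝ) ≤ a) ∧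
    (∀ (n : ℝ) (u : G1 P.D), hgt R P.D u = 0 → ∃ l : List (G1 P.D), u = l.prod ∧
      ∀ r ∈ l, hgt R P.D r = 0 ∧ ∀ g, (Model.len P.D P.C₀ g : ℝ) ≤ n →
        (Model.len P.D P.C₀ (g⁻¹ * r * g) : ℝ) ≤ a) ∧
    (∀ g i j, |P.𝒷.bas.repr (P.𝒞.AdE g (P.𝒷.bas j)) i| ≤
      Real.exp (a * Model.len P.D P.C₀ g + a)) ∧
    (∀ x, ‖P.𝒷.bas.equivFun x‖ ≤ Real.exp (a * Model.len P.D P.C₀ (P.𝒞.exE x) + a)) ∧
    (∀ x, (Model.len P.D P.C₀ (P.𝒞.exE x) : ℝ) ≤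
      a * Real.log (2 + ‖P.𝒷.bas.equivFun x‖)) := by
  obtain ⟨a₁, ha₁⟩ := P.big.wordLength_le
  obtain ⟨a₂, ha₂0, ha₂⟩ := P.big.hgt_le (R := R)
  obtain ⟨a₃, ha₃⟩ := ModelWt.C_growth P.big P.𝒞 (ModelX.hgr P.big P.𝒞)
  obtain ⟨t, a₄, ht, ha₄⟩ := exists_vert R P.D P.big (Cf P.D P.𝒞.t)
    (exists_mul_Cf (abQ (D := P.D)) P.𝒞.t)
  obtain ⟨a₅, ha₅⟩ := P.big.exists_tiny
  obtain ⟨a₆, ha₆0, ha₆⟩ := P.𝒷.Ad_le P.big
  obtain ⟨a₇, ha₇0, ha₇⟩ := P.𝒷.le_len_ex P.big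
  obtain ⟨a₈, ha₈0, ha₈⟩ := ModelX.len_exE_le P.big P.𝒷 (hs_π1 R P.D)
  set a : ℝ := 1 + a₁ + a₂ + a₃ + |a₄| + a₅ + a₆ + a₇ + a₈ with ha
  have p1 : (0 : ℝ) ≤ a₁ := Nat.cast_nonneg _
  have p3 : (0 : ℝ) ≤ a₃ := Nat.cast_nonneg _
  have p4 : (0 : ℝ) ≤ |a₄| := abs_nonneg _
  have p5 : (0 : ℝ) ≤ a₅ := Nat.cast_nonneg _
  have q1 : (a₁ : ℝ) ≤ a := by linarith
  have q2 : a₂ ≤ a := by linarith
  have q3 : (a₃ : ℝ) ≤ a := by linarith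
  have q4 : a₄ ≤ a := by have := le_abs_self a₄; linarith
  have q5 : (a₅ : ℝ) ≤ a := by linarith
  have q6 : a₆ ≤ a := by linarith
  have q7 : a₇ ≤ a := by linarith
  have q8 : a₈ ≤ a := by linarith
  have q0 : 1 ≤ a := by linarith
  refine ⟨a, t, q0, fun γ => ?_, fun γ => ?_, fun g i => ?_, fun Rr => ?_, ht, fun v => ?_,
    fun n u hu => ?_, fun g i j => ?_, fun x => ?_, fun x => ?_⟩
  · have h1 : (Model.len P.D P.C₀ (inΓ P.D γ) : ℝ) ≤ wordLength S γ := by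
      exact_mod_cast P.big.len_inΓ_le γ
    refine h1.trans ?_
    exact le_mul_of_one_le_left (Nat.cast_nonneg _) q0
  · have h1 : (wordLength S γ : ℝ) ≤ a₁ * Model.len P.D P.C₀ (inΓ P.D γ) := by
      exact_mod_cast ha₁ γ
    have h2 := mul_mono q1 (Nat.cast_nonneg (α := ℝ) (Model.len P.D P.C₀ (inΓ P.D γ)))
    linarith
  · exact (ha₂ g i).trans (mul_mono q2 (Nat.cast_nonneg _))
  · obtain ⟨A, hA⟩ := ha₃ Rr
    refine ⟨A, fun n => ?_⟩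
    obtain ⟨F, hF1, hF2⟩ := hA n
    refine ⟨F, hF1, fun l hl hls => ?_⟩
    obtain ⟨f, hf, hfC, hfl⟩ := hF2 l hl hls
    exact ⟨f, hf, hfC, hfl.trans q3⟩
  · obtain ⟨l, hl1, hl2, hl3⟩ := ha₄ v
    exact ⟨l, hl1, hl2.le, fun s hs => ⟨(hl3 s hs).1, (hl3 s hs).2.trans q4⟩⟩
  · obtain ⟨l, hl1, hl2⟩ := ha₅ n u ((hgt_eq_zero_iff R P.D u).1 hu)
    refine ⟨l, hl1, fun r hr => ⟨(hgt_eq_zero_iff R P.D r).2 (hl2 r hr).1, fun g hg => ?_⟩⟩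
    have h1 : (Model.len P.D P.C₀ (g⁻¹ * r * g) : ℝ) ≤ a₅ := by
      exact_mod_cast (hl2 r hr).2 g hg
    exact h1.trans q5
  · refine (ha₆ g i j).trans (Real.exp_le_exp.2 ?_)
    have := mul_mono q6 (Nat.cast_nonneg (α := ℝ) (Model.len P.D P.C₀ g))
    linarith
  · refine (ha₇ x).trans (Real.exp_le_exp.2 ?_)
    have := mul_mono q7 (Nat.cast_nonneg (α := ℝ) (Model.len P.D P.C₀ (P.𝒞.exE x)))
    linarith
  · refine (ha₈ x).trans (mul_mono q8 (Real.log_nonneg ?_))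
    have := norm_nonneg (P.𝒷.bas.equivFun x)
    linarith

theorem Pre.Λ_surj (P : Pre R S) (i : Fin P.𝒷.r) (hi : i ∈ P.𝒷.gen) :
    ∃ j, Λ1 R j = P.𝒷.wt i := by
  obtain ⟨j, hj⟩ := P.𝒷.Λ_surj P.ht i hi
  rw [← hj]
  refine exists_Λ1 R ?_
  rw [hj]
  exact P.𝒷.wt_gen_ne i hi

theorem Pre.rnd_meas (P : Pre R S) (g g' : G1 P.D) (γ : Γ) :
    MeasurableSet {y : Fin P.𝒷.r → ℝ |
      Model.rnd P.D P.C₀ (g * P.𝒞.exE (P.𝒷.bas.equivFun.symm y) * g') = γ} := by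
  have hf : Continuous (fun y : Fin P.𝒷.r → ℝ =>
      ((P.𝒷.bas.equivFun.symm y : P.𝒞.eA) : Matrix (Fin P.D.n) (Fin P.D.n) ℝ)) :=
    LinearMap.continuous_of_finiteDimensional
      (P.𝒞.ξ ∘ₗ (P.𝒷.bas.equivFun.symm : (Fin P.𝒷.r → ℝ) →ₗ[ℝ] P.𝒞.eA))
  exact P.big.measurableSet_rnd_exG _ hf (fun y => P.𝒞.eA_mem_lie _) g g' γ

theorem Pre.h_int (P : Pre R S) (g : G1 P.D) : ∃ v : Fin R.k → ℤ, ∀ i, hgt R P.D g i = v i :=
  ⟨Multiplicative.toAdd (π1 R P.D g), fun _ => rfl⟩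

/-- **THE MODEL** -/
noncomputable def model (P : Pre R S) (H : SubConj P) : BModel S R.π where
  G := G1 P.D
  L := P.𝒞.eA
  ι := inΓ P.D
  len := fun g => (Model.len P.D P.C₀ g : ℝ)
  isLen := P.big.isLen
  a := (exists_choices P).choose
  one_le_a := (exists_choices P).choose_spec.choose_spec.1
  len_ι := (exists_choices P).choose_spec.choose_spec.2.1
  ι_len := (exists_choices P).choose_spec.choose_spec.2.2.1
  rnd := Model.rnd P.D P.C₀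
  len_rnd := fun g => by
    have h1 : (Model.len P.D P.C₀ ((inΓ P.D (Model.rnd P.D P.C₀ g))⁻¹ * g) : ℝ) ≤ 1 := by
      exact_mod_cast P.big.len_letter (P.big.rnd_mem g)
    exact h1.trans (exists_choices P).choose_spec.choose_spec.1
  letters := fun g => by
    obtain ⟨l, h1, h2, h3⟩ := P.big.letters g
    refine ⟨l, h1, by rw [h2]; exact le_add_of_nonneg_right zero_le_one, fun s hs => ?_⟩
    have h4 : (Model.len P.D P.C₀ s : ℝ) ≤ 1 := by exact_mod_cast h3 s hs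
    exact h4.trans (exists_choices P).choose_spec.choose_spec.1
  h := hgt R P.D
  h_mul := hgt_mul R P.D
  h_ι := hgt_inΓ R P.D
  h_int := P.h_int
  h_le := (exists_choices P).choose_spec.choose_spec.2.2.2.1
  c := P.𝒞.exists_nilCE.choose
  nilC := P.𝒞.exists_nilCE.choose_spec.2
  star := P.𝒞.starE
  ex := P.𝒞.exE
  ex_op := P.𝒞.exE_op
  ex_inj := P.𝒞.exE_injective
  h_ex := P.𝒞.hv_exE
  Ad := P.𝒞.AdE
  Ad_lie := P.𝒞.AdE_lie
  star_cj := P.𝒞.starE_bch P.𝒞.exists_nilCE.choose_spec.2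
  conj_ex := P.𝒞.conj_exE
  r := P.𝒷.r
  bas := P.𝒷.bas
  wt := P.𝒷.wt
  lie_wt := P.𝒷.lie_wt
  gen := P.𝒷.gen
  lie_gen := P.𝒷.lie_gen
  gen_span := P.𝒷.gen_span
  wt_gen_ne := P.𝒷.wt_gen_ne
  tr := P.𝒷.tr (hs_π1 R P.D)
  sep := P.𝒷.sep
  C := P.𝒞.C
  C_solv := by
    have : Group.IsSolvable (G1 P.D) := isSolvable_G1 P.D (π1 R P.D) (ker_π1 R P.D)
    infer_instance
  C_growth := (exists_choices P).choose_spec.choose_spec.2.2.2.2.1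
  CN := Cf P.D P.𝒞.t
  CN_le := Cf_le P.𝒞
  CN_nil := isNilpotent_Cf P.𝒞 P.hχ
  sub_conj := by
    obtain ⟨R₀, hR₀⟩ := H
    intro b hb Rr δ hδ
    obtain ⟨N₁, hN₁⟩ := hR₀ b hb Rr δ hδ
    obtain ⟨N₂, hN₂⟩ := hR₀ b⁻¹ ((Cf P.D P.𝒞.t).inv_mem hb) Rr δ hδ
    refine ⟨R₀, max N₁ N₂, fun N hN j hj y hy hyl =>
      ⟨hN₁ N ((le_max_left _ _).trans hN) j hj y hy hyl, ?_⟩⟩
    obtain ⟨l, h1, h2⟩ := hN₂ N ((le_max_right _ _).trans hN) j hj y hy hyl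
    refine ⟨l, ?_, h2⟩
    rw [← h1, inv_pow, inv_inv]
  ex_mem_C := P.𝒷.ex_mem_C
  t := (exists_choices P).choose_spec.choose
  h_t := (exists_choices P).choose_spec.choose_spec.2.2.2.2.2.1
  t_list := (exists_choices P).choose_spec.choose_spec.2.2.2.2.2.2.1
  Ad_C := P.𝒷.Ad_C
  d := (P.𝒷.Ad_C_le P.big).choose
  Ad_C_le := (P.𝒷.Ad_C_le P.big).choose_spec
  dec := P.𝒷.dec P.big
  tiny := (exists_choices P).choose_spec.choose_spec.2.2.2.2.2.2.2.1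
  Ad_le := (exists_choices P).choose_spec.choose_spec.2.2.2.2.2.2.2.2.1
  le_len_ex := (exists_choices P).choose_spec.choose_spec.2.2.2.2.2.2.2.2.2.1
  len_ex_le := (exists_choices P).choose_spec.choose_spec.2.2.2.2.2.2.2.2.2.2
  vol_left := ModelVol.vol_left P.𝒷
  vol_right := ModelVol.vol_right P.𝒷
  vol_Ad := ModelVol.vol_Ad P.𝒷 (hs_π1 R P.D)
  rnd_meas := P.rnd_meas
  m := m1 R
  Λ := Λ1 R
  Λ_ne := Λ1_ne R
  Λ_surj := P.Λ_surj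
  χ := fun j g => ((χ1 R P.D (e1 R j) g : ℂˣ) : ℂ)
  δ := P.big.exists_crossed1.choose
  crossed := P.big.exists_crossed1.choose_spec.1
  χ_one := fun j g hg => by
    have := χ1_one R P.D (e1 R j) hg
    simpa using this
  lδ := fun j => P.𝒷.lδ (e1 R j)
  δ_ex := fun j x => P.big.exists_crossed1.choose_spec.2.2 j _ (P.𝒞.eA_mem_lie x)
  lδ_supp := fun j => P.𝒷.lδ_supp (e1 R j)
  lδ_ne := fun j => P.𝒷.lδ_ne (e1 R j) (e1 R j).2

theorem exists_pre (R : RootData Γ) {S : Set Γ} (hf : S.Finite)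
    (hS : Subgroup.closure S = ⊤) : Nonempty (Pre R S) := by
  obtain ⟨D⟩ := PolycEmb.exists_embData_of_rootData R
  obtain ⟨C₀, hC₀⟩ := exists_big D hf hS
  obtain ⟨𝒞, ht, hχ⟩ := exists_cartan_full D
  obtain ⟨𝒷⟩ := 𝒞.exists_adBas
  exact ⟨⟨D, C₀, hC₀, 𝒞, ht, hχ, 𝒷⟩⟩

theorem xModel (P : Pre R S) (H : SubConj P) : XModel (model P H) where
  sub_conj := H
  C_dist := ModelX.cdist P.big P.𝒷

theorem fineAll (P : Pre R S) (H : SubConj P) : FineAll (model P H) :=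
  fun _ hb _ hv h0 => ModelX.fine P.big P.𝒞 hb hv h0

/-- **the model exists**, from `sub_conj` -/
theorem hasModel_of (R : RootData Γ)
    (hH : ∀ (S : Finset Γ) (P : Pre R (S : Set Γ)), SubConj P) : Asm3.HasModel Γ R := by
  intro S hS A hA hAf hcl
  obtain ⟨P⟩ := exists_pre R S.finite_toSet hS
  have hx : ∀ i : Fin R.k, ∃ γ : Γ, FinPath.hgt R.π γ = Pi.single i 1 := by
    intro i
    obtain ⟨γ, hγ⟩ := R.surj (Multiplicative.ofAdd (Pi.single i 1))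
    exact ⟨γ, by rw [FinPath.hgt, hγ]; rfl⟩
  choose x hx using hx
  refine ⟨x, hx, model P (hH S P), ?_, xModel P (hH S P)⟩
  refine exists_bExt (fineAll P (hH S P)) (xModel P (hH S P)).C_dist hAf fun a ha => ?_
  have h1 : a ∈ R.π.ker := by
    rw [← hcl]; exact Subgroup.subset_closure ha
  rw [MonoidHom.mem_ker] at h1
  funext i
  simp [hgtR, FinPath.hgt, h1]

theorem subConj (hN : ModelSub.ExistsNil) (P : Pre R S) : SubConj P :=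
  ModelSub.sub_conj_of P.big P.hχ fun _ hb => ModelSub.jn hN P.𝒞 hb

theorem hasModel_of_nil (hN : ModelSub.ExistsNil) (R : RootData Γ) : Asm3.HasModel Γ R :=
  hasModel_of R fun _ P => subConj hN P

theorem existsNil : ModelSub.ExistsNil := fun _ W hbr hnil u hu h1 _ =>
  Sub.exists_nil W hbr hnil u hu h1

/-- **THE REAL MODEL EXISTS** -/
theorem hasModel (R : RootData Γ) : Asm3.HasModel Γ R := hasModel_of_nil existsNil R

end Crest.Agent.R182.ModelAsm
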