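/-
R182, block (CNT), part 3: the lattice `N` in `N_ℝ`: Haar measure, packing, covering, conjugation by
`ρ(Γ)` preserves the volume.
-/
import Mathlib
import Crest.Agent.R182.ModelHaar

set_option autoImplicit false
set_option linter.unusedSectionVars false

namespace Crest.Agent.R182.ModelCount

open MvPolynomial MeasureTheory Crest.Agent.R182.Polyc
open scoped Pointwise ENNReal

namespace PolyCoord

variable {σ : Type*} [Fintype σ] [DecidableEq σ] {G : Type*} [Group G] (P : PolyCoord σ G)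

/-- the box of coordinate radius `R` -/
def cball (R : ℝ) : Set G := {g | ∀ i, |P.c g i| ≤ R}

theorem preimage_cball (R : ℝ) : P.E ⁻¹' (P.cball R) = Set.Icc (fun _ => -R) (fun _ => R) := by
  ext x
  simp only [cball, Set.mem_preimage, Set.mem_setOf_eq, P.cE, Set.mem_Icc, Pi.le_def, abs_le]
  exact ⟨fun h => ⟨fun i => (h i).1, fun i => (h i).2⟩, fun h i => ⟨h.1 i, h.2 i⟩⟩

theorem measurable_cball (R : ℝ) : MeasurableSet (P.E ⁻¹' (P.cball R)) := by
  rw [preimage_cball]; exact measurableSet_Icc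

theorem vol_cball (R : ℝ) (hR : 0 ≤ R) :
    P.vol (P.cball R) = ENNReal.ofReal ((2 * R) ^ Fintype.card σ) := by
  rw [vol, preimage_cball, Real.volume_Icc_pi]
  simp only [sub_neg_eq_add, Finset.prod_const, Finset.card_univ]
  rw [← ENNReal.ofReal_pow (by positivity)]
  congr 2; ring

theorem vol_cball_lt_top (R : ℝ) : P.vol (P.cball R) < ⊤ := by
  rw [vol, preimage_cball]
  exact isCompact_Icc.measure_lt_top

theorem vol_cball_pos {R : ℝ} (hR : 0 < R) : 0 < P.vol (P.cball R) := by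
  rw [P.vol_cball R hR.le, ENNReal.ofReal_pos]; positivity

/-- a discrete family of translations: packing sets have smaller volume than covering sets -/
theorem vol_le_of_lattice {Λ : Subgroup G} [Countable Λ] {U D : Set G}
    (hU : MeasurableSet (P.E ⁻¹' U)) (hD : MeasurableSet (P.E ⁻¹' D))
    (hpack : ∀ u ∈ U, ∀ u' ∈ U, ∀ ν ∈ Λ, u * ν = u' → ν = 1)
    (hcov : ∀ g : G, ∃ d ∈ D, ∃ ν ∈ Λ, g = d * ν) : P.vol U ≤ P.vol D := by
  have hDν : ∀ ν : Λ, MeasurableSet (P.E ⁻¹' ((fun x => x * (ν : G)) '' D)) := fun ν =>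
    P.measurable_mul_right _ hD
  -- U is the union of the pieces `U ∩ D ν`
  have h1 : P.vol U ≤ ∑' ν : Λ, P.vol (U ∩ (fun x => x * (ν : G)) '' D) := by
    have : P.E ⁻¹' U ⊆ ⋃ ν : Λ, P.E ⁻¹' (U ∩ (fun x => x * (ν : G)) '' D) := by
      intro x hx
      obtain ⟨d, hd, ν, hν, h⟩ := hcov (P.E x)
      exact Set.mem_iUnion.mpr ⟨⟨ν, hν⟩, hx, d, hd, h.symm⟩
    exact (measure_mono this).trans (measure_iUnion_le _)
  -- translate the pieces into `D`
  have h2 : ∀ ν : Λ, P.vol (U ∩ (fun x => x * (ν : G)) '' D) =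
      P.vol ((fun x => x * (ν : G)⁻¹) '' (U ∩ (fun x => x * (ν : G)) '' D)) := by
    intro ν
    rw [P.vol_mul_right]
    rw [Set.preimage_inter]
    exact hU.inter (hDν ν)
  have h3 : ∑' ν : Λ, P.vol (U ∩ (fun x => x * (ν : G)) '' D) =
      volume (⋃ ν : Λ, P.E ⁻¹' ((fun x => x * (ν : G)⁻¹) '' (U ∩ (fun x => x * (ν : G)) '' D))) := by
    rw [measure_iUnion]
    · exact tsum_congr h2
    · intro ν ν' hne
      rw [Function.onFun, Set.disjoint_left]
      rintro x ⟨u, ⟨hu, -⟩, hx⟩ ⟨u', ⟨hu', -⟩, hx'⟩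
      apply hne
      have h4 : u * ((ν : G)⁻¹ * ν') = u' := by
        have : u * (ν : G)⁻¹ = u' * (ν' : G)⁻¹ := hx.trans hx'.symm
        rw [← mul_assoc, this, inv_mul_cancel_right]
      have h5 := hpack u hu u' hu' _ (Λ.mul_mem (Λ.inv_mem ν.2) ν'.2) h4
      exact Subtype.ext (inv_mul_eq_one.mp h5)
    · intro ν
      refine P.measurable_mul_right _ ?_
      rw [Set.preimage_inter]
      exact hU.inter (hDν ν)
  refine h1.trans ?_
  rw [h3]
  refine measure_mono ?_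
  refine Set.iUnion_subset fun ν => ?_
  rintro x ⟨u, ⟨-, d, hd, h⟩, hx⟩
  change P.E x ∈ D
  rw [← hx, ← h]
  simpa using hd

/-- counting lattice points from above -/
theorem card_lattice_le {Λ : Subgroup G} {U B T : Set G} (hU : MeasurableSet (P.E ⁻¹' U))
    (hpack : ∀ u ∈ U, ∀ u' ∈ U, ∀ ν ∈ Λ, u * ν = u' → ν = 1) (F : Finset G)
    (hF : ∀ f ∈ F, f ∈ Λ ∧ f ∈ B) (hT : ∀ u ∈ U, ∀ b ∈ B, u * b ∈ T) :
    (F.card : ℝ≥0∞) * P.vol U ≤ P.vol T := by
  refine P.packing_right F hU ?_ fun f hf u hu => hT u hu f (hF f hf).2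
  intro f hf f' hf' hne u hu u' hu' h
  apply hne
  have h1 : u * (f * f'⁻¹) = u' := by
    rw [← mul_assoc, h, mul_inv_cancel_right]
  have h2 := hpack u hu u' hu' _ (Λ.mul_mem (hF f hf).1 (Λ.inv_mem (hF f' hf').1)) h1
  exact mul_inv_eq_one.mp h2

/-- counting lattice points from below -/
theorem vol_le_card_lattice {Λ : Subgroup G} {D B : Set G} (hD : MeasurableSet (P.E ⁻¹' D))
    (hcov : ∀ g : G, ∃ d ∈ D, ∃ ν ∈ Λ, g = d * ν) (F : Finset G)
    (hF : ∀ ν ∈ Λ, ∀ d ∈ D, d * ν ∈ B → ν ∈ F) :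
    P.vol B ≤ (F.card : ℝ≥0∞) * P.vol D := by
  refine P.covering_right F hD fun b hb => ?_
  obtain ⟨d, hd, ν, hν, rfl⟩ := hcov b
  exact ⟨ν, hF ν hν d hd hb, d, hd, rfl⟩

/-- an automorphism preserving a lattice preserves the volume -/
theorem vol_aut_lattice {Λ : Subgroup G} [Countable Λ] {U D : Set G}
    (hU : MeasurableSet (P.E ⁻¹' U)) (hD : MeasurableSet (P.E ⁻¹' D))
    (hpack : ∀ u ∈ U, ∀ u' ∈ U, ∀ ν ∈ Λ, u * ν = u' → ν = 1)
    (hcov : ∀ g : G, ∃ d ∈ D, ∃ ν ∈ Λ, g = d * ν) (hU0 : P.vol U ≠ 0) (hD0 : P.vol D ≠ ⊤)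
    (φ : G ≃* G) (h1 : ∀ i, IsPoly (fun x : σ → ℝ => P.c (φ (P.E x)) i))
    (h2 : ∀ i, IsPoly (fun x : σ → ℝ => P.c (φ.symm (P.E x)) i))
    (hφ : ∀ g, φ g ∈ Λ ↔ g ∈ Λ) {S : Set G} (hS : MeasurableSet (P.E ⁻¹' S)) :
    P.vol (φ '' S) = P.vol S := by
  have key : ∀ ψ : G ≃* G, (∀ i, IsPoly (fun x : σ → ℝ => P.c (ψ (P.E x)) i)) →
      (∀ i, IsPoly (fun x : σ → ℝ => P.c (ψ.symm (P.E x)) i)) → (∀ g, ψ g ∈ Λ ↔ g ∈ Λ) →
      ∀ c : ℝ, 0 < c → (∀ S : Set (σ → ℝ), MeasurableSet S →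
        volume ((fun x => P.c (ψ (P.E x))) '' S) = ENNReal.ofReal c * volume S) → c ≤ 1 := by
    intro ψ g1 g2 gΛ c hc hvol
    by_contra hlt
    rw [not_le] at hlt
    -- iterate
    have himg : ∀ T : Set G, P.E ⁻¹' (ψ '' T) = (fun x => P.c (ψ (P.E x))) '' (P.E ⁻¹' T) := by
      intro T
      ext x
      constructor
      · rintro ⟨s, hs, hx⟩
        refine ⟨P.c s, by simpa [P.Ec] using hs, ?_⟩
        simp only [P.Ec, hx, P.cE]
      · rintro ⟨y, hy, rfl⟩
        exact ⟨P.E y, hy, by simp only [P.Ec]⟩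
    have hmeas : ∀ T : Set G, MeasurableSet (P.E ⁻¹' T) → MeasurableSet (P.E ⁻¹' (ψ '' T)) := by
      intro T hT
      have hc' : Continuous (fun x => P.c (ψ.symm (P.E x))) :=
        continuous_pi fun i => (g2 i).continuous
      have : P.E ⁻¹' (ψ '' T) = (fun x => P.c (ψ.symm (P.E x))) ⁻¹' (P.E ⁻¹' T) := by
        ext x
        simp only [Set.mem_preimage, Set.mem_image, P.Ec]
        constructor
        · rintro ⟨s, hs, hx⟩
          rw [← hx]; simpa using hs
        · intro h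
          exact ⟨_, h, by simp⟩
      rw [this]
      exact hc'.measurable hT
    have hit : ∀ k : ℕ, ∃ T : Set G, MeasurableSet (P.E ⁻¹' T) ∧
        (∀ u ∈ T, ∀ u' ∈ T, ∀ ν ∈ Λ, u * ν = u' → ν = 1) ∧
        P.vol T = ENNReal.ofReal (c ^ k) * P.vol U := by
      intro k
      induction k with
      | zero => exact ⟨U, hU, hpack, by simp⟩
      | succ k ih =>
        obtain ⟨T, hT, hTp, hTv⟩ := ih
        refine ⟨ψ '' T, hmeas T hT, ?_, ?_⟩
        · rintro _ ⟨u, hu, rfl⟩ _ ⟨u', hu', rfl⟩ ν hν h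
          have h3 : u * ψ.symm ν = u' := by
            apply ψ.injective
            rw [map_mul, MulEquiv.apply_symm_apply, h]
          have h4 := hTp u hu u' hu' (ψ.symm ν) ((gΛ _).mp (by simpa using hν)) h3
          have : ν = ψ 1 := by rw [← h4, MulEquiv.apply_symm_apply]
          simpa using this
        · rw [vol, himg, hvol _ hT]
          change _ * P.vol T = _
          rw [hTv, ← mul_assoc, ← ENNReal.ofReal_mul hc.le, pow_succ']
    have hle : ∀ k : ℕ, ENNReal.ofReal (c ^ k) * P.vol U ≤ P.vol D := by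
      intro k
      obtain ⟨T, hT, hTp, hTv⟩ := hit k
      rw [← hTv]
      exact P.vol_le_of_lattice hT hD hTp hcov
    have hUt : P.vol U ≠ ⊤ := by
      have := hle 0
      simp only [pow_zero, ENNReal.ofReal_one, one_mul] at this
      exact ne_top_of_le_ne_top hD0 this
    have h5 : ∀ k : ℕ, c ^ k * (P.vol U).toReal ≤ (P.vol D).toReal := by
      intro k
      have := ENNReal.toReal_mono hD0 (hle k)
      rwa [ENNReal.toReal_mul, ENNReal.toReal_ofReal (by positivity)] at this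
    have hUp : 0 < (P.vol U).toReal := ENNReal.toReal_pos hU0 hUt
    obtain ⟨k, hk⟩ := pow_unbounded_of_one_lt ((P.vol D).toReal / (P.vol U).toReal) hlt
    have h6 := h5 k
    rw [div_lt_iff₀ hUp] at hk
    linarith
  obtain ⟨c, hc, hvol⟩ := P.exists_volume_aut φ h1 h2
  obtain ⟨c', hc', hvol'⟩ := P.exists_volume_aut φ.symm h2 (by simpa using h1)
  have hc1 := key φ h1 h2 hφ c hc hvol
  have hc'1 := key φ.symm h2 (by simpa using h1) (fun g => by rw [← hφ]; simp) c' hc' hvol'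
  -- c c' = 1
  have hcc : c * c' = 1 := by
    have h3 := hvol (P.E ⁻¹' U) hU
    have hm : MeasurableSet ((fun x => P.c (φ (P.E x))) '' (P.E ⁻¹' U)) := by
      have hcont : Continuous (fun x => P.c (φ.symm (P.E x))) :=
        continuous_pi fun i => (h2 i).continuous
      have : (fun x => P.c (φ (P.E x))) '' (P.E ⁻¹' U) =
          (fun x => P.c (φ.symm (P.E x))) ⁻¹' (P.E ⁻¹' U) := by
        ext x
        constructor
        · rintro ⟨y, hy, rfl⟩
          simpa [P.Ec, P.cE] using hy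
        · intro h
          exact ⟨_, h, by simp [P.Ec, P.cE]⟩
      rw [this]
      exact hcont.measurable hU
    have h4 := hvol' _ hm
    have h5 : (fun x => P.c (φ.symm (P.E x))) '' ((fun x => P.c (φ (P.E x))) '' (P.E ⁻¹' U)) =
        P.E ⁻¹' U := by
      rw [Set.image_image]
      simp [P.Ec, P.cE]
    rw [h5, h3, ← mul_assoc, ← ENNReal.ofReal_mul hc'.le] at h4
    have hUt : P.vol U ≠ ⊤ :=
      ne_top_of_le_ne_top hD0 (P.vol_le_of_lattice hU hD hpack hcov)
    have h6 := congrArg ENNReal.toReal h4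
    change (P.vol U).toReal = (_ * P.vol U).toReal at h6
    rw [ENNReal.toReal_mul, ENNReal.toReal_ofReal (by positivity)] at h6
    have hUp : 0 < (P.vol U).toReal := ENNReal.toReal_pos hU0 hUt
    have : (c' * c - 1) * (P.vol U).toReal = 0 := by linarith
    rcases mul_eq_zero.mp this with h | h
    · linarith [mul_comm c c']
    · linarith
  have hc1' : c = 1 := by nlinarith
  have : P.E ⁻¹' (φ '' S) = (fun x => P.c (φ (P.E x))) '' (P.E ⁻¹' S) := by
    ext x
    constructor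
    · rintro ⟨s, hs, hx⟩
      refine ⟨P.c s, by simpa [P.Ec] using hs, ?_⟩
      simp only [P.Ec, hx, P.cE]
    · rintro ⟨y, hy, rfl⟩
      exact ⟨P.E y, hy, by simp only [P.Ec]⟩
  rw [vol, this, hvol _ hS, hc1', ENNReal.ofReal_one, one_mul, vol]

end PolyCoord

end Crest.Agent.R182.ModelCount
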