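/-
R182, block (CNT), part 4: `N_ℝ` with its Mal'cev coordinates: Haar measure, lattice point counting.
-/
import Mathlib
import Crest.Agent.R182.ModelLat

set_option autoImplicit false
set_option linter.unusedSectionVars false

namespace Crest.Agent.R182.ModelCount

open MeasureTheory Crest.Agent.R182.Polyc
open scoped ENNReal

variable {Γ : Type*} [Group Γ] {N : Subgroup Γ} (D : EmbData Γ N)

/-- polynomial coordinates of `N_ℝ` -/
noncomputable def PC : PolyCoord (Fin D.r) D.NR where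
  E x := ⟨D.Eu x, D.Eu_mem x⟩
  c g := D.crd g
  cE x := D.crd_Eu x
  Ec g := Subtype.ext (D.mem_NR.mp g.2)
  mul i := by
    have h := D.isPoly_crd (IsPolyU.mul
      (D.isPolyU_Eu.comp (g := fun (z : Fin D.r ⊕ Fin D.r → ℝ) a => z (Sum.inl a))
        fun a => IsPoly.coord _)
      (D.isPolyU_Eu.comp (g := fun (z : Fin D.r ⊕ Fin D.r → ℝ) a => z (Sum.inr a))
        fun a => IsPoly.coord _)) i
    exact h
  inv i := D.isPoly_crd D.isPolyU_Eu.inv i

/-- the lattice -/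
noncomputable def Lat : Subgroup D.NR := (N.map D.ρu).subgroupOf D.NR

theorem mem_Lat {g : D.NR} : g ∈ Lat D ↔ ∃ ν ∈ N, D.ρu ν = g := by
  rw [Lat, Subgroup.mem_subgroupOf, Subgroup.mem_map]

theorem mem_Lat_iff {g : D.NR} : g ∈ Lat D ↔ ∃ e : Fin D.r → ℤ, (PC D).c g = fun i => (e i : ℝ) := by
  rw [mem_Lat]
  constructor
  · rintro ⟨ν, hν, h⟩
    refine ⟨fun i => D.coord i (D.ρ ν), ?_⟩
    funext i
    change D.crd g i = _
    rw [← h, D.crd_ρu]
  · rintro ⟨e, he⟩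
    refine ⟨prodE D.a e, D.prodE_mem e, ?_⟩
    rw [← D.Eu_int]
    have := (PC D).Ec g
    have h2 := congrArg Subtype.val this
    rw [he] at h2
    exact h2

instance : Countable (Lat D) := by
  have hinj : Function.Injective (fun g : Lat D =>
      Classical.choose ((mem_Lat_iff D).mp g.2)) := by
    intro g h hgh
    have h1 := Classical.choose_spec ((mem_Lat_iff D).mp g.2)
    have h2 := Classical.choose_spec ((mem_Lat_iff D).mp h.2)
    simp only at hgh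
    rw [← hgh, ← h1] at h2
    apply Subtype.ext
    rw [← (PC D).Ec (g : D.NR), ← h2, (PC D).Ec]
  exact hinj.countable

/-- covering set -/
theorem exists_cover : ∃ R : ℝ, 0 < R ∧ ∀ g : D.NR, ∃ d ∈ (PC D).cball R, ∃ ν ∈ Lat D, g = d * ν := by
  have hcpt : IsCompact (Set.Icc (0 : Fin D.r → ℝ) 1) := isCompact_Icc
  have hb : ∀ i, ∃ C : ℝ, ∀ s ∈ Set.Icc (0 : Fin D.r → ℝ) 1, |D.crd (D.Qd D.r s) i| ≤ C := by
    intro i
    obtain ⟨C, hC⟩ := hcpt.exists_bound_of_continuousOn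
      (D.isPoly_crd (D.isPolyU_Qd D.r) i).continuous.continuousOn
    exact ⟨C, fun s hs => hC s hs⟩
  choose C hC using hb
  refine ⟨∑ i, |C i| + 1, by positivity, fun g => ?_⟩
  obtain ⟨s, hs, ν, hν, h⟩ := D.exists_Qd D.r le_rfl (D.crd g)
    (fun i hi => absurd i.2 (not_lt.mpr hi))
  rw [D.mem_NR.mp g.2] at h
  have hνR : D.ρu ν ∈ D.NR := (D.ρu_mem_NR_iff ν).mpr hν
  refine ⟨g * (⟨D.ρu ν, hνR⟩ : D.NR)⁻¹, ?_, ⟨D.ρu ν, hνR⟩, (mem_Lat D).mpr ⟨ν, hν, rfl⟩, by simp⟩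
  intro i
  have e : ((g * (⟨D.ρu ν, hνR⟩ : D.NR)⁻¹ : D.NR) : (Matrix (Fin D.n) (Fin D.n) ℝ)ˣ) =
      D.Qd D.r s := by
    rw [Subgroup.coe_mul, Subgroup.coe_inv, h]; group
  change |D.crd ((g * (⟨D.ρu ν, hνR⟩ : D.NR)⁻¹ : D.NR) : (Matrix (Fin D.n) (Fin D.n) ℝ)ˣ) i| ≤ _
  rw [e]
  refine (hC i s ⟨fun i => (hs i).1, fun i => (hs i).2⟩).trans ?_
  have h1 : |C i| ≤ ∑ i, |C i| :=
    Finset.single_le_sum (f := fun i => |C i|) (fun i _ => abs_nonneg _) (Finset.mem_univ i)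
  linarith [le_abs_self (C i)]

/-- packing set -/
theorem exists_pack : ∃ δ : ℝ, 0 < δ ∧ ∀ u ∈ (PC D).cball δ, ∀ u' ∈ (PC D).cball δ, ∀ ν ∈ Lat D,
    u * ν = u' → ν = 1 := by
  -- coordinates of `(E x)⁻¹ * E y`
  let F : (Fin D.r ⊕ Fin D.r → ℝ) → (Fin D.r → ℝ) := fun z i =>
    D.crd ((D.Eu (fun a => z (Sum.inl a)))⁻¹ * D.Eu (fun a => z (Sum.inr a))) i
  have hF : Continuous F := by
    refine continuous_pi fun i => ?_
    exact (D.isPoly_crd (IsPolyU.mul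
      (D.isPolyU_Eu.comp (g := fun (z : Fin D.r ⊕ Fin D.r → ℝ) a => z (Sum.inl a))
        fun a => IsPoly.coord _).inv
      (D.isPolyU_Eu.comp (g := fun (z : Fin D.r ⊕ Fin D.r → ℝ) a => z (Sum.inr a))
        fun a => IsPoly.coord _)) i).continuous
  have hF0 : F 0 = 0 := by
    funext i
    have h1 : (fun a => (0 : Fin D.r ⊕ Fin D.r → ℝ) (Sum.inl a)) = (0 : Fin D.r → ℝ) := rfl
    have h2 : (fun a => (0 : Fin D.r ⊕ Fin D.r → ℝ) (Sum.inr a)) = (0 : Fin D.r → ℝ) := rfl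
    change D.crd _ i = 0
    rw [h1, h2, inv_mul_cancel, ← D.Eu_zero, D.crd_Eu]
    rfl
  obtain ⟨δ, hδ, hball⟩ := Metric.continuous_iff.mp hF 0 1 one_pos
  refine ⟨δ / 2, by positivity, ?_⟩
  intro u hu u' hu' ν hν h
  obtain ⟨e, he⟩ := (mem_Lat_iff D).mp hν
  have h1 : ν = u⁻¹ * u' := by rw [← h]; group
  let z : Fin D.r ⊕ Fin D.r → ℝ := Sum.elim ((PC D).c u) ((PC D).c u')
  have hz : dist z 0 < δ := by
    rw [dist_pi_lt_iff hδ]
    intro i
    rcases i with i | i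
    · simp only [z, Sum.elim_inl, Pi.zero_apply, Real.dist_eq, sub_zero]
      have := hu i
      linarith
    · simp only [z, Sum.elim_inr, Pi.zero_apply, Real.dist_eq, sub_zero]
      have := hu' i
      linarith
  have h2 := hball z hz
  rw [hF0, dist_pi_lt_iff one_pos] at h2
  have h3 : ∀ i, F z i = (e i : ℝ) := by
    intro i
    have h4 : (PC D).c ν i = (e i : ℝ) := congrFun he i
    rw [← h4]
    change D.crd ((D.Eu ((PC D).c u))⁻¹ * D.Eu ((PC D).c u')) i = D.crd (ν : (Matrix _ _ ℝ)ˣ) i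
    have h5 : D.Eu ((PC D).c u) = u := D.mem_NR.mp u.2
    have h6 : D.Eu ((PC D).c u') = u' := D.mem_NR.mp u'.2
    rw [h5, h6, h1]
    rfl
  have h4 : ∀ i, e i = 0 := by
    intro i
    have := h2 i
    rw [h3, Pi.zero_apply, Real.dist_eq, sub_zero, ← Int.cast_abs] at this
    have h5 : |e i| < 1 := by exact_mod_cast this
    exact Int.abs_lt_one_iff.mp h5
  have h5 : (PC D).c ν = 0 := by
    rw [he]; funext i; simp [h4 i]
  rw [← (PC D).Ec ν, h5]
  apply Subtype.ext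
  exact D.Eu_zero

/-- conjugation by `γ ∈ Γ` on `N_ℝ` -/
noncomputable def conjR [N.Normal] (γ : Γ) : D.NR ≃* D.NR where
  toFun g := ⟨D.ρu γ * g * (D.ρu γ)⁻¹, D.conj_mem_NR γ g.2⟩
  invFun g := ⟨(D.ρu γ)⁻¹ * g * D.ρu γ, by
    have := D.conj_mem_NR γ⁻¹ g.2
    simpa using this⟩
  left_inv g := by apply Subtype.ext; simp [mul_assoc]
  right_inv g := by apply Subtype.ext; simp [mul_assoc]
  map_mul' g h := by apply Subtype.ext; simp [mul_assoc]

theorem conjR_mem_Lat [hN : N.Normal] (γ : Γ) (g : D.NR) : conjR D γ g ∈ Lat D ↔ g ∈ Lat D := by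
  rw [mem_Lat, mem_Lat]
  constructor
  · rintro ⟨ν, hν, h⟩
    refine ⟨γ⁻¹ * ν * γ, ?_, ?_⟩
    · have := hN.conj_mem ν hν γ⁻¹
      simpa using this
    · rw [map_mul, map_mul, map_inv, h]
      simp [conjR, mul_assoc]
  · rintro ⟨ν, hν, h⟩
    refine ⟨γ * ν * γ⁻¹, hN.conj_mem ν hν γ, ?_⟩
    rw [map_mul, map_mul, map_inv, h]
    rfl

/-- **Conjugation by `Γ` preserves the volume of `N_ℝ`.** -/
theorem vol_conj [N.Normal] (γ : Γ) {S : Set D.NR} (hS : MeasurableSet ((PC D).E ⁻¹' S)) :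
    (PC D).vol (conjR D γ '' S) = (PC D).vol S := by
  obtain ⟨R, hR, hcov⟩ := exists_cover D
  obtain ⟨δ, hδ, hpack⟩ := exists_pack D
  refine (PC D).vol_aut_lattice ((PC D).measurable_cball δ) ((PC D).measurable_cball R) hpack hcov
    ((PC D).vol_cball_pos hδ).ne' ((PC D).vol_cball_lt_top R).ne (conjR D γ) ?_ ?_
    (conjR_mem_Lat D γ) hS
  · intro i
    exact D.isPoly_crd (((IsPolyU.const _).mul D.isPolyU_Eu).mul (IsPolyU.const _)) i
  · intro i
    exact D.isPoly_crd (((IsPolyU.const _).mul D.isPolyU_Eu).mul (IsPolyU.const _)) i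

/-- **Counting from above**: lattice points in `B` are at most `C · vol (cball δ · B)`. -/
theorem exists_card_le : ∃ δ : ℝ, 0 < δ ∧ ∃ C : ℝ≥0∞, C ≠ ⊤ ∧ ∀ (B T : Set D.NR) (F : Finset Γ),
    (∀ f ∈ F, f ∈ N ∧ ∃ b ∈ B, D.ρu f = b) →
    (∀ u ∈ (PC D).cball δ, ∀ b ∈ B, u * b ∈ T) → (F.card : ℝ≥0∞) ≤ C * (PC D).vol T := by
  classical
  obtain ⟨δ, hδ, hpack⟩ := exists_pack D
  refine ⟨δ, hδ, ((PC D).vol ((PC D).cball δ))⁻¹, ?_, ?_⟩
  · rw [Ne, ENNReal.inv_eq_top]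
    exact ((PC D).vol_cball_pos hδ).ne'
  · intro B T F hF hT
    let F' : Finset D.NR := F.attach.image fun f => ⟨D.ρu f.1,
      (D.ρu_mem_NR_iff f.1).mpr (hF f.1 f.2).1⟩
    have hcard : F'.card = F.card := by
      rw [Finset.card_image_of_injective, Finset.card_attach]
      intro f f' h
      apply Subtype.ext
      apply D.ρu_injective
      exact congrArg Subtype.val h
    have h1 := (PC D).card_lattice_le ((PC D).measurable_cball δ) hpack F' (B := B) (T := T) ?_ hT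
    · rw [hcard] at h1
      rw [mul_comm, ← div_eq_mul_inv]
      rw [ENNReal.le_div_iff_mul_le]
      · exact h1
      · left; exact ((PC D).vol_cball_pos hδ).ne'
      · left; exact ((PC D).vol_cball_lt_top δ).ne
    · intro g hg
      obtain ⟨f, -, rfl⟩ := Finset.mem_image.mp hg
      refine ⟨(mem_Lat D).mpr ⟨f.1, (hF f.1 f.2).1, rfl⟩, ?_⟩
      obtain ⟨b, hb, h⟩ := (hF f.1 f.2).2
      have : (⟨D.ρu f.1, (D.ρu_mem_NR_iff f.1).mpr (hF f.1 f.2).1⟩ : D.NR) = b := Subtype.ext h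
      rw [this]; exact hb

/-- **Counting from below**: `vol B ≤ C · #(N ∩ (cball R)⁻¹ B)`. -/
theorem exists_vol_le : ∃ R : ℝ, 0 < R ∧ ∃ C : ℝ≥0∞, C ≠ ⊤ ∧ ∀ (B : Set D.NR) (F : Finset Γ),
    (∀ ν ∈ N, ∀ d ∈ (PC D).cball R, (∃ b ∈ B, (d : (Matrix (Fin D.n) (Fin D.n) ℝ)ˣ) * D.ρu ν = b) →
      ν ∈ F) → (PC D).vol B ≤ C * F.card := by
  classical
  obtain ⟨R, hR, hcov⟩ := exists_cover D
  refine ⟨R, hR, (PC D).vol ((PC D).cball R), ((PC D).vol_cball_lt_top R).ne, ?_⟩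
  intro B F hF
  let F' : Finset D.NR := (F.filter fun f => f ∈ N).attach.image fun f => ⟨D.ρu f.1,
    (D.ρu_mem_NR_iff f.1).mpr (Finset.mem_filter.mp f.2).2⟩
  have hcard : F'.card ≤ F.card := by
    refine Finset.card_image_le.trans ?_
    rw [Finset.card_attach]
    exact Finset.card_filter_le _ _
  have h1 := (PC D).vol_le_card_lattice (B := B) ((PC D).measurable_cball R) hcov F' ?_
  · rw [mul_comm]
    refine h1.trans ?_
    gcongr
  · intro ν hν d hd hdν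
    obtain ⟨n, hn, h⟩ := (mem_Lat D).mp hν
    have hnF : n ∈ F := by
      refine hF n hn d hd ⟨d * ν, hdν, ?_⟩
      rw [h]; rfl
    refine Finset.mem_image.mpr ⟨⟨n, Finset.mem_filter.mpr ⟨hnF, hn⟩⟩, Finset.mem_attach _ _, ?_⟩
    exact Subtype.ext h

end Crest.Agent.R182.ModelCount
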