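/-
R182, module SLOW (helper449), part 1: the Mal'cev completion of a finitely generated torsion-free
nilpotent group; dictionary between words and the Lie algebra.
-/
import Mathlib
import Crest.Agent.R182.PolycEmbInt
import Crest.Agent.R182.PolycCZ
import Crest.Agent.R182.BoxBCH
import Crest.Agent.R182.BoxFam
import Crest.Agent.R182.ModelInst2

set_option autoImplicit false
set_option linter.unusedSectionVars false

namespace Crest.Agent.R182.Slow

open Polyc PolycEmb Model Nb Crest.GroupTheory Crest.Geometry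

section pz

variable {G : Type*} [Group G]

theorem pz_of_cz {N : Subgroup G} (h : CZ N) : PZ N := by
  induction h with
  | bot => exact PZ.bot
  | @step N M hN hle g hM hcent hfree ih =>
    refine PZ.step ih hle (fun h _ x hx => hN.normal.conj_mem x hx h) g ?_ hM hfree
    rw [hM]; exact Subgroup.mem_sup_right (Subgroup.mem_zpowers g)

theorem cz_top_of_tf [Group.FG G] [Group.IsNilpotent G]
    (htf : ∀ (x : G) (j : ℤ), j ≠ 0 → x ^ j = 1 → x = 1) : CZ (⊤ : Subgroup G) := by
  have hpc : PC (⊤ : Subgroup G) := isPolycyclic_iff.mp isPolycyclic_of_nilpotent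
  have key : ∀ i, CZ (Subgroup.upperCentralSeries G i) := by
    intro i
    induction i with
    | zero => rw [Subgroup.upperCentralSeries_zero]; exact CZ.bot
    | succ i ih =>
      refine ih.extend (Subgroup.upperCentralSeries_mono G (Nat.le_succ i)) ?_ ?_
        (ucs_torsionFree htf i)
      · exact (hpc.mono le_top).fg
      · intro x hx h
        have h1 := (Subgroup.mem_upperCentralSeries_succ_iff).1 (Subgroup.inv_mem _ hx) h
        rw [commutatorElement_def] at h1
        have h2 := (inferInstance : (Subgroup.upperCentralSeries G i).Normal).conj_mem _ h1 x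
        have h3 : x * (x⁻¹ * h * x⁻¹⁻¹ * h⁻¹) * x⁻¹ = h * x * h⁻¹ * x⁻¹ := by group
        rwa [h3] at h2
  obtain ⟨c, hc⟩ := Group.IsNilpotent.nilpotent G
  rw [← hc]; exact key c

/-- Mal'cev embedding of a finitely generated torsion-free nilpotent group -/
theorem exists_embTop [Group.FG G] [Group.IsNilpotent G]
    (htf : ∀ (x : G) (j : ℤ), j ≠ 0 → x ^ j = 1 → x = 1) :
    Nonempty (EmbData G (⊤ : Subgroup G)) := by
  have hnil : Group.IsNilpotent (⊤ : Subgroup G) := Group.isNilpotent_top.mpr inferInstance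
  refine exists_embData (k := 0) (N := (⊤ : Subgroup G)) inferInstance hnil
    (pz_of_cz (cz_top_of_tf htf)) (1 : G →* Multiplicative (Fin 0 → ℤ)) ?_ ?_
  · intro v
    exact ⟨1, Subsingleton.elim _ _⟩
  · intro g
    exact ⟨fun _ => trivial, fun _ => rfl⟩

end pz

/-! ### the dictionary -/

section dict

variable {Γ : Type*} [Group Γ] {N : Subgroup Γ} [N.Normal] (D : EmbData Γ N)

/-- the exponential of an element of `𝔫` in `G1` -/
noncomputable def exA (x : lieA D) : G1 D :=
  exG D (x : Matrix (Fin D.n) (Fin D.n) ℝ) x.2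

theorem exA_op (x y : lieA D) : exA D ((starA D).op x y) = exA D x * exA D y := by
  apply Subtype.ext
  apply Units.ext
  exact ex_opA D x y

theorem exA_zero : exA D 0 = 1 := by
  apply Subtype.ext
  apply Units.ext
  exact ex_zero

theorem exA_injective : Function.Injective (exA D) := by
  intro x y h
  refine ex_injA D ?_
  exact congrArg (fun g : G1 D => ((g : (Matrix (Fin D.n) (Fin D.n) ℝ)ˣ) :
    Matrix (Fin D.n) (Fin D.n) ℝ)) h

theorem exA_prod (l : List (lieA D)) : exA D ((starA D).prod l) = (l.map (exA D)).prod := by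
  induction l with
  | nil => rw [Star.prod_nil, exA_zero]; rfl
  | cons x l ih => rw [Star.prod_cons, exA_op, ih, List.map_cons, List.prod_cons]

theorem exA_neg (x : lieA D) : exA D (-x) = (exA D x)⁻¹ := by
  rw [eq_inv_iff_mul_eq_one, ← exA_op]
  have h := (starA D).neg_op x
  rw [h, exA_zero]

theorem exA_smul (x : lieA D) (m : ℕ) : exA D ((m : ℝ) • x) = exA D x ^ m :=
  exG_pow x.2 m

end dict

section top

variable {Γ : Type*} [Group Γ] (D : EmbData Γ (⊤ : Subgroup Γ))

/-- the logarithm of an element of the lattice -/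
noncomputable def lgT (γ : Γ) : lieA D :=
  ⟨lg (D.ρu γ : Matrix (Fin D.n) (Fin D.n) ℝ),
    lg_mem_lie D ((D.ρu_mem_NR_iff γ).mpr (Subgroup.mem_top γ))⟩

theorem exA_lgT (γ : Γ) : exA D (lgT D γ) = inΓ D γ :=
  exG_lg (D := D) (u := inΓ D γ) ((inΓ_mem_NR1 D γ).mpr (Subgroup.mem_top γ))

theorem lgT_mul (γ γ' : Γ) : lgT D (γ * γ') = (starA D).op (lgT D γ) (lgT D γ') := by
  apply exA_injective
  rw [exA_op, exA_lgT, exA_lgT, exA_lgT, map_mul]

theorem lgT_one : lgT D 1 = 0 := by
  apply exA_injective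
  rw [exA_lgT, map_one, exA_zero]

theorem lgT_inv (γ : Γ) : lgT D γ⁻¹ = -lgT D γ := by
  apply exA_injective
  rw [exA_lgT, exA_neg, exA_lgT, map_inv]

theorem lgT_pow (γ : Γ) (m : ℕ) : lgT D (γ ^ m) = (m : ℝ) • lgT D γ := by
  apply exA_injective
  rw [exA_lgT, exA_smul, exA_lgT, map_pow]

theorem lgT_prod (l : List Γ) : lgT D l.prod = (starA D).prod (l.map (lgT D)) := by
  induction l with
  | nil => rw [List.prod_nil, lgT_one]; rfl
  | cons x l ih => rw [List.prod_cons, lgT_mul, ih, List.map_cons, Star.prod_cons]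

end top

/-! ### Guivarc'h's upper bound -/

section gui

variable {Γ : Type*} [Group Γ] {N : Subgroup Γ} [N.Normal] {D : EmbData Γ N} {S : Set Γ} {C : ℝ}

theorem exists_len_box (h : Big D S C) {c : ℕ} (hc : NilC c (lieA D)) {σ : Type*} [Fintype σ]
    (g : σ → lieA D) : ∃ K : ℝ, 0 ≤ K ∧ ∀ R : ℝ, 0 ≤ R → ∀ x ∈ Bx c (fun i => R • g i) 1,
      (len D C (exA D x) : ℝ) ≤ K * (1 + R) := by
  obtain ⟨J, A, hA, hgen⟩ := (starA D).exists_gen (starA_bch D hc) σ 1 zero_le_one
  obtain ⟨K, hK, hlen⟩ := h.len_exG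
  obtain ⟨B, hB0, hB⟩ : ∃ B : ℝ, 0 ≤ B ∧ ∀ i, nrm (g i : Matrix (Fin D.n) (Fin D.n) ℝ) ≤ B := by
    obtain ⟨B, hB⟩ := (Set.finite_range fun i =>
      nrm (g i : Matrix (Fin D.n) (Fin D.n) ℝ)).bddAbove
    exact ⟨max B 0, le_max_right _ _, fun i => (hB ⟨i, rfl⟩).trans (le_max_left _ _)⟩
  refine ⟨J * (K * (1 + A * B)), by positivity, fun R hR x hx => ?_⟩
  obtain ⟨l, hl, hl2, rfl⟩ := hgen _ (hc.nil _) x hx
  rw [exA_prod, List.map_map]
  have key : ∀ l : List (ℝ × σ), (∀ p ∈ l, |p.1| ≤ A) →
      (len D C (l.map (exA D ∘ fun p => p.1 • R • g p.2)).prod : ℝ) ≤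
        l.length * (K * (1 + A * (R * B))) := by
    intro l
    induction l with
    | nil =>
      intro _
      rw [List.map_nil, List.prod_nil, h.len_one]
      simp
    | cons p l ih =>
      intro hp
      rw [List.map_cons, List.prod_cons]
      have h1 := ih fun q hq => hp q (List.mem_cons_of_mem _ hq)
      have h2 := h.len_mul ((exA D ∘ fun p : ℝ × σ => p.1 • R • g p.2) p)
        (l.map (exA D ∘ fun p => p.1 • R • g p.2)).prod
      have h3 : (len D C ((exA D ∘ fun p : ℝ × σ => p.1 • R • g p.2) p) : ℝ) ≤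
          K * (1 + A * (R * B)) := by
        refine (hlen _ (p.1 • R • g p.2 : lieA D).2).trans ?_
        refine mul_le_mul_of_nonneg_left ?_ hK
        have h4 : nrm ((p.1 • R • g p.2 : lieA D) : Matrix (Fin D.n) (Fin D.n) ℝ) =
            |p.1| * (|R| * nrm (g p.2 : Matrix (Fin D.n) (Fin D.n) ℝ)) := by
          rw [← nrm_smul, ← nrm_smul]; rfl
        rw [h4, abs_of_nonneg hR]
        have h5 := hp p List.mem_cons_self
        have h6 := hB p.2
        have h7 := nrm_nonneg (g p.2 : Matrix (Fin D.n) (Fin D.n) ℝ)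
        gcongr
      have h4 : (len D C ((exA D ∘ fun p : ℝ × σ => p.1 • R • g p.2) p *
          (l.map (exA D ∘ fun p => p.1 • R • g p.2)).prod) : ℝ) ≤
          len D C ((exA D ∘ fun p : ℝ × σ => p.1 • R • g p.2) p) +
          len D C (l.map (exA D ∘ fun p => p.1 • R • g p.2)).prod := by exact_mod_cast h2
      rw [List.length_cons]
      push_cast
      linarith
  refine (key l hl2).trans ?_
  have hl' : (l.length : ℝ) ≤ J := by exact_mod_cast hl
  have e1 : 1 + A * (R * B) ≤ (1 + A * B) * (1 + R) := by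
    have : 0 ≤ A * B := by positivity
    nlinarith
  calc (l.length : ℝ) * (K * (1 + A * (R * B))) ≤ J * (K * ((1 + A * B) * (1 + R))) := by
        gcongr
    _ = _ := by ring

end gui

end Crest.Agent.R182.Slow
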