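/-
R182, module SLOW (helper449), part 2: (SLOW) and (POW) for finitely generated torsion-free
nilpotent groups.
-/
import Mathlib
import Crest.Agent.R182.Slow1
import Crest.Agent.R182.StarLeg

set_option autoImplicit false
set_option linter.unusedSectionVars false

namespace Crest.Agent.R182.Slow

open Polyc PolycEmb Model Nb Crest.GroupTheory Crest.Geometry

/-! ### boxes -/

section box

variable {L : Type*} [LieRing L] [LieAlgebra ℝ L] {σ : Type*} [Fintype σ] {c : ℕ} {g : σ → L}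

/-- shrink the coefficients by enlarging the family, layered version -/
theorem Bk_rescale {R R' s : ℝ} (hR : 0 < R) (hRR : R ≤ R') (hs : 0 ≤ s) {x : L}
    (hx : x ∈ Bk 2 c (fun i => R • g i) s) :
    x ∈ Bx c (fun i => R' • g i) (s * (R / R') ^ 2) := by
  obtain ⟨a, ha, hz, rfl⟩ := hx
  have hR' : 0 < R' := hR.trans_le hRR
  have h1 : R / R' ≤ 1 := (div_le_one hR').mpr hRR
  have h0 : 0 ≤ R / R' := by positivity
  refine ⟨fun κ => if κ.length < 2 then 0 else a κ * (R / R') ^ κ.length, fun κ => ?_, ?_⟩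
  · beta_reduce
    split_ifs with h
    · rw [abs_zero]; positivity
    · rw [abs_mul, abs_of_nonneg (pow_nonneg h0 _)]
      refine mul_le_mul (ha κ) ?_ (pow_nonneg h0 _) hs
      exact pow_le_pow_of_le_one h0 h1 (by omega)
  · refine Finset.sum_congr rfl fun κ _ => ?_
    beta_reduce
    split_ifs with h
    · rw [hz κ h]
      simp
    · have e1 : ∀ (r : ℝ), mon (fun i => r • g i) κ = r ^ κ.length • mon g κ := by
        intro r
        rw [mon_smul_fam (fun _ => r) g κ, List.map_const', List.prod_replicate]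
      rw [e1, e1, smul_smul, smul_smul, div_pow]
      congr 1
      field_simp

/-- scaled mixed estimate -/
theorem mixed_scaled {f : (Bool → L) → L} (hf : f ∈ LP Bool L)
    (h0 : ∀ v, v false = 0 → f v = 0) (h1 : ∀ v, v true = 0 → f v = 0)
    (σ : Type*) [Fintype σ] (c : ℕ) (T : ℝ) (hT : 0 ≤ T) :
    ∃ C : ℝ, 0 ≤ C ∧ ∀ (g : σ → L), Nil c g → ∀ x ∈ Bk 1 c g T, ∀ y ∈ Bk 1 c g T,
      ∀ s : ℝ, 0 ≤ s → s ≤ 1 →
      f (fun b => if b = false then s • x else y) ∈ Bk 2 c g (s * C) := by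
  obtain ⟨A, a, hA, ha⟩ := LP.exists_sum_mixed hf h0 h1
  have hC := brC_pos σ c
  refine ⟨∑ κ ∈ A, |a κ| * (brC σ c ^ κ.length * T ^ κ.length),
    Finset.sum_nonneg fun κ _ => by positivity, fun g hN x hx y hy s hs hs1 => ?_⟩
  rw [ha, Finset.mul_sum]
  refine Bk_sum _ _ _ fun κ hκ => ?_
  let v : Bool → L := fun b => if b = false then x else y
  have e1 : (fun b => if b = false then s • x else y : Bool → L) =
      fun b => (if b = false then s else 1 : ℝ) • v b := by
    funext b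
    cases b <;> simp [v]
  rw [e1, mon_smul_fam]
  have h2 := mon_comp_mem_Bk hN (v := v) (m := fun _ => 1) hT
    (fun b => by cases b <;> simpa [v]) κ
  obtain ⟨hf', ht'⟩ := hA κ hκ
  have h3 : 2 ≤ (κ.map fun _ => 1).sum := by
    rw [List.map_const', List.sum_replicate, smul_eq_mul, mul_one]
    by_contra hcon
    have h4 : κ.length = 0 ∨ κ.length = 1 := by omega
    rcases h4 with h4 | h4
    · rw [List.length_eq_zero_iff] at h4
      subst h4; simp at hf'
    · rw [List.length_eq_one_iff] at h4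
      obtain ⟨b, rfl⟩ := h4
      rw [List.mem_singleton] at hf' ht'
      rw [← hf'] at ht'
      exact absurd ht' (by decide)
  have h5 : |(κ.map fun b => (if b = false then s else 1 : ℝ)).prod| ≤ s := by
    have aux : ∀ κ : List Bool, 0 ≤ (κ.map fun b => (if b = false then s else 1 : ℝ)).prod ∧
        (κ.map fun b => (if b = false then s else 1 : ℝ)).prod ≤ 1 ∧
        (false ∈ κ → (κ.map fun b => (if b = false then s else 1 : ℝ)).prod ≤ s) := by
      intro κ
      induction κ with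
      | nil => simp
      | cons b κ ih =>
        obtain ⟨i1, i2, i3⟩ := ih
        rw [List.map_cons, List.prod_cons]
        cases b
        · simp only [if_true]
          refine ⟨mul_nonneg hs i1, by nlinarith, fun _ => by nlinarith⟩
        · simp only [Bool.true_eq_false, if_false, one_mul]
          refine ⟨i1, i2, fun h => i3 (by simpa using h)⟩
    obtain ⟨i1, _, i3⟩ := aux κ
    rw [abs_of_nonneg i1]
    exact i3 hf'
  rw [smul_smul]
  refine Bk_mono h3 ?_ (Bk_smul h2 _)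
  rw [abs_mul]
  have h6 : 0 ≤ brC σ c ^ κ.length * T ^ κ.length := by positivity
  calc |a κ| * |(κ.map fun b => (if b = false then s else 1 : ℝ)).prod| *
      (brC σ c ^ κ.length * T ^ κ.length) ≤ |a κ| * s * (brC σ c ^ κ.length * T ^ κ.length) := by
        gcongr
    _ = s * (|a κ| * (brC σ c ^ κ.length * T ^ κ.length)) := by ring

variable (S : Nb.Star L)

/-- products of many letters: first layer -/
theorem exists_prod_sub_sum (σ : Type*) [Fintype σ] (c : ℕ) (hL : NilC c L) :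
    ∃ C₁ C₂ : ℝ, 1 ≤ C₁ ∧ 0 ≤ C₂ ∧ ∀ g : σ → L, ∀ l : List L,
      (∀ x ∈ l, x ∈ Bk 1 c g 1) → ∀ R : ℝ, C₁ * (l.length + 1) ≤ R →
      S.prod l ∈ Bx c (fun i => R • g i) (2 * l.length / R) ∧
      S.prod l - l.sum ∈ Bk 2 c (fun i => R • g i) (C₂ * (l.length / R)) := by
  obtain ⟨C₁, hC₁, h1⟩ := S.exists_prod_mem σ c hL
  have hf : (fun v : Bool → L => S.op (v false) (v true) - v false - v true) ∈ LP Bool L :=
    Submodule.sub_mem _ (Submodule.sub_mem _ S.lp (LP.proj false)) (LP.proj true)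
  obtain ⟨C₂, hC₂, h2⟩ := mixed_scaled hf (fun v hv => by rw [hv, S.zero_op]; simp)
    (fun v hv => by rw [hv, S.op_zero]; simp) σ c 2 (by norm_num)
  refine ⟨C₁, C₂, hC₁, hC₂, fun g l hl R hR => ?_⟩
  have hR1 : 1 ≤ R := by
    have : (0 : ℝ) ≤ l.length := Nat.cast_nonneg _
    nlinarith
  have hR0 : 0 < R := by linarith
  have hlx : ∀ x ∈ l, x ∈ Bx c g 1 := fun x hx => Bk_subset_Bx (hl x hx)
  refine ⟨h1 g l hlx R hR, ?_⟩
  have key : ∀ l' : List L, (∀ x ∈ l', x ∈ Bk 1 c g 1) → l'.length ≤ l.length →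
      S.prod l' - l'.sum ∈ Bk 2 c (fun i => R • g i) (C₂ * (l'.length / R)) := by
    intro l'
    induction l' with
    | nil =>
      intro _ _
      simpa using Bk_zero_mem (le_refl (0 : ℝ))
    | cons x l' ih =>
      intro hx' hlen
      rw [List.length_cons] at hlen
      have i1 := ih (fun y hy => hx' y (List.mem_cons_of_mem _ hy)) (by omega)
      have i2 := hx' x List.mem_cons_self
      have i3 := h1 g l' (fun y hy => Bk_subset_Bx (hx' y (List.mem_cons_of_mem _ hy))) R (by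
        have : (l'.length : ℝ) ≤ l.length := by exact_mod_cast (by omega : l'.length ≤ l.length)
        nlinarith)
      have i4 : S.prod l' ∈ Bk 1 c (fun i => R • g i) 2 := by
        refine Bk_mono le_rfl ?_ (Bx_subset_Bk (by positivity) i3)
        rw [div_le_iff₀ hR0]
        have h5 : (l'.length : ℝ) + 1 ≤ l.length := by exact_mod_cast hlen
        have h6 : (l.length : ℝ) + 1 ≤ R := by nlinarith
        linarith
      -- the letter
      have i5 : R • x ∈ Bk 1 c (fun i => R • g i) 2 := by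
        obtain ⟨a, ha, hz, rfl⟩ := i2
        refine ⟨fun κ => if κ.length < 1 then 0 else a κ * (R * (R⁻¹) ^ κ.length), fun κ => ?_,
          fun κ hκ => if_pos hκ, ?_⟩
        · beta_reduce
          split_ifs with h
          · simp
          · have e1 : R * (R⁻¹) ^ κ.length ≤ 1 := by
              have e2 : (R⁻¹) ^ κ.length ≤ (R⁻¹) ^ 1 :=
                pow_le_pow_of_le_one (by positivity) (inv_le_one_of_one_le₀ hR1) (by omega)
              calc R * (R⁻¹) ^ κ.length ≤ R * (R⁻¹) ^ 1 := by gcongr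
                _ = 1 := by rw [pow_one, mul_inv_cancel₀ hR0.ne']
            rw [abs_mul, abs_of_nonneg (by positivity : 0 ≤ R * (R⁻¹) ^ κ.length)]
            have := ha κ
            have h0 := abs_nonneg (a κ)
            nlinarith
        · rw [Finset.smul_sum]
          refine Finset.sum_congr rfl fun κ _ => ?_
          beta_reduce
          split_ifs with h
          · rw [hz κ h]; simp
          · rw [mon_smul_fam (fun _ => R) g κ, List.map_const', List.prod_replicate, smul_smul,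
              smul_smul]
            congr 1
            rw [inv_pow]
            field_simp
      have i6 := h2 (fun i => R • g i) ((hL.nil g).smul) (R • x) i5 (S.prod l') i4 R⁻¹
        (by positivity) (inv_le_one_of_one_le₀ hR1)
      have e3 : R⁻¹ • R • x = x := by rw [smul_smul, inv_mul_cancel₀ hR0.ne', one_smul]
      simp only [e3, if_true, Bool.true_eq_false, if_false] at i6
      have e4 : S.prod (x :: l') - (x :: l').sum =
          (S.op x (S.prod l') - x - S.prod l') + (S.prod l' - l'.sum) := by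
        rw [Nb.Star.prod_cons, List.sum_cons]; abel
      rw [e4]
      refine Bk_mono le_rfl ?_ (Bk_add i6 i1)
      rw [List.length_cons]
      push_cast
      have : R⁻¹ * C₂ + C₂ * (l'.length / R) = C₂ * ((l'.length + 1) / R) := by
        field_simp
        ring
      rw [this]
  exact key l hl le_rfl

end box

/-! ### finitely generated torsion-free nilpotent groups -/

section grp

variable {H : Type*} [Group H] {k : ℕ} {t : Fin k → H}

theorem lgT_letter (D : EmbData H (⊤ : Subgroup H)) {c : ℕ} (hc : NilC c (lieA D)) {s : H}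
    (hs : s ∈ Set.range t ∨ s⁻¹ ∈ Set.range t) :
    lgT D s ∈ Bk 1 c (fun i => lgT D (t i)) 1 := by
  have h1 : ∀ i, lgT D (t i) ∈ Bk 1 c (fun i => lgT D (t i)) 1 := fun i =>
    mon_mem_Bk (hc.nil _) [i]
  rcases hs with ⟨i, rfl⟩ | ⟨i, hi⟩
  · exact h1 i
  · have h2 : s = (t i)⁻¹ := by rw [hi, inv_inv]
    rw [h2, lgT_inv]
    exact Bk_neg (h1 i)

theorem word_box (D : EmbData H (⊤ : Subgroup H)) {c : ℕ} (hc : NilC c (lieA D)) (t : Fin k → H) :
    ∃ C₁ C₂ : ℝ, 1 ≤ C₁ ∧ 0 ≤ C₂ ∧ ∀ l : List H,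
      (∀ s ∈ l, s ∈ Set.range t ∨ s⁻¹ ∈ Set.range t) → ∀ R : ℝ, C₁ * (l.length + 1) ≤ R →
      lgT D l.prod ∈ Bx c (fun i => R • lgT D (t i)) (2 * l.length / R) ∧
      lgT D l.prod - (l.map (lgT D)).sum ∈ Bk 2 c (fun i => R • lgT D (t i))
        (C₂ * (l.length / R)) := by
  obtain ⟨C₁, C₂, hC₁, hC₂, hw⟩ := exists_prod_sub_sum (starA D) (Fin k) c hc
  refine ⟨C₁, C₂, hC₁, hC₂, fun l hl R hR => ?_⟩
  have h1 := hw (fun i => lgT D (t i)) (l.map (lgT D)) (by
    intro x hx
    obtain ⟨s, hs, rfl⟩ := List.mem_map.mp hx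
    exact lgT_letter D hc (hl s hs)) R (by rwa [List.length_map])
  rw [List.length_map, ← lgT_prod] at h1
  exact h1

/-- **(SLOW)** -/
theorem slow_top [Group.IsNilpotent H] (htf : ∀ (x : H) (j : ℤ), j ≠ 0 → x ^ j = 1 → x = 1)
    (t : Fin k → H) (hcl : Subgroup.closure (Set.range t) = ⊤) : Star.Slow (Set.range t) := by
  have hfg : Group.FG H := by
    rw [Group.fg_iff]
    exact ⟨Set.range t, hcl, Set.finite_range t⟩
  obtain ⟨D⟩ := exists_embTop htf
  obtain ⟨C, hB⟩ := exists_big D (Set.finite_range t) hcl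
  obtain ⟨c, hc1, hc⟩ := exists_nilC D
  obtain ⟨C₁, C₂, hC₁, hC₂, hw⟩ := word_box D hc t
  obtain ⟨K, hK, hlen⟩ := exists_len_box hB hc (fun i => lgT D (t i))
  obtain ⟨K₂, hK₂⟩ := hB.wordLength_le
  obtain ⟨A₃, hA₃⟩ := (starA D).exists_famConst c (Fin k) 2 (by norm_num)
  have hA₃1 := hA₃.one_le
  intro A δ hδ
  set A' : ℝ := max A 1 with hA'
  have hA'1 : 1 ≤ A' := le_max_right _ _
  have hAA' : A ≤ A' := le_max_left _ _
  set P : ℝ := K₂ * K * (C₁ * (A' + 1)) + 1 with hP
  have hK₂0 : (0 : ℝ) ≤ K₂ := Nat.cast_nonneg _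
  have hP0 : 0 < P := by positivity
  set θ : ℝ := min 1 (δ / (2 * P)) with hθ
  have hθ0 : 0 < θ := lt_min one_pos (by positivity)
  have hθ1 : θ ≤ 1 := min_le_left _ _
  have hθP : θ * P ≤ δ / 2 := by
    have : θ ≤ δ / (2 * P) := min_le_right _ _
    calc θ * P ≤ δ / (2 * P) * P := by gcongr
      _ = δ / 2 := by field_simp
  set δ' : ℝ := min 1 (θ ^ c / (2 * A₃)) with hδ'
  have hδ'0 : 0 < δ' := lt_min one_pos (by positivity)
  have hδ'1 : δ' ≤ 1 := min_le_left _ _
  have hδ'2 : A₃ * (2 * δ') ≤ θ ^ c := by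
    have : δ' ≤ θ ^ c / (2 * A₃) := min_le_right _ _
    calc A₃ * (2 * δ') ≤ A₃ * (2 * (θ ^ c / (2 * A₃))) := by gcongr
      _ = θ ^ c := by field_simp
  obtain ⟨N0, hN0⟩ := exists_nat_ge (2 * (K₂ * K) / δ)
  refine ⟨δ', hδ'0, max N0 1, fun N hN m m' hm hm' y hy z hz => ?_⟩
  have hN1 : (1 : ℝ) ≤ N := by exact_mod_cast (le_max_right _ _).trans hN
  have hNN : 2 * (K₂ * K) / δ ≤ N := hN0.trans (by exact_mod_cast (le_max_left _ _).trans hN)
  set R : ℝ := C₁ * ((A' + 1) * N) with hR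
  have hR1 : 1 ≤ R := by
    have : 1 ≤ (A' + 1) * N := by nlinarith
    nlinarith
  have hR0 : 0 < R := by linarith
  obtain ⟨ly, hly, hly2, rfl⟩ := hy
  obtain ⟨lz, hlz, hlz2, rfl⟩ := hz
  have hlyr : (ly.length : ℝ) ≤ δ' * N := (by exact_mod_cast hly : (ly.length : ℝ) ≤ m).trans hm
  have hlzr : (lz.length : ℝ) ≤ A' * N := by
    refine (by exact_mod_cast hlz : (lz.length : ℝ) ≤ m').trans (hm'.trans ?_)
    gcongr
  have h1 := (hw ly hly2 R (by
    rw [hR]
    have : (ly.length : ℝ) + 1 ≤ (A' + 1) * N := by nlinarith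
    gcongr)).1
  have h2 := (hw lz hlz2 R (by
    rw [hR]
    have : (lz.length : ℝ) + 1 ≤ (A' + 1) * N := by nlinarith
    gcongr)).1
  have h1' : lgT D ly.prod ∈ Bx c (fun i => R • lgT D (t i)) (2 * δ') := by
    refine Bx_mono ?_ h1
    rw [div_le_iff₀ hR0]
    have e1 : (N : ℝ) ≤ R := by
      rw [hR]
      have : (N : ℝ) ≤ (A' + 1) * N := by nlinarith
      nlinarith
    nlinarith
  have h2' : -lgT D lz.prod ∈ Bx c (fun i => R • lgT D (t i)) 2 := by
    refine Bx_neg (Bx_mono ?_ h2)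
    rw [div_le_iff₀ hR0]
    have e1 : (lz.length : ℝ) ≤ R := by
      rw [hR]
      have : (lz.length : ℝ) ≤ (A' + 1) * N := by nlinarith
      nlinarith
    linarith
  have h3 := hA₃.cj_mem _ (hc.nil _).smul 2 (2 * δ') (by norm_num) le_rfl (by positivity)
    (by linarith) _ h2' _ h1'
  have e : (starA D).cj (-lgT D lz.prod) (lgT D ly.prod) =
      lgT D (lz.prod⁻¹ * ly.prod * lz.prod) := by
    rw [Nb.Star.cj, neg_neg, lgT_mul, lgT_mul, lgT_inv]
  rw [e] at h3
  -- rescale
  have h4 : lgT D (lz.prod⁻¹ * ly.prod * lz.prod) ∈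
      Bx c (fun i => (θ * R) • lgT D (t i)) 1 := by
    have e2 : (fun i => R • lgT D (t i)) = fun i => θ⁻¹ • ((θ * R) • lgT D (t i)) := by
      funext i
      rw [smul_smul, ← mul_assoc, inv_mul_cancel₀ hθ0.ne', one_mul]
    rw [e2] at h3
    have h5 := Bx_unscale (one_le_inv₀ hθ0 |>.mpr hθ1) (by positivity) h3
    refine Bx_mono ?_ h5
    calc (θ⁻¹) ^ c * (A₃ * (2 * δ')) ≤ (θ⁻¹) ^ c * θ ^ c := by gcongr
      _ = 1 := by rw [← mul_pow, inv_mul_cancel₀ hθ0.ne', one_pow]
  have h5 := hlen (θ * R) (by positivity) _ h4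
  rw [exA_lgT] at h5
  have h6 := hK₂ (lz.prod⁻¹ * ly.prod * lz.prod)
  have h7 : (wordLength (Set.range t) (lz.prod⁻¹ * ly.prod * lz.prod) : ℝ) ≤ δ * N := by
    calc (wordLength (Set.range t) (lz.prod⁻¹ * ly.prod * lz.prod) : ℝ) ≤
        K₂ * len D C (inΓ D (lz.prod⁻¹ * ly.prod * lz.prod)) := by exact_mod_cast h6
      _ ≤ K₂ * (K * (1 + θ * R)) := by gcongr
      _ = K₂ * K + θ * (K₂ * K * (C₁ * (A' + 1))) * N := by rw [hR]; ring
      _ ≤ δ * N / 2 + δ / 2 * N := by
          have e3 : K₂ * K ≤ δ * N / 2 := by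
            rw [div_le_iff₀ hδ] at hNN
            linarith
          have e4 : θ * (K₂ * K * (C₁ * (A' + 1))) ≤ θ * P := by
            rw [hP]; nlinarith
          have e5 : θ * (K₂ * K * (C₁ * (A' + 1))) * N ≤ δ / 2 * N := by
            gcongr
            exact e4.trans hθP
          linarith
      _ = δ * N := by ring
  obtain ⟨l, hl, hlw, hlp⟩ := QI.wordLength_spec hcl (lz.prod⁻¹ * ly.prod * lz.prod)
  exact ⟨l.length, by rw [hl]; exact h7, l, le_rfl, hlw, hlp⟩

/-- a sum of small multiples of the family -/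
theorem sum_mem_Bx {L : Type*} [LieRing L] [LieAlgebra ℝ L] {σ : Type*} [Fintype σ] {c : ℕ}
    {g : σ → L} (hN : Nil c g) (a : σ → ℝ) {R : ℝ} (hR : 0 < R) {s : ℝ}
    (hs : ∀ i, |a i| ≤ s * R) :
    ∑ i, a i • g i ∈ Bx c (fun i => R • g i) (Fintype.card σ * s) := by
  have h1 : ∀ i ∈ Finset.univ, a i • g i ∈ Bx c (fun i => R • g i) s := by
    intro i _
    have h2 := Bx_smul (mon_mem_Bx (g := fun i => R • g i) hN.smul [i]) (a i / R)
    have e : (a i / R) • mon (fun i => R • g i) [i] = a i • g i := by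
      rw [mon_single, smul_smul, div_mul_cancel₀ _ hR.ne']
    rw [e] at h2
    refine Bx_mono ?_ h2
    rw [abs_div, abs_of_pos hR, mul_one, div_le_iff₀ hR]
    exact hs i
  have h3 := Bx_sum Finset.univ (fun i => a i • g i) (fun _ => s) h1
  rwa [Finset.sum_const, nsmul_eq_mul, Finset.card_univ] at h3

/-- exponent vectors of words -/
theorem exists_expo {E : Type*} [NormedAddCommGroup E] [NormedSpace ℝ E]
    (D : EmbData H (⊤ : Subgroup H)) (hgt : H → E) (hmul : ∀ x y, hgt (x * y) = hgt x + hgt y)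
    (l : List H) (hl : ∀ s ∈ l, s ∈ Set.range t ∨ s⁻¹ ∈ Set.range t) :
    ∃ v : Fin k → ℝ, hgt l.prod = ∑ i, v i • hgt (t i) ∧
      (l.map (lgT D)).sum = ∑ i, v i • lgT D (t i) := by
  classical
  have hone : hgt 1 = 0 := by
    have := hmul 1 1
    rw [mul_one] at this
    simpa using this
  have hinv : ∀ x, hgt x⁻¹ = - hgt x := by
    intro x
    have := hmul x x⁻¹
    rw [mul_inv_cancel, hone] at this
    exact (neg_eq_of_add_eq_zero_right this.symm).symm
  induction l with
  | nil => exact ⟨0, by simp [hone], by simp⟩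
  | cons s l ih =>
    obtain ⟨v, hv1, hv2⟩ := ih fun x hx => hl x (List.mem_cons_of_mem _ hx)
    have key : ∃ (i : Fin k) (e : ℝ), hgt s = e • hgt (t i) ∧ lgT D s = e • lgT D (t i) := by
      rcases hl s List.mem_cons_self with ⟨i, hi⟩ | ⟨i, hi⟩
      · exact ⟨i, 1, by rw [hi, one_smul], by rw [hi, one_smul]⟩
      · have h2 : s = (t i)⁻¹ := by rw [hi, inv_inv]
        exact ⟨i, -1, by rw [h2, hinv, neg_one_smul], by rw [h2, lgT_inv, neg_one_smul]⟩
    obtain ⟨i, e, h1, h2⟩ := key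
    refine ⟨v + Pi.single i e, ?_, ?_⟩
    · rw [List.prod_cons, hmul, hv1, h1]
      simp only [Pi.add_apply, add_smul, Finset.sum_add_distrib]
      rw [add_comm]
      congr 1
      rw [Finset.sum_eq_single i]
      · simp
      · intro j _ hj; rw [Pi.single_eq_of_ne hj, zero_smul]
      · intro h; exact absurd (Finset.mem_univ i) h
    · rw [List.map_cons, List.sum_cons, hv2, h2]
      simp only [Pi.add_apply, add_smul, Finset.sum_add_distrib]
      rw [add_comm]
      congr 1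
      rw [Finset.sum_eq_single i]
      · simp
      · intro j _ hj; rw [Pi.single_eq_of_ne hj, zero_smul]
      · intro h; exact absurd (Finset.mem_univ i) h

/-- **(POW)** -/
theorem pow_top [Group.IsNilpotent H] (htf : ∀ (x : H) (j : ℤ), j ≠ 0 → x ^ j = 1 → x = 1)
    (t : Fin k → H) (hcl : Subgroup.closure (Set.range t) = ⊤)
    {E : Type*} [NormedAddCommGroup E] [NormedSpace ℝ E] (hgt : H → E)
    (hmul : ∀ x y, hgt (x * y) = hgt x + hgt y)
    (hli : LinearIndependent ℝ fun i => hgt (t i)) : Star.Pow (Set.range t) hgt := by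
  have hfg : Group.FG H := by
    rw [Group.fg_iff]
    exact ⟨Set.range t, hcl, Set.finite_range t⟩
  obtain ⟨D⟩ := exists_embTop htf
  obtain ⟨C, hB⟩ := exists_big D (Set.finite_range t) hcl
  obtain ⟨c, hc1, hc⟩ := exists_nilC D
  obtain ⟨C₁, C₂, hC₁, hC₂, hw⟩ := word_box D hc t
  obtain ⟨K, hK, hlen⟩ := exists_len_box hB hc (fun i => lgT D (t i))
  obtain ⟨K₂, hK₂⟩ := hB.wordLength_le
  -- the exponent vector is controlled by the height
  obtain ⟨B₃, hB₃⟩ : ∃ B₃ : ℝ, 0 ≤ B₃ ∧ ∀ v : Fin k → ℝ, ‖v‖ ≤ B₃ * ‖∑ i, v i • hgt (t i)‖ := by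
    let F : (Fin k → ℝ) →ₗ[ℝ] E := Fintype.linearCombination ℝ (fun i => hgt (t i))
    have hF : LinearMap.ker F = ⊥ := by
      rw [LinearMap.ker_eq_bot]
      exact LinearIndependent.fintypeLinearCombination_injective hli
    obtain ⟨B, hBpos, hanti⟩ := F.exists_antilipschitzWith hF
    refine ⟨B, B.2, fun v => ?_⟩
    have h1 := hanti.le_mul_dist v 0
    rw [map_zero, dist_zero_right, dist_zero_right] at h1
    exact h1
  obtain ⟨hB₃0, hB₃⟩ := hB₃
  intro κ B hκ
  set B' : ℝ := max B 1 with hB'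
  have hB'1 : 1 ≤ B' := le_max_right _ _
  have hBB' : B ≤ B' := le_max_left _ _
  have hK₂0 : (0 : ℝ) ≤ K₂ := Nat.cast_nonneg _
  set θ : ℝ := κ / (2 * (K₂ * K + 1)) with hθ
  have hθ0 : 0 < θ := by positivity
  set Q : ℝ := C₁ * (B' + 1) with hQ
  have hQ0 : 0 < Q := by positivity
  have hQ1 : 1 ≤ Q := by nlinarith
  obtain ⟨j, hj⟩ := exists_nat_ge (max 1 (max (Q / θ) (2 * C₂ * Q ^ 2 / θ ^ 2)))
  have hj1 : (1 : ℝ) ≤ j := (le_max_left _ _).trans hj
  have hj2 : Q / θ ≤ j := (le_max_left _ _).trans ((le_max_right _ _).trans hj)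
  have hj3 : 2 * C₂ * Q ^ 2 / θ ^ 2 ≤ j := (le_max_right _ _).trans ((le_max_right _ _).trans hj)
  set ε : ℝ := θ / (2 * (k + 1) * (B₃ + 1)) with hε
  have hε0 : 0 < ε := by positivity
  obtain ⟨N0, hN0⟩ := exists_nat_ge (2 * (K₂ * K) / κ)
  refine ⟨j, by exact_mod_cast hj1, ε, hε0, max N0 1, fun N hN m hm h hh hhgt => ?_⟩
  have hN1 : (1 : ℝ) ≤ N := by exact_mod_cast (le_max_right _ _).trans hN
  have hNN : 2 * (K₂ * K) / κ ≤ N := hN0.trans (by exact_mod_cast (le_max_left _ _).trans hN)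
  obtain ⟨l, hl, hl2, rfl⟩ := hh
  have hlr : (l.length : ℝ) ≤ B' * N := by
    refine (by exact_mod_cast hl : (l.length : ℝ) ≤ m).trans (hm.trans ?_)
    gcongr
  set R : ℝ := Q * N with hR
  have hR1 : 1 ≤ R := by nlinarith
  have hR0 : 0 < R := by linarith
  set R' : ℝ := θ * (j * N) with hR'
  have hR'0 : 0 < R' := by positivity
  have hRR' : R ≤ R' := by
    rw [hR, hR']
    rw [div_le_iff₀ hθ0] at hj2
    nlinarith
  have h1 := (hw l hl2 R (by
    rw [hR, hQ, mul_assoc]
    have : (l.length : ℝ) + 1 ≤ (B' + 1) * N := by nlinarith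
    gcongr)).2
  obtain ⟨v, hv1, hv2⟩ := exists_expo D hgt hmul l hl2
  rw [hv2] at h1
  have h2 : lgT D l.prod - ∑ i, v i • lgT D (t i) ∈ Bk 2 c (fun i => R • lgT D (t i)) C₂ := by
    refine Bk_mono le_rfl ?_ h1
    have : (l.length : ℝ) / R ≤ 1 := by
      rw [div_le_one hR0, hR, hQ]
      have e1 : B' * N ≤ C₁ * (B' + 1) * N := by
        have : B' ≤ C₁ * (B' + 1) := by nlinarith
        gcongr
      linarith
    nlinarith
  have h3 := Bk_rescale hR0 hRR' hC₂ h2
  -- multiply by j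
  have h4 := Bx_smul h3 (j : ℝ)
  have hv : ∀ i, |(j : ℝ) * v i| ≤ (1 / (2 * (k + 1))) * R' := by
    intro i
    have e1 : |v i| ≤ ‖v‖ := norm_le_pi_norm v i
    have e2 := hB₃ v
    rw [← hv1] at e2
    have e3 : |v i| ≤ B₃ * (ε * N) := e1.trans (e2.trans (by gcongr))
    rw [abs_mul, Nat.abs_cast]
    calc (j : ℝ) * |v i| ≤ j * (B₃ * (ε * N)) := by gcongr
      _ = (B₃ / (B₃ + 1)) * ((1 / (2 * (k + 1))) * (θ * (j * N))) := by
          rw [hε]; field_simp
      _ ≤ 1 * ((1 / (2 * (k + 1))) * (θ * (j * N))) := by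
          gcongr
          rw [div_le_one (by positivity)]
          linarith
      _ = _ := by rw [one_mul]
  have h5 := sum_mem_Bx (g := fun i => lgT D (t i)) (hc.nil _) (fun i => (j : ℝ) * v i) hR'0 hv
  have h6 : lgT D (l.prod ^ j) ∈ Bx c (fun i => R' • lgT D (t i)) 1 := by
    have e : lgT D (l.prod ^ j) = ∑ i, ((j : ℝ) * v i) • lgT D (t i) +
        (j : ℝ) • (lgT D l.prod - ∑ i, v i • lgT D (t i)) := by
      rw [lgT_pow, smul_sub, Finset.smul_sum]
      simp only [smul_smul]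
      abel
    rw [e]
    refine Bx_mono ?_ (Bx_add h5 h4)
    rw [Fintype.card_fin, Nat.abs_cast]
    have e1 : (k : ℝ) * (1 / (2 * (k + 1))) ≤ 1 / 2 := by
      rw [mul_one_div, div_le_div_iff₀ (by positivity) (by norm_num)]
      nlinarith
    have e2 : (j : ℝ) * (C₂ * (R / R') ^ 2) ≤ 1 / 2 := by
      have e3 : R / R' = Q / (θ * j) := by
        rw [hR, hR']; field_simp
      rw [e3, div_pow]
      rw [div_le_iff₀ (by positivity)] at hj3
      have hj0 : (0 : ℝ) < j := by linarith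
      calc (j : ℝ) * (C₂ * (Q ^ 2 / (θ * j) ^ 2)) = C₂ * Q ^ 2 / (θ ^ 2 * j) := by field_simp
        _ ≤ 1 / 2 := by
            rw [div_le_div_iff₀ (by positivity) (by norm_num)]
            nlinarith
    linarith
  have h7 := hlen R' hR'0.le _ h6
  rw [exA_lgT] at h7
  have h8 := hK₂ (l.prod ^ j)
  have h9 : (wordLength (Set.range t) (l.prod ^ j) : ℝ) ≤ κ * j * N := by
    calc (wordLength (Set.range t) (l.prod ^ j) : ℝ) ≤
        K₂ * len D C (inΓ D (l.prod ^ j)) := by exact_mod_cast h8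
      _ ≤ K₂ * (K * (1 + R')) := by gcongr
      _ = K₂ * K + K₂ * K * θ * (j * N) := by rw [hR']; ring
      _ ≤ κ * (j * N) / 2 + κ / 2 * (j * N) := by
          have e3 : K₂ * K ≤ κ * (j * N) / 2 := by
            rw [div_le_iff₀ hκ] at hNN
            have : (N : ℝ) ≤ j * N := by nlinarith
            nlinarith
          have e4 : K₂ * K * θ ≤ κ / 2 := by
            rw [hθ]
            have : K₂ * K * (κ / (2 * (K₂ * K + 1))) = (K₂ * K / (K₂ * K + 1)) * (κ / 2) := by
              field_simp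
            rw [this]
            have e5 : K₂ * K / (K₂ * K + 1) ≤ 1 := by
              rw [div_le_one (by positivity)]; linarith
            calc K₂ * K / (K₂ * K + 1) * (κ / 2) ≤ 1 * (κ / 2) := by gcongr
              _ = κ / 2 := one_mul _
          have e6 : K₂ * K * θ * (j * N) ≤ κ / 2 * (j * N) := by gcongr
          linarith
      _ = κ * j * N := by ring
  obtain ⟨l', hl', hlw, hlp⟩ := QI.wordLength_spec hcl (l.prod ^ j)
  exact ⟨l'.length, by rw [hl']; exact h9, l', le_rfl, hlw, hlp⟩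

end grp

end Crest.Agent.R182.Slow
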