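/-
R182, module SLOW3 (helper449): slow conjugation and slow powers in arbitrary nilpotent subgroups
(torsion allowed, uniformly in the group), and the two-letter lemma.
-/
import Crest.Agent.R182.Slow2

set_option autoImplicit false
set_option linter.unusedSectionVars false

open Crest.GroupTheory Crest.Geometry

namespace Crest.Agent.R182.Slow

open Crest.Agent.R182.Polyc Crest.Agent.R182

section tf

variable {G : Type*} [Group G]

/-- the upper central factors of a group with torsion-free centre are torsion-free -/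
theorem ucs_tf (htf : ∀ x ∈ Subgroup.upperCentralSeries G 1, ∀ j : ℤ, j ≠ 0 → x ^ j = 1 → x = 1)
    (i : ℕ) :
    ∀ x ∈ Subgroup.upperCentralSeries G (i + 1), ∀ j : ℤ, j ≠ 0 →
      x ^ j ∈ Subgroup.upperCentralSeries G i → x ∈ Subgroup.upperCentralSeries G i := by
  induction i with
  | zero =>
    intro x hx j hj h
    rw [Subgroup.upperCentralSeries_zero, Subgroup.mem_bot] at h ⊢
    exact htf x hx j hj h
  | succ i ih =>
    intro x hx j hj h
    rw [Subgroup.mem_upperCentralSeries_succ_iff]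
    intro y
    have h1 : x * y * x⁻¹ * y⁻¹ ∈ Subgroup.upperCentralSeries G (i + 1) := by
      have := (Subgroup.mem_upperCentralSeries_succ_iff).1 hx y
      simpa [commutatorElement_def] using this
    have h2 : x ^ j * y * (x ^ j)⁻¹ * y⁻¹ ∈ Subgroup.upperCentralSeries G i := by
      have := (Subgroup.mem_upperCentralSeries_succ_iff).1 h y
      simpa [commutatorElement_def] using this
    -- modulo `Z_i`, the commutator is central: `[x^j, y] = [x, y]^j`
    set Z := Subgroup.upperCentralSeries G i with hZ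
    have hZn : Z.Normal := inferInstance
    let q : G →* G ⧸ Z := QuotientGroup.mk' Z
    have hc : ∀ g : G, q g * q (x * y * x⁻¹ * y⁻¹) = q (x * y * x⁻¹ * y⁻¹) * q g := by
      intro g
      rw [← map_mul, ← map_mul]
      refine (QuotientGroup.eq).2 ?_
      have h3 := (Subgroup.mem_upperCentralSeries_succ_iff).1 (Subgroup.inv_mem _ h1) g⁻¹
      rw [commutatorElement_def] at h3
      have h4 := hZn.conj_mem _ h3 1
      have : (g * (x * y * x⁻¹ * y⁻¹))⁻¹ * (x * y * x⁻¹ * y⁻¹ * g) =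
        (x * y * x⁻¹ * y⁻¹)⁻¹ * g⁻¹ * (x * y * x⁻¹ * y⁻¹)⁻¹⁻¹ * g⁻¹⁻¹ := by group
      rw [this]; simpa using h3
    set c := x * y * x⁻¹ * y⁻¹ with hcdef
    have hconj : q y * q x⁻¹ * q y⁻¹ = q x⁻¹ * q c := by
      rw [← map_mul, ← map_mul, ← map_mul, hcdef]
      congr 1; group
    have hcomm : Commute (q x⁻¹) (q c) := hc x⁻¹
    have h5 : q (x ^ j * y * (x ^ j)⁻¹ * y⁻¹) = q c ^ j := by
      have h6 : x ^ j * y * (x ^ j)⁻¹ * y⁻¹ = x ^ j * (y * x⁻¹ * y⁻¹) ^ j := by
        rw [conj_zpow]; group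
      rw [h6, map_mul, map_zpow q (y * x⁻¹ * y⁻¹), map_mul, map_mul, hconj, hcomm.mul_zpow,
        map_zpow, map_inv, inv_zpow, ← mul_assoc, mul_inv_cancel, one_mul]
    have h7 : c ^ j ∈ Z := by
      rw [← QuotientGroup.eq_one_iff]
      have h8 : q (c ^ j) = 1 := by
        rw [map_zpow, ← h5]
        exact (QuotientGroup.eq_one_iff _).2 h2
      exact h8
    have h9 := ih c h1 j hj h7
    rw [commutatorElement_def]
    exact h9

/-- a nilpotent group with torsion-free centre is torsion-free -/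
theorem tf_of_center [Group.IsNilpotent G]
    (htf : ∀ x ∈ Subgroup.upperCentralSeries G 1, ∀ j : ℤ, j ≠ 0 → x ^ j = 1 → x = 1)
    (x : G) (j : ℤ) (hj : j ≠ 0) (h : x ^ j = 1) : x = 1 := by
  have key : ∀ i, x ∈ Subgroup.upperCentralSeries G i → x = 1 := by
    intro i
    induction i with
    | zero => intro hx; rwa [Subgroup.upperCentralSeries_zero, Subgroup.mem_bot] at hx
    | succ i ih => intro hx; exact ih (ucs_tf htf i x hx j hj (h ▸ Subgroup.one_mem _))
  obtain ⟨c, hc⟩ := Group.IsNilpotent.nilpotent G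
  exact key c (hc ▸ Subgroup.mem_top x)

/-- a f.g. nilpotent group is finite-by-(torsion-free) -/
theorem exists_tor [Group.FG G] [Group.IsNilpotent G] :
    ∃ F : Subgroup G, ∃ _ : F.Normal, Finite F ∧
      ∀ (x : G ⧸ F) (j : ℤ), j ≠ 0 → x ^ j = 1 → x = 1 := by
  have hpc : PC (⊤ : Subgroup G) := isPolycyclic_iff.mp isPolycyclic_of_nilpotent
  obtain ⟨P, hP1, hP2, hP3, -⟩ := VPC.exists_pz hpc.vpc (K := (⊤ : Subgroup G))
    (by rw [Subgroup.index_top]; exact one_ne_zero)
  have hb : ∀ F : Subgroup G, Finite F → Nat.card F ≤ P.index := by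
    intro F hF
    have h1 : F ⊓ P = ⊥ := by
      rw [eq_bot_iff]
      rintro x ⟨hx1, hx2⟩
      rw [Subgroup.mem_bot]
      have h2 : IsOfFinOrder (⟨x, hx1⟩ : F) := isOfFinOrder_of_finite _
      obtain ⟨n, hn, hn2⟩ := (isOfFinOrder_iff_pow_eq_one).mp h2
      refine hP3.torsionFree hx2 (j := (n : ℤ)) (by exact_mod_cast hn.ne') ?_
      have h3 := congrArg Subtype.val hn2
      rw [zpow_natCast]
      simpa using h3
    have h2 : P.relIndex F = Nat.card F := by
      rw [← Subgroup.inf_relIndex_right, inf_comm, h1, Subgroup.relIndex_bot_left]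
    rw [← h2]
    exact Nat.le_of_dvd (Nat.pos_of_ne_zero hP2) (Subgroup.relIndex_dvd_index_of_normal P F)
  let S : Set ℕ := {n | ∃ F : Subgroup G, F.Normal ∧ Finite F ∧ Nat.card F = n}
  have hne : S.Nonempty := ⟨1, ⊥, inferInstance, inferInstance, by simp⟩
  have hbd : BddAbove S := ⟨P.index, by rintro n ⟨F, -, hF, rfl⟩; exact hb F hF⟩
  obtain ⟨F, hF1, hF2, hF3⟩ := Nat.sSup_mem hne hbd
  have hmax : ∀ F' : Subgroup G, F'.Normal → Finite F' → Nat.card F' ≤ Nat.card F := by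
    intro F' h1 h2
    rw [hF3]
    exact le_csSup hbd ⟨F', h1, h2, rfl⟩
  refine ⟨F, hF1, hF2, fun x j hj h => ?_⟩
  refine tf_of_center ?_ x j hj h
  clear h hj j x
  intro x hx j hj hxj
  have hxc : x ∈ Subgroup.center (G ⧸ F) := by
    rwa [Subgroup.upperCentralSeries_one] at hx
  set Z : Subgroup (G ⧸ F) := Subgroup.zpowers x with hZ
  have hZn : Z.Normal := by
    refine ⟨fun n hn g => ?_⟩
    have h1 : n ∈ Subgroup.center (G ⧸ F) := (Subgroup.zpowers_le.mpr hxc) hn
    have h2 := (Subgroup.mem_center_iff.mp h1) g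
    rwa [h2, mul_inv_cancel_right]
  have hfin : IsOfFinOrder x := by
    rw [isOfFinOrder_iff_zpow_eq_one]
    exact ⟨j, hj, hxj⟩
  have hZf : Finite Z := by
    rw [hZ]
    exact (finite_zpowers.mpr hfin)
  set F' : Subgroup G := Z.comap (QuotientGroup.mk' F) with hF'
  have hle : F ≤ F' := by
    intro g hg
    rw [hF', Subgroup.mem_comap, QuotientGroup.mk'_apply, (QuotientGroup.eq_one_iff g).mpr hg]
    exact Subgroup.one_mem _
  have hrel : F.relIndex F' = Nat.card Z := by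
    have h1 : F = (⊥ : Subgroup (G ⧸ F)).comap (QuotientGroup.mk' F) := by
      rw [MonoidHom.comap_bot, QuotientGroup.ker_mk']
    have h2 : F.relIndex F' = (⊥ : Subgroup (G ⧸ F)).relIndex (F'.map (QuotientGroup.mk' F)) := by
      conv_lhs => rw [h1]
      rw [Subgroup.relIndex_comap]
    rw [h2, Subgroup.relIndex_bot_left, hF',
      Subgroup.map_comap_eq_self_of_surjective (QuotientGroup.mk'_surjective F)]
  have hcard : Nat.card F * Nat.card Z = Nat.card F' := by
    rw [← hrel, ← Subgroup.relIndex_bot_left, ← Subgroup.relIndex_bot_left]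
    exact Subgroup.relIndex_mul_relIndex _ _ _ bot_le hle
  have hFpos : 0 < Nat.card F := Nat.card_pos
  have hZpos : 0 < Nat.card Z := Nat.card_pos
  have hF'f : Finite F' := by
    refine (Nat.card_ne_zero.mp ?_).2
    rw [← hcard]
    exact (Nat.mul_pos hFpos hZpos).ne'
  have h1 := hmax F' (hZn.comap _) hF'f
  rw [← hcard] at h1
  have h2 : Nat.card Z = 1 := by
    have : Nat.card Z ≤ 1 := by
      by_contra hlt
      push Not at hlt
      nlinarith
    omega
  have h3 : Z = ⊥ := Subgroup.card_eq_one.mp h2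
  rwa [hZ, Subgroup.zpowers_eq_bot] at h3

end tf

/-! ### transfer along homomorphisms -/

section tr

variable {H G : Type*} [Group H] [Group G] (φ : H →* G) {T : Set H}

theorem Bl_map {m : ℕ} {g : H} (h : g ∈ Star.Bl T m) : φ g ∈ Star.Bl (φ '' T) m := by
  obtain ⟨l, h1, h2, rfl⟩ := h
  refine ⟨l.map φ, by simpa using h1, fun s hs => ?_, ?_⟩
  · rw [List.mem_map] at hs
    obtain ⟨a, ha, rfl⟩ := hs
    rcases h2 a ha with h | h
    · exact Or.inl ⟨a, h, rfl⟩
    · exact Or.inr ⟨a⁻¹, h, map_inv φ a⟩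
  · rw [map_list_prod]

theorem Bl_lift {m : ℕ} {g' : G} (h : g' ∈ Star.Bl (φ '' T) m) :
    ∃ g ∈ Star.Bl T m, φ g = g' := by
  obtain ⟨l, h1, h2, rfl⟩ := h
  suffices hh : ∀ l : List G, (∀ s ∈ l, s ∈ φ '' T ∨ s⁻¹ ∈ φ '' T) →
      ∃ l' : List H, l'.length = l.length ∧ (∀ s ∈ l', s ∈ T ∨ s⁻¹ ∈ T) ∧ φ l'.prod = l.prod by
    obtain ⟨l', h3, h4, h5⟩ := hh l h2
    exact ⟨l'.prod, ⟨l', by rw [h3]; exact h1, h4, rfl⟩, h5⟩
  intro l
  induction l with
  | nil => intro _; exact ⟨[], rfl, by simp, by simp⟩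
  | cons s l ih =>
    intro hl
    obtain ⟨l', h3, h4, h5⟩ := ih fun s hs => hl s (List.mem_cons_of_mem _ hs)
    have key : ∃ s' : H, (s' ∈ T ∨ s'⁻¹ ∈ T) ∧ φ s' = s := by
      rcases hl s List.mem_cons_self with ⟨a, ha, rfl⟩ | ⟨a, ha, hs⟩
      · exact ⟨a, Or.inl ha, rfl⟩
      · exact ⟨a⁻¹, Or.inr (by rwa [inv_inv]), by rw [map_inv, hs, inv_inv]⟩
    obtain ⟨s', h6, h7⟩ := key
    refine ⟨s' :: l', by simp [h3], ?_, by rw [List.prod_cons, List.prod_cons, map_mul, h7, h5]⟩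
    intro u hu
    rcases List.mem_cons.mp hu with rfl | hu
    · exact h6
    · exact h4 u hu

/-- every element of a generated group is a word -/
theorem exists_Bl (hcl : Subgroup.closure T = ⊤) (g : H) : ∃ m, g ∈ Star.Bl T m := by
  have h : g ∈ Subgroup.closure T := hcl ▸ Subgroup.mem_top g
  induction h using Subgroup.closure_induction with
  | mem x hx => exact ⟨1, [x], by simp, by simp [hx], by simp⟩
  | one => exact ⟨0, Star.one_mem_Bl _⟩
  | mul x y _ _ hx hy =>
    obtain ⟨m, hm⟩ := hx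
    obtain ⟨m', hm'⟩ := hy
    exact ⟨m + m', Star.Bl_mul hm hm'⟩
  | inv x _ hx =>
    obtain ⟨m, hm⟩ := hx
    exact ⟨m, Star.Bl_inv hm⟩

theorem exists_Bl_finite (hcl : Subgroup.closure T = ⊤) {A : Set H} (hA : A.Finite) :
    ∃ q, ∀ g ∈ A, g ∈ Star.Bl T q := by
  choose f hf using exists_Bl hcl
  obtain ⟨q, hq⟩ := (hA.image f).bddAbove
  exact ⟨q, fun g hg => Star.Bl_mono (hq ⟨g, hg, rfl⟩) (hf g)⟩

theorem pow_map {E : Type*} [Norm E] {hgt : G → E} (h : Star.Pow T (fun x => hgt (φ x))) :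
    Star.Pow (φ '' T) hgt := by
  intro κ B hκ
  obtain ⟨j, hj, ε, hε, N0, h1⟩ := h κ B hκ
  refine ⟨j, hj, ε, hε, N0, fun N hN m hm g hg hgh => ?_⟩
  obtain ⟨g', hg', rfl⟩ := Bl_lift φ hg
  obtain ⟨m', hm', h2⟩ := h1 N hN m hm g' hg' hgh
  exact ⟨m', hm', by rw [← map_pow]; exact Bl_map φ h2⟩

theorem slow_comap (hker : (φ.ker : Set H).Finite) (hcl : Subgroup.closure T = ⊤)
    (h : Star.Slow (φ '' T)) : Star.Slow T := by
  obtain ⟨q, hq⟩ := exists_Bl_finite hcl hker
  intro A δ hδ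
  obtain ⟨δ', hδ', N0, h1⟩ := h A (δ / 2) (by positivity)
  obtain ⟨N1, hN1⟩ := exists_nat_ge (2 * q / δ)
  refine ⟨δ', hδ', max N0 N1, fun N hN m m' hm hm' y hy c hc => ?_⟩
  obtain ⟨m'', hm'', h2⟩ := h1 N ((le_max_left _ _).trans hN) m m' hm hm' (φ y) (Bl_map φ hy)
    (φ c) (Bl_map φ hc)
  obtain ⟨g, hg, hg2⟩ := Bl_lift φ h2
  have h3 : g⁻¹ * (c⁻¹ * y * c) ∈ φ.ker := by
    rw [MonoidHom.mem_ker, map_mul, map_inv, hg2, map_mul, map_mul, map_inv, inv_mul_cancel]
  refine ⟨m'' + q, ?_, ?_⟩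
  · push_cast
    have h4 : (N1 : ℝ) ≤ N := by exact_mod_cast (le_max_right _ _).trans hN
    have h5 : 2 * q / δ ≤ N := hN1.trans h4
    rw [div_le_iff₀ hδ] at h5
    linarith
  · have h4 := Star.Bl_mul hg (hq _ h3)
    rwa [mul_inv_cancel_left] at h4

theorem pow_comap {E : Type*} [Norm E] {hgt : H → E} {hgt' : G → E}
    (hh : ∀ x, hgt' (φ x) = hgt x) (hker : (φ.ker : Set H).Finite)
    (hcl : Subgroup.closure T = ⊤) (h : Star.Pow (φ '' T) hgt') : Star.Pow T hgt := by
  obtain ⟨q, hq⟩ := exists_Bl_finite hcl hker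
  intro κ B hκ
  obtain ⟨j, hj, ε, hε, N0, h1⟩ := h (κ / 2) B (by positivity)
  obtain ⟨N1, hN1⟩ := exists_nat_ge (2 * q / κ)
  refine ⟨j, hj, ε, hε, max N0 N1, fun N hN m hm g hg hgh => ?_⟩
  obtain ⟨m', hm', h2⟩ := h1 N ((le_max_left _ _).trans hN) m hm (φ g) (Bl_map φ hg)
    (by rwa [hh])
  obtain ⟨g', hg', hg2⟩ := Bl_lift φ h2
  have h3 : g'⁻¹ * g ^ j ∈ φ.ker := by
    rw [MonoidHom.mem_ker, map_mul, map_inv, hg2, map_pow, inv_mul_cancel]
  refine ⟨m' + q, ?_, ?_⟩
  · push_cast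
    have h4 : (N1 : ℝ) ≤ N := by exact_mod_cast (le_max_right _ _).trans hN
    have h5 : 2 * q / κ ≤ N := hN1.trans h4
    rw [div_le_iff₀ hκ] at h5
    have hj1 : (1 : ℝ) ≤ j := by exact_mod_cast hj
    have hN0 : (0 : ℝ) ≤ N := Nat.cast_nonneg _
    have h6 : (N : ℝ) * κ ≤ κ * j * N := by
      have : (N : ℝ) * κ * 1 ≤ N * κ * j := by gcongr
      linarith
    linarith
  · have h4 := Star.Bl_mul hg' (hq _ h3)
    rwa [mul_inv_cancel_left] at h4

end tr

/-! ### main results -/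

section main

/-- **(SLOW)** in a f.g. nilpotent group -/
theorem slow_top' {H : Type*} [Group H] [Group.IsNilpotent H] {k : ℕ} (t : Fin k → H)
    (hcl : Subgroup.closure (Set.range t) = ⊤) : Star.Slow (Set.range t) := by
  have hfg : Group.FG H := by
    rw [Group.fg_iff]
    exact ⟨Set.range t, hcl, Set.finite_range t⟩
  obtain ⟨F, hFn, hFf, htf⟩ := exists_tor (G := H)
  refine slow_comap (QuotientGroup.mk' F) ?_ hcl ?_
  · rw [QuotientGroup.ker_mk']
    exact Set.toFinite _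
  · rw [← Set.range_comp]
    have : Group.IsNilpotent (H ⧸ F) := inferInstance
    refine slow_top htf _ ?_
    rw [Set.range_comp, ← MonoidHom.map_closure, hcl, ← MonoidHom.range_eq_map,
      MonoidHom.range_eq_top]
    exact QuotientGroup.mk'_surjective F

/-- **(POW)** in a f.g. nilpotent group -/
theorem pow_top' {H : Type*} [Group H] [Group.IsNilpotent H] {k : ℕ} (t : Fin k → H)
    (hcl : Subgroup.closure (Set.range t) = ⊤)
    {E : Type*} [NormedAddCommGroup E] [NormedSpace ℝ E] (hgt : H → E)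
    (hmul : ∀ x y, hgt (x * y) = hgt x + hgt y)
    (hli : LinearIndependent ℝ fun i => hgt (t i)) : Star.Pow (Set.range t) hgt := by
  have hfg : Group.FG H := by
    rw [Group.fg_iff]
    exact ⟨Set.range t, hcl, Set.finite_range t⟩
  obtain ⟨F, hFn, hFf, htf⟩ := exists_tor (G := H)
  let f : H →* Multiplicative E := MonoidHom.mk' (fun x => Multiplicative.ofAdd (hgt x))
    (fun x y => by rw [hmul]; rfl)
  have hF0 : F ≤ f.ker := by
    intro x hx
    rw [MonoidHom.mem_ker]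
    have h2 : IsOfFinOrder (⟨x, hx⟩ : F) := isOfFinOrder_of_finite _
    obtain ⟨n, hn, hn2⟩ := (isOfFinOrder_iff_pow_eq_one).mp h2
    have h3 : x ^ n = 1 := by simpa using congrArg Subtype.val hn2
    have h4 : f x ^ n = 1 := by rw [← map_pow, h3, map_one]
    have h5 : n • hgt x = 0 := h4
    have h6 : (n : ℝ) • hgt x = 0 := by rw [← h5]; exact Nat.cast_smul_eq_nsmul ℝ n (hgt x)
    rcases smul_eq_zero.mp h6 with h7 | h7
    · exact absurd (Nat.cast_eq_zero.mp h7) hn.ne'
    · exact congrArg Multiplicative.ofAdd h7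
  let f' : H ⧸ F →* Multiplicative E := QuotientGroup.lift F f hF0
  have hf' : ∀ x : H, Multiplicative.toAdd (f' (QuotientGroup.mk' F x)) = hgt x := fun x => rfl
  refine pow_comap (QuotientGroup.mk' F) (hgt' := fun y => Multiplicative.toAdd (f' y)) hf' ?_
    hcl ?_
  · rw [QuotientGroup.ker_mk']
    exact Set.toFinite _
  · rw [← Set.range_comp]
    have : Group.IsNilpotent (H ⧸ F) := inferInstance
    refine pow_top htf _ ?_ _ ?_ ?_
    · rw [Set.range_comp, ← MonoidHom.map_closure, hcl, ← MonoidHom.range_eq_map,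
        MonoidHom.range_eq_top]
      exact QuotientGroup.mk'_surjective F
    · intro x y
      rw [map_mul]; rfl
    · exact hli

/-- **(SLOW), uniform version**: the constants depend only on the number of generators and the
nilpotency class. -/
theorem slow_unif (k c : ℕ) (A δ : ℝ) (hδ : 0 < δ) : ∃ δ' : ℝ, 0 < δ' ∧ ∃ N0 : ℕ, ∀ N ≥ N0,
    ∀ m m' : ℕ, (m : ℝ) ≤ δ' * N → (m' : ℝ) ≤ A * N →
      ∀ {G : Type*} [Group G] (t : Fin k → G) (S : Subgroup G), (∀ i, t i ∈ S) →
        S.lowerCentralSeries c = ⊥ → ∀ y ∈ Star.Bl (Set.range t) m, ∀ z ∈ Star.Bl (Set.range t) m',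
        ∃ m'' : ℕ, (m'' : ℝ) ≤ δ * N ∧ z⁻¹ * y * z ∈ Star.Bl (Set.range t) m'' := by
  set L : Subgroup (FreeGroup (Fin k)) := (⊤ : Subgroup (FreeGroup (Fin k))).lowerCentralSeries c
    with hL
  have hLn : L.Normal := inferInstance
  let q := QuotientGroup.mk' L
  have hsurj : Function.Surjective q := QuotientGroup.mk'_surjective L
  have hnil : Group.IsNilpotent (FreeGroup (Fin k) ⧸ L) := by
    refine Subgroup.nilpotent_iff_lowerCentralSeries.mpr ⟨c, ?_⟩
    have h1 : (⊤ : Subgroup (FreeGroup (Fin k) ⧸ L)) = (⊤ : Subgroup (FreeGroup (Fin k))).map q := by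
      rw [← MonoidHom.range_eq_map, MonoidHom.range_eq_top.mpr hsurj]
    rw [h1, ← Subgroup.map_lowerCentralSeries, ← hL, QuotientGroup.map_mk'_self]
  have hcl : Subgroup.closure (Set.range fun i : Fin k => q (FreeGroup.of i)) = ⊤ := by
    have h1 : (Set.range fun i : Fin k => q (FreeGroup.of i)) = q '' Set.range FreeGroup.of := by
      rw [← Set.range_comp]; rfl
    rw [h1, ← MonoidHom.map_closure, FreeGroup.closure_range_of, ← MonoidHom.range_eq_map,
      MonoidHom.range_eq_top]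
    exact hsurj
  obtain ⟨δ', hδ', N0, h1⟩ := slow_top' (fun i : Fin k => q (FreeGroup.of i)) hcl A δ hδ
  refine ⟨δ', hδ', N0, fun N hN m m' hm hm' G _ t S hS hSc y hy z hz => ?_⟩
  -- the homomorphism
  let f : FreeGroup (Fin k) →* G := FreeGroup.lift t
  have hf : L ≤ f.ker := by
    intro x hx
    rw [MonoidHom.mem_ker]
    have h2 : f x ∈ (L.map f) := ⟨x, hx, rfl⟩
    rw [hL, Subgroup.map_lowerCentralSeries] at h2
    have h3 : (⊤ : Subgroup (FreeGroup (Fin k))).map f ≤ S := by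
      rw [← MonoidHom.range_eq_map, FreeGroup.range_lift_eq_closure, Subgroup.closure_le]
      rintro _ ⟨i, rfl⟩
      exact hS i
    have h4 := Subgroup.lowerCentralSeries_mono c h3 h2
    change f x ∈ S.lowerCentralSeries c at h4
    rw [hSc] at h4
    exact Subgroup.mem_bot.mp h4
  let f' : FreeGroup (Fin k) ⧸ L →* G := QuotientGroup.lift L f hf
  have hf' : ∀ i, f' (q (FreeGroup.of i)) = t i := fun i => by
    change f (FreeGroup.of i) = t i
    exact FreeGroup.lift_apply_of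
  have hr : Set.range t = f' '' (Set.range fun i : Fin k => q (FreeGroup.of i)) := by
    rw [← Set.range_comp]
    congr 1
    funext i
    exact (hf' i).symm
  rw [hr] at hy hz ⊢
  obtain ⟨y', hy', rfl⟩ := Bl_lift f' hy
  obtain ⟨z', hz', rfl⟩ := Bl_lift f' hz
  obtain ⟨m'', hm'', h2⟩ := h1 N hN m m' hm hm' y' hy' z' hz'
  refine ⟨m'', hm'', ?_⟩
  have h3 := Bl_map f' h2
  rwa [map_mul, map_mul, map_inv] at h3

/-- **(SLOW)** for words in finitely many elements generating a nilpotent subgroup -/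
theorem slow_nil {G : Type*} [Group G] {k : ℕ} (t : Fin k → G)
    (hnil : Group.IsNilpotent (Subgroup.closure (Set.range t))) : Star.Slow (Set.range t) := by
  obtain ⟨c, hc⟩ := (Subgroup.isNilpotent_iff_lowerCentralSeries _).mp hnil
  intro A δ hδ
  obtain ⟨δ', hδ', N0, h1⟩ := slow_unif k c A δ hδ
  exact ⟨δ', hδ', N0, fun N hN m m' hm hm' y hy z hz => h1 N hN m m' hm hm' t
    (Subgroup.closure (Set.range t)) (fun i => Subgroup.subset_closure ⟨i, rfl⟩) hc y hy z hz⟩

/-- **(POW)** for words in finitely many elements generating a nilpotent subgroup -/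
theorem pow_nil {G : Type*} [Group G] {k : ℕ} (t : Fin k → G)
    (hnil : Group.IsNilpotent (Subgroup.closure (Set.range t)))
    {E : Type*} [NormedAddCommGroup E] [NormedSpace ℝ E] (hgt : G → E)
    (hmul : ∀ x y, hgt (x * y) = hgt x + hgt y)
    (hli : LinearIndependent ℝ fun i => hgt (t i)) : Star.Pow (Set.range t) hgt := by
  set K := Subgroup.closure (Set.range t) with hK
  let t' : Fin k → K := fun i => ⟨t i, Subgroup.subset_closure ⟨i, rfl⟩⟩
  have hr : Set.range t = K.subtype '' Set.range t' := by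
    rw [← Set.range_comp]; rfl
  have hcl : Subgroup.closure (Set.range t') = ⊤ := by
    refine Subgroup.map_injective K.subtype_injective ?_
    rw [MonoidHom.map_closure, ← hr, ← MonoidHom.range_eq_map, Subgroup.range_subtype]
  rw [hr]
  refine pow_map K.subtype ?_
  exact pow_top' t' hcl (fun x => hgt (K.subtype x)) (fun x y => by rw [map_mul, hmul]) hli

/-- **(UL)** the two-letter lemma, uniform in the group: in groups of class `≤ c`, conjugates by
long powers are short words in the two letters. -/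
theorem ul (c : ℕ) (δ : ℝ) (hδ : 0 < δ) : ∃ N0 : ℕ, ∀ N ≥ N0, ∀ j : ℕ, j ≤ N →
    ∀ {G : Type*} [Group G] (x y : G) (S : Subgroup G), x ∈ S → y ∈ S →
      S.lowerCentralSeries c = ⊥ →
      (∃ m : ℕ, (m : ℝ) ≤ δ * N ∧ y ^ j * x * (y ^ j)⁻¹ ∈ Star.Bl {x, y} m) ∧
      (∃ m : ℕ, (m : ℝ) ≤ δ * N ∧ (y ^ j)⁻¹ * x * y ^ j ∈ Star.Bl {x, y} m) := by
  obtain ⟨δ', hδ', N0, h1⟩ := slow_unif 2 c 1 δ hδ
  obtain ⟨N1, hN1⟩ := exists_nat_ge (1 / δ')
  refine ⟨max N0 N1, fun N hN j hj G _ x y S hx hy hS => ?_⟩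
  have hr : Set.range ![x, y] = {x, y} := by
    rw [Matrix.range_cons, Matrix.range_cons, Matrix.range_empty, Set.union_empty]
    rfl
  have h2 : ((1 : ℕ) : ℝ) ≤ δ' * N := by
    have h4 : (N1 : ℝ) ≤ N := by exact_mod_cast (le_max_right _ _).trans hN
    have h5 : 1 / δ' ≤ N := hN1.trans h4
    rw [div_le_iff₀ hδ'] at h5
    push_cast
    linarith
  have h3 : (j : ℝ) ≤ 1 * N := by rw [one_mul]; exact_mod_cast hj
  have hmem : ∀ i, (![x, y] : Fin 2 → G) i ∈ S := by
    intro i; fin_cases i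
    · exact hx
    · exact hy
  have hx1 : x ∈ Star.Bl (Set.range ![x, y]) 1 := ⟨[x], by simp, by simp [hr], by simp⟩
  have hy1 : y ∈ Star.Bl (Set.range ![x, y]) 1 := ⟨[y], by simp, by simp [hr], by simp⟩
  have hyj : y ^ j ∈ Star.Bl (Set.range ![x, y]) j := by
    have := Star.Bl_pow hy1 j
    rwa [mul_one] at this
  have hN' := (le_max_left N0 N1).trans hN
  refine ⟨?_, ?_⟩
  · obtain ⟨m, hm, h⟩ := h1 N hN' 1 j h2 h3 ![x, y] S hmem hS x hx1 _ (Star.Bl_inv hyj)
    rw [hr, inv_inv] at h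
    exact ⟨m, hm, h⟩
  · obtain ⟨m, hm, h⟩ := h1 N hN' 1 j h2 h3 ![x, y] S hmem hS x hx1 _ hyj
    rw [hr] at h
    exact ⟨m, hm, h⟩

end main

end Crest.Agent.R182.Slow
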